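import Vale.Agent.Lib.P154.PChain.BH.L

set_option linter.all false

namespace Vale.Agent.Lib.P154.PChain.BH.S0

open Vale.Agent.Lib.P154.Chain

noncomputable def pc0 : PT := (PT.nd (nat_lit 4887090) (PT.nd (nat_lit 4684134) (PT.nd (nat_lit 4602858) (PT.nd (nat_lit 4562220) (PT.nd (nat_lit 4521738) (PT.nd (nat_lit 4521660) PT.nil (PT.lf (nat_lit 76) (nat_lit 6) (nat_lit 1) (nat_lit 3) (nat_lit 139) (nat_lit 111) (nat_lit 140))) (PT.lf (nat_lit 76) (nat_lit 6) (nat_lit 1) (nat_lit 1) (nat_lit 140) (nat_lit 111) (nat_lit 139))) (PT.nd (nat_lit 78) (PT.lf (nat_lit 152) (nat_lit 6) (nat_lit 2) (nat_lit 3) (nat_lit 138) (nat_lit 112) (nat_lit 140)) (PT.nd (nat_lit 78) (PT.lf (nat_lit 228) (nat_lit 3) (nat_lit 3) (nat_lit 1) (nat_lit 139) (nat_lit 112) (nat_lit 139)) (PT.lf (nat_lit 152) (nat_lit 6) (nat_lit 2) (nat_lit 1) (nat_lit 140) (nat_lit 112) (nat_lit 138))))) (PT.nd (nat_lit 40638)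 (PT.nd (nat_lit 78) (PT.lf (nat_lit 304) (nat_lit 6) (nat_lit 4) (nat_lit 3) (nat_lit 138) (nat_lit 113) (nat_lit 139)) (PT.nd (nat_lit 40482) (PT.lf (nat_lit 304) (nat_lit 6) (nat_lit 4) (nat_lit 1) (nat_lit 139) (nat_lit 113) (nat_lit 138)) (PT.lf (nat_lit 380) (nat_lit 6) (nat_lit 5) (nat_lit 3) (nat_lit 137) (nat_lit 114) (nat_lit 139)))) (PT.nd (nat_lit 78) (PT.lf (nat_lit 456) (nat_lit 3) (nat_lit 6) (nat_lit 1) (nat_lit 138) (nat_lit 114) (nat_lit 138)) (PT.nd (nat_lit 40482) (PT.lf (nat_lit 380) (nat_lit 6) (nat_lit 5) (nat_lit 1) (nat_lit 139) (nat_lit 114) (nat_lit 137)) (PT.lf (nat_lit 532) (nat_lit 6) (nat_lit 7) (nat_lit 3) (nat_lit 137) (nat_lit 115) (nat_lit 138)))))) (PT.nd (nat_lit 121680) (PT.nd (nat_lit 40638) (PT.nd (nat_lit 40482) (PT.lf (nat_lit 532) (nat_lit 6) (nat_lit 7) (nat_lit 1) (nat_lit 138) (nat_lit 115) (nat_lit 137)) (PT.nd (nat_lit 78) (PT.lf (nat_lit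 608) (nat_lit 6) (nat_lit 8) (nat_lit 3) (nat_lit 136) (nat_lit 116) (nat_lit 138)) (PT.lf (nat_lit 684) (nat_lit 3) (nat_lit 9) (nat_lit 1) (nat_lit 137) (nat_lit 116) (nat_lit 137)))) (PT.nd (nat_lit 40482) (PT.lf (nat_lit 608) (nat_lit 6) (nat_lit 8) (nat_lit 1) (nat_lit 138) (nat_lit 116) (nat_lit 136)) (PT.nd (nat_lit 78) (PT.lf (nat_lit 760) (nat_lit 6) (nat_lit 10) (nat_lit 3) (nat_lit 136) (nat_lit 117) (nat_lit 137)) (PT.lf (nat_lit 760) (nat_lit 6) (nat_lit 10) (nat_lit 1) (nat_lit 137) (nat_lit 117) (nat_lit 136))))) (PT.nd (nat_lit 40638) (PT.nd (nat_lit 78) (PT.lf (nat_lit 836) (nat_lit 6) (nat_lit 11) (nat_lit 3) (nat_lit 135) (nat_lit 118) (nat_lit 137)) (PT.nd (nat_lit 78) (PT.lf (nat_lit 912) (nat_lit 3) (nat_lit 12) (nat_lit 1) (nat_lit 136) (nat_lit 118) (nat_lit 136)) (PT.lf (nat_lit 836) (nat_lit 6) (nat_lit 11) (nat_lit 1) (nat_lit 137) (nat_lit 118) (nat_lit 135))))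 (PT.nd (nat_lit 78) (PT.lf (nat_lit 988) (nat_lit 6) (nat_lit 13) (nat_lit 3) (nat_lit 135) (nat_lit 119) (nat_lit 136)) (PT.nd (nat_lit 40482) (PT.lf (nat_lit 988) (nat_lit 6) (nat_lit 13) (nat_lit 1) (nat_lit 136) (nat_lit 119) (nat_lit 135)) (PT.lf (nat_lit 1064) (nat_lit 6) (nat_lit 14) (nat_lit 3) (nat_lit 134) (nat_lit 120) (nat_lit 136))))))) (PT.nd (nat_lit 162318) (PT.nd (nat_lit 81198) (PT.nd (nat_lit 40560) (PT.nd (nat_lit 78) (PT.lf (nat_lit 1140) (nat_lit 3) (nat_lit 15) (nat_lit 1) (nat_lit 135) (nat_lit 120) (nat_lit 135)) (PT.lf (nat_lit 1064) (nat_lit 6) (nat_lit 14) (nat_lit 1) (nat_lit 136) (nat_lit 120) (nat_lit 134))) (PT.nd (nat_lit 78) (PT.lf (nat_lit 1216) (nat_lit 6) (nat_lit 16) (nat_lit 3) (nat_lit 134) (nat_lit 121) (nat_lit 135)) (PT.nd (nat_lit 40482) (PT.lf (nat_lit 1216) (nat_lit 6) (nat_lit 16) (nat_lit 1) (nat_lit 135) (nat_lit 121) (nat_lit 134)) (PT.lf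 (nat_lit 1292) (nat_lit 6) (nat_lit 17) (nat_lit 3) (nat_lit 133) (nat_lit 122) (nat_lit 135))))) (PT.nd (nat_lit 40560) (PT.nd (nat_lit 78) (PT.lf (nat_lit 1368) (nat_lit 3) (nat_lit 18) (nat_lit 1) (nat_lit 134) (nat_lit 122) (nat_lit 134)) (PT.nd (nat_lit 40404) (PT.lf (nat_lit 1292) (nat_lit 6) (nat_lit 17) (nat_lit 1) (nat_lit 135) (nat_lit 122) (nat_lit 133)) (PT.lf (nat_lit 1444) (nat_lit 6) (nat_lit 19) (nat_lit 3) (nat_lit 132) (nat_lit 123) (nat_lit 135)))) (PT.nd (nat_lit 78) (PT.lf (nat_lit 1520) (nat_lit 6) (nat_lit 20) (nat_lit 3) (nat_lit 133) (nat_lit 123) (nat_lit 134)) (PT.nd (nat_lit 78) (PT.lf (nat_lit 1520) (nat_lit 6) (nat_lit 20) (nat_lit 1) (nat_lit 134) (nat_lit 123) (nat_lit 133)) (PT.lf (nat_lit 1444) (nat_lit 6) (nat_lit 19) (nat_lit 1) (nat_lit 135) (nat_lit 123) (nat_lit 132)))))) (PT.nd (nat_lit 40794) (PT.nd (nat_lit 40560) (PT.nd (nat_lit 78) (PT.lf (nat_lit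 1596) (nat_lit 6) (nat_lit 21) (nat_lit 3) (nat_lit 132) (nat_lit 124) (nat_lit 134)) (PT.nd (nat_lit 78) (PT.lf (nat_lit 1672) (nat_lit 3) (nat_lit 22) (nat_lit 1) (nat_lit 133) (nat_lit 124) (nat_lit 133)) (PT.lf (nat_lit 1596) (nat_lit 6) (nat_lit 21) (nat_lit 1) (nat_lit 134) (nat_lit 124) (nat_lit 132)))) (PT.nd (nat_lit 78) (PT.lf (nat_lit 1748) (nat_lit 6) (nat_lit 23) (nat_lit 3) (nat_lit 131) (nat_lit 125) (nat_lit 134)) (PT.nd (nat_lit 78) (PT.lf (nat_lit 1824) (nat_lit 6) (nat_lit 24) (nat_lit 3) (nat_lit 132) (nat_lit 125) (nat_lit 133)) (PT.lf (nat_lit 1824) (nat_lit 6) (nat_lit 24) (nat_lit 1) (nat_lit 133) (nat_lit 125) (nat_lit 132))))) (PT.nd (nat_lit 40482) (PT.nd (nat_lit 40326) (PT.lf (nat_lit 1748) (nat_lit 6) (nat_lit 23) (nat_lit 1) (nat_lit 134) (nat_lit 125) (nat_lit 131)) (PT.nd (nat_lit 78) (PT.lf (nat_lit 2052) (nat_lit 6) (nat_lit 27) (nat_lit 3) (nat_lit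 130) (nat_lit 126) (nat_lit 134)) (PT.lf (nat_lit 2128) (nat_lit 6) (nat_lit 28) (nat_lit 3) (nat_lit 131) (nat_lit 126) (nat_lit 133)))) (PT.nd (nat_lit 78) (PT.lf (nat_lit 2204) (nat_lit 3) (nat_lit 29) (nat_lit 1) (nat_lit 132) (nat_lit 126) (nat_lit 132)) (PT.nd (nat_lit 78) (PT.lf (nat_lit 2128) (nat_lit 6) (nat_lit 28) (nat_lit 1) (nat_lit 133) (nat_lit 126) (nat_lit 131)) (PT.lf (nat_lit 2052) (nat_lit 6) (nat_lit 27) (nat_lit 1) (nat_lit 134) (nat_lit 126) (nat_lit 130))))))))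
noncomputable def pc1 : PT := (PT.nd (nat_lit 121836) (PT.nd (nat_lit 40950) (PT.nd (nat_lit 390) (PT.nd (nat_lit 156) (PT.nd (nat_lit 78) (PT.lf (nat_lit 1976) (nat_lit 6) (nat_lit 26) (nat_lit 3) (nat_lit 129) (nat_lit 127) (nat_lit 134)) (PT.lf (nat_lit 2356) (nat_lit 6) (nat_lit 31) (nat_lit 3) (nat_lit 130) (nat_lit 127) (nat_lit 133))) (PT.nd (nat_lit 78) (PT.lf (nat_lit 2432) (nat_lit 6) (nat_lit 32) (nat_lit 3) (nat_lit 131) (nat_lit 127) (nat_lit 132)) (PT.nd (nat_lit 78) (PT.lf (nat_lit 2432) (nat_lit 6) (nat_lit 32) (nat_lit 1) (nat_lit 132) (nat_lit 127) (nat_lit 131)) (PT.lf (nat_lit 2356) (nat_lit 6) (nat_lit 31) (nat_lit 1) (nat_lit 133) (nat_lit 127) (nat_lit 130))))) (PT.nd (nat_lit 40326) (PT.nd (nat_lit 40170) (PT.lf (nat_lit 1976) (nat_lit 6) (nat_lit 26) (nat_lit 1) (nat_lit 134) (nat_lit 127) (nat_lit 129)) (PT.nd (nat_lit 78) (PT.lf (nat_lit 1900) (nat_lit 3) (nat_lit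 25) (nat_lit 3) (nat_lit 128) (nat_lit 128) (nat_lit 134)) (PT.lf (nat_lit 2280) (nat_lit 6) (nat_lit 30) (nat_lit 3) (nat_lit 129) (nat_lit 128) (nat_lit 133)))) (PT.nd (nat_lit 78) (PT.lf (nat_lit 2584) (nat_lit 6) (nat_lit 34) (nat_lit 3) (nat_lit 130) (nat_lit 128) (nat_lit 132)) (PT.nd (nat_lit 78) (PT.lf (nat_lit 2660) (nat_lit 3) (nat_lit 35) (nat_lit 1) (nat_lit 131) (nat_lit 128) (nat_lit 131)) (PT.lf (nat_lit 2584) (nat_lit 6) (nat_lit 34) (nat_lit 1) (nat_lit 132) (nat_lit 128) (nat_lit 130)))))) (PT.nd (nat_lit 40482) (PT.nd (nat_lit 40248) (PT.nd (nat_lit 78) (PT.lf (nat_lit 2280) (nat_lit 6) (nat_lit 30) (nat_lit 1) (nat_lit 133) (nat_lit 128) (nat_lit 129)) (PT.nd (nat_lit 40092) (PT.lf (nat_lit 1900) (nat_lit 3) (nat_lit 25) (nat_lit 0) (nat_lit 134) (nat_lit 128) (nat_lit 128)) (PT.lf (nat_lit 1976) (nat_lit 6) (nat_lit 26) (nat_lit 5) (nat_lit 127) (nat_lit 129) (nat_lit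 134)))) (PT.nd (nat_lit 78) (PT.lf (nat_lit 2280) (nat_lit 6) (nat_lit 30) (nat_lit 5) (nat_lit 128) (nat_lit 129) (nat_lit 133)) (PT.nd (nat_lit 78) (PT.lf (nat_lit 2508) (nat_lit 3) (nat_lit 33) (nat_lit 3) (nat_lit 129) (nat_lit 129) (nat_lit 132)) (PT.lf (nat_lit 2736) (nat_lit 6) (nat_lit 36) (nat_lit 3) (nat_lit 130) (nat_lit 129) (nat_lit 131))))) (PT.nd (nat_lit 234) (PT.nd (nat_lit 78) (PT.lf (nat_lit 2736) (nat_lit 6) (nat_lit 36) (nat_lit 1) (nat_lit 131) (nat_lit 129) (nat_lit 130)) (PT.nd (nat_lit 78) (PT.lf (nat_lit 2508) (nat_lit 3) (nat_lit 33) (nat_lit 0) (nat_lit 132) (nat_lit 129) (nat_lit 129)) (PT.lf (nat_lit 2280) (nat_lit 6) (nat_lit 30) (nat_lit 0) (nat_lit 133) (nat_lit 129) (nat_lit 128)))) (PT.nd (nat_lit 40014) (PT.lf (nat_lit 1976) (nat_lit 6) (nat_lit 26) (nat_lit 0) (nat_lit 134) (nat_lit 129) (nat_lit 127)) (PT.nd (nat_lit 78) (PT.lf (nat_lit 2052) (nat_lit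 6) (nat_lit 27) (nat_lit 5) (nat_lit 126) (nat_lit 130) (nat_lit 134)) (PT.lf (nat_lit 2356) (nat_lit 6) (nat_lit 31) (nat_lit 5) (nat_lit 127) (nat_lit 130) (nat_lit 133))))))) (PT.nd (nat_lit 40716) (PT.nd (nat_lit 390) (PT.nd (nat_lit 156) (PT.nd (nat_lit 78) (PT.lf (nat_lit 2584) (nat_lit 6) (nat_lit 34) (nat_lit 5) (nat_lit 128) (nat_lit 130) (nat_lit 132)) (PT.lf (nat_lit 2736) (nat_lit 6) (nat_lit 36) (nat_lit 5) (nat_lit 129) (nat_lit 130) (nat_lit 131))) (PT.nd (nat_lit 78) (PT.lf (nat_lit 2812) (nat_lit 1) (nat_lit 37) (nat_lit 0) (nat_lit 130) (nat_lit 130) (nat_lit 130)) (PT.nd (nat_lit 78) (PT.lf (nat_lit 2736) (nat_lit 6) (nat_lit 36) (nat_lit 0) (nat_lit 131) (nat_lit 130) (nat_lit 129)) (PT.lf (nat_lit 2584) (nat_lit 6) (nat_lit 34) (nat_lit 0) (nat_lit 132) (nat_lit 130) (nat_lit 128))))) (PT.nd (nat_lit 40092) (PT.nd (nat_lit 78) (PT.lf (nat_lit 2356) (nat_lit 6) (nat_lit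 31) (nat_lit 0) (nat_lit 133) (nat_lit 130) (nat_lit 127)) (PT.nd (nat_lit 39936) (PT.lf (nat_lit 2052) (nat_lit 6) (nat_lit 27) (nat_lit 0) (nat_lit 134) (nat_lit 130) (nat_lit 126)) (PT.lf (nat_lit 1748) (nat_lit 6) (nat_lit 23) (nat_lit 5) (nat_lit 125) (nat_lit 131) (nat_lit 134)))) (PT.nd (nat_lit 78) (PT.lf (nat_lit 2128) (nat_lit 6) (nat_lit 28) (nat_lit 5) (nat_lit 126) (nat_lit 131) (nat_lit 133)) (PT.nd (nat_lit 78) (PT.lf (nat_lit 2432) (nat_lit 6) (nat_lit 32) (nat_lit 5) (nat_lit 127) (nat_lit 131) (nat_lit 132)) (PT.lf (nat_lit 2660) (nat_lit 3) (nat_lit 35) (nat_lit 4) (nat_lit 128) (nat_lit 131) (nat_lit 131)))))) (PT.nd (nat_lit 40170) (PT.nd (nat_lit 234) (PT.nd (nat_lit 78) (PT.lf (nat_lit 2736) (nat_lit 6) (nat_lit 36) (nat_lit 4) (nat_lit 129) (nat_lit 131) (nat_lit 130)) (PT.nd (nat_lit 78) (PT.lf (nat_lit 2736) (nat_lit 6) (nat_lit 36) (nat_lit 2) (nat_lit 130)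 (nat_lit 131) (nat_lit 129)) (PT.lf (nat_lit 2660) (nat_lit 3) (nat_lit 35) (nat_lit 0) (nat_lit 131) (nat_lit 131) (nat_lit 128)))) (PT.nd (nat_lit 78) (PT.lf (nat_lit 2432) (nat_lit 6) (nat_lit 32) (nat_lit 0) (nat_lit 132) (nat_lit 131) (nat_lit 127)) (PT.nd (nat_lit 78) (PT.lf (nat_lit 2128) (nat_lit 6) (nat_lit 28) (nat_lit 0) (nat_lit 133) (nat_lit 131) (nat_lit 126)) (PT.lf (nat_lit 1748) (nat_lit 6) (nat_lit 23) (nat_lit 0) (nat_lit 134) (nat_lit 131) (nat_lit 125))))) (PT.nd (nat_lit 234) (PT.nd (nat_lit 78) (PT.lf (nat_lit 1444) (nat_lit 6) (nat_lit 19) (nat_lit 5) (nat_lit 123) (nat_lit 132) (nat_lit 135)) (PT.nd (nat_lit 78) (PT.lf (nat_lit 1596) (nat_lit 6) (nat_lit 21) (nat_lit 5) (nat_lit 124) (nat_lit 132) (nat_lit 134)) (PT.lf (nat_lit 1824) (nat_lit 6) (nat_lit 24) (nat_lit 5) (nat_lit 125) (nat_lit 132) (nat_lit 133)))) (PT.nd (nat_lit 78) (PT.lf (nat_lit 2204) (nat_lit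 3) (nat_lit 29) (nat_lit 4) (nat_lit 126) (nat_lit 132) (nat_lit 132)) (PT.nd (nat_lit 78) (PT.lf (nat_lit 2432) (nat_lit 6) (nat_lit 32) (nat_lit 4) (nat_lit 127) (nat_lit 132) (nat_lit 131)) (PT.lf (nat_lit 2584) (nat_lit 6) (nat_lit 34) (nat_lit 4) (nat_lit 128) (nat_lit 132) (nat_lit 130))))))))
noncomputable def pc2 : PT := (PT.nd (nat_lit 80730) (PT.nd (nat_lit 40404) (PT.nd (nat_lit 390) (PT.nd (nat_lit 156) (PT.nd (nat_lit 78) (PT.lf (nat_lit 2508) (nat_lit 3) (nat_lit 33) (nat_lit 2) (nat_lit 129) (nat_lit 132) (nat_lit 129)) (PT.lf (nat_lit 2584) (nat_lit 6) (nat_lit 34) (nat_lit 2) (nat_lit 130) (nat_lit 132) (nat_lit 128))) (PT.nd (nat_lit 78) (PT.lf (nat_lit 2432) (nat_lit 6) (nat_lit 32) (nat_lit 2) (nat_lit 131) (nat_lit 132) (nat_lit 127)) (PT.nd (nat_lit 78) (PT.lf (nat_lit 2204) (nat_lit 3) (nat_lit 29) (nat_lit 0) (nat_lit 132) (nat_lit 132) (nat_lit 126)) (PT.lf (nat_lit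 1824) (nat_lit 6) (nat_lit 24) (nat_lit 0) (nat_lit 133) (nat_lit 132) (nat_lit 125))))) (PT.nd (nat_lit 39780) (PT.nd (nat_lit 78) (PT.lf (nat_lit 1596) (nat_lit 6) (nat_lit 21) (nat_lit 0) (nat_lit 134) (nat_lit 132) (nat_lit 124)) (PT.nd (nat_lit 39624) (PT.lf (nat_lit 1444) (nat_lit 6) (nat_lit 19) (nat_lit 0) (nat_lit 135) (nat_lit 132) (nat_lit 123)) (PT.lf (nat_lit 1292) (nat_lit 6) (nat_lit 17) (nat_lit 5) (nat_lit 122) (nat_lit 133) (nat_lit 135)))) (PT.nd (nat_lit 78) (PT.lf (nat_lit 1520) (nat_lit 6) (nat_lit 20) (nat_lit 5) (nat_lit 123) (nat_lit 133) (nat_lit 134)) (PT.nd (nat_lit 78) (PT.lf (nat_lit 1672) (nat_lit 3) (nat_lit 22) (nat_lit 4) (nat_lit 124) (nat_lit 133) (nat_lit 133)) (PT.lf (nat_lit 1824) (nat_lit 6) (nat_lit 24) (nat_lit 4) (nat_lit 125) (nat_lit 133) (nat_lit 132)))))) (PT.nd (nat_lit 468) (PT.nd (nat_lit 234) (PT.nd (nat_lit 78) (PT.lf (nat_lit 2128)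 (nat_lit 6) (nat_lit 28) (nat_lit 4) (nat_lit 126) (nat_lit 133) (nat_lit 131)) (PT.nd (nat_lit 78) (PT.lf (nat_lit 2356) (nat_lit 6) (nat_lit 31) (nat_lit 4) (nat_lit 127) (nat_lit 133) (nat_lit 130)) (PT.lf (nat_lit 2280) (nat_lit 6) (nat_lit 30) (nat_lit 4) (nat_lit 128) (nat_lit 133) (nat_lit 129)))) (PT.nd (nat_lit 78) (PT.lf (nat_lit 2280) (nat_lit 6) (nat_lit 30) (nat_lit 2) (nat_lit 129) (nat_lit 133) (nat_lit 128)) (PT.nd (nat_lit 78) (PT.lf (nat_lit 2356) (nat_lit 6) (nat_lit 31) (nat_lit 2) (nat_lit 130) (nat_lit 133) (nat_lit 127)) (PT.lf (nat_lit 2128) (nat_lit 6) (nat_lit 28) (nat_lit 2) (nat_lit 131) (nat_lit 133) (nat_lit 126))))) (PT.nd (nat_lit 234) (PT.nd (nat_lit 78) (PT.lf (nat_lit 1824) (nat_lit 6) (nat_lit 24) (nat_lit 2) (nat_lit 132) (nat_lit 133) (nat_lit 125)) (PT.nd (nat_lit 78) (PT.lf (nat_lit 1672) (nat_lit 3) (nat_lit 22) (nat_lit 0) (nat_lit 133) (nat_lit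 133) (nat_lit 124)) (PT.lf (nat_lit 1520) (nat_lit 6) (nat_lit 20) (nat_lit 0) (nat_lit 134) (nat_lit 133) (nat_lit 123)))) (PT.nd (nat_lit 39468) (PT.lf (nat_lit 1292) (nat_lit 6) (nat_lit 17) (nat_lit 0) (nat_lit 135) (nat_lit 133) (nat_lit 122)) (PT.nd (nat_lit 78) (PT.lf (nat_lit 1064) (nat_lit 6) (nat_lit 14) (nat_lit 5) (nat_lit 120) (nat_lit 134) (nat_lit 136)) (PT.lf (nat_lit 1216) (nat_lit 6) (nat_lit 16) (nat_lit 5) (nat_lit 121) (nat_lit 134) (nat_lit 135))))))) (PT.nd (nat_lit 858) (PT.nd (nat_lit 390) (PT.nd (nat_lit 156) (PT.nd (nat_lit 78) (PT.lf (nat_lit 1368) (nat_lit 3) (nat_lit 18) (nat_lit 4) (nat_lit 122) (nat_lit 134) (nat_lit 134)) (PT.lf (nat_lit 1520) (nat_lit 6) (nat_lit 20) (nat_lit 4) (nat_lit 123) (nat_lit 134) (nat_lit 133))) (PT.nd (nat_lit 78) (PT.lf (nat_lit 1596) (nat_lit 6) (nat_lit 21) (nat_lit 4) (nat_lit 124) (nat_lit 134) (nat_lit 132)) (PT.nd (nat_lit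 78) (PT.lf (nat_lit 1748) (nat_lit 6) (nat_lit 23) (nat_lit 4) (nat_lit 125) (nat_lit 134) (nat_lit 131)) (PT.lf (nat_lit 2052) (nat_lit 6) (nat_lit 27) (nat_lit 4) (nat_lit 126) (nat_lit 134) (nat_lit 130))))) (PT.nd (nat_lit 234) (PT.nd (nat_lit 78) (PT.lf (nat_lit 1976) (nat_lit 6) (nat_lit 26) (nat_lit 4) (nat_lit 127) (nat_lit 134) (nat_lit 129)) (PT.nd (nat_lit 78) (PT.lf (nat_lit 1900) (nat_lit 3) (nat_lit 25) (nat_lit 2) (nat_lit 128) (nat_lit 134) (nat_lit 128)) (PT.lf (nat_lit 1976) (nat_lit 6) (nat_lit 26) (nat_lit 2) (nat_lit 129) (nat_lit 134) (nat_lit 127)))) (PT.nd (nat_lit 78) (PT.lf (nat_lit 2052) (nat_lit 6) (nat_lit 27) (nat_lit 2) (nat_lit 130) (nat_lit 134) (nat_lit 126)) (PT.nd (nat_lit 78) (PT.lf (nat_lit 1748) (nat_lit 6) (nat_lit 23) (nat_lit 2) (nat_lit 131) (nat_lit 134) (nat_lit 125)) (PT.lf (nat_lit 1596) (nat_lit 6) (nat_lit 21) (nat_lit 2) (nat_lit 132)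 (nat_lit 134) (nat_lit 124)))))) (PT.nd (nat_lit 39624) (PT.nd (nat_lit 234) (PT.nd (nat_lit 78) (PT.lf (nat_lit 1520) (nat_lit 6) (nat_lit 20) (nat_lit 2) (nat_lit 133) (nat_lit 134) (nat_lit 123)) (PT.nd (nat_lit 78) (PT.lf (nat_lit 1368) (nat_lit 3) (nat_lit 18) (nat_lit 0) (nat_lit 134) (nat_lit 134) (nat_lit 122)) (PT.lf (nat_lit 1216) (nat_lit 6) (nat_lit 16) (nat_lit 0) (nat_lit 135) (nat_lit 134) (nat_lit 121)))) (PT.nd (nat_lit 39234) (PT.lf (nat_lit 1064) (nat_lit 6) (nat_lit 14) (nat_lit 0) (nat_lit 136) (nat_lit 134) (nat_lit 120)) (PT.nd (nat_lit 78) (PT.lf (nat_lit 836) (nat_lit 6) (nat_lit 11) (nat_lit 5) (nat_lit 118) (nat_lit 135) (nat_lit 137)) (PT.lf (nat_lit 988) (nat_lit 6) (nat_lit 13) (nat_lit 5) (nat_lit 119) (nat_lit 135) (nat_lit 136))))) (PT.nd (nat_lit 234) (PT.nd (nat_lit 78) (PT.lf (nat_lit 1140) (nat_lit 3) (nat_lit 15) (nat_lit 4) (nat_lit 120) (nat_lit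 135) (nat_lit 135)) (PT.nd (nat_lit 78) (PT.lf (nat_lit 1216) (nat_lit 6) (nat_lit 16) (nat_lit 4) (nat_lit 121) (nat_lit 135) (nat_lit 134)) (PT.lf (nat_lit 1292) (nat_lit 6) (nat_lit 17) (nat_lit 4) (nat_lit 122) (nat_lit 135) (nat_lit 133)))) (PT.nd (nat_lit 702) (PT.lf (nat_lit 1444) (nat_lit 6) (nat_lit 19) (nat_lit 4) (nat_lit 123) (nat_lit 135) (nat_lit 132)) (PT.nd (nat_lit 78) (PT.lf (nat_lit 1444) (nat_lit 6) (nat_lit 19) (nat_lit 2) (nat_lit 132) (nat_lit 135) (nat_lit 123)) (PT.lf (nat_lit 1292) (nat_lit 6) (nat_lit 17) (nat_lit 2) (nat_lit 133) (nat_lit 135) (nat_lit 122))))))))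
noncomputable def pc3 : PT := (PT.nd (nat_lit 81666) (PT.nd (nat_lit 40794) (PT.nd (nat_lit 39312) (PT.nd (nat_lit 156) (PT.nd (nat_lit 78) (PT.lf (nat_lit 1216) (nat_lit 6) (nat_lit 16) (nat_lit 2) (nat_lit 134) (nat_lit 135) (nat_lit 121)) (PT.lf (nat_lit 1140) (nat_lit 3) (nat_lit 15) (nat_lit 0) (nat_lit 135) (nat_lit 135) (nat_lit 120))) (PT.nd (nat_lit 78) (PT.lf (nat_lit 988) (nat_lit 6) (nat_lit 13) (nat_lit 0) (nat_lit 136) (nat_lit 135) (nat_lit 119)) (PT.nd (nat_lit 39000) (PT.lf (nat_lit 836) (nat_lit 6) (nat_lit 11) (nat_lit 0) (nat_lit 137) (nat_lit 135) (nat_lit 118)) (PT.lf (nat_lit 608) (nat_lit 6) (nat_lit 8) (nat_lit 5) (nat_lit 116) (nat_lit 136) (nat_lit 138))))) (PT.nd (nat_lit 234) (PT.nd (nat_lit 78) (PT.lf (nat_lit 760) (nat_lit 6) (nat_lit 10) (nat_lit 5) (nat_lit 117) (nat_lit 136) (nat_lit 137)) (PT.nd (nat_lit 78) (PT.lf (nat_lit 912) (nat_lit 3) (nat_lit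 12) (nat_lit 4) (nat_lit 118) (nat_lit 136) (nat_lit 136)) (PT.lf (nat_lit 988) (nat_lit 6) (nat_lit 13) (nat_lit 4) (nat_lit 119) (nat_lit 136) (nat_lit 135)))) (PT.nd (nat_lit 1092) (PT.lf (nat_lit 1064) (nat_lit 6) (nat_lit 14) (nat_lit 4) (nat_lit 120) (nat_lit 136) (nat_lit 134)) (PT.nd (nat_lit 78) (PT.lf (nat_lit 1064) (nat_lit 6) (nat_lit 14) (nat_lit 2) (nat_lit 134) (nat_lit 136) (nat_lit 120)) (PT.lf (nat_lit 988) (nat_lit 6) (nat_lit 13) (nat_lit 2) (nat_lit 135) (nat_lit 136) (nat_lit 119)))))) (PT.nd (nat_lit 39156) (PT.nd (nat_lit 38922) (PT.nd (nat_lit 78) (PT.lf (nat_lit 912) (nat_lit 3) (nat_lit 12) (nat_lit 0) (nat_lit 136) (nat_lit 136) (nat_lit 118)) (PT.nd (nat_lit 78) (PT.lf (nat_lit 760) (nat_lit 6) (nat_lit 10) (nat_lit 0) (nat_lit 137) (nat_lit 136) (nat_lit 117)) (PT.lf (nat_lit 608) (nat_lit 6) (nat_lit 8) (nat_lit 0) (nat_lit 138) (nat_lit 136) (nat_lit 116))))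 (PT.nd (nat_lit 78) (PT.lf (nat_lit 380) (nat_lit 6) (nat_lit 5) (nat_lit 5) (nat_lit 114) (nat_lit 137) (nat_lit 139)) (PT.nd (nat_lit 78) (PT.lf (nat_lit 532) (nat_lit 6) (nat_lit 7) (nat_lit 5) (nat_lit 115) (nat_lit 137) (nat_lit 138)) (PT.lf (nat_lit 684) (nat_lit 3) (nat_lit 9) (nat_lit 4) (nat_lit 116) (nat_lit 137) (nat_lit 137))))) (PT.nd (nat_lit 1482) (PT.nd (nat_lit 78) (PT.lf (nat_lit 760) (nat_lit 6) (nat_lit 10) (nat_lit 4) (nat_lit 117) (nat_lit 137) (nat_lit 136)) (PT.nd (nat_lit 1326) (PT.lf (nat_lit 836) (nat_lit 6) (nat_lit 11) (nat_lit 4) (nat_lit 118) (nat_lit 137) (nat_lit 135)) (PT.lf (nat_lit 836) (nat_lit 6) (nat_lit 11) (nat_lit 2) (nat_lit 135) (nat_lit 137) (nat_lit 118)))) (PT.nd (nat_lit 78) (PT.lf (nat_lit 760) (nat_lit 6) (nat_lit 10) (nat_lit 2) (nat_lit 136) (nat_lit 137) (nat_lit 117)) (PT.nd (nat_lit 78) (PT.lf (nat_lit 684) (nat_lit 3) (nat_lit 9)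 (nat_lit 0) (nat_lit 137) (nat_lit 137) (nat_lit 116)) (PT.lf (nat_lit 532) (nat_lit 6) (nat_lit 7) (nat_lit 0) (nat_lit 138) (nat_lit 137) (nat_lit 115))))))) (PT.nd (nat_lit 79092) (PT.nd (nat_lit 38844) (PT.nd (nat_lit 38610) (PT.nd (nat_lit 38532) (PT.lf (nat_lit 380) (nat_lit 6) (nat_lit 5) (nat_lit 0) (nat_lit 139) (nat_lit 137) (nat_lit 114)) (PT.lf (nat_lit 152) (nat_lit 6) (nat_lit 2) (nat_lit 5) (nat_lit 112) (nat_lit 138) (nat_lit 140))) (PT.nd (nat_lit 78) (PT.lf (nat_lit 304) (nat_lit 6) (nat_lit 4) (nat_lit 5) (nat_lit 113) (nat_lit 138) (nat_lit 139)) (PT.nd (nat_lit 78) (PT.lf (nat_lit 456) (nat_lit 3) (nat_lit 6) (nat_lit 4) (nat_lit 114) (nat_lit 138) (nat_lit 138)) (PT.lf (nat_lit 532) (nat_lit 6) (nat_lit 7) (nat_lit 4) (nat_lit 115) (nat_lit 138) (nat_lit 137))))) (PT.nd (nat_lit 1716) (PT.nd (nat_lit 1560) (PT.lf (nat_lit 608) (nat_lit 6) (nat_lit 8) (nat_lit 4)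 (nat_lit 116) (nat_lit 138) (nat_lit 136)) (PT.nd (nat_lit 78) (PT.lf (nat_lit 608) (nat_lit 6) (nat_lit 8) (nat_lit 2) (nat_lit 136) (nat_lit 138) (nat_lit 116)) (PT.lf (nat_lit 532) (nat_lit 6) (nat_lit 7) (nat_lit 2) (nat_lit 137) (nat_lit 138) (nat_lit 115)))) (PT.nd (nat_lit 78) (PT.lf (nat_lit 456) (nat_lit 3) (nat_lit 6) (nat_lit 0) (nat_lit 138) (nat_lit 138) (nat_lit 114)) (PT.nd (nat_lit 78) (PT.lf (nat_lit 304) (nat_lit 6) (nat_lit 4) (nat_lit 0) (nat_lit 139) (nat_lit 138) (nat_lit 113)) (PT.lf (nat_lit 152) (nat_lit 6) (nat_lit 2) (nat_lit 0) (nat_lit 140) (nat_lit 138) (nat_lit 112)))))) (PT.nd (nat_lit 2184) (PT.nd (nat_lit 234) (PT.nd (nat_lit 78) (PT.lf (nat_lit 76) (nat_lit 6) (nat_lit 1) (nat_lit 5) (nat_lit 111) (nat_lit 139) (nat_lit 140)) (PT.nd (nat_lit 78) (PT.lf (nat_lit 228) (nat_lit 3) (nat_lit 3) (nat_lit 4) (nat_lit 112) (nat_lit 139) (nat_lit 139)) (PT.lf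 (nat_lit 304) (nat_lit 6) (nat_lit 4) (nat_lit 4) (nat_lit 113) (nat_lit 139) (nat_lit 138)))) (PT.nd (nat_lit 1794) (PT.lf (nat_lit 380) (nat_lit 6) (nat_lit 5) (nat_lit 4) (nat_lit 114) (nat_lit 139) (nat_lit 137)) (PT.nd (nat_lit 78) (PT.lf (nat_lit 380) (nat_lit 6) (nat_lit 5) (nat_lit 2) (nat_lit 137) (nat_lit 139) (nat_lit 114)) (PT.lf (nat_lit 304) (nat_lit 6) (nat_lit 4) (nat_lit 2) (nat_lit 138) (nat_lit 139) (nat_lit 113))))) (PT.nd (nat_lit 38532) (PT.nd (nat_lit 78) (PT.lf (nat_lit 228) (nat_lit 3) (nat_lit 3) (nat_lit 0) (nat_lit 139) (nat_lit 139) (nat_lit 112)) (PT.nd (nat_lit 38376) (PT.lf (nat_lit 76) (nat_lit 6) (nat_lit 1) (nat_lit 0) (nat_lit 140) (nat_lit 139) (nat_lit 111)) (PT.lf (nat_lit 76) (nat_lit 6) (nat_lit 1) (nat_lit 4) (nat_lit 111) (nat_lit 140) (nat_lit 139)))) (PT.nd (nat_lit 2028) (PT.lf (nat_lit 152) (nat_lit 6) (nat_lit 2) (nat_lit 4) (nat_lit 112)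 (nat_lit 140) (nat_lit 138)) (PT.nd (nat_lit 78) (PT.lf (nat_lit 152) (nat_lit 6) (nat_lit 2) (nat_lit 2) (nat_lit 138) (nat_lit 140) (nat_lit 112)) (PT.lf (nat_lit 76) (nat_lit 6) (nat_lit 1) (nat_lit 2) (nat_lit 139) (nat_lit 140) (nat_lit 111))))))))
noncomputable def xc0 : XT := (XT.nd (nat_lit 485784) (nat_lit 0) (nat_lit 0) (XT.nd (nat_lit 364572) (nat_lit 0) (nat_lit 0) (XT.nd (nat_lit 323934) (nat_lit 0) (nat_lit 0) (XT.nd (nat_lit 40638) (nat_lit 0) (nat_lit 0) (XT.nd (nat_lit 78) (nat_lit 0) (nat_lit 0) (XT.lf (nat_lit 0) (nat_lit 124982391183446) (nat_lit 152) (nat_lit 1357861070971965) (nat_lit 0) (nat_lit 124982391183445) (nat_lit 1) (nat_lit 5) (nat_lit 3) (nat_lit 4) (nat_lit 1) (nat_lit 4) (nat_lit 368) (nat_lit 206) (nat_lit 206)) (XT.lf (nat_lit 0) (nat_lit 287459521461272) (nat_lit 152) (nat_lit 3123080416827517) (nat_lit 0) (nat_lit 287459521055030) (nat_lit 1) (nat_lit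 5) (nat_lit 3) (nat_lit 4) (nat_lit 1) (nat_lit 4) (nat_lit 369) (nat_lit 206) (nat_lit 205))) (XT.nd (nat_lit 242736) (nat_lit 0) (nat_lit 0) (XT.lf (nat_lit 0) (nat_lit 249964781824686) (nat_lit 152) (nat_lit 2715722144053382) (nat_lit 0) (nat_lit 249964780951262) (nat_lit 1) (nat_lit 5) (nat_lit 3) (nat_lit 4) (nat_lit 1) (nat_lit 4) (nat_lit 368) (nat_lit 207) (nat_lit 205)) (XT.nd (nat_lit 40482) (nat_lit 0) (nat_lit 0) (XT.lf (nat_lit 0) (nat_lit 17663467598527) (nat_lit 152) (nat_lit 191904954448751) (nat_lit 0) (nat_lit 17663467598527) (nat_lit 1) (nat_lit 5) (nat_lit 3) (nat_lit 4) (nat_lit 1) (nat_lit 4) (nat_lit 354) (nat_lit 213) (nat_lit 213)) (XT.lf (nat_lit 0) (nat_lit 13356066748585) (nat_lit 152) (nat_lit 145107828985028) (nat_lit 0) (nat_lit 13356066748585) (nat_lit 1) (nat_lit 5) (nat_lit 3) (nat_lit 4) (nat_lit 1) (nat_lit 4) (nat_lit 352) (nat_lit 214) (nat_lit 214)))))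 (XT.nd (nat_lit 40404) (nat_lit 0) (nat_lit 0) (XT.nd (nat_lit 78) (nat_lit 0) (nat_lit 0) (XT.lf (nat_lit 0) (nat_lit 30719020022905) (nat_lit 152) (nat_lit 333747864702418) (nat_lit 0) (nat_lit 30719018780198) (nat_lit 1) (nat_lit 5) (nat_lit 3) (nat_lit 4) (nat_lit 1) (nat_lit 4) (nat_lit 353) (nat_lit 214) (nat_lit 213)) (XT.lf (nat_lit 0) (nat_lit 35326933754769) (nat_lit 152) (nat_lit 383809914508694) (nat_lit 0) (nat_lit 35326931431449) (nat_lit 1) (nat_lit 5) (nat_lit 3) (nat_lit 4) (nat_lit 1) (nat_lit 4) (nat_lit 354) (nat_lit 214) (nat_lit 212))) (XT.nd (nat_lit 78) (nat_lit 0) (nat_lit 0) (XT.lf (nat_lit 0) (nat_lit 10099045010611) (nat_lit 152) (nat_lit 109722495861299) (nat_lit 0) (nat_lit 10099045010611) (nat_lit 1) (nat_lit 5) (nat_lit 3) (nat_lit 4) (nat_lit 1) (nat_lit 4) (nat_lit 350) (nat_lit 215) (nat_lit 215)) (XT.nd (nat_lit 78) (nat_lit 0) (nat_lit 0) (XT.lf (nat_lit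 0) (nat_lit 23227880000739) (nat_lit 152) (nat_lit 252361577223369) (nat_lit 0) (nat_lit 23227878571627) (nat_lit 1) (nat_lit 5) (nat_lit 3) (nat_lit 4) (nat_lit 1) (nat_lit 4) (nat_lit 351) (nat_lit 215) (nat_lit 214)) (XT.lf (nat_lit 0) (nat_lit 26712131838543) (nat_lit 152) (nat_lit 290215664422926) (nat_lit 0) (nat_lit 26712129166724) (nat_lit 1) (nat_lit 5) (nat_lit 3) (nat_lit 4) (nat_lit 1) (nat_lit 4) (nat_lit 352) (nat_lit 215) (nat_lit 213)))))) (XT.nd (nat_lit 80730) (nat_lit 0) (nat_lit 0) (XT.nd (nat_lit 40404) (nat_lit 0) (nat_lit 0) (XT.nd (nat_lit 40248) (nat_lit 0) (nat_lit 0) (XT.lf (nat_lit 0) (nat_lit 30719015679287) (nat_lit 152) (nat_lit 333747876766479) (nat_lit 0) (nat_lit 30719011926854) (nat_lit 1) (nat_lit 5) (nat_lit 3) (nat_lit 4) (nat_lit 1) (nat_lit 4) (nat_lit 353) (nat_lit 215) (nat_lit 212)) (XT.lf (nat_lit 0) (nat_lit 7636259606996) (nat_lit 152) (nat_lit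 82966119789467) (nat_lit 0) (nat_lit 7636259606996) (nat_lit 1) (nat_lit 5) (nat_lit 3) (nat_lit 4) (nat_lit 1) (nat_lit 4) (nat_lit 348) (nat_lit 216) (nat_lit 216))) (XT.nd (nat_lit 78) (nat_lit 0) (nat_lit 0) (XT.lf (nat_lit 0) (nat_lit 20198088113801) (nat_lit 152) (nat_lit 219444999143400) (nat_lit 0) (nat_lit 20198085041210) (nat_lit 1) (nat_lit 5) (nat_lit 3) (nat_lit 4) (nat_lit 1) (nat_lit 4) (nat_lit 350) (nat_lit 216) (nat_lit 214)) (XT.nd (nat_lit 78) (nat_lit 0) (nat_lit 0) (XT.lf (nat_lit 0) (nat_lit 23227875005578) (nat_lit 152) (nat_lit 252361591097040) (nat_lit 0) (nat_lit 23227870690280) (nat_lit 1) (nat_lit 5) (nat_lit 3) (nat_lit 4) (nat_lit 1) (nat_lit 4) (nat_lit 351) (nat_lit 216) (nat_lit 213)) (XT.lf (nat_lit 0) (nat_lit 26712124158391) (nat_lit 152) (nat_lit 290215683907789) (nat_lit 0) (nat_lit 26712118762479) (nat_lit 1) (nat_lit 5) (nat_lit 3) (nat_lit 4)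 (nat_lit 1) (nat_lit 4) (nat_lit 352) (nat_lit 216) (nat_lit 212))))) (XT.nd (nat_lit 156) (nat_lit 0) (nat_lit 0) (XT.nd (nat_lit 78) (nat_lit 0) (nat_lit 0) (XT.lf (nat_lit 0) (nat_lit 5774029621612) (nat_lit 152) (nat_lit 62734477870533) (nat_lit 0) (nat_lit 5774029621612) (nat_lit 1) (nat_lit 5) (nat_lit 3) (nat_lit 4) (nat_lit 1) (nat_lit 4) (nat_lit 346) (nat_lit 217) (nat_lit 217)) (XT.lf (nat_lit 0) (nat_lit 13280369269660) (nat_lit 152) (nat_lit 144289083194024) (nat_lit 0) (nat_lit 13280367379659) (nat_lit 1) (nat_lit 5) (nat_lit 3) (nat_lit 4) (nat_lit 1) (nat_lit 4) (nat_lit 347) (nat_lit 217) (nat_lit 216))) (XT.nd (nat_lit 156) (nat_lit 0) (nat_lit 0) (XT.lf (nat_lit 0) (nat_lit 15272517020457) (nat_lit 152) (nat_lit 165932248112856) (nat_lit 0) (nat_lit 15272513486977) (nat_lit 1) (nat_lit 5) (nat_lit 3) (nat_lit 4) (nat_lit 1) (nat_lit 4) (nat_lit 348) (nat_lit 217) (nat_lit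 215)) (XT.nd (nat_lit 78) (nat_lit 0) (nat_lit 0) (XT.lf (nat_lit 0) (nat_lit 20198079281627) (nat_lit 152) (nat_lit 219445021550992) (nat_lit 0) (nat_lit 20198073076328) (nat_lit 1) (nat_lit 5) (nat_lit 3) (nat_lit 4) (nat_lit 1) (nat_lit 4) (nat_lit 350) (nat_lit 217) (nat_lit 213)) (XT.lf (nat_lit 0) (nat_lit 23227863488413) (nat_lit 152) (nat_lit 252361619115824) (nat_lit 0) (nat_lit 23227856202499) (nat_lit 1) (nat_lit 5) (nat_lit 3) (nat_lit 4) (nat_lit 1) (nat_lit 4) (nat_lit 351) (nat_lit 217) (nat_lit 212))))))) (XT.nd (nat_lit 40872) (nat_lit 0) (nat_lit 0) (XT.nd (nat_lit 40482) (nat_lit 0) (nat_lit 0) (XT.nd (nat_lit 156) (nat_lit 0) (nat_lit 0) (XT.nd (nat_lit 78) (nat_lit 0) (nat_lit 0) (XT.lf (nat_lit 0) (nat_lit 4365904252807) (nat_lit 152) (nat_lit 47436475723245) (nat_lit 0) (nat_lit 4365904252807) (nat_lit 1) (nat_lit 5) (nat_lit 3) (nat_lit 4) (nat_lit 1) (nat_lit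 4) (nat_lit 344) (nat_lit 218) (nat_lit 218)) (XT.lf (nat_lit 0) (nat_lit 10041696092400) (nat_lit 152) (nat_lit 109103645869032) (nat_lit 0) (nat_lit 10041693918898) (nat_lit 1) (nat_lit 5) (nat_lit 3) (nat_lit 4) (nat_lit 1) (nat_lit 4) (nat_lit 345) (nat_lit 218) (nat_lit 217))) (XT.nd (nat_lit 78) (nat_lit 0) (nat_lit 0) (XT.lf (nat_lit 0) (nat_lit 11548056720661) (nat_lit 152) (nat_lit 125468965555075) (nat_lit 0) (nat_lit 11548052657158) (nat_lit 1) (nat_lit 5) (nat_lit 3) (nat_lit 4) (nat_lit 1) (nat_lit 4) (nat_lit 346) (nat_lit 218) (nat_lit 216)) (XT.nd (nat_lit 234) (nat_lit 0) (nat_lit 0) (XT.lf (nat_lit 0) (nat_lit 13280362663559) (nat_lit 152) (nat_lit 144289101541955) (nat_lit 0) (nat_lit 13280356956578) (nat_lit 1) (nat_lit 5) (nat_lit 3) (nat_lit 4) (nat_lit 1) (nat_lit 4) (nat_lit 347) (nat_lit 218) (nat_lit 215)) (XT.lf (nat_lit 0) (nat_lit 20198063351896) (nat_lit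 152) (nat_lit 219445059383785) (nat_lit 0) (nat_lit 20198053892481) (nat_lit 1) (nat_lit 5) (nat_lit 3) (nat_lit 4) (nat_lit 1) (nat_lit 4) (nat_lit 350) (nat_lit 218) (nat_lit 212))))) (XT.nd (nat_lit 156) (nat_lit 0) (nat_lit 0) (XT.nd (nat_lit 78) (nat_lit 0) (nat_lit 0) (XT.lf (nat_lit 0) (nat_lit 3301145420371) (nat_lit 152) (nat_lit 35869017911322) (nat_lit 0) (nat_lit 3301145420371) (nat_lit 1) (nat_lit 5) (nat_lit 3) (nat_lit 4) (nat_lit 1) (nat_lit 4) (nat_lit 342) (nat_lit 219) (nat_lit 219)) (XT.lf (nat_lit 0) (nat_lit 7592768224438) (nat_lit 152) (nat_lit 82498455657444) (nat_lit 0) (nat_lit 7592765724912) (nat_lit 1) (nat_lit 5) (nat_lit 3) (nat_lit 4) (nat_lit 1) (nat_lit 4) (nat_lit 343) (nat_lit 219) (nat_lit 218))) (XT.nd (nat_lit 78) (nat_lit 0) (nat_lit 0) (XT.lf (nat_lit 0) (nat_lit 8731805604665) (nat_lit 152) (nat_lit 94872962732601) (nat_lit 0) (nat_lit 8731800931637)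 (nat_lit 1) (nat_lit 5) (nat_lit 3) (nat_lit 4) (nat_lit 1) (nat_lit 4) (nat_lit 344) (nat_lit 219) (nat_lit 217)) (XT.nd (nat_lit 78) (nat_lit 0) (nat_lit 0) (XT.lf (nat_lit 0) (nat_lit 10041688495384) (nat_lit 152) (nat_lit 109103666969152) (nat_lit 0) (nat_lit 10041681932356) (nat_lit 1) (nat_lit 5) (nat_lit 3) (nat_lit 4) (nat_lit 1) (nat_lit 4) (nat_lit 345) (nat_lit 219) (nat_lit 216)) (XT.lf (nat_lit 0) (nat_lit 11548045040110) (nat_lit 152) (nat_lit 125468995189116) (nat_lit 0) (nat_lit 11548036833602) (nat_lit 1) (nat_lit 5) (nat_lit 3) (nat_lit 4) (nat_lit 1) (nat_lit 4) (nat_lit 346) (nat_lit 219) (nat_lit 215)))))) (XT.nd (nat_lit 40404) (nat_lit 0) (nat_lit 0) (XT.nd (nat_lit 40170) (nat_lit 0) (nat_lit 0) (XT.nd (nat_lit 40092) (nat_lit 0) (nat_lit 0) (XT.lf (nat_lit 0) (nat_lit 13280347432108) (nat_lit 152) (nat_lit 144289138596796) (nat_lit 0) (nat_lit 13280337796487)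 (nat_lit 1) (nat_lit 5) (nat_lit 3) (nat_lit 4) (nat_lit 1) (nat_lit 4) (nat_lit 347) (nat_lit 219) (nat_lit 214)) (XT.lf (nat_lit 0) (nat_lit 2496018957164) (nat_lit 152) (nat_lit 27122392019260) (nat_lit 0) (nat_lit 2496018957164) (nat_lit 1) (nat_lit 5) (nat_lit 3) (nat_lit 4) (nat_lit 1) (nat_lit 4) (nat_lit 340) (nat_lit 220) (nat_lit 220))) (XT.nd (nat_lit 78) (nat_lit 0) (nat_lit 0) (XT.lf (nat_lit 0) (nat_lit 5740997422700) (nat_lit 152) (nat_lit 62381173274912) (nat_lit 0) (nat_lit 5740994548245) (nat_lit 1) (nat_lit 5) (nat_lit 3) (nat_lit 4) (nat_lit 1) (nat_lit 4) (nat_lit 341) (nat_lit 220) (nat_lit 219)) (XT.nd (nat_lit 78) (nat_lit 0) (nat_lit 0) (XT.lf (nat_lit 0) (nat_lit 6602287504651) (nat_lit 152) (nat_lit 71738048801671) (nat_lit 0) (nat_lit 6602282130669) (nat_lit 1) (nat_lit 5) (nat_lit 3) (nat_lit 4) (nat_lit 1) (nat_lit 4) (nat_lit 342) (nat_lit 220) (nat_lit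 218)) (XT.lf (nat_lit 0) (nat_lit 7592759487871) (nat_lit 152) (nat_lit 82498479922582) (nat_lit 0) (nat_lit 7592751940387) (nat_lit 1) (nat_lit 5) (nat_lit 3) (nat_lit 4) (nat_lit 1) (nat_lit 4) (nat_lit 343) (nat_lit 220) (nat_lit 217))))) (XT.nd (nat_lit 156) (nat_lit 0) (nat_lit 0) (XT.nd (nat_lit 78) (nat_lit 0) (nat_lit 0) (XT.lf (nat_lit 0) (nat_lit 8731792172032) (nat_lit 152) (nat_lit 94872996811748) (nat_lit 0) (nat_lit 8731782734547) (nat_lit 1) (nat_lit 5) (nat_lit 3) (nat_lit 4) (nat_lit 1) (nat_lit 4) (nat_lit 344) (nat_lit 220) (nat_lit 216)) (XT.lf (nat_lit 0) (nat_lit 10041670979215) (nat_lit 152) (nat_lit 109103709582220) (nat_lit 0) (nat_lit 10041659898252) (nat_lit 1) (nat_lit 5) (nat_lit 3) (nat_lit 4) (nat_lit 1) (nat_lit 4) (nat_lit 345) (nat_lit 220) (nat_lit 215))) (XT.nd (nat_lit 78) (nat_lit 0) (nat_lit 0) (XT.lf (nat_lit 0) (nat_lit 11548023973040) (nat_lit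 152) (nat_lit 125469045222985) (nat_lit 0) (nat_lit 11548011462964) (nat_lit 1) (nat_lit 5) (nat_lit 3) (nat_lit 4) (nat_lit 1) (nat_lit 4) (nat_lit 346) (nat_lit 220) (nat_lit 214)) (XT.nd (nat_lit 39936) (nat_lit 0) (nat_lit 0) (XT.lf (nat_lit 0) (nat_lit 13280323277298) (nat_lit 152) (nat_lit 144289195083535) (nat_lit 0) (nat_lit 13280309524516) (nat_lit 1) (nat_lit 5) (nat_lit 3) (nat_lit 4) (nat_lit 1) (nat_lit 4) (nat_lit 347) (nat_lit 220) (nat_lit 213)) (XT.lf (nat_lit 0) (nat_lit 1887209493546) (nat_lit 152) (nat_lit 20508725431782) (nat_lit 0) (nat_lit 1887209493546) (nat_lit 1) (nat_lit 5) (nat_lit 3) (nat_lit 4) (nat_lit 1) (nat_lit 4) (nat_lit 338) (nat_lit 221) (nat_lit 221))))))))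
noncomputable def xc1 : XT := (XT.nd (nat_lit 41262) (nat_lit 0) (nat_lit 0) (XT.nd (nat_lit 40482) (nat_lit 0) (nat_lit 0) (XT.nd (nat_lit 390) (nat_lit 0) (nat_lit 0) (XT.nd (nat_lit 156) (nat_lit 0) (nat_lit 0) (XT.nd (nat_lit 78) (nat_lit 0) (nat_lit 0) (XT.lf (nat_lit 0) (nat_lit 4340758729562) (nat_lit 152) (nat_lit 47169690868306) (nat_lit 0) (nat_lit 4340755423938) (nat_lit 1) (nat_lit 5) (nat_lit 3) (nat_lit 4) (nat_lit 1) (nat_lit 4) (nat_lit 339) (nat_lit 221) (nat_lit 220)) (XT.lf (nat_lit 0) (nat_lit 4992034077823) (nat_lit 152) (nat_lit 54244798964402) (nat_lit 0) (nat_lit 4992027897744) (nat_lit 1) (nat_lit 5) (nat_lit 3) (nat_lit 4) (nat_lit 1) (nat_lit 4) (nat_lit 340) (nat_lit 221) (nat_lit 219))) (XT.nd (nat_lit 78) (nat_lit 0) (nat_lit 0) (XT.lf (nat_lit 0) (nat_lit 5740987375647) (nat_lit 152) (nat_lit 62381201179821) (nat_lit 0) (nat_lit 5740978696042) (nat_lit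 1) (nat_lit 5) (nat_lit 3) (nat_lit 4) (nat_lit 1) (nat_lit 4) (nat_lit 341) (nat_lit 221) (nat_lit 218)) (XT.nd (nat_lit 78) (nat_lit 0) (nat_lit 0) (XT.lf (nat_lit 0) (nat_lit 6602272057122) (nat_lit 152) (nat_lit 71738087992690) (nat_lit 0) (nat_lit 6602261204015) (nat_lit 1) (nat_lit 5) (nat_lit 3) (nat_lit 4) (nat_lit 1) (nat_lit 4) (nat_lit 342) (nat_lit 221) (nat_lit 217)) (XT.lf (nat_lit 0) (nat_lit 7592739344276) (nat_lit 152) (nat_lit 82498528927610) (nat_lit 0) (nat_lit 7592726601168) (nat_lit 1) (nat_lit 5) (nat_lit 3) (nat_lit 4) (nat_lit 1) (nat_lit 4) (nat_lit 343) (nat_lit 221) (nat_lit 216))))) (XT.nd (nat_lit 156) (nat_lit 0) (nat_lit 0) (XT.nd (nat_lit 78) (nat_lit 0) (nat_lit 0) (XT.lf (nat_lit 0) (nat_lit 8731767944901) (nat_lit 152) (nat_lit 94873054350697) (nat_lit 0) (nat_lit 8731753558314) (nat_lit 1) (nat_lit 5) (nat_lit 3) (nat_lit 4) (nat_lit 1) (nat_lit 4)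 (nat_lit 344) (nat_lit 221) (nat_lit 215)) (XT.lf (nat_lit 0) (nat_lit 10041643201184) (nat_lit 152) (nat_lit 109103774541970) (nat_lit 0) (nat_lit 10041627385484) (nat_lit 1) (nat_lit 5) (nat_lit 3) (nat_lit 4) (nat_lit 1) (nat_lit 4) (nat_lit 345) (nat_lit 221) (nat_lit 214))) (XT.nd (nat_lit 78) (nat_lit 0) (nat_lit 0) (XT.lf (nat_lit 0) (nat_lit 11547993107270) (nat_lit 152) (nat_lit 125469116635605) (nat_lit 0) (nat_lit 11547976048863) (nat_lit 1) (nat_lit 5) (nat_lit 3) (nat_lit 4) (nat_lit 1) (nat_lit 4) (nat_lit 346) (nat_lit 221) (nat_lit 213)) (XT.nd (nat_lit 39780) (nat_lit 0) (nat_lit 0) (XT.lf (nat_lit 0) (nat_lit 13280289726537) (nat_lit 152) (nat_lit 144289272107347) (nat_lit 0) (nat_lit 13280271587516) (nat_lit 1) (nat_lit 5) (nat_lit 3) (nat_lit 4) (nat_lit 1) (nat_lit 4) (nat_lit 347) (nat_lit 221) (nat_lit 212)) (XT.lf (nat_lit 0) (nat_lit 1426841157886) (nat_lit 152)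 (nat_lit 15507888393720) (nat_lit 0) (nat_lit 1426841157886) (nat_lit 1) (nat_lit 5) (nat_lit 3) (nat_lit 4) (nat_lit 1) (nat_lit 4) (nat_lit 336) (nat_lit 222) (nat_lit 222)))))) (XT.nd (nat_lit 390) (nat_lit 0) (nat_lit 0) (XT.nd (nat_lit 156) (nat_lit 0) (nat_lit 0) (XT.nd (nat_lit 78) (nat_lit 0) (nat_lit 0) (XT.lf (nat_lit 0) (nat_lit 3281938091704) (nat_lit 152) (nat_lit 35667709037044) (nat_lit 0) (nat_lit 3281934290237) (nat_lit 1) (nat_lit 5) (nat_lit 3) (nat_lit 4) (nat_lit 1) (nat_lit 4) (nat_lit 337) (nat_lit 222) (nat_lit 221)) (XT.lf (nat_lit 0) (nat_lit 3774414575111) (nat_lit 152) (nat_lit 41017468028329) (nat_lit 0) (nat_lit 3774407468020) (nat_lit 1) (nat_lit 5) (nat_lit 3) (nat_lit 4) (nat_lit 1) (nat_lit 4) (nat_lit 338) (nat_lit 222) (nat_lit 220))) (XT.nd (nat_lit 78) (nat_lit 0) (nat_lit 0) (XT.lf (nat_lit 0) (nat_lit 4340747175451) (nat_lit 152) (nat_lit 47169722958950)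 (nat_lit 0) (nat_lit 4340737193904) (nat_lit 1) (nat_lit 5) (nat_lit 3) (nat_lit 4) (nat_lit 1) (nat_lit 4) (nat_lit 339) (nat_lit 222) (nat_lit 219)) (XT.nd (nat_lit 78) (nat_lit 0) (nat_lit 0) (XT.lf (nat_lit 0) (nat_lit 4992016313165) (nat_lit 152) (nat_lit 54244844034074) (nat_lit 0) (nat_lit 4992003832092) (nat_lit 1) (nat_lit 5) (nat_lit 3) (nat_lit 4) (nat_lit 1) (nat_lit 4) (nat_lit 340) (nat_lit 222) (nat_lit 218)) (XT.lf (nat_lit 0) (nat_lit 5740964210513) (nat_lit 152) (nat_lit 62381257535603) (nat_lit 0) (nat_lit 5740949555939) (nat_lit 1) (nat_lit 5) (nat_lit 3) (nat_lit 4) (nat_lit 1) (nat_lit 4) (nat_lit 341) (nat_lit 222) (nat_lit 217))))) (XT.nd (nat_lit 156) (nat_lit 0) (nat_lit 0) (XT.nd (nat_lit 78) (nat_lit 0) (nat_lit 0) (XT.lf (nat_lit 0) (nat_lit 6602244195922) (nat_lit 152) (nat_lit 71738154162482) (nat_lit 0) (nat_lit 6602227651347) (nat_lit 1) (nat_lit 5) (nat_lit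 3) (nat_lit 4) (nat_lit 1) (nat_lit 4) (nat_lit 342) (nat_lit 222) (nat_lit 216)) (XT.lf (nat_lit 0) (nat_lit 7592707399540) (nat_lit 152) (nat_lit 82498603631322) (nat_lit 0) (nat_lit 7592689211486) (nat_lit 1) (nat_lit 5) (nat_lit 3) (nat_lit 4) (nat_lit 1) (nat_lit 4) (nat_lit 343) (nat_lit 222) (nat_lit 215))) (XT.nd (nat_lit 78) (nat_lit 0) (nat_lit 0) (XT.lf (nat_lit 0) (nat_lit 8731732449265) (nat_lit 152) (nat_lit 94873136475211) (nat_lit 0) (nat_lit 8731712832098) (nat_lit 1) (nat_lit 5) (nat_lit 3) (nat_lit 4) (nat_lit 1) (nat_lit 4) (nat_lit 344) (nat_lit 222) (nat_lit 214)) (XT.nd (nat_lit 78) (nat_lit 0) (nat_lit 0) (XT.lf (nat_lit 0) (nat_lit 10041604617808) (nat_lit 152) (nat_lit 109103863119354) (nat_lit 0) (nat_lit 10041583757935) (nat_lit 1) (nat_lit 5) (nat_lit 3) (nat_lit 4) (nat_lit 1) (nat_lit 4) (nat_lit 345) (nat_lit 222) (nat_lit 213)) (XT.lf (nat_lit 0) (nat_lit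 11547951838903) (nat_lit 152) (nat_lit 125469210824180) (nat_lit 0) (nat_lit 11547929898415) (nat_lit 1) (nat_lit 5) (nat_lit 3) (nat_lit 4) (nat_lit 1) (nat_lit 4) (nat_lit 346) (nat_lit 222) (nat_lit 212))))))) (XT.nd (nat_lit 40014) (nat_lit 0) (nat_lit 0) (XT.nd (nat_lit 39624) (nat_lit 0) (nat_lit 0) (XT.nd (nat_lit 1014) (nat_lit 0) (nat_lit 0) (XT.nd (nat_lit 936) (nat_lit 0) (nat_lit 0) (XT.lf (nat_lit 0) (nat_lit 13280246123395) (nat_lit 152) (nat_lit 144289371175219) (nat_lit 0) (nat_lit 13280223243243) (nat_lit 1) (nat_lit 5) (nat_lit 3) (nat_lit 4) (nat_lit 1) (nat_lit 4) (nat_lit 347) (nat_lit 222) (nat_lit 211)) (XT.lf (nat_lit 0) (nat_lit 71055147387457) (nat_lit 152) (nat_lit 771978714642304) (nat_lit 0) (nat_lit 71055119413741) (nat_lit 1) (nat_lit 5) (nat_lit 3) (nat_lit 4) (nat_lit 1) (nat_lit 4) (nat_lit 359) (nat_lit 222) (nat_lit 199))) (XT.nd (nat_lit 78) (nat_lit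 0) (nat_lit 0) (XT.lf (nat_lit 0) (nat_lit 81713492978143) (nat_lit 152) (nat_lit 887775359136002) (nat_lit 0) (nat_lit 81713464851705) (nat_lit 1) (nat_lit 5) (nat_lit 3) (nat_lit 4) (nat_lit 1) (nat_lit 4) (nat_lit 360) (nat_lit 222) (nat_lit 198)) (XT.nd (nat_lit 78) (nat_lit 0) (nat_lit 0) (XT.lf (nat_lit 0) (nat_lit 93970589697995) (nat_lit 152) (nat_lit 1020941501786361) (nat_lit 0) (nat_lit 93970561438756) (nat_lit 1) (nat_lit 5) (nat_lit 3) (nat_lit 4) (nat_lit 1) (nat_lit 4) (nat_lit 361) (nat_lit 222) (nat_lit 197)) (XT.lf (nat_lit 0) (nat_lit 108066250308924) (nat_lit 152) (nat_lit 1174082567123495) (nat_lit 0) (nat_lit 108066221934205) (nat_lit 1) (nat_lit 5) (nat_lit 3) (nat_lit 4) (nat_lit 1) (nat_lit 4) (nat_lit 362) (nat_lit 222) (nat_lit 196))))) (XT.nd (nat_lit 156) (nat_lit 0) (nat_lit 0) (XT.nd (nat_lit 78) (nat_lit 0) (nat_lit 0) (XT.lf (nat_lit 0) (nat_lit 1078712503824)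 (nat_lit 152) (nat_lit 11726588966329) (nat_lit 0) (nat_lit 1078712503824) (nat_lit 1) (nat_lit 5) (nat_lit 3) (nat_lit 4) (nat_lit 1) (nat_lit 4) (nat_lit 334) (nat_lit 223) (nat_lit 223)) (XT.lf (nat_lit 0) (nat_lit 2481272701647) (nat_lit 152) (nat_lit 26970655213767) (nat_lit 0) (nat_lit 2481268329960) (nat_lit 1) (nat_lit 5) (nat_lit 3) (nat_lit 4) (nat_lit 1) (nat_lit 4) (nat_lit 335) (nat_lit 223) (nat_lit 222))) (XT.nd (nat_lit 78) (nat_lit 0) (nat_lit 0) (XT.lf (nat_lit 0) (nat_lit 2853677241994) (nat_lit 152) (nat_lit 31015796526919) (nat_lit 0) (nat_lit 2853669068839) (nat_lit 1) (nat_lit 5) (nat_lit 3) (nat_lit 4) (nat_lit 1) (nat_lit 4) (nat_lit 336) (nat_lit 223) (nat_lit 221)) (XT.nd (nat_lit 78) (nat_lit 0) (nat_lit 0) (XT.lf (nat_lit 0) (nat_lit 3281924804477) (nat_lit 152) (nat_lit 35667745941285) (nat_lit 0) (nat_lit 3281913325698) (nat_lit 1) (nat_lit 5) (nat_lit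 3) (nat_lit 4) (nat_lit 1) (nat_lit 4) (nat_lit 337) (nat_lit 223) (nat_lit 220)) (XT.lf (nat_lit 0) (nat_lit 3774394145754) (nat_lit 152) (nat_lit 41017519858451) (nat_lit 0) (nat_lit 3774379792520) (nat_lit 1) (nat_lit 5) (nat_lit 3) (nat_lit 4) (nat_lit 1) (nat_lit 4) (nat_lit 338) (nat_lit 223) (nat_lit 219)))))) (XT.nd (nat_lit 390) (nat_lit 0) (nat_lit 0) (XT.nd (nat_lit 156) (nat_lit 0) (nat_lit 0) (XT.nd (nat_lit 78) (nat_lit 0) (nat_lit 0) (XT.lf (nat_lit 0) (nat_lit 4340720535547) (nat_lit 152) (nat_lit 47169787768100) (nat_lit 0) (nat_lit 4340703682787) (nat_lit 1) (nat_lit 5) (nat_lit 3) (nat_lit 4) (nat_lit 1) (nat_lit 4) (nat_lit 339) (nat_lit 223) (nat_lit 218)) (XT.lf (nat_lit 0) (nat_lit 4991984272785) (nat_lit 152) (nat_lit 54244920129334) (nat_lit 0) (nat_lit 4991965246524) (nat_lit 1) (nat_lit 5) (nat_lit 3) (nat_lit 4) (nat_lit 1) (nat_lit 4) (nat_lit 340) (nat_lit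 223) (nat_lit 217))) (XT.nd (nat_lit 78) (nat_lit 0) (nat_lit 0) (XT.lf (nat_lit 0) (nat_lit 5740927474068) (nat_lit 152) (nat_lit 62381343444872) (nat_lit 0) (nat_lit 5740906557805) (nat_lit 1) (nat_lit 5) (nat_lit 3) (nat_lit 4) (nat_lit 1) (nat_lit 4) (nat_lit 341) (nat_lit 223) (nat_lit 216)) (XT.nd (nat_lit 78) (nat_lit 0) (nat_lit 0) (XT.lf (nat_lit 0) (nat_lit 6602203375941) (nat_lit 152) (nat_lit 71738248605672) (nat_lit 0) (nat_lit 6602180816198) (nat_lit 1) (nat_lit 5) (nat_lit 3) (nat_lit 4) (nat_lit 1) (nat_lit 4) (nat_lit 342) (nat_lit 223) (nat_lit 215)) (XT.lf (nat_lit 0) (nat_lit 7592663028658) (nat_lit 152) (nat_lit 82498705495313) (nat_lit 0) (nat_lit 7592639039804) (nat_lit 1) (nat_lit 5) (nat_lit 3) (nat_lit 4) (nat_lit 1) (nat_lit 4) (nat_lit 343) (nat_lit 223) (nat_lit 214))))) (XT.nd (nat_lit 1170) (nat_lit 0) (nat_lit 0) (XT.nd (nat_lit 78) (nat_lit 0) (nat_lit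 0) (XT.lf (nat_lit 0) (nat_lit 8731684990643) (nat_lit 152) (nat_lit 94873244792072) (nat_lit 0) (nat_lit 8731659759083) (nat_lit 1) (nat_lit 5) (nat_lit 3) (nat_lit 4) (nat_lit 1) (nat_lit 4) (nat_lit 344) (nat_lit 223) (nat_lit 213)) (XT.nd (nat_lit 78) (nat_lit 0) (nat_lit 0) (XT.lf (nat_lit 0) (nat_lit 10041554474196) (nat_lit 152) (nat_lit 109103977047407) (nat_lit 0) (nat_lit 10041528162021) (nat_lit 1) (nat_lit 5) (nat_lit 3) (nat_lit 4) (nat_lit 1) (nat_lit 4) (nat_lit 345) (nat_lit 223) (nat_lit 212)) (XT.lf (nat_lit 0) (nat_lit 11547899360515) (nat_lit 152) (nat_lit 125469329631530) (nat_lit 0) (nat_lit 11547872108676) (nat_lit 1) (nat_lit 5) (nat_lit 3) (nat_lit 4) (nat_lit 1) (nat_lit 4) (nat_lit 346) (nat_lit 223) (nat_lit 211)))) (XT.nd (nat_lit 78) (nat_lit 0) (nat_lit 0) (XT.lf (nat_lit 0) (nat_lit 71055081873679) (nat_lit 152) (nat_lit 771978860691487) (nat_lit 0) (nat_lit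 71055049375553) (nat_lit 1) (nat_lit 5) (nat_lit 3) (nat_lit 4) (nat_lit 1) (nat_lit 4) (nat_lit 359) (nat_lit 223) (nat_lit 198)) (XT.nd (nat_lit 78) (nat_lit 0) (nat_lit 0) (XT.lf (nat_lit 0) (nat_lit 81713427134395) (nat_lit 152) (nat_lit 887775505874769) (nat_lit 0) (nat_lit 81713394503467) (nat_lit 1) (nat_lit 5) (nat_lit 3) (nat_lit 4) (nat_lit 1) (nat_lit 4) (nat_lit 360) (nat_lit 223) (nat_lit 197)) (XT.lf (nat_lit 0) (nat_lit 93970523567316) (nat_lit 152) (nat_lit 1020941649124767) (nat_lit 0) (nat_lit 93970490820909) (nat_lit 1) (nat_lit 5) (nat_lit 3) (nat_lit 4) (nat_lit 1) (nat_lit 4) (nat_lit 361) (nat_lit 223) (nat_lit 196))))))))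
noncomputable def xc2 : XT := (XT.nd (nat_lit 78858) (nat_lit 0) (nat_lit 0) (XT.nd (nat_lit 39000) (nat_lit 0) (nat_lit 0) (XT.nd (nat_lit 38610) (nat_lit 0) (nat_lit 0) (XT.nd (nat_lit 38376) (nat_lit 0) (nat_lit 0) (XT.nd (nat_lit 38298) (nat_lit 0) (nat_lit 0) (XT.lf (nat_lit 0) (nat_lit 108066183928739) (nat_lit 152) (nat_lit 1174082714983325) (nat_lit 0) (nat_lit 108066151081917) (nat_lit 1) (nat_lit 5) (nat_lit 3) (nat_lit 4) (nat_lit 1) (nat_lit 4) (nat_lit 362) (nat_lit 223) (nat_lit 195)) (XT.lf (nat_lit 0) (nat_lit 815449566359) (nat_lit 152) (nat_lit 8867442954795) (nat_lit 0) (nat_lit 815449566359) (nat_lit 1) (nat_lit 5) (nat_lit 3) (nat_lit 4) (nat_lit 1) (nat_lit 4) (nat_lit 332) (nat_lit 224) (nat_lit 224))) (XT.nd (nat_lit 78) (nat_lit 0) (nat_lit 0) (XT.lf (nat_lit 0) (nat_lit 1875803036904) (nat_lit 152) (nat_lit 20394544475920) (nat_lit 0) (nat_lit 1875798009464)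 (nat_lit 1) (nat_lit 5) (nat_lit 3) (nat_lit 4) (nat_lit 1) (nat_lit 4) (nat_lit 333) (nat_lit 224) (nat_lit 223)) (XT.nd (nat_lit 78) (nat_lit 0) (nat_lit 0) (XT.lf (nat_lit 0) (nat_lit 2157419172804) (nat_lit 152) (nat_lit 23453200633058) (nat_lit 0) (nat_lit 2157409773676) (nat_lit 1) (nat_lit 5) (nat_lit 3) (nat_lit 4) (nat_lit 1) (nat_lit 4) (nat_lit 334) (nat_lit 224) (nat_lit 222)) (XT.lf (nat_lit 0) (nat_lit 2481257421336) (nat_lit 152) (nat_lit 26970697653645) (nat_lit 0) (nat_lit 2481244220741) (nat_lit 1) (nat_lit 5) (nat_lit 3) (nat_lit 4) (nat_lit 1) (nat_lit 4) (nat_lit 335) (nat_lit 224) (nat_lit 221))))) (XT.nd (nat_lit 156) (nat_lit 0) (nat_lit 0) (XT.nd (nat_lit 78) (nat_lit 0) (nat_lit 0) (XT.lf (nat_lit 0) (nat_lit 2853653748233) (nat_lit 152) (nat_lit 31015856131560) (nat_lit 0) (nat_lit 2853637242014) (nat_lit 1) (nat_lit 5) (nat_lit 3) (nat_lit 4) (nat_lit 1) (nat_lit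 4) (nat_lit 336) (nat_lit 224) (nat_lit 220)) (XT.lf (nat_lit 0) (nat_lit 3281894168587) (nat_lit 152) (nat_lit 35667820471807) (nat_lit 0) (nat_lit 3281874787913) (nat_lit 1) (nat_lit 5) (nat_lit 3) (nat_lit 4) (nat_lit 1) (nat_lit 4) (nat_lit 337) (nat_lit 224) (nat_lit 219))) (XT.nd (nat_lit 78) (nat_lit 0) (nat_lit 0) (XT.lf (nat_lit 0) (nat_lit 3774357299318) (nat_lit 152) (nat_lit 41017607368000) (nat_lit 0) (nat_lit 3774335419117) (nat_lit 1) (nat_lit 5) (nat_lit 3) (nat_lit 4) (nat_lit 1) (nat_lit 4) (nat_lit 338) (nat_lit 224) (nat_lit 218)) (XT.nd (nat_lit 78) (nat_lit 0) (nat_lit 0) (XT.lf (nat_lit 0) (nat_lit 4340678288634) (nat_lit 152) (nat_lit 47169886563760) (nat_lit 0) (nat_lit 4340654234932) (nat_lit 1) (nat_lit 5) (nat_lit 3) (nat_lit 4) (nat_lit 1) (nat_lit 4) (nat_lit 339) (nat_lit 224) (nat_lit 217)) (XT.lf (nat_lit 0) (nat_lit 4991937329807) (nat_lit 152) (nat_lit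 54245028739003) (nat_lit 0) (nat_lit 4991911386103) (nat_lit 1) (nat_lit 5) (nat_lit 3) (nat_lit 4) (nat_lit 1) (nat_lit 4) (nat_lit 340) (nat_lit 224) (nat_lit 216)))))) (XT.nd (nat_lit 390) (nat_lit 0) (nat_lit 0) (XT.nd (nat_lit 156) (nat_lit 0) (nat_lit 0) (XT.nd (nat_lit 78) (nat_lit 0) (nat_lit 0) (XT.lf (nat_lit 0) (nat_lit 5740876447553) (nat_lit 152) (nat_lit 62381460588462) (nat_lit 0) (nat_lit 5740848860371) (nat_lit 1) (nat_lit 5) (nat_lit 3) (nat_lit 4) (nat_lit 1) (nat_lit 4) (nat_lit 341) (nat_lit 224) (nat_lit 215)) (XT.lf (nat_lit 0) (nat_lit 6602148798526) (nat_lit 152) (nat_lit 71738373170063) (nat_lit 0) (nat_lit 6602119782231) (nat_lit 1) (nat_lit 5) (nat_lit 3) (nat_lit 4) (nat_lit 1) (nat_lit 4) (nat_lit 342) (nat_lit 224) (nat_lit 214))) (XT.nd (nat_lit 78) (nat_lit 0) (nat_lit 0) (XT.lf (nat_lit 0) (nat_lit 7592605363504) (nat_lit 152) (nat_lit 82498836512574)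 (nat_lit 0) (nat_lit 7592575104502) (nat_lit 1) (nat_lit 5) (nat_lit 3) (nat_lit 4) (nat_lit 1) (nat_lit 4) (nat_lit 343) (nat_lit 224) (nat_lit 213)) (XT.nd (nat_lit 78) (nat_lit 0) (nat_lit 0) (XT.lf (nat_lit 0) (nat_lit 8731624640498) (nat_lit 152) (nat_lit 94873381420525) (nat_lit 0) (nat_lit 8731593300882) (nat_lit 1) (nat_lit 5) (nat_lit 3) (nat_lit 4) (nat_lit 1) (nat_lit 4) (nat_lit 344) (nat_lit 224) (nat_lit 212)) (XT.lf (nat_lit 0) (nat_lit 10041491789276) (nat_lit 152) (nat_lit 109104118555157) (nat_lit 0) (nat_lit 10041459509995) (nat_lit 1) (nat_lit 5) (nat_lit 3) (nat_lit 4) (nat_lit 1) (nat_lit 4) (nat_lit 345) (nat_lit 224) (nat_lit 211))))) (XT.nd (nat_lit 1092) (nat_lit 0) (nat_lit 0) (XT.nd (nat_lit 1014) (nat_lit 0) (nat_lit 0) (XT.lf (nat_lit 0) (nat_lit 11547834645356) (nat_lit 152) (nat_lit 125469475382147) (nat_lit 0) (nat_lit 11547801548976) (nat_lit 1) (nat_lit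 5) (nat_lit 3) (nat_lit 4) (nat_lit 1) (nat_lit 4) (nat_lit 346) (nat_lit 224) (nat_lit 210)) (XT.lf (nat_lit 0) (nat_lit 71055005823398) (nat_lit 152) (nat_lit 771979030130653) (nat_lit 0) (nat_lit 71054968165030) (nat_lit 1) (nat_lit 5) (nat_lit 3) (nat_lit 4) (nat_lit 1) (nat_lit 4) (nat_lit 359) (nat_lit 224) (nat_lit 197))) (XT.nd (nat_lit 78) (nat_lit 0) (nat_lit 0) (XT.lf (nat_lit 0) (nat_lit 81713350797182) (nat_lit 152) (nat_lit 887775675913574) (nat_lit 0) (nat_lit 81713313023336) (nat_lit 1) (nat_lit 5) (nat_lit 3) (nat_lit 4) (nat_lit 1) (nat_lit 4) (nat_lit 360) (nat_lit 224) (nat_lit 196)) (XT.nd (nat_lit 38220) (nat_lit 0) (nat_lit 0) (XT.lf (nat_lit 0) (nat_lit 93970446980599) (nat_lit 152) (nat_lit 1020941819684997) (nat_lit 0) (nat_lit 93970409106335) (nat_lit 1) (nat_lit 5) (nat_lit 3) (nat_lit 4) (nat_lit 1) (nat_lit 4) (nat_lit 361) (nat_lit 224) (nat_lit 195)) (XT.lf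 (nat_lit 0) (nat_lit 616353154024) (nat_lit 152) (nat_lit 6705586349634) (nat_lit 0) (nat_lit 616353154024) (nat_lit 1) (nat_lit 5) (nat_lit 3) (nat_lit 4) (nat_lit 1) (nat_lit 4) (nat_lit 330) (nat_lit 225) (nat_lit 225))))))) (XT.nd (nat_lit 780) (nat_lit 0) (nat_lit 0) (XT.nd (nat_lit 390) (nat_lit 0) (nat_lit 0) (XT.nd (nat_lit 156) (nat_lit 0) (nat_lit 0) (XT.nd (nat_lit 78) (nat_lit 0) (nat_lit 0) (XT.lf (nat_lit 0) (nat_lit 1417921643676) (nat_lit 152) (nat_lit 15422188136033) (nat_lit 0) (nat_lit 1417915862119) (nat_lit 1) (nat_lit 5) (nat_lit 3) (nat_lit 4) (nat_lit 1) (nat_lit 4) (nat_lit 331) (nat_lit 225) (nat_lit 224)) (XT.lf (nat_lit 0) (nat_lit 1630892422646) (nat_lit 152) (nat_lit 17734912015050) (nat_lit 0) (nat_lit 1630881613649) (nat_lit 1) (nat_lit 5) (nat_lit 3) (nat_lit 4) (nat_lit 1) (nat_lit 4) (nat_lit 332) (nat_lit 225) (nat_lit 223))) (XT.nd (nat_lit 78) (nat_lit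 0) (nat_lit 0) (XT.lf (nat_lit 0) (nat_lit 1875785464546) (nat_lit 152) (nat_lit 20394593281779) (nat_lit 0) (nat_lit 1875770283861) (nat_lit 1) (nat_lit 5) (nat_lit 3) (nat_lit 4) (nat_lit 1) (nat_lit 4) (nat_lit 333) (nat_lit 225) (nat_lit 222)) (XT.nd (nat_lit 78) (nat_lit 0) (nat_lit 0) (XT.lf (nat_lit 0) (nat_lit 2157392154979) (nat_lit 152) (nat_lit 23453269178395) (nat_lit 0) (nat_lit 2157373172828) (nat_lit 1) (nat_lit 5) (nat_lit 3) (nat_lit 4) (nat_lit 1) (nat_lit 4) (nat_lit 334) (nat_lit 225) (nat_lit 221)) (XT.lf (nat_lit 0) (nat_lit 2481222190063) (nat_lit 152) (nat_lit 26970783363745) (nat_lit 0) (nat_lit 2481199902287) (nat_lit 1) (nat_lit 5) (nat_lit 3) (nat_lit 4) (nat_lit 1) (nat_lit 4) (nat_lit 335) (nat_lit 225) (nat_lit 220))))) (XT.nd (nat_lit 156) (nat_lit 0) (nat_lit 0) (XT.nd (nat_lit 78) (nat_lit 0) (nat_lit 0) (XT.lf (nat_lit 0) (nat_lit 2853611374831) (nat_lit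 152) (nat_lit 31015956767542) (nat_lit 0) (nat_lit 2853586212600) (nat_lit 1) (nat_lit 5) (nat_lit 3) (nat_lit 4) (nat_lit 1) (nat_lit 4) (nat_lit 336) (nat_lit 225) (nat_lit 219)) (XT.lf (nat_lit 0) (nat_lit 3281845584638) (nat_lit 152) (nat_lit 35667934086816) (nat_lit 0) (nat_lit 3281817922880) (nat_lit 1) (nat_lit 5) (nat_lit 3) (nat_lit 4) (nat_lit 1) (nat_lit 4) (nat_lit 337) (nat_lit 225) (nat_lit 218))) (XT.nd (nat_lit 78) (nat_lit 0) (nat_lit 0) (XT.lf (nat_lit 0) (nat_lit 3774303314892) (nat_lit 152) (nat_lit 41017732269119) (nat_lit 0) (nat_lit 3774273479633) (nat_lit 1) (nat_lit 5) (nat_lit 3) (nat_lit 4) (nat_lit 1) (nat_lit 4) (nat_lit 338) (nat_lit 225) (nat_lit 217)) (XT.nd (nat_lit 78) (nat_lit 0) (nat_lit 0) (XT.lf (nat_lit 0) (nat_lit 4340619608143) (nat_lit 152) (nat_lit 47170021278888) (nat_lit 0) (nat_lit 4340587882883) (nat_lit 1) (nat_lit 5) (nat_lit 3) (nat_lit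 4) (nat_lit 1) (nat_lit 4) (nat_lit 339) (nat_lit 225) (nat_lit 216)) (XT.lf (nat_lit 0) (nat_lit 4991874565779) (nat_lit 152) (nat_lit 54245171988052) (nat_lit 0) (nat_lit 4991841197040) (nat_lit 1) (nat_lit 5) (nat_lit 3) (nat_lit 4) (nat_lit 1) (nat_lit 4) (nat_lit 340) (nat_lit 225) (nat_lit 215)))))) (XT.nd (nat_lit 1404) (nat_lit 0) (nat_lit 0) (XT.nd (nat_lit 156) (nat_lit 0) (nat_lit 0) (XT.nd (nat_lit 78) (nat_lit 0) (nat_lit 0) (XT.lf (nat_lit 0) (nat_lit 5740810132626) (nat_lit 152) (nat_lit 62381611258312) (nat_lit 0) (nat_lit 5740775334774) (nat_lit 1) (nat_lit 5) (nat_lit 3) (nat_lit 4) (nat_lit 1) (nat_lit 4) (nat_lit 341) (nat_lit 225) (nat_lit 214)) (XT.lf (nat_lit 0) (nat_lit 6602079395858) (nat_lit 152) (nat_lit 71738530292783) (nat_lit 0) (nat_lit 6602043355300) (nat_lit 1) (nat_lit 5) (nat_lit 3) (nat_lit 4) (nat_lit 1) (nat_lit 4) (nat_lit 342) (nat_lit 225) (nat_lit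 213))) (XT.nd (nat_lit 78) (nat_lit 0) (nat_lit 0) (XT.lf (nat_lit 0) (nat_lit 7592533275845) (nat_lit 152) (nat_lit 82498999246487) (nat_lit 0) (nat_lit 7592496154673) (nat_lit 1) (nat_lit 5) (nat_lit 3) (nat_lit 4) (nat_lit 1) (nat_lit 4) (nat_lit 343) (nat_lit 225) (nat_lit 212)) (XT.nd (nat_lit 78) (nat_lit 0) (nat_lit 0) (XT.lf (nat_lit 0) (nat_lit 8731550218065) (nat_lit 152) (nat_lit 94873549033734) (nat_lit 0) (nat_lit 8731512157228) (nat_lit 1) (nat_lit 5) (nat_lit 3) (nat_lit 4) (nat_lit 1) (nat_lit 4) (nat_lit 344) (nat_lit 225) (nat_lit 211)) (XT.lf (nat_lit 0) (nat_lit 10041415336604) (nat_lit 152) (nat_lit 109104290411233) (nat_lit 0) (nat_lit 10041376458667) (nat_lit 1) (nat_lit 5) (nat_lit 3) (nat_lit 4) (nat_lit 1) (nat_lit 4) (nat_lit 345) (nat_lit 225) (nat_lit 210))))) (XT.nd (nat_lit 156) (nat_lit 0) (nat_lit 0) (XT.nd (nat_lit 78) (nat_lit 0) (nat_lit 0) (XT.lf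 (nat_lit 0) (nat_lit 71054917748672) (nat_lit 152) (nat_lit 771979226274918) (nat_lit 0) (nat_lit 71054874193269) (nat_lit 1) (nat_lit 5) (nat_lit 3) (nat_lit 4) (nat_lit 1) (nat_lit 4) (nat_lit 359) (nat_lit 225) (nat_lit 196)) (XT.lf (nat_lit 0) (nat_lit 81713262472951) (nat_lit 152) (nat_lit 887775872579264) (nat_lit 0) (nat_lit 81713218817132) (nat_lit 1) (nat_lit 5) (nat_lit 3) (nat_lit 4) (nat_lit 1) (nat_lit 4) (nat_lit 360) (nat_lit 225) (nat_lit 195))) (XT.nd (nat_lit 38064) (nat_lit 0) (nat_lit 0) (XT.lf (nat_lit 0) (nat_lit 93970358439406) (nat_lit 152) (nat_lit 1020942016804100) (nat_lit 0) (nat_lit 93970314696268) (nat_lit 1) (nat_lit 5) (nat_lit 3) (nat_lit 4) (nat_lit 1) (nat_lit 4) (nat_lit 361) (nat_lit 225) (nat_lit 194)) (XT.nd (nat_lit 78) (nat_lit 0) (nat_lit 0) (XT.lf (nat_lit 0) (nat_lit 465771081919) (nat_lit 152) (nat_lit 5070990995175) (nat_lit 0) (nat_lit 465771081919)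 (nat_lit 1) (nat_lit 5) (nat_lit 3) (nat_lit 4) (nat_lit 1) (nat_lit 4) (nat_lit 328) (nat_lit 226) (nat_lit 226)) (XT.lf (nat_lit 0) (nat_lit 1071629286247) (nat_lit 152) (nat_lit 11662519750558) (nat_lit 0) (nat_lit 1071622637457) (nat_lit 1) (nat_lit 5) (nat_lit 3) (nat_lit 4) (nat_lit 1) (nat_lit 4) (nat_lit 329) (nat_lit 226) (nat_lit 225))))))))
noncomputable def xc3 : XT := (XT.nd (nat_lit 40482) (nat_lit 0) (nat_lit 0) (XT.nd (nat_lit 780) (nat_lit 0) (nat_lit 0) (XT.nd (nat_lit 390) (nat_lit 0) (nat_lit 0) (XT.nd (nat_lit 156) (nat_lit 0) (nat_lit 0) (XT.nd (nat_lit 78) (nat_lit 0) (nat_lit 0) (XT.lf (nat_lit 0) (nat_lit 1232698591465) (nat_lit 152) (nat_lit 13411202720546) (nat_lit 0) (nat_lit 1232686161118) (nat_lit 1) (nat_lit 5) (nat_lit 3) (nat_lit 4) (nat_lit 1) (nat_lit 4) (nat_lit 330) (nat_lit 226) (nat_lit 224)) (XT.lf (nat_lit 0) (nat_lit 1417901435464) (nat_lit 152)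 (nat_lit 15422244262771) (nat_lit 0) (nat_lit 1417883977677) (nat_lit 1) (nat_lit 5) (nat_lit 3) (nat_lit 4) (nat_lit 1) (nat_lit 4) (nat_lit 331) (nat_lit 226) (nat_lit 223))) (XT.nd (nat_lit 78) (nat_lit 0) (nat_lit 0) (XT.lf (nat_lit 0) (nat_lit 1630861352148) (nat_lit 152) (nat_lit 17734990842188) (nat_lit 0) (nat_lit 1630839522673) (nat_lit 1) (nat_lit 5) (nat_lit 3) (nat_lit 4) (nat_lit 1) (nat_lit 4) (nat_lit 332) (nat_lit 226) (nat_lit 222)) (XT.nd (nat_lit 78) (nat_lit 0) (nat_lit 0) (XT.lf (nat_lit 0) (nat_lit 1875744948582) (nat_lit 152) (nat_lit 20394691848395) (nat_lit 0) (nat_lit 1875719317640) (nat_lit 1) (nat_lit 5) (nat_lit 3) (nat_lit 4) (nat_lit 1) (nat_lit 4) (nat_lit 333) (nat_lit 226) (nat_lit 221)) (XT.lf (nat_lit 0) (nat_lit 2157343425567) (nat_lit 152) (nat_lit 23453384909774) (nat_lit 0) (nat_lit 2157314489001) (nat_lit 1) (nat_lit 5) (nat_lit 3) (nat_lit 4)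 (nat_lit 1) (nat_lit 4) (nat_lit 334) (nat_lit 226) (nat_lit 220))))) (XT.nd (nat_lit 156) (nat_lit 0) (nat_lit 0) (XT.nd (nat_lit 78) (nat_lit 0) (nat_lit 0) (XT.lf (nat_lit 0) (nat_lit 2481166318521) (nat_lit 152) (nat_lit 26970914021005) (nat_lit 0) (nat_lit 2481134507500) (nat_lit 1) (nat_lit 5) (nat_lit 3) (nat_lit 4) (nat_lit 1) (nat_lit 4) (nat_lit 335) (nat_lit 226) (nat_lit 219)) (XT.lf (nat_lit 0) (nat_lit 2853549292742) (nat_lit 152) (nat_lit 31016100403829) (nat_lit 0) (nat_lit 2853514982194) (nat_lit 1) (nat_lit 5) (nat_lit 3) (nat_lit 4) (nat_lit 1) (nat_lit 4) (nat_lit 336) (nat_lit 226) (nat_lit 218))) (XT.nd (nat_lit 78) (nat_lit 0) (nat_lit 0) (XT.lf (nat_lit 0) (nat_lit 3281778102072) (nat_lit 152) (nat_lit 35668089009214) (nat_lit 0) (nat_lit 3281741618023) (nat_lit 1) (nat_lit 5) (nat_lit 3) (nat_lit 4) (nat_lit 1) (nat_lit 4) (nat_lit 337) (nat_lit 226) (nat_lit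 217)) (XT.nd (nat_lit 78) (nat_lit 0) (nat_lit 0) (XT.lf (nat_lit 0) (nat_lit 3774231136261) (nat_lit 152) (nat_lit 41017897005526) (nat_lit 0) (nat_lit 3774192762211) (nat_lit 1) (nat_lit 5) (nat_lit 3) (nat_lit 4) (nat_lit 1) (nat_lit 4) (nat_lit 338) (nat_lit 226) (nat_lit 216)) (XT.lf (nat_lit 0) (nat_lit 4340543345976) (nat_lit 152) (nat_lit 47170194549216) (nat_lit 0) (nat_lit 4340503328447) (nat_lit 1) (nat_lit 5) (nat_lit 3) (nat_lit 4) (nat_lit 1) (nat_lit 4) (nat_lit 339) (nat_lit 226) (nat_lit 215)))))) (XT.nd (nat_lit 390) (nat_lit 0) (nat_lit 0) (XT.nd (nat_lit 156) (nat_lit 0) (nat_lit 0) (XT.nd (nat_lit 78) (nat_lit 0) (nat_lit 0) (XT.lf (nat_lit 0) (nat_lit 4991794752712) (nat_lit 152) (nat_lit 54245352679181) (nat_lit 0) (nat_lit 4991753306070) (nat_lit 1) (nat_lit 5) (nat_lit 3) (nat_lit 4) (nat_lit 1) (nat_lit 4) (nat_lit 340) (nat_lit 226) (nat_lit 214)) (XT.lf (nat_lit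 0) (nat_lit 5740727231818) (nat_lit 152) (nat_lit 62381798402312) (nat_lit 0) (nat_lit 5740684542470) (nat_lit 1) (nat_lit 5) (nat_lit 3) (nat_lit 4) (nat_lit 1) (nat_lit 4) (nat_lit 341) (nat_lit 226) (nat_lit 213))) (XT.nd (nat_lit 78) (nat_lit 0) (nat_lit 0) (XT.lf (nat_lit 0) (nat_lit 6601993810060) (nat_lit 152) (nat_lit 71738723047974) (nat_lit 0) (nat_lit 6601950040098) (nat_lit 1) (nat_lit 5) (nat_lit 3) (nat_lit 4) (nat_lit 1) (nat_lit 4) (nat_lit 342) (nat_lit 226) (nat_lit 212)) (XT.nd (nat_lit 78) (nat_lit 0) (nat_lit 0) (XT.lf (nat_lit 0) (nat_lit 7592445355273) (nat_lit 152) (nat_lit 82499196880974) (nat_lit 0) (nat_lit 7592400645646) (nat_lit 1) (nat_lit 5) (nat_lit 3) (nat_lit 4) (nat_lit 1) (nat_lit 4) (nat_lit 343) (nat_lit 226) (nat_lit 211)) (XT.lf (nat_lit 0) (nat_lit 8731460267253) (nat_lit 152) (nat_lit 94873750911089) (nat_lit 0) (nat_lit 8731414740527) (nat_lit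 1) (nat_lit 5) (nat_lit 3) (nat_lit 4) (nat_lit 1) (nat_lit 4) (nat_lit 344) (nat_lit 226) (nat_lit 210))))) (XT.nd (nat_lit 1170) (nat_lit 0) (nat_lit 0) (XT.nd (nat_lit 1092) (nat_lit 0) (nat_lit 0) (XT.lf (nat_lit 0) (nat_lit 10041323620367) (nat_lit 152) (nat_lit 109104495978037) (nat_lit 0) (nat_lit 10041277383119) (nat_lit 1) (nat_lit 5) (nat_lit 3) (nat_lit 4) (nat_lit 1) (nat_lit 4) (nat_lit 345) (nat_lit 226) (nat_lit 209)) (XT.lf (nat_lit 0) (nat_lit 71054815926303) (nat_lit 152) (nat_lit 771979452961886) (nat_lit 0) (nat_lit 71054765621691) (nat_lit 1) (nat_lit 5) (nat_lit 3) (nat_lit 4) (nat_lit 1) (nat_lit 4) (nat_lit 359) (nat_lit 226) (nat_lit 195))) (XT.nd (nat_lit 37986) (nat_lit 0) (nat_lit 0) (XT.lf (nat_lit 0) (nat_lit 81713160433620) (nat_lit 152) (nat_lit 887776099719645) (nat_lit 0) (nat_lit 81713110041692) (nat_lit 1) (nat_lit 5) (nat_lit 3) (nat_lit 4) (nat_lit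 1) (nat_lit 4) (nat_lit 360) (nat_lit 226) (nat_lit 194)) (XT.nd (nat_lit 78) (nat_lit 0) (nat_lit 0) (XT.lf (nat_lit 0) (nat_lit 351867333841) (nat_lit 152) (nat_lit 3835092720516) (nat_lit 0) (nat_lit 351867333841) (nat_lit 1) (nat_lit 5) (nat_lit 3) (nat_lit 4) (nat_lit 1) (nat_lit 4) (nat_lit 326) (nat_lit 227) (nat_lit 227)) (XT.lf (nat_lit 0) (nat_lit 809704035343) (nat_lit 152) (nat_lit 8819839788091) (nat_lit 0) (nat_lit 809696389234) (nat_lit 1) (nat_lit 5) (nat_lit 3) (nat_lit 4) (nat_lit 1) (nat_lit 4) (nat_lit 327) (nat_lit 227) (nat_lit 226))))))) (XT.nd (nat_lit 780) (nat_lit 0) (nat_lit 0) (XT.nd (nat_lit 390) (nat_lit 0) (nat_lit 0) (XT.nd (nat_lit 156) (nat_lit 0) (nat_lit 0) (XT.nd (nat_lit 78) (nat_lit 0) (nat_lit 0) (XT.lf (nat_lit 0) (nat_lit 931533289767) (nat_lit 152) (nat_lit 10142016514820) (nat_lit 0) (nat_lit 931518994869) (nat_lit 1) (nat_lit 5) (nat_lit 3)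 (nat_lit 4) (nat_lit 1) (nat_lit 4) (nat_lit 328) (nat_lit 227) (nat_lit 225)) (XT.lf (nat_lit 0) (nat_lit 1071606046803) (nat_lit 152) (nat_lit 11662584296307) (nat_lit 0) (nat_lit 1071585970348) (nat_lit 1) (nat_lit 5) (nat_lit 3) (nat_lit 4) (nat_lit 1) (nat_lit 4) (nat_lit 329) (nat_lit 227) (nat_lit 224))) (XT.nd (nat_lit 78) (nat_lit 0) (nat_lit 0) (XT.lf (nat_lit 0) (nat_lit 1232662860393) (nat_lit 152) (nat_lit 13411293371754) (nat_lit 0) (nat_lit 1232637756497) (nat_lit 1) (nat_lit 5) (nat_lit 3) (nat_lit 4) (nat_lit 1) (nat_lit 4) (nat_lit 330) (nat_lit 227) (nat_lit 223)) (XT.nd (nat_lit 78) (nat_lit 0) (nat_lit 0) (XT.lf (nat_lit 0) (nat_lit 1417854842105) (nat_lit 152) (nat_lit 15422357614378) (nat_lit 0) (nat_lit 1417825366522) (nat_lit 1) (nat_lit 5) (nat_lit 3) (nat_lit 4) (nat_lit 1) (nat_lit 4) (nat_lit 331) (nat_lit 227) (nat_lit 222)) (XT.lf (nat_lit 0) (nat_lit 1630805313323)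 (nat_lit 152) (nat_lit 17735123933273) (nat_lit 0) (nat_lit 1630772036272) (nat_lit 1) (nat_lit 5) (nat_lit 3) (nat_lit 4) (nat_lit 1) (nat_lit 4) (nat_lit 332) (nat_lit 227) (nat_lit 221))))) (XT.nd (nat_lit 156) (nat_lit 0) (nat_lit 0) (XT.nd (nat_lit 78) (nat_lit 0) (nat_lit 0) (XT.lf (nat_lit 0) (nat_lit 1875680696309) (nat_lit 152) (nat_lit 20394842104244) (nat_lit 0) (nat_lit 1875644113634) (nat_lit 1) (nat_lit 5) (nat_lit 3) (nat_lit 4) (nat_lit 1) (nat_lit 4) (nat_lit 333) (nat_lit 227) (nat_lit 220)) (XT.lf (nat_lit 0) (nat_lit 2157272031164) (nat_lit 152) (nat_lit 23453550091504) (nat_lit 0) (nat_lit 2157232574034) (nat_lit 1) (nat_lit 5) (nat_lit 3) (nat_lit 4) (nat_lit 1) (nat_lit 4) (nat_lit 334) (nat_lit 227) (nat_lit 219))) (XT.nd (nat_lit 78) (nat_lit 0) (nat_lit 0) (XT.lf (nat_lit 0) (nat_lit 2481088713571) (nat_lit 152) (nat_lit 26971092181762) (nat_lit 0) (nat_lit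 2481046756915) (nat_lit 1) (nat_lit 5) (nat_lit 3) (nat_lit 4) (nat_lit 1) (nat_lit 4) (nat_lit 335) (nat_lit 227) (nat_lit 218)) (XT.nd (nat_lit 78) (nat_lit 0) (nat_lit 0) (XT.lf (nat_lit 0) (nat_lit 2853466287316) (nat_lit 152) (nat_lit 31016289850696) (nat_lit 0) (nat_lit 2853422157158) (nat_lit 1) (nat_lit 5) (nat_lit 3) (nat_lit 4) (nat_lit 1) (nat_lit 4) (nat_lit 336) (nat_lit 227) (nat_lit 217)) (XT.lf (nat_lit 0) (nat_lit 3281690400580) (nat_lit 152) (nat_lit 35668288270091) (nat_lit 0) (nat_lit 3281644380422) (nat_lit 1) (nat_lit 5) (nat_lit 3) (nat_lit 4) (nat_lit 1) (nat_lit 4) (nat_lit 337) (nat_lit 227) (nat_lit 216)))))) (XT.nd (nat_lit 390) (nat_lit 0) (nat_lit 0) (XT.nd (nat_lit 156) (nat_lit 0) (nat_lit 0) (XT.nd (nat_lit 78) (nat_lit 0) (nat_lit 0) (XT.lf (nat_lit 0) (nat_lit 3774139351233) (nat_lit 152) (nat_lit 41018104800324) (nat_lit 0) (nat_lit 3774091687595)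 (nat_lit 1) (nat_lit 5) (nat_lit 3) (nat_lit 4) (nat_lit 1) (nat_lit 4) (nat_lit 338) (nat_lit 227) (nat_lit 215)) (XT.lf (nat_lit 0) (nat_lit 4340448010048) (nat_lit 152) (nat_lit 47170409764815) (nat_lit 0) (nat_lit 4340398917297) (nat_lit 1) (nat_lit 5) (nat_lit 3) (nat_lit 4) (nat_lit 1) (nat_lit 4) (nat_lit 339) (nat_lit 227) (nat_lit 214))) (XT.nd (nat_lit 78) (nat_lit 0) (nat_lit 0) (XT.lf (nat_lit 0) (nat_lit 4991696329044) (nat_lit 152) (nat_lit 54245574347650) (nat_lit 0) (nat_lit 4991645993588) (nat_lit 1) (nat_lit 5) (nat_lit 3) (nat_lit 4) (nat_lit 1) (nat_lit 4) (nat_lit 340) (nat_lit 227) (nat_lit 213)) (XT.nd (nat_lit 78) (nat_lit 0) (nat_lit 0) (XT.lf (nat_lit 0) (nat_lit 5740626123160) (nat_lit 152) (nat_lit 62382025681972) (nat_lit 0) (nat_lit 5740574707089) (nat_lit 1) (nat_lit 5) (nat_lit 3) (nat_lit 4) (nat_lit 1) (nat_lit 4) (nat_lit 341) (nat_lit 227) (nat_lit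 212)) (XT.lf (nat_lit 0) (nat_lit 6601890366627) (nat_lit 152) (nat_lit 71738955206932) (nat_lit 0) (nat_lit 6601838010891) (nat_lit 1) (nat_lit 5) (nat_lit 3) (nat_lit 4) (nat_lit 1) (nat_lit 4) (nat_lit 342) (nat_lit 227) (nat_lit 211))))) (XT.nd (nat_lit 39156) (nat_lit 0) (nat_lit 0) (XT.nd (nat_lit 78) (nat_lit 0) (nat_lit 0) (XT.lf (nat_lit 0) (nat_lit 7592339881600) (nat_lit 152) (nat_lit 82499433282799) (nat_lit 0) (nat_lit 7592286708765) (nat_lit 1) (nat_lit 5) (nat_lit 3) (nat_lit 4) (nat_lit 1) (nat_lit 4) (nat_lit 343) (nat_lit 227) (nat_lit 210)) (XT.nd (nat_lit 78) (nat_lit 0) (nat_lit 0) (XT.lf (nat_lit 0) (nat_lit 8731353028156) (nat_lit 152) (nat_lit 94873991002363) (nat_lit 0) (nat_lit 8731299144799) (nat_lit 1) (nat_lit 5) (nat_lit 3) (nat_lit 4) (nat_lit 1) (nat_lit 4) (nat_lit 344) (nat_lit 227) (nat_lit 209)) (XT.lf (nat_lit 0) (nat_lit 10041214846117) (nat_lit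 152) (nat_lit 109104739277529) (nat_lit 0) (nat_lit 10041160344915) (nat_lit 1) (nat_lit 5) (nat_lit 3) (nat_lit 4) (nat_lit 1) (nat_lit 4) (nat_lit 345) (nat_lit 227) (nat_lit 208)))) (XT.nd (nat_lit 78) (nat_lit 0) (nat_lit 0) (XT.lf (nat_lit 0) (nat_lit 265691358026) (nat_lit 152) (nat_lit 2900680315599) (nat_lit 0) (nat_lit 265691358026) (nat_lit 1) (nat_lit 5) (nat_lit 3) (nat_lit 4) (nat_lit 1) (nat_lit 4) (nat_lit 324) (nat_lit 228) (nat_lit 228)) (XT.nd (nat_lit 78) (nat_lit 0) (nat_lit 0) (XT.lf (nat_lit 0) (nat_lit 611560666095) (nat_lit 152) (nat_lit 6670560236418) (nat_lit 0) (nat_lit 611551873070) (nat_lit 1) (nat_lit 5) (nat_lit 3) (nat_lit 4) (nat_lit 1) (nat_lit 4) (nat_lit 325) (nat_lit 228) (nat_lit 227)) (XT.lf (nat_lit 0) (nat_lit 703724462501) (nat_lit 152) (nat_lit 7670225144173) (nat_lit 0) (nat_lit 703708023367) (nat_lit 1) (nat_lit 5) (nat_lit 3) (nat_lit 4)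 (nat_lit 1) (nat_lit 4) (nat_lit 326) (nat_lit 228) (nat_lit 226))))))))
noncomputable def xc4 : XT := (XT.nd (nat_lit 40404) (nat_lit 0) (nat_lit 0) (XT.nd (nat_lit 780) (nat_lit 0) (nat_lit 0) (XT.nd (nat_lit 390) (nat_lit 0) (nat_lit 0) (XT.nd (nat_lit 156) (nat_lit 0) (nat_lit 0) (XT.nd (nat_lit 78) (nat_lit 0) (nat_lit 0) (XT.lf (nat_lit 0) (nat_lit 809677309982) (nat_lit 152) (nat_lit 8819914015702) (nat_lit 0) (nat_lit 809654222059) (nat_lit 1) (nat_lit 5) (nat_lit 3) (nat_lit 4) (nat_lit 1) (nat_lit 4) (nat_lit 327) (nat_lit 228) (nat_lit 225)) (XT.lf (nat_lit 0) (nat_lit 931492199034) (nat_lit 152) (nat_lit 10142120763709) (nat_lit 0) (nat_lit 931463329553) (nat_lit 1) (nat_lit 5) (nat_lit 3) (nat_lit 4) (nat_lit 1) (nat_lit 4) (nat_lit 328) (nat_lit 228) (nat_lit 224))) (XT.nd (nat_lit 78) (nat_lit 0) (nat_lit 0) (XT.lf (nat_lit 0) (nat_lit 1071552464441) (nat_lit 152) (nat_lit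 11662714650656) (nat_lit 0) (nat_lit 1071518567520) (nat_lit 1) (nat_lit 5) (nat_lit 3) (nat_lit 4) (nat_lit 1) (nat_lit 4) (nat_lit 329) (nat_lit 228) (nat_lit 223)) (XT.nd (nat_lit 78) (nat_lit 0) (nat_lit 0) (XT.lf (nat_lit 0) (nat_lit 1232598415744) (nat_lit 152) (nat_lit 13411446426503) (nat_lit 0) (nat_lit 1232560147136) (nat_lit 1) (nat_lit 5) (nat_lit 3) (nat_lit 4) (nat_lit 1) (nat_lit 4) (nat_lit 330) (nat_lit 228) (nat_lit 222)) (XT.lf (nat_lit 0) (nat_lit 1417780951991) (nat_lit 152) (nat_lit 15422530408605) (nat_lit 0) (nat_lit 1417738881915) (nat_lit 1) (nat_lit 5) (nat_lit 3) (nat_lit 4) (nat_lit 1) (nat_lit 4) (nat_lit 331) (nat_lit 228) (nat_lit 221))))) (XT.nd (nat_lit 156) (nat_lit 0) (nat_lit 0) (XT.nd (nat_lit 78) (nat_lit 0) (nat_lit 0) (XT.lf (nat_lit 0) (nat_lit 1630723209760) (nat_lit 152) (nat_lit 17735313892263) (nat_lit 0) (nat_lit 1630677834061) (nat_lit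 1) (nat_lit 5) (nat_lit 3) (nat_lit 4) (nat_lit 1) (nat_lit 4) (nat_lit 332) (nat_lit 228) (nat_lit 220)) (XT.lf (nat_lit 0) (nat_lit 1875591450616) (nat_lit 152) (nat_lit 20395046989115) (nat_lit 0) (nat_lit 1875543200461) (nat_lit 1) (nat_lit 5) (nat_lit 3) (nat_lit 4) (nat_lit 1) (nat_lit 4) (nat_lit 333) (nat_lit 228) (nat_lit 219))) (XT.nd (nat_lit 78) (nat_lit 0) (nat_lit 0) (XT.lf (nat_lit 0) (nat_lit 2157176574924) (nat_lit 152) (nat_lit 23453767955402) (nat_lit 0) (nat_lit 2157125825243) (nat_lit 1) (nat_lit 5) (nat_lit 3) (nat_lit 4) (nat_lit 1) (nat_lit 4) (nat_lit 334) (nat_lit 228) (nat_lit 218)) (XT.nd (nat_lit 78) (nat_lit 0) (nat_lit 0) (XT.lf (nat_lit 0) (nat_lit 2480987856855) (nat_lit 152) (nat_lit 26971321331771) (nat_lit 0) (nat_lit 2480934933673) (nat_lit 1) (nat_lit 5) (nat_lit 3) (nat_lit 4) (nat_lit 1) (nat_lit 4) (nat_lit 335) (nat_lit 228) (nat_lit 217)) (XT.lf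 (nat_lit 0) (nat_lit 2853360734534) (nat_lit 152) (nat_lit 31016528814714) (nat_lit 0) (nat_lit 2853305921350) (nat_lit 1) (nat_lit 5) (nat_lit 3) (nat_lit 4) (nat_lit 1) (nat_lit 4) (nat_lit 336) (nat_lit 228) (nat_lit 216)))))) (XT.nd (nat_lit 390) (nat_lit 0) (nat_lit 0) (XT.nd (nat_lit 156) (nat_lit 0) (nat_lit 0) (XT.nd (nat_lit 78) (nat_lit 0) (nat_lit 0) (XT.lf (nat_lit 0) (nat_lit 3281580764263) (nat_lit 152) (nat_lit 35668535768029) (nat_lit 0) (nat_lit 3281524307600) (nat_lit 1) (nat_lit 5) (nat_lit 3) (nat_lit 4) (nat_lit 1) (nat_lit 4) (nat_lit 337) (nat_lit 228) (nat_lit 215)) (XT.lf (nat_lit 0) (nat_lit 3774026164015) (nat_lit 152) (nat_lit 41018359719064) (nat_lit 0) (nat_lit 3773968278240) (nat_lit 1) (nat_lit 5) (nat_lit 3) (nat_lit 4) (nat_lit 1) (nat_lit 4) (nat_lit 338) (nat_lit 228) (nat_lit 214))) (XT.nd (nat_lit 78) (nat_lit 0) (nat_lit 0) (XT.lf (nat_lit 0) (nat_lit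 4340331735090) (nat_lit 152) (nat_lit 47170671136425) (nat_lit 0) (nat_lit 4340272606609) (nat_lit 1) (nat_lit 5) (nat_lit 3) (nat_lit 4) (nat_lit 1) (nat_lit 4) (nat_lit 339) (nat_lit 228) (nat_lit 213)) (XT.nd (nat_lit 78) (nat_lit 0) (nat_lit 0) (XT.lf (nat_lit 0) (nat_lit 4991577369096) (nat_lit 152) (nat_lit 54245841330451) (nat_lit 0) (nat_lit 4991517160000) (nat_lit 1) (nat_lit 5) (nat_lit 3) (nat_lit 4) (nat_lit 1) (nat_lit 4) (nat_lit 340) (nat_lit 228) (nat_lit 212)) (XT.lf (nat_lit 0) (nat_lit 5740504828437) (nat_lit 152) (nat_lit 62382297544071) (nat_lit 0) (nat_lit 5740443679676) (nat_lit 1) (nat_lit 5) (nat_lit 3) (nat_lit 4) (nat_lit 1) (nat_lit 4) (nat_lit 341) (nat_lit 228) (nat_lit 211))))) (XT.nd (nat_lit 156) (nat_lit 0) (nat_lit 0) (XT.nd (nat_lit 78) (nat_lit 0) (nat_lit 0) (XT.lf (nat_lit 0) (nat_lit 6601767041665) (nat_lit 152) (nat_lit 71739231311898) (nat_lit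 0) (nat_lit 6601705075805) (nat_lit 1) (nat_lit 5) (nat_lit 3) (nat_lit 4) (nat_lit 1) (nat_lit 4) (nat_lit 342) (nat_lit 228) (nat_lit 210)) (XT.lf (nat_lit 0) (nat_lit 7592214791213) (nat_lit 152) (nat_lit 82499713077214) (nat_lit 0) (nat_lit 7592152114832) (nat_lit 1) (nat_lit 5) (nat_lit 3) (nat_lit 4) (nat_lit 1) (nat_lit 4) (nat_lit 343) (nat_lit 228) (nat_lit 209))) (XT.nd (nat_lit 38922) (nat_lit 0) (nat_lit 0) (XT.lf (nat_lit 0) (nat_lit 8731226402616) (nat_lit 152) (nat_lit 94874274004996) (nat_lit 0) (nat_lit 8731163108390) (nat_lit 1) (nat_lit 5) (nat_lit 3) (nat_lit 4) (nat_lit 1) (nat_lit 4) (nat_lit 344) (nat_lit 228) (nat_lit 208)) (XT.nd (nat_lit 78) (nat_lit 0) (nat_lit 0) (XT.lf (nat_lit 0) (nat_lit 200474304912) (nat_lit 152) (nat_lit 2194250179200) (nat_lit 0) (nat_lit 200474304912) (nat_lit 1) (nat_lit 5) (nat_lit 3) (nat_lit 4) (nat_lit 1) (nat_lit 4) (nat_lit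 322) (nat_lit 229) (nat_lit 229)) (XT.lf (nat_lit 0) (nat_lit 461632025329) (nat_lit 152) (nat_lit 5045620249282) (nat_lit 0) (nat_lit 461621913350) (nat_lit 1) (nat_lit 5) (nat_lit 3) (nat_lit 4) (nat_lit 1) (nat_lit 4) (nat_lit 323) (nat_lit 229) (nat_lit 228))))))) (XT.nd (nat_lit 780) (nat_lit 0) (nat_lit 0) (XT.nd (nat_lit 390) (nat_lit 0) (nat_lit 0) (XT.nd (nat_lit 156) (nat_lit 0) (nat_lit 0) (XT.nd (nat_lit 78) (nat_lit 0) (nat_lit 0) (XT.lf (nat_lit 0) (nat_lit 531370980094) (nat_lit 152) (nat_lit 5801406289810) (nat_lit 0) (nat_lit 531352075090) (nat_lit 1) (nat_lit 5) (nat_lit 3) (nat_lit 4) (nat_lit 1) (nat_lit 4) (nat_lit 324) (nat_lit 229) (nat_lit 227)) (XT.lf (nat_lit 0) (nat_lit 611529931930) (nat_lit 152) (nat_lit 6670645598171) (nat_lit 0) (nat_lit 611503380818) (nat_lit 1) (nat_lit 5) (nat_lit 3) (nat_lit 4) (nat_lit 1) (nat_lit 4) (nat_lit 325) (nat_lit 229) (nat_lit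 226))) (XT.nd (nat_lit 78) (nat_lit 0) (nat_lit 0) (XT.lf (nat_lit 0) (nat_lit 703677208157) (nat_lit 152) (nat_lit 7670345030396) (nat_lit 0) (nat_lit 703644008255) (nat_lit 1) (nat_lit 5) (nat_lit 3) (nat_lit 4) (nat_lit 1) (nat_lit 4) (nat_lit 326) (nat_lit 229) (nat_lit 225)) (XT.nd (nat_lit 78) (nat_lit 0) (nat_lit 0) (XT.lf (nat_lit 0) (nat_lit 809615690266) (nat_lit 152) (nat_lit 8820063923203) (nat_lit 0) (nat_lit 809576708807) (nat_lit 1) (nat_lit 5) (nat_lit 3) (nat_lit 4) (nat_lit 1) (nat_lit 4) (nat_lit 327) (nat_lit 229) (nat_lit 224)) (XT.lf (nat_lit 0) (nat_lit 931418087688) (nat_lit 152) (nat_lit 10142296776670) (nat_lit 0) (nat_lit 931374078789) (nat_lit 1) (nat_lit 5) (nat_lit 3) (nat_lit 4) (nat_lit 1) (nat_lit 4) (nat_lit 328) (nat_lit 229) (nat_lit 223))))) (XT.nd (nat_lit 156) (nat_lit 0) (nat_lit 0) (XT.nd (nat_lit 78) (nat_lit 0) (nat_lit 0) (XT.lf (nat_lit 0)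 (nat_lit 1071467490809) (nat_lit 152) (nat_lit 11662913364016) (nat_lit 0) (nat_lit 1071419110222) (nat_lit 1) (nat_lit 5) (nat_lit 3) (nat_lit 4) (nat_lit 1) (nat_lit 4) (nat_lit 329) (nat_lit 229) (nat_lit 222)) (XT.lf (nat_lit 0) (nat_lit 1232503996646) (nat_lit 152) (nat_lit 13411664879341) (nat_lit 0) (nat_lit 1232451814592) (nat_lit 1) (nat_lit 5) (nat_lit 3) (nat_lit 4) (nat_lit 1) (nat_lit 4) (nat_lit 330) (nat_lit 229) (nat_lit 221))) (XT.nd (nat_lit 78) (nat_lit 0) (nat_lit 0) (XT.lf (nat_lit 0) (nat_lit 1417678319444) (nat_lit 152) (nat_lit 15422766026206) (nat_lit 0) (nat_lit 1417622831767) (nat_lit 1) (nat_lit 5) (nat_lit 3) (nat_lit 4) (nat_lit 1) (nat_lit 4) (nat_lit 331) (nat_lit 229) (nat_lit 220)) (XT.nd (nat_lit 78) (nat_lit 0) (nat_lit 0) (XT.lf (nat_lit 0) (nat_lit 1630613435084) (nat_lit 152) (nat_lit 17735564435746) (nat_lit 0) (nat_lit 1630555072951) (nat_lit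 1) (nat_lit 5) (nat_lit 3) (nat_lit 4) (nat_lit 1) (nat_lit 4) (nat_lit 332) (nat_lit 229) (nat_lit 219)) (XT.lf (nat_lit 0) (nat_lit 1875475465393) (nat_lit 152) (nat_lit 20395310511624) (nat_lit 0) (nat_lit 1875414603733) (nat_lit 1) (nat_lit 5) (nat_lit 3) (nat_lit 4) (nat_lit 1) (nat_lit 4) (nat_lit 333) (nat_lit 229) (nat_lit 218)))))) (XT.nd (nat_lit 390) (nat_lit 0) (nat_lit 0) (XT.nd (nat_lit 156) (nat_lit 0) (nat_lit 0) (XT.nd (nat_lit 78) (nat_lit 0) (nat_lit 0) (XT.lf (nat_lit 0) (nat_lit 2157055189225) (nat_lit 152) (nat_lit 23454042764023) (nat_lit 0) (nat_lit 2156992154064) (nat_lit 1) (nat_lit 5) (nat_lit 3) (nat_lit 4) (nat_lit 1) (nat_lit 4) (nat_lit 334) (nat_lit 229) (nat_lit 217)) (XT.lf (nat_lit 0) (nat_lit 2480861775090) (nat_lit 152) (nat_lit 26971605954400) (nat_lit 0) (nat_lit 2480796849928) (nat_lit 1) (nat_lit 5) (nat_lit 3) (nat_lit 4) (nat_lit 1) (nat_lit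 4) (nat_lit 335) (nat_lit 229) (nat_lit 216))) (XT.nd (nat_lit 78) (nat_lit 0) (nat_lit 0) (XT.lf (nat_lit 0) (nat_lit 2853230569233) (nat_lit 152) (nat_lit 31016821971265) (nat_lit 0) (nat_lit 2853164000592) (nat_lit 1) (nat_lit 5) (nat_lit 3) (nat_lit 4) (nat_lit 1) (nat_lit 4) (nat_lit 336) (nat_lit 229) (nat_lit 215)) (XT.nd (nat_lit 78) (nat_lit 0) (nat_lit 0) (XT.lf (nat_lit 0) (nat_lit 3281447048062) (nat_lit 152) (nat_lit 35668836345381) (nat_lit 0) (nat_lit 3281379050308) (nat_lit 1) (nat_lit 5) (nat_lit 3) (nat_lit 4) (nat_lit 1) (nat_lit 4) (nat_lit 337) (nat_lit 229) (nat_lit 214)) (XT.lf (nat_lit 0) (nat_lit 3773889360075) (nat_lit 152) (nat_lit 41018666749286) (nat_lit 0) (nat_lit 3773820119614) (nat_lit 1) (nat_lit 5) (nat_lit 3) (nat_lit 4) (nat_lit 1) (nat_lit 4) (nat_lit 338) (nat_lit 229) (nat_lit 213))))) (XT.nd (nat_lit 156) (nat_lit 0) (nat_lit 0) (XT.nd (nat_lit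 78) (nat_lit 0) (nat_lit 0) (XT.lf (nat_lit 0) (nat_lit 4340192246159) (nat_lit 152) (nat_lit 47170983777838) (nat_lit 0) (nat_lit 4340121925084) (nat_lit 1) (nat_lit 5) (nat_lit 3) (nat_lit 4) (nat_lit 1) (nat_lit 4) (nat_lit 339) (nat_lit 229) (nat_lit 212)) (XT.lf (nat_lit 0) (nat_lit 4991435545389) (nat_lit 152) (nat_lit 54246158851162) (nat_lit 0) (nat_lit 4991364284650) (nat_lit 1) (nat_lit 5) (nat_lit 3) (nat_lit 4) (nat_lit 1) (nat_lit 4) (nat_lit 340) (nat_lit 229) (nat_lit 211))) (XT.nd (nat_lit 78) (nat_lit 0) (nat_lit 0) (XT.lf (nat_lit 0) (nat_lit 5740360974491) (nat_lit 152) (nat_lit 62382619307648) (nat_lit 0) (nat_lit 5740288896652) (nat_lit 1) (nat_lit 5) (nat_lit 3) (nat_lit 4) (nat_lit 1) (nat_lit 4) (nat_lit 341) (nat_lit 229) (nat_lit 210)) (XT.nd (nat_lit 78) (nat_lit 0) (nat_lit 0) (XT.lf (nat_lit 0) (nat_lit 6601621422294) (nat_lit 152) (nat_lit 71739556764925)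 (nat_lit 0) (nat_lit 6601548633934) (nat_lit 1) (nat_lit 5) (nat_lit 3) (nat_lit 4) (nat_lit 1) (nat_lit 4) (nat_lit 342) (nat_lit 229) (nat_lit 209)) (XT.lf (nat_lit 0) (nat_lit 7592067636690) (nat_lit 152) (nat_lit 82500041738458) (nat_lit 0) (nat_lit 7591994230485) (nat_lit 1) (nat_lit 5) (nat_lit 3) (nat_lit 4) (nat_lit 1) (nat_lit 4) (nat_lit 343) (nat_lit 229) (nat_lit 208))))))))
noncomputable def xc5 : XT := (XT.nd (nat_lit 40248) (nat_lit 0) (nat_lit 0) (XT.nd (nat_lit 39468) (nat_lit 0) (nat_lit 0) (XT.nd (nat_lit 39078) (nat_lit 0) (nat_lit 0) (XT.nd (nat_lit 38844) (nat_lit 0) (nat_lit 0) (XT.nd (nat_lit 38766) (nat_lit 0) (nat_lit 0) (XT.lf (nat_lit 0) (nat_lit 8731077913178) (nat_lit 152) (nat_lit 94874605455994) (nat_lit 0) (nat_lit 8731003969717) (nat_lit 1) (nat_lit 5) (nat_lit 3) (nat_lit 4) (nat_lit 1) (nat_lit 4) (nat_lit 344) (nat_lit 229) (nat_lit 207)) (XT.lf (nat_lit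 0) (nat_lit 151096863264) (nat_lit 152) (nat_lit 1660225374331) (nat_lit 0) (nat_lit 151096863264) (nat_lit 1) (nat_lit 5) (nat_lit 3) (nat_lit 4) (nat_lit 1) (nat_lit 4) (nat_lit 320) (nat_lit 230) (nat_lit 230))) (XT.nd (nat_lit 78) (nat_lit 0) (nat_lit 0) (XT.lf (nat_lit 0) (nat_lit 348145078142) (nat_lit 152) (nat_lit 3817189923650) (nat_lit 0) (nat_lit 348133449366) (nat_lit 1) (nat_lit 5) (nat_lit 3) (nat_lit 4) (nat_lit 1) (nat_lit 4) (nat_lit 321) (nat_lit 230) (nat_lit 229)) (XT.nd (nat_lit 78) (nat_lit 0) (nat_lit 0) (XT.lf (nat_lit 0) (nat_lit 400935113473) (nat_lit 152) (nat_lit 4388552865805) (nat_lit 0) (nat_lit 400913372719) (nat_lit 1) (nat_lit 5) (nat_lit 3) (nat_lit 4) (nat_lit 1) (nat_lit 4) (nat_lit 322) (nat_lit 230) (nat_lit 228)) (XT.lf (nat_lit 0) (nat_lit 461596681040) (nat_lit 152) (nat_lit 5045718415297) (nat_lit 0) (nat_lit 461566147261) (nat_lit 1) (nat_lit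 5) (nat_lit 3) (nat_lit 4) (nat_lit 1) (nat_lit 4) (nat_lit 323) (nat_lit 230) (nat_lit 227))))) (XT.nd (nat_lit 156) (nat_lit 0) (nat_lit 0) (XT.nd (nat_lit 78) (nat_lit 0) (nat_lit 0) (XT.lf (nat_lit 0) (nat_lit 531316637599) (nat_lit 152) (nat_lit 5801544158966) (nat_lit 0) (nat_lit 531278457711) (nat_lit 1) (nat_lit 5) (nat_lit 3) (nat_lit 4) (nat_lit 1) (nat_lit 4) (nat_lit 324) (nat_lit 230) (nat_lit 226)) (XT.lf (nat_lit 0) (nat_lit 611459069256) (nat_lit 152) (nat_lit 6670817991797) (nat_lit 0) (nat_lit 611414240578) (nat_lit 1) (nat_lit 5) (nat_lit 3) (nat_lit 4) (nat_lit 1) (nat_lit 4) (nat_lit 325) (nat_lit 230) (nat_lit 225))) (XT.nd (nat_lit 78) (nat_lit 0) (nat_lit 0) (XT.lf (nat_lit 0) (nat_lit 703591980110) (nat_lit 152) (nat_lit 7670547445301) (nat_lit 0) (nat_lit 703541369875) (nat_lit 1) (nat_lit 5) (nat_lit 3) (nat_lit 4) (nat_lit 1) (nat_lit 4) (nat_lit 326) (nat_lit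 230) (nat_lit 224)) (XT.nd (nat_lit 78) (nat_lit 0) (nat_lit 0) (XT.lf (nat_lit 0) (nat_lit 809517970589) (nat_lit 152) (nat_lit 8820292443568) (nat_lit 0) (nat_lit 809462332914) (nat_lit 1) (nat_lit 5) (nat_lit 3) (nat_lit 4) (nat_lit 1) (nat_lit 4) (nat_lit 327) (nat_lit 230) (nat_lit 223)) (XT.lf (nat_lit 0) (nat_lit 931309505726) (nat_lit 152) (nat_lit 10142547997434) (nat_lit 0) (nat_lit 931249496363) (nat_lit 1) (nat_lit 5) (nat_lit 3) (nat_lit 4) (nat_lit 1) (nat_lit 4) (nat_lit 328) (nat_lit 230) (nat_lit 222)))))) (XT.nd (nat_lit 390) (nat_lit 0) (nat_lit 0) (XT.nd (nat_lit 156) (nat_lit 0) (nat_lit 0) (XT.nd (nat_lit 78) (nat_lit 0) (nat_lit 0) (XT.lf (nat_lit 0) (nat_lit 1071349463381) (nat_lit 152) (nat_lit 11663184324258) (nat_lit 0) (nat_lit 1071285652551) (nat_lit 1) (nat_lit 5) (nat_lit 3) (nat_lit 4) (nat_lit 1) (nat_lit 4) (nat_lit 329) (nat_lit 230) (nat_lit 221))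 (XT.lf (nat_lit 0) (nat_lit 1232377755769) (nat_lit 152) (nat_lit 13411953004346) (nat_lit 0) (nat_lit 1232310639316) (nat_lit 1) (nat_lit 5) (nat_lit 3) (nat_lit 4) (nat_lit 1) (nat_lit 4) (nat_lit 330) (nat_lit 230) (nat_lit 220))) (XT.nd (nat_lit 78) (nat_lit 0) (nat_lit 0) (XT.lf (nat_lit 0) (nat_lit 1417544936438) (nat_lit 152) (nat_lit 15423069077092) (nat_lit 0) (nat_lit 1417474945529) (nat_lit 1) (nat_lit 5) (nat_lit 3) (nat_lit 4) (nat_lit 1) (nat_lit 4) (nat_lit 331) (nat_lit 230) (nat_lit 219)) (XT.nd (nat_lit 78) (nat_lit 0) (nat_lit 0) (XT.lf (nat_lit 0) (nat_lit 1630473841530) (nat_lit 152) (nat_lit 17735880465659) (nat_lit 0) (nat_lit 1630401351095) (nat_lit 1) (nat_lit 5) (nat_lit 3) (nat_lit 4) (nat_lit 1) (nat_lit 4) (nat_lit 332) (nat_lit 230) (nat_lit 218)) (XT.lf (nat_lit 0) (nat_lit 1875330471363) (nat_lit 152) (nat_lit 20395637827648) (nat_lit 0) (nat_lit 1875255807427)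 (nat_lit 1) (nat_lit 5) (nat_lit 3) (nat_lit 4) (nat_lit 1) (nat_lit 4) (nat_lit 333) (nat_lit 230) (nat_lit 217))))) (XT.nd (nat_lit 156) (nat_lit 0) (nat_lit 0) (XT.nd (nat_lit 78) (nat_lit 0) (nat_lit 0) (XT.lf (nat_lit 0) (nat_lit 2156905499130) (nat_lit 152) (nat_lit 23454379894056) (nat_lit 0) (nat_lit 2156828945192) (nat_lit 1) (nat_lit 5) (nat_lit 3) (nat_lit 4) (nat_lit 1) (nat_lit 4) (nat_lit 334) (nat_lit 230) (nat_lit 216)) (XT.lf (nat_lit 0) (nat_lit 2480708001459) (nat_lit 152) (nat_lit 26971951618354) (nat_lit 0) (nat_lit 2480629804042) (nat_lit 1) (nat_lit 5) (nat_lit 3) (nat_lit 4) (nat_lit 1) (nat_lit 4) (nat_lit 335) (nat_lit 230) (nat_lit 215))) (XT.nd (nat_lit 78) (nat_lit 0) (nat_lit 0) (XT.lf (nat_lit 0) (nat_lit 2853073244702) (nat_lit 152) (nat_lit 31017175056020) (nat_lit 0) (nat_lit 2852993618172) (nat_lit 1) (nat_lit 5) (nat_lit 3) (nat_lit 4) (nat_lit 1)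 (nat_lit 4) (nat_lit 336) (nat_lit 230) (nat_lit 214)) (XT.nd (nat_lit 78) (nat_lit 0) (nat_lit 0) (XT.lf (nat_lit 0) (nat_lit 3281286635791) (nat_lit 152) (nat_lit 35669195883006) (nat_lit 0) (nat_lit 3281205766555) (nat_lit 1) (nat_lit 5) (nat_lit 3) (nat_lit 4) (nat_lit 1) (nat_lit 4) (nat_lit 337) (nat_lit 230) (nat_lit 213)) (XT.lf (nat_lit 0) (nat_lit 3773726262812) (nat_lit 152) (nat_lit 41019031898103) (nat_lit 0) (nat_lit 3773644312962) (nat_lit 1) (nat_lit 5) (nat_lit 3) (nat_lit 4) (nat_lit 1) (nat_lit 4) (nat_lit 338) (nat_lit 230) (nat_lit 212))))))) (XT.nd (nat_lit 39234) (nat_lit 0) (nat_lit 0) (XT.nd (nat_lit 390) (nat_lit 0) (nat_lit 0) (XT.nd (nat_lit 156) (nat_lit 0) (nat_lit 0) (XT.nd (nat_lit 78) (nat_lit 0) (nat_lit 0) (XT.lf (nat_lit 0) (nat_lit 4340026814121) (nat_lit 152) (nat_lit 47171353805952) (nat_lit 0) (nat_lit 4339943924607) (nat_lit 1) (nat_lit 5) (nat_lit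 3) (nat_lit 4) (nat_lit 1) (nat_lit 4) (nat_lit 339) (nat_lit 230) (nat_lit 211)) (XT.lf (nat_lit 0) (nat_lit 4991268083113) (nat_lit 152) (nat_lit 54246533122143) (nat_lit 0) (nat_lit 4991184376499) (nat_lit 1) (nat_lit 5) (nat_lit 3) (nat_lit 4) (nat_lit 1) (nat_lit 4) (nat_lit 340) (nat_lit 230) (nat_lit 210))) (XT.nd (nat_lit 78) (nat_lit 0) (nat_lit 0) (XT.lf (nat_lit 0) (nat_lit 5740191746790) (nat_lit 152) (nat_lit 62382997268079) (nat_lit 0) (nat_lit 5740107329654) (nat_lit 1) (nat_lit 5) (nat_lit 3) (nat_lit 4) (nat_lit 1) (nat_lit 4) (nat_lit 341) (nat_lit 230) (nat_lit 209)) (XT.nd (nat_lit 78) (nat_lit 0) (nat_lit 0) (XT.lf (nat_lit 0) (nat_lit 6601450659441) (nat_lit 152) (nat_lit 71739937933572) (nat_lit 0) (nat_lit 6601365624460) (nat_lit 1) (nat_lit 5) (nat_lit 3) (nat_lit 4) (nat_lit 1) (nat_lit 4) (nat_lit 342) (nat_lit 230) (nat_lit 208)) (XT.lf (nat_lit 0) (nat_lit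 7591895538922) (nat_lit 152) (nat_lit 82500425696860) (nat_lit 0) (nat_lit 7591809966685) (nat_lit 1) (nat_lit 5) (nat_lit 3) (nat_lit 4) (nat_lit 1) (nat_lit 4) (nat_lit 343) (nat_lit 230) (nat_lit 207))))) (XT.nd (nat_lit 38610) (nat_lit 0) (nat_lit 0) (XT.nd (nat_lit 78) (nat_lit 0) (nat_lit 0) (XT.lf (nat_lit 0) (nat_lit 8730904654614) (nat_lit 152) (nat_lit 94874991840268) (nat_lit 0) (nat_lit 8730818615198) (nat_lit 1) (nat_lit 5) (nat_lit 3) (nat_lit 4) (nat_lit 1) (nat_lit 4) (nat_lit 344) (nat_lit 230) (nat_lit 206)) (XT.lf (nat_lit 0) (nat_lit 10040762967477) (nat_lit 152) (nat_lit 109105747440515) (nat_lit 0) (nat_lit 10040676521818) (nat_lit 1) (nat_lit 5) (nat_lit 3) (nat_lit 4) (nat_lit 1) (nat_lit 4) (nat_lit 345) (nat_lit 230) (nat_lit 205))) (XT.nd (nat_lit 78) (nat_lit 0) (nat_lit 0) (XT.lf (nat_lit 0) (nat_lit 113686846526) (nat_lit 152) (nat_lit 1256584449479) (nat_lit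 0) (nat_lit 113686846526) (nat_lit 1) (nat_lit 5) (nat_lit 3) (nat_lit 4) (nat_lit 1) (nat_lit 4) (nat_lit 318) (nat_lit 231) (nat_lit 231)) (XT.nd (nat_lit 78) (nat_lit 0) (nat_lit 0) (XT.lf (nat_lit 0) (nat_lit 262195383540) (nat_lit 152) (nat_lit 2888616530895) (nat_lit 0) (nat_lit 262182010448) (nat_lit 1) (nat_lit 5) (nat_lit 3) (nat_lit 4) (nat_lit 1) (nat_lit 4) (nat_lit 319) (nat_lit 231) (nat_lit 230)) (XT.lf (nat_lit 0) (nat_lit 302178205723) (nat_lit 152) (nat_lit 3320511132176) (nat_lit 0) (nat_lit 302153203856) (nat_lit 1) (nat_lit 5) (nat_lit 3) (nat_lit 4) (nat_lit 1) (nat_lit 4) (nat_lit 320) (nat_lit 231) (nat_lit 229)))))) (XT.nd (nat_lit 390) (nat_lit 0) (nat_lit 0) (XT.nd (nat_lit 156) (nat_lit 0) (nat_lit 0) (XT.nd (nat_lit 78) (nat_lit 0) (nat_lit 0) (XT.lf (nat_lit 0) (nat_lit 348104432209) (nat_lit 152) (nat_lit 3817302814568) (nat_lit 0) (nat_lit 348069318363)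 (nat_lit 1) (nat_lit 5) (nat_lit 3) (nat_lit 4) (nat_lit 1) (nat_lit 4) (nat_lit 321) (nat_lit 231) (nat_lit 228)) (XT.lf (nat_lit 0) (nat_lit 400872619604) (nat_lit 152) (nat_lit 4388711415334) (nat_lit 0) (nat_lit 400828712733) (nat_lit 1) (nat_lit 5) (nat_lit 3) (nat_lit 4) (nat_lit 1) (nat_lit 4) (nat_lit 322) (nat_lit 231) (nat_lit 227))) (XT.nd (nat_lit 78) (nat_lit 0) (nat_lit 0) (XT.lf (nat_lit 0) (nat_lit 461515188965) (nat_lit 152) (nat_lit 5045916667968) (nat_lit 0) (nat_lit 461463635985) (nat_lit 1) (nat_lit 5) (nat_lit 3) (nat_lit 4) (nat_lit 1) (nat_lit 4) (nat_lit 323) (nat_lit 231) (nat_lit 226)) (XT.nd (nat_lit 78) (nat_lit 0) (nat_lit 0) (XT.lf (nat_lit 0) (nat_lit 531218625344) (nat_lit 152) (nat_lit 5801776936107) (nat_lit 0) (nat_lit 531160423575) (nat_lit 1) (nat_lit 5) (nat_lit 3) (nat_lit 4) (nat_lit 1) (nat_lit 4) (nat_lit 324) (nat_lit 231) (nat_lit 225)) (XT.lf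 (nat_lit 0) (nat_lit 611346691628) (nat_lit 152) (nat_lit 6671080790216) (nat_lit 0) (nat_lit 611282708302) (nat_lit 1) (nat_lit 5) (nat_lit 3) (nat_lit 4) (nat_lit 1) (nat_lit 4) (nat_lit 325) (nat_lit 231) (nat_lit 224))))) (XT.nd (nat_lit 234) (nat_lit 0) (nat_lit 0) (XT.nd (nat_lit 78) (nat_lit 0) (nat_lit 0) (XT.lf (nat_lit 0) (nat_lit 703467110853) (nat_lit 152) (nat_lit 7670836349179) (nat_lit 0) (nat_lit 703398100086) (nat_lit 1) (nat_lit 5) (nat_lit 3) (nat_lit 4) (nat_lit 1) (nat_lit 4) (nat_lit 326) (nat_lit 231) (nat_lit 223)) (XT.nd (nat_lit 78) (nat_lit 0) (nat_lit 0) (XT.lf (nat_lit 0) (nat_lit 809382239047) (nat_lit 152) (nat_lit 8820604047846) (nat_lit 0) (nat_lit 809308856592) (nat_lit 1) (nat_lit 5) (nat_lit 3) (nat_lit 4) (nat_lit 1) (nat_lit 4) (nat_lit 327) (nat_lit 231) (nat_lit 222)) (XT.lf (nat_lit 0) (nat_lit 931164328717) (nat_lit 152) (nat_lit 10142879341190)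 (nat_lit 0) (nat_lit 931087144796) (nat_lit 1) (nat_lit 5) (nat_lit 3) (nat_lit 4) (nat_lit 1) (nat_lit 4) (nat_lit 328) (nat_lit 231) (nat_lit 221)))) (XT.nd (nat_lit 78) (nat_lit 0) (nat_lit 0) (XT.lf (nat_lit 0) (nat_lit 1071196072923) (nat_lit 152) (nat_lit 11663532832777) (nat_lit 0) (nat_lit 1071115583378) (nat_lit 1) (nat_lit 5) (nat_lit 3) (nat_lit 4) (nat_lit 1) (nat_lit 4) (nat_lit 329) (nat_lit 231) (nat_lit 220)) (XT.nd (nat_lit 78) (nat_lit 0) (nat_lit 0) (XT.lf (nat_lit 0) (nat_lit 1232217223182) (nat_lit 152) (nat_lit 13412316438747) (nat_lit 0) (nat_lit 1232133859182) (nat_lit 1) (nat_lit 5) (nat_lit 3) (nat_lit 4) (nat_lit 1) (nat_lit 4) (nat_lit 330) (nat_lit 231) (nat_lit 219)) (XT.lf (nat_lit 0) (nat_lit 1417378193304) (nat_lit 152) (nat_lit 15423445490520) (nat_lit 0) (nat_lit 1417292329777) (nat_lit 1) (nat_lit 5) (nat_lit 3) (nat_lit 4) (nat_lit 1) (nat_lit 4)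 (nat_lit 331) (nat_lit 231) (nat_lit 218))))))))
noncomputable def xc6 : XT := (XT.nd (nat_lit 39780) (nat_lit 0) (nat_lit 0) (XT.nd (nat_lit 780) (nat_lit 0) (nat_lit 0) (XT.nd (nat_lit 390) (nat_lit 0) (nat_lit 0) (XT.nd (nat_lit 156) (nat_lit 0) (nat_lit 0) (XT.nd (nat_lit 78) (nat_lit 0) (nat_lit 0) (XT.lf (nat_lit 0) (nat_lit 1630301697920) (nat_lit 152) (nat_lit 17736268165197) (nat_lit 0) (nat_lit 1630213660892) (nat_lit 1) (nat_lit 5) (nat_lit 3) (nat_lit 4) (nat_lit 1) (nat_lit 4) (nat_lit 332) (nat_lit 231) (nat_lit 217)) (XT.lf (nat_lit 0) (nat_lit 1875153631687) (nat_lit 152) (nat_lit 20396035341196) (nat_lit 0) (nat_lit 1875063704658) (nat_lit 1) (nat_lit 5) (nat_lit 3) (nat_lit 4) (nat_lit 1) (nat_lit 4) (nat_lit 333) (nat_lit 231) (nat_lit 216))) (XT.nd (nat_lit 78) (nat_lit 0) (nat_lit 0) (XT.lf (nat_lit 0) (nat_lit 2156724575918) (nat_lit 152) (nat_lit 23454785941524)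 (nat_lit 0) (nat_lit 2156633005409) (nat_lit 1) (nat_lit 5) (nat_lit 3) (nat_lit 4) (nat_lit 1) (nat_lit 4) (nat_lit 334) (nat_lit 231) (nat_lit 215)) (XT.nd (nat_lit 78) (nat_lit 0) (nat_lit 0) (XT.lf (nat_lit 0) (nat_lit 2480523527347) (nat_lit 152) (nat_lit 26972365086624) (nat_lit 0) (nat_lit 2480430527726) (nat_lit 1) (nat_lit 5) (nat_lit 3) (nat_lit 4) (nat_lit 1) (nat_lit 4) (nat_lit 335) (nat_lit 231) (nat_lit 214)) (XT.lf (nat_lit 0) (nat_lit 2852885682850) (nat_lit 152) (nat_lit 31017594977159) (nat_lit 0) (nat_lit 2852791440522) (nat_lit 1) (nat_lit 5) (nat_lit 3) (nat_lit 4) (nat_lit 1) (nat_lit 4) (nat_lit 336) (nat_lit 231) (nat_lit 213))))) (XT.nd (nat_lit 156) (nat_lit 0) (nat_lit 0) (XT.nd (nat_lit 78) (nat_lit 0) (nat_lit 0) (XT.lf (nat_lit 0) (nat_lit 3281096388948) (nat_lit 152) (nat_lit 35669621415337) (nat_lit 0) (nat_lit 3281001066006) (nat_lit 1) (nat_lit 5) (nat_lit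 3) (nat_lit 4) (nat_lit 1) (nat_lit 4) (nat_lit 337) (nat_lit 231) (nat_lit 212)) (XT.lf (nat_lit 0) (nat_lit 3773533681195) (nat_lit 152) (nat_lit 41019462309731) (nat_lit 0) (nat_lit 3773437418588) (nat_lit 1) (nat_lit 5) (nat_lit 3) (nat_lit 4) (nat_lit 1) (nat_lit 4) (nat_lit 338) (nat_lit 231) (nat_lit 211))) (XT.nd (nat_lit 78) (nat_lit 0) (nat_lit 0) (XT.lf (nat_lit 0) (nat_lit 4339832202265) (nat_lit 152) (nat_lit 47171788460447) (nat_lit 0) (nat_lit 4339735122559) (nat_lit 1) (nat_lit 5) (nat_lit 3) (nat_lit 4) (nat_lit 1) (nat_lit 4) (nat_lit 339) (nat_lit 231) (nat_lit 210)) (XT.nd (nat_lit 78) (nat_lit 0) (nat_lit 0) (XT.lf (nat_lit 0) (nat_lit 4991071705832) (nat_lit 152) (nat_lit 54246971466088) (nat_lit 0) (nat_lit 4990973915604) (nat_lit 1) (nat_lit 5) (nat_lit 3) (nat_lit 4) (nat_lit 1) (nat_lit 4) (nat_lit 340) (nat_lit 231) (nat_lit 209)) (XT.lf (nat_lit 0) (nat_lit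 5739993834356) (nat_lit 152) (nat_lit 62383438820241) (nat_lit 0) (nat_lit 5739895426284) (nat_lit 1) (nat_lit 5) (nat_lit 3) (nat_lit 4) (nat_lit 1) (nat_lit 4) (nat_lit 341) (nat_lit 231) (nat_lit 208)))))) (XT.nd (nat_lit 38610) (nat_lit 0) (nat_lit 0) (XT.nd (nat_lit 156) (nat_lit 0) (nat_lit 0) (XT.nd (nat_lit 78) (nat_lit 0) (nat_lit 0) (XT.lf (nat_lit 0) (nat_lit 6601251412092) (nat_lit 152) (nat_lit 71740382275488) (nat_lit 0) (nat_lit 6601152466763) (nat_lit 1) (nat_lit 5) (nat_lit 3) (nat_lit 4) (nat_lit 1) (nat_lit 4) (nat_lit 342) (nat_lit 231) (nat_lit 207)) (XT.lf (nat_lit 0) (nat_lit 7591695130777) (nat_lit 152) (nat_lit 82500872464649) (nat_lit 0) (nat_lit 7591595718269) (nat_lit 1) (nat_lit 5) (nat_lit 3) (nat_lit 4) (nat_lit 1) (nat_lit 4) (nat_lit 343) (nat_lit 231) (nat_lit 206))) (XT.nd (nat_lit 78) (nat_lit 0) (nat_lit 0) (XT.lf (nat_lit 0) (nat_lit 8730703237082)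 (nat_lit 152) (nat_lit 94875440717511) (nat_lit 0) (nat_lit 8730603418331) (nat_lit 1) (nat_lit 5) (nat_lit 3) (nat_lit 4) (nat_lit 1) (nat_lit 4) (nat_lit 344) (nat_lit 231) (nat_lit 205)) (XT.nd (nat_lit 78) (nat_lit 0) (nat_lit 0) (XT.lf (nat_lit 0) (nat_lit 10040560672216) (nat_lit 152) (nat_lit 109106198152067) (nat_lit 0) (nat_lit 10040460500211) (nat_lit 1) (nat_lit 5) (nat_lit 3) (nat_lit 4) (nat_lit 1) (nat_lit 4) (nat_lit 345) (nat_lit 231) (nat_lit 204)) (XT.lf (nat_lit 0) (nat_lit 11546895081651) (nat_lit 152) (nat_lit 125471572631165) (nat_lit 0) (nat_lit 11546794602468) (nat_lit 1) (nat_lit 5) (nat_lit 3) (nat_lit 4) (nat_lit 1) (nat_lit 4) (nat_lit 346) (nat_lit 231) (nat_lit 203))))) (XT.nd (nat_lit 156) (nat_lit 0) (nat_lit 0) (XT.nd (nat_lit 78) (nat_lit 0) (nat_lit 0) (XT.lf (nat_lit 0) (nat_lit 85314885810) (nat_lit 152) (nat_lit 951556252250) (nat_lit 0) (nat_lit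 85314885810) (nat_lit 1) (nat_lit 5) (nat_lit 3) (nat_lit 4) (nat_lit 1) (nat_lit 4) (nat_lit 316) (nat_lit 232) (nat_lit 232)) (XT.lf (nat_lit 0) (nat_lit 197047219372) (nat_lit 152) (nat_lit 2186822521831) (nat_lit 0) (nat_lit 197031840316) (nat_lit 1) (nat_lit 5) (nat_lit 3) (nat_lit 4) (nat_lit 1) (nat_lit 4) (nat_lit 317) (nat_lit 232) (nat_lit 231))) (XT.nd (nat_lit 78) (nat_lit 0) (nat_lit 0) (XT.lf (nat_lit 0) (nat_lit 227355844127) (nat_lit 152) (nat_lit 2513238340000) (nat_lit 0) (nat_lit 227327091980) (nat_lit 1) (nat_lit 5) (nat_lit 3) (nat_lit 4) (nat_lit 1) (nat_lit 4) (nat_lit 318) (nat_lit 232) (nat_lit 230)) (XT.nd (nat_lit 78) (nat_lit 0) (nat_lit 0) (XT.lf (nat_lit 0) (nat_lit 262148640718) (nat_lit 152) (nat_lit 2888746355450) (nat_lit 0) (nat_lit 262108259795) (nat_lit 1) (nat_lit 5) (nat_lit 3) (nat_lit 4) (nat_lit 1) (nat_lit 4) (nat_lit 319) (nat_lit 232) (nat_lit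 229)) (XT.lf (nat_lit 0) (nat_lit 302106337773) (nat_lit 152) (nat_lit 3320693464135) (nat_lit 0) (nat_lit 302055844872) (nat_lit 1) (nat_lit 5) (nat_lit 3) (nat_lit 4) (nat_lit 1) (nat_lit 4) (nat_lit 320) (nat_lit 232) (nat_lit 228))))))) (XT.nd (nat_lit 780) (nat_lit 0) (nat_lit 0) (XT.nd (nat_lit 390) (nat_lit 0) (nat_lit 0) (XT.nd (nat_lit 156) (nat_lit 0) (nat_lit 0) (XT.nd (nat_lit 78) (nat_lit 0) (nat_lit 0) (XT.lf (nat_lit 0) (nat_lit 348010716323) (nat_lit 152) (nat_lit 3817530805139) (nat_lit 0) (nat_lit 347951430396) (nat_lit 1) (nat_lit 5) (nat_lit 3) (nat_lit 4) (nat_lit 1) (nat_lit 4) (nat_lit 321) (nat_lit 232) (nat_lit 227)) (XT.lf (nat_lit 0) (nat_lit 400759905511) (nat_lit 152) (nat_lit 4388979109046) (nat_lit 0) (nat_lit 400692973476) (nat_lit 1) (nat_lit 5) (nat_lit 3) (nat_lit 4) (nat_lit 1) (nat_lit 4) (nat_lit 322) (nat_lit 232) (nat_lit 226))) (XT.nd (nat_lit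 78) (nat_lit 0) (nat_lit 0) (XT.lf (nat_lit 0) (nat_lit 461385954693) (nat_lit 152) (nat_lit 5046218886149) (nat_lit 0) (nat_lit 461312373867) (nat_lit 1) (nat_lit 5) (nat_lit 3) (nat_lit 4) (nat_lit 1) (nat_lit 4) (nat_lit 323) (nat_lit 232) (nat_lit 225)) (XT.nd (nat_lit 78) (nat_lit 0) (nat_lit 0) (XT.lf (nat_lit 0) (nat_lit 531075025699) (nat_lit 152) (nat_lit 5802109175567) (nat_lit 0) (nat_lit 530995663317) (nat_lit 1) (nat_lit 5) (nat_lit 3) (nat_lit 4) (nat_lit 1) (nat_lit 4) (nat_lit 324) (nat_lit 232) (nat_lit 224)) (XT.lf (nat_lit 0) (nat_lit 611190600354) (nat_lit 152) (nat_lit 6671439135136) (nat_lit 0) (nat_lit 611106210532) (nat_lit 1) (nat_lit 5) (nat_lit 3) (nat_lit 4) (nat_lit 1) (nat_lit 4) (nat_lit 325) (nat_lit 232) (nat_lit 223))))) (XT.nd (nat_lit 156) (nat_lit 0) (nat_lit 0) (XT.nd (nat_lit 78) (nat_lit 0) (nat_lit 0) (XT.lf (nat_lit 0) (nat_lit 703300157293)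 (nat_lit 152) (nat_lit 7671217394498) (nat_lit 0) (nat_lit 703211395783) (nat_lit 1) (nat_lit 5) (nat_lit 3) (nat_lit 4) (nat_lit 1) (nat_lit 4) (nat_lit 326) (nat_lit 232) (nat_lit 222)) (XT.lf (nat_lit 0) (nat_lit 809205840020) (nat_lit 152) (nat_lit 8821004832643) (nat_lit 0) (nat_lit 809113277043) (nat_lit 1) (nat_lit 5) (nat_lit 3) (nat_lit 4) (nat_lit 1) (nat_lit 4) (nat_lit 327) (nat_lit 232) (nat_lit 221))) (XT.nd (nat_lit 78) (nat_lit 0) (nat_lit 0) (XT.lf (nat_lit 0) (nat_lit 930979716242) (nat_lit 152) (nat_lit 10143297290750) (nat_lit 0) (nat_lit 930883847641) (nat_lit 1) (nat_lit 5) (nat_lit 3) (nat_lit 4) (nat_lit 1) (nat_lit 4) (nat_lit 328) (nat_lit 232) (nat_lit 220)) (XT.nd (nat_lit 78) (nat_lit 0) (nat_lit 0) (XT.lf (nat_lit 0) (nat_lit 1071004318319) (nat_lit 152) (nat_lit 11663965708219) (nat_lit 0) (nat_lit 1070905575263) (nat_lit 1) (nat_lit 5) (nat_lit 3) (nat_lit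 4) (nat_lit 1) (nat_lit 4) (nat_lit 329) (nat_lit 232) (nat_lit 219)) (XT.lf (nat_lit 0) (nat_lit 1232019258031) (nat_lit 152) (nat_lit 13412762293215) (nat_lit 0) (nat_lit 1231918015448) (nat_lit 1) (nat_lit 5) (nat_lit 3) (nat_lit 4) (nat_lit 1) (nat_lit 4) (nat_lit 330) (nat_lit 232) (nat_lit 218)))))) (XT.nd (nat_lit 390) (nat_lit 0) (nat_lit 0) (XT.nd (nat_lit 156) (nat_lit 0) (nat_lit 0) (XT.nd (nat_lit 78) (nat_lit 0) (nat_lit 0) (XT.lf (nat_lit 0) (nat_lit 1417174827677) (nat_lit 152) (nat_lit 15423902631099) (nat_lit 0) (nat_lit 1417071411593) (nat_lit 1) (nat_lit 5) (nat_lit 3) (nat_lit 4) (nat_lit 1) (nat_lit 4) (nat_lit 331) (nat_lit 232) (nat_lit 217)) (XT.lf (nat_lit 0) (nat_lit 1630093636227) (nat_lit 152) (nat_lit 17736735119786) (nat_lit 0) (nat_lit 1629988330142) (nat_lit 1) (nat_lit 5) (nat_lit 3) (nat_lit 4) (nat_lit 1) (nat_lit 4) (nat_lit 332) (nat_lit 232) (nat_lit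 216))) (XT.nd (nat_lit 78) (nat_lit 0) (nat_lit 0) (XT.lf (nat_lit 0) (nat_lit 1874941486458) (nat_lit 152) (nat_lit 20396510829705) (nat_lit 0) (nat_lit 1874834536894) (nat_lit 1) (nat_lit 5) (nat_lit 3) (nat_lit 4) (nat_lit 1) (nat_lit 4) (nat_lit 333) (nat_lit 232) (nat_lit 215)) (XT.nd (nat_lit 78) (nat_lit 0) (nat_lit 0) (XT.lf (nat_lit 0) (nat_lit 2156508879788) (nat_lit 152) (nat_lit 23455268850835) (nat_lit 0) (nat_lit 2156400501112) (nat_lit 1) (nat_lit 5) (nat_lit 3) (nat_lit 4) (nat_lit 1) (nat_lit 4) (nat_lit 334) (nat_lit 232) (nat_lit 214)) (XT.lf (nat_lit 0) (nat_lit 2480304743478) (nat_lit 152) (nat_lit 26972854448805) (nat_lit 0) (nat_lit 2480195122095) (nat_lit 1) (nat_lit 5) (nat_lit 3) (nat_lit 4) (nat_lit 1) (nat_lit 4) (nat_lit 335) (nat_lit 232) (nat_lit 213))))) (XT.nd (nat_lit 156) (nat_lit 0) (nat_lit 0) (XT.nd (nat_lit 78) (nat_lit 0) (nat_lit 0) (XT.lf (nat_lit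 0) (nat_lit 2852664213990) (nat_lit 152) (nat_lit 31018089950532) (nat_lit 0) (nat_lit 2852553511992) (nat_lit 1) (nat_lit 5) (nat_lit 3) (nat_lit 4) (nat_lit 1) (nat_lit 4) (nat_lit 336) (nat_lit 232) (nat_lit 212)) (XT.lf (nat_lit 0) (nat_lit 3280872585313) (nat_lit 152) (nat_lit 35670121268007) (nat_lit 0) (nat_lit 3280760943651) (nat_lit 1) (nat_lit 5) (nat_lit 3) (nat_lit 4) (nat_lit 1) (nat_lit 4) (nat_lit 337) (nat_lit 232) (nat_lit 211))) (XT.nd (nat_lit 78) (nat_lit 0) (nat_lit 0) (XT.lf (nat_lit 0) (nat_lit 3773307847321) (nat_lit 152) (nat_lit 41019966405267) (nat_lit 0) (nat_lit 3773195388560) (nat_lit 1) (nat_lit 5) (nat_lit 3) (nat_lit 4) (nat_lit 1) (nat_lit 4) (nat_lit 338) (nat_lit 232) (nat_lit 210)) (XT.nd (nat_lit 78) (nat_lit 0) (nat_lit 0) (XT.lf (nat_lit 0) (nat_lit 4339604602966) (nat_lit 152) (nat_lit 47172296245433) (nat_lit 0) (nat_lit 4339491433683) (nat_lit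 1) (nat_lit 5) (nat_lit 3) (nat_lit 4) (nat_lit 1) (nat_lit 4) (nat_lit 339) (nat_lit 232) (nat_lit 209)) (XT.lf (nat_lit 0) (nat_lit 4990842571381) (nat_lit 152) (nat_lit 54247482459291) (nat_lit 0) (nat_lit 4990728784253) (nat_lit 1) (nat_lit 5) (nat_lit 3) (nat_lit 4) (nat_lit 1) (nat_lit 4) (nat_lit 340) (nat_lit 232) (nat_lit 208))))))))
noncomputable def xc7 : XT := (XT.nd (nat_lit 39624) (nat_lit 0) (nat_lit 0) (XT.nd (nat_lit 38844) (nat_lit 0) (nat_lit 0) (XT.nd (nat_lit 2184) (nat_lit 0) (nat_lit 0) (XT.nd (nat_lit 156) (nat_lit 0) (nat_lit 0) (XT.nd (nat_lit 78) (nat_lit 0) (nat_lit 0) (XT.lf (nat_lit 0) (nat_lit 5739763364990) (nat_lit 152) (nat_lit 62383952603198) (nat_lit 0) (nat_lit 5739649040606) (nat_lit 1) (nat_lit 5) (nat_lit 3) (nat_lit 4) (nat_lit 1) (nat_lit 4) (nat_lit 341) (nat_lit 232) (nat_lit 207)) (XT.lf (nat_lit 0) (nat_lit 6601019781930) (nat_lit 152) (nat_lit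 71740898484318) (nat_lit 0) (nat_lit 6600904990367) (nat_lit 1) (nat_lit 5) (nat_lit 3) (nat_lit 4) (nat_lit 1) (nat_lit 4) (nat_lit 342) (nat_lit 232) (nat_lit 206))) (XT.nd (nat_lit 78) (nat_lit 0) (nat_lit 0) (XT.lf (nat_lit 0) (nat_lit 7591462491228) (nat_lit 152) (nat_lit 82501390782933) (nat_lit 0) (nat_lit 7591347293421) (nat_lit 1) (nat_lit 5) (nat_lit 3) (nat_lit 4) (nat_lit 1) (nat_lit 4) (nat_lit 343) (nat_lit 232) (nat_lit 205)) (XT.nd (nat_lit 78) (nat_lit 0) (nat_lit 0) (XT.lf (nat_lit 0) (nat_lit 8730469719804) (nat_lit 152) (nat_lit 94875960870104) (nat_lit 0) (nat_lit 8730354168743) (nat_lit 1) (nat_lit 5) (nat_lit 3) (nat_lit 4) (nat_lit 1) (nat_lit 4) (nat_lit 344) (nat_lit 232) (nat_lit 204)) (XT.lf (nat_lit 0) (nat_lit 10040326391697) (nat_lit 152) (nat_lit 109106719899711) (nat_lit 0) (nat_lit 10040210533458) (nat_lit 1) (nat_lit 5) (nat_lit 3) (nat_lit 4) (nat_lit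 1) (nat_lit 4) (nat_lit 345) (nat_lit 232) (nat_lit 203))))) (XT.nd (nat_lit 36426) (nat_lit 0) (nat_lit 0) (XT.nd (nat_lit 36348) (nat_lit 0) (nat_lit 0) (XT.lf (nat_lit 0) (nat_lit 287457778453496) (nat_lit 152) (nat_lit 3123084299324020) (nat_lit 0) (nat_lit 287457660618944) (nat_lit 1) (nat_lit 5) (nat_lit 3) (nat_lit 4) (nat_lit 1) (nat_lit 4) (nat_lit 369) (nat_lit 232) (nat_lit 179)) (XT.lf (nat_lit 0) (nat_lit 63764301898) (nat_lit 152) (nat_lit 721120794321) (nat_lit 0) (nat_lit 63764301898) (nat_lit 1) (nat_lit 5) (nat_lit 3) (nat_lit 4) (nat_lit 1) (nat_lit 4) (nat_lit 314) (nat_lit 233) (nat_lit 233))) (XT.nd (nat_lit 78) (nat_lit 0) (nat_lit 0) (XT.lf (nat_lit 0) (nat_lit 147604323677) (nat_lit 152) (nat_lit 1656557439842) (nat_lit 0) (nat_lit 147586637763) (nat_lit 1) (nat_lit 5) (nat_lit 3) (nat_lit 4) (nat_lit 1) (nat_lit 4) (nat_lit 315) (nat_lit 233) (nat_lit 232))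 (XT.nd (nat_lit 78) (nat_lit 0) (nat_lit 0) (XT.lf (nat_lit 0) (nat_lit 170609245355) (nat_lit 152) (nat_lit 1903192361697) (nat_lit 0) (nat_lit 170576180386) (nat_lit 1) (nat_lit 5) (nat_lit 3) (nat_lit 4) (nat_lit 1) (nat_lit 4) (nat_lit 316) (nat_lit 233) (nat_lit 231)) (XT.lf (nat_lit 0) (nat_lit 196993465126) (nat_lit 152) (nat_lit 2186971820069) (nat_lit 0) (nat_lit 196947027065) (nat_lit 1) (nat_lit 5) (nat_lit 3) (nat_lit 4) (nat_lit 1) (nat_lit 4) (nat_lit 317) (nat_lit 233) (nat_lit 230)))))) (XT.nd (nat_lit 390) (nat_lit 0) (nat_lit 0) (XT.nd (nat_lit 156) (nat_lit 0) (nat_lit 0) (XT.nd (nat_lit 78) (nat_lit 0) (nat_lit 0) (XT.lf (nat_lit 0) (nat_lit 227273195985) (nat_lit 152) (nat_lit 2513448021753) (nat_lit 0) (nat_lit 227215129148) (nat_lit 1) (nat_lit 5) (nat_lit 3) (nat_lit 4) (nat_lit 1) (nat_lit 4) (nat_lit 318) (nat_lit 233) (nat_lit 229)) (XT.lf (nat_lit 0) (nat_lit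 262040867448) (nat_lit 152) (nat_lit 2889008544607) (nat_lit 0) (nat_lit 261972688633) (nat_lit 1) (nat_lit 5) (nat_lit 3) (nat_lit 4) (nat_lit 1) (nat_lit 4) (nat_lit 319) (nat_lit 233) (nat_lit 228))) (XT.nd (nat_lit 78) (nat_lit 0) (nat_lit 0) (XT.lf (nat_lit 0) (nat_lit 301976716567) (nat_lit 152) (nat_lit 3321001311904) (nat_lit 0) (nat_lit 301899744726) (nat_lit 1) (nat_lit 5) (nat_lit 3) (nat_lit 4) (nat_lit 1) (nat_lit 4) (nat_lit 320) (nat_lit 233) (nat_lit 227)) (XT.nd (nat_lit 78) (nat_lit 0) (nat_lit 0) (XT.lf (nat_lit 0) (nat_lit 347862096910) (nat_lit 152) (nat_lit 3817878356048) (nat_lit 0) (nat_lit 347777478961) (nat_lit 1) (nat_lit 5) (nat_lit 3) (nat_lit 4) (nat_lit 1) (nat_lit 4) (nat_lit 321) (nat_lit 233) (nat_lit 226)) (XT.lf (nat_lit 0) (nat_lit 400594765919) (nat_lit 152) (nat_lit 4389361184425) (nat_lit 0) (nat_lit 400503499180) (nat_lit 1) (nat_lit 5) (nat_lit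 3) (nat_lit 4) (nat_lit 1) (nat_lit 4) (nat_lit 322) (nat_lit 233) (nat_lit 225))))) (XT.nd (nat_lit 156) (nat_lit 0) (nat_lit 0) (XT.nd (nat_lit 78) (nat_lit 0) (nat_lit 0) (XT.lf (nat_lit 0) (nat_lit 461206449727) (nat_lit 152) (nat_lit 5046630982807) (nat_lit 0) (nat_lit 461109401432) (nat_lit 1) (nat_lit 5) (nat_lit 3) (nat_lit 4) (nat_lit 1) (nat_lit 4) (nat_lit 323) (nat_lit 233) (nat_lit 224)) (XT.lf (nat_lit 0) (nat_lit 530883029105) (nat_lit 152) (nat_lit 5802547377684) (nat_lit 0) (nat_lit 530780953369) (nat_lit 1) (nat_lit 5) (nat_lit 3) (nat_lit 4) (nat_lit 1) (nat_lit 4) (nat_lit 324) (nat_lit 233) (nat_lit 223))) (XT.nd (nat_lit 78) (nat_lit 0) (nat_lit 0) (XT.lf (nat_lit 0) (nat_lit 610987741474) (nat_lit 152) (nat_lit 6671900037652) (nat_lit 0) (nat_lit 610881294051) (nat_lit 1) (nat_lit 5) (nat_lit 3) (nat_lit 4) (nat_lit 1) (nat_lit 4) (nat_lit 325) (nat_lit 233) (nat_lit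 222)) (XT.nd (nat_lit 78) (nat_lit 0) (nat_lit 0) (XT.lf (nat_lit 0) (nat_lit 703087852947) (nat_lit 152) (nat_lit 7671698036493) (nat_lit 0) (nat_lit 702977604056) (nat_lit 1) (nat_lit 5) (nat_lit 3) (nat_lit 4) (nat_lit 1) (nat_lit 4) (nat_lit 326) (nat_lit 233) (nat_lit 221)) (XT.lf (nat_lit 0) (nat_lit 808985322226) (nat_lit 152) (nat_lit 8821502639401) (nat_lit 0) (nat_lit 808871767711) (nat_lit 1) (nat_lit 5) (nat_lit 3) (nat_lit 4) (nat_lit 1) (nat_lit 4) (nat_lit 327) (nat_lit 233) (nat_lit 220))))))) (XT.nd (nat_lit 780) (nat_lit 0) (nat_lit 0) (XT.nd (nat_lit 390) (nat_lit 0) (nat_lit 0) (XT.nd (nat_lit 156) (nat_lit 0) (nat_lit 0) (XT.nd (nat_lit 78) (nat_lit 0) (nat_lit 0) (XT.lf (nat_lit 0) (nat_lit 930752056318) (nat_lit 152) (nat_lit 10143810023390) (nat_lit 0) (nat_lit 930635627348) (nat_lit 1) (nat_lit 5) (nat_lit 3) (nat_lit 4) (nat_lit 1) (nat_lit 4) (nat_lit 328)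 (nat_lit 233) (nat_lit 219)) (XT.lf (nat_lit 0) (nat_lit 1070770447848) (nat_lit 152) (nat_lit 11664491419885) (nat_lit 0) (nat_lit 1070651519351) (nat_lit 1) (nat_lit 5) (nat_lit 3) (nat_lit 4) (nat_lit 1) (nat_lit 4) (nat_lit 329) (nat_lit 233) (nat_lit 218))) (XT.nd (nat_lit 78) (nat_lit 0) (nat_lit 0) (XT.lf (nat_lit 0) (nat_lit 1231779987084) (nat_lit 152) (nat_lit 13413299290992) (nat_lit 0) (nat_lit 1231658885086) (nat_lit 1) (nat_lit 5) (nat_lit 3) (nat_lit 4) (nat_lit 1) (nat_lit 4) (nat_lit 330) (nat_lit 233) (nat_lit 217)) (XT.nd (nat_lit 78) (nat_lit 0) (nat_lit 0) (XT.lf (nat_lit 0) (nat_lit 1416930860663) (nat_lit 152) (nat_lit 15424449442886) (nat_lit 0) (nat_lit 1416807868664) (nat_lit 1) (nat_lit 5) (nat_lit 3) (nat_lit 4) (nat_lit 1) (nat_lit 4) (nat_lit 331) (nat_lit 233) (nat_lit 216)) (XT.lf (nat_lit 0) (nat_lit 1629845585678) (nat_lit 152) (nat_lit 17737290465493)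 (nat_lit 0) (nat_lit 1629720950200) (nat_lit 1) (nat_lit 5) (nat_lit 3) (nat_lit 4) (nat_lit 1) (nat_lit 4) (nat_lit 332) (nat_lit 233) (nat_lit 215))))) (XT.nd (nat_lit 156) (nat_lit 0) (nat_lit 0) (XT.nd (nat_lit 78) (nat_lit 0) (nat_lit 0) (XT.lf (nat_lit 0) (nat_lit 1874689885009) (nat_lit 152) (nat_lit 20397073596213) (nat_lit 0) (nat_lit 1874563820418) (nat_lit 1) (nat_lit 5) (nat_lit 3) (nat_lit 4) (nat_lit 1) (nat_lit 4) (nat_lit 333) (nat_lit 233) (nat_lit 214)) (XT.lf (nat_lit 0) (nat_lit 2156254190599) (nat_lit 152) (nat_lit 23455838070213) (nat_lit 0) (nat_lit 2156126883302) (nat_lit 1) (nat_lit 5) (nat_lit 3) (nat_lit 4) (nat_lit 1) (nat_lit 4) (nat_lit 334) (nat_lit 233) (nat_lit 213))) (XT.nd (nat_lit 78) (nat_lit 0) (nat_lit 0) (XT.lf (nat_lit 0) (nat_lit 2480047369298) (nat_lit 152) (nat_lit 26973429279374) (nat_lit 0) (nat_lit 2479918981386) (nat_lit 1) (nat_lit 5)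 (nat_lit 3) (nat_lit 4) (nat_lit 1) (nat_lit 4) (nat_lit 335) (nat_lit 233) (nat_lit 212)) (XT.nd (nat_lit 78) (nat_lit 0) (nat_lit 0) (XT.lf (nat_lit 0) (nat_lit 2852404505035) (nat_lit 152) (nat_lit 31018669660399) (nat_lit 0) (nat_lit 2852275177459) (nat_lit 1) (nat_lit 5) (nat_lit 3) (nat_lit 4) (nat_lit 1) (nat_lit 4) (nat_lit 336) (nat_lit 233) (nat_lit 211)) (XT.lf (nat_lit 0) (nat_lit 3280610846119) (nat_lit 152) (nat_lit 35670705220741) (nat_lit 0) (nat_lit 3280480701444) (nat_lit 1) (nat_lit 5) (nat_lit 3) (nat_lit 4) (nat_lit 1) (nat_lit 4) (nat_lit 337) (nat_lit 233) (nat_lit 210)))))) (XT.nd (nat_lit 390) (nat_lit 0) (nat_lit 0) (XT.nd (nat_lit 156) (nat_lit 0) (nat_lit 0) (XT.nd (nat_lit 78) (nat_lit 0) (nat_lit 0) (XT.lf (nat_lit 0) (nat_lit 3773044342702) (nat_lit 152) (nat_lit 41020554047451) (nat_lit 0) (nat_lit 3772913487505) (nat_lit 1) (nat_lit 5) (nat_lit 3) (nat_lit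 4) (nat_lit 1) (nat_lit 4) (nat_lit 338) (nat_lit 233) (nat_lit 209)) (XT.lf (nat_lit 0) (nat_lit 4339339563195) (nat_lit 152) (nat_lit 47172887095834) (nat_lit 0) (nat_lit 4339208090153) (nat_lit 1) (nat_lit 5) (nat_lit 3) (nat_lit 4) (nat_lit 1) (nat_lit 4) (nat_lit 339) (nat_lit 233) (nat_lit 208))) (XT.nd (nat_lit 78) (nat_lit 0) (nat_lit 0) (XT.lf (nat_lit 0) (nat_lit 4990576196694) (nat_lit 152) (nat_lit 54248076099445) (nat_lit 0) (nat_lit 4990444186397) (nat_lit 1) (nat_lit 5) (nat_lit 3) (nat_lit 4) (nat_lit 1) (nat_lit 4) (nat_lit 340) (nat_lit 233) (nat_lit 207)) (XT.nd (nat_lit 78) (nat_lit 0) (nat_lit 0) (XT.lf (nat_lit 0) (nat_lit 5739495829508) (nat_lit 152) (nat_lit 62384548669225) (nat_lit 0) (nat_lit 5739363352031) (nat_lit 1) (nat_lit 5) (nat_lit 3) (nat_lit 4) (nat_lit 1) (nat_lit 4) (nat_lit 341) (nat_lit 233) (nat_lit 206)) (XT.lf (nat_lit 0) (nat_lit 6600751237060)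 (nat_lit 152) (nat_lit 71741496659800) (nat_lit 0) (nat_lit 6600618353340) (nat_lit 1) (nat_lit 5) (nat_lit 3) (nat_lit 4) (nat_lit 1) (nat_lit 4) (nat_lit 342) (nat_lit 233) (nat_lit 205))))) (XT.nd (nat_lit 1950) (nat_lit 0) (nat_lit 0) (XT.nd (nat_lit 78) (nat_lit 0) (nat_lit 0) (XT.lf (nat_lit 0) (nat_lit 7591193068630) (nat_lit 152) (nat_lit 82501990792724) (nat_lit 0) (nat_lit 7591059831655) (nat_lit 1) (nat_lit 5) (nat_lit 3) (nat_lit 4) (nat_lit 1) (nat_lit 4) (nat_lit 343) (nat_lit 233) (nat_lit 204)) (XT.nd (nat_lit 78) (nat_lit 0) (nat_lit 0) (XT.lf (nat_lit 0) (nat_lit 8730199533964) (nat_lit 152) (nat_lit 94876562474946) (nat_lit 0) (nat_lit 8730065989811) (nat_lit 1) (nat_lit 5) (nat_lit 3) (nat_lit 4) (nat_lit 1) (nat_lit 4) (nat_lit 344) (nat_lit 233) (nat_lit 203)) (XT.lf (nat_lit 0) (nat_lit 10040055542168) (nat_lit 152) (nat_lit 109107322891553) (nat_lit 0) (nat_lit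 10039921730904) (nat_lit 1) (nat_lit 5) (nat_lit 3) (nat_lit 4) (nat_lit 1) (nat_lit 4) (nat_lit 345) (nat_lit 233) (nat_lit 202)))) (XT.nd (nat_lit 78) (nat_lit 0) (nat_lit 0) (XT.lf (nat_lit 0) (nat_lit 249962770814245) (nat_lit 152) (nat_lit 2715726622615914) (nat_lit 0) (nat_lit 249962635293783) (nat_lit 1) (nat_lit 5) (nat_lit 3) (nat_lit 4) (nat_lit 1) (nat_lit 4) (nat_lit 368) (nat_lit 233) (nat_lit 179)) (XT.nd (nat_lit 36192) (nat_lit 0) (nat_lit 0) (XT.lf (nat_lit 0) (nat_lit 287457503333947) (nat_lit 152) (nat_lit 3123084911239507) (nat_lit 0) (nat_lit 287457367804151) (nat_lit 1) (nat_lit 5) (nat_lit 3) (nat_lit 4) (nat_lit 1) (nat_lit 4) (nat_lit 369) (nat_lit 233) (nat_lit 178)) (XT.lf (nat_lit 0) (nat_lit 47357063037) (nat_lit 152) (nat_lit 547119616103) (nat_lit 0) (nat_lit 47357063037) (nat_lit 1) (nat_lit 5) (nat_lit 3) (nat_lit 4) (nat_lit 1) (nat_lit 4) (nat_lit 312)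 (nat_lit 234) (nat_lit 234))))))))
noncomputable def xc8 : XT := (XT.nd (nat_lit 1560) (nat_lit 0) (nat_lit 0) (XT.nd (nat_lit 780) (nat_lit 0) (nat_lit 0) (XT.nd (nat_lit 390) (nat_lit 0) (nat_lit 0) (XT.nd (nat_lit 156) (nat_lit 0) (nat_lit 0) (XT.nd (nat_lit 78) (nat_lit 0) (nat_lit 0) (XT.lf (nat_lit 0) (nat_lit 110009638693) (nat_lit 152) (nat_lit 1256051671876) (nat_lit 0) (nat_lit 109989299892) (nat_lit 1) (nat_lit 5) (nat_lit 3) (nat_lit 4) (nat_lit 1) (nat_lit 4) (nat_lit 313) (nat_lit 234) (nat_lit 233)) (XT.lf (nat_lit 0) (nat_lit 127504998593) (nat_lit 152) (nat_lit 1442333424419) (nat_lit 0) (nat_lit 127466973878) (nat_lit 1) (nat_lit 5) (nat_lit 3) (nat_lit 4) (nat_lit 1) (nat_lit 4) (nat_lit 314) (nat_lit 234) (nat_lit 232))) (XT.nd (nat_lit 78) (nat_lit 0) (nat_lit 0) (XT.lf (nat_lit 0) (nat_lit 147542506294) (nat_lit 152) (nat_lit 1656729132817) (nat_lit 0) (nat_lit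 147489102524) (nat_lit 1) (nat_lit 5) (nat_lit 3) (nat_lit 4) (nat_lit 1) (nat_lit 4) (nat_lit 315) (nat_lit 234) (nat_lit 231)) (XT.nd (nat_lit 78) (nat_lit 0) (nat_lit 0) (XT.lf (nat_lit 0) (nat_lit 170514199992) (nat_lit 152) (nat_lit 1903433495713) (nat_lit 0) (nat_lit 170447423130) (nat_lit 1) (nat_lit 5) (nat_lit 3) (nat_lit 4) (nat_lit 1) (nat_lit 4) (nat_lit 316) (nat_lit 234) (nat_lit 230)) (XT.lf (nat_lit 0) (nat_lit 196869525866) (nat_lit 152) (nat_lit 2187273337599) (nat_lit 0) (nat_lit 196791120228) (nat_lit 1) (nat_lit 5) (nat_lit 3) (nat_lit 4) (nat_lit 1) (nat_lit 4) (nat_lit 317) (nat_lit 234) (nat_lit 229))))) (XT.nd (nat_lit 156) (nat_lit 0) (nat_lit 0) (XT.nd (nat_lit 78) (nat_lit 0) (nat_lit 0) (XT.lf (nat_lit 0) (nat_lit 227124131597) (nat_lit 152) (nat_lit 2513802046686) (nat_lit 0) (nat_lit 227035613981) (nat_lit 1) (nat_lit 5) (nat_lit 3) (nat_lit 4) (nat_lit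 1) (nat_lit 4) (nat_lit 318) (nat_lit 234) (nat_lit 228)) (XT.lf (nat_lit 0) (nat_lit 261869955124) (nat_lit 152) (nat_lit 2889408228152) (nat_lit 0) (nat_lit 261772644482) (nat_lit 1) (nat_lit 5) (nat_lit 3) (nat_lit 4) (nat_lit 1) (nat_lit 4) (nat_lit 319) (nat_lit 234) (nat_lit 227))) (XT.nd (nat_lit 78) (nat_lit 0) (nat_lit 0) (XT.lf (nat_lit 0) (nat_lit 301786806036) (nat_lit 152) (nat_lit 3321440698590) (nat_lit 0) (nat_lit 301681849286) (nat_lit 1) (nat_lit 5) (nat_lit 3) (nat_lit 4) (nat_lit 1) (nat_lit 4) (nat_lit 320) (nat_lit 234) (nat_lit 226)) (XT.nd (nat_lit 78) (nat_lit 0) (nat_lit 0) (XT.lf (nat_lit 0) (nat_lit 347655666200) (nat_lit 152) (nat_lit 3818352267204) (nat_lit 0) (nat_lit 347544060660) (nat_lit 1) (nat_lit 5) (nat_lit 3) (nat_lit 4) (nat_lit 1) (nat_lit 4) (nat_lit 321) (nat_lit 234) (nat_lit 225)) (XT.lf (nat_lit 0) (nat_lit 400373969836) (nat_lit 152) (nat_lit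 4389865116860) (nat_lit 0) (nat_lit 400256582739) (nat_lit 1) (nat_lit 5) (nat_lit 3) (nat_lit 4) (nat_lit 1) (nat_lit 4) (nat_lit 322) (nat_lit 234) (nat_lit 224)))))) (XT.nd (nat_lit 390) (nat_lit 0) (nat_lit 0) (XT.nd (nat_lit 156) (nat_lit 0) (nat_lit 0) (XT.nd (nat_lit 78) (nat_lit 0) (nat_lit 0) (XT.lf (nat_lit 0) (nat_lit 460973162015) (nat_lit 152) (nat_lit 5047161020701) (nat_lit 0) (nat_lit 460850747478) (nat_lit 1) (nat_lit 5) (nat_lit 3) (nat_lit 4) (nat_lit 1) (nat_lit 4) (nat_lit 323) (nat_lit 234) (nat_lit 223)) (XT.lf (nat_lit 0) (nat_lit 530638879107) (nat_lit 152) (nat_lit 5803100115978) (nat_lit 0) (nat_lit 530512092882) (nat_lit 1) (nat_lit 5) (nat_lit 3) (nat_lit 4) (nat_lit 1) (nat_lit 4) (nat_lit 324) (nat_lit 234) (nat_lit 222))) (XT.nd (nat_lit 78) (nat_lit 0) (nat_lit 0) (XT.lf (nat_lit 0) (nat_lit 610734146010) (nat_lit 152) (nat_lit 6672472515424) (nat_lit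 0) (nat_lit 610603558318) (nat_lit 1) (nat_lit 5) (nat_lit 3) (nat_lit 4) (nat_lit 1) (nat_lit 4) (nat_lit 325) (nat_lit 234) (nat_lit 221)) (XT.nd (nat_lit 78) (nat_lit 0) (nat_lit 0) (XT.lf (nat_lit 0) (nat_lit 702826044034) (nat_lit 152) (nat_lit 7672287679028) (nat_lit 0) (nat_lit 702692150719) (nat_lit 1) (nat_lit 5) (nat_lit 3) (nat_lit 4) (nat_lit 1) (nat_lit 4) (nat_lit 326) (nat_lit 234) (nat_lit 220)) (XT.lf (nat_lit 0) (nat_lit 808716371183) (nat_lit 152) (nat_lit 8822107207817) (nat_lit 0) (nat_lit 808579603412) (nat_lit 1) (nat_lit 5) (nat_lit 3) (nat_lit 4) (nat_lit 1) (nat_lit 4) (nat_lit 327) (nat_lit 234) (nat_lit 219))))) (XT.nd (nat_lit 156) (nat_lit 0) (nat_lit 0) (XT.nd (nat_lit 78) (nat_lit 0) (nat_lit 0) (XT.lf (nat_lit 0) (nat_lit 930476894729) (nat_lit 152) (nat_lit 10144427570833) (nat_lit 0) (nat_lit 930337627431) (nat_lit 1) (nat_lit 5) (nat_lit 3) (nat_lit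 4) (nat_lit 1) (nat_lit 4) (nat_lit 328) (nat_lit 234) (nat_lit 218)) (XT.lf (nat_lit 0) (nat_lit 1070489885782) (nat_lit 152) (nat_lit 11665120253439) (nat_lit 0) (nat_lit 1070348444984) (nat_lit 1) (nat_lit 5) (nat_lit 3) (nat_lit 4) (nat_lit 1) (nat_lit 4) (nat_lit 329) (nat_lit 234) (nat_lit 217))) (XT.nd (nat_lit 78) (nat_lit 0) (nat_lit 0) (XT.lf (nat_lit 0) (nat_lit 1231494728952) (nat_lit 152) (nat_lit 13413937938556) (nat_lit 0) (nat_lit 1231351398153) (nat_lit 1) (nat_lit 5) (nat_lit 3) (nat_lit 4) (nat_lit 1) (nat_lit 4) (nat_lit 330) (nat_lit 234) (nat_lit 216)) (XT.nd (nat_lit 78) (nat_lit 0) (nat_lit 0) (XT.lf (nat_lit 0) (nat_lit 1416641518996) (nat_lit 152) (nat_lit 15425096624370) (nat_lit 0) (nat_lit 1416496544717) (nat_lit 1) (nat_lit 5) (nat_lit 3) (nat_lit 4) (nat_lit 1) (nat_lit 4) (nat_lit 331) (nat_lit 234) (nat_lit 215)) (XT.lf (nat_lit 0) (nat_lit 1629552693111)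 (nat_lit 152) (nat_lit 17737945067778) (nat_lit 0) (nat_lit 1629406289719) (nat_lit 1) (nat_lit 5) (nat_lit 3) (nat_lit 4) (nat_lit 1) (nat_lit 4) (nat_lit 332) (nat_lit 234) (nat_lit 214))))))) (XT.nd (nat_lit 780) (nat_lit 0) (nat_lit 0) (XT.nd (nat_lit 390) (nat_lit 0) (nat_lit 0) (XT.nd (nat_lit 156) (nat_lit 0) (nat_lit 0) (XT.nd (nat_lit 78) (nat_lit 0) (nat_lit 0) (XT.lf (nat_lit 0) (nat_lit 1874393904702) (nat_lit 152) (nat_lit 20397734651369) (nat_lit 0) (nat_lit 1874246258604) (nat_lit 1) (nat_lit 5) (nat_lit 3) (nat_lit 4) (nat_lit 1) (nat_lit 4) (nat_lit 333) (nat_lit 234) (nat_lit 213)) (XT.lf (nat_lit 0) (nat_lit 2155955525301) (nat_lit 152) (nat_lit 23456504736560) (nat_lit 0) (nat_lit 2155806798589) (nat_lit 1) (nat_lit 5) (nat_lit 3) (nat_lit 4) (nat_lit 1) (nat_lit 4) (nat_lit 334) (nat_lit 234) (nat_lit 212))) (XT.nd (nat_lit 78) (nat_lit 0) (nat_lit 0) (XT.lf (nat_lit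 0) (nat_lit 2479746369225) (nat_lit 152) (nat_lit 26974100825018) (nat_lit 0) (nat_lit 2479596702848) (nat_lit 1) (nat_lit 5) (nat_lit 3) (nat_lit 4) (nat_lit 1) (nat_lit 4) (nat_lit 335) (nat_lit 234) (nat_lit 211)) (XT.nd (nat_lit 78) (nat_lit 0) (nat_lit 0) (XT.lf (nat_lit 0) (nat_lit 2852101474723) (nat_lit 152) (nat_lit 31019345448910) (nat_lit 0) (nat_lit 2851950991247) (nat_lit 1) (nat_lit 5) (nat_lit 3) (nat_lit 4) (nat_lit 1) (nat_lit 4) (nat_lit 336) (nat_lit 234) (nat_lit 210)) (XT.lf (nat_lit 0) (nat_lit 3280306050382) (nat_lit 152) (nat_lit 35671384698701) (nat_lit 0) (nat_lit 3280154856385) (nat_lit 1) (nat_lit 5) (nat_lit 3) (nat_lit 4) (nat_lit 1) (nat_lit 4) (nat_lit 337) (nat_lit 234) (nat_lit 209))))) (XT.nd (nat_lit 156) (nat_lit 0) (nat_lit 0) (XT.nd (nat_lit 78) (nat_lit 0) (nat_lit 0) (XT.lf (nat_lit 0) (nat_lit 3772738011813) (nat_lit 152) (nat_lit 41021236733628)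 (nat_lit 0) (nat_lit 3772586199970) (nat_lit 1) (nat_lit 5) (nat_lit 3) (nat_lit 4) (nat_lit 1) (nat_lit 4) (nat_lit 338) (nat_lit 234) (nat_lit 208)) (XT.lf (nat_lit 0) (nat_lit 4339031897391) (nat_lit 152) (nat_lit 47173572571765) (nat_lit 0) (nat_lit 4338879548292) (nat_lit 1) (nat_lit 5) (nat_lit 3) (nat_lit 4) (nat_lit 1) (nat_lit 4) (nat_lit 339) (nat_lit 234) (nat_lit 207))) (XT.nd (nat_lit 78) (nat_lit 0) (nat_lit 0) (XT.lf (nat_lit 0) (nat_lit 4990267370094) (nat_lit 152) (nat_lit 54248764001250) (nat_lit 0) (nat_lit 4990114553816) (nat_lit 1) (nat_lit 5) (nat_lit 3) (nat_lit 4) (nat_lit 1) (nat_lit 4) (nat_lit 340) (nat_lit 234) (nat_lit 206)) (XT.nd (nat_lit 78) (nat_lit 0) (nat_lit 0) (XT.lf (nat_lit 0) (nat_lit 5739185993521) (nat_lit 152) (nat_lit 62385238680484) (nat_lit 0) (nat_lit 5739032771000) (nat_lit 1) (nat_lit 5) (nat_lit 3) (nat_lit 4) (nat_lit 1) (nat_lit 4)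 (nat_lit 341) (nat_lit 234) (nat_lit 205)) (XT.lf (nat_lit 0) (nat_lit 6600440523345) (nat_lit 152) (nat_lit 71742188505368) (nat_lit 0) (nat_lit 6600286947569) (nat_lit 1) (nat_lit 5) (nat_lit 3) (nat_lit 4) (nat_lit 1) (nat_lit 4) (nat_lit 342) (nat_lit 234) (nat_lit 204)))))) (XT.nd (nat_lit 38142) (nat_lit 0) (nat_lit 0) (XT.nd (nat_lit 156) (nat_lit 0) (nat_lit 0) (XT.nd (nat_lit 78) (nat_lit 0) (nat_lit 0) (XT.lf (nat_lit 0) (nat_lit 7590881591672) (nat_lit 152) (nat_lit 82502684233343) (nat_lit 0) (nat_lit 7590727708718) (nat_lit 1) (nat_lit 5) (nat_lit 3) (nat_lit 4) (nat_lit 1) (nat_lit 4) (nat_lit 343) (nat_lit 234) (nat_lit 203)) (XT.lf (nat_lit 0) (nat_lit 8729887393318) (nat_lit 152) (nat_lit 94877257302565) (nat_lit 0) (nat_lit 8729733243253) (nat_lit 1) (nat_lit 5) (nat_lit 3) (nat_lit 4) (nat_lit 1) (nat_lit 4) (nat_lit 344) (nat_lit 234) (nat_lit 202))) (XT.nd (nat_lit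 1794) (nat_lit 0) (nat_lit 0) (XT.lf (nat_lit 0) (nat_lit 10039742824401) (nat_lit 152) (nat_lit 109108018925260) (nat_lit 0) (nat_lit 10039588442065) (nat_lit 1) (nat_lit 5) (nat_lit 3) (nat_lit 4) (nat_lit 1) (nat_lit 4) (nat_lit 345) (nat_lit 234) (nat_lit 201)) (XT.nd (nat_lit 36114) (nat_lit 0) (nat_lit 0) (XT.lf (nat_lit 0) (nat_lit 249962454403579) (nat_lit 152) (nat_lit 2715727326367181) (nat_lit 0) (nat_lit 249962298534980) (nat_lit 1) (nat_lit 5) (nat_lit 3) (nat_lit 4) (nat_lit 1) (nat_lit 4) (nat_lit 368) (nat_lit 234) (nat_lit 178)) (XT.lf (nat_lit 0) (nat_lit 34822146768) (nat_lit 152) (nat_lit 415827031209) (nat_lit 0) (nat_lit 34822146768) (nat_lit 1) (nat_lit 5) (nat_lit 3) (nat_lit 4) (nat_lit 1) (nat_lit 4) (nat_lit 310) (nat_lit 235) (nat_lit 235))))) (XT.nd (nat_lit 156) (nat_lit 0) (nat_lit 0) (XT.nd (nat_lit 78) (nat_lit 0) (nat_lit 0) (XT.lf (nat_lit 0) (nat_lit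 81342590330) (nat_lit 152) (nat_lit 953730209847) (nat_lit 0) (nat_lit 81319200709) (nat_lit 1) (nat_lit 5) (nat_lit 3) (nat_lit 4) (nat_lit 1) (nat_lit 4) (nat_lit 311) (nat_lit 235) (nat_lit 234)) (XT.lf (nat_lit 0) (nat_lit 94686980090) (nat_lit 152) (nat_lit 1094344843349) (nat_lit 0) (nat_lit 94643251668) (nat_lit 1) (nat_lit 5) (nat_lit 3) (nat_lit 4) (nat_lit 1) (nat_lit 4) (nat_lit 312) (nat_lit 235) (nat_lit 233))) (XT.nd (nat_lit 78) (nat_lit 0) (nat_lit 0) (XT.lf (nat_lit 0) (nat_lit 109938548703) (nat_lit 152) (nat_lit 1256249118797) (nat_lit 0) (nat_lit 109877134367) (nat_lit 1) (nat_lit 5) (nat_lit 3) (nat_lit 4) (nat_lit 1) (nat_lit 4) (nat_lit 313) (nat_lit 235) (nat_lit 232)) (XT.nd (nat_lit 78) (nat_lit 0) (nat_lit 0) (XT.lf (nat_lit 0) (nat_lit 127395696425) (nat_lit 152) (nat_lit 1442610728537) (nat_lit 0) (nat_lit 127318903033) (nat_lit 1) (nat_lit 5) (nat_lit 3)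 (nat_lit 4) (nat_lit 1) (nat_lit 4) (nat_lit 314) (nat_lit 235) (nat_lit 231)) (XT.lf (nat_lit 0) (nat_lit 147399976145) (nat_lit 152) (nat_lit 1657075877976) (nat_lit 0) (nat_lit 147309809662) (nat_lit 1) (nat_lit 5) (nat_lit 3) (nat_lit 4) (nat_lit 1) (nat_lit 4) (nat_lit 315) (nat_lit 235) (nat_lit 230))))))))
noncomputable def xc9 : XT := (XT.nd (nat_lit 1560) (nat_lit 0) (nat_lit 0) (XT.nd (nat_lit 780) (nat_lit 0) (nat_lit 0) (XT.nd (nat_lit 390) (nat_lit 0) (nat_lit 0) (XT.nd (nat_lit 156) (nat_lit 0) (nat_lit 0) (XT.nd (nat_lit 78) (nat_lit 0) (nat_lit 0) (XT.lf (nat_lit 0) (nat_lit 170342775946) (nat_lit 152) (nat_lit 1903840624387) (nat_lit 0) (nat_lit 170240980687) (nat_lit 1) (nat_lit 5) (nat_lit 3) (nat_lit 4) (nat_lit 1) (nat_lit 4) (nat_lit 316) (nat_lit 235) (nat_lit 229)) (XT.lf (nat_lit 0) (nat_lit 196672976693) (nat_lit 152) (nat_lit 2187732973677) (nat_lit 0) (nat_lit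 196561069455) (nat_lit 1) (nat_lit 5) (nat_lit 3) (nat_lit 4) (nat_lit 1) (nat_lit 4) (nat_lit 317) (nat_lit 235) (nat_lit 228))) (XT.nd (nat_lit 78) (nat_lit 0) (nat_lit 0) (XT.lf (nat_lit 0) (nat_lit 226905734487) (nat_lit 152) (nat_lit 2514307341375) (nat_lit 0) (nat_lit 226785034225) (nat_lit 1) (nat_lit 5) (nat_lit 3) (nat_lit 4) (nat_lit 1) (nat_lit 4) (nat_lit 318) (nat_lit 235) (nat_lit 227)) (XT.nd (nat_lit 78) (nat_lit 0) (nat_lit 0) (XT.lf (nat_lit 0) (nat_lit 261632559807) (nat_lit 152) (nat_lit 2889953225982) (nat_lit 0) (nat_lit 261504213436) (nat_lit 1) (nat_lit 5) (nat_lit 3) (nat_lit 4) (nat_lit 1) (nat_lit 4) (nat_lit 319) (nat_lit 235) (nat_lit 226)) (XT.lf (nat_lit 0) (nat_lit 301532890540) (nat_lit 152) (nat_lit 3322020220890) (nat_lit 0) (nat_lit 301397895379) (nat_lit 1) (nat_lit 5) (nat_lit 3) (nat_lit 4) (nat_lit 1) (nat_lit 4) (nat_lit 320) (nat_lit 235) (nat_lit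 225))))) (XT.nd (nat_lit 156) (nat_lit 0) (nat_lit 0) (XT.nd (nat_lit 78) (nat_lit 0) (nat_lit 0) (XT.lf (nat_lit 0) (nat_lit 347387385331) (nat_lit 152) (nat_lit 3818961810783) (nat_lit 0) (nat_lit 347246608613) (nat_lit 1) (nat_lit 5) (nat_lit 3) (nat_lit 4) (nat_lit 1) (nat_lit 4) (nat_lit 321) (nat_lit 235) (nat_lit 224)) (XT.lf (nat_lit 0) (nat_lit 400093197338) (nat_lit 152) (nat_lit 4390500765898) (nat_lit 0) (nat_lit 399947393180) (nat_lit 1) (nat_lit 5) (nat_lit 3) (nat_lit 4) (nat_lit 1) (nat_lit 4) (nat_lit 322) (nat_lit 235) (nat_lit 223))) (XT.nd (nat_lit 78) (nat_lit 0) (nat_lit 0) (XT.lf (nat_lit 0) (nat_lit 460681527232) (nat_lit 152) (nat_lit 5047819370139) (nat_lit 0) (nat_lit 460531351386) (nat_lit 1) (nat_lit 5) (nat_lit 3) (nat_lit 4) (nat_lit 1) (nat_lit 4) (nat_lit 323) (nat_lit 235) (nat_lit 222)) (XT.nd (nat_lit 78) (nat_lit 0) (nat_lit 0) (XT.lf (nat_lit 0)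 (nat_lit 530337798857) (nat_lit 152) (nat_lit 5803778204894) (nat_lit 0) (nat_lit 530183821544) (nat_lit 1) (nat_lit 5) (nat_lit 3) (nat_lit 4) (nat_lit 1) (nat_lit 4) (nat_lit 324) (nat_lit 235) (nat_lit 221)) (XT.lf (nat_lit 0) (nat_lit 610424852312) (nat_lit 152) (nat_lit 6673167769103) (nat_lit 0) (nat_lit 610267569375) (nat_lit 1) (nat_lit 5) (nat_lit 3) (nat_lit 4) (nat_lit 1) (nat_lit 4) (nat_lit 325) (nat_lit 235) (nat_lit 220)))))) (XT.nd (nat_lit 390) (nat_lit 0) (nat_lit 0) (XT.nd (nat_lit 156) (nat_lit 0) (nat_lit 0) (XT.nd (nat_lit 78) (nat_lit 0) (nat_lit 0) (XT.lf (nat_lit 0) (nat_lit 702509608206) (nat_lit 152) (nat_lit 7672997858588) (nat_lit 0) (nat_lit 702349450814) (nat_lit 1) (nat_lit 5) (nat_lit 3) (nat_lit 4) (nat_lit 1) (nat_lit 4) (nat_lit 326) (nat_lit 235) (nat_lit 219)) (XT.lf (nat_lit 0) (nat_lit 808393724808) (nat_lit 152) (nat_lit 8822830366404) (nat_lit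 0) (nat_lit 808231067890) (nat_lit 1) (nat_lit 5) (nat_lit 3) (nat_lit 4) (nat_lit 1) (nat_lit 4) (nat_lit 327) (nat_lit 235) (nat_lit 218))) (XT.nd (nat_lit 78) (nat_lit 0) (nat_lit 0) (XT.lf (nat_lit 0) (nat_lit 930148847878) (nat_lit 152) (nat_lit 10145162015531) (nat_lit 0) (nat_lit 929984017458) (nat_lit 1) (nat_lit 5) (nat_lit 3) (nat_lit 4) (nat_lit 1) (nat_lit 4) (nat_lit 328) (nat_lit 235) (nat_lit 217)) (XT.nd (nat_lit 78) (nat_lit 0) (nat_lit 0) (XT.lf (nat_lit 0) (nat_lit 1070157142865) (nat_lit 152) (nat_lit 11665864512146) (nat_lit 0) (nat_lit 1069990422445) (nat_lit 1) (nat_lit 5) (nat_lit 3) (nat_lit 4) (nat_lit 1) (nat_lit 4) (nat_lit 329) (nat_lit 235) (nat_lit 216)) (XT.lf (nat_lit 0) (nat_lit 1231157902500) (nat_lit 152) (nat_lit 13414690731183) (nat_lit 0) (nat_lit 1230989538600) (nat_lit 1) (nat_lit 5) (nat_lit 3) (nat_lit 4) (nat_lit 1) (nat_lit 4) (nat_lit 330)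 (nat_lit 235) (nat_lit 215))))) (XT.nd (nat_lit 156) (nat_lit 0) (nat_lit 0) (XT.nd (nat_lit 78) (nat_lit 0) (nat_lit 0) (XT.lf (nat_lit 0) (nat_lit 1416301141643) (nat_lit 152) (nat_lit 15425856837798) (nat_lit 0) (nat_lit 1416131348631) (nat_lit 1) (nat_lit 5) (nat_lit 3) (nat_lit 4) (nat_lit 1) (nat_lit 4) (nat_lit 331) (nat_lit 235) (nat_lit 214)) (XT.lf (nat_lit 0) (nat_lit 1629209228018) (nat_lit 152) (nat_lit 17738711734077) (nat_lit 0) (nat_lit 1629038192299) (nat_lit 1) (nat_lit 5) (nat_lit 3) (nat_lit 4) (nat_lit 1) (nat_lit 4) (nat_lit 332) (nat_lit 235) (nat_lit 213))) (XT.nd (nat_lit 78) (nat_lit 0) (nat_lit 0) (XT.lf (nat_lit 0) (nat_lit 1874047754618) (nat_lit 152) (nat_lit 20398506928859) (nat_lit 0) (nat_lit 1873875638285) (nat_lit 1) (nat_lit 5) (nat_lit 3) (nat_lit 4) (nat_lit 1) (nat_lit 4) (nat_lit 333) (nat_lit 235) (nat_lit 212)) (XT.nd (nat_lit 78) (nat_lit 0)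 (nat_lit 0) (XT.lf (nat_lit 0) (nat_lit 2155607040443) (nat_lit 152) (nat_lit 23457281893348) (nat_lit 0) (nat_lit 2155433984445) (nat_lit 1) (nat_lit 5) (nat_lit 3) (nat_lit 4) (nat_lit 1) (nat_lit 4) (nat_lit 334) (nat_lit 235) (nat_lit 211)) (XT.lf (nat_lit 0) (nat_lit 2479395854127) (nat_lit 152) (nat_lit 26974882224673) (nat_lit 0) (nat_lit 2479221981030) (nat_lit 1) (nat_lit 5) (nat_lit 3) (nat_lit 4) (nat_lit 1) (nat_lit 4) (nat_lit 335) (nat_lit 235) (nat_lit 210))))))) (XT.nd (nat_lit 38454) (nat_lit 0) (nat_lit 0) (XT.nd (nat_lit 390) (nat_lit 0) (nat_lit 0) (XT.nd (nat_lit 156) (nat_lit 0) (nat_lit 0) (XT.nd (nat_lit 78) (nat_lit 0) (nat_lit 0) (XT.lf (nat_lit 0) (nat_lit 2851749194201) (nat_lit 152) (nat_lit 31020130538014) (nat_lit 0) (nat_lit 2851574610582) (nat_lit 1) (nat_lit 5) (nat_lit 3) (nat_lit 4) (nat_lit 1) (nat_lit 4) (nat_lit 336) (nat_lit 235) (nat_lit 209))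 (XT.lf (nat_lit 0) (nat_lit 3279952234708) (nat_lit 152) (nat_lit 35672172996023) (nat_lit 0) (nat_lit 3279777033244) (nat_lit 1) (nat_lit 5) (nat_lit 3) (nat_lit 4) (nat_lit 1) (nat_lit 4) (nat_lit 337) (nat_lit 235) (nat_lit 208))) (XT.nd (nat_lit 78) (nat_lit 0) (nat_lit 0) (XT.lf (nat_lit 0) (nat_lit 3772382861223) (nat_lit 152) (nat_lit 41022027820704) (nat_lit 0) (nat_lit 3772207122503) (nat_lit 1) (nat_lit 5) (nat_lit 3) (nat_lit 4) (nat_lit 1) (nat_lit 4) (nat_lit 338) (nat_lit 235) (nat_lit 207)) (XT.nd (nat_lit 78) (nat_lit 0) (nat_lit 0) (XT.lf (nat_lit 0) (nat_lit 4338675586005) (nat_lit 152) (nat_lit 47174366084713) (nat_lit 0) (nat_lit 4338499380106) (nat_lit 1) (nat_lit 5) (nat_lit 3) (nat_lit 4) (nat_lit 1) (nat_lit 4) (nat_lit 339) (nat_lit 235) (nat_lit 206)) (XT.lf (nat_lit 0) (nat_lit 4989910049321) (nat_lit 152) (nat_lit 54249559623652) (nat_lit 0) (nat_lit 4989733437179)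 (nat_lit 1) (nat_lit 5) (nat_lit 3) (nat_lit 4) (nat_lit 1) (nat_lit 4) (nat_lit 340) (nat_lit 235) (nat_lit 205))))) (XT.nd (nat_lit 156) (nat_lit 0) (nat_lit 0) (XT.nd (nat_lit 78) (nat_lit 0) (nat_lit 0) (XT.lf (nat_lit 0) (nat_lit 5738827795019) (nat_lit 152) (nat_lit 62386036137196) (nat_lit 0) (nat_lit 5738650829622) (nat_lit 1) (nat_lit 5) (nat_lit 3) (nat_lit 4) (nat_lit 1) (nat_lit 4) (nat_lit 341) (nat_lit 235) (nat_lit 204)) (XT.lf (nat_lit 0) (nat_lit 6600081561601) (nat_lit 152) (nat_lit 71742987557130) (nat_lit 0) (nat_lit 6599904289026) (nat_lit 1) (nat_lit 5) (nat_lit 3) (nat_lit 4) (nat_lit 1) (nat_lit 4) (nat_lit 342) (nat_lit 235) (nat_lit 203))) (XT.nd (nat_lit 78) (nat_lit 0) (nat_lit 0) (XT.lf (nat_lit 0) (nat_lit 7590521966240) (nat_lit 152) (nat_lit 82503484672105) (nat_lit 0) (nat_lit 7590344426554) (nat_lit 1) (nat_lit 5) (nat_lit 3) (nat_lit 4) (nat_lit 1)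 (nat_lit 4) (nat_lit 343) (nat_lit 235) (nat_lit 202)) (XT.nd (nat_lit 78) (nat_lit 0) (nat_lit 0) (XT.lf (nat_lit 0) (nat_lit 8729527190765) (nat_lit 152) (nat_lit 94878058947416) (nat_lit 0) (nat_lit 8729349418808) (nat_lit 1) (nat_lit 5) (nat_lit 3) (nat_lit 4) (nat_lit 1) (nat_lit 4) (nat_lit 344) (nat_lit 235) (nat_lit 201)) (XT.lf (nat_lit 0) (nat_lit 10039382120004) (nat_lit 152) (nat_lit 109108821618882) (nat_lit 0) (nat_lit 10039204146073) (nat_lit 1) (nat_lit 5) (nat_lit 3) (nat_lit 4) (nat_lit 1) (nat_lit 4) (nat_lit 345) (nat_lit 235) (nat_lit 200)))))) (XT.nd (nat_lit 390) (nat_lit 0) (nat_lit 0) (XT.nd (nat_lit 156) (nat_lit 0) (nat_lit 0) (XT.nd (nat_lit 78) (nat_lit 0) (nat_lit 0) (XT.lf (nat_lit 0) (nat_lit 25195959729) (nat_lit 152) (nat_lit 316869874315) (nat_lit 0) (nat_lit 25195959729) (nat_lit 1) (nat_lit 5) (nat_lit 3) (nat_lit 4) (nat_lit 1) (nat_lit 4) (nat_lit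 308) (nat_lit 236) (nat_lit 236)) (XT.lf (nat_lit 0) (nat_lit 59390108054) (nat_lit 152) (nat_lit 725727954700) (nat_lit 0) (nat_lit 59363209990) (nat_lit 1) (nat_lit 5) (nat_lit 3) (nat_lit 4) (nat_lit 1) (nat_lit 4) (nat_lit 309) (nat_lit 236) (nat_lit 235))) (XT.nd (nat_lit 78) (nat_lit 0) (nat_lit 0) (XT.lf (nat_lit 0) (nat_lit 69613075654) (nat_lit 152) (nat_lit 831775515234) (nat_lit 0) (nat_lit 69562787969) (nat_lit 1) (nat_lit 5) (nat_lit 3) (nat_lit 4) (nat_lit 1) (nat_lit 4) (nat_lit 310) (nat_lit 236) (nat_lit 234)) (XT.nd (nat_lit 78) (nat_lit 0) (nat_lit 0) (XT.lf (nat_lit 0) (nat_lit 81260836842) (nat_lit 152) (nat_lit 953957273806) (nat_lit 0) (nat_lit 81190210355) (nat_lit 1) (nat_lit 5) (nat_lit 3) (nat_lit 4) (nat_lit 1) (nat_lit 4) (nat_lit 311) (nat_lit 236) (nat_lit 233)) (XT.lf (nat_lit 0) (nat_lit 94561282597) (nat_lit 152) (nat_lit 1094663743085) (nat_lit 0) (nat_lit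 94472970196) (nat_lit 1) (nat_lit 5) (nat_lit 3) (nat_lit 4) (nat_lit 1) (nat_lit 4) (nat_lit 312) (nat_lit 236) (nat_lit 232))))) (XT.nd (nat_lit 234) (nat_lit 0) (nat_lit 0) (XT.nd (nat_lit 78) (nat_lit 0) (nat_lit 0) (XT.lf (nat_lit 0) (nat_lit 109774639031) (nat_lit 152) (nat_lit 1256647875731) (nat_lit 0) (nat_lit 109670947576) (nat_lit 1) (nat_lit 5) (nat_lit 3) (nat_lit 4) (nat_lit 1) (nat_lit 4) (nat_lit 313) (nat_lit 236) (nat_lit 231)) (XT.nd (nat_lit 78) (nat_lit 0) (nat_lit 0) (XT.lf (nat_lit 0) (nat_lit 127198558772) (nat_lit 152) (nat_lit 1443078926511) (nat_lit 0) (nat_lit 127081494224) (nat_lit 1) (nat_lit 5) (nat_lit 3) (nat_lit 4) (nat_lit 1) (nat_lit 4) (nat_lit 314) (nat_lit 236) (nat_lit 230)) (XT.lf (nat_lit 0) (nat_lit 147173944596) (nat_lit 152) (nat_lit 1657604459465) (nat_lit 0) (nat_lit 147045251273) (nat_lit 1) (nat_lit 5) (nat_lit 3) (nat_lit 4) (nat_lit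 1) (nat_lit 4) (nat_lit 315) (nat_lit 236) (nat_lit 229)))) (XT.nd (nat_lit 78) (nat_lit 0) (nat_lit 0) (XT.lf (nat_lit 0) (nat_lit 170091619269) (nat_lit 152) (nat_lit 1904421713279) (nat_lit 0) (nat_lit 169952813967) (nat_lit 1) (nat_lit 5) (nat_lit 3) (nat_lit 4) (nat_lit 1) (nat_lit 4) (nat_lit 316) (nat_lit 236) (nat_lit 228)) (XT.nd (nat_lit 78) (nat_lit 0) (nat_lit 0) (XT.lf (nat_lit 0) (nat_lit 196399972079) (nat_lit 152) (nat_lit 2188359721181) (nat_lit 0) (nat_lit 196252373752) (nat_lit 1) (nat_lit 5) (nat_lit 3) (nat_lit 4) (nat_lit 1) (nat_lit 4) (nat_lit 317) (nat_lit 236) (nat_lit 227)) (XT.lf (nat_lit 0) (nat_lit 226613731667) (nat_lit 152) (nat_lit 2514973792020) (nat_lit 0) (nat_lit 226458487232) (nat_lit 1) (nat_lit 5) (nat_lit 3) (nat_lit 4) (nat_lit 1) (nat_lit 4) (nat_lit 318) (nat_lit 236) (nat_lit 226))))))))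
noncomputable def xc10 : XT := (XT.nd (nat_lit 1560) (nat_lit 0) (nat_lit 0) (XT.nd (nat_lit 780) (nat_lit 0) (nat_lit 0) (XT.nd (nat_lit 390) (nat_lit 0) (nat_lit 0) (XT.nd (nat_lit 156) (nat_lit 0) (nat_lit 0) (XT.nd (nat_lit 78) (nat_lit 0) (nat_lit 0) (XT.lf (nat_lit 0) (nat_lit 261324036808) (nat_lit 152) (nat_lit 2890654201097) (nat_lit 0) (nat_lit 261162143583) (nat_lit 1) (nat_lit 5) (nat_lit 3) (nat_lit 4) (nat_lit 1) (nat_lit 4) (nat_lit 319) (nat_lit 236) (nat_lit 225)) (XT.lf (nat_lit 0) (nat_lit 301210002168) (nat_lit 152) (nat_lit 3322751217283) (nat_lit 0) (nat_lit 301042327386) (nat_lit 1) (nat_lit 5) (nat_lit 3) (nat_lit 4) (nat_lit 1) (nat_lit 4) (nat_lit 320) (nat_lit 236) (nat_lit 224))) (XT.nd (nat_lit 78) (nat_lit 0) (nat_lit 0) (XT.lf (nat_lit 0) (nat_lit 347052005330) (nat_lit 152) (nat_lit 3819718912636) (nat_lit 0) (nat_lit 346879303107) (nat_lit 1) (nat_lit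 5) (nat_lit 3) (nat_lit 4) (nat_lit 1) (nat_lit 4) (nat_lit 321) (nat_lit 236) (nat_lit 223)) (XT.nd (nat_lit 78) (nat_lit 0) (nat_lit 0) (XT.lf (nat_lit 0) (nat_lit 399746955051) (nat_lit 152) (nat_lit 4391280568150) (nat_lit 0) (nat_lit 399569881141) (nat_lit 1) (nat_lit 5) (nat_lit 3) (nat_lit 4) (nat_lit 1) (nat_lit 4) (nat_lit 322) (nat_lit 236) (nat_lit 222)) (XT.lf (nat_lit 0) (nat_lit 460325839478) (nat_lit 152) (nat_lit 5048618911869) (nat_lit 0) (nat_lit 460144964101) (nat_lit 1) (nat_lit 5) (nat_lit 3) (nat_lit 4) (nat_lit 1) (nat_lit 4) (nat_lit 323) (nat_lit 236) (nat_lit 221))))) (XT.nd (nat_lit 156) (nat_lit 0) (nat_lit 0) (XT.nd (nat_lit 78) (nat_lit 0) (nat_lit 0) (XT.lf (nat_lit 0) (nat_lit 529973897655) (nat_lit 152) (nat_lit 5804594911387) (nat_lit 0) (nat_lit 529789716654) (nat_lit 1) (nat_lit 5) (nat_lit 3) (nat_lit 4) (nat_lit 1) (nat_lit 4) (nat_lit 324) (nat_lit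 236) (nat_lit 220)) (XT.lf (nat_lit 0) (nat_lit 610053808980) (nat_lit 152) (nat_lit 6673999401478) (nat_lit 0) (nat_lit 609866753524) (nat_lit 1) (nat_lit 5) (nat_lit 3) (nat_lit 4) (nat_lit 1) (nat_lit 4) (nat_lit 325) (nat_lit 236) (nat_lit 219))) (XT.nd (nat_lit 78) (nat_lit 0) (nat_lit 0) (XT.lf (nat_lit 0) (nat_lit 702132354328) (nat_lit 152) (nat_lit 7673842469990) (nat_lit 0) (nat_lit 701942799345) (nat_lit 1) (nat_lit 5) (nat_lit 3) (nat_lit 4) (nat_lit 1) (nat_lit 4) (nat_lit 326) (nat_lit 236) (nat_lit 218)) (XT.nd (nat_lit 78) (nat_lit 0) (nat_lit 0) (XT.lf (nat_lit 0) (nat_lit 808011070454) (nat_lit 152) (nat_lit 8823686263917) (nat_lit 0) (nat_lit 807819341970) (nat_lit 1) (nat_lit 5) (nat_lit 3) (nat_lit 4) (nat_lit 1) (nat_lit 4) (nat_lit 327) (nat_lit 236) (nat_lit 217)) (XT.lf (nat_lit 0) (nat_lit 929761497457) (nat_lit 152) (nat_lit 10146027727053) (nat_lit 0) (nat_lit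 929567878972) (nat_lit 1) (nat_lit 5) (nat_lit 3) (nat_lit 4) (nat_lit 1) (nat_lit 4) (nat_lit 328) (nat_lit 236) (nat_lit 216)))))) (XT.nd (nat_lit 390) (nat_lit 0) (nat_lit 0) (XT.nd (nat_lit 156) (nat_lit 0) (nat_lit 0) (XT.nd (nat_lit 78) (nat_lit 0) (nat_lit 0) (XT.lf (nat_lit 0) (nat_lit 1069765708909) (nat_lit 152) (nat_lit 11666738757589) (nat_lit 0) (nat_lit 1069570446945) (nat_lit 1) (nat_lit 5) (nat_lit 3) (nat_lit 4) (nat_lit 1) (nat_lit 4) (nat_lit 329) (nat_lit 236) (nat_lit 215)) (XT.lf (nat_lit 0) (nat_lit 1230762917643) (nat_lit 152) (nat_lit 13415572397427) (nat_lit 0) (nat_lit 1230566226566) (nat_lit 1) (nat_lit 5) (nat_lit 3) (nat_lit 4) (nat_lit 1) (nat_lit 4) (nat_lit 330) (nat_lit 236) (nat_lit 214))) (XT.nd (nat_lit 78) (nat_lit 0) (nat_lit 0) (XT.lf (nat_lit 0) (nat_lit 1415903069047) (nat_lit 152) (nat_lit 15426744956913) (nat_lit 0) (nat_lit 1415705135264)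 (nat_lit 1) (nat_lit 5) (nat_lit 3) (nat_lit 4) (nat_lit 1) (nat_lit 4) (nat_lit 331) (nat_lit 236) (nat_lit 213)) (XT.nd (nat_lit 78) (nat_lit 0) (nat_lit 0) (XT.lf (nat_lit 0) (nat_lit 1628808470431) (nat_lit 152) (nat_lit 17739605464383) (nat_lit 0) (nat_lit 1628609456033) (nat_lit 1) (nat_lit 5) (nat_lit 3) (nat_lit 4) (nat_lit 1) (nat_lit 4) (nat_lit 332) (nat_lit 236) (nat_lit 212)) (XT.lf (nat_lit 0) (nat_lit 1873644662256) (nat_lit 152) (nat_lit 20399405538462) (nat_lit 0) (nat_lit 1873444708194) (nat_lit 1) (nat_lit 5) (nat_lit 3) (nat_lit 4) (nat_lit 1) (nat_lit 4) (nat_lit 333) (nat_lit 236) (nat_lit 211))))) (XT.nd (nat_lit 156) (nat_lit 0) (nat_lit 0) (XT.nd (nat_lit 78) (nat_lit 0) (nat_lit 0) (XT.lf (nat_lit 0) (nat_lit 2155201917842) (nat_lit 152) (nat_lit 23458184745817) (nat_lit 0) (nat_lit 2155001146680) (nat_lit 1) (nat_lit 5) (nat_lit 3) (nat_lit 4) (nat_lit 1) (nat_lit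 4) (nat_lit 334) (nat_lit 236) (nat_lit 210)) (XT.lf (nat_lit 0) (nat_lit 2478988966101) (nat_lit 152) (nat_lit 26975788766592) (nat_lit 0) (nat_lit 2478787484418) (nat_lit 1) (nat_lit 5) (nat_lit 3) (nat_lit 4) (nat_lit 1) (nat_lit 4) (nat_lit 335) (nat_lit 236) (nat_lit 209))) (XT.nd (nat_lit 78) (nat_lit 0) (nat_lit 0) (XT.lf (nat_lit 0) (nat_lit 2851340771022) (nat_lit 152) (nat_lit 31021040288150) (nat_lit 0) (nat_lit 2851138671495) (nat_lit 1) (nat_lit 5) (nat_lit 3) (nat_lit 4) (nat_lit 1) (nat_lit 4) (nat_lit 336) (nat_lit 236) (nat_lit 208)) (XT.nd (nat_lit 78) (nat_lit 0) (nat_lit 0) (XT.lf (nat_lit 0) (nat_lit 3279542476614) (nat_lit 152) (nat_lit 35673085535913) (nat_lit 0) (nat_lit 3279339839830) (nat_lit 1) (nat_lit 5) (nat_lit 3) (nat_lit 4) (nat_lit 1) (nat_lit 4) (nat_lit 337) (nat_lit 236) (nat_lit 207)) (XT.lf (nat_lit 0) (nat_lit 3771971942334) (nat_lit 152) (nat_lit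 41022942786467) (nat_lit 0) (nat_lit 3771768838371) (nat_lit 1) (nat_lit 5) (nat_lit 3) (nat_lit 4) (nat_lit 1) (nat_lit 4) (nat_lit 338) (nat_lit 236) (nat_lit 206))))))) (XT.nd (nat_lit 38220) (nat_lit 0) (nat_lit 0) (XT.nd (nat_lit 390) (nat_lit 0) (nat_lit 0) (XT.nd (nat_lit 156) (nat_lit 0) (nat_lit 0) (XT.nd (nat_lit 78) (nat_lit 0) (nat_lit 0) (XT.lf (nat_lit 0) (nat_lit 4338263657729) (nat_lit 152) (nat_lit 47175283159931) (nat_lit 0) (nat_lit 4338060147522) (nat_lit 1) (nat_lit 5) (nat_lit 3) (nat_lit 4) (nat_lit 1) (nat_lit 4) (nat_lit 339) (nat_lit 236) (nat_lit 205)) (XT.lf (nat_lit 0) (nat_lit 4989497243316) (nat_lit 152) (nat_lit 54250478533179) (nat_lit 0) (nat_lit 4989293379855) (nat_lit 1) (nat_lit 5) (nat_lit 3) (nat_lit 4) (nat_lit 1) (nat_lit 4) (nat_lit 340) (nat_lit 236) (nat_lit 204))) (XT.nd (nat_lit 78) (nat_lit 0) (nat_lit 0) (XT.lf (nat_lit 0) (nat_lit 5738414225772)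 (nat_lit 152) (nat_lit 62386956641773) (nat_lit 0) (nat_lit 5738210055133) (nat_lit 1) (nat_lit 5) (nat_lit 3) (nat_lit 4) (nat_lit 1) (nat_lit 4) (nat_lit 341) (nat_lit 236) (nat_lit 203)) (XT.nd (nat_lit 78) (nat_lit 0) (nat_lit 0) (XT.lf (nat_lit 0) (nat_lit 6599667328666) (nat_lit 152) (nat_lit 71743909448708) (nat_lit 0) (nat_lit 6599462890915) (nat_lit 1) (nat_lit 5) (nat_lit 3) (nat_lit 4) (nat_lit 1) (nat_lit 4) (nat_lit 342) (nat_lit 236) (nat_lit 202)) (XT.lf (nat_lit 0) (nat_lit 7590107156184) (nat_lit 152) (nat_lit 82504407769771) (nat_lit 0) (nat_lit 7589902486162) (nat_lit 1) (nat_lit 5) (nat_lit 3) (nat_lit 4) (nat_lit 1) (nat_lit 4) (nat_lit 343) (nat_lit 236) (nat_lit 201))))) (XT.nd (nat_lit 156) (nat_lit 0) (nat_lit 0) (XT.nd (nat_lit 78) (nat_lit 0) (nat_lit 0) (XT.lf (nat_lit 0) (nat_lit 8729111878865) (nat_lit 152) (nat_lit 94878983093853) (nat_lit 0) (nat_lit 8728907006869)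 (nat_lit 1) (nat_lit 5) (nat_lit 3) (nat_lit 4) (nat_lit 1) (nat_lit 4) (nat_lit 344) (nat_lit 236) (nat_lit 200)) (XT.lf (nat_lit 0) (nat_lit 10038966371718) (nat_lit 152) (nat_lit 109109746677295) (nat_lit 0) (nat_lit 10038761324092) (nat_lit 1) (nat_lit 5) (nat_lit 3) (nat_lit 4) (nat_lit 1) (nat_lit 4) (nat_lit 345) (nat_lit 236) (nat_lit 199))) (XT.nd (nat_lit 37518) (nat_lit 0) (nat_lit 0) (XT.lf (nat_lit 0) (nat_lit 11545298222647) (nat_lit 152) (nat_lit 125475126503251) (nat_lit 0) (nat_lit 11545093022300) (nat_lit 1) (nat_lit 5) (nat_lit 3) (nat_lit 4) (nat_lit 1) (nat_lit 4) (nat_lit 346) (nat_lit 236) (nat_lit 198)) (XT.nd (nat_lit 78) (nat_lit 0) (nat_lit 0) (XT.lf (nat_lit 0) (nat_lit 17746991454) (nat_lit 152) (nat_lit 242410781492) (nat_lit 0) (nat_lit 17746991454) (nat_lit 1) (nat_lit 5) (nat_lit 3) (nat_lit 4) (nat_lit 1) (nat_lit 4) (nat_lit 306) (nat_lit 237) (nat_lit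 237)) (XT.lf (nat_lit 0) (nat_lit 42473391124) (nat_lit 152) (nat_lit 554011127774) (nat_lit 0) (nat_lit 42442458350) (nat_lit 1) (nat_lit 5) (nat_lit 3) (nat_lit 4) (nat_lit 1) (nat_lit 4) (nat_lit 307) (nat_lit 237) (nat_lit 236)))))) (XT.nd (nat_lit 390) (nat_lit 0) (nat_lit 0) (XT.nd (nat_lit 156) (nat_lit 0) (nat_lit 0) (XT.nd (nat_lit 78) (nat_lit 0) (nat_lit 0) (XT.lf (nat_lit 0) (nat_lit 50356018893) (nat_lit 152) (nat_lit 633879419367) (nat_lit 0) (nat_lit 50298188055) (nat_lit 1) (nat_lit 5) (nat_lit 3) (nat_lit 4) (nat_lit 1) (nat_lit 4) (nat_lit 308) (nat_lit 237) (nat_lit 235)) (XT.lf (nat_lit 0) (nat_lit 59296091542) (nat_lit 152) (nat_lit 725989078253) (nat_lit 0) (nat_lit 59214871083) (nat_lit 1) (nat_lit 5) (nat_lit 3) (nat_lit 4) (nat_lit 1) (nat_lit 4) (nat_lit 309) (nat_lit 237) (nat_lit 234))) (XT.nd (nat_lit 78) (nat_lit 0) (nat_lit 0) (XT.lf (nat_lit 0) (nat_lit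 69468523537) (nat_lit 152) (nat_lit 832142249930) (nat_lit 0) (nat_lit 69366964277) (nat_lit 1) (nat_lit 5) (nat_lit 3) (nat_lit 4) (nat_lit 1) (nat_lit 4) (nat_lit 310) (nat_lit 237) (nat_lit 233)) (XT.nd (nat_lit 78) (nat_lit 0) (nat_lit 0) (XT.lf (nat_lit 0) (nat_lit 81072340719) (nat_lit 152) (nat_lit 954415844280) (nat_lit 0) (nat_lit 80953095545) (nat_lit 1) (nat_lit 5) (nat_lit 3) (nat_lit 4) (nat_lit 1) (nat_lit 4) (nat_lit 311) (nat_lit 237) (nat_lit 232)) (XT.lf (nat_lit 0) (nat_lit 94334574296) (nat_lit 152) (nat_lit 1095202170756) (nat_lit 0) (nat_lit 94199950066) (nat_lit 1) (nat_lit 5) (nat_lit 3) (nat_lit 4) (nat_lit 1) (nat_lit 4) (nat_lit 312) (nat_lit 237) (nat_lit 231))))) (XT.nd (nat_lit 156) (nat_lit 0) (nat_lit 0) (XT.nd (nat_lit 78) (nat_lit 0) (nat_lit 0) (XT.lf (nat_lit 0) (nat_lit 109514702750) (nat_lit 152) (nat_lit 1257255744443) (nat_lit 0) (nat_lit 109366705428)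 (nat_lit 1) (nat_lit 5) (nat_lit 3) (nat_lit 4) (nat_lit 1) (nat_lit 4) (nat_lit 313) (nat_lit 237) (nat_lit 230)) (XT.lf (nat_lit 0) (nat_lit 126909728593) (nat_lit 152) (nat_lit 1443747178738) (nat_lit 0) (nat_lit 126750102497) (nat_lit 1) (nat_lit 5) (nat_lit 3) (nat_lit 4) (nat_lit 1) (nat_lit 4) (nat_lit 314) (nat_lit 237) (nat_lit 229))) (XT.nd (nat_lit 78) (nat_lit 0) (nat_lit 0) (XT.lf (nat_lit 0) (nat_lit 146859989290) (nat_lit 152) (nat_lit 1658325219095) (nat_lit 0) (nat_lit 146690251214) (nat_lit 1) (nat_lit 5) (nat_lit 3) (nat_lit 4) (nat_lit 1) (nat_lit 4) (nat_lit 315) (nat_lit 237) (nat_lit 228)) (XT.nd (nat_lit 78) (nat_lit 0) (nat_lit 0) (XT.lf (nat_lit 0) (nat_lit 169755816026) (nat_lit 152) (nat_lit 1905188131521) (nat_lit 0) (nat_lit 169577284926) (nat_lit 1) (nat_lit 5) (nat_lit 3) (nat_lit 4) (nat_lit 1) (nat_lit 4) (nat_lit 316) (nat_lit 237) (nat_lit 227)) (XT.lf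 (nat_lit 0) (nat_lit 196045170630) (nat_lit 152) (nat_lit 2189165842563) (nat_lit 0) (nat_lit 195858993421) (nat_lit 1) (nat_lit 5) (nat_lit 3) (nat_lit 4) (nat_lit 1) (nat_lit 4) (nat_lit 317) (nat_lit 237) (nat_lit 226))))))))
noncomputable def xc11 : XT := (XT.nd (nat_lit 1560) (nat_lit 0) (nat_lit 0) (XT.nd (nat_lit 780) (nat_lit 0) (nat_lit 0) (XT.nd (nat_lit 390) (nat_lit 0) (nat_lit 0) (XT.nd (nat_lit 156) (nat_lit 0) (nat_lit 0) (XT.nd (nat_lit 78) (nat_lit 0) (nat_lit 0) (XT.lf (nat_lit 0) (nat_lit 226242410039) (nat_lit 152) (nat_lit 2515814437873) (nat_lit 0) (nat_lit 226049584040) (nat_lit 1) (nat_lit 5) (nat_lit 3) (nat_lit 4) (nat_lit 1) (nat_lit 4) (nat_lit 318) (nat_lit 237) (nat_lit 225)) (XT.lf (nat_lit 0) (nat_lit 260938349807) (nat_lit 152) (nat_lit 2891524868228) (nat_lit 0) (nat_lit 260739742251) (nat_lit 1) (nat_lit 5) (nat_lit 3) (nat_lit 4) (nat_lit 1) (nat_lit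 4) (nat_lit 319) (nat_lit 237) (nat_lit 224))) (XT.nd (nat_lit 78) (nat_lit 0) (nat_lit 0) (XT.lf (nat_lit 0) (nat_lit 300811823538) (nat_lit 152) (nat_lit 3323647989874) (nat_lit 0) (nat_lit 300608188541) (nat_lit 1) (nat_lit 5) (nat_lit 3) (nat_lit 4) (nat_lit 1) (nat_lit 4) (nat_lit 320) (nat_lit 237) (nat_lit 223)) (XT.nd (nat_lit 78) (nat_lit 0) (nat_lit 0) (XT.lf (nat_lit 0) (nat_lit 346642964414) (nat_lit 152) (nat_lit 3820638385626) (nat_lit 0) (nat_lit 346434957730) (nat_lit 1) (nat_lit 5) (nat_lit 3) (nat_lit 4) (nat_lit 1) (nat_lit 4) (nat_lit 321) (nat_lit 237) (nat_lit 222)) (XT.lf (nat_lit 0) (nat_lit 399328468669) (nat_lit 152) (nat_lit 4392219780618) (nat_lit 0) (nat_lit 399116660518) (nat_lit 1) (nat_lit 5) (nat_lit 3) (nat_lit 4) (nat_lit 1) (nat_lit 4) (nat_lit 322) (nat_lit 237) (nat_lit 221))))) (XT.nd (nat_lit 156) (nat_lit 0) (nat_lit 0) (XT.nd (nat_lit 78) (nat_lit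 0) (nat_lit 0) (XT.lf (nat_lit 0) (nat_lit 459899139647) (nat_lit 152) (nat_lit 5049575289101) (nat_lit 0) (nat_lit 459684025873) (nat_lit 1) (nat_lit 5) (nat_lit 3) (nat_lit 4) (nat_lit 1) (nat_lit 4) (nat_lit 323) (nat_lit 237) (nat_lit 220)) (XT.lf (nat_lit 0) (nat_lit 529540055695) (nat_lit 152) (nat_lit 5805566214500) (nat_lit 0) (nat_lit 529322067465) (nat_lit 1) (nat_lit 5) (nat_lit 3) (nat_lit 4) (nat_lit 1) (nat_lit 4) (nat_lit 324) (nat_lit 237) (nat_lit 219))) (XT.nd (nat_lit 78) (nat_lit 0) (nat_lit 0) (XT.lf (nat_lit 0) (nat_lit 609613756473) (nat_lit 152) (nat_lit 6674983683618) (nat_lit 0) (nat_lit 609393268716) (nat_lit 1) (nat_lit 5) (nat_lit 3) (nat_lit 4) (nat_lit 1) (nat_lit 4) (nat_lit 325) (nat_lit 237) (nat_lit 218)) (XT.nd (nat_lit 78) (nat_lit 0) (nat_lit 0) (XT.lf (nat_lit 0) (nat_lit 701686901344) (nat_lit 152) (nat_lit 7674838038240) (nat_lit 0) (nat_lit 701464240086)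 (nat_lit 1) (nat_lit 5) (nat_lit 3) (nat_lit 4) (nat_lit 1) (nat_lit 4) (nat_lit 326) (nat_lit 237) (nat_lit 217)) (XT.lf (nat_lit 0) (nat_lit 807560921404) (nat_lit 152) (nat_lit 8824691646176) (nat_lit 0) (nat_lit 807336370145) (nat_lit 1) (nat_lit 5) (nat_lit 3) (nat_lit 4) (nat_lit 1) (nat_lit 4) (nat_lit 327) (nat_lit 237) (nat_lit 216)))))) (XT.nd (nat_lit 390) (nat_lit 0) (nat_lit 0) (XT.nd (nat_lit 156) (nat_lit 0) (nat_lit 0) (XT.nd (nat_lit 78) (nat_lit 0) (nat_lit 0) (XT.lf (nat_lit 0) (nat_lit 929307264872) (nat_lit 152) (nat_lit 10147041643233) (nat_lit 0) (nat_lit 929081070134) (nat_lit 1) (nat_lit 5) (nat_lit 3) (nat_lit 4) (nat_lit 1) (nat_lit 4) (nat_lit 328) (nat_lit 237) (nat_lit 215)) (XT.lf (nat_lit 0) (nat_lit 1069307925424) (nat_lit 152) (nat_lit 11667760094570) (nat_lit 0) (nat_lit 1069080301573) (nat_lit 1) (nat_lit 5) (nat_lit 3) (nat_lit 4) (nat_lit 1) (nat_lit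 4) (nat_lit 329) (nat_lit 237) (nat_lit 214))) (XT.nd (nat_lit 78) (nat_lit 0) (nat_lit 0) (XT.lf (nat_lit 0) (nat_lit 1230302046418) (nat_lit 152) (nat_lit 13416600187279) (nat_lit 0) (nat_lit 1230073179861) (nat_lit 1) (nat_lit 5) (nat_lit 3) (nat_lit 4) (nat_lit 1) (nat_lit 4) (nat_lit 330) (nat_lit 237) (nat_lit 213)) (XT.nd (nat_lit 78) (nat_lit 0) (nat_lit 0) (XT.lf (nat_lit 0) (nat_lit 1415439512831) (nat_lit 152) (nat_lit 15427778357956) (nat_lit 0) (nat_lit 1415209565659) (nat_lit 1) (nat_lit 5) (nat_lit 3) (nat_lit 4) (nat_lit 1) (nat_lit 4) (nat_lit 331) (nat_lit 237) (nat_lit 212)) (XT.lf (nat_lit 0) (nat_lit 1628342579440) (nat_lit 152) (nat_lit 17740643744723) (nat_lit 0) (nat_lit 1628111692604) (nat_lit 1) (nat_lit 5) (nat_lit 3) (nat_lit 4) (nat_lit 1) (nat_lit 4) (nat_lit 332) (nat_lit 237) (nat_lit 211))))) (XT.nd (nat_lit 156) (nat_lit 0) (nat_lit 0) (XT.nd (nat_lit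 78) (nat_lit 0) (nat_lit 0) (XT.lf (nat_lit 0) (nat_lit 1873176741026) (nat_lit 152) (nat_lit 20400448061669) (nat_lit 0) (nat_lit 1872945037091) (nat_lit 1) (nat_lit 5) (nat_lit 3) (nat_lit 4) (nat_lit 1) (nat_lit 4) (nat_lit 333) (nat_lit 237) (nat_lit 210)) (XT.lf (nat_lit 0) (nat_lit 2154732231187) (nat_lit 152) (nat_lit 23459230958474) (nat_lit 0) (nat_lit 2154499816730) (nat_lit 1) (nat_lit 5) (nat_lit 3) (nat_lit 4) (nat_lit 1) (nat_lit 4) (nat_lit 334) (nat_lit 237) (nat_lit 209))) (XT.nd (nat_lit 78) (nat_lit 0) (nat_lit 0) (XT.lf (nat_lit 0) (nat_lit 2478517744294) (nat_lit 152) (nat_lit 26976838187466) (nat_lit 0) (nat_lit 2478284711992) (nat_lit 1) (nat_lit 5) (nat_lit 3) (nat_lit 4) (nat_lit 1) (nat_lit 4) (nat_lit 335) (nat_lit 237) (nat_lit 208)) (XT.nd (nat_lit 78) (nat_lit 0) (nat_lit 0) (XT.lf (nat_lit 0) (nat_lit 2850868214300) (nat_lit 152) (nat_lit 31022092498778)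 (nat_lit 0) (nat_lit 2850634644742) (nat_lit 1) (nat_lit 5) (nat_lit 3) (nat_lit 4) (nat_lit 1) (nat_lit 4) (nat_lit 336) (nat_lit 237) (nat_lit 207)) (XT.lf (nat_lit 0) (nat_lit 3279068759096) (nat_lit 152) (nat_lit 35674140172414) (nat_lit 0) (nat_lit 3278834722359) (nat_lit 1) (nat_lit 5) (nat_lit 3) (nat_lit 4) (nat_lit 1) (nat_lit 4) (nat_lit 337) (nat_lit 237) (nat_lit 206))))))) (XT.nd (nat_lit 38064) (nat_lit 0) (nat_lit 0) (XT.nd (nat_lit 390) (nat_lit 0) (nat_lit 0) (XT.nd (nat_lit 156) (nat_lit 0) (nat_lit 0) (XT.nd (nat_lit 78) (nat_lit 0) (nat_lit 0) (XT.lf (nat_lit 0) (nat_lit 3771497215428) (nat_lit 152) (nat_lit 41023999532422) (nat_lit 0) (nat_lit 3771262772448) (nat_lit 1) (nat_lit 5) (nat_lit 3) (nat_lit 4) (nat_lit 1) (nat_lit 4) (nat_lit 338) (nat_lit 237) (nat_lit 205)) (XT.lf (nat_lit 0) (nat_lit 4337788053095) (nat_lit 152) (nat_lit 47176341740195) (nat_lit 0)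 (nat_lit 4337553256859) (nat_lit 1) (nat_lit 5) (nat_lit 3) (nat_lit 4) (nat_lit 1) (nat_lit 4) (nat_lit 339) (nat_lit 237) (nat_lit 204))) (XT.nd (nat_lit 78) (nat_lit 0) (nat_lit 0) (XT.lf (nat_lit 0) (nat_lit 4989020875440) (nat_lit 152) (nat_lit 54251538708494) (nat_lit 0) (nat_lit 4988785772027) (nat_lit 1) (nat_lit 5) (nat_lit 3) (nat_lit 4) (nat_lit 1) (nat_lit 4) (nat_lit 340) (nat_lit 237) (nat_lit 203)) (XT.nd (nat_lit 78) (nat_lit 0) (nat_lit 0) (XT.lf (nat_lit 0) (nat_lit 5737937194207) (nat_lit 152) (nat_lit 62388018204089) (nat_lit 0) (nat_lit 5737701823683) (nat_lit 1) (nat_lit 5) (nat_lit 3) (nat_lit 4) (nat_lit 1) (nat_lit 4) (nat_lit 341) (nat_lit 237) (nat_lit 202)) (XT.lf (nat_lit 0) (nat_lit 6599189719980) (nat_lit 152) (nat_lit 71744972217111) (nat_lit 0) (nat_lit 6598954117185) (nat_lit 1) (nat_lit 5) (nat_lit 3) (nat_lit 4) (nat_lit 1) (nat_lit 4) (nat_lit 342)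 (nat_lit 237) (nat_lit 201))))) (XT.nd (nat_lit 156) (nat_lit 0) (nat_lit 0) (XT.nd (nat_lit 78) (nat_lit 0) (nat_lit 0) (XT.lf (nat_lit 0) (nat_lit 7589629045654) (nat_lit 152) (nat_lit 82505471586946) (nat_lit 0) (nat_lit 7589393240885) (nat_lit 1) (nat_lit 5) (nat_lit 3) (nat_lit 4) (nat_lit 1) (nat_lit 4) (nat_lit 343) (nat_lit 237) (nat_lit 200)) (XT.lf (nat_lit 0) (nat_lit 8728633331949) (nat_lit 152) (nat_lit 94880047823004) (nat_lit 0) (nat_lit 8728397351550) (nat_lit 1) (nat_lit 5) (nat_lit 3) (nat_lit 4) (nat_lit 1) (nat_lit 4) (nat_lit 344) (nat_lit 237) (nat_lit 199))) (XT.nd (nat_lit 78) (nat_lit 0) (nat_lit 0) (XT.lf (nat_lit 0) (nat_lit 10038487445336) (nat_lit 152) (nat_lit 109110812199468) (nat_lit 0) (nat_lit 10038251312215) (nat_lit 1) (nat_lit 5) (nat_lit 3) (nat_lit 4) (nat_lit 1) (nat_lit 4) (nat_lit 345) (nat_lit 237) (nat_lit 198)) (XT.nd (nat_lit 37362) (nat_lit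 0) (nat_lit 0) (XT.lf (nat_lit 0) (nat_lit 11544818966295) (nat_lit 152) (nat_lit 125476192715008) (nat_lit 0) (nat_lit 11544582700372) (nat_lit 1) (nat_lit 5) (nat_lit 3) (nat_lit 4) (nat_lit 1) (nat_lit 4) (nat_lit 346) (nat_lit 237) (nat_lit 197)) (XT.lf (nat_lit 0) (nat_lit 11918785175) (nat_lit 152) (nat_lit 186530754882) (nat_lit 0) (nat_lit 11918785175) (nat_lit 1) (nat_lit 5) (nat_lit 3) (nat_lit 4) (nat_lit 1) (nat_lit 4) (nat_lit 304) (nat_lit 238) (nat_lit 238)))))) (XT.nd (nat_lit 390) (nat_lit 0) (nat_lit 0) (XT.nd (nat_lit 156) (nat_lit 0) (nat_lit 0) (XT.nd (nat_lit 78) (nat_lit 0) (nat_lit 0) (XT.lf (nat_lit 0) (nat_lit 29316813298) (nat_lit 152) (nat_lit 424957016122) (nat_lit 0) (nat_lit 29281240608) (nat_lit 1) (nat_lit 5) (nat_lit 3) (nat_lit 4) (nat_lit 1) (nat_lit 4) (nat_lit 305) (nat_lit 238) (nat_lit 237)) (XT.lf (nat_lit 0) (nat_lit 35452697259) (nat_lit 152)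 (nat_lit 484982184332) (nat_lit 0) (nat_lit 35386191795) (nat_lit 1) (nat_lit 5) (nat_lit 3) (nat_lit 4) (nat_lit 1) (nat_lit 4) (nat_lit 306) (nat_lit 238) (nat_lit 236))) (XT.nd (nat_lit 78) (nat_lit 0) (nat_lit 0) (XT.lf (nat_lit 0) (nat_lit 42365272135) (nat_lit 152) (nat_lit 554311419859) (nat_lit 0) (nat_lit 42271868607) (nat_lit 1) (nat_lit 5) (nat_lit 3) (nat_lit 4) (nat_lit 1) (nat_lit 4) (nat_lit 307) (nat_lit 238) (nat_lit 235)) (XT.nd (nat_lit 78) (nat_lit 0) (nat_lit 0) (XT.lf (nat_lit 0) (nat_lit 50189783958) (nat_lit 152) (nat_lit 634301164268) (nat_lit 0) (nat_lit 50072990809) (nat_lit 1) (nat_lit 5) (nat_lit 3) (nat_lit 4) (nat_lit 1) (nat_lit 4) (nat_lit 308) (nat_lit 238) (nat_lit 234)) (XT.lf (nat_lit 0) (nat_lit 59079321002) (nat_lit 152) (nat_lit 726516434297) (nat_lit 0) (nat_lit 58942189052) (nat_lit 1) (nat_lit 5) (nat_lit 3) (nat_lit 4) (nat_lit 1) (nat_lit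 4) (nat_lit 309) (nat_lit 238) (nat_lit 233))))) (XT.nd (nat_lit 234) (nat_lit 0) (nat_lit 0) (XT.nd (nat_lit 78) (nat_lit 0) (nat_lit 0) (XT.lf (nat_lit 0) (nat_lit 69207808991) (nat_lit 152) (nat_lit 832761441752) (nat_lit 0) (nat_lit 69052991127) (nat_lit 1) (nat_lit 5) (nat_lit 3) (nat_lit 4) (nat_lit 1) (nat_lit 4) (nat_lit 310) (nat_lit 238) (nat_lit 232)) (XT.nd (nat_lit 78) (nat_lit 0) (nat_lit 0) (XT.lf (nat_lit 0) (nat_lit 80773413995) (nat_lit 152) (nat_lit 955114893299) (nat_lit 0) (nat_lit 80603217076) (nat_lit 1) (nat_lit 5) (nat_lit 3) (nat_lit 4) (nat_lit 1) (nat_lit 4) (nat_lit 311) (nat_lit 238) (nat_lit 231)) (XT.lf (nat_lit 0) (nat_lit 94002419591) (nat_lit 152) (nat_lit 1095970660816) (nat_lit 0) (nat_lit 93818849579) (nat_lit 1) (nat_lit 5) (nat_lit 3) (nat_lit 4) (nat_lit 1) (nat_lit 4) (nat_lit 312) (nat_lit 238) (nat_lit 230)))) (XT.nd (nat_lit 78) (nat_lit 0)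 (nat_lit 0) (XT.lf (nat_lit 0) (nat_lit 109153654148) (nat_lit 152) (nat_lit 1258084618017) (nat_lit 0) (nat_lit 108958455361) (nat_lit 1) (nat_lit 5) (nat_lit 3) (nat_lit 4) (nat_lit 1) (nat_lit 4) (nat_lit 313) (nat_lit 238) (nat_lit 229)) (XT.nd (nat_lit 78) (nat_lit 0) (nat_lit 0) (XT.lf (nat_lit 0) (nat_lit 126523554864) (nat_lit 152) (nat_lit 1444628559716) (nat_lit 0) (nat_lit 126318244099) (nat_lit 1) (nat_lit 5) (nat_lit 3) (nat_lit 4) (nat_lit 1) (nat_lit 4) (nat_lit 314) (nat_lit 238) (nat_lit 228)) (XT.lf (nat_lit 0) (nat_lit 146451967623) (nat_lit 152) (nat_lit 1659252258685) (nat_lit 0) (nat_lit 146237863833) (nat_lit 1) (nat_lit 5) (nat_lit 3) (nat_lit 4) (nat_lit 1) (nat_lit 4) (nat_lit 315) (nat_lit 238) (nat_lit 227))))))))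
noncomputable def xc12 : XT := (XT.nd (nat_lit 1560) (nat_lit 0) (nat_lit 0) (XT.nd (nat_lit 780) (nat_lit 0) (nat_lit 0) (XT.nd (nat_lit 390) (nat_lit 0) (nat_lit 0) (XT.nd (nat_lit 156) (nat_lit 0) (nat_lit 0) (XT.nd (nat_lit 78) (nat_lit 0) (nat_lit 0) (XT.lf (nat_lit 0) (nat_lit 169328796154) (nat_lit 152) (nat_lit 1906154874251) (nat_lit 0) (nat_lit 169107046255) (nat_lit 1) (nat_lit 5) (nat_lit 3) (nat_lit 4) (nat_lit 1) (nat_lit 4) (nat_lit 316) (nat_lit 238) (nat_lit 226)) (XT.lf (nat_lit 0) (nat_lit 195601630578) (nat_lit 152) (nat_lit 2190167109764) (nat_lit 0) (nat_lit 195373231889) (nat_lit 1) (nat_lit 5) (nat_lit 3) (nat_lit 4) (nat_lit 1) (nat_lit 4) (nat_lit 317) (nat_lit 238) (nat_lit 225))) (XT.nd (nat_lit 78) (nat_lit 0) (nat_lit 0) (XT.lf (nat_lit 0) (nat_lit 225784504614) (nat_lit 152) (nat_lit 2516845726352) (nat_lit 0) (nat_lit 225550324368) (nat_lit 1) (nat_lit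 5) (nat_lit 3) (nat_lit 4) (nat_lit 1) (nat_lit 4) (nat_lit 318) (nat_lit 238) (nat_lit 224)) (XT.nd (nat_lit 78) (nat_lit 0) (nat_lit 0) (XT.lf (nat_lit 0) (nat_lit 260467952753) (nat_lit 152) (nat_lit 2892582262167) (nat_lit 0) (nat_lit 260228745067) (nat_lit 1) (nat_lit 5) (nat_lit 3) (nat_lit 4) (nat_lit 1) (nat_lit 4) (nat_lit 319) (nat_lit 238) (nat_lit 223)) (XT.lf (nat_lit 0) (nat_lit 300330564198) (nat_lit 152) (nat_lit 3324728084212) (nat_lit 0) (nat_lit 300086984824) (nat_lit 1) (nat_lit 5) (nat_lit 3) (nat_lit 4) (nat_lit 1) (nat_lit 4) (nat_lit 320) (nat_lit 238) (nat_lit 222))))) (XT.nd (nat_lit 156) (nat_lit 0) (nat_lit 0) (XT.nd (nat_lit 78) (nat_lit 0) (nat_lit 0) (XT.lf (nat_lit 0) (nat_lit 346152259608) (nat_lit 152) (nat_lit 3821738219442) (nat_lit 0) (nat_lit 345904878767) (nat_lit 1) (nat_lit 5) (nat_lit 3) (nat_lit 4) (nat_lit 1) (nat_lit 4) (nat_lit 321) (nat_lit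 238) (nat_lit 221)) (XT.lf (nat_lit 0) (nat_lit 398829550414) (nat_lit 152) (nat_lit 4393336779198) (nat_lit 0) (nat_lit 398578863950) (nat_lit 1) (nat_lit 5) (nat_lit 3) (nat_lit 4) (nat_lit 1) (nat_lit 4) (nat_lit 322) (nat_lit 238) (nat_lit 220))) (XT.nd (nat_lit 78) (nat_lit 0) (nat_lit 0) (XT.lf (nat_lit 0) (nat_lit 459393079264) (nat_lit 152) (nat_lit 5050707213561) (nat_lit 0) (nat_lit 459139518343) (nat_lit 1) (nat_lit 5) (nat_lit 3) (nat_lit 4) (nat_lit 1) (nat_lit 4) (nat_lit 323) (nat_lit 238) (nat_lit 219)) (XT.nd (nat_lit 78) (nat_lit 0) (nat_lit 0) (XT.lf (nat_lit 0) (nat_lit 529027784764) (nat_lit 152) (nat_lit 5806711117988) (nat_lit 0) (nat_lit 528771724317) (nat_lit 1) (nat_lit 5) (nat_lit 3) (nat_lit 4) (nat_lit 1) (nat_lit 4) (nat_lit 324) (nat_lit 238) (nat_lit 218)) (XT.lf (nat_lit 0) (nat_lit 609096085066) (nat_lit 152) (nat_lit 6676139873216) (nat_lit 0) (nat_lit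 608837851118) (nat_lit 1) (nat_lit 5) (nat_lit 3) (nat_lit 4) (nat_lit 1) (nat_lit 4) (nat_lit 325) (nat_lit 238) (nat_lit 217)))))) (XT.nd (nat_lit 390) (nat_lit 0) (nat_lit 0) (XT.nd (nat_lit 156) (nat_lit 0) (nat_lit 0) (XT.nd (nat_lit 78) (nat_lit 0) (nat_lit 0) (XT.lf (nat_lit 0) (nat_lit 701164533871) (nat_lit 152) (nat_lit 7676004041848) (nat_lit 0) (nat_lit 700904409922) (nat_lit 1) (nat_lit 5) (nat_lit 3) (nat_lit 4) (nat_lit 1) (nat_lit 4) (nat_lit 326) (nat_lit 238) (nat_lit 216)) (XT.lf (nat_lit 0) (nat_lit 807034470396) (nat_lit 152) (nat_lit 8825866183705) (nat_lit 0) (nat_lit 806772702967) (nat_lit 1) (nat_lit 5) (nat_lit 3) (nat_lit 4) (nat_lit 1) (nat_lit 4) (nat_lit 327) (nat_lit 238) (nat_lit 215))) (XT.nd (nat_lit 78) (nat_lit 0) (nat_lit 0) (XT.lf (nat_lit 0) (nat_lit 928777262963) (nat_lit 152) (nat_lit 10148223601562) (nat_lit 0) (nat_lit 928514066422) (nat_lit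 1) (nat_lit 5) (nat_lit 3) (nat_lit 4) (nat_lit 1) (nat_lit 4) (nat_lit 328) (nat_lit 238) (nat_lit 214)) (XT.nd (nat_lit 78) (nat_lit 0) (nat_lit 0) (XT.lf (nat_lit 0) (nat_lit 1068774835775) (nat_lit 152) (nat_lit 11668948505770) (nat_lit 0) (nat_lit 1068510396528) (nat_lit 1) (nat_lit 5) (nat_lit 3) (nat_lit 4) (nat_lit 1) (nat_lit 4) (nat_lit 329) (nat_lit 238) (nat_lit 213)) (XT.lf (nat_lit 0) (nat_lit 1229766271778) (nat_lit 152) (nat_lit 13417794209670) (nat_lit 0) (nat_lit 1229500751917) (nat_lit 1) (nat_lit 5) (nat_lit 3) (nat_lit 4) (nat_lit 1) (nat_lit 4) (nat_lit 330) (nat_lit 238) (nat_lit 212))))) (XT.nd (nat_lit 156) (nat_lit 0) (nat_lit 0) (XT.nd (nat_lit 78) (nat_lit 0) (nat_lit 0) (XT.lf (nat_lit 0) (nat_lit 1414901403416) (nat_lit 152) (nat_lit 15428977259644) (nat_lit 0) (nat_lit 1414634943890) (nat_lit 1) (nat_lit 5) (nat_lit 3) (nat_lit 4) (nat_lit 1) (nat_lit 4)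 (nat_lit 331) (nat_lit 238) (nat_lit 211)) (XT.lf (nat_lit 0) (nat_lit 1627802439786) (nat_lit 152) (nat_lit 17741846889278) (nat_lit 0) (nat_lit 1627535163161) (nat_lit 1) (nat_lit 5) (nat_lit 3) (nat_lit 4) (nat_lit 1) (nat_lit 4) (nat_lit 332) (nat_lit 238) (nat_lit 210))) (XT.nd (nat_lit 78) (nat_lit 0) (nat_lit 0) (XT.lf (nat_lit 0) (nat_lit 1872634835948) (nat_lit 152) (nat_lit 20401654895674) (nat_lit 0) (nat_lit 1872366848801) (nat_lit 1) (nat_lit 5) (nat_lit 3) (nat_lit 4) (nat_lit 1) (nat_lit 4) (nat_lit 333) (nat_lit 238) (nat_lit 209)) (XT.nd (nat_lit 78) (nat_lit 0) (nat_lit 0) (XT.lf (nat_lit 0) (nat_lit 2154188790956) (nat_lit 152) (nat_lit 23460441000696) (nat_lit 0) (nat_lit 2153920185964) (nat_lit 1) (nat_lit 5) (nat_lit 3) (nat_lit 4) (nat_lit 1) (nat_lit 4) (nat_lit 334) (nat_lit 238) (nat_lit 208)) (XT.lf (nat_lit 0) (nat_lit 2477972969148) (nat_lit 152) (nat_lit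 26978051019442) (nat_lit 0) (nat_lit 2477703826900) (nat_lit 1) (nat_lit 5) (nat_lit 3) (nat_lit 4) (nat_lit 1) (nat_lit 4) (nat_lit 335) (nat_lit 238) (nat_lit 207))))))) (XT.nd (nat_lit 780) (nat_lit 0) (nat_lit 0) (XT.nd (nat_lit 390) (nat_lit 0) (nat_lit 0) (XT.nd (nat_lit 156) (nat_lit 0) (nat_lit 0) (XT.nd (nat_lit 78) (nat_lit 0) (nat_lit 0) (XT.lf (nat_lit 0) (nat_lit 2850322278358) (nat_lit 152) (nat_lit 31023307756627) (nat_lit 0) (nat_lit 2850052668931) (nat_lit 1) (nat_lit 5) (nat_lit 3) (nat_lit 4) (nat_lit 1) (nat_lit 4) (nat_lit 336) (nat_lit 238) (nat_lit 206)) (XT.lf (nat_lit 0) (nat_lit 3278521813767) (nat_lit 152) (nat_lit 35675357539717) (nat_lit 0) (nat_lit 3278251798097) (nat_lit 1) (nat_lit 5) (nat_lit 3) (nat_lit 4) (nat_lit 1) (nat_lit 4) (nat_lit 337) (nat_lit 238) (nat_lit 205))) (XT.nd (nat_lit 78) (nat_lit 0) (nat_lit 0) (XT.lf (nat_lit 0) (nat_lit 3770949392371)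 (nat_lit 152) (nat_lit 41025218734034) (nat_lit 0) (nat_lit 3770679023446) (nat_lit 1) (nat_lit 5) (nat_lit 3) (nat_lit 4) (nat_lit 1) (nat_lit 4) (nat_lit 338) (nat_lit 238) (nat_lit 204)) (XT.nd (nat_lit 78) (nat_lit 0) (nat_lit 0) (XT.lf (nat_lit 0) (nat_lit 4337239466795) (nat_lit 152) (nat_lit 47177562536858) (nat_lit 0) (nat_lit 4336968790692) (nat_lit 1) (nat_lit 5) (nat_lit 3) (nat_lit 4) (nat_lit 1) (nat_lit 4) (nat_lit 339) (nat_lit 238) (nat_lit 203)) (XT.lf (nat_lit 0) (nat_lit 4988471625452) (nat_lit 152) (nat_lit 54252760892158) (nat_lit 0) (nat_lit 4988200682238) (nat_lit 1) (nat_lit 5) (nat_lit 3) (nat_lit 4) (nat_lit 1) (nat_lit 4) (nat_lit 340) (nat_lit 238) (nat_lit 202))))) (XT.nd (nat_lit 156) (nat_lit 0) (nat_lit 0) (XT.nd (nat_lit 78) (nat_lit 0) (nat_lit 0) (XT.lf (nat_lit 0) (nat_lit 5737387367099) (nat_lit 152) (nat_lit 62389241593840) (nat_lit 0) (nat_lit 5737116191614)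 (nat_lit 1) (nat_lit 5) (nat_lit 3) (nat_lit 4) (nat_lit 1) (nat_lit 4) (nat_lit 341) (nat_lit 238) (nat_lit 201)) (XT.lf (nat_lit 0) (nat_lit 6598639391027) (nat_lit 152) (nat_lit 71746196655634) (nat_lit 0) (nat_lit 6598368013568) (nat_lit 1) (nat_lit 5) (nat_lit 3) (nat_lit 4) (nat_lit 1) (nat_lit 4) (nat_lit 342) (nat_lit 238) (nat_lit 200))) (XT.nd (nat_lit 78) (nat_lit 0) (nat_lit 0) (XT.lf (nat_lit 0) (nat_lit 7589078280315) (nat_lit 152) (nat_lit 82506696937445) (nat_lit 0) (nat_lit 7588806727226) (nat_lit 1) (nat_lit 5) (nat_lit 3) (nat_lit 4) (nat_lit 1) (nat_lit 4) (nat_lit 343) (nat_lit 238) (nat_lit 199)) (XT.nd (nat_lit 78) (nat_lit 0) (nat_lit 0) (XT.lf (nat_lit 0) (nat_lit 8728082187144) (nat_lit 152) (nat_lit 94881273966525) (nat_lit 0) (nat_lit 8727810481333) (nat_lit 1) (nat_lit 5) (nat_lit 3) (nat_lit 4) (nat_lit 1) (nat_lit 4) (nat_lit 344) (nat_lit 238) (nat_lit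 198)) (XT.lf (nat_lit 0) (nat_lit 10037935970561) (nat_lit 152) (nat_lit 109112039032573) (nat_lit 0) (nat_lit 10037664131948) (nat_lit 1) (nat_lit 5) (nat_lit 3) (nat_lit 4) (nat_lit 1) (nat_lit 4) (nat_lit 345) (nat_lit 238) (nat_lit 197)))))) (XT.nd (nat_lit 37440) (nat_lit 0) (nat_lit 0) (XT.nd (nat_lit 37206) (nat_lit 0) (nat_lit 0) (XT.nd (nat_lit 78) (nat_lit 0) (nat_lit 0) (XT.lf (nat_lit 0) (nat_lit 11544267204588) (nat_lit 152) (nat_lit 125477420147752) (nat_lit 0) (nat_lit 11543995250496) (nat_lit 1) (nat_lit 5) (nat_lit 3) (nat_lit 4) (nat_lit 1) (nat_lit 4) (nat_lit 346) (nat_lit 238) (nat_lit 196)) (XT.lf (nat_lit 0) (nat_lit 13276547587284) (nat_lit 152) (nat_lit 144297609551272) (nat_lit 0) (nat_lit 13276275532774) (nat_lit 1) (nat_lit 5) (nat_lit 3) (nat_lit 4) (nat_lit 1) (nat_lit 4) (nat_lit 347) (nat_lit 238) (nat_lit 195))) (XT.nd (nat_lit 78) (nat_lit 0) (nat_lit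 0) (XT.lf (nat_lit 0) (nat_lit 7286750401) (nat_lit 152) (nat_lit 144762433268) (nat_lit 0) (nat_lit 7286750401) (nat_lit 1) (nat_lit 5) (nat_lit 3) (nat_lit 4) (nat_lit 1) (nat_lit 4) (nat_lit 302) (nat_lit 239) (nat_lit 239)) (XT.nd (nat_lit 78) (nat_lit 0) (nat_lit 0) (XT.lf (nat_lit 0) (nat_lit 18948674428) (nat_lit 152) (nat_lit 328280318394) (nat_lit 0) (nat_lit 18907765834) (nat_lit 1) (nat_lit 5) (nat_lit 3) (nat_lit 4) (nat_lit 1) (nat_lit 4) (nat_lit 303) (nat_lit 239) (nat_lit 238)) (XT.lf (nat_lit 0) (nat_lit 23790091853) (nat_lit 152) (nat_lit 373246224314) (nat_lit 0) (nat_lit 23713610569) (nat_lit 1) (nat_lit 5) (nat_lit 3) (nat_lit 4) (nat_lit 1) (nat_lit 4) (nat_lit 304) (nat_lit 239) (nat_lit 237))))) (XT.nd (nat_lit 156) (nat_lit 0) (nat_lit 0) (XT.nd (nat_lit 78) (nat_lit 0) (nat_lit 0) (XT.lf (nat_lit 0) (nat_lit 29192476462) (nat_lit 152) (nat_lit 425302352020)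 (nat_lit 0) (nat_lit 29085062404) (nat_lit 1) (nat_lit 5) (nat_lit 3) (nat_lit 4) (nat_lit 1) (nat_lit 4) (nat_lit 305) (nat_lit 239) (nat_lit 236)) (XT.lf (nat_lit 0) (nat_lit 35261527084) (nat_lit 152) (nat_lit 485467190968) (nat_lit 0) (nat_lit 35127214962) (nat_lit 1) (nat_lit 5) (nat_lit 3) (nat_lit 4) (nat_lit 1) (nat_lit 4) (nat_lit 306) (nat_lit 239) (nat_lit 235))) (XT.nd (nat_lit 78) (nat_lit 0) (nat_lit 0) (XT.lf (nat_lit 0) (nat_lit 42115986014) (nat_lit 152) (nat_lit 554917879310) (nat_lit 0) (nat_lit 41958284271) (nat_lit 1) (nat_lit 5) (nat_lit 3) (nat_lit 4) (nat_lit 1) (nat_lit 4) (nat_lit 307) (nat_lit 239) (nat_lit 234)) (XT.nd (nat_lit 78) (nat_lit 0) (nat_lit 0) (XT.lf (nat_lit 0) (nat_lit 49889962230) (nat_lit 152) (nat_lit 635013234863) (nat_lit 0) (nat_lit 49711921687) (nat_lit 1) (nat_lit 5) (nat_lit 3) (nat_lit 4) (nat_lit 1) (nat_lit 4) (nat_lit 308) (nat_lit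 239) (nat_lit 233)) (XT.lf (nat_lit 0) (nat_lit 58735555269) (nat_lit 152) (nat_lit 727320340669) (nat_lit 0) (nat_lit 58539828812) (nat_lit 1) (nat_lit 5) (nat_lit 3) (nat_lit 4) (nat_lit 1) (nat_lit 4) (nat_lit 309) (nat_lit 239) (nat_lit 232))))))))
noncomputable def xc13 : XT := (XT.nd (nat_lit 1560) (nat_lit 0) (nat_lit 0) (XT.nd (nat_lit 780) (nat_lit 0) (nat_lit 0) (XT.nd (nat_lit 390) (nat_lit 0) (nat_lit 0) (XT.nd (nat_lit 156) (nat_lit 0) (nat_lit 0) (XT.nd (nat_lit 78) (nat_lit 0) (nat_lit 0) (XT.lf (nat_lit 0) (nat_lit 68825831080) (nat_lit 152) (nat_lit 833645205321) (nat_lit 0) (nat_lit 68614725567) (nat_lit 1) (nat_lit 5) (nat_lit 3) (nat_lit 4) (nat_lit 1) (nat_lit 4) (nat_lit 310) (nat_lit 239) (nat_lit 231)) (XT.lf (nat_lit 0) (nat_lit 80358208103) (nat_lit 152) (nat_lit 956068097909) (nat_lit 0) (nat_lit 80133729498) (nat_lit 1) (nat_lit 5) (nat_lit 3) (nat_lit 4)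 (nat_lit 1) (nat_lit 4) (nat_lit 311) (nat_lit 239) (nat_lit 230))) (XT.nd (nat_lit 78) (nat_lit 0) (nat_lit 0) (XT.lf (nat_lit 0) (nat_lit 93558319802) (nat_lit 152) (nat_lit 1096984248941) (nat_lit 0) (nat_lit 93322212422) (nat_lit 1) (nat_lit 5) (nat_lit 3) (nat_lit 4) (nat_lit 1) (nat_lit 4) (nat_lit 312) (nat_lit 239) (nat_lit 229)) (XT.nd (nat_lit 78) (nat_lit 0) (nat_lit 0) (XT.lf (nat_lit 0) (nat_lit 108684429231) (nat_lit 152) (nat_lit 1259150713545) (nat_lit 0) (nat_lit 108438209872) (nat_lit 1) (nat_lit 5) (nat_lit 3) (nat_lit 4) (nat_lit 1) (nat_lit 4) (nat_lit 313) (nat_lit 239) (nat_lit 228)) (XT.lf (nat_lit 0) (nat_lit 126032482011) (nat_lit 152) (nat_lit 1445740313856) (nat_lit 0) (nat_lit 125777469627) (nat_lit 1) (nat_lit 5) (nat_lit 3) (nat_lit 4) (nat_lit 1) (nat_lit 4) (nat_lit 314) (nat_lit 239) (nat_lit 227))))) (XT.nd (nat_lit 156) (nat_lit 0) (nat_lit 0) (XT.nd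 (nat_lit 78) (nat_lit 0) (nat_lit 0) (XT.lf (nat_lit 0) (nat_lit 145941896564) (nat_lit 152) (nat_lit 1660403715965) (nat_lit 0) (nat_lit 145679238072) (nat_lit 1) (nat_lit 5) (nat_lit 3) (nat_lit 4) (nat_lit 1) (nat_lit 4) (nat_lit 315) (nat_lit 239) (nat_lit 226)) (XT.lf (nat_lit 0) (nat_lit 168802204915) (nat_lit 152) (nat_lit 1907340856002) (nat_lit 0) (nat_lit 168532897632) (nat_lit 1) (nat_lit 5) (nat_lit 3) (nat_lit 4) (nat_lit 1) (nat_lit 4) (nat_lit 316) (nat_lit 239) (nat_lit 225))) (XT.nd (nat_lit 78) (nat_lit 0) (nat_lit 0) (XT.lf (nat_lit 0) (nat_lit 195060673966) (nat_lit 152) (nat_lit 2191383112793) (nat_lit 0) (nat_lit 194785585127) (nat_lit 1) (nat_lit 5) (nat_lit 3) (nat_lit 4) (nat_lit 1) (nat_lit 4) (nat_lit 317) (nat_lit 239) (nat_lit 224)) (XT.nd (nat_lit 78) (nat_lit 0) (nat_lit 0) (XT.lf (nat_lit 0) (nat_lit 225231056373) (nat_lit 152) (nat_lit 2518087834841)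 (nat_lit 0) (nat_lit 224950940094) (nat_lit 1) (nat_lit 5) (nat_lit 3) (nat_lit 4) (nat_lit 1) (nat_lit 4) (nat_lit 318) (nat_lit 239) (nat_lit 223)) (XT.lf (nat_lit 0) (nat_lit 259903642226) (nat_lit 152) (nat_lit 2893847071055) (nat_lit 0) (nat_lit 259619154259) (nat_lit 1) (nat_lit 5) (nat_lit 3) (nat_lit 4) (nat_lit 1) (nat_lit 4) (nat_lit 319) (nat_lit 239) (nat_lit 222)))))) (XT.nd (nat_lit 390) (nat_lit 0) (nat_lit 0) (XT.nd (nat_lit 156) (nat_lit 0) (nat_lit 0) (XT.nd (nat_lit 78) (nat_lit 0) (nat_lit 0) (XT.lf (nat_lit 0) (nat_lit 299756808205) (nat_lit 152) (nat_lit 3326012632579) (nat_lit 0) (nat_lit 299468518771) (nat_lit 1) (nat_lit 5) (nat_lit 3) (nat_lit 4) (nat_lit 1) (nat_lit 4) (nat_lit 320) (nat_lit 239) (nat_lit 221)) (XT.lf (nat_lit 0) (nat_lit 345570290166) (nat_lit 152) (nat_lit 3823039932572) (nat_lit 0) (nat_lit 345278695108) (nat_lit 1) (nat_lit 5) (nat_lit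 3) (nat_lit 4) (nat_lit 1) (nat_lit 4) (nat_lit 321) (nat_lit 239) (nat_lit 220))) (XT.nd (nat_lit 78) (nat_lit 0) (nat_lit 0) (XT.lf (nat_lit 0) (nat_lit 398240438844) (nat_lit 152) (nat_lit 4394653418209) (nat_lit 0) (nat_lit 397945969330) (nat_lit 1) (nat_lit 5) (nat_lit 3) (nat_lit 4) (nat_lit 1) (nat_lit 4) (nat_lit 322) (nat_lit 239) (nat_lit 219)) (XT.nd (nat_lit 78) (nat_lit 0) (nat_lit 0) (XT.lf (nat_lit 0) (nat_lit 458797757146) (nat_lit 152) (nat_lit 5052036831599) (nat_lit 0) (nat_lit 458500788105) (nat_lit 1) (nat_lit 5) (nat_lit 3) (nat_lit 4) (nat_lit 1) (nat_lit 4) (nat_lit 323) (nat_lit 239) (nat_lit 218)) (XT.lf (nat_lit 0) (nat_lit 528427062170) (nat_lit 152) (nat_lit 5808052022136) (nat_lit 0) (nat_lit 528127919628) (nat_lit 1) (nat_lit 5) (nat_lit 3) (nat_lit 4) (nat_lit 1) (nat_lit 4) (nat_lit 324) (nat_lit 239) (nat_lit 217))))) (XT.nd (nat_lit 156) (nat_lit 0)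 (nat_lit 0) (XT.nd (nat_lit 78) (nat_lit 0) (nat_lit 0) (XT.lf (nat_lit 0) (nat_lit 608490666406) (nat_lit 152) (nat_lit 6677490591374) (nat_lit 0) (nat_lit 608189633863) (nat_lit 1) (nat_lit 5) (nat_lit 3) (nat_lit 4) (nat_lit 1) (nat_lit 4) (nat_lit 325) (nat_lit 239) (nat_lit 216)) (XT.lf (nat_lit 0) (nat_lit 700555031676) (nat_lit 152) (nat_lit 7677363293927) (nat_lit 0) (nat_lit 700252355654) (nat_lit 1) (nat_lit 5) (nat_lit 3) (nat_lit 4) (nat_lit 1) (nat_lit 4) (nat_lit 326) (nat_lit 239) (nat_lit 215))) (XT.nd (nat_lit 78) (nat_lit 0) (nat_lit 0) (XT.lf (nat_lit 0) (nat_lit 806421417300) (nat_lit 152) (nat_lit 8827232856585) (nat_lit 0) (nat_lit 806117312166) (nat_lit 1) (nat_lit 5) (nat_lit 3) (nat_lit 4) (nat_lit 1) (nat_lit 4) (nat_lit 327) (nat_lit 239) (nat_lit 214)) (XT.nd (nat_lit 78) (nat_lit 0) (nat_lit 0) (XT.lf (nat_lit 0) (nat_lit 928161122127) (nat_lit 152) (nat_lit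 10149596727313) (nat_lit 0) (nat_lit 927855774287) (nat_lit 1) (nat_lit 5) (nat_lit 3) (nat_lit 4) (nat_lit 1) (nat_lit 4) (nat_lit 328) (nat_lit 239) (nat_lit 213)) (XT.lf (nat_lit 0) (nat_lit 1068156009948) (nat_lit 152) (nat_lit 11670327242711) (nat_lit 0) (nat_lit 1067849581493) (nat_lit 1) (nat_lit 5) (nat_lit 3) (nat_lit 4) (nat_lit 1) (nat_lit 4) (nat_lit 329) (nat_lit 239) (nat_lit 212))))))) (XT.nd (nat_lit 780) (nat_lit 0) (nat_lit 0) (XT.nd (nat_lit 390) (nat_lit 0) (nat_lit 0) (XT.nd (nat_lit 156) (nat_lit 0) (nat_lit 0) (XT.nd (nat_lit 78) (nat_lit 0) (nat_lit 0) (XT.lf (nat_lit 0) (nat_lit 1229145111177) (nat_lit 152) (nat_lit 13419177825909) (nat_lit 0) (nat_lit 1228837743057) (nat_lit 1) (nat_lit 5) (nat_lit 3) (nat_lit 4) (nat_lit 1) (nat_lit 4) (nat_lit 330) (nat_lit 239) (nat_lit 211)) (XT.lf (nat_lit 0) (nat_lit 1414278212576) (nat_lit 152) (nat_lit 15430365118750)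 (nat_lit 0) (nat_lit 1413970027357) (nat_lit 1) (nat_lit 5) (nat_lit 3) (nat_lit 4) (nat_lit 1) (nat_lit 4) (nat_lit 331) (nat_lit 239) (nat_lit 210))) (XT.nd (nat_lit 78) (nat_lit 0) (nat_lit 0) (XT.lf (nat_lit 0) (nat_lit 1627177483521) (nat_lit 152) (nat_lit 17743238437834) (nat_lit 0) (nat_lit 1626868587780) (nat_lit 1) (nat_lit 5) (nat_lit 3) (nat_lit 4) (nat_lit 1) (nat_lit 4) (nat_lit 332) (nat_lit 239) (nat_lit 209)) (XT.nd (nat_lit 78) (nat_lit 0) (nat_lit 0) (XT.lf (nat_lit 0) (nat_lit 1872008344530) (nat_lit 152) (nat_lit 20403049652447) (nat_lit 0) (nat_lit 1871698830945) (nat_lit 1) (nat_lit 5) (nat_lit 3) (nat_lit 4) (nat_lit 1) (nat_lit 4) (nat_lit 333) (nat_lit 239) (nat_lit 208)) (XT.lf (nat_lit 0) (nat_lit 2153560964623) (nat_lit 152) (nat_lit 23461838547222) (nat_lit 0) (nat_lit 2153250913782) (nat_lit 1) (nat_lit 5) (nat_lit 3) (nat_lit 4) (nat_lit 1) (nat_lit 4)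 (nat_lit 334) (nat_lit 239) (nat_lit 207))))) (XT.nd (nat_lit 156) (nat_lit 0) (nat_lit 0) (XT.nd (nat_lit 78) (nat_lit 0) (nat_lit 0) (XT.lf (nat_lit 0) (nat_lit 2477343982020) (nat_lit 152) (nat_lit 26979450991841) (nat_lit 0) (nat_lit 2477033463999) (nat_lit 1) (nat_lit 5) (nat_lit 3) (nat_lit 4) (nat_lit 1) (nat_lit 4) (nat_lit 335) (nat_lit 239) (nat_lit 206)) (XT.lf (nat_lit 0) (nat_lit 2849692281842) (nat_lit 152) (nat_lit 31024709838481) (nat_lit 0) (nat_lit 2849381357579) (nat_lit 1) (nat_lit 5) (nat_lit 3) (nat_lit 4) (nat_lit 1) (nat_lit 4) (nat_lit 336) (nat_lit 239) (nat_lit 205))) (XT.nd (nat_lit 78) (nat_lit 0) (nat_lit 0) (XT.lf (nat_lit 0) (nat_lit 3277890939523) (nat_lit 152) (nat_lit 35676761455880) (nat_lit 0) (nat_lit 3277579662004) (nat_lit 1) (nat_lit 5) (nat_lit 3) (nat_lit 4) (nat_lit 1) (nat_lit 4) (nat_lit 337) (nat_lit 239) (nat_lit 204)) (XT.nd (nat_lit 78)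 (nat_lit 0) (nat_lit 0) (XT.lf (nat_lit 0) (nat_lit 3770317754885) (nat_lit 152) (nat_lit 41026624245248) (nat_lit 0) (nat_lit 3770006170188) (nat_lit 1) (nat_lit 5) (nat_lit 3) (nat_lit 4) (nat_lit 1) (nat_lit 4) (nat_lit 338) (nat_lit 239) (nat_lit 203)) (XT.lf (nat_lit 0) (nat_lit 4336607165620) (nat_lit 152) (nat_lit 47178969435072) (nat_lit 0) (nat_lit 4336295313812) (nat_lit 1) (nat_lit 5) (nat_lit 3) (nat_lit 4) (nat_lit 1) (nat_lit 4) (nat_lit 339) (nat_lit 239) (nat_lit 202)))))) (XT.nd (nat_lit 390) (nat_lit 0) (nat_lit 0) (XT.nd (nat_lit 156) (nat_lit 0) (nat_lit 0) (XT.nd (nat_lit 78) (nat_lit 0) (nat_lit 0) (XT.lf (nat_lit 0) (nat_lit 4987838747157) (nat_lit 152) (nat_lit 54254168996459) (nat_lit 0) (nat_lit 4987526663078) (nat_lit 1) (nat_lit 5) (nat_lit 3) (nat_lit 4) (nat_lit 1) (nat_lit 4) (nat_lit 340) (nat_lit 239) (nat_lit 201)) (XT.lf (nat_lit 0) (nat_lit 5736753986959)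 (nat_lit 152) (nat_lit 62390650746913) (nat_lit 0) (nat_lit 5736441700906) (nat_lit 1) (nat_lit 5) (nat_lit 3) (nat_lit 4) (nat_lit 1) (nat_lit 4) (nat_lit 341) (nat_lit 239) (nat_lit 200))) (XT.nd (nat_lit 78) (nat_lit 0) (nat_lit 0) (XT.lf (nat_lit 0) (nat_lit 6598005574502) (nat_lit 152) (nat_lit 71747606720683) (nat_lit 0) (nat_lit 6597693112819) (nat_lit 1) (nat_lit 5) (nat_lit 3) (nat_lit 4) (nat_lit 1) (nat_lit 4) (nat_lit 342) (nat_lit 239) (nat_lit 199)) (XT.nd (nat_lit 78) (nat_lit 0) (nat_lit 0) (XT.lf (nat_lit 0) (nat_lit 7588444084323) (nat_lit 152) (nat_lit 82508107795516) (nat_lit 0) (nat_lit 7588131469919) (nat_lit 1) (nat_lit 5) (nat_lit 3) (nat_lit 4) (nat_lit 1) (nat_lit 4) (nat_lit 343) (nat_lit 239) (nat_lit 198)) (XT.lf (nat_lit 0) (nat_lit 8727447661182) (nat_lit 152) (nat_lit 94882685514180) (nat_lit 0) (nat_lit 8727134913975) (nat_lit 1) (nat_lit 5) (nat_lit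 3) (nat_lit 4) (nat_lit 1) (nat_lit 4) (nat_lit 344) (nat_lit 239) (nat_lit 197))))) (XT.nd (nat_lit 468) (nat_lit 0) (nat_lit 0) (XT.nd (nat_lit 78) (nat_lit 0) (nat_lit 0) (XT.lf (nat_lit 0) (nat_lit 10037301157667) (nat_lit 152) (nat_lit 109113451179868) (nat_lit 0) (nat_lit 10036988294981) (nat_lit 1) (nat_lit 5) (nat_lit 3) (nat_lit 4) (nat_lit 1) (nat_lit 4) (nat_lit 345) (nat_lit 239) (nat_lit 196)) (XT.nd (nat_lit 78) (nat_lit 0) (nat_lit 0) (XT.lf (nat_lit 0) (nat_lit 11543632142190) (nat_lit 152) (nat_lit 125478832816472) (nat_lit 0) (nat_lit 11543319179087) (nat_lit 1) (nat_lit 5) (nat_lit 3) (nat_lit 4) (nat_lit 1) (nat_lit 4) (nat_lit 346) (nat_lit 239) (nat_lit 195)) (XT.lf (nat_lit 0) (nat_lit 13275912307924) (nat_lit 152) (nat_lit 144299022673404) (nat_lit 0) (nat_lit 13275599257502) (nat_lit 1) (nat_lit 5) (nat_lit 3) (nat_lit 4) (nat_lit 1) (nat_lit 4) (nat_lit 347)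 (nat_lit 239) (nat_lit 194)))) (XT.nd (nat_lit 78) (nat_lit 0) (nat_lit 0) (XT.lf (nat_lit 0) (nat_lit 23223321275025) (nat_lit 152) (nat_lit 252371736757202) (nat_lit 0) (nat_lit 23223007975309) (nat_lit 1) (nat_lit 5) (nat_lit 3) (nat_lit 4) (nat_lit 1) (nat_lit 4) (nat_lit 351) (nat_lit 239) (nat_lit 190)) (XT.nd (nat_lit 78) (nat_lit 0) (nat_lit 0) (XT.lf (nat_lit 0) (nat_lit 26707553247018) (nat_lit 152) (nat_lit 290225865473052) (nat_lit 0) (nat_lit 26707239903888) (nat_lit 1) (nat_lit 5) (nat_lit 3) (nat_lit 4) (nat_lit 1) (nat_lit 4) (nat_lit 352) (nat_lit 239) (nat_lit 189)) (XT.lf (nat_lit 0) (nat_lit 30714419813143) (nat_lit 152) (nat_lit 333758113917729) (nat_lit 0) (nat_lit 30714106432264) (nat_lit 1) (nat_lit 5) (nat_lit 3) (nat_lit 4) (nat_lit 1) (nat_lit 4) (nat_lit 353) (nat_lit 239) (nat_lit 188))))))))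
noncomputable def xc14 : XT := (XT.nd (nat_lit 1560) (nat_lit 0) (nat_lit 0) (XT.nd (nat_lit 780) (nat_lit 0) (nat_lit 0) (XT.nd (nat_lit 390) (nat_lit 0) (nat_lit 0) (XT.nd (nat_lit 156) (nat_lit 0) (nat_lit 0) (XT.nd (nat_lit 78) (nat_lit 0) (nat_lit 0) (XT.lf (nat_lit 0) (nat_lit 3525432110) (nat_lit 152) (nat_lit 113737339017) (nat_lit 0) (nat_lit 3525432110) (nat_lit 1) (nat_lit 5) (nat_lit 3) (nat_lit 4) (nat_lit 1) (nat_lit 4) (nat_lit 300) (nat_lit 240) (nat_lit 240)) (XT.lf (nat_lit 0) (nat_lit 10626014636) (nat_lit 152) (nat_lit 256221609899) (nat_lit 0) (nat_lit 10578969753) (nat_lit 1) (nat_lit 5) (nat_lit 3) (nat_lit 4) (nat_lit 1) (nat_lit 4) (nat_lit 301) (nat_lit 240) (nat_lit 239))) (XT.nd (nat_lit 78) (nat_lit 0) (nat_lit 0) (XT.lf (nat_lit 0) (nat_lit 14518900531) (nat_lit 152) (nat_lit 289737288269) (nat_lit 0) (nat_lit 14430947055) (nat_lit 1) (nat_lit 5) (nat_lit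 3) (nat_lit 4) (nat_lit 1) (nat_lit 4) (nat_lit 302) (nat_lit 240) (nat_lit 238)) (XT.nd (nat_lit 78) (nat_lit 0) (nat_lit 0) (XT.lf (nat_lit 0) (nat_lit 18805687066) (nat_lit 152) (nat_lit 328677454677) (nat_lit 0) (nat_lit 18682160900) (nat_lit 1) (nat_lit 5) (nat_lit 3) (nat_lit 4) (nat_lit 1) (nat_lit 4) (nat_lit 303) (nat_lit 240) (nat_lit 237)) (XT.lf (nat_lit 0) (nat_lit 23570246152) (nat_lit 152) (nat_lit 373803981945) (nat_lit 0) (nat_lit 23415787212) (nat_lit 1) (nat_lit 5) (nat_lit 3) (nat_lit 4) (nat_lit 1) (nat_lit 4) (nat_lit 304) (nat_lit 240) (nat_lit 236))))) (XT.nd (nat_lit 156) (nat_lit 0) (nat_lit 0) (XT.nd (nat_lit 78) (nat_lit 0) (nat_lit 0) (XT.lf (nat_lit 0) (nat_lit 28905797422) (nat_lit 152) (nat_lit 425999780389) (nat_lit 0) (nat_lit 28724440418) (nat_lit 1) (nat_lit 5) (nat_lit 3) (nat_lit 4) (nat_lit 1) (nat_lit 4) (nat_lit 305) (nat_lit 240) (nat_lit 235))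 (XT.lf (nat_lit 0) (nat_lit 34916732097) (nat_lit 152) (nat_lit 486286072152) (nat_lit 0) (nat_lit 34711985472) (nat_lit 1) (nat_lit 5) (nat_lit 3) (nat_lit 4) (nat_lit 1) (nat_lit 4) (nat_lit 306) (nat_lit 240) (nat_lit 234))) (XT.nd (nat_lit 78) (nat_lit 0) (nat_lit 0) (XT.lf (nat_lit 0) (nat_lit 41720655421) (nat_lit 152) (nat_lit 555842371638) (nat_lit 0) (nat_lit 41495569995) (nat_lit 1) (nat_lit 5) (nat_lit 3) (nat_lit 4) (nat_lit 1) (nat_lit 4) (nat_lit 307) (nat_lit 240) (nat_lit 233)) (XT.nd (nat_lit 78) (nat_lit 0) (nat_lit 0) (XT.lf (nat_lit 0) (nat_lit 49450687633) (nat_lit 152) (nat_lit 636029562968) (nat_lit 0) (nat_lit 49207916293) (nat_lit 1) (nat_lit 5) (nat_lit 3) (nat_lit 4) (nat_lit 1) (nat_lit 4) (nat_lit 308) (nat_lit 240) (nat_lit 232)) (XT.lf (nat_lit 0) (nat_lit 58258068493) (nat_lit 152) (nat_lit 728416525971) (nat_lit 0) (nat_lit 57999918098) (nat_lit 1) (nat_lit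 5) (nat_lit 3) (nat_lit 4) (nat_lit 1) (nat_lit 4) (nat_lit 309) (nat_lit 240) (nat_lit 231)))))) (XT.nd (nat_lit 390) (nat_lit 0) (nat_lit 0) (XT.nd (nat_lit 156) (nat_lit 0) (nat_lit 0) (XT.nd (nat_lit 78) (nat_lit 0) (nat_lit 0) (XT.lf (nat_lit 0) (nat_lit 68315116323) (nat_lit 152) (nat_lit 834810831664) (nat_lit 0) (nat_lit 68043592836) (nat_lit 1) (nat_lit 5) (nat_lit 3) (nat_lit 4) (nat_lit 1) (nat_lit 4) (nat_lit 310) (nat_lit 240) (nat_lit 230)) (XT.lf (nat_lit 0) (nat_lit 79818599449) (nat_lit 152) (nat_lit 957294107767) (nat_lit 0) (nat_lit 79535447187) (nat_lit 1) (nat_lit 5) (nat_lit 3) (nat_lit 4) (nat_lit 1) (nat_lit 4) (nat_lit 311) (nat_lit 240) (nat_lit 229))) (XT.nd (nat_lit 78) (nat_lit 0) (nat_lit 0) (XT.lf (nat_lit 0) (nat_lit 92993586021) (nat_lit 152) (nat_lit 1098262766202) (nat_lit 0) (nat_lit 92700321779) (nat_lit 1) (nat_lit 5) (nat_lit 3) (nat_lit 4) (nat_lit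 1) (nat_lit 4) (nat_lit 312) (nat_lit 240) (nat_lit 228)) (XT.nd (nat_lit 78) (nat_lit 0) (nat_lit 0) (XT.lf (nat_lit 0) (nat_lit 108097847513) (nat_lit 152) (nat_lit 1260474889418) (nat_lit 0) (nat_lit 107795790247) (nat_lit 1) (nat_lit 5) (nat_lit 3) (nat_lit 4) (nat_lit 1) (nat_lit 4) (nat_lit 313) (nat_lit 240) (nat_lit 227)) (XT.lf (nat_lit 0) (nat_lit 125426902086) (nat_lit 152) (nat_lit 1447104192869) (nat_lit 0) (nat_lit 125117198711) (nat_lit 1) (nat_lit 5) (nat_lit 3) (nat_lit 4) (nat_lit 1) (nat_lit 4) (nat_lit 314) (nat_lit 240) (nat_lit 226))))) (XT.nd (nat_lit 156) (nat_lit 0) (nat_lit 0) (XT.nd (nat_lit 78) (nat_lit 0) (nat_lit 0) (XT.lf (nat_lit 0) (nat_lit 145319796461) (nat_lit 152) (nat_lit 1661802119449) (nat_lit 0) (nat_lit 145003444295) (nat_lit 1) (nat_lit 5) (nat_lit 3) (nat_lit 4) (nat_lit 1) (nat_lit 4) (nat_lit 315) (nat_lit 240) (nat_lit 225)) (XT.lf (nat_lit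 0) (nat_lit 168165739438) (nat_lit 152) (nat_lit 1908769280765) (nat_lit 0) (nat_lit 167843605717) (nat_lit 1) (nat_lit 5) (nat_lit 3) (nat_lit 4) (nat_lit 1) (nat_lit 4) (nat_lit 316) (nat_lit 240) (nat_lit 224))) (XT.nd (nat_lit 78) (nat_lit 0) (nat_lit 0) (XT.lf (nat_lit 0) (nat_lit 194411716861) (nat_lit 152) (nat_lit 2192837643015) (nat_lit 0) (nat_lit 194084555699) (nat_lit 1) (nat_lit 5) (nat_lit 3) (nat_lit 4) (nat_lit 1) (nat_lit 4) (nat_lit 317) (nat_lit 240) (nat_lit 223)) (XT.nd (nat_lit 78) (nat_lit 0) (nat_lit 0) (XT.lf (nat_lit 0) (nat_lit 224571236982) (nat_lit 152) (nat_lit 2519565065462) (nat_lit 0) (nat_lit 224239704132) (nat_lit 1) (nat_lit 5) (nat_lit 3) (nat_lit 4) (nat_lit 1) (nat_lit 4) (nat_lit 318) (nat_lit 240) (nat_lit 222)) (XT.lf (nat_lit 0) (nat_lit 259234377369) (nat_lit 152) (nat_lit 2895344041154) (nat_lit 0) (nat_lit 258899043052) (nat_lit 1) (nat_lit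 5) (nat_lit 3) (nat_lit 4) (nat_lit 1) (nat_lit 4) (nat_lit 319) (nat_lit 240) (nat_lit 221))))))) (XT.nd (nat_lit 780) (nat_lit 0) (nat_lit 0) (XT.nd (nat_lit 390) (nat_lit 0) (nat_lit 0) (XT.nd (nat_lit 156) (nat_lit 0) (nat_lit 0) (XT.nd (nat_lit 78) (nat_lit 0) (nat_lit 0) (XT.lf (nat_lit 0) (nat_lit 299079329899) (nat_lit 152) (nat_lit 3327526767441) (nat_lit 0) (nat_lit 298740689958) (nat_lit 1) (nat_lit 5) (nat_lit 3) (nat_lit 4) (nat_lit 1) (nat_lit 4) (nat_lit 320) (nat_lit 240) (nat_lit 220)) (XT.lf (nat_lit 0) (nat_lit 344885669731) (nat_lit 152) (nat_lit 3824568993316) (nat_lit 0) (nat_lit 344544155335) (nat_lit 1) (nat_lit 5) (nat_lit 3) (nat_lit 4) (nat_lit 1) (nat_lit 4) (nat_lit 321) (nat_lit 240) (nat_lit 219))) (XT.nd (nat_lit 78) (nat_lit 0) (nat_lit 0) (XT.lf (nat_lit 0) (nat_lit 397549607861) (nat_lit 152) (nat_lit 4396195457980) (nat_lit 0) (nat_lit 397205593938)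 (nat_lit 1) (nat_lit 5) (nat_lit 3) (nat_lit 4) (nat_lit 1) (nat_lit 4) (nat_lit 322) (nat_lit 240) (nat_lit 218)) (XT.nd (nat_lit 78) (nat_lit 0) (nat_lit 0) (XT.lf (nat_lit 0) (nat_lit 458101525687) (nat_lit 152) (nat_lit 5053590157481) (nat_lit 0) (nat_lit 457755338263) (nat_lit 1) (nat_lit 5) (nat_lit 3) (nat_lit 4) (nat_lit 1) (nat_lit 4) (nat_lit 323) (nat_lit 240) (nat_lit 217)) (XT.lf (nat_lit 0) (nat_lit 527726134645) (nat_lit 152) (nat_lit 5809615162027) (nat_lit 0) (nat_lit 527378057220) (nat_lit 1) (nat_lit 5) (nat_lit 3) (nat_lit 4) (nat_lit 1) (nat_lit 4) (nat_lit 324) (nat_lit 240) (nat_lit 216))))) (XT.nd (nat_lit 156) (nat_lit 0) (nat_lit 0) (XT.nd (nat_lit 78) (nat_lit 0) (nat_lit 0) (XT.lf (nat_lit 0) (nat_lit 607785655345) (nat_lit 152) (nat_lit 6679062265185) (nat_lit 0) (nat_lit 607435934441) (nat_lit 1) (nat_lit 5) (nat_lit 3) (nat_lit 4) (nat_lit 1) (nat_lit 4)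 (nat_lit 325) (nat_lit 240) (nat_lit 215)) (XT.lf (nat_lit 0) (nat_lit 699846469715) (nat_lit 152) (nat_lit 7678942388539) (nat_lit 0) (nat_lit 699495319698) (nat_lit 1) (nat_lit 5) (nat_lit 3) (nat_lit 4) (nat_lit 1) (nat_lit 4) (nat_lit 326) (nat_lit 240) (nat_lit 214))) (XT.nd (nat_lit 78) (nat_lit 0) (nat_lit 0) (XT.lf (nat_lit 0) (nat_lit 805709767599) (nat_lit 152) (nat_lit 8828818404068) (nat_lit 0) (nat_lit 805357374876) (nat_lit 1) (nat_lit 5) (nat_lit 3) (nat_lit 4) (nat_lit 1) (nat_lit 4) (nat_lit 327) (nat_lit 240) (nat_lit 213)) (XT.nd (nat_lit 78) (nat_lit 0) (nat_lit 0) (XT.lf (nat_lit 0) (nat_lit 927446787436) (nat_lit 152) (nat_lit 10151187885987) (nat_lit 0) (nat_lit 927093314098) (nat_lit 1) (nat_lit 5) (nat_lit 3) (nat_lit 4) (nat_lit 1) (nat_lit 4) (nat_lit 328) (nat_lit 240) (nat_lit 212)) (XT.lf (nat_lit 0) (nat_lit 1067439340482) (nat_lit 152) (nat_lit 11671923280683)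 (nat_lit 0) (nat_lit 1067084927480) (nat_lit 1) (nat_lit 5) (nat_lit 3) (nat_lit 4) (nat_lit 1) (nat_lit 4) (nat_lit 329) (nat_lit 240) (nat_lit 211)))))) (XT.nd (nat_lit 390) (nat_lit 0) (nat_lit 0) (XT.nd (nat_lit 156) (nat_lit 0) (nat_lit 0) (XT.nd (nat_lit 78) (nat_lit 0) (nat_lit 0) (XT.lf (nat_lit 0) (nat_lit 1228426411471) (nat_lit 152) (nat_lit 13420778106747) (nat_lit 0) (nat_lit 1228071181370) (nat_lit 1) (nat_lit 5) (nat_lit 3) (nat_lit 4) (nat_lit 1) (nat_lit 4) (nat_lit 330) (nat_lit 240) (nat_lit 210)) (XT.lf (nat_lit 0) (nat_lit 1413557747445) (nat_lit 152) (nat_lit 15431969089038) (nat_lit 0) (nat_lit 1413201806822) (nat_lit 1) (nat_lit 5) (nat_lit 3) (nat_lit 4) (nat_lit 1) (nat_lit 4) (nat_lit 331) (nat_lit 240) (nat_lit 209))) (XT.nd (nat_lit 78) (nat_lit 0) (nat_lit 0) (XT.lf (nat_lit 0) (nat_lit 1626455483238) (nat_lit 152) (nat_lit 17744845616339) (nat_lit 0) (nat_lit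 1626098924770) (nat_lit 1) (nat_lit 5) (nat_lit 3) (nat_lit 4) (nat_lit 1) (nat_lit 4) (nat_lit 332) (nat_lit 240) (nat_lit 208)) (XT.nd (nat_lit 78) (nat_lit 0) (nat_lit 0) (XT.lf (nat_lit 0) (nat_lit 1871285009332) (nat_lit 152) (nat_lit 20404659620706) (nat_lit 0) (nat_lit 1870927913608) (nat_lit 1) (nat_lit 5) (nat_lit 3) (nat_lit 4) (nat_lit 1) (nat_lit 4) (nat_lit 333) (nat_lit 240) (nat_lit 207)) (XT.lf (nat_lit 0) (nat_lit 2152836468630) (nat_lit 152) (nat_lit 23463450941354) (nat_lit 0) (nat_lit 2152478905726) (nat_lit 1) (nat_lit 5) (nat_lit 3) (nat_lit 4) (nat_lit 1) (nat_lit 4) (nat_lit 334) (nat_lit 240) (nat_lit 206))))) (XT.nd (nat_lit 156) (nat_lit 0) (nat_lit 0) (XT.nd (nat_lit 78) (nat_lit 0) (nat_lit 0) (XT.lf (nat_lit 0) (nat_lit 2476618476639) (nat_lit 152) (nat_lit 26981065495428) (nat_lit 0) (nat_lit 2476260507492) (nat_lit 1) (nat_lit 5) (nat_lit 3) (nat_lit 4)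 (nat_lit 1) (nat_lit 4) (nat_lit 335) (nat_lit 240) (nat_lit 205)) (XT.lf (nat_lit 0) (nat_lit 2848965898733) (nat_lit 152) (nat_lit 31026326176376) (nat_lit 0) (nat_lit 2848607576332) (nat_lit 1) (nat_lit 5) (nat_lit 3) (nat_lit 4) (nat_lit 1) (nat_lit 4) (nat_lit 336) (nat_lit 240) (nat_lit 204))) (XT.nd (nat_lit 78) (nat_lit 0) (nat_lit 0) (XT.lf (nat_lit 0) (nat_lit 3277163793171) (nat_lit 152) (nat_lit 35678379388826) (nat_lit 0) (nat_lit 3276805163592) (nat_lit 1) (nat_lit 5) (nat_lit 3) (nat_lit 4) (nat_lit 1) (nat_lit 4) (nat_lit 337) (nat_lit 240) (nat_lit 203)) (XT.nd (nat_lit 78) (nat_lit 0) (nat_lit 0) (XT.lf (nat_lit 0) (nat_lit 3769589944844) (nat_lit 152) (nat_lit 41028243565194) (nat_lit 0) (nat_lit 3769231048154) (nat_lit 1) (nat_lit 5) (nat_lit 3) (nat_lit 4) (nat_lit 1) (nat_lit 4) (nat_lit 338) (nat_lit 240) (nat_lit 202)) (XT.lf (nat_lit 0) (nat_lit 4335878778459)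 (nat_lit 152) (nat_lit 47180589961107) (nat_lit 0) (nat_lit 4335519649498) (nat_lit 1) (nat_lit 5) (nat_lit 3) (nat_lit 4) (nat_lit 1) (nat_lit 4) (nat_lit 339) (nat_lit 240) (nat_lit 201))))))))
noncomputable def xc15 : XT := (XT.nd (nat_lit 37908) (nat_lit 0) (nat_lit 0) (XT.nd (nat_lit 936) (nat_lit 0) (nat_lit 0) (XT.nd (nat_lit 390) (nat_lit 0) (nat_lit 0) (XT.nd (nat_lit 156) (nat_lit 0) (nat_lit 0) (XT.nd (nat_lit 78) (nat_lit 0) (nat_lit 0) (XT.lf (nat_lit 0) (nat_lit 4987109858152) (nat_lit 152) (nat_lit 54255790571265) (nat_lit 0) (nat_lit 4986750527216) (nat_lit 1) (nat_lit 5) (nat_lit 3) (nat_lit 4) (nat_lit 1) (nat_lit 4) (nat_lit 340) (nat_lit 240) (nat_lit 200)) (XT.lf (nat_lit 0) (nat_lit 5736024661568) (nat_lit 152) (nat_lit 62392273233695) (nat_lit 0) (nat_lit 5735665155003) (nat_lit 1) (nat_lit 5) (nat_lit 3) (nat_lit 4) (nat_lit 1) (nat_lit 4) (nat_lit 341) (nat_lit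 240) (nat_lit 199))) (XT.nd (nat_lit 78) (nat_lit 0) (nat_lit 0) (XT.lf (nat_lit 0) (nat_lit 6597275869645) (nat_lit 152) (nat_lit 71749230000487) (nat_lit 0) (nat_lit 6596916210357) (nat_lit 1) (nat_lit 5) (nat_lit 3) (nat_lit 4) (nat_lit 1) (nat_lit 4) (nat_lit 342) (nat_lit 240) (nat_lit 198)) (XT.nd (nat_lit 78) (nat_lit 0) (nat_lit 0) (XT.lf (nat_lit 0) (nat_lit 7587714049496) (nat_lit 152) (nat_lit 82509731764904) (nat_lit 0) (nat_lit 7587354257407) (nat_lit 1) (nat_lit 5) (nat_lit 3) (nat_lit 4) (nat_lit 1) (nat_lit 4) (nat_lit 343) (nat_lit 240) (nat_lit 197)) (XT.lf (nat_lit 0) (nat_lit 8726717339423) (nat_lit 152) (nat_lit 94884310083208) (nat_lit 0) (nat_lit 8726357431855) (nat_lit 1) (nat_lit 5) (nat_lit 3) (nat_lit 4) (nat_lit 1) (nat_lit 4) (nat_lit 344) (nat_lit 240) (nat_lit 196))))) (XT.nd (nat_lit 156) (nat_lit 0) (nat_lit 0) (XT.nd (nat_lit 78) (nat_lit 0) (nat_lit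 0) (XT.lf (nat_lit 0) (nat_lit 10036570586404) (nat_lit 152) (nat_lit 109115076270320) (nat_lit 0) (nat_lit 10036210578418) (nat_lit 1) (nat_lit 5) (nat_lit 3) (nat_lit 4) (nat_lit 1) (nat_lit 4) (nat_lit 345) (nat_lit 240) (nat_lit 195)) (XT.lf (nat_lit 0) (nat_lit 11542901353965) (nat_lit 152) (nat_lit 125480458360337) (nat_lit 0) (nat_lit 11542541258660) (nat_lit 1) (nat_lit 5) (nat_lit 3) (nat_lit 4) (nat_lit 1) (nat_lit 4) (nat_lit 346) (nat_lit 240) (nat_lit 194))) (XT.nd (nat_lit 234) (nat_lit 0) (nat_lit 0) (XT.lf (nat_lit 0) (nat_lit 13275181331038) (nat_lit 152) (nat_lit 144300648611542) (nat_lit 0) (nat_lit 13274821159803) (nat_lit 1) (nat_lit 5) (nat_lit 3) (nat_lit 4) (nat_lit 1) (nat_lit 4) (nat_lit 347) (nat_lit 240) (nat_lit 193)) (XT.nd (nat_lit 78) (nat_lit 0) (nat_lit 0) (XT.lf (nat_lit 0) (nat_lit 20192822733548) (nat_lit 152) (nat_lit 219456730351044) (nat_lit 0)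 (nat_lit 20192462388949) (nat_lit 1) (nat_lit 5) (nat_lit 3) (nat_lit 4) (nat_lit 1) (nat_lit 4) (nat_lit 350) (nat_lit 240) (nat_lit 190)) (XT.lf (nat_lit 0) (nat_lit 23222589759514) (nat_lit 152) (nat_lit 252373363820977) (nat_lit 0) (nat_lit 23222229371502) (nat_lit 1) (nat_lit 5) (nat_lit 3) (nat_lit 4) (nat_lit 1) (nat_lit 4) (nat_lit 351) (nat_lit 240) (nat_lit 189)))))) (XT.nd (nat_lit 36582) (nat_lit 0) (nat_lit 0) (XT.nd (nat_lit 156) (nat_lit 0) (nat_lit 0) (XT.nd (nat_lit 78) (nat_lit 0) (nat_lit 0) (XT.lf (nat_lit 0) (nat_lit 26706821637708) (nat_lit 152) (nat_lit 290227492732850) (nat_lit 0) (nat_lit 26706461211946) (nat_lit 1) (nat_lit 5) (nat_lit 3) (nat_lit 4) (nat_lit 1) (nat_lit 4) (nat_lit 352) (nat_lit 240) (nat_lit 188)) (XT.lf (nat_lit 0) (nat_lit 30713688122270) (nat_lit 152) (nat_lit 333759741347982) (nat_lit 0) (nat_lit 30713327663681) (nat_lit 1) (nat_lit 5)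 (nat_lit 3) (nat_lit 4) (nat_lit 1) (nat_lit 4) (nat_lit 353) (nat_lit 240) (nat_lit 187))) (XT.nd (nat_lit 36270) (nat_lit 0) (nat_lit 0) (XT.lf (nat_lit 0) (nat_lit 35321584427028) (nat_lit 152) (nat_lit 383821827574059) (nat_lit 0) (nat_lit 35321223939894) (nat_lit 1) (nat_lit 5) (nat_lit 3) (nat_lit 4) (nat_lit 1) (nat_lit 4) (nat_lit 354) (nat_lit 240) (nat_lit 186)) (XT.nd (nat_lit 78) (nat_lit 0) (nat_lit 0) (XT.lf (nat_lit 0) (nat_lit 383675395) (nat_lit 152) (nat_lit 90919331748) (nat_lit 0) (nat_lit 383675395) (nat_lit 1) (nat_lit 5) (nat_lit 3) (nat_lit 4) (nat_lit 1) (nat_lit 4) (nat_lit 298) (nat_lit 241) (nat_lit 241)) (XT.lf (nat_lit 0) (nat_lit 3777602308) (nat_lit 152) (nat_lit 202934052705) (nat_lit 0) (nat_lit 3723500693) (nat_lit 1) (nat_lit 5) (nat_lit 3) (nat_lit 4) (nat_lit 1) (nat_lit 4) (nat_lit 299) (nat_lit 241) (nat_lit 240))))) (XT.nd (nat_lit 156) (nat_lit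 0) (nat_lit 0) (XT.nd (nat_lit 78) (nat_lit 0) (nat_lit 0) (XT.lf (nat_lit 0) (nat_lit 6988073909) (nat_lit 152) (nat_lit 227718963028) (nat_lit 0) (nat_lit 6886927412) (nat_lit 1) (nat_lit 5) (nat_lit 3) (nat_lit 4) (nat_lit 1) (nat_lit 4) (nat_lit 300) (nat_lit 241) (nat_lit 239)) (XT.lf (nat_lit 0) (nat_lit 10461579169) (nat_lit 152) (nat_lit 256678316625) (nat_lit 0) (nat_lit 10319524079) (nat_lit 1) (nat_lit 5) (nat_lit 3) (nat_lit 4) (nat_lit 1) (nat_lit 4) (nat_lit 301) (nat_lit 241) (nat_lit 238))) (XT.nd (nat_lit 78) (nat_lit 0) (nat_lit 0) (XT.lf (nat_lit 0) (nat_lit 14266077974) (nat_lit 152) (nat_lit 290378709545) (nat_lit 0) (nat_lit 14088450193) (nat_lit 1) (nat_lit 5) (nat_lit 3) (nat_lit 4) (nat_lit 1) (nat_lit 4) (nat_lit 302) (nat_lit 241) (nat_lit 237)) (XT.nd (nat_lit 78) (nat_lit 0) (nat_lit 0) (XT.lf (nat_lit 0) (nat_lit 18476006170) (nat_lit 152) (nat_lit 329479497301)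 (nat_lit 0) (nat_lit 18267445615) (nat_lit 1) (nat_lit 5) (nat_lit 3) (nat_lit 4) (nat_lit 1) (nat_lit 4) (nat_lit 303) (nat_lit 241) (nat_lit 236)) (XT.lf (nat_lit 0) (nat_lit 23173731917) (nat_lit 152) (nat_lit 374745695307) (nat_lit 0) (nat_lit 22938273298) (nat_lit 1) (nat_lit 5) (nat_lit 3) (nat_lit 4) (nat_lit 1) (nat_lit 4) (nat_lit 304) (nat_lit 241) (nat_lit 235))))))) (XT.nd (nat_lit 780) (nat_lit 0) (nat_lit 0) (XT.nd (nat_lit 390) (nat_lit 0) (nat_lit 0) (XT.nd (nat_lit 156) (nat_lit 0) (nat_lit 0) (XT.nd (nat_lit 78) (nat_lit 0) (nat_lit 0) (XT.lf (nat_lit 0) (nat_lit 28451167240) (nat_lit 152) (nat_lit 427062946566) (nat_lit 0) (nat_lit 28192319000) (nat_lit 1) (nat_lit 5) (nat_lit 3) (nat_lit 4) (nat_lit 1) (nat_lit 4) (nat_lit 305) (nat_lit 241) (nat_lit 234)) (XT.lf (nat_lit 0) (nat_lit 34411566310) (nat_lit 152) (nat_lit 487454849472) (nat_lit 0) (nat_lit 34132379269)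 (nat_lit 1) (nat_lit 5) (nat_lit 3) (nat_lit 4) (nat_lit 1) (nat_lit 4) (nat_lit 306) (nat_lit 241) (nat_lit 233))) (XT.nd (nat_lit 78) (nat_lit 0) (nat_lit 0) (XT.lf (nat_lit 0) (nat_lit 41171545629) (nat_lit 152) (nat_lit 557102984735) (nat_lit 0) (nat_lit 40874672674) (nat_lit 1) (nat_lit 5) (nat_lit 3) (nat_lit 4) (nat_lit 1) (nat_lit 4) (nat_lit 307) (nat_lit 241) (nat_lit 232)) (XT.nd (nat_lit 78) (nat_lit 0) (nat_lit 0) (XT.lf (nat_lit 0) (nat_lit 48863365662) (nat_lit 152) (nat_lit 637370033262) (nat_lit 0) (nat_lit 48551113652) (nat_lit 1) (nat_lit 5) (nat_lit 3) (nat_lit 4) (nat_lit 1) (nat_lit 4) (nat_lit 308) (nat_lit 241) (nat_lit 231)) (XT.lf (nat_lit 0) (nat_lit 57637518541) (nat_lit 152) (nat_lit 729826437307) (nat_lit 0) (nat_lit 57311893439) (nat_lit 1) (nat_lit 5) (nat_lit 3) (nat_lit 4) (nat_lit 1) (nat_lit 4) (nat_lit 309) (nat_lit 241) (nat_lit 230))))) (XT.nd (nat_lit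 156) (nat_lit 0) (nat_lit 0) (XT.nd (nat_lit 78) (nat_lit 0) (nat_lit 0) (XT.lf (nat_lit 0) (nat_lit 67665672474) (nat_lit 152) (nat_lit 836281126514) (nat_lit 0) (nat_lit 67328418597) (nat_lit 1) (nat_lit 5) (nat_lit 3) (nat_lit 4) (nat_lit 1) (nat_lit 4) (nat_lit 310) (nat_lit 241) (nat_lit 229)) (XT.lf (nat_lit 0) (nat_lit 79144030473) (nat_lit 152) (nat_lit 958816910020) (nat_lit 0) (nat_lit 78796664617) (nat_lit 1) (nat_lit 5) (nat_lit 3) (nat_lit 4) (nat_lit 1) (nat_lit 4) (nat_lit 311) (nat_lit 241) (nat_lit 228))) (XT.nd (nat_lit 78) (nat_lit 0) (nat_lit 0) (XT.lf (nat_lit 0) (nat_lit 92297169108) (nat_lit 152) (nat_lit 1099831227068) (nat_lit 0) (nat_lit 91941010226) (nat_lit 1) (nat_lit 5) (nat_lit 3) (nat_lit 4) (nat_lit 1) (nat_lit 4) (nat_lit 312) (nat_lit 241) (nat_lit 227)) (XT.nd (nat_lit 78) (nat_lit 0) (nat_lit 0) (XT.lf (nat_lit 0) (nat_lit 107382432394) (nat_lit 152)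 (nat_lit 1262083053425) (nat_lit 0) (nat_lit 107018627404) (nat_lit 1) (nat_lit 5) (nat_lit 3) (nat_lit 4) (nat_lit 1) (nat_lit 4) (nat_lit 313) (nat_lit 241) (nat_lit 226)) (XT.lf (nat_lit 0) (nat_lit 124694966788) (nat_lit 152) (nat_lit 1448746881346) (nat_lit 0) (nat_lit 124324513008) (nat_lit 1) (nat_lit 5) (nat_lit 3) (nat_lit 4) (nat_lit 1) (nat_lit 4) (nat_lit 314) (nat_lit 241) (nat_lit 225)))))) (XT.nd (nat_lit 390) (nat_lit 0) (nat_lit 0) (XT.nd (nat_lit 156) (nat_lit 0) (nat_lit 0) (XT.nd (nat_lit 78) (nat_lit 0) (nat_lit 0) (XT.lf (nat_lit 0) (nat_lit 144573495789) (nat_lit 152) (nat_lit 1663474829204) (nat_lit 0) (nat_lit 144197260453) (nat_lit 1) (nat_lit 5) (nat_lit 3) (nat_lit 4) (nat_lit 1) (nat_lit 4) (nat_lit 315) (nat_lit 241) (nat_lit 224)) (XT.lf (nat_lit 0) (nat_lit 167406947138) (nat_lit 152) (nat_lit 1910468095979) (nat_lit 0) (nat_lit 167025684361) (nat_lit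 1) (nat_lit 5) (nat_lit 3) (nat_lit 4) (nat_lit 1) (nat_lit 4) (nat_lit 316) (nat_lit 241) (nat_lit 223))) (XT.nd (nat_lit 78) (nat_lit 0) (nat_lit 0) (XT.lf (nat_lit 0) (nat_lit 193642062275) (nat_lit 152) (nat_lit 2194559158629) (nat_lit 0) (nat_lit 193256427810) (nat_lit 1) (nat_lit 5) (nat_lit 3) (nat_lit 4) (nat_lit 1) (nat_lit 4) (nat_lit 317) (nat_lit 241) (nat_lit 222)) (XT.nd (nat_lit 78) (nat_lit 0) (nat_lit 0) (XT.lf (nat_lit 0) (nat_lit 223792136929) (nat_lit 152) (nat_lit 2521306320554) (nat_lit 0) (nat_lit 223402700998) (nat_lit 1) (nat_lit 5) (nat_lit 3) (nat_lit 4) (nat_lit 1) (nat_lit 4) (nat_lit 318) (nat_lit 241) (nat_lit 221)) (XT.lf (nat_lit 0) (nat_lit 258447063868) (nat_lit 152) (nat_lit 2897102461010) (nat_lit 0) (nat_lit 258054322312) (nat_lit 1) (nat_lit 5) (nat_lit 3) (nat_lit 4) (nat_lit 1) (nat_lit 4) (nat_lit 319) (nat_lit 241) (nat_lit 220))))) (XT.nd (nat_lit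 234) (nat_lit 0) (nat_lit 0) (XT.nd (nat_lit 78) (nat_lit 0) (nat_lit 0) (XT.lf (nat_lit 0) (nat_lit 298284874269) (nat_lit 152) (nat_lit 3329300113178) (nat_lit 0) (nat_lit 297889258258) (nat_lit 1) (nat_lit 5) (nat_lit 3) (nat_lit 4) (nat_lit 1) (nat_lit 4) (nat_lit 320) (nat_lit 241) (nat_lit 219)) (XT.nd (nat_lit 78) (nat_lit 0) (nat_lit 0) (XT.lf (nat_lit 0) (nat_lit 344085003553) (nat_lit 152) (nat_lit 3826355318079) (nat_lit 0) (nat_lit 343686888016) (nat_lit 1) (nat_lit 5) (nat_lit 3) (nat_lit 4) (nat_lit 1) (nat_lit 4) (nat_lit 321) (nat_lit 241) (nat_lit 218)) (XT.lf (nat_lit 0) (nat_lit 396743541207) (nat_lit 152) (nat_lit 4397993068854) (nat_lit 0) (nat_lit 396343252168) (nat_lit 1) (nat_lit 5) (nat_lit 3) (nat_lit 4) (nat_lit 1) (nat_lit 4) (nat_lit 322) (nat_lit 241) (nat_lit 217)))) (XT.nd (nat_lit 78) (nat_lit 0) (nat_lit 0) (XT.lf (nat_lit 0) (nat_lit 457290762967) (nat_lit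 152) (nat_lit 5055397582364) (nat_lit 0) (nat_lit 456888583927) (nat_lit 1) (nat_lit 5) (nat_lit 3) (nat_lit 4) (nat_lit 1) (nat_lit 4) (nat_lit 323) (nat_lit 241) (nat_lit 216)) (XT.nd (nat_lit 78) (nat_lit 0) (nat_lit 0) (XT.lf (nat_lit 0) (nat_lit 526911288390) (nat_lit 152) (nat_lit 5811431120832) (nat_lit 0) (nat_lit 526507465871) (nat_lit 1) (nat_lit 5) (nat_lit 3) (nat_lit 4) (nat_lit 1) (nat_lit 4) (nat_lit 324) (nat_lit 241) (nat_lit 215)) (XT.lf (nat_lit 0) (nat_lit 606967258190) (nat_lit 152) (nat_lit 6680885644791) (nat_lit 0) (nat_lit 606562006558) (nat_lit 1) (nat_lit 5) (nat_lit 3) (nat_lit 4) (nat_lit 1) (nat_lit 4) (nat_lit 325) (nat_lit 241) (nat_lit 214))))))))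
noncomputable def xc16 : XT := (XT.nd (nat_lit 1560) (nat_lit 0) (nat_lit 0) (XT.nd (nat_lit 780) (nat_lit 0) (nat_lit 0) (XT.nd (nat_lit 390) (nat_lit 0) (nat_lit 0) (XT.nd (nat_lit 156) (nat_lit 0) (nat_lit 0) (XT.nd (nat_lit 78) (nat_lit 0) (nat_lit 0) (XT.lf (nat_lit 0) (nat_lit 699024984819) (nat_lit 152) (nat_lit 7680772221015) (nat_lit 0) (nat_lit 698618490481) (nat_lit 1) (nat_lit 5) (nat_lit 3) (nat_lit 4) (nat_lit 1) (nat_lit 4) (nat_lit 326) (nat_lit 241) (nat_lit 213)) (XT.lf (nat_lit 0) (nat_lit 804885597713) (nat_lit 152) (nat_lit 8830653847735) (nat_lit 0) (nat_lit 804478022761) (nat_lit 1) (nat_lit 5) (nat_lit 3) (nat_lit 4) (nat_lit 1) (nat_lit 4) (nat_lit 327) (nat_lit 241) (nat_lit 212))) (XT.nd (nat_lit 78) (nat_lit 0) (nat_lit 0) (XT.lf (nat_lit 0) (nat_lit 926620282774) (nat_lit 152) (nat_lit 10153028208951) (nat_lit 0) (nat_lit 926211768158) (nat_lit 1) (nat_lit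 5) (nat_lit 3) (nat_lit 4) (nat_lit 1) (nat_lit 4) (nat_lit 328) (nat_lit 241) (nat_lit 211)) (XT.nd (nat_lit 78) (nat_lit 0) (nat_lit 0) (XT.lf (nat_lit 0) (nat_lit 1066610805582) (nat_lit 152) (nat_lit 11673767846514) (nat_lit 0) (nat_lit 1066201473865) (nat_lit 1) (nat_lit 5) (nat_lit 3) (nat_lit 4) (nat_lit 1) (nat_lit 4) (nat_lit 329) (nat_lit 241) (nat_lit 210)) (XT.lf (nat_lit 0) (nat_lit 1227596111146) (nat_lit 152) (nat_lit 13422626362028) (nat_lit 0) (nat_lit 1227186068909) (nat_lit 1) (nat_lit 5) (nat_lit 3) (nat_lit 4) (nat_lit 1) (nat_lit 4) (nat_lit 330) (nat_lit 241) (nat_lit 209))))) (XT.nd (nat_lit 156) (nat_lit 0) (nat_lit 0) (XT.nd (nat_lit 78) (nat_lit 0) (nat_lit 0) (XT.lf (nat_lit 0) (nat_lit 1412725911968) (nat_lit 152) (nat_lit 15433820552536) (nat_lit 0) (nat_lit 1412315251885) (nat_lit 1) (nat_lit 5) (nat_lit 3) (nat_lit 4) (nat_lit 1) (nat_lit 4) (nat_lit 331)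 (nat_lit 241) (nat_lit 208)) (XT.lf (nat_lit 0) (nat_lit 1625622312846) (nat_lit 152) (nat_lit 17746699869591) (nat_lit 0) (nat_lit 1625211115507) (nat_lit 1) (nat_lit 5) (nat_lit 3) (nat_lit 4) (nat_lit 1) (nat_lit 4) (nat_lit 332) (nat_lit 241) (nat_lit 207))) (XT.nd (nat_lit 78) (nat_lit 0) (nat_lit 0) (XT.lf (nat_lit 0) (nat_lit 1870450678144) (nat_lit 152) (nat_lit 20406516299830) (nat_lit 0) (nat_lit 1870039013626) (nat_lit 1) (nat_lit 5) (nat_lit 3) (nat_lit 4) (nat_lit 1) (nat_lit 4) (nat_lit 333) (nat_lit 241) (nat_lit 206)) (XT.nd (nat_lit 78) (nat_lit 0) (nat_lit 0) (XT.lf (nat_lit 0) (nat_lit 2152001128054) (nat_lit 152) (nat_lit 23465309729934) (nat_lit 0) (nat_lit 2151589057293) (nat_lit 1) (nat_lit 5) (nat_lit 3) (nat_lit 4) (nat_lit 1) (nat_lit 4) (nat_lit 334) (nat_lit 241) (nat_lit 205)) (XT.lf (nat_lit 0) (nat_lit 2475782258335) (nat_lit 152) (nat_lit 26982926118316)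 (nat_lit 0) (nat_lit 2475369834319) (nat_lit 1) (nat_lit 5) (nat_lit 3) (nat_lit 4) (nat_lit 1) (nat_lit 4) (nat_lit 335) (nat_lit 241) (nat_lit 204)))))) (XT.nd (nat_lit 390) (nat_lit 0) (nat_lit 0) (XT.nd (nat_lit 156) (nat_lit 0) (nat_lit 0) (XT.nd (nat_lit 78) (nat_lit 0) (nat_lit 0) (XT.lf (nat_lit 0) (nat_lit 2848128917187) (nat_lit 152) (nat_lit 31028188394315) (nat_lit 0) (nat_lit 2847716185993) (nat_lit 1) (nat_lit 5) (nat_lit 3) (nat_lit 4) (nat_lit 1) (nat_lit 4) (nat_lit 336) (nat_lit 241) (nat_lit 203)) (XT.lf (nat_lit 0) (nat_lit 3276326147936) (nat_lit 152) (nat_lit 35680242993765) (nat_lit 0) (nat_lit 3275913149631) (nat_lit 1) (nat_lit 5) (nat_lit 3) (nat_lit 4) (nat_lit 1) (nat_lit 4) (nat_lit 337) (nat_lit 241) (nat_lit 202))) (XT.nd (nat_lit 78) (nat_lit 0) (nat_lit 0) (XT.lf (nat_lit 0) (nat_lit 3768751722489) (nat_lit 152) (nat_lit 41030108376222) (nat_lit 0) (nat_lit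 3768338491913) (nat_lit 1) (nat_lit 5) (nat_lit 3) (nat_lit 4) (nat_lit 1) (nat_lit 4) (nat_lit 338) (nat_lit 241) (nat_lit 201)) (XT.nd (nat_lit 78) (nat_lit 0) (nat_lit 0) (XT.lf (nat_lit 0) (nat_lit 4335040054260) (nat_lit 152) (nat_lit 47182455820906) (nat_lit 0) (nat_lit 4334626621710) (nat_lit 1) (nat_lit 5) (nat_lit 3) (nat_lit 4) (nat_lit 1) (nat_lit 4) (nat_lit 339) (nat_lit 241) (nat_lit 200)) (XT.lf (nat_lit 0) (nat_lit 4986270697566) (nat_lit 152) (nat_lit 54257657343040) (nat_lit 0) (nat_lit 4985857089386) (nat_lit 1) (nat_lit 5) (nat_lit 3) (nat_lit 4) (nat_lit 1) (nat_lit 4) (nat_lit 340) (nat_lit 241) (nat_lit 199))))) (XT.nd (nat_lit 156) (nat_lit 0) (nat_lit 0) (XT.nd (nat_lit 78) (nat_lit 0) (nat_lit 0) (XT.lf (nat_lit 0) (nat_lit 5735185121517) (nat_lit 152) (nat_lit 62394140798492) (nat_lit 0) (nat_lit 5734771360614) (nat_lit 1) (nat_lit 5) (nat_lit 3) (nat_lit 4)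 (nat_lit 1) (nat_lit 4) (nat_lit 341) (nat_lit 241) (nat_lit 198)) (XT.lf (nat_lit 0) (nat_lit 6596435999623) (nat_lit 152) (nat_lit 71751098254868) (nat_lit 0) (nat_lit 6596022105919) (nat_lit 1) (nat_lit 5) (nat_lit 3) (nat_lit 4) (nat_lit 1) (nat_lit 4) (nat_lit 342) (nat_lit 241) (nat_lit 197))) (XT.nd (nat_lit 78) (nat_lit 0) (nat_lit 0) (XT.lf (nat_lit 0) (nat_lit 7586873892543) (nat_lit 152) (nat_lit 82511600618924) (nat_lit 0) (nat_lit 7586459883359) (nat_lit 1) (nat_lit 5) (nat_lit 3) (nat_lit 4) (nat_lit 1) (nat_lit 4) (nat_lit 343) (nat_lit 241) (nat_lit 196)) (XT.nd (nat_lit 78) (nat_lit 0) (nat_lit 0) (XT.lf (nat_lit 0) (nat_lit 8725876932965) (nat_lit 152) (nat_lit 94886179458652) (nat_lit 0) (nat_lit 8725462823365) (nat_lit 1) (nat_lit 5) (nat_lit 3) (nat_lit 4) (nat_lit 1) (nat_lit 4) (nat_lit 344) (nat_lit 241) (nat_lit 195)) (XT.lf (nat_lit 0) (nat_lit 10035729962984)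 (nat_lit 152) (nat_lit 109116946099178) (nat_lit 0) (nat_lit 10035315766065) (nat_lit 1) (nat_lit 5) (nat_lit 3) (nat_lit 4) (nat_lit 1) (nat_lit 4) (nat_lit 345) (nat_lit 241) (nat_lit 194))))))) (XT.nd (nat_lit 36972) (nat_lit 0) (nat_lit 0) (XT.nd (nat_lit 546) (nat_lit 0) (nat_lit 0) (XT.nd (nat_lit 312) (nat_lit 0) (nat_lit 0) (XT.nd (nat_lit 78) (nat_lit 0) (nat_lit 0) (XT.lf (nat_lit 0) (nat_lit 11542060541884) (nat_lit 152) (nat_lit 125482328583467) (nat_lit 0) (nat_lit 11541646269035) (nat_lit 1) (nat_lit 5) (nat_lit 3) (nat_lit 4) (nat_lit 1) (nat_lit 4) (nat_lit 346) (nat_lit 241) (nat_lit 193)) (XT.lf (nat_lit 0) (nat_lit 13274340354903) (nat_lit 152) (nat_lit 144302519177517) (nat_lit 0) (nat_lit 13273926016028) (nat_lit 1) (nat_lit 5) (nat_lit 3) (nat_lit 4) (nat_lit 1) (nat_lit 4) (nat_lit 347) (nat_lit 241) (nat_lit 192))) (XT.nd (nat_lit 78) (nat_lit 0) (nat_lit 0) (XT.lf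 (nat_lit 0) (nat_lit 20191981382842) (nat_lit 152) (nat_lit 219458601699812) (nat_lit 0) (nat_lit 20191566893214) (nat_lit 1) (nat_lit 5) (nat_lit 3) (nat_lit 4) (nat_lit 1) (nat_lit 4) (nat_lit 350) (nat_lit 241) (nat_lit 189)) (XT.nd (nat_lit 78) (nat_lit 0) (nat_lit 0) (XT.lf (nat_lit 0) (nat_lit 23221748315009) (nat_lit 152) (nat_lit 252375235365769) (nat_lit 0) (nat_lit 23221333787632) (nat_lit 1) (nat_lit 5) (nat_lit 3) (nat_lit 4) (nat_lit 1) (nat_lit 4) (nat_lit 351) (nat_lit 241) (nat_lit 188)) (XT.lf (nat_lit 0) (nat_lit 26705980111640) (nat_lit 152) (nat_lit 290229364448097) (nat_lit 0) (nat_lit 26705565551436) (nat_lit 1) (nat_lit 5) (nat_lit 3) (nat_lit 4) (nat_lit 1) (nat_lit 4) (nat_lit 352) (nat_lit 241) (nat_lit 187))))) (XT.nd (nat_lit 36192) (nat_lit 0) (nat_lit 0) (XT.nd (nat_lit 78) (nat_lit 0) (nat_lit 0) (XT.lf (nat_lit 0) (nat_lit 30712846525277) (nat_lit 152)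 (nat_lit 333761613211450) (nat_lit 0) (nat_lit 30712431936528) (nat_lit 1) (nat_lit 5) (nat_lit 3) (nat_lit 4) (nat_lit 1) (nat_lit 4) (nat_lit 353) (nat_lit 241) (nat_lit 186)) (XT.lf (nat_lit 0) (nat_lit 35320742768361) (nat_lit 152) (nat_lit 383823699566416) (nat_lit 0) (nat_lit 35320328154790) (nat_lit 1) (nat_lit 5) (nat_lit 3) (nat_lit 4) (nat_lit 1) (nat_lit 4) (nat_lit 354) (nat_lit 241) (nat_lit 185))) (XT.nd (nat_lit 78) (nat_lit 152) (nat_lit 0) (XT.lf (nat_lit 0) (nat_lit 65218958851) (nat_lit 76) (nat_lit 2228150317) (nat_lit 76) (nat_lit 2228150317) (nat_lit 3) (nat_lit 4) (nat_lit 4) (nat_lit 5) (nat_lit 4) (nat_lit 4) (nat_lit 296) (nat_lit 242) (nat_lit 242)) (XT.nd (nat_lit 78) (nat_lit 152) (nat_lit 0) (XT.lf (nat_lit 0) (nat_lit 155873625513) (nat_lit 76) (nat_lit 2012130928) (nat_lit 76) (nat_lit 1940581543) (nat_lit 3) (nat_lit 4) (nat_lit 4) (nat_lit 5) (nat_lit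 4) (nat_lit 4) (nat_lit 297) (nat_lit 242) (nat_lit 241)) (XT.lf (nat_lit 0) (nat_lit 695141932) (nat_lit 152) (nat_lit 182119591239) (nat_lit 0) (nat_lit 578823460) (nat_lit 1) (nat_lit 5) (nat_lit 3) (nat_lit 4) (nat_lit 1) (nat_lit 4) (nat_lit 298) (nat_lit 242) (nat_lit 240)))))) (XT.nd (nat_lit 390) (nat_lit 0) (nat_lit 0) (XT.nd (nat_lit 156) (nat_lit 0) (nat_lit 0) (XT.nd (nat_lit 78) (nat_lit 0) (nat_lit 0) (XT.lf (nat_lit 0) (nat_lit 3588501522) (nat_lit 152) (nat_lit 203459265439) (nat_lit 0) (nat_lit 3425138167) (nat_lit 1) (nat_lit 5) (nat_lit 3) (nat_lit 4) (nat_lit 1) (nat_lit 4) (nat_lit 299) (nat_lit 242) (nat_lit 239)) (XT.lf (nat_lit 0) (nat_lit 6697327969) (nat_lit 152) (nat_lit 228456597495) (nat_lit 0) (nat_lit 6493056021) (nat_lit 1) (nat_lit 5) (nat_lit 3) (nat_lit 4) (nat_lit 1) (nat_lit 4) (nat_lit 300) (nat_lit 242) (nat_lit 238))) (XT.nd (nat_lit 78) (nat_lit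 0) (nat_lit 0) (XT.lf (nat_lit 0) (nat_lit 10082446139) (nat_lit 152) (nat_lit 257600665643) (nat_lit 0) (nat_lit 9842601501) (nat_lit 1) (nat_lit 5) (nat_lit 3) (nat_lit 4) (nat_lit 1) (nat_lit 4) (nat_lit 301) (nat_lit 242) (nat_lit 237)) (XT.nd (nat_lit 78) (nat_lit 0) (nat_lit 0) (XT.lf (nat_lit 0) (nat_lit 13810086604) (nat_lit 152) (nat_lit 291461679911) (nat_lit 0) (nat_lit 13539309192) (nat_lit 1) (nat_lit 5) (nat_lit 3) (nat_lit 4) (nat_lit 1) (nat_lit 4) (nat_lit 302) (nat_lit 242) (nat_lit 236)) (XT.lf (nat_lit 0) (nat_lit 17953181461) (nat_lit 152) (nat_lit 330702138405) (nat_lit 0) (nat_lit 17655505985) (nat_lit 1) (nat_lit 5) (nat_lit 3) (nat_lit 4) (nat_lit 1) (nat_lit 4) (nat_lit 303) (nat_lit 242) (nat_lit 235))))) (XT.nd (nat_lit 156) (nat_lit 0) (nat_lit 0) (XT.nd (nat_lit 78) (nat_lit 0) (nat_lit 0) (XT.lf (nat_lit 0) (nat_lit 22592791261) (nat_lit 152) (nat_lit 376089789225)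 (nat_lit 0) (nat_lit 22271726164) (nat_lit 1) (nat_lit 5) (nat_lit 3) (nat_lit 4) (nat_lit 1) (nat_lit 4) (nat_lit 304) (nat_lit 242) (nat_lit 234)) (XT.lf (nat_lit 0) (nat_lit 27819690979) (nat_lit 152) (nat_lit 428512651628) (nat_lit 0) (nat_lit 27478287081) (nat_lit 1) (nat_lit 5) (nat_lit 3) (nat_lit 4) (nat_lit 1) (nat_lit 4) (nat_lit 305) (nat_lit 242) (nat_lit 233))) (XT.nd (nat_lit 78) (nat_lit 0) (nat_lit 0) (XT.lf (nat_lit 0) (nat_lit 33736146043) (nat_lit 152) (nat_lit 488996390311) (nat_lit 0) (nat_lit 33377056231) (nat_lit 1) (nat_lit 5) (nat_lit 3) (nat_lit 4) (nat_lit 1) (nat_lit 4) (nat_lit 306) (nat_lit 242) (nat_lit 232)) (XT.nd (nat_lit 78) (nat_lit 0) (nat_lit 0) (XT.lf (nat_lit 0) (nat_lit 40457913184) (nat_lit 152) (nat_lit 558724382772) (nat_lit 0) (nat_lit 40083444317) (nat_lit 1) (nat_lit 5) (nat_lit 3) (nat_lit 4) (nat_lit 1) (nat_lit 4) (nat_lit 307) (nat_lit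 242) (nat_lit 231)) (XT.lf (nat_lit 0) (nat_lit 48116505236) (nat_lit 152) (nat_lit 639060872340) (nat_lit 0) (nat_lit 47728663277) (nat_lit 1) (nat_lit 5) (nat_lit 3) (nat_lit 4) (nat_lit 1) (nat_lit 4) (nat_lit 308) (nat_lit 242) (nat_lit 230))))))))
noncomputable def xc17 : XT := (XT.nd (nat_lit 1560) (nat_lit 0) (nat_lit 0) (XT.nd (nat_lit 780) (nat_lit 0) (nat_lit 0) (XT.nd (nat_lit 390) (nat_lit 0) (nat_lit 0) (XT.nd (nat_lit 156) (nat_lit 0) (nat_lit 0) (XT.nd (nat_lit 78) (nat_lit 0) (nat_lit 0) (XT.lf (nat_lit 0) (nat_lit 56861764219) (nat_lit 152) (nat_lit 731577659899) (nat_lit 0) (nat_lit 56462293484) (nat_lit 1) (nat_lit 5) (nat_lit 3) (nat_lit 4) (nat_lit 1) (nat_lit 4) (nat_lit 309) (nat_lit 242) (nat_lit 229)) (XT.lf (nat_lit 0) (nat_lit 66864793024) (nat_lit 152) (nat_lit 838084856510) (nat_lit 0) (nat_lit 66455210311) (nat_lit 1) (nat_lit 5) (nat_lit 3) (nat_lit 4)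 (nat_lit 1) (nat_lit 4) (nat_lit 310) (nat_lit 242) (nat_lit 228))) (XT.nd (nat_lit 78) (nat_lit 0) (nat_lit 0) (XT.lf (nat_lit 0) (nat_lit 78321303086) (nat_lit 152) (nat_lit 960666298628) (nat_lit 0) (nat_lit 77902927348) (nat_lit 1) (nat_lit 5) (nat_lit 3) (nat_lit 4) (nat_lit 1) (nat_lit 4) (nat_lit 311) (nat_lit 242) (nat_lit 227)) (XT.nd (nat_lit 78) (nat_lit 0) (nat_lit 0) (XT.lf (nat_lit 0) (nat_lit 91455443515) (nat_lit 152) (nat_lit 1101720318816) (nat_lit 0) (nat_lit 91029421668) (nat_lit 1) (nat_lit 5) (nat_lit 3) (nat_lit 4) (nat_lit 1) (nat_lit 4) (nat_lit 312) (nat_lit 242) (nat_lit 226)) (XT.lf (nat_lit 0) (nat_lit 106524186622) (nat_lit 152) (nat_lit 1264006669643) (nat_lit 0) (nat_lit 106091515985) (nat_lit 1) (nat_lit 5) (nat_lit 3) (nat_lit 4) (nat_lit 1) (nat_lit 4) (nat_lit 313) (nat_lit 242) (nat_lit 225))))) (XT.nd (nat_lit 156) (nat_lit 0) (nat_lit 0) (XT.nd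 (nat_lit 78) (nat_lit 0) (nat_lit 0) (XT.lf (nat_lit 0) (nat_lit 123822355643) (nat_lit 152) (nat_lit 1450700518843) (nat_lit 0) (nat_lit 123383903449) (nat_lit 1) (nat_lit 5) (nat_lit 3) (nat_lit 4) (nat_lit 1) (nat_lit 4) (nat_lit 314) (nat_lit 242) (nat_lit 224)) (XT.lf (nat_lit 0) (nat_lit 143688393015) (nat_lit 152) (nat_lit 1665454572160) (nat_lit 0) (nat_lit 143244913381) (nat_lit 1) (nat_lit 5) (nat_lit 3) (nat_lit 4) (nat_lit 1) (nat_lit 4) (nat_lit 315) (nat_lit 242) (nat_lit 223))) (XT.nd (nat_lit 78) (nat_lit 0) (nat_lit 0) (XT.lf (nat_lit 0) (nat_lit 166510982078) (nat_lit 152) (nat_lit 1912470539335) (nat_lit 0) (nat_lit 166063130756) (nat_lit 1) (nat_lit 5) (nat_lit 3) (nat_lit 4) (nat_lit 1) (nat_lit 4) (nat_lit 316) (nat_lit 242) (nat_lit 222)) (XT.nd (nat_lit 78) (nat_lit 0) (nat_lit 0) (XT.lf (nat_lit 0) (nat_lit 192736651748) (nat_lit 152) (nat_lit 2196581341463)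 (nat_lit 0) (nat_lit 192284998959) (nat_lit 1) (nat_lit 5) (nat_lit 3) (nat_lit 4) (nat_lit 1) (nat_lit 4) (nat_lit 317) (nat_lit 242) (nat_lit 221)) (XT.lf (nat_lit 0) (nat_lit 222878512954) (nat_lit 152) (nat_lit 2523345668152) (nat_lit 0) (nat_lit 222423554542) (nat_lit 1) (nat_lit 5) (nat_lit 3) (nat_lit 4) (nat_lit 1) (nat_lit 4) (nat_lit 318) (nat_lit 242) (nat_lit 220)))))) (XT.nd (nat_lit 390) (nat_lit 0) (nat_lit 0) (XT.nd (nat_lit 156) (nat_lit 0) (nat_lit 0) (XT.nd (nat_lit 78) (nat_lit 0) (nat_lit 0) (XT.lf (nat_lit 0) (nat_lit 257526297763) (nat_lit 152) (nat_lit 2899156734488) (nat_lit 0) (nat_lit 257068464895) (nat_lit 1) (nat_lit 5) (nat_lit 3) (nat_lit 4) (nat_lit 1) (nat_lit 4) (nat_lit 319) (nat_lit 242) (nat_lit 219)) (XT.lf (nat_lit 0) (nat_lit 297357897617) (nat_lit 152) (nat_lit 3331367365683) (nat_lit 0) (nat_lit 296897565222) (nat_lit 1) (nat_lit 5) (nat_lit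 3) (nat_lit 4) (nat_lit 1) (nat_lit 4) (nat_lit 320) (nat_lit 242) (nat_lit 218))) (XT.nd (nat_lit 78) (nat_lit 0) (nat_lit 0) (XT.lf (nat_lit 0) (nat_lit 343152626426) (nat_lit 152) (nat_lit 3828433856695) (nat_lit 0) (nat_lit 342690120530) (nat_lit 1) (nat_lit 5) (nat_lit 3) (nat_lit 4) (nat_lit 1) (nat_lit 4) (nat_lit 321) (nat_lit 242) (nat_lit 217)) (XT.nd (nat_lit 78) (nat_lit 0) (nat_lit 0) (XT.lf (nat_lit 0) (nat_lit 395806468014) (nat_lit 152) (nat_lit 4400081421479) (nat_lit 0) (nat_lit 395342072117) (nat_lit 1) (nat_lit 5) (nat_lit 3) (nat_lit 4) (nat_lit 1) (nat_lit 4) (nat_lit 322) (nat_lit 242) (nat_lit 216)) (XT.lf (nat_lit 0) (nat_lit 456349606238) (nat_lit 152) (nat_lit 5057494468910) (nat_lit 0) (nat_lit 455883566862) (nat_lit 1) (nat_lit 5) (nat_lit 3) (nat_lit 4) (nat_lit 1) (nat_lit 4) (nat_lit 323) (nat_lit 242) (nat_lit 215))))) (XT.nd (nat_lit 156) (nat_lit 0)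 (nat_lit 0) (XT.nd (nat_lit 78) (nat_lit 0) (nat_lit 0) (XT.lf (nat_lit 0) (nat_lit 525966580760) (nat_lit 152) (nat_lit 5813535428179) (nat_lit 0) (nat_lit 525499112272) (nat_lit 1) (nat_lit 5) (nat_lit 3) (nat_lit 4) (nat_lit 1) (nat_lit 4) (nat_lit 324) (nat_lit 242) (nat_lit 214)) (XT.lf (nat_lit 0) (nat_lit 606019462820) (nat_lit 152) (nat_lit 6682996405008) (nat_lit 0) (nat_lit 605550751625) (nat_lit 1) (nat_lit 5) (nat_lit 3) (nat_lit 4) (nat_lit 1) (nat_lit 4) (nat_lit 325) (nat_lit 242) (nat_lit 213))) (XT.nd (nat_lit 78) (nat_lit 0) (nat_lit 0) (XT.lf (nat_lit 0) (nat_lit 698074504459) (nat_lit 152) (nat_lit 7682888592424) (nat_lit 0) (nat_lit 697604712650) (nat_lit 1) (nat_lit 5) (nat_lit 3) (nat_lit 4) (nat_lit 1) (nat_lit 4) (nat_lit 326) (nat_lit 242) (nat_lit 212)) (XT.nd (nat_lit 78) (nat_lit 0) (nat_lit 0) (XT.lf (nat_lit 0) (nat_lit 803932782578) (nat_lit 152) (nat_lit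 8832775098441) (nat_lit 0) (nat_lit 803462051104) (nat_lit 1) (nat_lit 5) (nat_lit 3) (nat_lit 4) (nat_lit 1) (nat_lit 4) (nat_lit 327) (nat_lit 242) (nat_lit 211)) (XT.lf (nat_lit 0) (nat_lit 925665437401) (nat_lit 152) (nat_lit 10155153702524) (nat_lit 0) (nat_lit 925193888827) (nat_lit 1) (nat_lit 5) (nat_lit 3) (nat_lit 4) (nat_lit 1) (nat_lit 4) (nat_lit 328) (nat_lit 242) (nat_lit 210))))))) (XT.nd (nat_lit 780) (nat_lit 0) (nat_lit 0) (XT.nd (nat_lit 390) (nat_lit 0) (nat_lit 0) (XT.nd (nat_lit 156) (nat_lit 0) (nat_lit 0) (XT.nd (nat_lit 78) (nat_lit 0) (nat_lit 0) (XT.lf (nat_lit 0) (nat_lit 1065654194783) (nat_lit 152) (nat_lit 11675897029537) (nat_lit 0) (nat_lit 1065181935688) (nat_lit 1) (nat_lit 5) (nat_lit 3) (nat_lit 4) (nat_lit 1) (nat_lit 4) (nat_lit 329) (nat_lit 242) (nat_lit 209)) (XT.lf (nat_lit 0) (nat_lit 1226637965195) (nat_lit 152) (nat_lit 13424758753268) (nat_lit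 0) (nat_lit 1226165088255) (nat_lit 1) (nat_lit 5) (nat_lit 3) (nat_lit 4) (nat_lit 1) (nat_lit 4) (nat_lit 330) (nat_lit 242) (nat_lit 208))) (XT.nd (nat_lit 78) (nat_lit 0) (nat_lit 0) (XT.lf (nat_lit 0) (nat_lit 1411766431102) (nat_lit 152) (nat_lit 15435955733529) (nat_lit 0) (nat_lit 1411293016906) (nat_lit 1) (nat_lit 5) (nat_lit 3) (nat_lit 4) (nat_lit 1) (nat_lit 4) (nat_lit 331) (nat_lit 242) (nat_lit 207)) (XT.nd (nat_lit 78) (nat_lit 0) (nat_lit 0) (XT.lf (nat_lit 0) (nat_lit 1624661671183) (nat_lit 152) (nat_lit 17748837476457) (nat_lit 0) (nat_lit 1624187789808) (nat_lit 1) (nat_lit 5) (nat_lit 3) (nat_lit 4) (nat_lit 1) (nat_lit 4) (nat_lit 332) (nat_lit 242) (nat_lit 206)) (XT.lf (nat_lit 0) (nat_lit 1869489027094) (nat_lit 152) (nat_lit 20408656016152) (nat_lit 0) (nat_lit 1869014739476) (nat_lit 1) (nat_lit 5) (nat_lit 3) (nat_lit 4) (nat_lit 1) (nat_lit 4) (nat_lit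 333) (nat_lit 242) (nat_lit 205))))) (XT.nd (nat_lit 156) (nat_lit 0) (nat_lit 0) (XT.nd (nat_lit 78) (nat_lit 0) (nat_lit 0) (XT.lf (nat_lit 0) (nat_lit 2151038599276) (nat_lit 152) (nat_lit 23467451280563) (nat_lit 0) (nat_lit 2150563958403) (nat_lit 1) (nat_lit 5) (nat_lit 3) (nat_lit 4) (nat_lit 1) (nat_lit 4) (nat_lit 334) (nat_lit 242) (nat_lit 204)) (XT.lf (nat_lit 0) (nat_lit 2474818966315) (nat_lit 152) (nat_lit 26985069263997) (nat_lit 0) (nat_lit 2474344018264) (nat_lit 1) (nat_lit 5) (nat_lit 3) (nat_lit 4) (nat_lit 1) (nat_lit 4) (nat_lit 335) (nat_lit 242) (nat_lit 203))) (XT.nd (nat_lit 78) (nat_lit 0) (nat_lit 0) (XT.lf (nat_lit 0) (nat_lit 2847164961478) (nat_lit 152) (nat_lit 31030332926996) (nat_lit 0) (nat_lit 2846689746316) (nat_lit 1) (nat_lit 5) (nat_lit 3) (nat_lit 4) (nat_lit 1) (nat_lit 4) (nat_lit 336) (nat_lit 242) (nat_lit 202)) (XT.nd (nat_lit 78) (nat_lit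 0) (nat_lit 0) (XT.lf (nat_lit 0) (nat_lit 3275361615107) (nat_lit 152) (nat_lit 35682388732534) (nat_lit 0) (nat_lit 3274886167674) (nat_lit 1) (nat_lit 5) (nat_lit 3) (nat_lit 4) (nat_lit 1) (nat_lit 4) (nat_lit 337) (nat_lit 242) (nat_lit 201)) (XT.lf (nat_lit 0) (nat_lit 3767786687816) (nat_lit 152) (nat_lit 41032255163762) (nat_lit 0) (nat_lit 3767311038408) (nat_lit 1) (nat_lit 5) (nat_lit 3) (nat_lit 4) (nat_lit 1) (nat_lit 4) (nat_lit 338) (nat_lit 242) (nat_lit 200)))))) (XT.nd (nat_lit 390) (nat_lit 0) (nat_lit 0) (XT.nd (nat_lit 156) (nat_lit 0) (nat_lit 0) (XT.nd (nat_lit 78) (nat_lit 0) (nat_lit 0) (XT.lf (nat_lit 0) (nat_lit 4334074583201) (nat_lit 152) (nat_lit 47184603520422) (nat_lit 0) (nat_lit 4333598758163) (nat_lit 1) (nat_lit 5) (nat_lit 3) (nat_lit 4) (nat_lit 1) (nat_lit 4) (nat_lit 339) (nat_lit 242) (nat_lit 199)) (XT.lf (nat_lit 0) (nat_lit 4985304847041) (nat_lit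 152) (nat_lit 54259805835578) (nat_lit 0) (nat_lit 4984828869282) (nat_lit 1) (nat_lit 5) (nat_lit 3) (nat_lit 4) (nat_lit 1) (nat_lit 4) (nat_lit 340) (nat_lit 242) (nat_lit 198))) (XT.nd (nat_lit 78) (nat_lit 0) (nat_lit 0) (XT.lf (nat_lit 0) (nat_lit 5734218941021) (nat_lit 152) (nat_lit 62396289980615) (nat_lit 0) (nat_lit 5733742830460) (nat_lit 1) (nat_lit 5) (nat_lit 3) (nat_lit 4) (nat_lit 1) (nat_lit 4) (nat_lit 341) (nat_lit 242) (nat_lit 197)) (XT.nd (nat_lit 78) (nat_lit 0) (nat_lit 0) (XT.lf (nat_lit 0) (nat_lit 6595469532195) (nat_lit 152) (nat_lit 71753248036630) (nat_lit 0) (nat_lit 6594993306155) (nat_lit 1) (nat_lit 5) (nat_lit 3) (nat_lit 4) (nat_lit 1) (nat_lit 4) (nat_lit 342) (nat_lit 242) (nat_lit 196)) (XT.lf (nat_lit 0) (nat_lit 7585907175611) (nat_lit 152) (nat_lit 82513750922111) (nat_lit 0) (nat_lit 7585430849153) (nat_lit 1) (nat_lit 5) (nat_lit 3) (nat_lit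 4) (nat_lit 1) (nat_lit 4) (nat_lit 343) (nat_lit 242) (nat_lit 195))))) (XT.nd (nat_lit 234) (nat_lit 0) (nat_lit 0) (XT.nd (nat_lit 78) (nat_lit 0) (nat_lit 0) (XT.lf (nat_lit 0) (nat_lit 8724909999072) (nat_lit 152) (nat_lit 94888330215252) (nat_lit 0) (nat_lit 8724433585295) (nat_lit 1) (nat_lit 5) (nat_lit 3) (nat_lit 4) (nat_lit 1) (nat_lit 4) (nat_lit 344) (nat_lit 242) (nat_lit 194)) (XT.nd (nat_lit 78) (nat_lit 0) (nat_lit 0) (XT.lf (nat_lit 0) (nat_lit 10034762840430) (nat_lit 152) (nat_lit 109119097250049) (nat_lit 0) (nat_lit 10034286350723) (nat_lit 1) (nat_lit 5) (nat_lit 3) (nat_lit 4) (nat_lit 1) (nat_lit 4) (nat_lit 345) (nat_lit 242) (nat_lit 193)) (XT.lf (nat_lit 0) (nat_lit 11541093255275) (nat_lit 152) (nat_lit 125484480077184) (nat_lit 0) (nat_lit 11540616699543) (nat_lit 1) (nat_lit 5) (nat_lit 3) (nat_lit 4) (nat_lit 1) (nat_lit 4) (nat_lit 346) (nat_lit 242)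 (nat_lit 192)))) (XT.nd (nat_lit 234) (nat_lit 0) (nat_lit 0) (XT.lf (nat_lit 0) (nat_lit 13273372925639) (nat_lit 152) (nat_lit 144304670969361) (nat_lit 0) (nat_lit 13272896312493) (nat_lit 1) (nat_lit 5) (nat_lit 3) (nat_lit 4) (nat_lit 1) (nat_lit 4) (nat_lit 347) (nat_lit 242) (nat_lit 191)) (XT.nd (nat_lit 78) (nat_lit 0) (nat_lit 0) (XT.lf (nat_lit 0) (nat_lit 20191013627863) (nat_lit 152) (nat_lit 219460754172345) (nat_lit 0) (nat_lit 20190536883629) (nat_lit 1) (nat_lit 5) (nat_lit 3) (nat_lit 4) (nat_lit 1) (nat_lit 4) (nat_lit 350) (nat_lit 242) (nat_lit 188)) (XT.lf (nat_lit 0) (nat_lit 23220780478467) (nat_lit 152) (nat_lit 252377388008756) (nat_lit 0) (nat_lit 23220303701406) (nat_lit 1) (nat_lit 5) (nat_lit 3) (nat_lit 4) (nat_lit 1) (nat_lit 4) (nat_lit 351) (nat_lit 242) (nat_lit 187))))))))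
noncomputable def xc18 : XT := (XT.nd (nat_lit 37518) (nat_lit 0) (nat_lit 0) (XT.nd (nat_lit 36738) (nat_lit 0) (nat_lit 0) (XT.nd (nat_lit 36348) (nat_lit 0) (nat_lit 0) (XT.nd (nat_lit 36114) (nat_lit 0) (nat_lit 152) (XT.nd (nat_lit 78) (nat_lit 0) (nat_lit 0) (XT.lf (nat_lit 0) (nat_lit 26705012204173) (nat_lit 152) (nat_lit 290231517239306) (nat_lit 0) (nat_lit 26704535398567) (nat_lit 1) (nat_lit 5) (nat_lit 3) (nat_lit 4) (nat_lit 1) (nat_lit 4) (nat_lit 352) (nat_lit 242) (nat_lit 186)) (XT.lf (nat_lit 0) (nat_lit 30711878556136) (nat_lit 152) (nat_lit 333763766131548) (nat_lit 0) (nat_lit 30711401725709) (nat_lit 1) (nat_lit 5) (nat_lit 3) (nat_lit 4) (nat_lit 1) (nat_lit 4) (nat_lit 353) (nat_lit 242) (nat_lit 185))) (XT.nd (nat_lit 78) (nat_lit 0) (nat_lit 0) (XT.lf (nat_lit 0) (nat_lit 43943718273) (nat_lit 76) (nat_lit 4565640361) (nat_lit 76) (nat_lit 4565640361) (nat_lit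 3) (nat_lit 4) (nat_lit 4) (nat_lit 5) (nat_lit 4) (nat_lit 4) (nat_lit 294) (nat_lit 243) (nat_lit 243)) (XT.nd (nat_lit 78) (nat_lit 0) (nat_lit 0) (XT.lf (nat_lit 0) (nat_lit 107821075206) (nat_lit 76) (nat_lit 6921465809) (nat_lit 76) (nat_lit 6839184015) (nat_lit 3) (nat_lit 4) (nat_lit 4) (nat_lit 5) (nat_lit 4) (nat_lit 4) (nat_lit 295) (nat_lit 243) (nat_lit 242)) (XT.lf (nat_lit 0) (nat_lit 130171098605) (nat_lit 76) (nat_lit 4676324838) (nat_lit 76) (nat_lit 4522493659) (nat_lit 3) (nat_lit 4) (nat_lit 4) (nat_lit 5) (nat_lit 4) (nat_lit 4) (nat_lit 296) (nat_lit 243) (nat_lit 241))))) (XT.nd (nat_lit 156) (nat_lit 0) (nat_lit 0) (XT.nd (nat_lit 78) (nat_lit 152) (nat_lit 0) (XT.lf (nat_lit 0) (nat_lit 155374789808) (nat_lit 76) (nat_lit 2351931139) (nat_lit 76) (nat_lit 2135883103) (nat_lit 3) (nat_lit 4) (nat_lit 4) (nat_lit 5) (nat_lit 4) (nat_lit 4) (nat_lit 297) (nat_lit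 243) (nat_lit 240)) (XT.lf (nat_lit 0) (nat_lit 360784101) (nat_lit 152) (nat_lit 182967870876) (nat_lit 0) (nat_lit 125871361) (nat_lit 1) (nat_lit 5) (nat_lit 3) (nat_lit 4) (nat_lit 1) (nat_lit 4) (nat_lit 298) (nat_lit 243) (nat_lit 239))) (XT.nd (nat_lit 78) (nat_lit 0) (nat_lit 0) (XT.lf (nat_lit 0) (nat_lit 3152498537) (nat_lit 152) (nat_lit 204519966809) (nat_lit 0) (nat_lit 2876677203) (nat_lit 1) (nat_lit 5) (nat_lit 3) (nat_lit 4) (nat_lit 1) (nat_lit 4) (nat_lit 299) (nat_lit 243) (nat_lit 238)) (XT.nd (nat_lit 78) (nat_lit 0) (nat_lit 0) (XT.lf (nat_lit 0) (nat_lit 6172937894) (nat_lit 152) (nat_lit 229702013416) (nat_lit 0) (nat_lit 5861543870) (nat_lit 1) (nat_lit 5) (nat_lit 3) (nat_lit 4) (nat_lit 1) (nat_lit 4) (nat_lit 300) (nat_lit 243) (nat_lit 237)) (XT.lf (nat_lit 0) (nat_lit 9481197724) (nat_lit 152) (nat_lit 259006702911) (nat_lit 0) (nat_lit 9138870926) (nat_lit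 1) (nat_lit 5) (nat_lit 3) (nat_lit 4) (nat_lit 1) (nat_lit 4) (nat_lit 301) (nat_lit 243) (nat_lit 236)))))) (XT.nd (nat_lit 390) (nat_lit 0) (nat_lit 0) (XT.nd (nat_lit 156) (nat_lit 0) (nat_lit 0) (XT.nd (nat_lit 78) (nat_lit 0) (nat_lit 0) (XT.lf (nat_lit 0) (nat_lit 13142004851) (nat_lit 152) (nat_lit 293007387917) (nat_lit 0) (nat_lit 12772779989) (nat_lit 1) (nat_lit 5) (nat_lit 3) (nat_lit 4) (nat_lit 1) (nat_lit 4) (nat_lit 302) (nat_lit 243) (nat_lit 235)) (XT.lf (nat_lit 0) (nat_lit 17226983761) (nat_lit 152) (nat_lit 332369299226) (nat_lit 0) (nat_lit 16834369278) (nat_lit 1) (nat_lit 5) (nat_lit 3) (nat_lit 4) (nat_lit 1) (nat_lit 4) (nat_lit 303) (nat_lit 243) (nat_lit 234))) (XT.nd (nat_lit 78) (nat_lit 0) (nat_lit 0) (XT.lf (nat_lit 0) (nat_lit 21816057955) (nat_lit 152) (nat_lit 377862561190) (nat_lit 0) (nat_lit 21403104671) (nat_lit 1) (nat_lit 5) (nat_lit 3) (nat_lit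 4) (nat_lit 1) (nat_lit 4) (nat_lit 304) (nat_lit 243) (nat_lit 233)) (XT.nd (nat_lit 78) (nat_lit 0) (nat_lit 0) (XT.lf (nat_lit 0) (nat_lit 26999013668) (nat_lit 152) (nat_lit 430377259370) (nat_lit 0) (nat_lit 26568374470) (nat_lit 1) (nat_lit 5) (nat_lit 3) (nat_lit 4) (nat_lit 1) (nat_lit 4) (nat_lit 305) (nat_lit 243) (nat_lit 232)) (XT.lf (nat_lit 0) (nat_lit 32877256554) (nat_lit 152) (nat_lit 490940855251) (nat_lit 0) (nat_lit 32431238301) (nat_lit 1) (nat_lit 5) (nat_lit 3) (nat_lit 4) (nat_lit 1) (nat_lit 4) (nat_lit 306) (nat_lit 243) (nat_lit 231))))) (XT.nd (nat_lit 156) (nat_lit 0) (nat_lit 0) (XT.nd (nat_lit 78) (nat_lit 0) (nat_lit 0) (XT.lf (nat_lit 0) (nat_lit 39565795713) (nat_lit 152) (nat_lit 560738288752) (nat_lit 0) (nat_lit 39106404368) (nat_lit 1) (nat_lit 5) (nat_lit 3) (nat_lit 4) (nat_lit 1) (nat_lit 4) (nat_lit 307) (nat_lit 243) (nat_lit 230)) (XT.lf (nat_lit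 0) (nat_lit 47195493869) (nat_lit 152) (nat_lit 641135161835) (nat_lit 0) (nat_lit 46724473749) (nat_lit 1) (nat_lit 5) (nat_lit 3) (nat_lit 4) (nat_lit 1) (nat_lit 4) (nat_lit 308) (nat_lit 243) (nat_lit 229))) (XT.nd (nat_lit 78) (nat_lit 0) (nat_lit 0) (XT.lf (nat_lit 0) (nat_lit 55915627724) (nat_lit 152) (nat_lit 733704456798) (nat_lit 0) (nat_lit 55434495625) (nat_lit 1) (nat_lit 5) (nat_lit 3) (nat_lit 4) (nat_lit 1) (nat_lit 4) (nat_lit 309) (nat_lit 243) (nat_lit 228)) (XT.nd (nat_lit 78) (nat_lit 0) (nat_lit 0) (XT.lf (nat_lit 0) (nat_lit 65896808593) (nat_lit 152) (nat_lit 840257312020) (nat_lit 0) (nat_lit 65406883469) (nat_lit 1) (nat_lit 5) (nat_lit 3) (nat_lit 4) (nat_lit 1) (nat_lit 4) (nat_lit 310) (nat_lit 243) (nat_lit 227)) (XT.lf (nat_lit 0) (nat_lit 77334320449) (nat_lit 152) (nat_lit 962878457279) (nat_lit 0) (nat_lit 76836749216) (nat_lit 1) (nat_lit 5) (nat_lit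 3) (nat_lit 4) (nat_lit 1) (nat_lit 4) (nat_lit 311) (nat_lit 243) (nat_lit 226))))))) (XT.nd (nat_lit 780) (nat_lit 0) (nat_lit 0) (XT.nd (nat_lit 390) (nat_lit 0) (nat_lit 0) (XT.nd (nat_lit 156) (nat_lit 0) (nat_lit 0) (XT.nd (nat_lit 78) (nat_lit 0) (nat_lit 0) (XT.lf (nat_lit 0) (nat_lit 90451940698) (nat_lit 152) (nat_lit 1103967001937) (nat_lit 0) (nat_lit 89947720675) (nat_lit 1) (nat_lit 5) (nat_lit 3) (nat_lit 4) (nat_lit 1) (nat_lit 4) (nat_lit 312) (nat_lit 243) (nat_lit 225)) (XT.lf (nat_lit 0) (nat_lit 105506318432) (nat_lit 152) (nat_lit 1266283374043) (nat_lit 0) (nat_lit 104996316852) (nat_lit 1) (nat_lit 5) (nat_lit 3) (nat_lit 4) (nat_lit 1) (nat_lit 4) (nat_lit 313) (nat_lit 243) (nat_lit 224))) (XT.nd (nat_lit 78) (nat_lit 0) (nat_lit 0) (XT.lf (nat_lit 0) (nat_lit 122791995824) (nat_lit 152) (nat_lit 1453003328702) (nat_lit 0) (nat_lit 122276966804) (nat_lit 1)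 (nat_lit 5) (nat_lit 3) (nat_lit 4) (nat_lit 1) (nat_lit 4) (nat_lit 314) (nat_lit 243) (nat_lit 223)) (XT.nd (nat_lit 78) (nat_lit 0) (nat_lit 0) (XT.lf (nat_lit 0) (nat_lit 142647170910) (nat_lit 152) (nat_lit 1667780082419) (nat_lit 0) (nat_lit 142127770203) (nat_lit 1) (nat_lit 5) (nat_lit 3) (nat_lit 4) (nat_lit 1) (nat_lit 4) (nat_lit 315) (nat_lit 243) (nat_lit 222)) (XT.lf (nat_lit 0) (nat_lit 165460314507) (nat_lit 152) (nat_lit 1914815789072) (nat_lit 0) (nat_lit 164937112332) (nat_lit 1) (nat_lit 5) (nat_lit 3) (nat_lit 4) (nat_lit 1) (nat_lit 4) (nat_lit 316) (nat_lit 243) (nat_lit 221))))) (XT.nd (nat_lit 156) (nat_lit 0) (nat_lit 0) (XT.nd (nat_lit 78) (nat_lit 0) (nat_lit 0) (XT.lf (nat_lit 0) (nat_lit 191677770728) (nat_lit 152) (nat_lit 2198943755963) (nat_lit 0) (nat_lit 191151262930) (nat_lit 1) (nat_lit 5) (nat_lit 3) (nat_lit 4) (nat_lit 1) (nat_lit 4) (nat_lit 317)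 (nat_lit 243) (nat_lit 220)) (XT.lf (nat_lit 0) (nat_lit 221812489805) (nat_lit 152) (nat_lit 2525723008533) (nat_lit 0) (nat_lit 221283107551) (nat_lit 1) (nat_lit 5) (nat_lit 3) (nat_lit 4) (nat_lit 1) (nat_lit 4) (nat_lit 318) (nat_lit 243) (nat_lit 219))) (XT.nd (nat_lit 78) (nat_lit 0) (nat_lit 0) (XT.lf (nat_lit 0) (nat_lit 256454064067) (nat_lit 152) (nat_lit 2901547053896) (nat_lit 0) (nat_lit 255922182286) (nat_lit 1) (nat_lit 5) (nat_lit 3) (nat_lit 4) (nat_lit 1) (nat_lit 4) (nat_lit 319) (nat_lit 243) (nat_lit 218)) (XT.nd (nat_lit 78) (nat_lit 0) (nat_lit 0) (XT.lf (nat_lit 0) (nat_lit 296280263445) (nat_lit 152) (nat_lit 3333768971202) (nat_lit 0) (nat_lit 295746208163) (nat_lit 1) (nat_lit 5) (nat_lit 3) (nat_lit 4) (nat_lit 1) (nat_lit 4) (nat_lit 320) (nat_lit 243) (nat_lit 217)) (XT.lf (nat_lit 0) (nat_lit 342070296187) (nat_lit 152) (nat_lit 3830845276223) (nat_lit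 0) (nat_lit 341534350904) (nat_lit 1) (nat_lit 5) (nat_lit 3) (nat_lit 4) (nat_lit 1) (nat_lit 4) (nat_lit 321) (nat_lit 243) (nat_lit 216)))))) (XT.nd (nat_lit 390) (nat_lit 0) (nat_lit 0) (XT.nd (nat_lit 156) (nat_lit 0) (nat_lit 0) (XT.nd (nat_lit 78) (nat_lit 0) (nat_lit 0) (XT.lf (nat_lit 0) (nat_lit 394720054239) (nat_lit 152) (nat_lit 4402501374928) (nat_lit 0) (nat_lit 394182465478) (nat_lit 1) (nat_lit 5) (nat_lit 3) (nat_lit 4) (nat_lit 1) (nat_lit 4) (nat_lit 322) (nat_lit 243) (nat_lit 215)) (XT.lf (nat_lit 0) (nat_lit 455259641563) (nat_lit 152) (nat_lit 5059921843160) (nat_lit 0) (nat_lit 454720623689) (nat_lit 1) (nat_lit 5) (nat_lit 3) (nat_lit 4) (nat_lit 1) (nat_lit 4) (nat_lit 323) (nat_lit 243) (nat_lit 214))) (XT.nd (nat_lit 78) (nat_lit 0) (nat_lit 0) (XT.lf (nat_lit 0) (nat_lit 524873528346) (nat_lit 152) (nat_lit 5815969255299) (nat_lit 0) (nat_lit 524333267765)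 (nat_lit 1) (nat_lit 5) (nat_lit 3) (nat_lit 4) (nat_lit 1) (nat_lit 4) (nat_lit 324) (nat_lit 243) (nat_lit 213)) (XT.nd (nat_lit 78) (nat_lit 0) (nat_lit 0) (XT.lf (nat_lit 0) (nat_lit 604923725415) (nat_lit 152) (nat_lit 6685435843320) (nat_lit 0) (nat_lit 604382384220) (nat_lit 1) (nat_lit 5) (nat_lit 3) (nat_lit 4) (nat_lit 1) (nat_lit 4) (nat_lit 325) (nat_lit 243) (nat_lit 212)) (XT.lf (nat_lit 0) (nat_lit 696976432279) (nat_lit 152) (nat_lit 7685332910033) (nat_lit 0) (nat_lit 696434151420) (nat_lit 1) (nat_lit 5) (nat_lit 3) (nat_lit 4) (nat_lit 1) (nat_lit 4) (nat_lit 326) (nat_lit 243) (nat_lit 211))))) (XT.nd (nat_lit 156) (nat_lit 0) (nat_lit 0) (XT.nd (nat_lit 78) (nat_lit 0) (nat_lit 0) (XT.lf (nat_lit 0) (nat_lit 802832680159) (nat_lit 152) (nat_lit 8835223658917) (nat_lit 0) (nat_lit 802289582200) (nat_lit 1) (nat_lit 5) (nat_lit 3) (nat_lit 4) (nat_lit 1) (nat_lit 4)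 (nat_lit 327) (nat_lit 243) (nat_lit 210)) (XT.lf (nat_lit 0) (nat_lit 924563569557) (nat_lit 152) (nat_lit 10157605952450) (nat_lit 0) (nat_lit 924019761076) (nat_lit 1) (nat_lit 5) (nat_lit 3) (nat_lit 4) (nat_lit 1) (nat_lit 4) (nat_lit 328) (nat_lit 243) (nat_lit 209))) (XT.nd (nat_lit 78) (nat_lit 0) (nat_lit 0) (XT.lf (nat_lit 0) (nat_lit 1064550791787) (nat_lit 152) (nat_lit 11678352487679) (nat_lit 0) (nat_lit 1064006365461) (nat_lit 1) (nat_lit 5) (nat_lit 3) (nat_lit 4) (nat_lit 1) (nat_lit 4) (nat_lit 329) (nat_lit 243) (nat_lit 208)) (XT.nd (nat_lit 78) (nat_lit 0) (nat_lit 0) (XT.lf (nat_lit 0) (nat_lit 1225533227284) (nat_lit 152) (nat_lit 13427217001164) (nat_lit 0) (nat_lit 1224988263702) (nat_lit 1) (nat_lit 5) (nat_lit 3) (nat_lit 4) (nat_lit 1) (nat_lit 4) (nat_lit 330) (nat_lit 243) (nat_lit 207)) (XT.lf (nat_lit 0) (nat_lit 1410660532395) (nat_lit 152) (nat_lit 15438416407299)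 (nat_lit 0) (nat_lit 1410115101634) (nat_lit 1) (nat_lit 5) (nat_lit 3) (nat_lit 4) (nat_lit 1) (nat_lit 4) (nat_lit 331) (nat_lit 243) (nat_lit 206))))))))
noncomputable def xc19 : XT := (XT.nd (nat_lit 37518) (nat_lit 0) (nat_lit 0) (XT.nd (nat_lit 780) (nat_lit 0) (nat_lit 0) (XT.nd (nat_lit 390) (nat_lit 0) (nat_lit 0) (XT.nd (nat_lit 156) (nat_lit 0) (nat_lit 0) (XT.nd (nat_lit 78) (nat_lit 0) (nat_lit 0) (XT.lf (nat_lit 0) (nat_lit 1623554763089) (nat_lit 152) (nat_lit 17751300259681) (nat_lit 0) (nat_lit 1623008926085) (nat_lit 1) (nat_lit 5) (nat_lit 3) (nat_lit 4) (nat_lit 1) (nat_lit 4) (nat_lit 332) (nat_lit 243) (nat_lit 205)) (XT.lf (nat_lit 0) (nat_lit 1868381241271) (nat_lit 152) (nat_lit 20411120633684) (nat_lit 0) (nat_lit 1867835051013) (nat_lit 1) (nat_lit 5) (nat_lit 3) (nat_lit 4) (nat_lit 1) (nat_lit 4) (nat_lit 333) (nat_lit 243) (nat_lit 204))) (XT.nd (nat_lit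 78) (nat_lit 0) (nat_lit 0) (XT.lf (nat_lit 0) (nat_lit 2149930050211) (nat_lit 152) (nat_lit 23469917493147) (nat_lit 0) (nat_lit 2149383552774) (nat_lit 1) (nat_lit 5) (nat_lit 3) (nat_lit 4) (nat_lit 1) (nat_lit 4) (nat_lit 334) (nat_lit 243) (nat_lit 203)) (XT.nd (nat_lit 78) (nat_lit 0) (nat_lit 0) (XT.lf (nat_lit 0) (nat_lit 2473709753561) (nat_lit 152) (nat_lit 26987536863581) (nat_lit 0) (nat_lit 2473162989013) (nat_lit 1) (nat_lit 5) (nat_lit 3) (nat_lit 4) (nat_lit 1) (nat_lit 4) (nat_lit 335) (nat_lit 243) (nat_lit 202)) (XT.lf (nat_lit 0) (nat_lit 2846055171604) (nat_lit 152) (nat_lit 31032801732668) (nat_lit 0) (nat_lit 2845508174785) (nat_lit 1) (nat_lit 5) (nat_lit 3) (nat_lit 4) (nat_lit 1) (nat_lit 4) (nat_lit 336) (nat_lit 243) (nat_lit 201))))) (XT.nd (nat_lit 156) (nat_lit 0) (nat_lit 0) (XT.nd (nat_lit 78) (nat_lit 0) (nat_lit 0) (XT.lf (nat_lit 0) (nat_lit 3274251323389)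 (nat_lit 152) (nat_lit 35684858586978) (nat_lit 0) (nat_lit 3273704124596) (nat_lit 1) (nat_lit 5) (nat_lit 3) (nat_lit 4) (nat_lit 1) (nat_lit 4) (nat_lit 337) (nat_lit 243) (nat_lit 200)) (XT.lf (nat_lit 0) (nat_lit 3766675959711) (nat_lit 152) (nat_lit 41034725930182) (nat_lit 0) (nat_lit 3766128585288) (nat_lit 1) (nat_lit 5) (nat_lit 3) (nat_lit 4) (nat_lit 1) (nat_lit 4) (nat_lit 338) (nat_lit 243) (nat_lit 199))) (XT.nd (nat_lit 78) (nat_lit 0) (nat_lit 0) (XT.lf (nat_lit 0) (nat_lit 4332963475630) (nat_lit 152) (nat_lit 47187075079863) (nat_lit 0) (nat_lit 4332415948485) (nat_lit 1) (nat_lit 5) (nat_lit 3) (nat_lit 4) (nat_lit 1) (nat_lit 4) (nat_lit 339) (nat_lit 243) (nat_lit 198)) (XT.nd (nat_lit 78) (nat_lit 0) (nat_lit 0) (XT.lf (nat_lit 0) (nat_lit 4984193409500) (nat_lit 152) (nat_lit 54262278084604) (nat_lit 0) (nat_lit 4983645749553) (nat_lit 1) (nat_lit 5) (nat_lit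 3) (nat_lit 4) (nat_lit 1) (nat_lit 4) (nat_lit 340) (nat_lit 243) (nat_lit 197)) (XT.lf (nat_lit 0) (nat_lit 5733107216548) (nat_lit 152) (nat_lit 62398762829279) (nat_lit 0) (nat_lit 5732559441122) (nat_lit 1) (nat_lit 5) (nat_lit 3) (nat_lit 4) (nat_lit 1) (nat_lit 4) (nat_lit 341) (nat_lit 243) (nat_lit 196)))))) (XT.nd (nat_lit 390) (nat_lit 0) (nat_lit 0) (XT.nd (nat_lit 156) (nat_lit 0) (nat_lit 0) (XT.nd (nat_lit 78) (nat_lit 0) (nat_lit 0) (XT.lf (nat_lit 0) (nat_lit 6594357558218) (nat_lit 152) (nat_lit 71755721406719) (nat_lit 0) (nat_lit 6593809682375) (nat_lit 1) (nat_lit 5) (nat_lit 3) (nat_lit 4) (nat_lit 1) (nat_lit 4) (nat_lit 342) (nat_lit 243) (nat_lit 195)) (XT.lf (nat_lit 0) (nat_lit 7584794984672) (nat_lit 152) (nat_lit 82516224745613) (nat_lit 0) (nat_lit 7584247021510) (nat_lit 1) (nat_lit 5) (nat_lit 3) (nat_lit 4) (nat_lit 1) (nat_lit 4) (nat_lit 343) (nat_lit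 243) (nat_lit 194))) (XT.nd (nat_lit 78) (nat_lit 0) (nat_lit 0) (XT.lf (nat_lit 0) (nat_lit 8723797619472) (nat_lit 152) (nat_lit 94890804433027) (nat_lit 0) (nat_lit 8723249580380) (nat_lit 1) (nat_lit 5) (nat_lit 3) (nat_lit 4) (nat_lit 1) (nat_lit 4) (nat_lit 344) (nat_lit 243) (nat_lit 193)) (XT.nd (nat_lit 78) (nat_lit 0) (nat_lit 0) (XT.lf (nat_lit 0) (nat_lit 10033650296776) (nat_lit 152) (nat_lit 109121571810669) (nat_lit 0) (nat_lit 10033102191658) (nat_lit 1) (nat_lit 5) (nat_lit 3) (nat_lit 4) (nat_lit 1) (nat_lit 4) (nat_lit 345) (nat_lit 243) (nat_lit 192)) (XT.lf (nat_lit 0) (nat_lit 11539980568966) (nat_lit 152) (nat_lit 125486954935930) (nat_lit 0) (nat_lit 11539432406434) (nat_lit 1) (nat_lit 5) (nat_lit 3) (nat_lit 4) (nat_lit 1) (nat_lit 4) (nat_lit 346) (nat_lit 243) (nat_lit 191))))) (XT.nd (nat_lit 312) (nat_lit 0) (nat_lit 0) (XT.nd (nat_lit 234) (nat_lit 0) (nat_lit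 0) (XT.lf (nat_lit 0) (nat_lit 13272260115282) (nat_lit 152) (nat_lit 144307146087348) (nat_lit 0) (nat_lit 13271711902825) (nat_lit 1) (nat_lit 5) (nat_lit 3) (nat_lit 4) (nat_lit 1) (nat_lit 4) (nat_lit 347) (nat_lit 243) (nat_lit 190)) (XT.lf (nat_lit 0) (nat_lit 20189900534276) (nat_lit 152) (nat_lit 219463229882236) (nat_lit 0) (nat_lit 20189352207829) (nat_lit 1) (nat_lit 5) (nat_lit 3) (nat_lit 4) (nat_lit 1) (nat_lit 4) (nat_lit 350) (nat_lit 243) (nat_lit 187))) (XT.nd (nat_lit 78) (nat_lit 0) (nat_lit 0) (XT.lf (nat_lit 0) (nat_lit 23219667313955) (nat_lit 152) (nat_lit 252379863866869) (nat_lit 0) (nat_lit 23219118958963) (nat_lit 1) (nat_lit 5) (nat_lit 3) (nat_lit 4) (nat_lit 1) (nat_lit 4) (nat_lit 351) (nat_lit 243) (nat_lit 186)) (XT.nd (nat_lit 78) (nat_lit 0) (nat_lit 0) (XT.lf (nat_lit 0) (nat_lit 26703898977987) (nat_lit 152) (nat_lit 290233993226307) (nat_lit 0)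 (nat_lit 26703350598174) (nat_lit 1) (nat_lit 5) (nat_lit 3) (nat_lit 4) (nat_lit 1) (nat_lit 4) (nat_lit 352) (nat_lit 243) (nat_lit 185)) (XT.lf (nat_lit 0) (nat_lit 30710765276321) (nat_lit 152) (nat_lit 333766242230625) (nat_lit 0) (nat_lit 30710216874924) (nat_lit 1) (nat_lit 5) (nat_lit 3) (nat_lit 4) (nat_lit 1) (nat_lit 4) (nat_lit 353) (nat_lit 243) (nat_lit 184))))))) (XT.nd (nat_lit 780) (nat_lit 0) (nat_lit 0) (XT.nd (nat_lit 390) (nat_lit 152) (nat_lit 0) (XT.nd (nat_lit 156) (nat_lit 0) (nat_lit 0) (XT.nd (nat_lit 78) (nat_lit 0) (nat_lit 0) (XT.lf (nat_lit 0) (nat_lit 27050902172) (nat_lit 76) (nat_lit 6765244446) (nat_lit 76) (nat_lit 6765244446) (nat_lit 3) (nat_lit 4) (nat_lit 4) (nat_lit 5) (nat_lit 4) (nat_lit 4) (nat_lit 292) (nat_lit 244) (nat_lit 244)) (XT.lf (nat_lit 0) (nat_lit 69980176650) (nat_lit 76) (nat_lit 11443629152) (nat_lit 76) (nat_lit 11349005089)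 (nat_lit 3) (nat_lit 4) (nat_lit 4) (nat_lit 5) (nat_lit 4) (nat_lit 4) (nat_lit 293) (nat_lit 244) (nat_lit 243))) (XT.nd (nat_lit 78) (nat_lit 0) (nat_lit 0) (XT.lf (nat_lit 0) (nat_lit 87580594583) (nat_lit 76) (nat_lit 9384308556) (nat_lit 76) (nat_lit 9207402700) (nat_lit 3) (nat_lit 4) (nat_lit 4) (nat_lit 5) (nat_lit 4) (nat_lit 4) (nat_lit 294) (nat_lit 244) (nat_lit 242)) (XT.nd (nat_lit 78) (nat_lit 0) (nat_lit 0) (XT.lf (nat_lit 0) (nat_lit 107247414146) (nat_lit 76) (nat_lit 7312236052) (nat_lit 76) (nat_lit 7063780810) (nat_lit 3) (nat_lit 4) (nat_lit 4) (nat_lit 5) (nat_lit 4) (nat_lit 4) (nat_lit 295) (nat_lit 244) (nat_lit 241)) (XT.lf (nat_lit 0) (nat_lit 129365420937) (nat_lit 76) (nat_lit 5186871089) (nat_lit 76) (nat_lit 4876198990) (nat_lit 3) (nat_lit 4) (nat_lit 4) (nat_lit 5) (nat_lit 4) (nat_lit 4) (nat_lit 296) (nat_lit 244) (nat_lit 240))))) (XT.nd (nat_lit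 156) (nat_lit 152) (nat_lit 0) (XT.nd (nat_lit 78) (nat_lit 0) (nat_lit 0) (XT.lf (nat_lit 0) (nat_lit 154367358569) (nat_lit 76) (nat_lit 2966630441) (nat_lit 76) (nat_lit 2601856728) (nat_lit 3) (nat_lit 4) (nat_lit 4) (nat_lit 5) (nat_lit 4) (nat_lit 4) (nat_lit 297) (nat_lit 244) (nat_lit 239)) (XT.lf (nat_lit 0) (nat_lit 182742395387) (nat_lit 76) (nat_lit 608074617) (nat_lit 76) (nat_lit 196256021) (nat_lit 3) (nat_lit 4) (nat_lit 4) (nat_lit 5) (nat_lit 4) (nat_lit 4) (nat_lit 298) (nat_lit 244) (nat_lit 238))) (XT.nd (nat_lit 78) (nat_lit 0) (nat_lit 0) (XT.lf (nat_lit 0) (nat_lit 2461062860) (nat_lit 152) (nat_lit 206136909668) (nat_lit 0) (nat_lit 2067387042) (nat_lit 1) (nat_lit 5) (nat_lit 3) (nat_lit 4) (nat_lit 1) (nat_lit 4) (nat_lit 299) (nat_lit 244) (nat_lit 237)) (XT.nd (nat_lit 78) (nat_lit 0) (nat_lit 0) (XT.lf (nat_lit 0) (nat_lit 5404643877) (nat_lit 152) (nat_lit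 231479577623) (nat_lit 0) (nat_lit 4980035286) (nat_lit 1) (nat_lit 5) (nat_lit 3) (nat_lit 4) (nat_lit 1) (nat_lit 4) (nat_lit 300) (nat_lit 244) (nat_lit 236)) (XT.lf (nat_lit 0) (nat_lit 8646070368) (nat_lit 152) (nat_lit 260923937856) (nat_lit 0) (nat_lit 8194563713) (nat_lit 1) (nat_lit 5) (nat_lit 3) (nat_lit 4) (nat_lit 1) (nat_lit 4) (nat_lit 301) (nat_lit 244) (nat_lit 235)))))) (XT.nd (nat_lit 390) (nat_lit 0) (nat_lit 0) (XT.nd (nat_lit 156) (nat_lit 0) (nat_lit 0) (XT.nd (nat_lit 78) (nat_lit 0) (nat_lit 0) (XT.lf (nat_lit 0) (nat_lit 12248761548) (nat_lit 152) (nat_lit 295046075677) (nat_lit 0) (nat_lit 11773865272) (nat_lit 1) (nat_lit 5) (nat_lit 3) (nat_lit 4) (nat_lit 1) (nat_lit 4) (nat_lit 302) (nat_lit 244) (nat_lit 234)) (XT.lf (nat_lit 0) (nat_lit 16283204853) (nat_lit 152) (nat_lit 334513598129) (nat_lit 0) (nat_lit 15787969776) (nat_lit 1) (nat_lit 5) (nat_lit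 3) (nat_lit 4) (nat_lit 1) (nat_lit 4) (nat_lit 303) (nat_lit 244) (nat_lit 233))) (XT.nd (nat_lit 78) (nat_lit 0) (nat_lit 0) (XT.lf (nat_lit 0) (nat_lit 20828335042) (nat_lit 152) (nat_lit 380098695870) (nat_lit 0) (nat_lit 20315414051) (nat_lit 1) (nat_lit 5) (nat_lit 3) (nat_lit 4) (nat_lit 1) (nat_lit 4) (nat_lit 304) (nat_lit 244) (nat_lit 232)) (XT.nd (nat_lit 78) (nat_lit 0) (nat_lit 0) (XT.lf (nat_lit 0) (nat_lit 25973078576) (nat_lit 152) (nat_lit 432693251247) (nat_lit 0) (nat_lit 25444778530) (nat_lit 1) (nat_lit 5) (nat_lit 3) (nat_lit 4) (nat_lit 1) (nat_lit 4) (nat_lit 305) (nat_lit 244) (nat_lit 231)) (XT.lf (nat_lit 0) (nat_lit 31818093481) (nat_lit 152) (nat_lit 493326288170) (nat_lit 0) (nat_lit 31276420343) (nat_lit 1) (nat_lit 5) (nat_lit 3) (nat_lit 4) (nat_lit 1) (nat_lit 4) (nat_lit 306) (nat_lit 244) (nat_lit 230))))) (XT.nd (nat_lit 234) (nat_lit 0) (nat_lit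 0) (XT.nd (nat_lit 78) (nat_lit 0) (nat_lit 0) (XT.lf (nat_lit 0) (nat_lit 38477738744) (nat_lit 152) (nat_lit 563184105186) (nat_lit 0) (nat_lit 37924436830) (nat_lit 1) (nat_lit 5) (nat_lit 3) (nat_lit 4) (nat_lit 1) (nat_lit 4) (nat_lit 307) (nat_lit 244) (nat_lit 229)) (XT.nd (nat_lit 78) (nat_lit 0) (nat_lit 0) (XT.lf (nat_lit 0) (nat_lit 46082311772) (nat_lit 152) (nat_lit 643633485672) (nat_lit 0) (nat_lit 45518897880) (nat_lit 1) (nat_lit 5) (nat_lit 3) (nat_lit 4) (nat_lit 1) (nat_lit 4) (nat_lit 308) (nat_lit 244) (nat_lit 228)) (XT.lf (nat_lit 0) (nat_lit 54780597690) (nat_lit 152) (nat_lit 736248439246) (nat_lit 0) (nat_lit 54208390773) (nat_lit 1) (nat_lit 5) (nat_lit 3) (nat_lit 4) (nat_lit 1) (nat_lit 4) (nat_lit 309) (nat_lit 244) (nat_lit 227)))) (XT.nd (nat_lit 78) (nat_lit 0) (nat_lit 0) (XT.lf (nat_lit 0) (nat_lit 64742780353) (nat_lit 152) (nat_lit 842840997610)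 (nat_lit 0) (nat_lit 64162927327) (nat_lit 1) (nat_lit 5) (nat_lit 3) (nat_lit 4) (nat_lit 1) (nat_lit 4) (nat_lit 310) (nat_lit 244) (nat_lit 226)) (XT.nd (nat_lit 78) (nat_lit 0) (nat_lit 0) (XT.lf (nat_lit 0) (nat_lit 76163772030) (nat_lit 152) (nat_lit 965496667338) (nat_lit 0) (nat_lit 75577270213) (nat_lit 1) (nat_lit 5) (nat_lit 3) (nat_lit 4) (nat_lit 1) (nat_lit 4) (nat_lit 311) (nat_lit 244) (nat_lit 225)) (XT.lf (nat_lit 0) (nat_lit 89267026906) (nat_lit 152) (nat_lit 1106615233275) (nat_lit 0) (nat_lit 88674743533) (nat_lit 1) (nat_lit 5) (nat_lit 3) (nat_lit 4) (nat_lit 1) (nat_lit 4) (nat_lit 312) (nat_lit 244) (nat_lit 224))))))))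
noncomputable def xc20 : XT := (XT.nd (nat_lit 1560) (nat_lit 0) (nat_lit 0) (XT.nd (nat_lit 780) (nat_lit 0) (nat_lit 0) (XT.nd (nat_lit 390) (nat_lit 0) (nat_lit 0) (XT.nd (nat_lit 156) (nat_lit 0) (nat_lit 0) (XT.nd (nat_lit 78) (nat_lit 0) (nat_lit 0) (XT.lf (nat_lit 0) (nat_lit 104308913011) (nat_lit 152) (nat_lit 1268957710840) (nat_lit 0) (nat_lit 103711602197) (nat_lit 1) (nat_lit 5) (nat_lit 3) (nat_lit 4) (nat_lit 1) (nat_lit 4) (nat_lit 313) (nat_lit 244) (nat_lit 223)) (XT.lf (nat_lit 0) (nat_lit 121583728117) (nat_lit 152) (nat_lit 1455700365899) (nat_lit 0) (nat_lit 120982045616) (nat_lit 1) (nat_lit 5) (nat_lit 3) (nat_lit 4) (nat_lit 1) (nat_lit 4) (nat_lit 314) (nat_lit 244) (nat_lit 222))) (XT.nd (nat_lit 78) (nat_lit 0) (nat_lit 0) (XT.lf (nat_lit 0) (nat_lit 141429457737) (nat_lit 152) (nat_lit 1670496859094) (nat_lit 0) (nat_lit 140823973769) (nat_lit 1) (nat_lit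 5) (nat_lit 3) (nat_lit 4) (nat_lit 1) (nat_lit 4) (nat_lit 315) (nat_lit 244) (nat_lit 221)) (XT.nd (nat_lit 78) (nat_lit 0) (nat_lit 0) (XT.lf (nat_lit 0) (nat_lit 164234387885) (nat_lit 152) (nat_lit 1917549730510) (nat_lit 0) (nat_lit 163625598293) (nat_lit 1) (nat_lit 5) (nat_lit 3) (nat_lit 4) (nat_lit 1) (nat_lit 4) (nat_lit 316) (nat_lit 244) (nat_lit 220)) (XT.lf (nat_lit 0) (nat_lit 190444701977) (nat_lit 152) (nat_lit 2201692623283) (nat_lit 0) (nat_lit 189833037930) (nat_lit 1) (nat_lit 5) (nat_lit 3) (nat_lit 4) (nat_lit 1) (nat_lit 4) (nat_lit 317) (nat_lit 244) (nat_lit 219))))) (XT.nd (nat_lit 156) (nat_lit 0) (nat_lit 0) (XT.nd (nat_lit 78) (nat_lit 0) (nat_lit 0) (XT.lf (nat_lit 0) (nat_lit 220573210507) (nat_lit 152) (nat_lit 2528484854879) (nat_lit 0) (nat_lit 219959046933) (nat_lit 1) (nat_lit 5) (nat_lit 3) (nat_lit 4) (nat_lit 1) (nat_lit 4) (nat_lit 318) (nat_lit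 244) (nat_lit 218)) (XT.lf (nat_lit 0) (nat_lit 255209384293) (nat_lit 152) (nat_lit 2904320186354) (nat_lit 0) (nat_lit 254593047217) (nat_lit 1) (nat_lit 5) (nat_lit 3) (nat_lit 4) (nat_lit 1) (nat_lit 4) (nat_lit 319) (nat_lit 244) (nat_lit 217))) (XT.nd (nat_lit 78) (nat_lit 0) (nat_lit 0) (XT.lf (nat_lit 0) (nat_lit 295030887604) (nat_lit 152) (nat_lit 3336551917668) (nat_lit 0) (nat_lit 294412660528) (nat_lit 1) (nat_lit 5) (nat_lit 3) (nat_lit 4) (nat_lit 1) (nat_lit 4) (nat_lit 320) (nat_lit 244) (nat_lit 216)) (XT.nd (nat_lit 78) (nat_lit 0) (nat_lit 0) (XT.lf (nat_lit 0) (nat_lit 340816836811) (nat_lit 152) (nat_lit 3833636756611) (nat_lit 0) (nat_lit 340196966256) (nat_lit 1) (nat_lit 5) (nat_lit 3) (nat_lit 4) (nat_lit 1) (nat_lit 4) (nat_lit 321) (nat_lit 244) (nat_lit 215)) (XT.lf (nat_lit 0) (nat_lit 393463043963) (nat_lit 152) (nat_lit 4405300276116) (nat_lit 0) (nat_lit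 392841744295) (nat_lit 1) (nat_lit 5) (nat_lit 3) (nat_lit 4) (nat_lit 1) (nat_lit 4) (nat_lit 322) (nat_lit 244) (nat_lit 214)))))) (XT.nd (nat_lit 390) (nat_lit 0) (nat_lit 0) (XT.nd (nat_lit 156) (nat_lit 0) (nat_lit 0) (XT.nd (nat_lit 78) (nat_lit 0) (nat_lit 0) (XT.lf (nat_lit 0) (nat_lit 453999543547) (nat_lit 152) (nat_lit 5062727197219) (nat_lit 0) (nat_lit 453377001173) (nat_lit 1) (nat_lit 5) (nat_lit 3) (nat_lit 4) (nat_lit 1) (nat_lit 4) (nat_lit 323) (nat_lit 244) (nat_lit 213)) (XT.lf (nat_lit 0) (nat_lit 523610745339) (nat_lit 152) (nat_lit 5818780220549) (nat_lit 0) (nat_lit 522987122350) (nat_lit 1) (nat_lit 5) (nat_lit 3) (nat_lit 4) (nat_lit 1) (nat_lit 4) (nat_lit 324) (nat_lit 244) (nat_lit 212))) (XT.nd (nat_lit 78) (nat_lit 0) (nat_lit 0) (XT.lf (nat_lit 0) (nat_lit 603658607633) (nat_lit 152) (nat_lit 6688251687867) (nat_lit 0) (nat_lit 603034044980) (nat_lit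 1) (nat_lit 5) (nat_lit 3) (nat_lit 4) (nat_lit 1) (nat_lit 4) (nat_lit 325) (nat_lit 244) (nat_lit 211)) (XT.nd (nat_lit 78) (nat_lit 0) (nat_lit 0) (XT.lf (nat_lit 0) (nat_lit 695709284258) (nat_lit 152) (nat_lit 7688152997447) (nat_lit 0) (nat_lit 695083904506) (nat_lit 1) (nat_lit 5) (nat_lit 3) (nat_lit 4) (nat_lit 1) (nat_lit 4) (nat_lit 326) (nat_lit 244) (nat_lit 210)) (XT.lf (nat_lit 0) (nat_lit 801563766713) (nat_lit 152) (nat_lit 8838047435781) (nat_lit 0) (nat_lit 800937676439) (nat_lit 1) (nat_lit 5) (nat_lit 3) (nat_lit 4) (nat_lit 1) (nat_lit 4) (nat_lit 327) (nat_lit 244) (nat_lit 209))))) (XT.nd (nat_lit 156) (nat_lit 0) (nat_lit 0) (XT.nd (nat_lit 78) (nat_lit 0) (nat_lit 0) (XT.lf (nat_lit 0) (nat_lit 923293120958) (nat_lit 152) (nat_lit 10160432937531) (nat_lit 0) (nat_lit 922666412840) (nat_lit 1) (nat_lit 5) (nat_lit 3) (nat_lit 4) (nat_lit 1) (nat_lit 4) (nat_lit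 328) (nat_lit 244) (nat_lit 208)) (XT.lf (nat_lit 0) (nat_lit 1063279008273) (nat_lit 152) (nat_lit 11681182262514) (nat_lit 0) (nat_lit 1062651762898) (nat_lit 1) (nat_lit 5) (nat_lit 3) (nat_lit 4) (nat_lit 1) (nat_lit 4) (nat_lit 329) (nat_lit 244) (nat_lit 207))) (XT.nd (nat_lit 78) (nat_lit 0) (nat_lit 0) (XT.lf (nat_lit 0) (nat_lit 1224260282975) (nat_lit 152) (nat_lit 13430049201872) (nat_lit 0) (nat_lit 1223632570420) (nat_lit 1) (nat_lit 5) (nat_lit 3) (nat_lit 4) (nat_lit 1) (nat_lit 4) (nat_lit 330) (nat_lit 244) (nat_lit 206)) (XT.nd (nat_lit 78) (nat_lit 0) (nat_lit 0) (XT.lf (nat_lit 0) (nat_lit 1409386578698) (nat_lit 152) (nat_lit 15441250717461) (nat_lit 0) (nat_lit 1408758459901) (nat_lit 1) (nat_lit 5) (nat_lit 3) (nat_lit 4) (nat_lit 1) (nat_lit 4) (nat_lit 331) (nat_lit 244) (nat_lit 205)) (XT.lf (nat_lit 0) (nat_lit 1622279931664) (nat_lit 152) (nat_lit 17754136404152)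 (nat_lit 0) (nat_lit 1621651459612) (nat_lit 1) (nat_lit 5) (nat_lit 3) (nat_lit 4) (nat_lit 1) (nat_lit 4) (nat_lit 332) (nat_lit 244) (nat_lit 204))))))) (XT.nd (nat_lit 780) (nat_lit 0) (nat_lit 0) (XT.nd (nat_lit 390) (nat_lit 0) (nat_lit 0) (XT.nd (nat_lit 156) (nat_lit 0) (nat_lit 0) (XT.nd (nat_lit 78) (nat_lit 0) (nat_lit 0) (XT.lf (nat_lit 0) (nat_lit 1867105646605) (nat_lit 152) (nat_lit 20413958373206) (nat_lit 0) (nat_lit 1866476867375) (nat_lit 1) (nat_lit 5) (nat_lit 3) (nat_lit 4) (nat_lit 1) (nat_lit 4) (nat_lit 333) (nat_lit 244) (nat_lit 203)) (XT.lf (nat_lit 0) (nat_lit 2148653791856) (nat_lit 152) (nat_lit 23472756619670) (nat_lit 0) (nat_lit 2148024745514) (nat_lit 1) (nat_lit 5) (nat_lit 3) (nat_lit 4) (nat_lit 1) (nat_lit 4) (nat_lit 334) (nat_lit 244) (nat_lit 202))) (XT.nd (nat_lit 78) (nat_lit 0) (nat_lit 0) (XT.lf (nat_lit 0) (nat_lit 2472432918085) (nat_lit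 152) (nat_lit 26990377196191) (nat_lit 0) (nat_lit 2471803639473) (nat_lit 1) (nat_lit 5) (nat_lit 3) (nat_lit 4) (nat_lit 1) (nat_lit 4) (nat_lit 335) (nat_lit 244) (nat_lit 201)) (XT.nd (nat_lit 78) (nat_lit 0) (nat_lit 0) (XT.lf (nat_lit 0) (nat_lit 2844777834284) (nat_lit 152) (nat_lit 31035643114050) (nat_lit 0) (nat_lit 2844148353697) (nat_lit 1) (nat_lit 5) (nat_lit 3) (nat_lit 4) (nat_lit 1) (nat_lit 4) (nat_lit 336) (nat_lit 244) (nat_lit 200)) (XT.lf (nat_lit 0) (nat_lit 3272973549683) (nat_lit 152) (nat_lit 35687700880335) (nat_lit 0) (nat_lit 3272343893466) (nat_lit 1) (nat_lit 5) (nat_lit 3) (nat_lit 4) (nat_lit 1) (nat_lit 4) (nat_lit 337) (nat_lit 244) (nat_lit 199))))) (XT.nd (nat_lit 156) (nat_lit 0) (nat_lit 0) (XT.nd (nat_lit 78) (nat_lit 0) (nat_lit 0) (XT.lf (nat_lit 0) (nat_lit 3765397806539) (nat_lit 152) (nat_lit 41037569016561) (nat_lit 0) (nat_lit 3764767997601)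 (nat_lit 1) (nat_lit 5) (nat_lit 3) (nat_lit 4) (nat_lit 1) (nat_lit 4) (nat_lit 338) (nat_lit 244) (nat_lit 198)) (XT.lf (nat_lit 0) (nat_lit 4331684992487) (nat_lit 152) (nat_lit 47189918855828) (nat_lit 0) (nat_lit 4331055050747) (nat_lit 1) (nat_lit 5) (nat_lit 3) (nat_lit 4) (nat_lit 1) (nat_lit 4) (nat_lit 339) (nat_lit 244) (nat_lit 197))) (XT.nd (nat_lit 78) (nat_lit 0) (nat_lit 0) (XT.lf (nat_lit 0) (nat_lit 4982914639426) (nat_lit 152) (nat_lit 54265122460207) (nat_lit 0) (nat_lit 4982284582206) (nat_lit 1) (nat_lit 5) (nat_lit 3) (nat_lit 4) (nat_lit 1) (nat_lit 4) (nat_lit 340) (nat_lit 244) (nat_lit 196)) (XT.nd (nat_lit 78) (nat_lit 0) (nat_lit 0) (XT.lf (nat_lit 0) (nat_lit 5731828196969) (nat_lit 152) (nat_lit 62401607726307) (nat_lit 0) (nat_lit 5731198039333) (nat_lit 1) (nat_lit 5) (nat_lit 3) (nat_lit 4) (nat_lit 1) (nat_lit 4) (nat_lit 341) (nat_lit 244) (nat_lit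 195)) (XT.lf (nat_lit 0) (nat_lit 6593078321678) (nat_lit 152) (nat_lit 71758566757160) (nat_lit 0) (nat_lit 6592448076722) (nat_lit 1) (nat_lit 5) (nat_lit 3) (nat_lit 4) (nat_lit 1) (nat_lit 4) (nat_lit 342) (nat_lit 244) (nat_lit 194)))))) (XT.nd (nat_lit 546) (nat_lit 0) (nat_lit 0) (XT.nd (nat_lit 156) (nat_lit 0) (nat_lit 0) (XT.nd (nat_lit 78) (nat_lit 0) (nat_lit 0) (XT.lf (nat_lit 0) (nat_lit 7583515559471) (nat_lit 152) (nat_lit 82519070490326) (nat_lit 0) (nat_lit 7582885238585) (nat_lit 1) (nat_lit 5) (nat_lit 3) (nat_lit 4) (nat_lit 1) (nat_lit 4) (nat_lit 343) (nat_lit 244) (nat_lit 193)) (XT.lf (nat_lit 0) (nat_lit 8722518030216) (nat_lit 152) (nat_lit 94893650520585) (nat_lit 0) (nat_lit 8721887643305) (nat_lit 1) (nat_lit 5) (nat_lit 3) (nat_lit 4) (nat_lit 1) (nat_lit 4) (nat_lit 344) (nat_lit 244) (nat_lit 192))) (XT.nd (nat_lit 78) (nat_lit 0) (nat_lit 0) (XT.lf (nat_lit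 0) (nat_lit 10032370564865) (nat_lit 152) (nat_lit 109124418196354) (nat_lit 0) (nat_lit 10031740120540) (nat_lit 1) (nat_lit 5) (nat_lit 3) (nat_lit 4) (nat_lit 1) (nat_lit 4) (nat_lit 345) (nat_lit 244) (nat_lit 191)) (XT.nd (nat_lit 78) (nat_lit 0) (nat_lit 0) (XT.lf (nat_lit 0) (nat_lit 11538700713007) (nat_lit 152) (nat_lit 125489801580856) (nat_lit 0) (nat_lit 11538070218757) (nat_lit 1) (nat_lit 5) (nat_lit 3) (nat_lit 4) (nat_lit 1) (nat_lit 4) (nat_lit 346) (nat_lit 244) (nat_lit 190)) (XT.lf (nat_lit 0) (nat_lit 13270980151455) (nat_lit 152) (nat_lit 144309992957699) (nat_lit 0) (nat_lit 13270349613792) (nat_lit 1) (nat_lit 5) (nat_lit 3) (nat_lit 4) (nat_lit 1) (nat_lit 4) (nat_lit 347) (nat_lit 244) (nat_lit 189))))) (XT.nd (nat_lit 156) (nat_lit 0) (nat_lit 0) (XT.nd (nat_lit 78) (nat_lit 0) (nat_lit 0) (XT.lf (nat_lit 0) (nat_lit 20188620324162) (nat_lit 152) (nat_lit 219466077267287)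 (nat_lit 0) (nat_lit 20187989687377) (nat_lit 1) (nat_lit 5) (nat_lit 3) (nat_lit 4) (nat_lit 1) (nat_lit 4) (nat_lit 350) (nat_lit 244) (nat_lit 186)) (XT.lf (nat_lit 0) (nat_lit 23218387042167) (nat_lit 152) (nat_lit 252382711380808) (nat_lit 0) (nat_lit 23217756380561) (nat_lit 1) (nat_lit 5) (nat_lit 3) (nat_lit 4) (nat_lit 1) (nat_lit 4) (nat_lit 351) (nat_lit 244) (nat_lit 185))) (XT.nd (nat_lit 35802) (nat_lit 0) (nat_lit 152) (XT.lf (nat_lit 0) (nat_lit 26702618652570) (nat_lit 152) (nat_lit 290236840852323) (nat_lit 0) (nat_lit 26701987969379) (nat_lit 1) (nat_lit 5) (nat_lit 3) (nat_lit 4) (nat_lit 1) (nat_lit 4) (nat_lit 352) (nat_lit 244) (nat_lit 184)) (XT.nd (nat_lit 78) (nat_lit 0) (nat_lit 0) (XT.lf (nat_lit 0) (nat_lit 13350976936) (nat_lit 76) (nat_lit 8925405806) (nat_lit 76) (nat_lit 8925405806) (nat_lit 3) (nat_lit 4) (nat_lit 4) (nat_lit 5) (nat_lit 4) (nat_lit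 4) (nat_lit 290) (nat_lit 245) (nat_lit 245)) (XT.lf (nat_lit 0) (nat_lit 39634813858) (nat_lit 76) (nat_lit 15794535318) (nat_lit 76) (nat_lit 15685717646) (nat_lit 3) (nat_lit 4) (nat_lit 4) (nat_lit 5) (nat_lit 4) (nat_lit 4) (nat_lit 291) (nat_lit 245) (nat_lit 244))))))))
noncomputable def xc21 : XT := (XT.nd (nat_lit 1560) (nat_lit 0) (nat_lit 0) (XT.nd (nat_lit 780) (nat_lit 0) (nat_lit 0) (XT.nd (nat_lit 390) (nat_lit 152) (nat_lit 0) (XT.nd (nat_lit 156) (nat_lit 0) (nat_lit 0) (XT.nd (nat_lit 78) (nat_lit 0) (nat_lit 0) (XT.lf (nat_lit 0) (nat_lit 53748936087) (nat_lit 76) (nat_lit 13821470902) (nat_lit 76) (nat_lit 13618029167) (nat_lit 3) (nat_lit 4) (nat_lit 4) (nat_lit 5) (nat_lit 4) (nat_lit 4) (nat_lit 292) (nat_lit 245) (nat_lit 243)) (XT.lf (nat_lit 0) (nat_lit 69320466431) (nat_lit 76) (nat_lit 11893014931) (nat_lit 76) (nat_lit 11607291403) (nat_lit 3) (nat_lit 4)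 (nat_lit 4) (nat_lit 5) (nat_lit 4) (nat_lit 4) (nat_lit 293) (nat_lit 245) (nat_lit 242))) (XT.nd (nat_lit 78) (nat_lit 0) (nat_lit 0) (XT.lf (nat_lit 0) (nat_lit 86654065266) (nat_lit 76) (nat_lit 9971436745) (nat_lit 76) (nat_lit 9614163831) (nat_lit 3) (nat_lit 4) (nat_lit 4) (nat_lit 5) (nat_lit 4) (nat_lit 4) (nat_lit 294) (nat_lit 245) (nat_lit 241)) (XT.nd (nat_lit 78) (nat_lit 0) (nat_lit 0) (XT.lf (nat_lit 0) (nat_lit 106088868221) (nat_lit 76) (nat_lit 8019140249) (nat_lit 76) (nat_lit 7599650478) (nat_lit 3) (nat_lit 4) (nat_lit 4) (nat_lit 5) (nat_lit 4) (nat_lit 4) (nat_lit 295) (nat_lit 245) (nat_lit 240)) (XT.lf (nat_lit 0) (nat_lit 128005121441) (nat_lit 76) (nat_lit 5997928337) (nat_lit 76) (nat_lit 5524336951) (nat_lit 3) (nat_lit 4) (nat_lit 4) (nat_lit 5) (nat_lit 4) (nat_lit 4) (nat_lit 296) (nat_lit 245) (nat_lit 239))))) (XT.nd (nat_lit 156) (nat_lit 152) (nat_lit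 0) (XT.nd (nat_lit 78) (nat_lit 0) (nat_lit 0) (XT.lf (nat_lit 0) (nat_lit 152831621186) (nat_lit 76) (nat_lit 3868255559) (nat_lit 76) (nat_lit 3347619291) (nat_lit 3) (nat_lit 4) (nat_lit 4) (nat_lit 5) (nat_lit 4) (nat_lit 4) (nat_lit 297) (nat_lit 245) (nat_lit 238)) (XT.lf (nat_lit 0) (nat_lit 181054103318) (nat_lit 76) (nat_lit 1588454404) (nat_lit 76) (nat_lit 1026909543) (nat_lit 3) (nat_lit 4) (nat_lit 4) (nat_lit 5) (nat_lit 4) (nat_lit 4) (nat_lit 298) (nat_lit 245) (nat_lit 237))) (XT.nd (nat_lit 78) (nat_lit 0) (nat_lit 0) (XT.lf (nat_lit 0) (nat_lit 1500666401) (nat_lit 152) (nat_lit 208341729854) (nat_lit 0) (nat_lit 981433747) (nat_lit 1) (nat_lit 5) (nat_lit 3) (nat_lit 4) (nat_lit 1) (nat_lit 4) (nat_lit 299) (nat_lit 245) (nat_lit 236)) (XT.nd (nat_lit 78) (nat_lit 0) (nat_lit 0) (XT.lf (nat_lit 0) (nat_lit 4377414079) (nat_lit 152) (nat_lit 233824068546) (nat_lit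 0) (nat_lit 3831283362) (nat_lit 1) (nat_lit 5) (nat_lit 3) (nat_lit 4) (nat_lit 1) (nat_lit 4) (nat_lit 300) (nat_lit 245) (nat_lit 235)) (XT.lf (nat_lit 0) (nat_lit 7560724624) (nat_lit 152) (nat_lit 263389881595) (nat_lit 0) (nat_lit 6991204285) (nat_lit 1) (nat_lit 5) (nat_lit 3) (nat_lit 4) (nat_lit 1) (nat_lit 4) (nat_lit 301) (nat_lit 245) (nat_lit 234)))))) (XT.nd (nat_lit 390) (nat_lit 0) (nat_lit 0) (XT.nd (nat_lit 156) (nat_lit 0) (nat_lit 0) (XT.nd (nat_lit 78) (nat_lit 0) (nat_lit 0) (XT.lf (nat_lit 0) (nat_lit 11112880198) (nat_lit 152) (nat_lit 297617630559) (nat_lit 0) (nat_lit 10523021059) (nat_lit 1) (nat_lit 5) (nat_lit 3) (nat_lit 4) (nat_lit 1) (nat_lit 4) (nat_lit 302) (nat_lit 245) (nat_lit 233)) (XT.lf (nat_lit 0) (nat_lit 15103379498) (nat_lit 152) (nat_lit 337176988789) (nat_lit 0) (nat_lit 14495834444) (nat_lit 1) (nat_lit 5) (nat_lit 3) (nat_lit 4) (nat_lit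 1) (nat_lit 4) (nat_lit 303) (nat_lit 245) (nat_lit 232))) (XT.nd (nat_lit 78) (nat_lit 0) (nat_lit 0) (XT.lf (nat_lit 0) (nat_lit 19610297509) (nat_lit 152) (nat_lit 382841943727) (nat_lit 0) (nat_lit 18987373399) (nat_lit 1) (nat_lit 5) (nat_lit 3) (nat_lit 4) (nat_lit 1) (nat_lit 4) (nat_lit 304) (nat_lit 245) (nat_lit 231)) (XT.nd (nat_lit 78) (nat_lit 0) (nat_lit 0) (XT.lf (nat_lit 0) (nat_lit 24721813062) (nat_lit 152) (nat_lit 435505940146) (nat_lit 0) (nat_lit 24085515861) (nat_lit 1) (nat_lit 5) (nat_lit 3) (nat_lit 4) (nat_lit 1) (nat_lit 4) (nat_lit 305) (nat_lit 245) (nat_lit 230)) (XT.lf (nat_lit 0) (nat_lit 30537934070) (nat_lit 152) (nat_lit 496199360582) (nat_lit 0) (nat_lit 29890008094) (nat_lit 1) (nat_lit 5) (nat_lit 3) (nat_lit 4) (nat_lit 1) (nat_lit 4) (nat_lit 306) (nat_lit 245) (nat_lit 229))))) (XT.nd (nat_lit 156) (nat_lit 0) (nat_lit 0) (XT.nd (nat_lit 78)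 (nat_lit 0) (nat_lit 0) (XT.lf (nat_lit 0) (nat_lit 37172454206) (nat_lit 152) (nat_lit 566109685002) (nat_lit 0) (nat_lit 36514416250) (nat_lit 1) (nat_lit 5) (nat_lit 3) (nat_lit 4) (nat_lit 1) (nat_lit 4) (nat_lit 307) (nat_lit 245) (nat_lit 228)) (XT.lf (nat_lit 0) (nat_lit 44755179297) (nat_lit 152) (nat_lit 646604724100) (nat_lit 0) (nat_lit 44088348317) (nat_lit 1) (nat_lit 5) (nat_lit 3) (nat_lit 4) (nat_lit 1) (nat_lit 4) (nat_lit 308) (nat_lit 245) (nat_lit 227))) (XT.nd (nat_lit 78) (nat_lit 0) (nat_lit 0) (XT.lf (nat_lit 0) (nat_lit 53434467009) (nat_lit 152) (nat_lit 739259380815) (nat_lit 0) (nat_lit 52759989920) (nat_lit 1) (nat_lit 5) (nat_lit 3) (nat_lit 4) (nat_lit 1) (nat_lit 4) (nat_lit 309) (nat_lit 245) (nat_lit 226)) (XT.nd (nat_lit 78) (nat_lit 0) (nat_lit 0) (XT.lf (nat_lit 0) (nat_lit 63380129492) (nat_lit 152) (nat_lit 845886463648) (nat_lit 0) (nat_lit 62699003613)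 (nat_lit 1) (nat_lit 5) (nat_lit 3) (nat_lit 4) (nat_lit 1) (nat_lit 4) (nat_lit 310) (nat_lit 245) (nat_lit 225)) (XT.lf (nat_lit 0) (nat_lit 74786755796) (nat_lit 152) (nat_lit 968572154656) (nat_lit 0) (nat_lit 74099848360) (nat_lit 1) (nat_lit 5) (nat_lit 3) (nat_lit 4) (nat_lit 1) (nat_lit 4) (nat_lit 311) (nat_lit 245) (nat_lit 224))))))) (XT.nd (nat_lit 780) (nat_lit 0) (nat_lit 0) (XT.nd (nat_lit 390) (nat_lit 0) (nat_lit 0) (XT.nd (nat_lit 156) (nat_lit 0) (nat_lit 0) (XT.nd (nat_lit 78) (nat_lit 0) (nat_lit 0) (XT.lf (nat_lit 0) (nat_lit 87877519043) (nat_lit 152) (nat_lit 1109716826052) (nat_lit 0) (nat_lit 87185584167) (nat_lit 1) (nat_lit 5) (nat_lit 3) (nat_lit 4) (nat_lit 1) (nat_lit 4) (nat_lit 312) (nat_lit 245) (nat_lit 223)) (XT.lf (nat_lit 0) (nat_lit 102908542862) (nat_lit 152) (nat_lit 1272082004016) (nat_lit 0) (nat_lit 102212236298) (nat_lit 1) (nat_lit 5) (nat_lit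 3) (nat_lit 4) (nat_lit 1) (nat_lit 4) (nat_lit 313) (nat_lit 245) (nat_lit 222))) (XT.nd (nat_lit 78) (nat_lit 0) (nat_lit 0) (XT.lf (nat_lit 0) (nat_lit 120173912502) (nat_lit 152) (nat_lit 1458844398553) (nat_lit 0) (nat_lit 119473804471) (nat_lit 1) (nat_lit 5) (nat_lit 3) (nat_lit 4) (nat_lit 1) (nat_lit 4) (nat_lit 314) (nat_lit 245) (nat_lit 221)) (XT.nd (nat_lit 78) (nat_lit 0) (nat_lit 0) (XT.lf (nat_lit 0) (nat_lit 140011428673) (nat_lit 152) (nat_lit 1673658056512) (nat_lit 0) (nat_lit 139308015019) (nat_lit 1) (nat_lit 5) (nat_lit 3) (nat_lit 4) (nat_lit 1) (nat_lit 4) (nat_lit 315) (nat_lit 245) (nat_lit 220)) (XT.lf (nat_lit 0) (nat_lit 162809216692) (nat_lit 152) (nat_lit 1920725853809) (nat_lit 0) (nat_lit 162102928582) (nat_lit 1) (nat_lit 5) (nat_lit 3) (nat_lit 4) (nat_lit 1) (nat_lit 4) (nat_lit 316) (nat_lit 245) (nat_lit 219))))) (XT.nd (nat_lit 156) (nat_lit 0)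 (nat_lit 0) (XT.nd (nat_lit 78) (nat_lit 0) (nat_lit 0) (XT.lf (nat_lit 0) (nat_lit 189013320237) (nat_lit 152) (nat_lit 2204881725608) (nat_lit 0) (nat_lit 188304532601) (nat_lit 1) (nat_lit 5) (nat_lit 3) (nat_lit 4) (nat_lit 1) (nat_lit 4) (nat_lit 317) (nat_lit 245) (nat_lit 218)) (XT.lf (nat_lit 0) (nat_lit 219136428291) (nat_lit 152) (nat_lit 2531685243316) (nat_lit 0) (nat_lit 218425467153) (nat_lit 1) (nat_lit 5) (nat_lit 3) (nat_lit 4) (nat_lit 1) (nat_lit 4) (nat_lit 318) (nat_lit 245) (nat_lit 217))) (XT.nd (nat_lit 78) (nat_lit 0) (nat_lit 0) (XT.lf (nat_lit 0) (nat_lit 253767906010) (nat_lit 152) (nat_lit 2907530388799) (nat_lit 0) (nat_lit 253055054872) (nat_lit 1) (nat_lit 5) (nat_lit 3) (nat_lit 4) (nat_lit 1) (nat_lit 4) (nat_lit 319) (nat_lit 245) (nat_lit 216)) (XT.nd (nat_lit 78) (nat_lit 0) (nat_lit 0) (XT.lf (nat_lit 0) (nat_lit 293585325786) (nat_lit 152) (nat_lit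 3339770654035) (nat_lit 0) (nat_lit 292870831169) (nat_lit 1) (nat_lit 5) (nat_lit 3) (nat_lit 4) (nat_lit 1) (nat_lit 4) (nat_lit 320) (nat_lit 245) (nat_lit 215)) (XT.lf (nat_lit 0) (nat_lit 339367724093) (nat_lit 152) (nat_lit 3836862913778) (nat_lit 0) (nat_lit 338651800363) (nat_lit 1) (nat_lit 5) (nat_lit 3) (nat_lit 4) (nat_lit 1) (nat_lit 4) (nat_lit 321) (nat_lit 245) (nat_lit 214)))))) (XT.nd (nat_lit 390) (nat_lit 0) (nat_lit 0) (XT.nd (nat_lit 156) (nat_lit 0) (nat_lit 0) (XT.nd (nat_lit 78) (nat_lit 0) (nat_lit 0) (XT.lf (nat_lit 0) (nat_lit 392010843505) (nat_lit 152) (nat_lit 4408532886154) (nat_lit 0) (nat_lit 391293677068) (nat_lit 1) (nat_lit 5) (nat_lit 3) (nat_lit 4) (nat_lit 1) (nat_lit 4) (nat_lit 322) (nat_lit 245) (nat_lit 213)) (XT.lf (nat_lit 0) (nat_lit 452544658098) (nat_lit 152) (nat_lit 5065965418449) (nat_lit 0) (nat_lit 451826411047) (nat_lit 1) (nat_lit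 5) (nat_lit 3) (nat_lit 4) (nat_lit 1) (nat_lit 4) (nat_lit 323) (nat_lit 245) (nat_lit 212))) (XT.nd (nat_lit 78) (nat_lit 0) (nat_lit 0) (XT.lf (nat_lit 0) (nat_lit 522153525115) (nat_lit 152) (nat_lit 5822023321076) (nat_lit 0) (nat_lit 521434338400) (nat_lit 1) (nat_lit 5) (nat_lit 3) (nat_lit 4) (nat_lit 1) (nat_lit 4) (nat_lit 324) (nat_lit 245) (nat_lit 211)) (XT.nd (nat_lit 78) (nat_lit 0) (nat_lit 0) (XT.lf (nat_lit 0) (nat_lit 602199357171) (nat_lit 152) (nat_lit 6691499031261) (nat_lit 0) (nat_lit 601479353356) (nat_lit 1) (nat_lit 5) (nat_lit 3) (nat_lit 4) (nat_lit 1) (nat_lit 4) (nat_lit 325) (nat_lit 245) (nat_lit 210)) (XT.lf (nat_lit 0) (nat_lit 694248268371) (nat_lit 152) (nat_lit 7691404030290) (nat_lit 0) (nat_lit 693527554034) (nat_lit 1) (nat_lit 5) (nat_lit 3) (nat_lit 4) (nat_lit 1) (nat_lit 4) (nat_lit 326) (nat_lit 245) (nat_lit 209))))) (XT.nd (nat_lit 234)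 (nat_lit 0) (nat_lit 0) (XT.nd (nat_lit 78) (nat_lit 0) (nat_lit 0) (XT.lf (nat_lit 0) (nat_lit 800101215673) (nat_lit 152) (nat_lit 8841301676841) (nat_lit 0) (nat_lit 799379883492) (nat_lit 1) (nat_lit 5) (nat_lit 3) (nat_lit 4) (nat_lit 1) (nat_lit 4) (nat_lit 327) (nat_lit 245) (nat_lit 208)) (XT.nd (nat_lit 78) (nat_lit 0) (nat_lit 0) (XT.lf (nat_lit 0) (nat_lit 921829235003) (nat_lit 152) (nat_lit 10163689968345) (nat_lit 0) (nat_lit 921107365566) (nat_lit 1) (nat_lit 5) (nat_lit 3) (nat_lit 4) (nat_lit 1) (nat_lit 4) (nat_lit 328) (nat_lit 245) (nat_lit 207)) (XT.lf (nat_lit 0) (nat_lit 1061813961523) (nat_lit 152) (nat_lit 11684441719201) (nat_lit 0) (nat_lit 1061091624906) (nat_lit 1) (nat_lit 5) (nat_lit 3) (nat_lit 4) (nat_lit 1) (nat_lit 4) (nat_lit 329) (nat_lit 245) (nat_lit 206)))) (XT.nd (nat_lit 78) (nat_lit 0) (nat_lit 0) (XT.lf (nat_lit 0) (nat_lit 1222794226836) (nat_lit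 152) (nat_lit 13433310768014) (nat_lit 0) (nat_lit 1222071483976) (nat_lit 1) (nat_lit 5) (nat_lit 3) (nat_lit 4) (nat_lit 1) (nat_lit 4) (nat_lit 330) (nat_lit 245) (nat_lit 205)) (XT.nd (nat_lit 78) (nat_lit 0) (nat_lit 0) (XT.lf (nat_lit 0) (nat_lit 1407919644831) (nat_lit 152) (nat_lit 15444514117911) (nat_lit 0) (nat_lit 1407196548717) (nat_lit 1) (nat_lit 5) (nat_lit 3) (nat_lit 4) (nat_lit 1) (nat_lit 4) (nat_lit 331) (nat_lit 245) (nat_lit 204)) (XT.lf (nat_lit 0) (nat_lit 1620812234555) (nat_lit 152) (nat_lit 17757401399653) (nat_lit 0) (nat_lit 1620088831263) (nat_lit 1) (nat_lit 5) (nat_lit 3) (nat_lit 4) (nat_lit 1) (nat_lit 4) (nat_lit 332) (nat_lit 245) (nat_lit 203))))))))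
noncomputable def xc22 : XT := (XT.nd (nat_lit 37440) (nat_lit 0) (nat_lit 0) (XT.nd (nat_lit 780) (nat_lit 0) (nat_lit 0) (XT.nd (nat_lit 390) (nat_lit 0) (nat_lit 0) (XT.nd (nat_lit 156) (nat_lit 0) (nat_lit 0) (XT.nd (nat_lit 78) (nat_lit 0) (nat_lit 0) (XT.lf (nat_lit 0) (nat_lit 1865637285807) (nat_lit 152) (nat_lit 20417224755708) (nat_lit 0) (nat_lit 1864913615403) (nat_lit 1) (nat_lit 5) (nat_lit 3) (nat_lit 4) (nat_lit 1) (nat_lit 4) (nat_lit 333) (nat_lit 245) (nat_lit 202)) (XT.lf (nat_lit 0) (nat_lit 2147184853938) (nat_lit 152) (nat_lit 23476024208259) (nat_lit 0) (nat_lit 2146460951263) (nat_lit 1) (nat_lit 5) (nat_lit 3) (nat_lit 4) (nat_lit 1) (nat_lit 4) (nat_lit 334) (nat_lit 245) (nat_lit 201))) (XT.nd (nat_lit 78) (nat_lit 0) (nat_lit 0) (XT.lf (nat_lit 0) (nat_lit 2470963478323) (nat_lit 152) (nat_lit 26993645833552) (nat_lit 0) (nat_lit 2470239373674) (nat_lit 1)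 (nat_lit 5) (nat_lit 3) (nat_lit 4) (nat_lit 1) (nat_lit 4) (nat_lit 335) (nat_lit 245) (nat_lit 200)) (XT.nd (nat_lit 78) (nat_lit 0) (nat_lit 0) (XT.lf (nat_lit 0) (nat_lit 2843307958136) (nat_lit 152) (nat_lit 31038912663387) (nat_lit 0) (nat_lit 2842583677857) (nat_lit 1) (nat_lit 5) (nat_lit 3) (nat_lit 4) (nat_lit 1) (nat_lit 4) (nat_lit 336) (nat_lit 245) (nat_lit 199)) (XT.lf (nat_lit 0) (nat_lit 3271503294069) (nat_lit 152) (nat_lit 35690971222694) (nat_lit 0) (nat_lit 3270778861068) (nat_lit 1) (nat_lit 5) (nat_lit 3) (nat_lit 4) (nat_lit 1) (nat_lit 4) (nat_lit 337) (nat_lit 245) (nat_lit 198))))) (XT.nd (nat_lit 156) (nat_lit 0) (nat_lit 0) (XT.nd (nat_lit 78) (nat_lit 0) (nat_lit 0) (XT.lf (nat_lit 0) (nat_lit 3763927220954) (nat_lit 152) (nat_lit 41040840048505) (nat_lit 0) (nat_lit 3763202655152) (nat_lit 1) (nat_lit 5) (nat_lit 3) (nat_lit 4) (nat_lit 1) (nat_lit 4) (nat_lit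 338) (nat_lit 245) (nat_lit 197)) (XT.lf (nat_lit 0) (nat_lit 4330214119971) (nat_lit 152) (nat_lit 47193190487410) (nat_lit 0) (nat_lit 4329489438689) (nat_lit 1) (nat_lit 5) (nat_lit 3) (nat_lit 4) (nat_lit 1) (nat_lit 4) (nat_lit 339) (nat_lit 245) (nat_lit 196))) (XT.nd (nat_lit 78) (nat_lit 0) (nat_lit 0) (XT.lf (nat_lit 0) (nat_lit 4981443517405) (nat_lit 152) (nat_lit 54268394613214) (nat_lit 0) (nat_lit 4980718735706) (nat_lit 1) (nat_lit 5) (nat_lit 3) (nat_lit 4) (nat_lit 1) (nat_lit 4) (nat_lit 340) (nat_lit 245) (nat_lit 195)) (XT.nd (nat_lit 78) (nat_lit 0) (nat_lit 0) (XT.lf (nat_lit 0) (nat_lit 5730356857988) (nat_lit 152) (nat_lit 62404880332727) (nat_lit 0) (nat_lit 5729631988969) (nat_lit 1) (nat_lit 5) (nat_lit 3) (nat_lit 4) (nat_lit 1) (nat_lit 4) (nat_lit 341) (nat_lit 245) (nat_lit 194)) (XT.lf (nat_lit 0) (nat_lit 6591606794035) (nat_lit 152) (nat_lit 71761839757852)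 (nat_lit 0) (nat_lit 6590881849086) (nat_lit 1) (nat_lit 5) (nat_lit 3) (nat_lit 4) (nat_lit 1) (nat_lit 4) (nat_lit 342) (nat_lit 245) (nat_lit 193)))))) (XT.nd (nat_lit 546) (nat_lit 0) (nat_lit 0) (XT.nd (nat_lit 156) (nat_lit 0) (nat_lit 0) (XT.nd (nat_lit 78) (nat_lit 0) (nat_lit 0) (XT.lf (nat_lit 0) (nat_lit 7582043867773) (nat_lit 152) (nat_lit 82522343833864) (nat_lit 0) (nat_lit 7581318856799) (nat_lit 1) (nat_lit 5) (nat_lit 3) (nat_lit 4) (nat_lit 1) (nat_lit 4) (nat_lit 343) (nat_lit 245) (nat_lit 192)) (XT.lf (nat_lit 0) (nat_lit 8721046195864) (nat_lit 152) (nat_lit 94896924162249) (nat_lit 0) (nat_lit 8720321127476) (nat_lit 1) (nat_lit 5) (nat_lit 3) (nat_lit 4) (nat_lit 1) (nat_lit 4) (nat_lit 344) (nat_lit 245) (nat_lit 191))) (XT.nd (nat_lit 78) (nat_lit 0) (nat_lit 0) (XT.lf (nat_lit 0) (nat_lit 10030898606464) (nat_lit 152) (nat_lit 109127692097259) (nat_lit 0)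 (nat_lit 10030173488151) (nat_lit 1) (nat_lit 5) (nat_lit 3) (nat_lit 4) (nat_lit 1) (nat_lit 4) (nat_lit 345) (nat_lit 245) (nat_lit 190)) (XT.nd (nat_lit 78) (nat_lit 0) (nat_lit 0) (XT.lf (nat_lit 0) (nat_lit 11537228646738) (nat_lit 152) (nat_lit 125493075707186) (nat_lit 0) (nat_lit 11536503485012) (nat_lit 1) (nat_lit 5) (nat_lit 3) (nat_lit 4) (nat_lit 1) (nat_lit 4) (nat_lit 346) (nat_lit 245) (nat_lit 189)) (XT.lf (nat_lit 0) (nat_lit 13269507991388) (nat_lit 152) (nat_lit 144313267280053) (nat_lit 0) (nat_lit 13268782791911) (nat_lit 1) (nat_lit 5) (nat_lit 3) (nat_lit 4) (nat_lit 1) (nat_lit 4) (nat_lit 347) (nat_lit 245) (nat_lit 188))))) (XT.nd (nat_lit 35880) (nat_lit 0) (nat_lit 152) (XT.nd (nat_lit 35802) (nat_lit 0) (nat_lit 152) (XT.lf (nat_lit 0) (nat_lit 20187147949932) (nat_lit 152) (nat_lit 219469352037205) (nat_lit 0) (nat_lit 20186422664264) (nat_lit 1) (nat_lit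 5) (nat_lit 3) (nat_lit 4) (nat_lit 1) (nat_lit 4) (nat_lit 350) (nat_lit 245) (nat_lit 185)) (XT.lf (nat_lit 0) (nat_lit 1926356512) (nat_lit 76) (nat_lit 11130284498) (nat_lit 76) (nat_lit 11130284498) (nat_lit 3) (nat_lit 4) (nat_lit 4) (nat_lit 5) (nat_lit 4) (nat_lit 4) (nat_lit 288) (nat_lit 246) (nat_lit 246))) (XT.nd (nat_lit 78) (nat_lit 0) (nat_lit 0) (XT.lf (nat_lit 0) (nat_lit 14697321917) (nat_lit 76) (nat_lit 20155671603) (nat_lit 76) (nat_lit 20030531280) (nat_lit 3) (nat_lit 4) (nat_lit 4) (nat_lit 5) (nat_lit 4) (nat_lit 4) (nat_lit 289) (nat_lit 246) (nat_lit 245)) (XT.nd (nat_lit 78) (nat_lit 0) (nat_lit 0) (XT.lf (nat_lit 0) (nat_lit 26296155378) (nat_lit 76) (nat_lit 18185440922) (nat_lit 76) (nat_lit 17951482928) (nat_lit 3) (nat_lit 4) (nat_lit 4) (nat_lit 5) (nat_lit 4) (nat_lit 4) (nat_lit 290) (nat_lit 246) (nat_lit 244)) (XT.lf (nat_lit 0) (nat_lit 38876147105)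 (nat_lit 76) (nat_lit 16311328964) (nat_lit 76) (nat_lit 15982746907) (nat_lit 3) (nat_lit 4) (nat_lit 4) (nat_lit 5) (nat_lit 4) (nat_lit 4) (nat_lit 291) (nat_lit 246) (nat_lit 243))))))) (XT.nd (nat_lit 780) (nat_lit 0) (nat_lit 0) (XT.nd (nat_lit 390) (nat_lit 152) (nat_lit 0) (XT.nd (nat_lit 156) (nat_lit 0) (nat_lit 0) (XT.nd (nat_lit 78) (nat_lit 0) (nat_lit 0) (XT.lf (nat_lit 0) (nat_lit 52683427372) (nat_lit 76) (nat_lit 14496668319) (nat_lit 76) (nat_lit 14085804468) (nat_lit 3) (nat_lit 4) (nat_lit 4) (nat_lit 5) (nat_lit 4) (nat_lit 4) (nat_lit 292) (nat_lit 246) (nat_lit 242)) (XT.lf (nat_lit 0) (nat_lit 67988138618) (nat_lit 76) (nat_lit 12705954758) (nat_lit 76) (nat_lit 12223541521) (nat_lit 3) (nat_lit 4) (nat_lit 4) (nat_lit 5) (nat_lit 4) (nat_lit 4) (nat_lit 293) (nat_lit 246) (nat_lit 241))) (XT.nd (nat_lit 78) (nat_lit 0) (nat_lit 0) (XT.lf (nat_lit 0) (nat_lit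 85089720846) (nat_lit 76) (nat_lit 10904152580) (nat_lit 76) (nat_lit 10359522486) (nat_lit 3) (nat_lit 4) (nat_lit 4) (nat_lit 5) (nat_lit 4) (nat_lit 4) (nat_lit 294) (nat_lit 246) (nat_lit 240)) (XT.nd (nat_lit 78) (nat_lit 0) (nat_lit 0) (XT.lf (nat_lit 0) (nat_lit 104322770230) (nat_lit 76) (nat_lit 9056009134) (nat_lit 76) (nat_lit 8457277426) (nat_lit 3) (nat_lit 4) (nat_lit 4) (nat_lit 5) (nat_lit 4) (nat_lit 4) (nat_lit 295) (nat_lit 246) (nat_lit 239)) (XT.lf (nat_lit 0) (nat_lit 126063585562) (nat_lit 76) (nat_lit 7125365093) (nat_lit 76) (nat_lit 6479588502) (nat_lit 3) (nat_lit 4) (nat_lit 4) (nat_lit 5) (nat_lit 4) (nat_lit 4) (nat_lit 296) (nat_lit 246) (nat_lit 238))))) (XT.nd (nat_lit 156) (nat_lit 152) (nat_lit 0) (XT.nd (nat_lit 78) (nat_lit 0) (nat_lit 0) (XT.lf (nat_lit 0) (nat_lit 150737530621) (nat_lit 76) (nat_lit 5074446984) (nat_lit 76) (nat_lit 4387761800)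 (nat_lit 3) (nat_lit 4) (nat_lit 4) (nat_lit 5) (nat_lit 4) (nat_lit 4) (nat_lit 297) (nat_lit 246) (nat_lit 237)) (XT.lf (nat_lit 0) (nat_lit 178827356506) (nat_lit 76) (nat_lit 2863128151) (nat_lit 76) (nat_lit 2140870277) (nat_lit 3) (nat_lit 4) (nat_lit 4) (nat_lit 5) (nat_lit 4) (nat_lit 4) (nat_lit 298) (nat_lit 246) (nat_lit 236))) (XT.nd (nat_lit 78) (nat_lit 76) (nat_lit 0) (XT.lf (nat_lit 0) (nat_lit 277889595) (nat_lit 152) (nat_lit 155728016) (nat_lit 76) (nat_lit 210590231123) (nat_lit 2) (nat_lit 5) (nat_lit 4) (nat_lit 5) (nat_lit 3) (nat_lit 4) (nat_lit 299) (nat_lit 246) (nat_lit 235)) (XT.nd (nat_lit 78) (nat_lit 0) (nat_lit 0) (XT.lf (nat_lit 0) (nat_lit 3071150527) (nat_lit 152) (nat_lit 236781356661) (nat_lit 0) (nat_lit 2392812516) (nat_lit 1) (nat_lit 5) (nat_lit 3) (nat_lit 4) (nat_lit 1) (nat_lit 4) (nat_lit 300) (nat_lit 246) (nat_lit 234)) (XT.lf (nat_lit 0)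 (nat_lit 6203925466) (nat_lit 152) (nat_lit 266452780853) (nat_lit 0) (nat_lit 5505248654) (nat_lit 1) (nat_lit 5) (nat_lit 3) (nat_lit 4) (nat_lit 1) (nat_lit 4) (nat_lit 301) (nat_lit 246) (nat_lit 233)))))) (XT.nd (nat_lit 390) (nat_lit 0) (nat_lit 0) (XT.nd (nat_lit 156) (nat_lit 0) (nat_lit 0) (XT.nd (nat_lit 78) (nat_lit 0) (nat_lit 0) (XT.lf (nat_lit 0) (nat_lit 9712137035) (nat_lit 152) (nat_lit 300772365594) (nat_lit 0) (nat_lit 8995774309) (nat_lit 1) (nat_lit 5) (nat_lit 3) (nat_lit 4) (nat_lit 1) (nat_lit 4) (nat_lit 302) (nat_lit 246) (nat_lit 232)) (XT.lf (nat_lit 0) (nat_lit 13664424156) (nat_lit 152) (nat_lit 340411581022) (nat_lit 0) (nat_lit 12932682375) (nat_lit 1) (nat_lit 5) (nat_lit 3) (nat_lit 4) (nat_lit 1) (nat_lit 4) (nat_lit 303) (nat_lit 246) (nat_lit 231))) (XT.nd (nat_lit 78) (nat_lit 0) (nat_lit 0) (XT.lf (nat_lit 0) (nat_lit 18138114186) (nat_lit 152)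 (nat_lit 386145977002) (nat_lit 0) (nat_lit 17392999313) (nat_lit 1) (nat_lit 5) (nat_lit 3) (nat_lit 4) (nat_lit 1) (nat_lit 4) (nat_lit 304) (nat_lit 246) (nat_lit 230)) (XT.nd (nat_lit 78) (nat_lit 0) (nat_lit 0) (XT.lf (nat_lit 0) (nat_lit 23220735842) (nat_lit 152) (nat_lit 438870356934) (nat_lit 0) (nat_lit 22463992194) (nat_lit 1) (nat_lit 5) (nat_lit 3) (nat_lit 4) (nat_lit 1) (nat_lit 4) (nat_lit 305) (nat_lit 246) (nat_lit 229)) (XT.lf (nat_lit 0) (nat_lit 29011731723) (nat_lit 152) (nat_lit 499616284774) (nat_lit 0) (nat_lit 28244876096) (nat_lit 1) (nat_lit 5) (nat_lit 3) (nat_lit 4) (nat_lit 1) (nat_lit 4) (nat_lit 306) (nat_lit 246) (nat_lit 228))))) (XT.nd (nat_lit 156) (nat_lit 0) (nat_lit 0) (XT.nd (nat_lit 78) (nat_lit 0) (nat_lit 0) (XT.lf (nat_lit 0) (nat_lit 35624403922) (nat_lit 152) (nat_lit 569572267806) (nat_lit 0) (nat_lit 34848755270) (nat_lit 1) (nat_lit 5)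 (nat_lit 3) (nat_lit 4) (nat_lit 1) (nat_lit 4) (nat_lit 307) (nat_lit 246) (nat_lit 227)) (XT.lf (nat_lit 0) (nat_lit 43188130807) (nat_lit 152) (nat_lit 650107010044) (nat_lit 0) (nat_lit 42404836046) (nat_lit 1) (nat_lit 5) (nat_lit 3) (nat_lit 4) (nat_lit 1) (nat_lit 4) (nat_lit 308) (nat_lit 246) (nat_lit 226))) (XT.nd (nat_lit 78) (nat_lit 0) (nat_lit 0) (XT.lf (nat_lit 0) (nat_lit 51850898339) (nat_lit 152) (nat_lit 742796191230) (nat_lit 0) (nat_lit 51060954789) (nat_lit 1) (nat_lit 5) (nat_lit 3) (nat_lit 4) (nat_lit 1) (nat_lit 4) (nat_lit 309) (nat_lit 246) (nat_lit 225)) (XT.nd (nat_lit 78) (nat_lit 0) (nat_lit 0) (XT.lf (nat_lit 0) (nat_lit 61782195450) (nat_lit 152) (nat_lit 849453295342) (nat_lit 0) (nat_lit 60986470342) (nat_lit 1) (nat_lit 5) (nat_lit 3) (nat_lit 4) (nat_lit 1) (nat_lit 4) (nat_lit 310) (nat_lit 246) (nat_lit 224)) (XT.lf (nat_lit 0) (nat_lit 73176330124)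 (nat_lit 152) (nat_lit 972165091808) (nat_lit 0) (nat_lit 72375577577) (nat_lit 1) (nat_lit 5) (nat_lit 3) (nat_lit 4) (nat_lit 1) (nat_lit 4) (nat_lit 311) (nat_lit 246) (nat_lit 223))))))))
noncomputable def xc23 : XT := (XT.nd (nat_lit 1560) (nat_lit 0) (nat_lit 0) (XT.nd (nat_lit 780) (nat_lit 0) (nat_lit 0) (XT.nd (nat_lit 390) (nat_lit 0) (nat_lit 0) (XT.nd (nat_lit 156) (nat_lit 0) (nat_lit 0) (XT.nd (nat_lit 78) (nat_lit 0) (nat_lit 0) (XT.lf (nat_lit 0) (nat_lit 86256231085) (nat_lit 152) (nat_lit 1113332463604) (nat_lit 0) (nat_lit 85451106850) (nat_lit 1) (nat_lit 5) (nat_lit 3) (nat_lit 4) (nat_lit 1) (nat_lit 4) (nat_lit 312) (nat_lit 246) (nat_lit 222)) (XT.lf (nat_lit 0) (nat_lit 101277809439) (nat_lit 152) (nat_lit 1275717381047) (nat_lit 0) (nat_lit 100468883736) (nat_lit 1) (nat_lit 5) (nat_lit 3) (nat_lit 4) (nat_lit 1) (nat_lit 4) (nat_lit 313) (nat_lit 246) (nat_lit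 221))) (XT.nd (nat_lit 78) (nat_lit 0) (nat_lit 0) (XT.lf (nat_lit 0) (nat_lit 118534965630) (nat_lit 152) (nat_lit 1462496940347) (nat_lit 0) (nat_lit 117722734303) (nat_lit 1) (nat_lit 5) (nat_lit 3) (nat_lit 4) (nat_lit 1) (nat_lit 4) (nat_lit 314) (nat_lit 246) (nat_lit 220)) (XT.nd (nat_lit 78) (nat_lit 0) (nat_lit 0) (XT.lf (nat_lit 0) (nat_lit 138365339672) (nat_lit 152) (nat_lit 1677325524186) (nat_lit 0) (nat_lit 137550233890) (nat_lit 1) (nat_lit 5) (nat_lit 3) (nat_lit 4) (nat_lit 1) (nat_lit 4) (nat_lit 315) (nat_lit 246) (nat_lit 219)) (XT.lf (nat_lit 0) (nat_lit 161156917143) (nat_lit 152) (nat_lit 1924406300510) (nat_lit 0) (nat_lit 160339311835) (nat_lit 1) (nat_lit 5) (nat_lit 3) (nat_lit 4) (nat_lit 1) (nat_lit 4) (nat_lit 316) (nat_lit 246) (nat_lit 218))))) (XT.nd (nat_lit 156) (nat_lit 0) (nat_lit 0) (XT.nd (nat_lit 78) (nat_lit 0) (nat_lit 0) (XT.lf (nat_lit 0)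 (nat_lit 187355620212) (nat_lit 152) (nat_lit 2208573458421) (nat_lit 0) (nat_lit 186535841403) (nat_lit 1) (nat_lit 5) (nat_lit 3) (nat_lit 4) (nat_lit 1) (nat_lit 4) (nat_lit 317) (nat_lit 246) (nat_lit 217)) (XT.lf (nat_lit 0) (nat_lit 217474032200) (nat_lit 152) (nat_lit 2535386790137) (nat_lit 0) (nat_lit 216652363389) (nat_lit 1) (nat_lit 5) (nat_lit 3) (nat_lit 4) (nat_lit 1) (nat_lit 4) (nat_lit 318) (nat_lit 246) (nat_lit 216))) (XT.nd (nat_lit 78) (nat_lit 0) (nat_lit 0) (XT.lf (nat_lit 0) (nat_lit 252101426384) (nat_lit 152) (nat_lit 2911240469542) (nat_lit 0) (nat_lit 251278114094) (nat_lit 1) (nat_lit 5) (nat_lit 3) (nat_lit 4) (nat_lit 1) (nat_lit 4) (nat_lit 319) (nat_lit 246) (nat_lit 215)) (XT.nd (nat_lit 78) (nat_lit 0) (nat_lit 0) (XT.lf (nat_lit 0) (nat_lit 291915295260) (nat_lit 152) (nat_lit 3343488155579) (nat_lit 0) (nat_lit 291090553858) (nat_lit 1) (nat_lit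 5) (nat_lit 3) (nat_lit 4) (nat_lit 1) (nat_lit 4) (nat_lit 320) (nat_lit 246) (nat_lit 214)) (XT.lf (nat_lit 0) (nat_lit 337694605827) (nat_lit 152) (nat_lit 3840586868192) (nat_lit 0) (nat_lit 336868621718) (nat_lit 1) (nat_lit 5) (nat_lit 3) (nat_lit 4) (nat_lit 1) (nat_lit 4) (nat_lit 321) (nat_lit 246) (nat_lit 213)))))) (XT.nd (nat_lit 390) (nat_lit 0) (nat_lit 0) (XT.nd (nat_lit 156) (nat_lit 0) (nat_lit 0) (XT.nd (nat_lit 78) (nat_lit 0) (nat_lit 0) (XT.lf (nat_lit 0) (nat_lit 390335040248) (nat_lit 152) (nat_lit 4412262451760) (nat_lit 0) (nat_lit 389507975525) (nat_lit 1) (nat_lit 5) (nat_lit 3) (nat_lit 4) (nat_lit 1) (nat_lit 4) (nat_lit 322) (nat_lit 246) (nat_lit 212)) (XT.lf (nat_lit 0) (nat_lit 450866520066) (nat_lit 152) (nat_lit 5069699863351) (nat_lit 0) (nat_lit 450038515679) (nat_lit 1) (nat_lit 5) (nat_lit 3) (nat_lit 4) (nat_lit 1) (nat_lit 4) (nat_lit 323) (nat_lit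 246) (nat_lit 211))) (XT.nd (nat_lit 78) (nat_lit 0) (nat_lit 0) (XT.lf (nat_lit 0) (nat_lit 520473356844) (nat_lit 152) (nat_lit 5825762008845) (nat_lit 0) (nat_lit 519644535357) (nat_lit 1) (nat_lit 5) (nat_lit 3) (nat_lit 4) (nat_lit 1) (nat_lit 4) (nat_lit 324) (nat_lit 246) (nat_lit 210)) (XT.nd (nat_lit 78) (nat_lit 0) (nat_lit 0) (XT.lf (nat_lit 0) (nat_lit 600517423475) (nat_lit 152) (nat_lit 6695241408480) (nat_lit 0) (nat_lit 599687891466) (nat_lit 1) (nat_lit 5) (nat_lit 3) (nat_lit 4) (nat_lit 1) (nat_lit 4) (nat_lit 325) (nat_lit 246) (nat_lit 209)) (XT.lf (nat_lit 0) (nat_lit 692564799522) (nat_lit 152) (nat_lit 7695149615726) (nat_lit 0) (nat_lit 691734649669) (nat_lit 1) (nat_lit 5) (nat_lit 3) (nat_lit 4) (nat_lit 1) (nat_lit 4) (nat_lit 326) (nat_lit 246) (nat_lit 208))))) (XT.nd (nat_lit 156) (nat_lit 0) (nat_lit 0) (XT.nd (nat_lit 78) (nat_lit 0) (nat_lit 0) (XT.lf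 (nat_lit 0) (nat_lit 798416411910) (nat_lit 152) (nat_lit 8845050052031) (nat_lit 0) (nat_lit 797585724800) (nat_lit 1) (nat_lit 5) (nat_lit 3) (nat_lit 4) (nat_lit 1) (nat_lit 4) (nat_lit 327) (nat_lit 246) (nat_lit 207)) (XT.lf (nat_lit 0) (nat_lit 920143270444) (nat_lit 152) (nat_lit 10167440769407) (nat_lit 0) (nat_lit 919312116155) (nat_lit 1) (nat_lit 5) (nat_lit 3) (nat_lit 4) (nat_lit 1) (nat_lit 4) (nat_lit 328) (nat_lit 246) (nat_lit 206))) (XT.nd (nat_lit 78) (nat_lit 0) (nat_lit 0) (XT.lf (nat_lit 0) (nat_lit 1060126987576) (nat_lit 152) (nat_lit 11688194629719) (nat_lit 0) (nat_lit 1059295427044) (nat_lit 1) (nat_lit 5) (nat_lit 3) (nat_lit 4) (nat_lit 1) (nat_lit 4) (nat_lit 329) (nat_lit 246) (nat_lit 205)) (XT.nd (nat_lit 78) (nat_lit 0) (nat_lit 0) (XT.lf (nat_lit 0) (nat_lit 1221106375161) (nat_lit 152) (nat_lit 13437065512840) (nat_lit 0) (nat_lit 1220274461375) (nat_lit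 1) (nat_lit 5) (nat_lit 3) (nat_lit 4) (nat_lit 1) (nat_lit 4) (nat_lit 330) (nat_lit 246) (nat_lit 204)) (XT.lf (nat_lit 0) (nat_lit 1406231029914) (nat_lit 152) (nat_lit 15448270457788) (nat_lit 0) (nat_lit 1405398808950) (nat_lit 1) (nat_lit 5) (nat_lit 3) (nat_lit 4) (nat_lit 1) (nat_lit 4) (nat_lit 331) (nat_lit 246) (nat_lit 203))))))) (XT.nd (nat_lit 780) (nat_lit 0) (nat_lit 0) (XT.nd (nat_lit 390) (nat_lit 0) (nat_lit 0) (XT.nd (nat_lit 156) (nat_lit 0) (nat_lit 0) (XT.nd (nat_lit 78) (nat_lit 0) (nat_lit 0) (XT.lf (nat_lit 0) (nat_lit 1619122955950) (nat_lit 152) (nat_lit 17761159126531) (nat_lit 0) (nat_lit 1618290467874) (nat_lit 1) (nat_lit 5) (nat_lit 3) (nat_lit 4) (nat_lit 1) (nat_lit 4) (nat_lit 332) (nat_lit 246) (nat_lit 202)) (XT.lf (nat_lit 0) (nat_lit 1863947430081) (nat_lit 152) (nat_lit 20420983688673) (nat_lit 0) (nat_lit 1863114709734) (nat_lit 1) (nat_lit 5)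 (nat_lit 3) (nat_lit 4) (nat_lit 1) (nat_lit 4) (nat_lit 333) (nat_lit 246) (nat_lit 201))) (XT.nd (nat_lit 78) (nat_lit 0) (nat_lit 0) (XT.lf (nat_lit 0) (nat_lit 2145494496367) (nat_lit 152) (nat_lit 23479784189996) (nat_lit 0) (nat_lit 2144661574046) (nat_lit 1) (nat_lit 5) (nat_lit 3) (nat_lit 4) (nat_lit 1) (nat_lit 4) (nat_lit 334) (nat_lit 246) (nat_lit 200)) (XT.nd (nat_lit 78) (nat_lit 0) (nat_lit 0) (XT.lf (nat_lit 0) (nat_lit 2469272684366) (nat_lit 152) (nat_lit 26997406727265) (nat_lit 0) (nat_lit 2468439586415) (nat_lit 1) (nat_lit 5) (nat_lit 3) (nat_lit 4) (nat_lit 1) (nat_lit 4) (nat_lit 335) (nat_lit 246) (nat_lit 199)) (XT.lf (nat_lit 0) (nat_lit 2841616784713) (nat_lit 152) (nat_lit 31042674350122) (nat_lit 0) (nat_lit 2840783534040) (nat_lit 1) (nat_lit 5) (nat_lit 3) (nat_lit 4) (nat_lit 1) (nat_lit 4) (nat_lit 336) (nat_lit 246) (nat_lit 198))))) (XT.nd (nat_lit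 156) (nat_lit 0) (nat_lit 0) (XT.nd (nat_lit 78) (nat_lit 0) (nat_lit 0) (XT.lf (nat_lit 0) (nat_lit 3269811790675) (nat_lit 152) (nat_lit 35694733599014) (nat_lit 0) (nat_lit 3268978407201) (nat_lit 1) (nat_lit 5) (nat_lit 3) (nat_lit 4) (nat_lit 1) (nat_lit 4) (nat_lit 337) (nat_lit 246) (nat_lit 197)) (XT.lf (nat_lit 0) (nat_lit 3762235430630) (nat_lit 152) (nat_lit 41044603024463) (nat_lit 0) (nat_lit 3761401931676) (nat_lit 1) (nat_lit 5) (nat_lit 3) (nat_lit 4) (nat_lit 1) (nat_lit 4) (nat_lit 338) (nat_lit 246) (nat_lit 196))) (XT.nd (nat_lit 78) (nat_lit 0) (nat_lit 0) (XT.lf (nat_lit 0) (nat_lit 4328522080142) (nat_lit 152) (nat_lit 47196953984793) (nat_lit 0) (nat_lit 4327688480771) (nat_lit 1) (nat_lit 5) (nat_lit 3) (nat_lit 4) (nat_lit 1) (nat_lit 4) (nat_lit 339) (nat_lit 246) (nat_lit 195)) (XT.nd (nat_lit 78) (nat_lit 0) (nat_lit 0) (XT.lf (nat_lit 0) (nat_lit 4979751260615)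 (nat_lit 152) (nat_lit 54272158564010) (nat_lit 0) (nat_lit 4978917573924) (nat_lit 1) (nat_lit 5) (nat_lit 3) (nat_lit 4) (nat_lit 1) (nat_lit 4) (nat_lit 340) (nat_lit 246) (nat_lit 194)) (XT.lf (nat_lit 0) (nat_lit 5728664412535) (nat_lit 152) (nat_lit 62408644677795) (nat_lit 0) (nat_lit 5727830649915) (nat_lit 1) (nat_lit 5) (nat_lit 3) (nat_lit 4) (nat_lit 1) (nat_lit 4) (nat_lit 341) (nat_lit 246) (nat_lit 193)))))) (XT.nd (nat_lit 36270) (nat_lit 0) (nat_lit 152) (XT.nd (nat_lit 156) (nat_lit 0) (nat_lit 0) (XT.nd (nat_lit 78) (nat_lit 0) (nat_lit 0) (XT.lf (nat_lit 0) (nat_lit 6589914184529) (nat_lit 152) (nat_lit 71765604445766) (nat_lit 0) (nat_lit 6589080355883) (nat_lit 1) (nat_lit 5) (nat_lit 3) (nat_lit 4) (nat_lit 1) (nat_lit 4) (nat_lit 342) (nat_lit 246) (nat_lit 192)) (XT.lf (nat_lit 0) (nat_lit 7580351115612) (nat_lit 152) (nat_lit 82526108819904) (nat_lit 0) (nat_lit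 7579517229552) (nat_lit 1) (nat_lit 5) (nat_lit 3) (nat_lit 4) (nat_lit 1) (nat_lit 4) (nat_lit 343) (nat_lit 246) (nat_lit 191))) (XT.nd (nat_lit 78) (nat_lit 0) (nat_lit 0) (XT.lf (nat_lit 0) (nat_lit 8719353319654) (nat_lit 152) (nat_lit 94900689407529) (nat_lit 0) (nat_lit 8718519383670) (nat_lit 1) (nat_lit 5) (nat_lit 3) (nat_lit 4) (nat_lit 1) (nat_lit 4) (nat_lit 344) (nat_lit 246) (nat_lit 190)) (XT.nd (nat_lit 78) (nat_lit 0) (nat_lit 0) (XT.lf (nat_lit 0) (nat_lit 10029205622387) (nat_lit 152) (nat_lit 109131457567965) (nat_lit 0) (nat_lit 10028371642989) (nat_lit 1) (nat_lit 5) (nat_lit 3) (nat_lit 4) (nat_lit 1) (nat_lit 4) (nat_lit 345) (nat_lit 246) (nat_lit 189)) (XT.lf (nat_lit 0) (nat_lit 11535535568863) (nat_lit 152) (nat_lit 125496841373916) (nat_lit 0) (nat_lit 11534701551715) (nat_lit 1) (nat_lit 5) (nat_lit 3) (nat_lit 4) (nat_lit 1) (nat_lit 4) (nat_lit 346) (nat_lit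 246) (nat_lit 188))))) (XT.nd (nat_lit 234) (nat_lit 0) (nat_lit 0) (XT.nd (nat_lit 78) (nat_lit 76) (nat_lit 0) (XT.lf (nat_lit 0) (nat_lit 5845746426) (nat_lit 152) (nat_lit 7230969925) (nat_lit 0) (nat_lit 5845746426) (nat_lit 4) (nat_lit 5) (nat_lit 6) (nat_lit 4) (nat_lit 4) (nat_lit 4) (nat_lit 286) (nat_lit 247) (nat_lit 247)) (XT.nd (nat_lit 78) (nat_lit 76) (nat_lit 0) (XT.lf (nat_lit 0) (nat_lit 18502453288) (nat_lit 152) (nat_lit 5875638320) (nat_lit 0) (nat_lit 18358541917) (nat_lit 4) (nat_lit 5) (nat_lit 6) (nat_lit 4) (nat_lit 4) (nat_lit 4) (nat_lit 287) (nat_lit 247) (nat_lit 246)) (XT.lf (nat_lit 0) (nat_lit 3386044755) (nat_lit 76) (nat_lit 22645392702) (nat_lit 76) (nat_lit 22376341008) (nat_lit 3) (nat_lit 4) (nat_lit 4) (nat_lit 5) (nat_lit 4) (nat_lit 4) (nat_lit 288) (nat_lit 247) (nat_lit 245)))) (XT.nd (nat_lit 78) (nat_lit 0) (nat_lit 0) (XT.lf (nat_lit 0)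 (nat_lit 13824855152) (nat_lit 76) (nat_lit 20749984296) (nat_lit 76) (nat_lit 20372114930) (nat_lit 3) (nat_lit 4) (nat_lit 4) (nat_lit 5) (nat_lit 4) (nat_lit 4) (nat_lit 289) (nat_lit 247) (nat_lit 244)) (XT.nd (nat_lit 78) (nat_lit 0) (nat_lit 0) (XT.lf (nat_lit 0) (nat_lit 25070820355) (nat_lit 76) (nat_lit 18961917952) (nat_lit 76) (nat_lit 18489424524) (nat_lit 3) (nat_lit 4) (nat_lit 4) (nat_lit 5) (nat_lit 4) (nat_lit 4) (nat_lit 290) (nat_lit 247) (nat_lit 243)) (XT.lf (nat_lit 0) (nat_lit 37343970120) (nat_lit 76) (nat_lit 17246209764) (nat_lit 76) (nat_lit 16691434543) (nat_lit 3) (nat_lit 4) (nat_lit 4) (nat_lit 5) (nat_lit 4) (nat_lit 4) (nat_lit 291) (nat_lit 247) (nat_lit 242))))))))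
noncomputable def xc24 : XT := (XT.nd (nat_lit 1560) (nat_lit 0) (nat_lit 0) (XT.nd (nat_lit 780) (nat_lit 0) (nat_lit 0) (XT.nd (nat_lit 390) (nat_lit 152) (nat_lit 0) (XT.nd (nat_lit 156) (nat_lit 0) (nat_lit 0) (XT.nd (nat_lit 78) (nat_lit 0) (nat_lit 0) (XT.lf (nat_lit 0) (nat_lit 50884431288) (nat_lit 76) (nat_lit 15569291529) (nat_lit 76) (nat_lit 14942966922) (nat_lit 3) (nat_lit 4) (nat_lit 4) (nat_lit 5) (nat_lit 4) (nat_lit 4) (nat_lit 292) (nat_lit 247) (nat_lit 241)) (XT.lf (nat_lit 0) (nat_lit 65957125928) (nat_lit 76) (nat_lit 13898353976) (nat_lit 76) (nat_lit 13209812511) (nat_lit 3) (nat_lit 4) (nat_lit 4) (nat_lit 5) (nat_lit 4) (nat_lit 4) (nat_lit 293) (nat_lit 247) (nat_lit 240))) (XT.nd (nat_lit 78) (nat_lit 0) (nat_lit 0) (XT.lf (nat_lit 0) (nat_lit 82856954584) (nat_lit 76) (nat_lit 12200704849) (nat_lit 76) (nat_lit 11458061769) (nat_lit 3) (nat_lit 4) (nat_lit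 4) (nat_lit 5) (nat_lit 4) (nat_lit 4) (nat_lit 294) (nat_lit 247) (nat_lit 239)) (XT.nd (nat_lit 78) (nat_lit 0) (nat_lit 0) (XT.lf (nat_lit 0) (nat_lit 101914566080) (nat_lit 76) (nat_lit 10443129273) (nat_lit 76) (nat_lit 9653441311) (nat_lit 3) (nat_lit 4) (nat_lit 4) (nat_lit 5) (nat_lit 4) (nat_lit 4) (nat_lit 295) (nat_lit 247) (nat_lit 238)) (XT.lf (nat_lit 0) (nat_lit 123502826727) (nat_lit 76) (nat_lit 8591239901) (nat_lit 76) (nat_lit 7760643346) (nat_lit 3) (nat_lit 4) (nat_lit 4) (nat_lit 5) (nat_lit 4) (nat_lit 4) (nat_lit 296) (nat_lit 247) (nat_lit 237))))) (XT.nd (nat_lit 156) (nat_lit 152) (nat_lit 0) (XT.nd (nat_lit 78) (nat_lit 0) (nat_lit 0) (XT.lf (nat_lit 0) (nat_lit 148044115538) (nat_lit 76) (nat_lit 6608804115) (nat_lit 76) (nat_lit 5742634869) (nat_lit 3) (nat_lit 4) (nat_lit 4) (nat_lit 5) (nat_lit 4) (nat_lit 4) (nat_lit 297) (nat_lit 247) (nat_lit 236))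 (XT.lf (nat_lit 0) (nat_lit 176018588164) (nat_lit 76) (nat_lit 4457035126) (nat_lit 76) (nat_lit 3559933107) (nat_lit 3) (nat_lit 4) (nat_lit 4) (nat_lit 5) (nat_lit 4) (nat_lit 4) (nat_lit 298) (nat_lit 247) (nat_lit 235))) (XT.nd (nat_lit 78) (nat_lit 152) (nat_lit 0) (XT.lf (nat_lit 0) (nat_lit 207973571242) (nat_lit 76) (nat_lit 2093833108) (nat_lit 76) (nat_lit 1169833025) (nat_lit 3) (nat_lit 4) (nat_lit 4) (nat_lit 5) (nat_lit 4) (nat_lit 4) (nat_lit 299) (nat_lit 247) (nat_lit 234)) (XT.nd (nat_lit 78) (nat_lit 0) (nat_lit 0) (XT.lf (nat_lit 0) (nat_lit 1460295889) (nat_lit 152) (nat_lit 240409301952) (nat_lit 0) (nat_lit 636478755) (nat_lit 1) (nat_lit 5) (nat_lit 3) (nat_lit 4) (nat_lit 1) (nat_lit 4) (nat_lit 300) (nat_lit 247) (nat_lit 233)) (XT.lf (nat_lit 0) (nat_lit 4549126823) (nat_lit 152) (nat_lit 270172561921) (nat_lit 0) (nat_lit 3707623775) (nat_lit 1) (nat_lit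 5) (nat_lit 3) (nat_lit 4) (nat_lit 1) (nat_lit 4) (nat_lit 301) (nat_lit 247) (nat_lit 232)))))) (XT.nd (nat_lit 390) (nat_lit 0) (nat_lit 0) (XT.nd (nat_lit 156) (nat_lit 0) (nat_lit 0) (XT.nd (nat_lit 78) (nat_lit 0) (nat_lit 0) (XT.lf (nat_lit 0) (nat_lit 8019126214) (nat_lit 152) (nat_lit 304572003860) (nat_lit 0) (nat_lit 7162244110) (nat_lit 1) (nat_lit 5) (nat_lit 3) (nat_lit 4) (nat_lit 1) (nat_lit 4) (nat_lit 302) (nat_lit 247) (nat_lit 231)) (XT.lf (nat_lit 0) (nat_lit 11938185354) (nat_lit 152) (nat_lit 344280660328) (nat_lit 0) (nat_lit 11067930158) (nat_lit 1) (nat_lit 5) (nat_lit 3) (nat_lit 4) (nat_lit 1) (nat_lit 4) (nat_lit 303) (nat_lit 247) (nat_lit 230))) (XT.nd (nat_lit 78) (nat_lit 0) (nat_lit 0) (XT.lf (nat_lit 0) (nat_lit 16382981487) (nat_lit 152) (nat_lit 390075439822) (nat_lit 0) (nat_lit 15501097516) (nat_lit 1) (nat_lit 5) (nat_lit 3) (nat_lit 4) (nat_lit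 1) (nat_lit 4) (nat_lit 304) (nat_lit 247) (nat_lit 229)) (XT.nd (nat_lit 78) (nat_lit 0) (nat_lit 0) (XT.lf (nat_lit 0) (nat_lit 21440478016) (nat_lit 152) (nat_lit 442852327158) (nat_lit 0) (nat_lit 20548482066) (nat_lit 1) (nat_lit 5) (nat_lit 3) (nat_lit 4) (nat_lit 1) (nat_lit 4) (nat_lit 305) (nat_lit 247) (nat_lit 228)) (XT.lf (nat_lit 0) (nat_lit 27209625960) (nat_lit 152) (nat_lit 503643913610) (nat_lit 0) (nat_lit 26308836985) (nat_lit 1) (nat_lit 5) (nat_lit 3) (nat_lit 4) (nat_lit 1) (nat_lit 4) (nat_lit 306) (nat_lit 247) (nat_lit 227))))) (XT.nd (nat_lit 156) (nat_lit 0) (nat_lit 0) (XT.nd (nat_lit 78) (nat_lit 0) (nat_lit 0) (XT.lf (nat_lit 0) (nat_lit 33803299952) (nat_lit 152) (nat_lit 573639599783) (nat_lit 0) (nat_lit 32894864869) (nat_lit 1) (nat_lit 5) (nat_lit 3) (nat_lit 4) (nat_lit 1) (nat_lit 4) (nat_lit 307) (nat_lit 247) (nat_lit 226)) (XT.lf (nat_lit 0) (nat_lit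 41350506658) (nat_lit 152) (nat_lit 654208866491) (nat_lit 0) (nat_lit 40435422785) (nat_lit 1) (nat_lit 5) (nat_lit 3) (nat_lit 4) (nat_lit 1) (nat_lit 4) (nat_lit 308) (nat_lit 247) (nat_lit 225))) (XT.nd (nat_lit 78) (nat_lit 0) (nat_lit 0) (XT.lf (nat_lit 0) (nat_lit 49998908818) (nat_lit 152) (nat_lit 746928068955) (nat_lit 0) (nat_lit 49078043388) (nat_lit 1) (nat_lit 5) (nat_lit 3) (nat_lit 4) (nat_lit 1) (nat_lit 4) (nat_lit 309) (nat_lit 247) (nat_lit 224)) (XT.nd (nat_lit 78) (nat_lit 0) (nat_lit 0) (XT.lf (nat_lit 0) (nat_lit 59917714299) (nat_lit 152) (nat_lit 853611278527) (nat_lit 0) (nat_lit 58991821428) (nat_lit 1) (nat_lit 5) (nat_lit 3) (nat_lit 4) (nat_lit 1) (nat_lit 4) (nat_lit 310) (nat_lit 247) (nat_lit 223)) (XT.lf (nat_lit 0) (nat_lit 71300986688) (nat_lit 152) (nat_lit 976345775393) (nat_lit 0) (nat_lit 70370722130) (nat_lit 1) (nat_lit 5) (nat_lit 3) (nat_lit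 4) (nat_lit 1) (nat_lit 4) (nat_lit 311) (nat_lit 247) (nat_lit 222))))))) (XT.nd (nat_lit 780) (nat_lit 0) (nat_lit 0) (XT.nd (nat_lit 390) (nat_lit 0) (nat_lit 0) (XT.nd (nat_lit 156) (nat_lit 0) (nat_lit 0) (XT.nd (nat_lit 78) (nat_lit 0) (nat_lit 0) (XT.lf (nat_lit 0) (nat_lit 84371442183) (nat_lit 152) (nat_lit 1117532886667) (nat_lit 0) (nat_lit 83437376157) (nat_lit 1) (nat_lit 5) (nat_lit 3) (nat_lit 4) (nat_lit 1) (nat_lit 4) (nat_lit 312) (nat_lit 247) (nat_lit 221)) (XT.lf (nat_lit 0) (nat_lit 99384807087) (nat_lit 152) (nat_lit 1279934968872) (nat_lit 0) (nat_lit 98447435438) (nat_lit 1) (nat_lit 5) (nat_lit 3) (nat_lit 4) (nat_lit 1) (nat_lit 4) (nat_lit 313) (nat_lit 247) (nat_lit 220))) (XT.nd (nat_lit 78) (nat_lit 0) (nat_lit 0) (XT.lf (nat_lit 0) (nat_lit 116634821149) (nat_lit 152) (nat_lit 1466729454054) (nat_lit 0) (nat_lit 115694575044) (nat_lit 1) (nat_lit 5) (nat_lit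 3) (nat_lit 4) (nat_lit 1) (nat_lit 4) (nat_lit 314) (nat_lit 247) (nat_lit 219)) (XT.nd (nat_lit 78) (nat_lit 0) (nat_lit 0) (XT.lf (nat_lit 0) (nat_lit 136458984643) (nat_lit 152) (nat_lit 1681571016921) (nat_lit 0) (nat_lit 135516239012) (nat_lit 1) (nat_lit 5) (nat_lit 3) (nat_lit 4) (nat_lit 1) (nat_lit 4) (nat_lit 315) (nat_lit 247) (nat_lit 218)) (XT.lf (nat_lit 0) (nat_lit 159245161639) (nat_lit 152) (nat_lit 1928663079355) (nat_lit 0) (nat_lit 158300242507) (nat_lit 1) (nat_lit 5) (nat_lit 3) (nat_lit 4) (nat_lit 1) (nat_lit 4) (nat_lit 316) (nat_lit 247) (nat_lit 217))))) (XT.nd (nat_lit 156) (nat_lit 0) (nat_lit 0) (XT.nd (nat_lit 78) (nat_lit 0) (nat_lit 0) (XT.lf (nat_lit 0) (nat_lit 185439168642) (nat_lit 152) (nat_lit 2212840051275) (nat_lit 0) (nat_lit 184492359509) (nat_lit 1) (nat_lit 5) (nat_lit 3) (nat_lit 4) (nat_lit 1) (nat_lit 4) (nat_lit 317) (nat_lit 247) (nat_lit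 216)) (XT.lf (nat_lit 0) (nat_lit 215553497094) (nat_lit 152) (nat_lit 2539661916912) (nat_lit 0) (nat_lit 214605044482) (nat_lit 1) (nat_lit 5) (nat_lit 3) (nat_lit 4) (nat_lit 1) (nat_lit 4) (nat_lit 318) (nat_lit 247) (nat_lit 215))) (XT.nd (nat_lit 78) (nat_lit 0) (nat_lit 0) (XT.lf (nat_lit 0) (nat_lit 250177340378) (nat_lit 152) (nat_lit 2915523017118) (nat_lit 0) (nat_lit 249227458653) (nat_lit 1) (nat_lit 5) (nat_lit 3) (nat_lit 4) (nat_lit 1) (nat_lit 4) (nat_lit 319) (nat_lit 247) (nat_lit 214)) (XT.nd (nat_lit 78) (nat_lit 0) (nat_lit 0) (XT.lf (nat_lit 0) (nat_lit 289988121514) (nat_lit 152) (nat_lit 3347777156025) (nat_lit 0) (nat_lit 289036997083) (nat_lit 1) (nat_lit 5) (nat_lit 3) (nat_lit 4) (nat_lit 1) (nat_lit 4) (nat_lit 320) (nat_lit 247) (nat_lit 213)) (XT.lf (nat_lit 0) (nat_lit 335764747090) (nat_lit 152) (nat_lit 3844881479830) (nat_lit 0) (nat_lit 334812542044)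 (nat_lit 1) (nat_lit 5) (nat_lit 3) (nat_lit 4) (nat_lit 1) (nat_lit 4) (nat_lit 321) (nat_lit 247) (nat_lit 212)))))) (XT.nd (nat_lit 390) (nat_lit 0) (nat_lit 0) (XT.nd (nat_lit 156) (nat_lit 0) (nat_lit 0) (XT.nd (nat_lit 78) (nat_lit 0) (nat_lit 0) (XT.lf (nat_lit 0) (nat_lit 388402846736) (nat_lit 152) (nat_lit 4416561942694) (nat_lit 0) (nat_lit 387449702026) (nat_lit 1) (nat_lit 5) (nat_lit 3) (nat_lit 4) (nat_lit 1) (nat_lit 4) (nat_lit 322) (nat_lit 247) (nat_lit 211)) (XT.lf (nat_lit 0) (nat_lit 448932296316) (nat_lit 152) (nat_lit 5074003597153) (nat_lit 0) (nat_lit 447978334506) (nat_lit 1) (nat_lit 5) (nat_lit 3) (nat_lit 4) (nat_lit 1) (nat_lit 4) (nat_lit 323) (nat_lit 247) (nat_lit 210))) (XT.nd (nat_lit 78) (nat_lit 0) (nat_lit 0) (XT.lf (nat_lit 0) (nat_lit 518537367669) (nat_lit 152) (nat_lit 5830069432096) (nat_lit 0) (nat_lit 517582695337) (nat_lit 1) (nat_lit 5)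 (nat_lit 3) (nat_lit 4) (nat_lit 1) (nat_lit 4) (nat_lit 324) (nat_lit 247) (nat_lit 209)) (XT.nd (nat_lit 78) (nat_lit 0) (nat_lit 0) (XT.lf (nat_lit 0) (nat_lit 598579899147) (nat_lit 152) (nat_lit 6699552039948) (nat_lit 0) (nat_lit 597624608971) (nat_lit 1) (nat_lit 5) (nat_lit 3) (nat_lit 4) (nat_lit 1) (nat_lit 4) (nat_lit 325) (nat_lit 247) (nat_lit 208)) (XT.lf (nat_lit 0) (nat_lit 690625940279) (nat_lit 152) (nat_lit 7699463036949) (nat_lit 0) (nat_lit 689670112847) (nat_lit 1) (nat_lit 5) (nat_lit 3) (nat_lit 4) (nat_lit 1) (nat_lit 4) (nat_lit 326) (nat_lit 247) (nat_lit 207))))) (XT.nd (nat_lit 156) (nat_lit 0) (nat_lit 0) (XT.nd (nat_lit 78) (nat_lit 0) (nat_lit 0) (XT.lf (nat_lit 0) (nat_lit 796476391871) (nat_lit 152) (nat_lit 8849365899126) (nat_lit 0) (nat_lit 795520097259) (nat_lit 1) (nat_lit 5) (nat_lit 3) (nat_lit 4) (nat_lit 1) (nat_lit 4) (nat_lit 327) (nat_lit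 247) (nat_lit 206)) (XT.lf (nat_lit 0) (nat_lit 918202241018) (nat_lit 152) (nat_lit 10171758725958) (nat_lit 0) (nat_lit 917245540163) (nat_lit 1) (nat_lit 5) (nat_lit 3) (nat_lit 4) (nat_lit 1) (nat_lit 4) (nat_lit 328) (nat_lit 247) (nat_lit 205))) (XT.nd (nat_lit 78) (nat_lit 0) (nat_lit 0) (XT.lf (nat_lit 0) (nat_lit 1058185080421) (nat_lit 152) (nat_lit 11692514420577) (nat_lit 0) (nat_lit 1057228026312) (nat_lit 1) (nat_lit 5) (nat_lit 3) (nat_lit 4) (nat_lit 1) (nat_lit 4) (nat_lit 329) (nat_lit 247) (nat_lit 204)) (XT.nd (nat_lit 78) (nat_lit 0) (nat_lit 0) (XT.lf (nat_lit 0) (nat_lit 1219163704765) (nat_lit 152) (nat_lit 13441386898749) (nat_lit 0) (nat_lit 1218206343478) (nat_lit 1) (nat_lit 5) (nat_lit 3) (nat_lit 4) (nat_lit 1) (nat_lit 4) (nat_lit 330) (nat_lit 247) (nat_lit 203)) (XT.lf (nat_lit 0) (nat_lit 1404287695829) (nat_lit 152) (nat_lit 15452593230698) (nat_lit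 0) (nat_lit 1403330067431) (nat_lit 1) (nat_lit 5) (nat_lit 3) (nat_lit 4) (nat_lit 1) (nat_lit 4) (nat_lit 331) (nat_lit 247) (nat_lit 202))))))))
noncomputable def xc25 : XT := (XT.nd (nat_lit 37284) (nat_lit 0) (nat_lit 0) (XT.nd (nat_lit 780) (nat_lit 0) (nat_lit 0) (XT.nd (nat_lit 390) (nat_lit 0) (nat_lit 0) (XT.nd (nat_lit 156) (nat_lit 0) (nat_lit 0) (XT.nd (nat_lit 78) (nat_lit 0) (nat_lit 0) (XT.lf (nat_lit 0) (nat_lit 1617179044744) (nat_lit 152) (nat_lit 17765483105529) (nat_lit 0) (nat_lit 1616221184074) (nat_lit 1) (nat_lit 5) (nat_lit 3) (nat_lit 4) (nat_lit 1) (nat_lit 4) (nat_lit 332) (nat_lit 247) (nat_lit 201)) (XT.lf (nat_lit 0) (nat_lit 1862003017031) (nat_lit 152) (nat_lit 20425308716443) (nat_lit 0) (nat_lit 1861044954387) (nat_lit 1) (nat_lit 5) (nat_lit 3) (nat_lit 4) (nat_lit 1) (nat_lit 4) (nat_lit 333) (nat_lit 247) (nat_lit 200))) (XT.nd (nat_lit 78) (nat_lit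 0) (nat_lit 0) (XT.lf (nat_lit 0) (nat_lit 2143549646931) (nat_lit 152) (nat_lit 23484110129741) (nat_lit 0) (nat_lit 2142591408657) (nat_lit 1) (nat_lit 5) (nat_lit 3) (nat_lit 4) (nat_lit 1) (nat_lit 4) (nat_lit 334) (nat_lit 247) (nat_lit 199)) (XT.nd (nat_lit 78) (nat_lit 0) (nat_lit 0) (XT.lf (nat_lit 0) (nat_lit 2467327455464) (nat_lit 152) (nat_lit 27001733460032) (nat_lit 0) (nat_lit 2466369064469) (nat_lit 1) (nat_lit 5) (nat_lit 3) (nat_lit 4) (nat_lit 1) (nat_lit 4) (nat_lit 335) (nat_lit 247) (nat_lit 198)) (XT.lf (nat_lit 0) (nat_lit 2839671225841) (nat_lit 152) (nat_lit 31047001772473) (nat_lit 0) (nat_lit 2838712702043) (nat_lit 1) (nat_lit 5) (nat_lit 3) (nat_lit 4) (nat_lit 1) (nat_lit 4) (nat_lit 336) (nat_lit 247) (nat_lit 197))))) (XT.nd (nat_lit 156) (nat_lit 0) (nat_lit 0) (XT.nd (nat_lit 78) (nat_lit 0) (nat_lit 0) (XT.lf (nat_lit 0) (nat_lit 3267865944872) (nat_lit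 152) (nat_lit 35699061621004) (nat_lit 0) (nat_lit 3266907305595) (nat_lit 1) (nat_lit 5) (nat_lit 3) (nat_lit 4) (nat_lit 1) (nat_lit 4) (nat_lit 337) (nat_lit 247) (nat_lit 196)) (XT.lf (nat_lit 0) (nat_lit 3760289335321) (nat_lit 152) (nat_lit 41048931567878) (nat_lit 0) (nat_lit 3759330595628) (nat_lit 1) (nat_lit 5) (nat_lit 3) (nat_lit 4) (nat_lit 1) (nat_lit 4) (nat_lit 338) (nat_lit 247) (nat_lit 195))) (XT.nd (nat_lit 78) (nat_lit 0) (nat_lit 0) (XT.lf (nat_lit 0) (nat_lit 4326575767872) (nat_lit 152) (nat_lit 47201282981621) (nat_lit 0) (nat_lit 4325616940859) (nat_lit 1) (nat_lit 5) (nat_lit 3) (nat_lit 4) (nat_lit 1) (nat_lit 4) (nat_lit 339) (nat_lit 247) (nat_lit 194)) (XT.nd (nat_lit 78) (nat_lit 0) (nat_lit 0) (XT.lf (nat_lit 0) (nat_lit 4977804759683) (nat_lit 152) (nat_lit 54276487955111) (nat_lit 0) (nat_lit 4976845856740) (nat_lit 1) (nat_lit 5) (nat_lit 3) (nat_lit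 4) (nat_lit 1) (nat_lit 4) (nat_lit 340) (nat_lit 247) (nat_lit 193)) (XT.lf (nat_lit 0) (nat_lit 5726717747550) (nat_lit 152) (nat_lit 62412974411741) (nat_lit 0) (nat_lit 5725758778582) (nat_lit 1) (nat_lit 5) (nat_lit 3) (nat_lit 4) (nat_lit 1) (nat_lit 4) (nat_lit 341) (nat_lit 247) (nat_lit 192)))))) (XT.nd (nat_lit 36114) (nat_lit 0) (nat_lit 152) (XT.nd (nat_lit 156) (nat_lit 0) (nat_lit 0) (XT.nd (nat_lit 78) (nat_lit 0) (nat_lit 0) (XT.lf (nat_lit 0) (nat_lit 6587967376888) (nat_lit 152) (nat_lit 71769934477838) (nat_lit 0) (nat_lit 6587008350506) (nat_lit 1) (nat_lit 5) (nat_lit 3) (nat_lit 4) (nat_lit 1) (nat_lit 4) (nat_lit 342) (nat_lit 247) (nat_lit 191)) (XT.lf (nat_lit 0) (nat_lit 7578404183923) (nat_lit 152) (nat_lit 82530439111217) (nat_lit 0) (nat_lit 7577445107616) (nat_lit 1) (nat_lit 5) (nat_lit 3) (nat_lit 4) (nat_lit 1) (nat_lit 4) (nat_lit 343) (nat_lit 247)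 (nat_lit 190))) (XT.nd (nat_lit 78) (nat_lit 0) (nat_lit 0) (XT.lf (nat_lit 0) (nat_lit 8717406280097) (nat_lit 152) (nat_lit 94905019924269) (nat_lit 0) (nat_lit 8716447160377) (nat_lit 1) (nat_lit 5) (nat_lit 3) (nat_lit 4) (nat_lit 1) (nat_lit 4) (nat_lit 344) (nat_lit 247) (nat_lit 189)) (XT.nd (nat_lit 78) (nat_lit 0) (nat_lit 0) (XT.lf (nat_lit 0) (nat_lit 10027258489031) (nat_lit 152) (nat_lit 109135788280727) (nat_lit 0) (nat_lit 10026299331561) (nat_lit 1) (nat_lit 5) (nat_lit 3) (nat_lit 4) (nat_lit 1) (nat_lit 4) (nat_lit 345) (nat_lit 247) (nat_lit 188)) (XT.lf (nat_lit 0) (nat_lit 11533588353944) (nat_lit 152) (nat_lit 125501172257133) (nat_lit 0) (nat_lit 11532629163646) (nat_lit 1) (nat_lit 5) (nat_lit 3) (nat_lit 4) (nat_lit 1) (nat_lit 4) (nat_lit 346) (nat_lit 247) (nat_lit 187))))) (XT.nd (nat_lit 156) (nat_lit 76) (nat_lit 0) (XT.nd (nat_lit 78) (nat_lit 152) (nat_lit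 0) (XT.lf (nat_lit 0) (nat_lit 14752856587) (nat_lit 76) (nat_lit 134978772) (nat_lit 76) (nat_lit 134978772) (nat_lit 6) (nat_lit 4) (nat_lit 7) (nat_lit 5) (nat_lit 7) (nat_lit 4) (nat_lit 284) (nat_lit 248) (nat_lit 248)) (XT.lf (nat_lit 0) (nat_lit 5490587416) (nat_lit 152) (nat_lit 22842301808) (nat_lit 0) (nat_lit 5325089339) (nat_lit 4) (nat_lit 5) (nat_lit 6) (nat_lit 4) (nat_lit 4) (nat_lit 4) (nat_lit 285) (nat_lit 248) (nat_lit 247))) (XT.nd (nat_lit 78) (nat_lit 76) (nat_lit 0) (XT.lf (nat_lit 0) (nat_lit 11619593904) (nat_lit 152) (nat_lit 14950830418) (nat_lit 0) (nat_lit 11310184456) (nat_lit 4) (nat_lit 5) (nat_lit 6) (nat_lit 4) (nat_lit 4) (nat_lit 4) (nat_lit 286) (nat_lit 248) (nat_lit 246)) (XT.nd (nat_lit 78) (nat_lit 76) (nat_lit 0) (XT.lf (nat_lit 0) (nat_lit 18224122142) (nat_lit 152) (nat_lit 6789651122) (nat_lit 0) (nat_lit 17789572371) (nat_lit 4) (nat_lit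 5) (nat_lit 6) (nat_lit 4) (nat_lit 4) (nat_lit 4) (nat_lit 287) (nat_lit 248) (nat_lit 245)) (XT.lf (nat_lit 0) (nat_lit 1976909479) (nat_lit 76) (nat_lit 23538341286) (nat_lit 76) (nat_lit 22994973844) (nat_lit 3) (nat_lit 4) (nat_lit 4) (nat_lit 5) (nat_lit 4) (nat_lit 4) (nat_lit 288) (nat_lit 248) (nat_lit 244))))))) (XT.nd (nat_lit 780) (nat_lit 152) (nat_lit 0) (XT.nd (nat_lit 390) (nat_lit 0) (nat_lit 0) (XT.nd (nat_lit 156) (nat_lit 0) (nat_lit 0) (XT.nd (nat_lit 78) (nat_lit 0) (nat_lit 0) (XT.lf (nat_lit 0) (nat_lit 12062851619) (nat_lit 76) (nat_lit 21825097217) (nat_lit 76) (nat_lit 21187105711) (nat_lit 3) (nat_lit 4) (nat_lit 4) (nat_lit 5) (nat_lit 4) (nat_lit 4) (nat_lit 289) (nat_lit 248) (nat_lit 243)) (XT.lf (nat_lit 0) (nat_lit 23001974860) (nat_lit 76) (nat_lit 20195434644) (nat_lit 76) (nat_lit 19475161345) (nat_lit 3) (nat_lit 4) (nat_lit 4) (nat_lit 5) (nat_lit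 4) (nat_lit 4) (nat_lit 290) (nat_lit 248) (nat_lit 242))) (XT.nd (nat_lit 78) (nat_lit 0) (nat_lit 0) (XT.lf (nat_lit 0) (nat_lit 35008305526) (nat_lit 76) (nat_lit 18617468866) (nat_lit 76) (nat_lit 17825646181) (nat_lit 3) (nat_lit 4) (nat_lit 4) (nat_lit 5) (nat_lit 4) (nat_lit 4) (nat_lit 291) (nat_lit 248) (nat_lit 241)) (XT.nd (nat_lit 78) (nat_lit 0) (nat_lit 0) (XT.lf (nat_lit 0) (nat_lit 48316750088) (nat_lit 76) (nat_lit 17060326638) (nat_lit 76) (nat_lit 16206287097) (nat_lit 3) (nat_lit 4) (nat_lit 4) (nat_lit 5) (nat_lit 4) (nat_lit 4) (nat_lit 292) (nat_lit 248) (nat_lit 240)) (XT.lf (nat_lit 0) (nat_lit 63187691156) (nat_lit 76) (nat_lit 15493542136) (nat_lit 76) (nat_lit 14585400980) (nat_lit 3) (nat_lit 4) (nat_lit 4) (nat_lit 5) (nat_lit 4) (nat_lit 4) (nat_lit 293) (nat_lit 248) (nat_lit 239))))) (XT.nd (nat_lit 156) (nat_lit 0) (nat_lit 0) (XT.nd (nat_lit 78) (nat_lit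 0) (nat_lit 0) (XT.lf (nat_lit 0) (nat_lit 79912081924) (nat_lit 76) (nat_lit 13886460879) (nat_lit 76) (nat_lit 12931274840) (nat_lit 3) (nat_lit 4) (nat_lit 4) (nat_lit 5) (nat_lit 4) (nat_lit 4) (nat_lit 294) (nat_lit 248) (nat_lit 238)) (XT.lf (nat_lit 0) (nat_lit 98817138735) (nat_lit 76) (nat_lit 12207639973) (nat_lit 76) (nat_lit 11211545341) (nat_lit 3) (nat_lit 4) (nat_lit 4) (nat_lit 5) (nat_lit 4) (nat_lit 4) (nat_lit 295) (nat_lit 248) (nat_lit 237))) (XT.nd (nat_lit 78) (nat_lit 0) (nat_lit 0) (XT.lf (nat_lit 0) (nat_lit 120272743134) (nat_lit 76) (nat_lit 10424232923) (nat_lit 76) (nat_lit 9392565600) (nat_lit 3) (nat_lit 4) (nat_lit 4) (nat_lit 5) (nat_lit 4) (nat_lit 4) (nat_lit 296) (nat_lit 248) (nat_lit 236)) (XT.nd (nat_lit 78) (nat_lit 0) (nat_lit 0) (XT.lf (nat_lit 0) (nat_lit 144698678686) (nat_lit 76) (nat_lit 8501346981) (nat_lit 76) (nat_lit 7438746885) (nat_lit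 3) (nat_lit 4) (nat_lit 4) (nat_lit 5) (nat_lit 4) (nat_lit 4) (nat_lit 297) (nat_lit 248) (nat_lit 235)) (XT.lf (nat_lit 0) (nat_lit 172572844130) (nat_lit 76) (nat_lit 6401360466) (nat_lit 76) (nat_lit 5311862306) (nat_lit 3) (nat_lit 4) (nat_lit 4) (nat_lit 5) (nat_lit 4) (nat_lit 4) (nat_lit 298) (nat_lit 248) (nat_lit 234)))))) (XT.nd (nat_lit 390) (nat_lit 0) (nat_lit 0) (XT.nd (nat_lit 156) (nat_lit 152) (nat_lit 0) (XT.nd (nat_lit 78) (nat_lit 0) (nat_lit 0) (XT.lf (nat_lit 0) (nat_lit 204440603571) (nat_lit 76) (nat_lit 4083186686) (nat_lit 76) (nat_lit 2970298904) (nat_lit 3) (nat_lit 4) (nat_lit 4) (nat_lit 5) (nat_lit 4) (nat_lit 4) (nat_lit 299) (nat_lit 248) (nat_lit 233)) (XT.lf (nat_lit 0) (nat_lit 240925456653) (nat_lit 76) (nat_lit 1501470066) (nat_lit 76) (nat_lit 368243484) (nat_lit 3) (nat_lit 4) (nat_lit 4) (nat_lit 5) (nat_lit 4) (nat_lit 4) (nat_lit 300) (nat_lit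 248) (nat_lit 232))) (XT.nd (nat_lit 78) (nat_lit 0) (nat_lit 0) (XT.lf (nat_lit 0) (nat_lit 2563952200) (nat_lit 152) (nat_lit 274622003124) (nat_lit 0) (nat_lit 1563158725) (nat_lit 1) (nat_lit 5) (nat_lit 3) (nat_lit 4) (nat_lit 1) (nat_lit 4) (nat_lit 301) (nat_lit 248) (nat_lit 231)) (XT.nd (nat_lit 78) (nat_lit 0) (nat_lit 0) (XT.lf (nat_lit 0) (nat_lit 6000723610) (nat_lit 152) (nat_lit 309090886104) (nat_lit 0) (nat_lit 4986557043) (nat_lit 1) (nat_lit 5) (nat_lit 3) (nat_lit 4) (nat_lit 1) (nat_lit 4) (nat_lit 302) (nat_lit 248) (nat_lit 230)) (XT.lf (nat_lit 0) (nat_lit 9890888853) (nat_lit 152) (nat_lit 348859926086) (nat_lit 0) (nat_lit 8865093511) (nat_lit 1) (nat_lit 5) (nat_lit 3) (nat_lit 4) (nat_lit 1) (nat_lit 4) (nat_lit 303) (nat_lit 248) (nat_lit 229))))) (XT.nd (nat_lit 234) (nat_lit 0) (nat_lit 0) (XT.nd (nat_lit 78) (nat_lit 0) (nat_lit 0) (XT.lf (nat_lit 0) (nat_lit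 14310559859) (nat_lit 152) (nat_lit 394707212984) (nat_lit 0) (nat_lit 13274652538) (nat_lit 1) (nat_lit 5) (nat_lit 3) (nat_lit 4) (nat_lit 1) (nat_lit 4) (nat_lit 304) (nat_lit 248) (nat_lit 228)) (XT.nd (nat_lit 78) (nat_lit 0) (nat_lit 0) (XT.lf (nat_lit 0) (nat_lit 19346208451) (nat_lit 152) (nat_lit 447529758932) (nat_lit 0) (nat_lit 18301508105) (nat_lit 1) (nat_lit 5) (nat_lit 3) (nat_lit 4) (nat_lit 1) (nat_lit 4) (nat_lit 305) (nat_lit 248) (nat_lit 227)) (XT.lf (nat_lit 0) (nat_lit 25096358189) (nat_lit 152) (nat_lit 508361048525) (nat_lit 0) (nat_lit 24044011734) (nat_lit 1) (nat_lit 5) (nat_lit 3) (nat_lit 4) (nat_lit 1) (nat_lit 4) (nat_lit 306) (nat_lit 248) (nat_lit 226)))) (XT.nd (nat_lit 78) (nat_lit 0) (nat_lit 0) (XT.lf (nat_lit 0) (nat_lit 31673512002) (nat_lit 152) (nat_lit 578391259167) (nat_lit 0) (nat_lit 30614516757) (nat_lit 1) (nat_lit 5) (nat_lit 3) (nat_lit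 4) (nat_lit 1) (nat_lit 4) (nat_lit 307) (nat_lit 248) (nat_lit 225)) (XT.nd (nat_lit 78) (nat_lit 0) (nat_lit 0) (XT.lf (nat_lit 0) (nat_lit 39206353335) (nat_lit 152) (nat_lit 658990547154) (nat_lit 0) (nat_lit 38141576533) (nat_lit 1) (nat_lit 5) (nat_lit 3) (nat_lit 4) (nat_lit 1) (nat_lit 4) (nat_lit 308) (nat_lit 248) (nat_lit 224)) (XT.lf (nat_lit 0) (nat_lit 47842263865) (nat_lit 152) (nat_lit 751735855078) (nat_lit 0) (nat_lit 46772459624) (nat_lit 1) (nat_lit 5) (nat_lit 3) (nat_lit 4) (nat_lit 1) (nat_lit 4) (nat_lit 309) (nat_lit 248) (nat_lit 223))))))))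
noncomputable def xc26 : XT := (XT.nd (nat_lit 1560) (nat_lit 0) (nat_lit 0) (XT.nd (nat_lit 780) (nat_lit 0) (nat_lit 0) (XT.nd (nat_lit 390) (nat_lit 0) (nat_lit 0) (XT.nd (nat_lit 156) (nat_lit 0) (nat_lit 0) (XT.nd (nat_lit 78) (nat_lit 0) (nat_lit 0) (XT.lf (nat_lit 0) (nat_lit 57750207061) (nat_lit 152) (nat_lit 858441765049) (nat_lit 0) (nat_lit 56676031132) (nat_lit 1) (nat_lit 5) (nat_lit 3) (nat_lit 4) (nat_lit 1) (nat_lit 4) (nat_lit 310) (nat_lit 248) (nat_lit 222)) (XT.lf (nat_lit 0) (nat_lit 69124033983) (nat_lit 152) (nat_lit 981196001393) (nat_lit 0) (nat_lit 68046056587) (nat_lit 1) (nat_lit 5) (nat_lit 3) (nat_lit 4) (nat_lit 1) (nat_lit 4) (nat_lit 311) (nat_lit 248) (nat_lit 221))) (XT.nd (nat_lit 78) (nat_lit 0) (nat_lit 0) (XT.lf (nat_lit 0) (nat_lit 82186276029) (nat_lit 152) (nat_lit 1122400277430) (nat_lit 0) (nat_lit 81104993009) (nat_lit 1) (nat_lit 5) (nat_lit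 3) (nat_lit 4) (nat_lit 1) (nat_lit 4) (nat_lit 312) (nat_lit 248) (nat_lit 220)) (XT.nd (nat_lit 78) (nat_lit 0) (nat_lit 0) (XT.lf (nat_lit 0) (nat_lit 97192498804) (nat_lit 152) (nat_lit 1284817285517) (nat_lit 0) (nat_lit 96108341329) (nat_lit 1) (nat_lit 5) (nat_lit 3) (nat_lit 4) (nat_lit 1) (nat_lit 4) (nat_lit 313) (nat_lit 248) (nat_lit 219)) (XT.lf (nat_lit 0) (nat_lit 114436302319) (nat_lit 152) (nat_lit 1471624749725) (nat_lit 0) (nat_lit 113349645317) (nat_lit 1) (nat_lit 5) (nat_lit 3) (nat_lit 4) (nat_lit 1) (nat_lit 4) (nat_lit 314) (nat_lit 248) (nat_lit 218))))) (XT.nd (nat_lit 156) (nat_lit 0) (nat_lit 0) (XT.nd (nat_lit 78) (nat_lit 0) (nat_lit 0) (XT.lf (nat_lit 0) (nat_lit 134255065338) (nat_lit 152) (nat_lit 1686477598703) (nat_lit 0) (nat_lit 133166234834) (nat_lit 1) (nat_lit 5) (nat_lit 3) (nat_lit 4) (nat_lit 1) (nat_lit 4) (nat_lit 315) (nat_lit 248) (nat_lit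 217)) (XT.lf (nat_lit 0) (nat_lit 157036546268) (nat_lit 152) (nat_lit 1933579475147) (nat_lit 0) (nat_lit 155945825763) (nat_lit 1) (nat_lit 5) (nat_lit 3) (nat_lit 4) (nat_lit 1) (nat_lit 4) (nat_lit 316) (nat_lit 248) (nat_lit 216))) (XT.nd (nat_lit 78) (nat_lit 0) (nat_lit 0) (XT.lf (nat_lit 0) (nat_lit 183226469735) (nat_lit 152) (nat_lit 2217764980987) (nat_lit 0) (nat_lit 182134105751) (nat_lit 1) (nat_lit 5) (nat_lit 3) (nat_lit 4) (nat_lit 1) (nat_lit 4) (nat_lit 317) (nat_lit 248) (nat_lit 215)) (XT.nd (nat_lit 78) (nat_lit 0) (nat_lit 0) (XT.lf (nat_lit 0) (nat_lit 213337247286) (nat_lit 152) (nat_lit 2544594267426) (nat_lit 0) (nat_lit 212243454190) (nat_lit 1) (nat_lit 5) (nat_lit 3) (nat_lit 4) (nat_lit 1) (nat_lit 4) (nat_lit 318) (nat_lit 248) (nat_lit 214)) (XT.lf (nat_lit 0) (nat_lit 247958002830) (nat_lit 152) (nat_lit 2920461820501) (nat_lit 0) (nat_lit 246862967028)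 (nat_lit 1) (nat_lit 5) (nat_lit 3) (nat_lit 4) (nat_lit 1) (nat_lit 4) (nat_lit 319) (nat_lit 248) (nat_lit 213)))))) (XT.nd (nat_lit 390) (nat_lit 0) (nat_lit 0) (XT.nd (nat_lit 156) (nat_lit 0) (nat_lit 0) (XT.nd (nat_lit 78) (nat_lit 0) (nat_lit 0) (XT.lf (nat_lit 0) (nat_lit 287766098976) (nat_lit 152) (nat_lit 3352721570600) (nat_lit 0) (nat_lit 286669982559) (nat_lit 1) (nat_lit 5) (nat_lit 3) (nat_lit 4) (nat_lit 1) (nat_lit 4) (nat_lit 320) (nat_lit 248) (nat_lit 212)) (XT.lf (nat_lit 0) (nat_lit 333540389777) (nat_lit 152) (nat_lit 3849830773702) (nat_lit 0) (nat_lit 332443333695) (nat_lit 1) (nat_lit 5) (nat_lit 3) (nat_lit 4) (nat_lit 1) (nat_lit 4) (nat_lit 321) (nat_lit 248) (nat_lit 211))) (XT.nd (nat_lit 78) (nat_lit 0) (nat_lit 0) (XT.lf (nat_lit 0) (nat_lit 386176459184) (nat_lit 152) (nat_lit 4421515479434) (nat_lit 0) (nat_lit 385078586003) (nat_lit 1) (nat_lit 5)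 (nat_lit 3) (nat_lit 4) (nat_lit 1) (nat_lit 4) (nat_lit 322) (nat_lit 248) (nat_lit 210)) (XT.nd (nat_lit 78) (nat_lit 0) (nat_lit 0) (XT.lf (nat_lit 0) (nat_lit 446704143339) (nat_lit 152) (nat_lit 5078960823341) (nat_lit 0) (nat_lit 445605559636) (nat_lit 1) (nat_lit 5) (nat_lit 3) (nat_lit 4) (nat_lit 1) (nat_lit 4) (nat_lit 323) (nat_lit 248) (nat_lit 209)) (XT.lf (nat_lit 0) (nat_lit 516307679539) (nat_lit 152) (nat_lit 5835029866502) (nat_lit 0) (nat_lit 515208477992) (nat_lit 1) (nat_lit 5) (nat_lit 3) (nat_lit 4) (nat_lit 1) (nat_lit 4) (nat_lit 324) (nat_lit 248) (nat_lit 208))))) (XT.nd (nat_lit 156) (nat_lit 0) (nat_lit 0) (XT.nd (nat_lit 78) (nat_lit 0) (nat_lit 0) (XT.lf (nat_lit 0) (nat_lit 596348876102) (nat_lit 152) (nat_lit 6704515264108) (nat_lit 0) (nat_lit 595249137299) (nat_lit 1) (nat_lit 5) (nat_lit 3) (nat_lit 4) (nat_lit 1) (nat_lit 4) (nat_lit 325) (nat_lit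 248) (nat_lit 207)) (XT.lf (nat_lit 0) (nat_lit 688393756439) (nat_lit 152) (nat_lit 7704428686981) (nat_lit 0) (nat_lit 687293550456) (nat_lit 1) (nat_lit 5) (nat_lit 3) (nat_lit 4) (nat_lit 1) (nat_lit 4) (nat_lit 326) (nat_lit 248) (nat_lit 206))) (XT.nd (nat_lit 78) (nat_lit 0) (nat_lit 0) (XT.lf (nat_lit 0) (nat_lit 794243198643) (nat_lit 152) (nat_lit 8854333658613) (nat_lit 0) (nat_lit 793142586417) (nat_lit 1) (nat_lit 5) (nat_lit 3) (nat_lit 4) (nat_lit 1) (nat_lit 4) (nat_lit 327) (nat_lit 248) (nat_lit 205)) (XT.nd (nat_lit 78) (nat_lit 0) (nat_lit 0) (XT.lf (nat_lit 0) (nat_lit 915968170062) (nat_lit 152) (nat_lit 10176728319753) (nat_lit 0) (nat_lit 914867204581) (nat_lit 1) (nat_lit 5) (nat_lit 3) (nat_lit 4) (nat_lit 1) (nat_lit 4) (nat_lit 328) (nat_lit 248) (nat_lit 204)) (XT.lf (nat_lit 0) (nat_lit 1055950246223) (nat_lit 152) (nat_lit 11697485609424) (nat_lit 0) (nat_lit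 1054848973565) (nat_lit 1) (nat_lit 5) (nat_lit 3) (nat_lit 4) (nat_lit 1) (nat_lit 4) (nat_lit 329) (nat_lit 248) (nat_lit 203))))))) (XT.nd (nat_lit 780) (nat_lit 0) (nat_lit 0) (XT.nd (nat_lit 390) (nat_lit 0) (nat_lit 0) (XT.nd (nat_lit 156) (nat_lit 0) (nat_lit 0) (XT.nd (nat_lit 78) (nat_lit 0) (nat_lit 0) (XT.lf (nat_lit 0) (nat_lit 1216928206878) (nat_lit 152) (nat_lit 13446359474597) (nat_lit 0) (nat_lit 1215826667108) (nat_lit 1) (nat_lit 5) (nat_lit 3) (nat_lit 4) (nat_lit 1) (nat_lit 4) (nat_lit 330) (nat_lit 248) (nat_lit 202)) (XT.lf (nat_lit 0) (nat_lit 1402051620822) (nat_lit 152) (nat_lit 15457567012634) (nat_lit 0) (nat_lit 1400949848781) (nat_lit 1) (nat_lit 5) (nat_lit 3) (nat_lit 4) (nat_lit 1) (nat_lit 4) (nat_lit 331) (nat_lit 248) (nat_lit 201))) (XT.nd (nat_lit 78) (nat_lit 0) (nat_lit 0) (XT.lf (nat_lit 0) (nat_lit 1614942467892) (nat_lit 152) (nat_lit 17770457936235)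 (nat_lit 0) (nat_lit 1613840493877) (nat_lit 1) (nat_lit 5) (nat_lit 3) (nat_lit 4) (nat_lit 1) (nat_lit 4) (nat_lit 332) (nat_lit 248) (nat_lit 200)) (XT.nd (nat_lit 78) (nat_lit 0) (nat_lit 0) (XT.lf (nat_lit 0) (nat_lit 1859766003794) (nat_lit 152) (nat_lit 20430284459125) (nat_lit 0) (nat_lit 1858663854149) (nat_lit 1) (nat_lit 5) (nat_lit 3) (nat_lit 4) (nat_lit 1) (nat_lit 4) (nat_lit 333) (nat_lit 248) (nat_lit 199)) (XT.lf (nat_lit 0) (nat_lit 2141312254228) (nat_lit 152) (nat_lit 23489086665446) (nat_lit 0) (nat_lit 2140209951861) (nat_lit 1) (nat_lit 5) (nat_lit 3) (nat_lit 4) (nat_lit 1) (nat_lit 4) (nat_lit 334) (nat_lit 248) (nat_lit 198))))) (XT.nd (nat_lit 156) (nat_lit 0) (nat_lit 0) (XT.nd (nat_lit 78) (nat_lit 0) (nat_lit 0) (XT.lf (nat_lit 0) (nat_lit 2465089732790) (nat_lit 152) (nat_lit 27006710685321) (nat_lit 0) (nat_lit 2463987297622) (nat_lit 1) (nat_lit 5) (nat_lit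 3) (nat_lit 4) (nat_lit 1) (nat_lit 4) (nat_lit 335) (nat_lit 248) (nat_lit 197)) (XT.lf (nat_lit 0) (nat_lit 2837433216235) (nat_lit 152) (nat_lit 31051979597401) (nat_lit 0) (nat_lit 2836330665587) (nat_lit 1) (nat_lit 5) (nat_lit 3) (nat_lit 4) (nat_lit 1) (nat_lit 4) (nat_lit 336) (nat_lit 248) (nat_lit 196))) (XT.nd (nat_lit 78) (nat_lit 0) (nat_lit 0) (XT.lf (nat_lit 0) (nat_lit 3265627685761) (nat_lit 152) (nat_lit 35704039967357) (nat_lit 0) (nat_lit 3264525034696) (nat_lit 1) (nat_lit 5) (nat_lit 3) (nat_lit 4) (nat_lit 1) (nat_lit 4) (nat_lit 337) (nat_lit 248) (nat_lit 195)) (XT.nd (nat_lit 78) (nat_lit 0) (nat_lit 0) (XT.lf (nat_lit 0) (nat_lit 3758050859250) (nat_lit 152) (nat_lit 41053910367644) (nat_lit 0) (nat_lit 3756948120866) (nat_lit 1) (nat_lit 5) (nat_lit 3) (nat_lit 4) (nat_lit 1) (nat_lit 4) (nat_lit 338) (nat_lit 248) (nat_lit 194)) (XT.lf (nat_lit 0) (nat_lit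 4324337103139) (nat_lit 152) (nat_lit 47206262175659) (nat_lit 0) (nat_lit 4323234288825) (nat_lit 1) (nat_lit 5) (nat_lit 3) (nat_lit 4) (nat_lit 1) (nat_lit 4) (nat_lit 339) (nat_lit 248) (nat_lit 193)))))) (XT.nd (nat_lit 390) (nat_lit 0) (nat_lit 0) (XT.nd (nat_lit 156) (nat_lit 0) (nat_lit 0) (XT.nd (nat_lit 78) (nat_lit 0) (nat_lit 0) (XT.lf (nat_lit 0) (nat_lit 4975565930896) (nat_lit 152) (nat_lit 54281467491994) (nat_lit 0) (nat_lit 4974463050557) (nat_lit 1) (nat_lit 5) (nat_lit 3) (nat_lit 4) (nat_lit 1) (nat_lit 4) (nat_lit 340) (nat_lit 248) (nat_lit 192)) (XT.lf (nat_lit 0) (nat_lit 5724478776108) (nat_lit 152) (nat_lit 62417954246751) (nat_lit 0) (nat_lit 5723375838355) (nat_lit 1) (nat_lit 5) (nat_lit 3) (nat_lit 4) (nat_lit 1) (nat_lit 4) (nat_lit 341) (nat_lit 248) (nat_lit 191))) (XT.nd (nat_lit 78) (nat_lit 0) (nat_lit 0) (XT.lf (nat_lit 0) (nat_lit 6585728281398)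 (nat_lit 152) (nat_lit 71774914572088) (nat_lit 0) (nat_lit 6584625293719) (nat_lit 1) (nat_lit 5) (nat_lit 3) (nat_lit 4) (nat_lit 1) (nat_lit 4) (nat_lit 342) (nat_lit 248) (nat_lit 190)) (XT.nd (nat_lit 78) (nat_lit 0) (nat_lit 0) (XT.lf (nat_lit 0) (nat_lit 7576164980565) (nat_lit 152) (nat_lit 82535419430893) (nat_lit 0) (nat_lit 7575061949473) (nat_lit 1) (nat_lit 5) (nat_lit 3) (nat_lit 4) (nat_lit 1) (nat_lit 4) (nat_lit 343) (nat_lit 248) (nat_lit 189)) (XT.lf (nat_lit 0) (nat_lit 8715166982941) (nat_lit 152) (nat_lit 94910000439968) (nat_lit 0) (nat_lit 8714063914099) (nat_lit 1) (nat_lit 5) (nat_lit 3) (nat_lit 4) (nat_lit 1) (nat_lit 4) (nat_lit 344) (nat_lit 248) (nat_lit 188))))) (XT.nd (nat_lit 35724) (nat_lit 0) (nat_lit 380) (XT.nd (nat_lit 78) (nat_lit 0) (nat_lit 0) (XT.lf (nat_lit 0) (nat_lit 10025019110311) (nat_lit 152) (nat_lit 109140768966882) (nat_lit 0) (nat_lit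 10023916008643) (nat_lit 1) (nat_lit 5) (nat_lit 3) (nat_lit 4) (nat_lit 1) (nat_lit 4) (nat_lit 345) (nat_lit 248) (nat_lit 187)) (XT.lf (nat_lit 0) (nat_lit 11531348904299) (nat_lit 152) (nat_lit 125506153091509) (nat_lit 0) (nat_lit 11530245774086) (nat_lit 1) (nat_lit 5) (nat_lit 3) (nat_lit 4) (nat_lit 1) (nat_lit 4) (nat_lit 346) (nat_lit 248) (nat_lit 186))) (XT.nd (nat_lit 78) (nat_lit 0) (nat_lit 0) (XT.lf (nat_lit 0) (nat_lit 1832754579) (nat_lit 76) (nat_lit 5109489524) (nat_lit 76) (nat_lit 5109489524) (nat_lit 6) (nat_lit 4) (nat_lit 7) (nat_lit 5) (nat_lit 7) (nat_lit 4) (nat_lit 282) (nat_lit 249) (nat_lit 249)) (XT.nd (nat_lit 78) (nat_lit 0) (nat_lit 0) (XT.lf (nat_lit 0) (nat_lit 15931916545) (nat_lit 76) (nat_lit 5567910981) (nat_lit 76) (nat_lit 5349039775) (nat_lit 6) (nat_lit 4) (nat_lit 7) (nat_lit 5) (nat_lit 7) (nat_lit 4) (nat_lit 283) (nat_lit 249) (nat_lit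 248)) (XT.lf (nat_lit 0) (nat_lit 29042607205) (nat_lit 76) (nat_lit 723303575) (nat_lit 76) (nat_lit 314109580) (nat_lit 6) (nat_lit 4) (nat_lit 7) (nat_lit 5) (nat_lit 7) (nat_lit 4) (nat_lit 284) (nat_lit 249) (nat_lit 247))))))))
noncomputable def xc27 : XT := (XT.nd (nat_lit 1560) (nat_lit 0) (nat_lit 0) (XT.nd (nat_lit 780) (nat_lit 152) (nat_lit 0) (XT.nd (nat_lit 390) (nat_lit 0) (nat_lit 0) (XT.nd (nat_lit 156) (nat_lit 76) (nat_lit 0) (XT.nd (nat_lit 78) (nat_lit 0) (nat_lit 0) (XT.lf (nat_lit 0) (nat_lit 5170506597) (nat_lit 152) (nat_lit 23893416530) (nat_lit 0) (nat_lit 4670774361) (nat_lit 4) (nat_lit 5) (nat_lit 6) (nat_lit 4) (nat_lit 4) (nat_lit 4) (nat_lit 285) (nat_lit 249) (nat_lit 246)) (XT.lf (nat_lit 0) (nat_lit 11093080888) (nat_lit 152) (nat_lit 16427067374) (nat_lit 0) (nat_lit 10468208329) (nat_lit 4) (nat_lit 5) (nat_lit 6) (nat_lit 4) (nat_lit 4) (nat_lit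 4) (nat_lit 286) (nat_lit 249) (nat_lit 245))) (XT.nd (nat_lit 78) (nat_lit 76) (nat_lit 0) (XT.lf (nat_lit 0) (nat_lit 17518102868) (nat_lit 152) (nat_lit 8635559585) (nat_lit 0) (nat_lit 16784412637) (nat_lit 4) (nat_lit 5) (nat_lit 6) (nat_lit 4) (nat_lit 4) (nat_lit 4) (nat_lit 287) (nat_lit 249) (nat_lit 244)) (XT.nd (nat_lit 78) (nat_lit 76) (nat_lit 0) (XT.lf (nat_lit 0) (nat_lit 24571279487) (nat_lit 152) (nat_lit 366450620) (nat_lit 0) (nat_lit 23742965194) (nat_lit 4) (nat_lit 5) (nat_lit 6) (nat_lit 4) (nat_lit 4) (nat_lit 4) (nat_lit 288) (nat_lit 249) (nat_lit 243)) (XT.lf (nat_lit 0) (nat_lit 9376837336) (nat_lit 76) (nat_lit 23402045183) (nat_lit 76) (nat_lit 22491449096) (nat_lit 3) (nat_lit 4) (nat_lit 4) (nat_lit 5) (nat_lit 4) (nat_lit 4) (nat_lit 289) (nat_lit 249) (nat_lit 242))))) (XT.nd (nat_lit 156) (nat_lit 0) (nat_lit 0) (XT.nd (nat_lit 78) (nat_lit 0) (nat_lit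 0) (XT.lf (nat_lit 0) (nat_lit 20049141479) (nat_lit 76) (nat_lit 21910125020) (nat_lit 76) (nat_lit 20927979547) (nat_lit 3) (nat_lit 4) (nat_lit 4) (nat_lit 5) (nat_lit 4) (nat_lit 4) (nat_lit 290) (nat_lit 249) (nat_lit 241)) (XT.lf (nat_lit 0) (nat_lit 31823455539) (nat_lit 76) (nat_lit 20451935250) (nat_lit 76) (nat_lit 19407572920) (nat_lit 3) (nat_lit 4) (nat_lit 4) (nat_lit 5) (nat_lit 4) (nat_lit 4) (nat_lit 291) (nat_lit 249) (nat_lit 240))) (XT.nd (nat_lit 78) (nat_lit 0) (nat_lit 0) (XT.lf (nat_lit 0) (nat_lit 44930146529) (nat_lit 76) (nat_lit 18998946073) (nat_lit 76) (nat_lit 17900482129) (nat_lit 3) (nat_lit 4) (nat_lit 4) (nat_lit 5) (nat_lit 4) (nat_lit 4) (nat_lit 292) (nat_lit 249) (nat_lit 239)) (XT.nd (nat_lit 78) (nat_lit 0) (nat_lit 0) (XT.lf (nat_lit 0) (nat_lit 59625649709) (nat_lit 76) (nat_lit 17522729441) (nat_lit 76) (nat_lit 16377220614) (nat_lit 3) (nat_lit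 4) (nat_lit 4) (nat_lit 5) (nat_lit 4) (nat_lit 4) (nat_lit 293) (nat_lit 249) (nat_lit 238)) (XT.lf (nat_lit 0) (nat_lit 76197485793) (nat_lit 76) (nat_lit 15994402853) (nat_lit 76) (nat_lit 14807985433) (nat_lit 3) (nat_lit 4) (nat_lit 4) (nat_lit 5) (nat_lit 4) (nat_lit 4) (nat_lit 294) (nat_lit 249) (nat_lit 237)))))) (XT.nd (nat_lit 390) (nat_lit 152) (nat_lit 0) (XT.nd (nat_lit 156) (nat_lit 0) (nat_lit 0) (XT.nd (nat_lit 78) (nat_lit 0) (nat_lit 0) (XT.lf (nat_lit 0) (nat_lit 94969886355) (nat_lit 76) (nat_lit 14384064269) (nat_lit 76) (nat_lit 13162074159) (nat_lit 3) (nat_lit 4) (nat_lit 4) (nat_lit 5) (nat_lit 4) (nat_lit 4) (nat_lit 295) (nat_lit 249) (nat_lit 236)) (XT.lf (nat_lit 0) (nat_lit 116310137495) (nat_lit 76) (nat_lit 12660207063) (nat_lit 76) (nat_lit 11407284179) (nat_lit 3) (nat_lit 4) (nat_lit 4) (nat_lit 5) (nat_lit 4) (nat_lit 4) (nat_lit 296) (nat_lit 249)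 (nat_lit 235))) (XT.nd (nat_lit 78) (nat_lit 0) (nat_lit 0) (XT.lf (nat_lit 0) (nat_lit 140635765865) (nat_lit 76) (nat_lit 10789103595) (nat_lit 76) (nat_lit 9509282647) (nat_lit 3) (nat_lit 4) (nat_lit 4) (nat_lit 5) (nat_lit 4) (nat_lit 4) (nat_lit 297) (nat_lit 249) (nat_lit 234)) (XT.nd (nat_lit 78) (nat_lit 0) (nat_lit 0) (XT.lf (nat_lit 0) (nat_lit 168422707672) (nat_lit 76) (nat_lit 8734145318) (nat_lit 76) (nat_lit 7430934749) (nat_lit 3) (nat_lit 4) (nat_lit 4) (nat_lit 5) (nat_lit 4) (nat_lit 4) (nat_lit 298) (nat_lit 249) (nat_lit 233)) (XT.lf (nat_lit 0) (nat_lit 200214620474) (nat_lit 76) (nat_lit 6455126528) (nat_lit 76) (nat_lit 5131577157) (nat_lit 3) (nat_lit 4) (nat_lit 4) (nat_lit 5) (nat_lit 4) (nat_lit 4) (nat_lit 299) (nat_lit 249) (nat_lit 232))))) (XT.nd (nat_lit 156) (nat_lit 76) (nat_lit 0) (XT.nd (nat_lit 78) (nat_lit 76) (nat_lit 0) (XT.lf (nat_lit 0) (nat_lit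 236633519954) (nat_lit 76) (nat_lit 3907457725) (nat_lit 76) (nat_lit 2566222440) (nat_lit 3) (nat_lit 4) (nat_lit 4) (nat_lit 5) (nat_lit 4) (nat_lit 4) (nat_lit 300) (nat_lit 249) (nat_lit 231)) (XT.lf (nat_lit 0) (nat_lit 287249056) (nat_lit 152) (nat_lit 739028868) (nat_lit 76) (nat_lit 278089685452) (nat_lit 2) (nat_lit 5) (nat_lit 4) (nat_lit 5) (nat_lit 3) (nat_lit 4) (nat_lit 301) (nat_lit 249) (nat_lit 230))) (XT.nd (nat_lit 78) (nat_lit 0) (nat_lit 0) (XT.lf (nat_lit 0) (nat_lit 3617438738) (nat_lit 152) (nat_lit 314417425240) (nat_lit 0) (nat_lit 2426145319) (nat_lit 1) (nat_lit 5) (nat_lit 3) (nat_lit 4) (nat_lit 1) (nat_lit 4) (nat_lit 302) (nat_lit 249) (nat_lit 229)) (XT.nd (nat_lit 78) (nat_lit 0) (nat_lit 0) (XT.lf (nat_lit 0) (nat_lit 7482478853) (nat_lit 152) (nat_lit 354238972626) (nat_lit 0) (nat_lit 6281073456) (nat_lit 1) (nat_lit 5) (nat_lit 3) (nat_lit 4) (nat_lit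 1) (nat_lit 4) (nat_lit 303) (nat_lit 249) (nat_lit 228)) (XT.lf (nat_lit 0) (nat_lit 11880301922) (nat_lit 152) (nat_lit 400131918136) (nat_lit 0) (nat_lit 10670103500) (nat_lit 1) (nat_lit 5) (nat_lit 3) (nat_lit 4) (nat_lit 1) (nat_lit 4) (nat_lit 304) (nat_lit 249) (nat_lit 227))))))) (XT.nd (nat_lit 780) (nat_lit 0) (nat_lit 0) (XT.nd (nat_lit 390) (nat_lit 0) (nat_lit 0) (XT.nd (nat_lit 156) (nat_lit 0) (nat_lit 0) (XT.nd (nat_lit 78) (nat_lit 0) (nat_lit 0) (XT.lf (nat_lit 0) (nat_lit 16896952308) (nat_lit 152) (nat_lit 452994167224) (nat_lit 0) (nat_lit 15679107777) (nat_lit 1) (nat_lit 5) (nat_lit 3) (nat_lit 4) (nat_lit 1) (nat_lit 4) (nat_lit 305) (nat_lit 249) (nat_lit 226)) (XT.lf (nat_lit 0) (nat_lit 22630581867) (nat_lit 152) (nat_lit 513859981287) (nat_lit 0) (nat_lit 21406088545) (nat_lit 1) (nat_lit 5) (nat_lit 3) (nat_lit 4) (nat_lit 1) (nat_lit 4) (nat_lit 306) (nat_lit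 249) (nat_lit 225))) (XT.nd (nat_lit 78) (nat_lit 0) (nat_lit 0) (XT.lf (nat_lit 0) (nat_lit 29193370307) (nat_lit 152) (nat_lit 583920213208) (nat_lit 0) (nat_lit 27963095429) (nat_lit 1) (nat_lit 5) (nat_lit 3) (nat_lit 4) (nat_lit 1) (nat_lit 4) (nat_lit 307) (nat_lit 249) (nat_lit 224)) (XT.nd (nat_lit 78) (nat_lit 0) (nat_lit 0) (XT.lf (nat_lit 0) (nat_lit 36713720011) (nat_lit 152) (nat_lit 664545606655) (nat_lit 0) (nat_lit 35478417692) (nat_lit 1) (nat_lit 5) (nat_lit 3) (nat_lit 4) (nat_lit 1) (nat_lit 4) (nat_lit 308) (nat_lit 249) (nat_lit 223)) (XT.lf (nat_lit 0) (nat_lit 45338768255) (nat_lit 152) (nat_lit 757313614977) (nat_lit 0) (nat_lit 44099094249) (nat_lit 1) (nat_lit 5) (nat_lit 3) (nat_lit 4) (nat_lit 1) (nat_lit 4) (nat_lit 309) (nat_lit 249) (nat_lit 222))))) (XT.nd (nat_lit 156) (nat_lit 0) (nat_lit 0) (XT.nd (nat_lit 78) (nat_lit 0) (nat_lit 0) (XT.lf (nat_lit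 0) (nat_lit 55237265984) (nat_lit 152) (nat_lit 864039264426) (nat_lit 0) (nat_lit 53993790511) (nat_lit 1) (nat_lit 5) (nat_lit 3) (nat_lit 4) (nat_lit 1) (nat_lit 4) (nat_lit 310) (nat_lit 249) (nat_lit 221)) (XT.lf (nat_lit 0) (nat_lit 66602879458) (nat_lit 152) (nat_lit 986810665534) (nat_lit 0) (nat_lit 65356098361) (nat_lit 1) (nat_lit 5) (nat_lit 3) (nat_lit 4) (nat_lit 1) (nat_lit 4) (nat_lit 311) (nat_lit 249) (nat_lit 220))) (XT.nd (nat_lit 78) (nat_lit 0) (nat_lit 0) (XT.lf (nat_lit 0) (nat_lit 79657979375) (nat_lit 152) (nat_lit 1128029867452) (nat_lit 0) (nat_lit 78408323823) (nat_lit 1) (nat_lit 5) (nat_lit 3) (nat_lit 4) (nat_lit 1) (nat_lit 4) (nat_lit 312) (nat_lit 249) (nat_lit 219)) (XT.nd (nat_lit 78) (nat_lit 0) (nat_lit 0) (XT.lf (nat_lit 0) (nat_lit 94657991603) (nat_lit 152) (nat_lit 1290459854566) (nat_lit 0) (nat_lit 93405836524) (nat_lit 1) (nat_lit 5) (nat_lit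 3) (nat_lit 4) (nat_lit 1) (nat_lit 4) (nat_lit 313) (nat_lit 249) (nat_lit 218)) (XT.lf (nat_lit 0) (nat_lit 111896394642) (nat_lit 152) (nat_lit 1477278604885) (nat_lit 0) (nat_lit 110642066062) (nat_lit 1) (nat_lit 5) (nat_lit 3) (nat_lit 4) (nat_lit 1) (nat_lit 4) (nat_lit 314) (nat_lit 249) (nat_lit 217)))))) (XT.nd (nat_lit 390) (nat_lit 0) (nat_lit 0) (XT.nd (nat_lit 156) (nat_lit 0) (nat_lit 0) (XT.nd (nat_lit 78) (nat_lit 0) (nat_lit 0) (XT.lf (nat_lit 0) (nat_lit 131710461595) (nat_lit 152) (nat_lit 1692141267872) (nat_lit 0) (nat_lit 130454243013) (nat_lit 1) (nat_lit 5) (nat_lit 3) (nat_lit 4) (nat_lit 1) (nat_lit 4) (nat_lit 315) (nat_lit 249) (nat_lit 216)) (XT.lf (nat_lit 0) (nat_lit 154487858989) (nat_lit 152) (nat_lit 1939251678237) (nat_lit 0) (nat_lit 153229996928) (nat_lit 1) (nat_lit 5) (nat_lit 3) (nat_lit 4) (nat_lit 1) (nat_lit 4) (nat_lit 316) (nat_lit 249) (nat_lit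 215))) (XT.nd (nat_lit 78) (nat_lit 0) (nat_lit 0) (XT.lf (nat_lit 0) (nat_lit 180674231556) (nat_lit 152) (nat_lit 2223444604878) (nat_lit 0) (nat_lit 179414940383) (nat_lit 1) (nat_lit 5) (nat_lit 3) (nat_lit 4) (nat_lit 1) (nat_lit 4) (nat_lit 317) (nat_lit 249) (nat_lit 214)) (XT.nd (nat_lit 78) (nat_lit 0) (nat_lit 0) (XT.lf (nat_lit 0) (nat_lit 210781921367) (nat_lit 152) (nat_lit 2550280344187) (nat_lit 0) (nat_lit 209521387488) (nat_lit 1) (nat_lit 5) (nat_lit 3) (nat_lit 4) (nat_lit 1) (nat_lit 4) (nat_lit 318) (nat_lit 249) (nat_lit 213)) (XT.lf (nat_lit 0) (nat_lit 245399991920) (nat_lit 152) (nat_lit 2926153508454) (nat_lit 0) (nat_lit 244138377427) (nat_lit 1) (nat_lit 5) (nat_lit 3) (nat_lit 4) (nat_lit 1) (nat_lit 4) (nat_lit 319) (nat_lit 249) (nat_lit 212))))) (XT.nd (nat_lit 234) (nat_lit 0) (nat_lit 0) (XT.nd (nat_lit 78) (nat_lit 0) (nat_lit 0) (XT.lf (nat_lit 0)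 (nat_lit 285205753291) (nat_lit 152) (nat_lit 3358418137850) (nat_lit 0) (nat_lit 283943199133) (nat_lit 1) (nat_lit 5) (nat_lit 3) (nat_lit 4) (nat_lit 1) (nat_lit 4) (nat_lit 320) (nat_lit 249) (nat_lit 211)) (XT.nd (nat_lit 78) (nat_lit 0) (nat_lit 0) (XT.lf (nat_lit 0) (nat_lit 330978013853) (nat_lit 152) (nat_lit 3855531583819) (nat_lit 0) (nat_lit 329714642595) (nat_lit 1) (nat_lit 5) (nat_lit 3) (nat_lit 4) (nat_lit 1) (nat_lit 4) (nat_lit 321) (nat_lit 249) (nat_lit 210)) (XT.lf (nat_lit 0) (nat_lit 383612317835) (nat_lit 152) (nat_lit 4427219979000) (nat_lit 0) (nat_lit 382348236056) (nat_lit 1) (nat_lit 5) (nat_lit 3) (nat_lit 4) (nat_lit 1) (nat_lit 4) (nat_lit 322) (nat_lit 249) (nat_lit 209)))) (XT.nd (nat_lit 78) (nat_lit 0) (nat_lit 0) (XT.lf (nat_lit 0) (nat_lit 444138466838) (nat_lit 152) (nat_lit 5084668531125) (nat_lit 0) (nat_lit 442873767214) (nat_lit 1) (nat_lit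 5) (nat_lit 3) (nat_lit 4) (nat_lit 1) (nat_lit 4) (nat_lit 323) (nat_lit 249) (nat_lit 208)) (XT.nd (nat_lit 78) (nat_lit 0) (nat_lit 0) (XT.lf (nat_lit 0) (nat_lit 513740668123) (nat_lit 152) (nat_lit 5840740364040) (nat_lit 0) (nat_lit 512475431243) (nat_lit 1) (nat_lit 5) (nat_lit 3) (nat_lit 4) (nat_lit 1) (nat_lit 4) (nat_lit 324) (nat_lit 249) (nat_lit 207)) (XT.lf (nat_lit 0) (nat_lit 593780703890) (nat_lit 152) (nat_lit 6710228187518) (nat_lit 0) (nat_lit 592514999831) (nat_lit 1) (nat_lit 5) (nat_lit 3) (nat_lit 4) (nat_lit 1) (nat_lit 4) (nat_lit 325) (nat_lit 249) (nat_lit 206))))))))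
noncomputable def xc28 : XT := (XT.nd (nat_lit 2652) (nat_lit 0) (nat_lit 0) (XT.nd (nat_lit 780) (nat_lit 0) (nat_lit 0) (XT.nd (nat_lit 390) (nat_lit 0) (nat_lit 0) (XT.nd (nat_lit 156) (nat_lit 0) (nat_lit 0) (XT.nd (nat_lit 78) (nat_lit 0) (nat_lit 0) (XT.lf (nat_lit 0) (nat_lit 685824574839) (nat_lit 152) (nat_lit 7710143719846) (nat_lit 0) (nat_lit 684558464537) (nat_lit 1) (nat_lit 5) (nat_lit 3) (nat_lit 4) (nat_lit 1) (nat_lit 4) (nat_lit 326) (nat_lit 249) (nat_lit 205)) (XT.lf (nat_lit 0) (nat_lit 791673139315) (nat_lit 152) (nat_lit 8860050525787) (nat_lit 0) (nat_lit 790406675758) (nat_lit 1) (nat_lit 5) (nat_lit 3) (nat_lit 4) (nat_lit 1) (nat_lit 4) (nat_lit 327) (nat_lit 249) (nat_lit 204))) (XT.nd (nat_lit 78) (nat_lit 0) (nat_lit 0) (XT.lf (nat_lit 0) (nat_lit 913397347492) (nat_lit 152) (nat_lit 10182446781978) (nat_lit 0) (nat_lit 912130576757) (nat_lit 1) (nat_lit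 5) (nat_lit 3) (nat_lit 4) (nat_lit 1) (nat_lit 4) (nat_lit 328) (nat_lit 249) (nat_lit 203)) (XT.nd (nat_lit 78) (nat_lit 0) (nat_lit 0) (XT.lf (nat_lit 0) (nat_lit 1053378759965) (nat_lit 152) (nat_lit 11703205458649) (nat_lit 0) (nat_lit 1052111722118) (nat_lit 1) (nat_lit 5) (nat_lit 3) (nat_lit 4) (nat_lit 1) (nat_lit 4) (nat_lit 329) (nat_lit 249) (nat_lit 202)) (XT.lf (nat_lit 0) (nat_lit 1214356143499) (nat_lit 152) (nat_lit 13452080529909) (nat_lit 0) (nat_lit 1213088873382) (nat_lit 1) (nat_lit 5) (nat_lit 3) (nat_lit 4) (nat_lit 1) (nat_lit 4) (nat_lit 330) (nat_lit 249) (nat_lit 201))))) (XT.nd (nat_lit 156) (nat_lit 0) (nat_lit 0) (XT.nd (nat_lit 78) (nat_lit 0) (nat_lit 0) (XT.lf (nat_lit 0) (nat_lit 1399479055599) (nat_lit 152) (nat_lit 15463289116718) (nat_lit 0) (nat_lit 1398211583507) (nat_lit 1) (nat_lit 5) (nat_lit 3) (nat_lit 4) (nat_lit 1) (nat_lit 4) (nat_lit 331)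 (nat_lit 249) (nat_lit 200)) (XT.lf (nat_lit 0) (nat_lit 1612369466283) (nat_lit 152) (nat_lit 17776180952296) (nat_lit 0) (nat_lit 1611101818561) (nat_lit 1) (nat_lit 5) (nat_lit 3) (nat_lit 4) (nat_lit 1) (nat_lit 4) (nat_lit 332) (nat_lit 249) (nat_lit 199))) (XT.nd (nat_lit 78) (nat_lit 0) (nat_lit 0) (XT.lf (nat_lit 0) (nat_lit 1857192622718) (nat_lit 152) (nat_lit 20436008268207) (nat_lit 0) (nat_lit 1855924822275) (nat_lit 1) (nat_lit 5) (nat_lit 3) (nat_lit 4) (nat_lit 1) (nat_lit 4) (nat_lit 333) (nat_lit 249) (nat_lit 198)) (XT.nd (nat_lit 78) (nat_lit 0) (nat_lit 0) (XT.lf (nat_lit 0) (nat_lit 2138738543182) (nat_lit 152) (nat_lit 23494811164113) (nat_lit 0) (nat_lit 2137470609937) (nat_lit 1) (nat_lit 5) (nat_lit 3) (nat_lit 4) (nat_lit 1) (nat_lit 4) (nat_lit 334) (nat_lit 249) (nat_lit 197)) (XT.lf (nat_lit 0) (nat_lit 2462515734813) (nat_lit 152) (nat_lit 27012435783627)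 (nat_lit 0) (nat_lit 2461247686088) (nat_lit 1) (nat_lit 5) (nat_lit 3) (nat_lit 4) (nat_lit 1) (nat_lit 4) (nat_lit 335) (nat_lit 249) (nat_lit 196)))))) (XT.nd (nat_lit 390) (nat_lit 0) (nat_lit 0) (XT.nd (nat_lit 156) (nat_lit 0) (nat_lit 0) (XT.nd (nat_lit 78) (nat_lit 0) (nat_lit 0) (XT.lf (nat_lit 0) (nat_lit 2834858968753) (nat_lit 152) (nat_lit 31057705217132) (nat_lit 0) (nat_lit 2833590819612) (nat_lit 1) (nat_lit 5) (nat_lit 3) (nat_lit 4) (nat_lit 1) (nat_lit 4) (nat_lit 336) (nat_lit 249) (nat_lit 195)) (XT.lf (nat_lit 0) (nat_lit 3263053221318) (nat_lit 152) (nat_lit 35709766040500) (nat_lit 0) (nat_lit 3261784984857) (nat_lit 1) (nat_lit 5) (nat_lit 3) (nat_lit 4) (nat_lit 1) (nat_lit 4) (nat_lit 337) (nat_lit 249) (nat_lit 194))) (XT.nd (nat_lit 78) (nat_lit 0) (nat_lit 0) (XT.lf (nat_lit 0) (nat_lit 3755476206145) (nat_lit 152) (nat_lit 41059636835060) (nat_lit 0) (nat_lit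 3754207893755) (nat_lit 1) (nat_lit 5) (nat_lit 3) (nat_lit 4) (nat_lit 1) (nat_lit 4) (nat_lit 338) (nat_lit 249) (nat_lit 193)) (XT.nd (nat_lit 78) (nat_lit 0) (nat_lit 0) (XT.lf (nat_lit 0) (nat_lit 4321762285981) (nat_lit 152) (nat_lit 47211988985920) (nat_lit 0) (nat_lit 4320493907564) (nat_lit 1) (nat_lit 5) (nat_lit 3) (nat_lit 4) (nat_lit 1) (nat_lit 4) (nat_lit 339) (nat_lit 249) (nat_lit 192)) (XT.lf (nat_lit 0) (nat_lit 4972990971082) (nat_lit 152) (nat_lit 54287194600382) (nat_lit 0) (nat_lit 4971722535252) (nat_lit 1) (nat_lit 5) (nat_lit 3) (nat_lit 4) (nat_lit 1) (nat_lit 4) (nat_lit 340) (nat_lit 249) (nat_lit 191))))) (XT.nd (nat_lit 156) (nat_lit 0) (nat_lit 0) (XT.nd (nat_lit 78) (nat_lit 0) (nat_lit 0) (XT.lf (nat_lit 0) (nat_lit 5721903692246) (nat_lit 152) (nat_lit 62423681614379) (nat_lit 0) (nat_lit 5720635206491) (nat_lit 1) (nat_lit 5) (nat_lit 3) (nat_lit 4)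 (nat_lit 1) (nat_lit 4) (nat_lit 341) (nat_lit 249) (nat_lit 190)) (XT.lf (nat_lit 0) (nat_lit 6583153089668) (nat_lit 152) (nat_lit 71780642165143) (nat_lit 0) (nat_lit 6581884560499) (nat_lit 1) (nat_lit 5) (nat_lit 3) (nat_lit 4) (nat_lit 1) (nat_lit 4) (nat_lit 342) (nat_lit 249) (nat_lit 189))) (XT.nd (nat_lit 78) (nat_lit 0) (nat_lit 0) (XT.lf (nat_lit 0) (nat_lit 7573589695037) (nat_lit 152) (nat_lit 82541147219970) (nat_lit 0) (nat_lit 7572321128118) (nat_lit 1) (nat_lit 5) (nat_lit 3) (nat_lit 4) (nat_lit 1) (nat_lit 4) (nat_lit 343) (nat_lit 249) (nat_lit 188)) (XT.nd (nat_lit 78) (nat_lit 0) (nat_lit 0) (XT.lf (nat_lit 0) (nat_lit 8712591615849) (nat_lit 152) (nat_lit 94915728399500) (nat_lit 0) (nat_lit 8711323016104) (nat_lit 1) (nat_lit 5) (nat_lit 3) (nat_lit 4) (nat_lit 1) (nat_lit 4) (nat_lit 344) (nat_lit 249) (nat_lit 187)) (XT.lf (nat_lit 0) (nat_lit 10022443672294)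 (nat_lit 152) (nat_lit 109146497074635) (nat_lit 0) (nat_lit 10021175044004) (nat_lit 1) (nat_lit 5) (nat_lit 3) (nat_lit 4) (nat_lit 1) (nat_lit 4) (nat_lit 345) (nat_lit 249) (nat_lit 186))))))) (XT.nd (nat_lit 35022) (nat_lit 0) (nat_lit 152) (XT.nd (nat_lit 34632) (nat_lit 0) (nat_lit 228) (XT.nd (nat_lit 34398) (nat_lit 0) (nat_lit 380) (XT.nd (nat_lit 78) (nat_lit 0) (nat_lit 0) (XT.lf (nat_lit 0) (nat_lit 81694214429749) (nat_lit 152) (nat_lit 887818238862049) (nat_lit 0) (nat_lit 81692945634549) (nat_lit 1) (nat_lit 5) (nat_lit 3) (nat_lit 4) (nat_lit 1) (nat_lit 4) (nat_lit 360) (nat_lit 249) (nat_lit 171)) (XT.lf (nat_lit 0) (nat_lit 93951309000328) (nat_lit 152) (nat_lit 1020984386004041) (nat_lit 0) (nat_lit 93950040202075) (nat_lit 1) (nat_lit 5) (nat_lit 3) (nat_lit 4) (nat_lit 1) (nat_lit 4) (nat_lit 361) (nat_lit 249) (nat_lit 170))) (XT.nd (nat_lit 78) (nat_lit 76) (nat_lit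 0) (XT.lf (nat_lit 0) (nat_lit 673516493) (nat_lit 152) (nat_lit 8504004265) (nat_lit 0) (nat_lit 673516493) (nat_lit 7) (nat_lit 5) (nat_lit 9) (nat_lit 4) (nat_lit 7) (nat_lit 4) (nat_lit 280) (nat_lit 250) (nat_lit 250)) (XT.nd (nat_lit 78) (nat_lit 76) (nat_lit 0) (XT.lf (nat_lit 0) (nat_lit 7353721505) (nat_lit 152) (nat_lit 7284696369) (nat_lit 0) (nat_lit 7102019618) (nat_lit 7) (nat_lit 5) (nat_lit 9) (nat_lit 4) (nat_lit 7) (nat_lit 4) (nat_lit 281) (nat_lit 250) (nat_lit 249)) (XT.lf (nat_lit 0) (nat_lit 3132937295) (nat_lit 76) (nat_lit 10740326983) (nat_lit 76) (nat_lit 10269753889) (nat_lit 6) (nat_lit 4) (nat_lit 7) (nat_lit 5) (nat_lit 7) (nat_lit 4) (nat_lit 282) (nat_lit 250) (nat_lit 248))))) (XT.nd (nat_lit 156) (nat_lit 152) (nat_lit 0) (XT.nd (nat_lit 78) (nat_lit 0) (nat_lit 0) (XT.lf (nat_lit 0) (nat_lit 14936238712) (nat_lit 76) (nat_lit 6323733740) (nat_lit 76)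 (nat_lit 5662837857) (nat_lit 6) (nat_lit 4) (nat_lit 7) (nat_lit 5) (nat_lit 7) (nat_lit 4) (nat_lit 283) (nat_lit 250) (nat_lit 247)) (XT.lf (nat_lit 0) (nat_lit 27644228529) (nat_lit 76) (nat_lit 1683017484) (nat_lit 76) (nat_lit 856623525) (nat_lit 6) (nat_lit 4) (nat_lit 7) (nat_lit 5) (nat_lit 7) (nat_lit 4) (nat_lit 284) (nat_lit 250) (nat_lit 246))) (XT.nd (nat_lit 78) (nat_lit 0) (nat_lit 0) (XT.lf (nat_lit 0) (nat_lit 4358584432) (nat_lit 152) (nat_lit 26016211263) (nat_lit 0) (nat_lit 3514840666) (nat_lit 4) (nat_lit 5) (nat_lit 6) (nat_lit 4) (nat_lit 4) (nat_lit 4) (nat_lit 285) (nat_lit 250) (nat_lit 245)) (XT.nd (nat_lit 78) (nat_lit 0) (nat_lit 0) (XT.lf (nat_lit 0) (nat_lit 10101652465) (nat_lit 152) (nat_lit 18919533614) (nat_lit 0) (nat_lit 9149091027) (nat_lit 4) (nat_lit 5) (nat_lit 6) (nat_lit 4) (nat_lit 4) (nat_lit 4) (nat_lit 286) (nat_lit 250) (nat_lit 244))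 (XT.lf (nat_lit 0) (nat_lit 16370582046) (nat_lit 152) (nat_lit 11449479310) (nat_lit 0) (nat_lit 15323396546) (nat_lit 4) (nat_lit 5) (nat_lit 6) (nat_lit 4) (nat_lit 4) (nat_lit 4) (nat_lit 287) (nat_lit 250) (nat_lit 243)))))) (XT.nd (nat_lit 390) (nat_lit 0) (nat_lit 0) (XT.nd (nat_lit 156) (nat_lit 0) (nat_lit 0) (XT.nd (nat_lit 78) (nat_lit 76) (nat_lit 0) (XT.lf (nat_lit 0) (nat_lit 23288026145) (nat_lit 152) (nat_lit 3459895114) (nat_lit 0) (nat_lit 22158558852) (nat_lit 4) (nat_lit 5) (nat_lit 6) (nat_lit 4) (nat_lit 4) (nat_lit 4) (nat_lit 288) (nat_lit 250) (nat_lit 242)) (XT.lf (nat_lit 0) (nat_lit 5714259850) (nat_lit 76) (nat_lit 25511681524) (nat_lit 76) (nat_lit 24310664845) (nat_lit 3) (nat_lit 4) (nat_lit 4) (nat_lit 5) (nat_lit 4) (nat_lit 4) (nat_lit 289) (nat_lit 250) (nat_lit 241))) (XT.nd (nat_lit 78) (nat_lit 0) (nat_lit 0) (XT.lf (nat_lit 0) (nat_lit 16154547387)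 (nat_lit 76) (nat_lit 24139537369) (nat_lit 76) (nat_lit 22876303833) (nat_lit 3) (nat_lit 4) (nat_lit 4) (nat_lit 5) (nat_lit 4) (nat_lit 4) (nat_lit 290) (nat_lit 250) (nat_lit 240)) (XT.nd (nat_lit 78) (nat_lit 0) (nat_lit 0) (XT.lf (nat_lit 0) (nat_lit 27727107875) (nat_lit 76) (nat_lit 22785500650) (nat_lit 76) (nat_lit 21468165499) (nat_lit 3) (nat_lit 4) (nat_lit 4) (nat_lit 5) (nat_lit 4) (nat_lit 4) (nat_lit 291) (nat_lit 250) (nat_lit 239)) (XT.lf (nat_lit 0) (nat_lit 40658360977) (nat_lit 76) (nat_lit 21423079344) (nat_lit 76) (nat_lit 20058699310) (nat_lit 3) (nat_lit 4) (nat_lit 4) (nat_lit 5) (nat_lit 4) (nat_lit 4) (nat_lit 292) (nat_lit 250) (nat_lit 238))))) (XT.nd (nat_lit 156) (nat_lit 0) (nat_lit 0) (XT.nd (nat_lit 78) (nat_lit 0) (nat_lit 0) (XT.lf (nat_lit 0) (nat_lit 55201309472) (nat_lit 76) (nat_lit 20025617381) (nat_lit 76) (nat_lit 18620328754) (nat_lit 3)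 (nat_lit 4) (nat_lit 4) (nat_lit 5) (nat_lit 4) (nat_lit 4) (nat_lit 293) (nat_lit 250) (nat_lit 237)) (XT.lf (nat_lit 0) (nat_lit 71640489307) (nat_lit 76) (nat_lit 18565773115) (nat_lit 76) (nat_lit 17124911798) (nat_lit 3) (nat_lit 4) (nat_lit 4) (nat_lit 5) (nat_lit 4) (nat_lit 4) (nat_lit 294) (nat_lit 250) (nat_lit 236))) (XT.nd (nat_lit 78) (nat_lit 0) (nat_lit 0) (XT.lf (nat_lit 0) (nat_lit 90297536611) (nat_lit 76) (nat_lit 17014984376) (nat_lit 76) (nat_lit 15543190285) (nat_lit 3) (nat_lit 4) (nat_lit 4) (nat_lit 5) (nat_lit 4) (nat_lit 4) (nat_lit 295) (nat_lit 250) (nat_lit 235)) (XT.nd (nat_lit 78) (nat_lit 0) (nat_lit 0) (XT.lf (nat_lit 0) (nat_lit 111537480569) (nat_lit 76) (nat_lit 15342909644) (nat_lit 76) (nat_lit 13844217488) (nat_lit 3) (nat_lit 4) (nat_lit 4) (nat_lit 5) (nat_lit 4) (nat_lit 4) (nat_lit 296) (nat_lit 250) (nat_lit 234)) (XT.lf (nat_lit 0) (nat_lit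 135775885303) (nat_lit 76) (nat_lit 13516834413) (nat_lit 76) (nat_lit 11994752637) (nat_lit 3) (nat_lit 4) (nat_lit 4) (nat_lit 5) (nat_lit 4) (nat_lit 4) (nat_lit 297) (nat_lit 250) (nat_lit 233))))))))
noncomputable def xc29 : XT := (XT.nd (nat_lit 1560) (nat_lit 0) (nat_lit 0) (XT.nd (nat_lit 780) (nat_lit 0) (nat_lit 0) (XT.nd (nat_lit 390) (nat_lit 0) (nat_lit 0) (XT.nd (nat_lit 156) (nat_lit 152) (nat_lit 0) (XT.nd (nat_lit 78) (nat_lit 0) (nat_lit 0) (XT.lf (nat_lit 0) (nat_lit 163486980469) (nat_lit 76) (nat_lit 11501031126) (nat_lit 76) (nat_lit 9958610549) (nat_lit 3) (nat_lit 4) (nat_lit 4) (nat_lit 5) (nat_lit 4) (nat_lit 4) (nat_lit 298) (nat_lit 250) (nat_lit 232)) (XT.lf (nat_lit 0) (nat_lit 195212939670) (nat_lit 76) (nat_lit 9256060152) (nat_lit 76) (nat_lit 7695953661) (nat_lit 3) (nat_lit 4) (nat_lit 4) (nat_lit 5) (nat_lit 4) (nat_lit 4) (nat_lit 299) (nat_lit 250)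 (nat_lit 231))) (XT.nd (nat_lit 78) (nat_lit 152) (nat_lit 0) (XT.lf (nat_lit 0) (nat_lit 231574488194) (nat_lit 76) (nat_lit 6737998147) (nat_lit 76) (nat_lit 5162512601) (nat_lit 3) (nat_lit 4) (nat_lit 4) (nat_lit 5) (nat_lit 4) (nat_lit 4) (nat_lit 300) (nat_lit 250) (nat_lit 230)) (XT.nd (nat_lit 78) (nat_lit 152) (nat_lit 0) (XT.lf (nat_lit 0) (nat_lit 273283047643) (nat_lit 76) (nat_lit 3897578680) (nat_lit 76) (nat_lit 2308720041) (nat_lit 3) (nat_lit 4) (nat_lit 4) (nat_lit 5) (nat_lit 4) (nat_lit 4) (nat_lit 301) (nat_lit 250) (nat_lit 229)) (XT.lf (nat_lit 0) (nat_lit 223808354) (nat_lit 76) (nat_lit 624701305) (nat_lit 152) (nat_lit 320057002408) (nat_lit 1) (nat_lit 5) (nat_lit 2) (nat_lit 5) (nat_lit 3) (nat_lit 4) (nat_lit 302) (nat_lit 250) (nat_lit 228))))) (XT.nd (nat_lit 156) (nat_lit 0) (nat_lit 0) (XT.nd (nat_lit 78) (nat_lit 0) (nat_lit 0) (XT.lf (nat_lit 0) (nat_lit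 4665834289) (nat_lit 152) (nat_lit 360523042162) (nat_lit 0) (nat_lit 3265313078) (nat_lit 1) (nat_lit 5) (nat_lit 3) (nat_lit 4) (nat_lit 1) (nat_lit 4) (nat_lit 303) (nat_lit 250) (nat_lit 227)) (XT.lf (nat_lit 0) (nat_lit 9044659152) (nat_lit 152) (nat_lit 406455690812) (nat_lit 0) (nat_lit 7636491832) (nat_lit 1) (nat_lit 5) (nat_lit 3) (nat_lit 4) (nat_lit 1) (nat_lit 4) (nat_lit 304) (nat_lit 250) (nat_lit 226))) (XT.nd (nat_lit 78) (nat_lit 0) (nat_lit 0) (XT.lf (nat_lit 0) (nat_lit 14044789359) (nat_lit 152) (nat_lit 459352464371) (nat_lit 0) (nat_lit 12629973249) (nat_lit 1) (nat_lit 5) (nat_lit 3) (nat_lit 4) (nat_lit 1) (nat_lit 4) (nat_lit 305) (nat_lit 250) (nat_lit 225)) (XT.nd (nat_lit 78) (nat_lit 0) (nat_lit 0) (XT.lf (nat_lit 0) (nat_lit 19764053544) (nat_lit 152) (nat_lit 520248299712) (nat_lit 0) (nat_lit 18343455878) (nat_lit 1) (nat_lit 5) (nat_lit 3) (nat_lit 4)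 (nat_lit 1) (nat_lit 4) (nat_lit 306) (nat_lit 250) (nat_lit 224)) (XT.lf (nat_lit 0) (nat_lit 26314350355) (nat_lit 152) (nat_lit 590334637092) (nat_lit 0) (nat_lit 24888725248) (nat_lit 1) (nat_lit 5) (nat_lit 3) (nat_lit 4) (nat_lit 1) (nat_lit 4) (nat_lit 307) (nat_lit 250) (nat_lit 223)))))) (XT.nd (nat_lit 390) (nat_lit 0) (nat_lit 0) (XT.nd (nat_lit 156) (nat_lit 0) (nat_lit 0) (XT.nd (nat_lit 78) (nat_lit 0) (nat_lit 0) (XT.lf (nat_lit 0) (nat_lit 33823837773) (nat_lit 152) (nat_lit 670982730939) (nat_lit 0) (nat_lit 32393840979) (nat_lit 1) (nat_lit 5) (nat_lit 3) (nat_lit 4) (nat_lit 1) (nat_lit 4) (nat_lit 308) (nat_lit 250) (nat_lit 222)) (XT.lf (nat_lit 0) (nat_lit 42439440552) (nat_lit 152) (nat_lit 763770478740) (nat_lit 0) (nat_lit 41005642290) (nat_lit 1) (nat_lit 5) (nat_lit 3) (nat_lit 4) (nat_lit 1) (nat_lit 4) (nat_lit 309) (nat_lit 250) (nat_lit 221))) (XT.nd (nat_lit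 78) (nat_lit 0) (nat_lit 0) (XT.lf (nat_lit 0) (nat_lit 52329724832) (nat_lit 152) (nat_lit 870513292952) (nat_lit 0) (nat_lit 50892620947) (nat_lit 1) (nat_lit 5) (nat_lit 3) (nat_lit 4) (nat_lit 1) (nat_lit 4) (nat_lit 310) (nat_lit 250) (nat_lit 220)) (XT.nd (nat_lit 78) (nat_lit 0) (nat_lit 0) (XT.lf (nat_lit 0) (nat_lit 63688196177) (nat_lit 152) (nat_lit 993299619941) (nat_lit 0) (nat_lit 62248217836) (nat_lit 1) (nat_lit 5) (nat_lit 3) (nat_lit 4) (nat_lit 1) (nat_lit 4) (nat_lit 311) (nat_lit 250) (nat_lit 219)) (XT.lf (nat_lit 0) (nat_lit 76737085546) (nat_lit 152) (nat_lit 1134531800886) (nat_lit 0) (nat_lit 75294607679) (nat_lit 1) (nat_lit 5) (nat_lit 3) (nat_lit 4) (nat_lit 1) (nat_lit 4) (nat_lit 312) (nat_lit 250) (nat_lit 218))))) (XT.nd (nat_lit 156) (nat_lit 0) (nat_lit 0) (XT.nd (nat_lit 78) (nat_lit 0) (nat_lit 0) (XT.lf (nat_lit 0) (nat_lit 91731697298) (nat_lit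 152) (nat_lit 1296973074111) (nat_lit 0) (nat_lit 90287045930) (nat_lit 1) (nat_lit 5) (nat_lit 3) (nat_lit 4) (nat_lit 1) (nat_lit 4) (nat_lit 313) (nat_lit 250) (nat_lit 217)) (XT.lf (nat_lit 0) (nat_lit 108965404271) (nat_lit 152) (nat_lit 1483801638439) (nat_lit 0) (nat_lit 107518862901) (nat_lit 1) (nat_lit 5) (nat_lit 3) (nat_lit 4) (nat_lit 1) (nat_lit 4) (nat_lit 314) (nat_lit 250) (nat_lit 216))) (XT.nd (nat_lit 78) (nat_lit 0) (nat_lit 0) (XT.lf (nat_lit 0) (nat_lit 128775387688) (nat_lit 152) (nat_lit 1698672835347) (nat_lit 0) (nat_lit 127327202839) (nat_lit 1) (nat_lit 5) (nat_lit 3) (nat_lit 4) (nat_lit 1) (nat_lit 4) (nat_lit 315) (nat_lit 250) (nat_lit 215)) (XT.nd (nat_lit 78) (nat_lit 0) (nat_lit 0) (XT.lf (nat_lit 0) (nat_lit 151549234182) (nat_lit 152) (nat_lit 1945790666512) (nat_lit 0) (nat_lit 150099620220) (nat_lit 1) (nat_lit 5) (nat_lit 3) (nat_lit 4) (nat_lit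 1) (nat_lit 4) (nat_lit 316) (nat_lit 250) (nat_lit 214)) (XT.lf (nat_lit 0) (nat_lit 177732519009) (nat_lit 152) (nat_lit 2229990046024) (nat_lit 0) (nat_lit 176281662341) (nat_lit 1) (nat_lit 5) (nat_lit 3) (nat_lit 4) (nat_lit 1) (nat_lit 4) (nat_lit 317) (nat_lit 250) (nat_lit 213))))))) (XT.nd (nat_lit 780) (nat_lit 0) (nat_lit 0) (XT.nd (nat_lit 390) (nat_lit 0) (nat_lit 0) (XT.nd (nat_lit 156) (nat_lit 0) (nat_lit 0) (XT.nd (nat_lit 78) (nat_lit 0) (nat_lit 0) (XT.lf (nat_lit 0) (nat_lit 207837523830) (nat_lit 152) (nat_lit 2556831396524) (nat_lit 0) (nat_lit 206385586548) (nat_lit 1) (nat_lit 5) (nat_lit 3) (nat_lit 4) (nat_lit 1) (nat_lit 4) (nat_lit 318) (nat_lit 250) (nat_lit 212)) (XT.lf (nat_lit 0) (nat_lit 242453259608) (nat_lit 152) (nat_lit 2932709440089) (nat_lit 0) (nat_lit 241000382662) (nat_lit 1) (nat_lit 5) (nat_lit 3) (nat_lit 4) (nat_lit 1) (nat_lit 4) (nat_lit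 319) (nat_lit 250) (nat_lit 211))) (XT.nd (nat_lit 78) (nat_lit 0) (nat_lit 0) (XT.lf (nat_lit 0) (nat_lit 282256990739) (nat_lit 152) (nat_lit 3364978312351) (nat_lit 0) (nat_lit 280803296693) (nat_lit 1) (nat_lit 5) (nat_lit 3) (nat_lit 4) (nat_lit 1) (nat_lit 4) (nat_lit 320) (nat_lit 250) (nat_lit 210)) (XT.nd (nat_lit 78) (nat_lit 0) (nat_lit 0) (XT.lf (nat_lit 0) (nat_lit 328027485876) (nat_lit 152) (nat_lit 3862095447770) (nat_lit 0) (nat_lit 326573081309) (nat_lit 1) (nat_lit 5) (nat_lit 3) (nat_lit 4) (nat_lit 1) (nat_lit 4) (nat_lit 321) (nat_lit 250) (nat_lit 209)) (XT.lf (nat_lit 0) (nat_lit 380660254707) (nat_lit 152) (nat_lit 4433787051168) (nat_lit 0) (nat_lit 379205232294) (nat_lit 1) (nat_lit 5) (nat_lit 3) (nat_lit 4) (nat_lit 1) (nat_lit 4) (nat_lit 322) (nat_lit 250) (nat_lit 208))))) (XT.nd (nat_lit 156) (nat_lit 0) (nat_lit 0) (XT.nd (nat_lit 78) (nat_lit 0) (nat_lit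 0) (XT.lf (nat_lit 0) (nat_lit 441185068794) (nat_lit 152) (nat_lit 5091238393047) (nat_lit 0) (nat_lit 439729509125) (nat_lit 1) (nat_lit 5) (nat_lit 3) (nat_lit 4) (nat_lit 1) (nat_lit 4) (nat_lit 323) (nat_lit 250) (nat_lit 207)) (XT.lf (nat_lit 0) (nat_lit 510786109283) (nat_lit 152) (nat_lit 5847312651835) (nat_lit 0) (nat_lit 509330082436) (nat_lit 1) (nat_lit 5) (nat_lit 3) (nat_lit 4) (nat_lit 1) (nat_lit 4) (nat_lit 324) (nat_lit 250) (nat_lit 206))) (XT.nd (nat_lit 78) (nat_lit 0) (nat_lit 0) (XT.lf (nat_lit 0) (nat_lit 590825135663) (nat_lit 152) (nat_lit 6716802584768) (nat_lit 0) (nat_lit 589368702573) (nat_lit 1) (nat_lit 5) (nat_lit 3) (nat_lit 4) (nat_lit 1) (nat_lit 4) (nat_lit 325) (nat_lit 250) (nat_lit 205)) (XT.nd (nat_lit 78) (nat_lit 0) (nat_lit 0) (XT.lf (nat_lit 0) (nat_lit 682868128884) (nat_lit 152) (nat_lit 7716719951404) (nat_lit 0) (nat_lit 681411342539)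 (nat_lit 1) (nat_lit 5) (nat_lit 3) (nat_lit 4) (nat_lit 1) (nat_lit 4) (nat_lit 326) (nat_lit 250) (nat_lit 204)) (XT.lf (nat_lit 0) (nat_lit 788715930118) (nat_lit 152) (nat_lit 8866628352396) (nat_lit 0) (nat_lit 787258836595) (nat_lit 1) (nat_lit 5) (nat_lit 3) (nat_lit 4) (nat_lit 1) (nat_lit 4) (nat_lit 327) (nat_lit 250) (nat_lit 203)))))) (XT.nd (nat_lit 390) (nat_lit 0) (nat_lit 0) (XT.nd (nat_lit 156) (nat_lit 0) (nat_lit 0) (XT.nd (nat_lit 78) (nat_lit 0) (nat_lit 0) (XT.lf (nat_lit 0) (nat_lit 910439474606) (nat_lit 152) (nat_lit 10189025995588) (nat_lit 0) (nat_lit 908982113971) (nat_lit 1) (nat_lit 5) (nat_lit 3) (nat_lit 4) (nat_lit 1) (nat_lit 4) (nat_lit 328) (nat_lit 250) (nat_lit 202)) (XT.lf (nat_lit 0) (nat_lit 1050420309958) (nat_lit 152) (nat_lit 11709785878347) (nat_lit 0) (nat_lit 1048962717053) (nat_lit 1) (nat_lit 5) (nat_lit 3) (nat_lit 4) (nat_lit 1) (nat_lit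 4) (nat_lit 329) (nat_lit 250) (nat_lit 201))) (XT.nd (nat_lit 78) (nat_lit 0) (nat_lit 0) (XT.lf (nat_lit 0) (nat_lit 1211397191648) (nat_lit 152) (nat_lit 13458661998379) (nat_lit 0) (nat_lit 1209939396768) (nat_lit 1) (nat_lit 5) (nat_lit 3) (nat_lit 4) (nat_lit 1) (nat_lit 4) (nat_lit 330) (nat_lit 250) (nat_lit 200)) (XT.nd (nat_lit 78) (nat_lit 0) (nat_lit 0) (XT.lf (nat_lit 0) (nat_lit 1396519667362) (nat_lit 152) (nat_lit 15469871497163) (nat_lit 0) (nat_lit 1395061696852) (nat_lit 1) (nat_lit 5) (nat_lit 3) (nat_lit 4) (nat_lit 1) (nat_lit 4) (nat_lit 331) (nat_lit 250) (nat_lit 199)) (XT.lf (nat_lit 0) (nat_lit 1609409698580) (nat_lit 152) (nat_lit 17782764125763) (nat_lit 0) (nat_lit 1607951575348) (nat_lit 1) (nat_lit 5) (nat_lit 3) (nat_lit 4) (nat_lit 1) (nat_lit 4) (nat_lit 332) (nat_lit 250) (nat_lit 198))))) (XT.nd (nat_lit 234) (nat_lit 0) (nat_lit 0) (XT.nd (nat_lit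 78) (nat_lit 0) (nat_lit 0) (XT.lf (nat_lit 0) (nat_lit 1854232525045) (nat_lit 152) (nat_lit 20442592131259) (nat_lit 0) (nat_lit 1852774269011) (nat_lit 1) (nat_lit 5) (nat_lit 3) (nat_lit 4) (nat_lit 1) (nat_lit 4) (nat_lit 333) (nat_lit 250) (nat_lit 197)) (XT.nd (nat_lit 78) (nat_lit 0) (nat_lit 0) (XT.lf (nat_lit 0) (nat_lit 2135778158577) (nat_lit 152) (nat_lit 23501395626803) (nat_lit 0) (nat_lit 2134319787064) (nat_lit 1) (nat_lit 5) (nat_lit 3) (nat_lit 4) (nat_lit 1) (nat_lit 4) (nat_lit 334) (nat_lit 250) (nat_lit 196)) (XT.lf (nat_lit 0) (nat_lit 2459555100704) (nat_lit 152) (nat_lit 27019020767742) (nat_lit 0) (nat_lit 2458096628774) (nat_lit 1) (nat_lit 5) (nat_lit 3) (nat_lit 4) (nat_lit 1) (nat_lit 4) (nat_lit 335) (nat_lit 250) (nat_lit 195)))) (XT.nd (nat_lit 78) (nat_lit 0) (nat_lit 0) (XT.lf (nat_lit 0) (nat_lit 2831898117683) (nat_lit 152) (nat_lit 31064290654660)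 (nat_lit 0) (nat_lit 2830439558434) (nat_lit 1) (nat_lit 5) (nat_lit 3) (nat_lit 4) (nat_lit 1) (nat_lit 4) (nat_lit 336) (nat_lit 250) (nat_lit 194)) (XT.nd (nat_lit 78) (nat_lit 0) (nat_lit 0) (XT.lf (nat_lit 0) (nat_lit 3260092181586) (nat_lit 152) (nat_lit 35716351872301) (nat_lit 0) (nat_lit 3258633546407) (nat_lit 1) (nat_lit 5) (nat_lit 3) (nat_lit 4) (nat_lit 1) (nat_lit 4) (nat_lit 337) (nat_lit 250) (nat_lit 193)) (XT.lf (nat_lit 0) (nat_lit 3752515002359) (nat_lit 152) (nat_lit 41066223009705) (nat_lit 0) (nat_lit 3751056301154) (nat_lit 1) (nat_lit 5) (nat_lit 3) (nat_lit 4) (nat_lit 1) (nat_lit 4) (nat_lit 338) (nat_lit 250) (nat_lit 192))))))))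
noncomputable def xc30 : XT := (XT.nd (nat_lit 36660) (nat_lit 0) (nat_lit 0) (XT.nd (nat_lit 35880) (nat_lit 0) (nat_lit 228) (XT.nd (nat_lit 390) (nat_lit 0) (nat_lit 0) (XT.nd (nat_lit 156) (nat_lit 0) (nat_lit 0) (XT.nd (nat_lit 78) (nat_lit 0) (nat_lit 0) (XT.lf (nat_lit 0) (nat_lit 4318800939539) (nat_lit 152) (nat_lit 47218575458692) (nat_lit 0) (nat_lit 4317342180921) (nat_lit 1) (nat_lit 5) (nat_lit 3) (nat_lit 4) (nat_lit 1) (nat_lit 4) (nat_lit 339) (nat_lit 250) (nat_lit 191)) (XT.lf (nat_lit 0) (nat_lit 4970029500593) (nat_lit 152) (nat_lit 54293781332394) (nat_lit 0) (nat_lit 4968570692049) (nat_lit 1) (nat_lit 5) (nat_lit 3) (nat_lit 4) (nat_lit 1) (nat_lit 4) (nat_lit 340) (nat_lit 250) (nat_lit 190))) (XT.nd (nat_lit 78) (nat_lit 0) (nat_lit 0) (XT.lf (nat_lit 0) (nat_lit 5718942113888) (nat_lit 152) (nat_lit 62430268571818) (nat_lit 0) (nat_lit 5717483261932) (nat_lit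 1) (nat_lit 5) (nat_lit 3) (nat_lit 4) (nat_lit 1) (nat_lit 4) (nat_lit 341) (nat_lit 250) (nat_lit 189)) (XT.nd (nat_lit 78) (nat_lit 0) (nat_lit 0) (XT.lf (nat_lit 0) (nat_lit 6580191417512) (nat_lit 152) (nat_lit 71787229318605) (nat_lit 0) (nat_lit 6578732527805) (nat_lit 1) (nat_lit 5) (nat_lit 3) (nat_lit 4) (nat_lit 1) (nat_lit 4) (nat_lit 342) (nat_lit 250) (nat_lit 188)) (XT.lf (nat_lit 0) (nat_lit 7570627941317) (nat_lit 152) (nat_lit 82547734543887) (nat_lit 0) (nat_lit 7569169018784) (nat_lit 1) (nat_lit 5) (nat_lit 3) (nat_lit 4) (nat_lit 1) (nat_lit 4) (nat_lit 343) (nat_lit 250) (nat_lit 187))))) (XT.nd (nat_lit 1248) (nat_lit 0) (nat_lit 0) (XT.nd (nat_lit 1170) (nat_lit 0) (nat_lit 0) (XT.lf (nat_lit 0) (nat_lit 8709629791205) (nat_lit 152) (nat_lit 94922315871638) (nat_lit 0) (nat_lit 8708170840126) (nat_lit 1) (nat_lit 5) (nat_lit 3) (nat_lit 4) (nat_lit 1) (nat_lit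 4) (nat_lit 344) (nat_lit 250) (nat_lit 186)) (XT.lf (nat_lit 0) (nat_lit 71032909071361) (nat_lit 152) (nat_lit 772028177541818) (nat_lit 0) (nat_lit 71031449953371) (nat_lit 1) (nat_lit 5) (nat_lit 3) (nat_lit 4) (nat_lit 1) (nat_lit 4) (nat_lit 359) (nat_lit 250) (nat_lit 171))) (XT.nd (nat_lit 78) (nat_lit 0) (nat_lit 0) (XT.lf (nat_lit 0) (nat_lit 81691252182802) (nat_lit 152) (nat_lit 887824827216733) (nat_lit 0) (nat_lit 81689793061761) (nat_lit 1) (nat_lit 5) (nat_lit 3) (nat_lit 4) (nat_lit 1) (nat_lit 4) (nat_lit 360) (nat_lit 250) (nat_lit 170)) (XT.nd (nat_lit 78) (nat_lit 0) (nat_lit 0) (XT.lf (nat_lit 0) (nat_lit 93948346746789) (nat_lit 152) (nat_lit 1020990974372498) (nat_lit 0) (nat_lit 93946887623095) (nat_lit 1) (nat_lit 5) (nat_lit 3) (nat_lit 4) (nat_lit 1) (nat_lit 4) (nat_lit 361) (nat_lit 250) (nat_lit 169)) (XT.lf (nat_lit 0) (nat_lit 108044005483051) (nat_lit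 152) (nat_lit 1174132043627377) (nat_lit 0) (nat_lit 108042546357052) (nat_lit 1) (nat_lit 5) (nat_lit 3) (nat_lit 4) (nat_lit 1) (nat_lit 4) (nat_lit 362) (nat_lit 250) (nat_lit 168)))))) (XT.nd (nat_lit 390) (nat_lit 152) (nat_lit 0) (XT.nd (nat_lit 156) (nat_lit 228) (nat_lit 0) (XT.nd (nat_lit 78) (nat_lit 76) (nat_lit 0) (XT.lf (nat_lit 0) (nat_lit 3726729616) (nat_lit 152) (nat_lit 710036007) (nat_lit 0) (nat_lit 3726729616) (nat_lit 10) (nat_lit 5) (nat_lit 12) (nat_lit 4) (nat_lit 10) (nat_lit 4) (nat_lit 278) (nat_lit 251) (nat_lit 251)) (XT.lf (nat_lit 0) (nat_lit 9786830752) (nat_lit 76) (nat_lit 4222609934) (nat_lit 76) (nat_lit 3889734188) (nat_lit 9) (nat_lit 4) (nat_lit 10) (nat_lit 5) (nat_lit 10) (nat_lit 4) (nat_lit 279) (nat_lit 251) (nat_lit 250))) (XT.nd (nat_lit 78) (nat_lit 76) (nat_lit 0) (XT.lf (nat_lit 0) (nat_lit 1359486032) (nat_lit 152) (nat_lit 17565940959)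 (nat_lit 0) (nat_lit 818326974) (nat_lit 7) (nat_lit 5) (nat_lit 9) (nat_lit 4) (nat_lit 7) (nat_lit 4) (nat_lit 280) (nat_lit 251) (nat_lit 249)) (XT.nd (nat_lit 78) (nat_lit 76) (nat_lit 0) (XT.lf (nat_lit 0) (nat_lit 7125301400) (nat_lit 152) (nat_lit 8327787432) (nat_lit 0) (nat_lit 6365271135) (nat_lit 7) (nat_lit 5) (nat_lit 9) (nat_lit 4) (nat_lit 7) (nat_lit 4) (nat_lit 281) (nat_lit 251) (nat_lit 248)) (XT.lf (nat_lit 0) (nat_lit 1524801818) (nat_lit 76) (nat_lit 11843997979) (nat_lit 76) (nat_lit 10893644926) (nat_lit 6) (nat_lit 4) (nat_lit 7) (nat_lit 5) (nat_lit 7) (nat_lit 4) (nat_lit 282) (nat_lit 251) (nat_lit 247))))) (XT.nd (nat_lit 156) (nat_lit 152) (nat_lit 0) (XT.nd (nat_lit 78) (nat_lit 0) (nat_lit 0) (XT.lf (nat_lit 0) (nat_lit 12925402392) (nat_lit 76) (nat_lit 7631295886) (nat_lit 76) (nat_lit 6515444756) (nat_lit 6) (nat_lit 4) (nat_lit 7) (nat_lit 5) (nat_lit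 7) (nat_lit 4) (nat_lit 283) (nat_lit 251) (nat_lit 246)) (XT.lf (nat_lit 0) (nat_lit 25283217565) (nat_lit 76) (nat_lit 3167876284) (nat_lit 76) (nat_lit 1908113783) (nat_lit 6) (nat_lit 4) (nat_lit 7) (nat_lit 5) (nat_lit 7) (nat_lit 4) (nat_lit 284) (nat_lit 251) (nat_lit 245))) (XT.nd (nat_lit 78) (nat_lit 0) (nat_lit 0) (XT.lf (nat_lit 0) (nat_lit 3038935487) (nat_lit 152) (nat_lit 29252218946) (nat_lit 0) (nat_lit 1834672162) (nat_lit 4) (nat_lit 5) (nat_lit 6) (nat_lit 4) (nat_lit 4) (nat_lit 4) (nat_lit 285) (nat_lit 251) (nat_lit 244)) (XT.nd (nat_lit 78) (nat_lit 0) (nat_lit 0) (XT.lf (nat_lit 0) (nat_lit 8625911121) (nat_lit 152) (nat_lit 22476994782) (nat_lit 0) (nat_lit 7327023734) (nat_lit 4) (nat_lit 5) (nat_lit 6) (nat_lit 4) (nat_lit 4) (nat_lit 4) (nat_lit 286) (nat_lit 251) (nat_lit 243)) (XT.lf (nat_lit 0) (nat_lit 14759108182) (nat_lit 152) (nat_lit 15286465247)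 (nat_lit 0) (nat_lit 13377939001) (nat_lit 4) (nat_lit 5) (nat_lit 6) (nat_lit 4) (nat_lit 4) (nat_lit 4) (nat_lit 287) (nat_lit 251) (nat_lit 242))))))) (XT.nd (nat_lit 780) (nat_lit 152) (nat_lit 0) (XT.nd (nat_lit 390) (nat_lit 0) (nat_lit 0) (XT.nd (nat_lit 156) (nat_lit 0) (nat_lit 0) (XT.nd (nat_lit 78) (nat_lit 76) (nat_lit 0) (XT.lf (nat_lit 0) (nat_lit 21558524003) (nat_lit 152) (nat_lit 7539946068) (nat_lit 0) (nat_lit 20105805436) (nat_lit 4) (nat_lit 5) (nat_lit 6) (nat_lit 4) (nat_lit 4) (nat_lit 4) (nat_lit 288) (nat_lit 251) (nat_lit 241)) (XT.lf (nat_lit 0) (nat_lit 1003460037) (nat_lit 76) (nat_lit 28195281735) (nat_lit 76) (nat_lit 26680346311) (nat_lit 3) (nat_lit 4) (nat_lit 4) (nat_lit 5) (nat_lit 4) (nat_lit 4) (nat_lit 289) (nat_lit 251) (nat_lit 240))) (XT.nd (nat_lit 78) (nat_lit 0) (nat_lit 0) (XT.lf (nat_lit 0) (nat_lit 11241994002) (nat_lit 76) (nat_lit 26927290631)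 (nat_lit 76) (nat_lit 25358253592) (nat_lit 3) (nat_lit 4) (nat_lit 4) (nat_lit 5) (nat_lit 4) (nat_lit 4) (nat_lit 290) (nat_lit 251) (nat_lit 239)) (XT.nd (nat_lit 78) (nat_lit 0) (nat_lit 0) (XT.lf (nat_lit 0) (nat_lit 22639116602) (nat_lit 76) (nat_lit 25663821782) (nat_lit 76) (nat_lit 24047739860) (nat_lit 3) (nat_lit 4) (nat_lit 4) (nat_lit 5) (nat_lit 4) (nat_lit 4) (nat_lit 291) (nat_lit 251) (nat_lit 238)) (XT.lf (nat_lit 0) (nat_lit 35417815020) (nat_lit 76) (nat_lit 24380155145) (nat_lit 76) (nat_lit 22723164630) (nat_lit 3) (nat_lit 4) (nat_lit 4) (nat_lit 5) (nat_lit 4) (nat_lit 4) (nat_lit 292) (nat_lit 251) (nat_lit 237))))) (XT.nd (nat_lit 156) (nat_lit 0) (nat_lit 0) (XT.nd (nat_lit 78) (nat_lit 0) (nat_lit 0) (XT.lf (nat_lit 0) (nat_lit 49828107266) (nat_lit 76) (nat_lit 23051175504) (nat_lit 76) (nat_lit 21358612299) (nat_lit 3) (nat_lit 4) (nat_lit 4) (nat_lit 5)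 (nat_lit 4) (nat_lit 4) (nat_lit 293) (nat_lit 251) (nat_lit 236)) (XT.lf (nat_lit 0) (nat_lit 66151933842) (nat_lit 76) (nat_lit 21650881082) (nat_lit 76) (nat_lit 19927385104) (nat_lit 3) (nat_lit 4) (nat_lit 4) (nat_lit 5) (nat_lit 4) (nat_lit 4) (nat_lit 294) (nat_lit 251) (nat_lit 235))) (XT.nd (nat_lit 78) (nat_lit 0) (nat_lit 0) (XT.lf (nat_lit 0) (nat_lit 84708673964) (nat_lit 76) (nat_lit 20151874817) (nat_lit 76) (nat_lit 18401480774) (nat_lit 3) (nat_lit 4) (nat_lit 4) (nat_lit 5) (nat_lit 4) (nat_lit 4) (nat_lit 295) (nat_lit 251) (nat_lit 234)) (XT.nd (nat_lit 78) (nat_lit 0) (nat_lit 0) (XT.lf (nat_lit 0) (nat_lit 105861394286) (nat_lit 76) (nat_lit 18524828322) (nat_lit 76) (nat_lit 16751044659) (nat_lit 3) (nat_lit 4) (nat_lit 4) (nat_lit 5) (nat_lit 4) (nat_lit 4) (nat_lit 296) (nat_lit 251) (nat_lit 233)) (XT.lf (nat_lit 0) (nat_lit 130023952379) (nat_lit 76) (nat_lit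 16737908082) (nat_lit 76) (nat_lit 14943785617) (nat_lit 3) (nat_lit 4) (nat_lit 4) (nat_lit 5) (nat_lit 4) (nat_lit 4) (nat_lit 297) (nat_lit 251) (nat_lit 232)))))) (XT.nd (nat_lit 390) (nat_lit 152) (nat_lit 0) (XT.nd (nat_lit 156) (nat_lit 0) (nat_lit 0) (XT.nd (nat_lit 78) (nat_lit 0) (nat_lit 0) (XT.lf (nat_lit 0) (nat_lit 157669093945) (nat_lit 76) (nat_lit 14756152612) (nat_lit 76) (nat_lit 12944344233) (nat_lit 3) (nat_lit 4) (nat_lit 4) (nat_lit 5) (nat_lit 4) (nat_lit 4) (nat_lit 298) (nat_lit 251) (nat_lit 231)) (XT.lf (nat_lit 0) (nat_lit 189337702190) (nat_lit 76) (nat_lit 12540788435) (nat_lit 76) (nat_lit 10713601001) (nat_lit 3) (nat_lit 4) (nat_lit 4) (nat_lit 5) (nat_lit 4) (nat_lit 4) (nat_lit 299) (nat_lit 251) (nat_lit 230))) (XT.nd (nat_lit 78) (nat_lit 0) (nat_lit 0) (XT.lf (nat_lit 0) (nat_lit 225649380316) (nat_lit 76) (nat_lit 10048471471) (nat_lit 76) (nat_lit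 8207910945) (nat_lit 3) (nat_lit 4) (nat_lit 4) (nat_lit 5) (nat_lit 4) (nat_lit 4) (nat_lit 300) (nat_lit 251) (nat_lit 229)) (XT.nd (nat_lit 78) (nat_lit 0) (nat_lit 0) (XT.lf (nat_lit 0) (nat_lit 267314574202) (nat_lit 76) (nat_lit 7230438996) (nat_lit 76) (nat_lit 5378249695) (nat_lit 3) (nat_lit 4) (nat_lit 4) (nat_lit 5) (nat_lit 4) (nat_lit 4) (nat_lit 301) (nat_lit 251) (nat_lit 228)) (XT.lf (nat_lit 0) (nat_lit 315148472423) (nat_lit 76) (nat_lit 4031555592) (nat_lit 76) (nat_lit 2169254312) (nat_lit 3) (nat_lit 4) (nat_lit 4) (nat_lit 5) (nat_lit 4) (nat_lit 4) (nat_lit 302) (nat_lit 251) (nat_lit 227))))) (XT.nd (nat_lit 156) (nat_lit 0) (nat_lit 0) (XT.nd (nat_lit 78) (nat_lit 0) (nat_lit 0) (XT.lf (nat_lit 0) (nat_lit 1132047525) (nat_lit 76) (nat_lit 264762628) (nat_lit 152) (nat_lit 367581284508) (nat_lit 1) (nat_lit 5) (nat_lit 2) (nat_lit 5) (nat_lit 3) (nat_lit 4) (nat_lit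 303) (nat_lit 251) (nat_lit 226)) (XT.lf (nat_lit 0) (nat_lit 5748151581) (nat_lit 152) (nat_lit 413802257001) (nat_lit 0) (nat_lit 4114464265) (nat_lit 1) (nat_lit 5) (nat_lit 3) (nat_lit 4) (nat_lit 1) (nat_lit 4) (nat_lit 304) (nat_lit 251) (nat_lit 225))) (XT.nd (nat_lit 78) (nat_lit 0) (nat_lit 0) (XT.lf (nat_lit 0) (nat_lit 10733916414) (nat_lit 152) (nat_lit 466729051838) (nat_lit 0) (nat_lit 9094447542) (nat_lit 1) (nat_lit 5) (nat_lit 3) (nat_lit 4) (nat_lit 1) (nat_lit 4) (nat_lit 305) (nat_lit 251) (nat_lit 224)) (XT.nd (nat_lit 78) (nat_lit 0) (nat_lit 0) (XT.lf (nat_lit 0) (nat_lit 16440688971) (nat_lit 152) (nat_lit 527650992639) (nat_lit 0) (nat_lit 14796192658) (nat_lit 1) (nat_lit 5) (nat_lit 3) (nat_lit 4) (nat_lit 1) (nat_lit 4) (nat_lit 306) (nat_lit 251) (nat_lit 223)) (XT.lf (nat_lit 0) (nat_lit 22980123496) (nat_lit 152) (nat_lit 597760030419) (nat_lit 0) (nat_lit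 21331255495) (nat_lit 1) (nat_lit 5) (nat_lit 3) (nat_lit 4) (nat_lit 1) (nat_lit 4) (nat_lit 307) (nat_lit 251) (nat_lit 222))))))))
noncomputable def xc31 : XT := (XT.nd (nat_lit 1560) (nat_lit 0) (nat_lit 0) (XT.nd (nat_lit 780) (nat_lit 0) (nat_lit 0) (XT.nd (nat_lit 390) (nat_lit 0) (nat_lit 0) (XT.nd (nat_lit 156) (nat_lit 0) (nat_lit 0) (XT.nd (nat_lit 78) (nat_lit 0) (nat_lit 0) (XT.lf (nat_lit 0) (nat_lit 30480165448) (nat_lit 152) (nat_lit 678427863743) (nat_lit 0) (nat_lit 28827495980) (nat_lit 1) (nat_lit 5) (nat_lit 3) (nat_lit 4) (nat_lit 1) (nat_lit 4) (nat_lit 308) (nat_lit 251) (nat_lit 221)) (XT.lf (nat_lit 0) (nat_lit 39087554778) (nat_lit 152) (nat_lit 771232776308) (nat_lit 0) (nat_lit 37431579686) (nat_lit 1) (nat_lit 5) (nat_lit 3) (nat_lit 4) (nat_lit 1) (nat_lit 4) (nat_lit 309) (nat_lit 251) (nat_lit 220))) (XT.nd (nat_lit 78) (nat_lit 0) (nat_lit 0) (XT.lf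 (nat_lit 0) (nat_lit 48970696929) (nat_lit 152) (nat_lit 877990516401) (nat_lit 0) (nat_lit 47311847382) (nat_lit 1) (nat_lit 5) (nat_lit 3) (nat_lit 4) (nat_lit 1) (nat_lit 4) (nat_lit 310) (nat_lit 251) (nat_lit 219)) (XT.nd (nat_lit 78) (nat_lit 0) (nat_lit 0) (XT.lf (nat_lit 0) (nat_lit 60322957726) (nat_lit 152) (nat_lit 1000789822417) (nat_lit 0) (nat_lit 58661608653) (nat_lit 1) (nat_lit 5) (nat_lit 3) (nat_lit 4) (nat_lit 1) (nat_lit 4) (nat_lit 311) (nat_lit 251) (nat_lit 218)) (XT.lf (nat_lit 0) (nat_lit 73366446620) (nat_lit 152) (nat_lit 1142033289473) (nat_lit 0) (nat_lit 71702924045) (nat_lit 1) (nat_lit 5) (nat_lit 3) (nat_lit 4) (nat_lit 1) (nat_lit 4) (nat_lit 312) (nat_lit 251) (nat_lit 217))))) (XT.nd (nat_lit 156) (nat_lit 0) (nat_lit 0) (XT.nd (nat_lit 78) (nat_lit 0) (nat_lit 0) (XT.lf (nat_lit 0) (nat_lit 88356362306) (nat_lit 152) (nat_lit 1304484376707) (nat_lit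 0) (nat_lit 86690949730) (nat_lit 1) (nat_lit 5) (nat_lit 3) (nat_lit 4) (nat_lit 1) (nat_lit 4) (nat_lit 313) (nat_lit 251) (nat_lit 216)) (XT.lf (nat_lit 0) (nat_lit 105585985743) (nat_lit 152) (nat_lit 1491321474956) (nat_lit 0) (nat_lit 103918929688) (nat_lit 1) (nat_lit 5) (nat_lit 3) (nat_lit 4) (nat_lit 1) (nat_lit 4) (nat_lit 314) (nat_lit 251) (nat_lit 215))) (XT.nd (nat_lit 78) (nat_lit 0) (nat_lit 0) (XT.lf (nat_lit 0) (nat_lit 125392418260) (nat_lit 152) (nat_lit 1706200092664) (nat_lit 0) (nat_lit 123723933092) (nat_lit 1) (nat_lit 5) (nat_lit 3) (nat_lit 4) (nat_lit 1) (nat_lit 4) (nat_lit 315) (nat_lit 251) (nat_lit 214)) (XT.nd (nat_lit 78) (nat_lit 0) (nat_lit 0) (XT.lf (nat_lit 0) (nat_lit 148163177013) (nat_lit 152) (nat_lit 1953324376700) (nat_lit 0) (nat_lit 146493449139) (nat_lit 1) (nat_lit 5) (nat_lit 3) (nat_lit 4) (nat_lit 1) (nat_lit 4) (nat_lit 316) (nat_lit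 251) (nat_lit 213)) (XT.lf (nat_lit 0) (nat_lit 174343776850) (nat_lit 152) (nat_lit 2237529367404) (nat_lit 0) (nat_lit 172672968361) (nat_lit 1) (nat_lit 5) (nat_lit 3) (nat_lit 4) (nat_lit 1) (nat_lit 4) (nat_lit 317) (nat_lit 251) (nat_lit 212)))))) (XT.nd (nat_lit 390) (nat_lit 0) (nat_lit 0) (XT.nd (nat_lit 156) (nat_lit 0) (nat_lit 0) (XT.nd (nat_lit 78) (nat_lit 0) (nat_lit 0) (XT.lf (nat_lit 0) (nat_lit 204446446896) (nat_lit 152) (nat_lit 2564375597201) (nat_lit 0) (nat_lit 202774698743) (nat_lit 1) (nat_lit 5) (nat_lit 3) (nat_lit 4) (nat_lit 1) (nat_lit 4) (nat_lit 318) (nat_lit 251) (nat_lit 211)) (XT.lf (nat_lit 0) (nat_lit 239060152435) (nat_lit 152) (nat_lit 2940257883632) (nat_lit 0) (nat_lit 237387587183) (nat_lit 1) (nat_lit 5) (nat_lit 3) (nat_lit 4) (nat_lit 1) (nat_lit 4) (nat_lit 319) (nat_lit 251) (nat_lit 210))) (XT.nd (nat_lit 78) (nat_lit 0) (nat_lit 0) (XT.lf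 (nat_lit 0) (nat_lit 278862118141) (nat_lit 152) (nat_lit 3372530445345) (nat_lit 0) (nat_lit 277188842367) (nat_lit 1) (nat_lit 5) (nat_lit 3) (nat_lit 4) (nat_lit 1) (nat_lit 4) (nat_lit 320) (nat_lit 251) (nat_lit 209)) (XT.nd (nat_lit 78) (nat_lit 0) (nat_lit 0) (XT.lf (nat_lit 0) (nat_lit 324631078126) (nat_lit 152) (nat_lit 3869650788980) (nat_lit 0) (nat_lit 322957184507) (nat_lit 1) (nat_lit 5) (nat_lit 3) (nat_lit 4) (nat_lit 1) (nat_lit 4) (nat_lit 321) (nat_lit 251) (nat_lit 208)) (XT.lf (nat_lit 0) (nat_lit 377262512041) (nat_lit 152) (nat_lit 4441345182132) (nat_lit 0) (nat_lit 375588081166) (nat_lit 1) (nat_lit 5) (nat_lit 3) (nat_lit 4) (nat_lit 1) (nat_lit 4) (nat_lit 322) (nat_lit 251) (nat_lit 207))))) (XT.nd (nat_lit 156) (nat_lit 0) (nat_lit 0) (XT.nd (nat_lit 78) (nat_lit 0) (nat_lit 0) (XT.lf (nat_lit 0) (nat_lit 437786165333) (nat_lit 152) (nat_lit 5098798949884)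 (nat_lit 0) (nat_lit 436111267278) (nat_lit 1) (nat_lit 5) (nat_lit 3) (nat_lit 4) (nat_lit 1) (nat_lit 4) (nat_lit 323) (nat_lit 251) (nat_lit 206)) (XT.lf (nat_lit 0) (nat_lit 507386196435) (nat_lit 152) (nat_lit 5854875318126) (nat_lit 0) (nat_lit 505710892138) (nat_lit 1) (nat_lit 5) (nat_lit 3) (nat_lit 4) (nat_lit 1) (nat_lit 4) (nat_lit 324) (nat_lit 251) (nat_lit 205))) (XT.nd (nat_lit 78) (nat_lit 0) (nat_lit 0) (XT.lf (nat_lit 0) (nat_lit 587424345086) (nat_lit 152) (nat_lit 6724367085368) (nat_lit 0) (nat_lit 585748687534) (nat_lit 1) (nat_lit 5) (nat_lit 3) (nat_lit 4) (nat_lit 1) (nat_lit 4) (nat_lit 325) (nat_lit 251) (nat_lit 204)) (XT.nd (nat_lit 78) (nat_lit 0) (nat_lit 0) (XT.lf (nat_lit 0) (nat_lit 679466575065) (nat_lit 152) (nat_lit 7724286047056) (nat_lit 0) (nat_lit 677790610335) (nat_lit 1) (nat_lit 5) (nat_lit 3) (nat_lit 4) (nat_lit 1) (nat_lit 4) (nat_lit 326)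 (nat_lit 251) (nat_lit 203)) (XT.lf (nat_lit 0) (nat_lit 785313712610) (nat_lit 152) (nat_lit 8874195835048) (nat_lit 0) (nat_lit 783637480769) (nat_lit 1) (nat_lit 5) (nat_lit 3) (nat_lit 4) (nat_lit 1) (nat_lit 4) (nat_lit 327) (nat_lit 251) (nat_lit 202))))))) (XT.nd (nat_lit 780) (nat_lit 0) (nat_lit 0) (XT.nd (nat_lit 390) (nat_lit 0) (nat_lit 0) (XT.nd (nat_lit 156) (nat_lit 0) (nat_lit 0) (XT.nd (nat_lit 78) (nat_lit 0) (nat_lit 0) (XT.lf (nat_lit 0) (nat_lit 907036679978) (nat_lit 152) (nat_lit 10196594684327) (nat_lit 0) (nat_lit 905360215866) (nat_lit 1) (nat_lit 5) (nat_lit 3) (nat_lit 4) (nat_lit 1) (nat_lit 4) (nat_lit 328) (nat_lit 251) (nat_lit 201)) (XT.lf (nat_lit 0) (nat_lit 1047017013486) (nat_lit 152) (nat_lit 11717355615858) (nat_lit 0) (nat_lit 1045340347399) (nat_lit 1) (nat_lit 5) (nat_lit 3) (nat_lit 4) (nat_lit 1) (nat_lit 4) (nat_lit 329) (nat_lit 251) (nat_lit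 200))) (XT.nd (nat_lit 78) (nat_lit 0) (nat_lit 0) (XT.lf (nat_lit 0) (nat_lit 1207993458790) (nat_lit 152) (nat_lit 13466232647866) (nat_lit 0) (nat_lit 1206316617073) (nat_lit 1) (nat_lit 5) (nat_lit 3) (nat_lit 4) (nat_lit 1) (nat_lit 4) (nat_lit 330) (nat_lit 251) (nat_lit 199)) (XT.nd (nat_lit 78) (nat_lit 0) (nat_lit 0) (XT.lf (nat_lit 0) (nat_lit 1393115555037) (nat_lit 152) (nat_lit 15477442939672) (nat_lit 0) (nat_lit 1391438560599) (nat_lit 1) (nat_lit 5) (nat_lit 3) (nat_lit 4) (nat_lit 1) (nat_lit 4) (nat_lit 331) (nat_lit 251) (nat_lit 198)) (XT.lf (nat_lit 0) (nat_lit 1606005256285) (nat_lit 152) (nat_lit 17790336257856) (nat_lit 0) (nat_lit 1604328129045) (nat_lit 1) (nat_lit 5) (nat_lit 3) (nat_lit 4) (nat_lit 1) (nat_lit 4) (nat_lit 332) (nat_lit 251) (nat_lit 197))))) (XT.nd (nat_lit 156) (nat_lit 0) (nat_lit 0) (XT.nd (nat_lit 78) (nat_lit 0) (nat_lit 0) (XT.lf (nat_lit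 0) (nat_lit 1850827795819) (nat_lit 152) (nat_lit 20450164862991) (nat_lit 0) (nat_lit 1849150553099) (nat_lit 1) (nat_lit 5) (nat_lit 3) (nat_lit 4) (nat_lit 1) (nat_lit 4) (nat_lit 333) (nat_lit 251) (nat_lit 196)) (XT.lf (nat_lit 0) (nat_lit 2132373179846) (nat_lit 152) (nat_lit 23508968879960) (nat_lit 0) (nat_lit 2130695836710) (nat_lit 1) (nat_lit 5) (nat_lit 3) (nat_lit 4) (nat_lit 1) (nat_lit 4) (nat_lit 334) (nat_lit 251) (nat_lit 195))) (XT.nd (nat_lit 78) (nat_lit 0) (nat_lit 0) (XT.lf (nat_lit 0) (nat_lit 2456149905011) (nat_lit 152) (nat_lit 27026594474312) (nat_lit 0) (nat_lit 2454472474556) (nat_lit 1) (nat_lit 5) (nat_lit 3) (nat_lit 4) (nat_lit 1) (nat_lit 4) (nat_lit 335) (nat_lit 251) (nat_lit 194)) (XT.nd (nat_lit 78) (nat_lit 0) (nat_lit 0) (XT.lf (nat_lit 0) (nat_lit 2828492733329) (nat_lit 152) (nat_lit 31071864755502) (nat_lit 0) (nat_lit 2826815226943) (nat_lit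 1) (nat_lit 5) (nat_lit 3) (nat_lit 4) (nat_lit 1) (nat_lit 4) (nat_lit 336) (nat_lit 251) (nat_lit 193)) (XT.lf (nat_lit 0) (nat_lit 3256686633178) (nat_lit 152) (nat_lit 35723926315989) (nat_lit 0) (nat_lit 3255009060767) (nat_lit 1) (nat_lit 5) (nat_lit 3) (nat_lit 4) (nat_lit 1) (nat_lit 4) (nat_lit 337) (nat_lit 251) (nat_lit 192)))))) (XT.nd (nat_lit 390) (nat_lit 0) (nat_lit 0) (XT.nd (nat_lit 156) (nat_lit 0) (nat_lit 0) (XT.nd (nat_lit 78) (nat_lit 0) (nat_lit 0) (XT.lf (nat_lit 0) (nat_lit 3749109311296) (nat_lit 152) (nat_lit 41073797751520) (nat_lit 0) (nat_lit 3747431681471) (nat_lit 1) (nat_lit 5) (nat_lit 3) (nat_lit 4) (nat_lit 1) (nat_lit 4) (nat_lit 338) (nat_lit 251) (nat_lit 191)) (XT.lf (nat_lit 0) (nat_lit 4315395124428) (nat_lit 152) (nat_lit 47226150459747) (nat_lit 0) (nat_lit 4313717444678) (nat_lit 1) (nat_lit 5) (nat_lit 3) (nat_lit 4) (nat_lit 1) (nat_lit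 4) (nat_lit 339) (nat_lit 251) (nat_lit 190))) (XT.nd (nat_lit 78) (nat_lit 0) (nat_lit 0) (XT.lf (nat_lit 0) (nat_lit 4966623577614) (nat_lit 152) (nat_lit 54301356558875) (nat_lit 0) (nat_lit 4964945854451) (nat_lit 1) (nat_lit 5) (nat_lit 3) (nat_lit 4) (nat_lit 1) (nat_lit 4) (nat_lit 340) (nat_lit 251) (nat_lit 189)) (XT.nd (nat_lit 78) (nat_lit 0) (nat_lit 0) (XT.lf (nat_lit 0) (nat_lit 5715536097111) (nat_lit 152) (nat_lit 62437843994322) (nat_lit 0) (nat_lit 5713858336197) (nat_lit 1) (nat_lit 5) (nat_lit 3) (nat_lit 4) (nat_lit 1) (nat_lit 4) (nat_lit 341) (nat_lit 251) (nat_lit 188)) (XT.lf (nat_lit 0) (nat_lit 6576785319171) (nat_lit 152) (nat_lit 71794804911563) (nat_lit 0) (nat_lit 6575107525431) (nat_lit 1) (nat_lit 5) (nat_lit 3) (nat_lit 4) (nat_lit 1) (nat_lit 4) (nat_lit 342) (nat_lit 251) (nat_lit 187))))) (XT.nd (nat_lit 1326) (nat_lit 0) (nat_lit 0) (XT.nd (nat_lit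 78) (nat_lit 0) (nat_lit 0) (XT.lf (nat_lit 0) (nat_lit 7567221772051) (nat_lit 152) (nat_lit 82555310285067) (nat_lit 0) (nat_lit 7565543949766) (nat_lit 1) (nat_lit 5) (nat_lit 3) (nat_lit 4) (nat_lit 1) (nat_lit 4) (nat_lit 343) (nat_lit 251) (nat_lit 186)) (XT.nd (nat_lit 1170) (nat_lit 0) (nat_lit 0) (XT.lf (nat_lit 0) (nat_lit 8706223560265) (nat_lit 152) (nat_lit 94929891741707) (nat_lit 0) (nat_lit 8704545713158) (nat_lit 1) (nat_lit 5) (nat_lit 3) (nat_lit 4) (nat_lit 1) (nat_lit 4) (nat_lit 344) (nat_lit 251) (nat_lit 185)) (XT.lf (nat_lit 0) (nat_lit 71029502479791) (nat_lit 152) (nat_lit 772035754165544) (nat_lit 0) (nat_lit 71027824487544) (nat_lit 1) (nat_lit 5) (nat_lit 3) (nat_lit 4) (nat_lit 1) (nat_lit 4) (nat_lit 359) (nat_lit 251) (nat_lit 170)))) (XT.nd (nat_lit 78) (nat_lit 0) (nat_lit 0) (XT.lf (nat_lit 0) (nat_lit 81687845584641) (nat_lit 152) (nat_lit 887832403854233)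 (nat_lit 0) (nat_lit 81686167589740) (nat_lit 1) (nat_lit 5) (nat_lit 3) (nat_lit 4) (nat_lit 1) (nat_lit 4) (nat_lit 360) (nat_lit 251) (nat_lit 169)) (XT.nd (nat_lit 34008) (nat_lit 0) (nat_lit 836) (XT.lf (nat_lit 0) (nat_lit 93944940142896) (nat_lit 152) (nat_lit 1020998551021975) (nat_lit 0) (nat_lit 93943262145691) (nat_lit 1) (nat_lit 5) (nat_lit 3) (nat_lit 4) (nat_lit 1) (nat_lit 4) (nat_lit 361) (nat_lit 251) (nat_lit 168)) (XT.lf (nat_lit 0) (nat_lit 3756855516) (nat_lit 76) (nat_lit 1560484113) (nat_lit 76) (nat_lit 1560484113) (nat_lit 12) (nat_lit 4) (nat_lit 13) (nat_lit 5) (nat_lit 13) (nat_lit 4) (nat_lit 276) (nat_lit 252) (nat_lit 252))))))))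
noncomputable def xc32 : XT := (XT.nd (nat_lit 1560) (nat_lit 152) (nat_lit 0) (XT.nd (nat_lit 780) (nat_lit 76) (nat_lit 0) (XT.nd (nat_lit 390) (nat_lit 228) (nat_lit 0) (XT.nd (nat_lit 156) (nat_lit 228) (nat_lit 0) (XT.nd (nat_lit 78) (nat_lit 0) (nat_lit 0) (XT.lf (nat_lit 0) (nat_lit 2027593769) (nat_lit 152) (nat_lit 11303984621) (nat_lit 0) (nat_lit 1644786661) (nat_lit 10) (nat_lit 5) (nat_lit 12) (nat_lit 4) (nat_lit 10) (nat_lit 4) (nat_lit 277) (nat_lit 252) (nat_lit 251)) (XT.lf (nat_lit 0) (nat_lit 7590106436) (nat_lit 152) (nat_lit 1899554843) (nat_lit 0) (nat_lit 6874423582) (nat_lit 10) (nat_lit 5) (nat_lit 12) (nat_lit 4) (nat_lit 10) (nat_lit 4) (nat_lit 278) (nat_lit 252) (nat_lit 250))) (XT.nd (nat_lit 78) (nat_lit 152) (nat_lit 0) (XT.lf (nat_lit 0) (nat_lit 8802801221) (nat_lit 76) (nat_lit 5088488015) (nat_lit 76) (nat_lit 4083347990) (nat_lit 9) (nat_lit 4) (nat_lit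 10) (nat_lit 5) (nat_lit 10) (nat_lit 4) (nat_lit 279) (nat_lit 252) (nat_lit 249)) (XT.nd (nat_lit 78) (nat_lit 0) (nat_lit 0) (XT.lf (nat_lit 0) (nat_lit 606566112) (nat_lit 76) (nat_lit 260135294) (nat_lit 152) (nat_lit 19001290669) (nat_lit 7) (nat_lit 5) (nat_lit 8) (nat_lit 5) (nat_lit 9) (nat_lit 4) (nat_lit 280) (nat_lit 252) (nat_lit 248)) (XT.lf (nat_lit 0) (nat_lit 6412290211) (nat_lit 152) (nat_lit 10434377862) (nat_lit 0) (nat_lit 5129061412) (nat_lit 7) (nat_lit 5) (nat_lit 9) (nat_lit 4) (nat_lit 7) (nat_lit 4) (nat_lit 281) (nat_lit 252) (nat_lit 247))))) (XT.nd (nat_lit 156) (nat_lit 152) (nat_lit 0) (XT.nd (nat_lit 78) (nat_lit 76) (nat_lit 0) (XT.lf (nat_lit 0) (nat_lit 12410515109) (nat_lit 152) (nat_lit 1084386641) (nat_lit 0) (nat_lit 10961788233) (nat_lit 7) (nat_lit 5) (nat_lit 9) (nat_lit 4) (nat_lit 7) (nat_lit 4) (nat_lit 282) (nat_lit 252) (nat_lit 246)) (XT.lf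 (nat_lit 0) (nat_lit 9860065137) (nat_lit 76) (nat_lit 9516180159) (nat_lit 76) (nat_lit 7923541911) (nat_lit 6) (nat_lit 4) (nat_lit 7) (nat_lit 5) (nat_lit 7) (nat_lit 4) (nat_lit 283) (nat_lit 252) (nat_lit 245))) (XT.nd (nat_lit 78) (nat_lit 152) (nat_lit 0) (XT.lf (nat_lit 0) (nat_lit 21913380617) (nat_lit 76) (nat_lit 5206931559) (nat_lit 76) (nat_lit 3489152989) (nat_lit 6) (nat_lit 4) (nat_lit 7) (nat_lit 5) (nat_lit 7) (nat_lit 4) (nat_lit 284) (nat_lit 252) (nat_lit 244)) (XT.nd (nat_lit 78) (nat_lit 0) (nat_lit 0) (XT.lf (nat_lit 0) (nat_lit 762091319) (nat_lit 76) (nat_lit 441949406) (nat_lit 152) (nat_lit 33241103550) (nat_lit 4) (nat_lit 5) (nat_lit 5) (nat_lit 5) (nat_lit 6) (nat_lit 4) (nat_lit 285) (nat_lit 252) (nat_lit 243)) (XT.lf (nat_lit 0) (nat_lit 6636983657) (nat_lit 152) (nat_lit 27169053379) (nat_lit 0) (nat_lit 4966357306) (nat_lit 4) (nat_lit 5) (nat_lit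 6) (nat_lit 4) (nat_lit 4) (nat_lit 4) (nat_lit 286) (nat_lit 252) (nat_lit 242)))))) (XT.nd (nat_lit 390) (nat_lit 0) (nat_lit 0) (XT.nd (nat_lit 156) (nat_lit 76) (nat_lit 0) (XT.nd (nat_lit 78) (nat_lit 0) (nat_lit 0) (XT.lf (nat_lit 0) (nat_lit 12652152439) (nat_lit 152) (nat_lit 20221588861) (nat_lit 0) (nat_lit 10909976702) (nat_lit 4) (nat_lit 5) (nat_lit 6) (nat_lit 4) (nat_lit 4) (nat_lit 4) (nat_lit 287) (nat_lit 252) (nat_lit 241)) (XT.lf (nat_lit 0) (nat_lit 19348934975) (nat_lit 152) (nat_lit 12686430566) (nat_lit 0) (nat_lit 17544542380) (nat_lit 4) (nat_lit 5) (nat_lit 6) (nat_lit 4) (nat_lit 4) (nat_lit 4) (nat_lit 288) (nat_lit 252) (nat_lit 240))) (XT.nd (nat_lit 78) (nat_lit 76) (nat_lit 0) (XT.lf (nat_lit 0) (nat_lit 26858355269) (nat_lit 152) (nat_lit 4416151485) (nat_lit 0) (nat_lit 24999861059) (nat_lit 4) (nat_lit 5) (nat_lit 6) (nat_lit 4) (nat_lit 4) (nat_lit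 4) (nat_lit 289) (nat_lit 252) (nat_lit 239)) (XT.nd (nat_lit 78) (nat_lit 0) (nat_lit 0) (XT.lf (nat_lit 0) (nat_lit 5215366151) (nat_lit 76) (nat_lit 30327927802) (nat_lit 76) (nat_lit 28422388710) (nat_lit 3) (nat_lit 4) (nat_lit 4) (nat_lit 5) (nat_lit 4) (nat_lit 4) (nat_lit 290) (nat_lit 252) (nat_lit 238)) (XT.lf (nat_lit 0) (nat_lit 16459934066) (nat_lit 76) (nat_lit 29143213622) (nat_lit 76) (nat_lit 27196765937) (nat_lit 3) (nat_lit 4) (nat_lit 4) (nat_lit 5) (nat_lit 4) (nat_lit 4) (nat_lit 291) (nat_lit 252) (nat_lit 237))))) (XT.nd (nat_lit 156) (nat_lit 0) (nat_lit 0) (XT.nd (nat_lit 78) (nat_lit 0) (nat_lit 0) (XT.lf (nat_lit 0) (nat_lit 29105976235) (nat_lit 76) (nat_lit 27928029307) (nat_lit 76) (nat_lit 25946008932) (nat_lit 3) (nat_lit 4) (nat_lit 4) (nat_lit 5) (nat_lit 4) (nat_lit 4) (nat_lit 292) (nat_lit 252) (nat_lit 236)) (XT.lf (nat_lit 0) (nat_lit 43400915222)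 (nat_lit 76) (nat_lit 26658599511) (nat_lit 76) (nat_lit 24645646362) (nat_lit 3) (nat_lit 4) (nat_lit 4) (nat_lit 5) (nat_lit 4) (nat_lit 4) (nat_lit 293) (nat_lit 252) (nat_lit 235))) (XT.nd (nat_lit 78) (nat_lit 0) (nat_lit 0) (XT.lf (nat_lit 0) (nat_lit 59624434617) (nat_lit 76) (nat_lit 25310087563) (nat_lit 76) (nat_lit 23270236350) (nat_lit 3) (nat_lit 4) (nat_lit 4) (nat_lit 5) (nat_lit 4) (nat_lit 4) (nat_lit 294) (nat_lit 252) (nat_lit 234)) (XT.nd (nat_lit 78) (nat_lit 0) (nat_lit 0) (XT.lf (nat_lit 0) (nat_lit 78093951102) (nat_lit 76) (nat_lit 23856109535) (nat_lit 76) (nat_lit 21792868701) (nat_lit 3) (nat_lit 4) (nat_lit 4) (nat_lit 5) (nat_lit 4) (nat_lit 4) (nat_lit 295) (nat_lit 252) (nat_lit 233)) (XT.lf (nat_lit 0) (nat_lit 99170824783) (nat_lit 76) (nat_lit 22268218031) (nat_lit 76) (nat_lit 20184638395) (nat_lit 3) (nat_lit 4) (nat_lit 4) (nat_lit 5) (nat_lit 4)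 (nat_lit 4) (nat_lit 296) (nat_lit 252) (nat_lit 232))))))) (XT.nd (nat_lit 780) (nat_lit 0) (nat_lit 0) (XT.nd (nat_lit 390) (nat_lit 152) (nat_lit 0) (XT.nd (nat_lit 156) (nat_lit 0) (nat_lit 0) (XT.nd (nat_lit 78) (nat_lit 0) (nat_lit 0) (XT.lf (nat_lit 0) (nat_lit 123267429276) (nat_lit 76) (nat_lit 20515345607) (nat_lit 76) (nat_lit 18414080058) (nat_lit 3) (nat_lit 4) (nat_lit 4) (nat_lit 5) (nat_lit 4) (nat_lit 4) (nat_lit 297) (nat_lit 252) (nat_lit 231)) (XT.lf (nat_lit 0) (nat_lit 150855219886) (nat_lit 76) (nat_lit 18563196934) (nat_lit 76) (nat_lit 16446552330) (nat_lit 3) (nat_lit 4) (nat_lit 4) (nat_lit 5) (nat_lit 4) (nat_lit 4) (nat_lit 298) (nat_lit 252) (nat_lit 230))) (XT.nd (nat_lit 78) (nat_lit 0) (nat_lit 0) (XT.lf (nat_lit 0) (nat_lit 182473957733) (nat_lit 76) (nat_lit 16373577799) (nat_lit 76) (nat_lit 14243560103) (nat_lit 3) (nat_lit 4) (nat_lit 4) (nat_lit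 5) (nat_lit 4) (nat_lit 4) (nat_lit 299) (nat_lit 252) (nat_lit 229)) (XT.nd (nat_lit 78) (nat_lit 0) (nat_lit 0) (XT.lf (nat_lit 0) (nat_lit 218742270297) (nat_lit 76) (nat_lit 13903647828) (nat_lit 76) (nat_lit 11762001356) (nat_lit 3) (nat_lit 4) (nat_lit 4) (nat_lit 5) (nat_lit 4) (nat_lit 4) (nat_lit 300) (nat_lit 252) (nat_lit 228)) (XT.lf (nat_lit 0) (nat_lit 260369754998) (nat_lit 76) (nat_lit 11105082302) (nat_lit 76) (nat_lit 8953323852) (nat_lit 3) (nat_lit 4) (nat_lit 4) (nat_lit 5) (nat_lit 4) (nat_lit 4) (nat_lit 301) (nat_lit 252) (nat_lit 227))))) (XT.nd (nat_lit 156) (nat_lit 152) (nat_lit 0) (XT.nd (nat_lit 78) (nat_lit 0) (nat_lit 0) (XT.lf (nat_lit 0) (nat_lit 308170862623) (nat_lit 76) (nat_lit 7923126681) (nat_lit 76) (nat_lit 5762575205) (nat_lit 3) (nat_lit 4) (nat_lit 4) (nat_lit 5) (nat_lit 4) (nat_lit 4) (nat_lit 302) (nat_lit 252) (nat_lit 226)) (XT.lf (nat_lit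 0) (nat_lit 363080832235) (nat_lit 76) (nat_lit 4295525309) (nat_lit 76) (nat_lit 2127327725) (nat_lit 3) (nat_lit 4) (nat_lit 4) (nat_lit 5) (nat_lit 4) (nat_lit 4) (nat_lit 303) (nat_lit 252) (nat_lit 225))) (XT.nd (nat_lit 78) (nat_lit 0) (nat_lit 0) (XT.lf (nat_lit 0) (nat_lit 1926282322) (nat_lit 152) (nat_lit 422315353867) (nat_lit 0) (nat_lit 35111562) (nat_lit 1) (nat_lit 5) (nat_lit 3) (nat_lit 4) (nat_lit 1) (nat_lit 4) (nat_lit 304) (nat_lit 252) (nat_lit 224)) (XT.nd (nat_lit 78) (nat_lit 0) (nat_lit 0) (XT.lf (nat_lit 0) (nat_lit 6899555526) (nat_lit 152) (nat_lit 475268254164) (nat_lit 0) (nat_lit 5003357326) (nat_lit 1) (nat_lit 5) (nat_lit 3) (nat_lit 4) (nat_lit 1) (nat_lit 4) (nat_lit 305) (nat_lit 252) (nat_lit 223)) (XT.lf (nat_lit 0) (nat_lit 12595465797) (nat_lit 152) (nat_lit 536212895364) (nat_lit 0) (nat_lit 10694895909) (nat_lit 1) (nat_lit 5) (nat_lit 3) (nat_lit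 4) (nat_lit 1) (nat_lit 4) (nat_lit 306) (nat_lit 252) (nat_lit 222)))))) (XT.nd (nat_lit 390) (nat_lit 0) (nat_lit 0) (XT.nd (nat_lit 156) (nat_lit 0) (nat_lit 0) (XT.nd (nat_lit 78) (nat_lit 0) (nat_lit 0) (XT.lf (nat_lit 0) (nat_lit 19125454856) (nat_lit 152) (nat_lit 606341672622) (nat_lit 0) (nat_lit 17221083501) (nat_lit 1) (nat_lit 5) (nat_lit 3) (nat_lit 4) (nat_lit 1) (nat_lit 4) (nat_lit 307) (nat_lit 252) (nat_lit 221)) (XT.lf (nat_lit 0) (nat_lit 26617283359) (nat_lit 152) (nat_lit 687026670710) (nat_lit 0) (nat_lit 24709606380) (nat_lit 1) (nat_lit 5) (nat_lit 3) (nat_lit 4) (nat_lit 1) (nat_lit 4) (nat_lit 308) (nat_lit 252) (nat_lit 220))) (XT.nd (nat_lit 78) (nat_lit 0) (nat_lit 0) (XT.lf (nat_lit 0) (nat_lit 35217530560) (nat_lit 152) (nat_lit 779846509155) (nat_lit 0) (nat_lit 33306979125) (nat_lit 1) (nat_lit 5) (nat_lit 3) (nat_lit 4) (nat_lit 1) (nat_lit 4) (nat_lit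 309) (nat_lit 252) (nat_lit 219)) (XT.nd (nat_lit 78) (nat_lit 0) (nat_lit 0) (XT.lf (nat_lit 0) (nat_lit 45094462164) (nat_lit 152) (nat_lit 886617228276) (nat_lit 0) (nat_lit 43181411202) (nat_lit 1) (nat_lit 5) (nat_lit 3) (nat_lit 4) (nat_lit 1) (nat_lit 4) (nat_lit 310) (nat_lit 252) (nat_lit 218)) (XT.lf (nat_lit 0) (nat_lit 56441322485) (nat_lit 152) (nat_lit 1009427820402) (nat_lit 0) (nat_lit 54526098022) (nat_lit 1) (nat_lit 5) (nat_lit 3) (nat_lit 4) (nat_lit 1) (nat_lit 4) (nat_lit 311) (nat_lit 252) (nat_lit 217))))) (XT.nd (nat_lit 156) (nat_lit 0) (nat_lit 0) (XT.nd (nat_lit 78) (nat_lit 0) (nat_lit 0) (XT.lf (nat_lit 0) (nat_lit 69480115313) (nat_lit 152) (nat_lit 1150681101467) (nat_lit 0) (nat_lit 67563000849) (nat_lit 1) (nat_lit 5) (nat_lit 3) (nat_lit 4) (nat_lit 1) (nat_lit 4) (nat_lit 312) (nat_lit 252) (nat_lit 216)) (XT.lf (nat_lit 0) (nat_lit 84465947463) (nat_lit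 152) (nat_lit 1313140722622) (nat_lit 0) (nat_lit 82547189520) (nat_lit 1) (nat_lit 5) (nat_lit 3) (nat_lit 4) (nat_lit 1) (nat_lit 4) (nat_lit 313) (nat_lit 252) (nat_lit 215))) (XT.nd (nat_lit 78) (nat_lit 0) (nat_lit 0) (XT.lf (nat_lit 0) (nat_lit 101692020000) (nat_lit 152) (nat_lit 1499985241672) (nat_lit 0) (nat_lit 99771832944) (nat_lit 1) (nat_lit 5) (nat_lit 3) (nat_lit 4) (nat_lit 1) (nat_lit 4) (nat_lit 314) (nat_lit 252) (nat_lit 214)) (XT.nd (nat_lit 78) (nat_lit 0) (nat_lit 0) (XT.lf (nat_lit 0) (nat_lit 121495364777) (nat_lit 152) (nat_lit 1714870312251) (nat_lit 0) (nat_lit 119573935015) (nat_lit 1) (nat_lit 5) (nat_lit 3) (nat_lit 4) (nat_lit 1) (nat_lit 4) (nat_lit 315) (nat_lit 252) (nat_lit 213)) (XT.lf (nat_lit 0) (nat_lit 144263438539) (nat_lit 152) (nat_lit 1962000207479) (nat_lit 0) (nat_lit 142340928164) (nat_lit 1) (nat_lit 5) (nat_lit 3) (nat_lit 4) (nat_lit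 1) (nat_lit 4) (nat_lit 316) (nat_lit 252) (nat_lit 212))))))))
noncomputable def xc33 : XT := (XT.nd (nat_lit 1560) (nat_lit 0) (nat_lit 0) (XT.nd (nat_lit 780) (nat_lit 0) (nat_lit 0) (XT.nd (nat_lit 390) (nat_lit 0) (nat_lit 0) (XT.nd (nat_lit 156) (nat_lit 0) (nat_lit 0) (XT.nd (nat_lit 78) (nat_lit 0) (nat_lit 0) (XT.lf (nat_lit 0) (nat_lit 170441703601) (nat_lit 152) (nat_lit 2246210077479) (nat_lit 0) (nat_lit 168518253561) (nat_lit 1) (nat_lit 5) (nat_lit 3) (nat_lit 4) (nat_lit 1) (nat_lit 4) (nat_lit 317) (nat_lit 252) (nat_lit 211)) (XT.lf (nat_lit 0) (nat_lit 200542343408) (nat_lit 152) (nat_lit 2573060550143) (nat_lit 0) (nat_lit 198618076268) (nat_lit 1) (nat_lit 5) (nat_lit 3) (nat_lit 4) (nat_lit 1) (nat_lit 4) (nat_lit 318) (nat_lit 252) (nat_lit 210))) (XT.nd (nat_lit 78) (nat_lit 0) (nat_lit 0) (XT.lf (nat_lit 0) (nat_lit 235154283522) (nat_lit 152) (nat_lit 2948946526024)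 (nat_lit 0) (nat_lit 233229305861) (nat_lit 1) (nat_lit 5) (nat_lit 3) (nat_lit 4) (nat_lit 1) (nat_lit 4) (nat_lit 319) (nat_lit 252) (nat_lit 209)) (XT.nd (nat_lit 78) (nat_lit 0) (nat_lit 0) (XT.lf (nat_lit 0) (nat_lit 274954714076) (nat_lit 152) (nat_lit 3381222295953) (nat_lit 0) (nat_lit 273029118570) (nat_lit 1) (nat_lit 5) (nat_lit 3) (nat_lit 4) (nat_lit 1) (nat_lit 4) (nat_lit 320) (nat_lit 252) (nat_lit 208)) (XT.lf (nat_lit 0) (nat_lit 320722339146) (nat_lit 152) (nat_lit 3878345429343) (nat_lit 0) (nat_lit 318796206384) (nat_lit 1) (nat_lit 5) (nat_lit 3) (nat_lit 4) (nat_lit 1) (nat_lit 4) (nat_lit 321) (nat_lit 252) (nat_lit 207))))) (XT.nd (nat_lit 156) (nat_lit 0) (nat_lit 0) (XT.nd (nat_lit 78) (nat_lit 0) (nat_lit 0) (XT.lf (nat_lit 0) (nat_lit 373352612265) (nat_lit 152) (nat_lit 4450042248368) (nat_lit 0) (nat_lit 371426012324) (nat_lit 1) (nat_lit 5) (nat_lit 3)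 (nat_lit 4) (nat_lit 1) (nat_lit 4) (nat_lit 322) (nat_lit 252) (nat_lit 206)) (XT.lf (nat_lit 0) (nat_lit 433875256169) (nat_lit 152) (nat_lit 5107498125575) (nat_lit 0) (nat_lit 431948249985) (nat_lit 1) (nat_lit 5) (nat_lit 3) (nat_lit 4) (nat_lit 1) (nat_lit 4) (nat_lit 323) (nat_lit 252) (nat_lit 205))) (XT.nd (nat_lit 78) (nat_lit 0) (nat_lit 0) (XT.lf (nat_lit 0) (nat_lit 503474409543) (nat_lit 152) (nat_lit 5863576328125) (nat_lit 0) (nat_lit 501547050104) (nat_lit 1) (nat_lit 5) (nat_lit 3) (nat_lit 4) (nat_lit 1) (nat_lit 4) (nat_lit 324) (nat_lit 252) (nat_lit 204)) (XT.nd (nat_lit 78) (nat_lit 0) (nat_lit 0) (XT.lf (nat_lit 0) (nat_lit 583511794953) (nat_lit 152) (nat_lit 6733069690418) (nat_lit 0) (nat_lit 581584128335) (nat_lit 1) (nat_lit 5) (nat_lit 3) (nat_lit 4) (nat_lit 1) (nat_lit 4) (nat_lit 325) (nat_lit 252) (nat_lit 203)) (XT.lf (nat_lit 0) (nat_lit 675553361243)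 (nat_lit 152) (nat_lit 7732990039106) (nat_lit 0) (nat_lit 673625427514) (nat_lit 1) (nat_lit 5) (nat_lit 3) (nat_lit 4) (nat_lit 1) (nat_lit 4) (nat_lit 326) (nat_lit 252) (nat_lit 202)))))) (XT.nd (nat_lit 390) (nat_lit 0) (nat_lit 0) (XT.nd (nat_lit 156) (nat_lit 0) (nat_lit 0) (XT.nd (nat_lit 78) (nat_lit 0) (nat_lit 0) (XT.lf (nat_lit 0) (nat_lit 781399921667) (nat_lit 152) (nat_lit 8882901033186) (nat_lit 0) (nat_lit 779471755668) (nat_lit 1) (nat_lit 5) (nat_lit 3) (nat_lit 4) (nat_lit 1) (nat_lit 4) (nat_lit 327) (nat_lit 252) (nat_lit 201)) (XT.lf (nat_lit 0) (nat_lit 903122387191) (nat_lit 152) (nat_lit 10205300931237) (nat_lit 0) (nat_lit 901194019217) (nat_lit 1) (nat_lit 5) (nat_lit 3) (nat_lit 4) (nat_lit 1) (nat_lit 4) (nat_lit 328) (nat_lit 252) (nat_lit 200))) (XT.nd (nat_lit 78) (nat_lit 0) (nat_lit 0) (XT.lf (nat_lit 0) (nat_lit 1043102284313) (nat_lit 152) (nat_lit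 11726062774744) (nat_lit 0) (nat_lit 1041173740709) (nat_lit 1) (nat_lit 5) (nat_lit 3) (nat_lit 4) (nat_lit 1) (nat_lit 4) (nat_lit 329) (nat_lit 252) (nat_lit 199)) (XT.nd (nat_lit 78) (nat_lit 0) (nat_lit 0) (XT.lf (nat_lit 0) (nat_lit 1204078350151) (nat_lit 152) (nat_lit 13474940599773) (nat_lit 0) (nat_lit 1202149653825) (nat_lit 1) (nat_lit 5) (nat_lit 3) (nat_lit 4) (nat_lit 1) (nat_lit 4) (nat_lit 330) (nat_lit 252) (nat_lit 198)) (XT.lf (nat_lit 0) (nat_lit 1389200116428) (nat_lit 152) (nat_lit 15486151581164) (nat_lit 0) (nat_lit 1387271287300) (nat_lit 1) (nat_lit 5) (nat_lit 3) (nat_lit 4) (nat_lit 1) (nat_lit 4) (nat_lit 331) (nat_lit 252) (nat_lit 197))))) (XT.nd (nat_lit 156) (nat_lit 0) (nat_lit 0) (XT.nd (nat_lit 78) (nat_lit 0) (nat_lit 0) (XT.lf (nat_lit 0) (nat_lit 1602089530744) (nat_lit 152) (nat_lit 17799045498987) (nat_lit 0) (nat_lit 1600160586137) (nat_lit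 1) (nat_lit 5) (nat_lit 3) (nat_lit 4) (nat_lit 1) (nat_lit 4) (nat_lit 332) (nat_lit 252) (nat_lit 196)) (XT.lf (nat_lit 0) (nat_lit 1846911820773) (nat_lit 152) (nat_lit 20458874625547) (nat_lit 0) (nat_lit 1844982775749) (nat_lit 1) (nat_lit 5) (nat_lit 3) (nat_lit 4) (nat_lit 1) (nat_lit 4) (nat_lit 333) (nat_lit 252) (nat_lit 195))) (XT.nd (nat_lit 78) (nat_lit 0) (nat_lit 0) (XT.lf (nat_lit 0) (nat_lit 2128456987839) (nat_lit 152) (nat_lit 23517679095929) (nat_lit 0) (nat_lit 2126527855496) (nat_lit 1) (nat_lit 5) (nat_lit 3) (nat_lit 4) (nat_lit 1) (nat_lit 4) (nat_lit 334) (nat_lit 252) (nat_lit 194)) (XT.nd (nat_lit 78) (nat_lit 0) (nat_lit 0) (XT.lf (nat_lit 0) (nat_lit 2452233524343) (nat_lit 152) (nat_lit 27035305084553) (nat_lit 0) (nat_lit 2450304316070) (nat_lit 1) (nat_lit 5) (nat_lit 3) (nat_lit 4) (nat_lit 1) (nat_lit 4) (nat_lit 335) (nat_lit 252) (nat_lit 193)) (XT.lf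 (nat_lit 0) (nat_lit 2824576188606) (nat_lit 152) (nat_lit 31080575708589) (nat_lit 0) (nat_lit 2822646914308) (nat_lit 1) (nat_lit 5) (nat_lit 3) (nat_lit 4) (nat_lit 1) (nat_lit 4) (nat_lit 336) (nat_lit 252) (nat_lit 192))))))) (XT.nd (nat_lit 35724) (nat_lit 0) (nat_lit 380) (XT.nd (nat_lit 390) (nat_lit 0) (nat_lit 0) (XT.nd (nat_lit 156) (nat_lit 0) (nat_lit 0) (XT.nd (nat_lit 78) (nat_lit 0) (nat_lit 0) (XT.lf (nat_lit 0) (nat_lit 3252769945800) (nat_lit 152) (nat_lit 35732637567201) (nat_lit 0) (nat_lit 3250840614088) (nat_lit 1) (nat_lit 5) (nat_lit 3) (nat_lit 4) (nat_lit 1) (nat_lit 4) (nat_lit 337) (nat_lit 252) (nat_lit 191)) (XT.lf (nat_lit 0) (nat_lit 3745192499870) (nat_lit 152) (nat_lit 41082509261973) (nat_lit 0) (nat_lit 3743263118232) (nat_lit 1) (nat_lit 5) (nat_lit 3) (nat_lit 4) (nat_lit 1) (nat_lit 4) (nat_lit 338) (nat_lit 252) (nat_lit 190))) (XT.nd (nat_lit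 78) (nat_lit 0) (nat_lit 0) (XT.lf (nat_lit 0) (nat_lit 4311478205134) (nat_lit 152) (nat_lit 47234862195626) (nat_lit 0) (nat_lit 4309548780083) (nat_lit 1) (nat_lit 5) (nat_lit 3) (nat_lit 4) (nat_lit 1) (nat_lit 4) (nat_lit 339) (nat_lit 252) (nat_lit 189)) (XT.nd (nat_lit 78) (nat_lit 0) (nat_lit 0) (XT.lf (nat_lit 0) (nat_lit 4962706564521) (nat_lit 152) (nat_lit 54310068490777) (nat_lit 0) (nat_lit 4960777101720) (nat_lit 1) (nat_lit 5) (nat_lit 3) (nat_lit 4) (nat_lit 1) (nat_lit 4) (nat_lit 340) (nat_lit 252) (nat_lit 188)) (XT.lf (nat_lit 0) (nat_lit 5711619002455) (nat_lit 152) (nat_lit 62446556096679) (nat_lit 0) (nat_lit 5709689506827) (nat_lit 1) (nat_lit 5) (nat_lit 3) (nat_lit 4) (nat_lit 1) (nat_lit 4) (nat_lit 341) (nat_lit 252) (nat_lit 187))))) (XT.nd (nat_lit 1326) (nat_lit 0) (nat_lit 0) (XT.nd (nat_lit 78) (nat_lit 0) (nat_lit 0) (XT.lf (nat_lit 0) (nat_lit 6572868153590)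 (nat_lit 152) (nat_lit 71803517162142) (nat_lit 0) (nat_lit 6570938629417) (nat_lit 1) (nat_lit 5) (nat_lit 3) (nat_lit 4) (nat_lit 1) (nat_lit 4) (nat_lit 342) (nat_lit 252) (nat_lit 186)) (XT.lf (nat_lit 0) (nat_lit 7563304544796) (nat_lit 152) (nat_lit 82564022664534) (nat_lit 0) (nat_lit 7561374995802) (nat_lit 1) (nat_lit 5) (nat_lit 3) (nat_lit 4) (nat_lit 1) (nat_lit 4) (nat_lit 343) (nat_lit 252) (nat_lit 185))) (XT.nd (nat_lit 78) (nat_lit 0) (nat_lit 0) (XT.lf (nat_lit 0) (nat_lit 71025584885315) (nat_lit 152) (nat_lit 772044467312443) (nat_lit 0) (nat_lit 71023655188528) (nat_lit 1) (nat_lit 5) (nat_lit 3) (nat_lit 4) (nat_lit 1) (nat_lit 4) (nat_lit 359) (nat_lit 252) (nat_lit 169)) (XT.nd (nat_lit 78) (nat_lit 0) (nat_lit 0) (XT.lf (nat_lit 0) (nat_lit 81683927984435) (nat_lit 152) (nat_lit 887841117013107) (nat_lit 0) (nat_lit 81681998285341) (nat_lit 1) (nat_lit 5) (nat_lit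 3) (nat_lit 4) (nat_lit 1) (nat_lit 4) (nat_lit 360) (nat_lit 252) (nat_lit 168)) (XT.lf (nat_lit 0) (nat_lit 93941022537708) (nat_lit 152) (nat_lit 1021007264191264) (nat_lit 0) (nat_lit 93939092836608) (nat_lit 1) (nat_lit 5) (nat_lit 3) (nat_lit 4) (nat_lit 1) (nat_lit 4) (nat_lit 361) (nat_lit 252) (nat_lit 167)))))) (XT.nd (nat_lit 390) (nat_lit 304) (nat_lit 0) (XT.nd (nat_lit 156) (nat_lit 228) (nat_lit 0) (XT.nd (nat_lit 78) (nat_lit 0) (nat_lit 0) (XT.lf (nat_lit 0) (nat_lit 117985064) (nat_lit 152) (nat_lit 5654289591) (nat_lit 0) (nat_lit 117985064) (nat_lit 13) (nat_lit 5) (nat_lit 15) (nat_lit 4) (nat_lit 13) (nat_lit 4) (nat_lit 274) (nat_lit 253) (nat_lit 253)) (XT.lf (nat_lit 0) (nat_lit 5281572536) (nat_lit 152) (nat_lit 2646152049) (nat_lit 0) (nat_lit 4775310135) (nat_lit 13) (nat_lit 5) (nat_lit 15) (nat_lit 4) (nat_lit 13) (nat_lit 4) (nat_lit 275) (nat_lit 253)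 (nat_lit 252))) (XT.nd (nat_lit 78) (nat_lit 152) (nat_lit 0) (XT.lf (nat_lit 0) (nat_lit 7064262697) (nat_lit 76) (nat_lit 3837024446) (nat_lit 76) (nat_lit 2890533871) (nat_lit 12) (nat_lit 4) (nat_lit 13) (nat_lit 5) (nat_lit 13) (nat_lit 4) (nat_lit 276) (nat_lit 253) (nat_lit 251)) (XT.nd (nat_lit 78) (nat_lit 0) (nat_lit 0) (XT.lf (nat_lit 0) (nat_lit 1938578150) (nat_lit 152) (nat_lit 12334872702) (nat_lit 0) (nat_lit 782667121) (nat_lit 10) (nat_lit 5) (nat_lit 12) (nat_lit 4) (nat_lit 10) (nat_lit 4) (nat_lit 277) (nat_lit 253) (nat_lit 250)) (XT.lf (nat_lit 0) (nat_lit 7287038727) (nat_lit 152) (nat_lit 3347384513) (nat_lit 0) (nat_lit 5841670527) (nat_lit 10) (nat_lit 5) (nat_lit 12) (nat_lit 4) (nat_lit 10) (nat_lit 4) (nat_lit 278) (nat_lit 253) (nat_lit 249))))) (XT.nd (nat_lit 234) (nat_lit 76) (nat_lit 0) (XT.nd (nat_lit 78) (nat_lit 152) (nat_lit 0) (XT.lf (nat_lit 0)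 (nat_lit 6815489406) (nat_lit 76) (nat_lit 6504309523) (nat_lit 76) (nat_lit 4807239436) (nat_lit 9) (nat_lit 4) (nat_lit 10) (nat_lit 5) (nat_lit 10) (nat_lit 4) (nat_lit 279) (nat_lit 253) (nat_lit 248)) (XT.nd (nat_lit 78) (nat_lit 152) (nat_lit 0) (XT.lf (nat_lit 0) (nat_lit 18134927089) (nat_lit 76) (nat_lit 1918726350) (nat_lit 76) (nat_lit 2785057) (nat_lit 9) (nat_lit 4) (nat_lit 10) (nat_lit 5) (nat_lit 10) (nat_lit 4) (nat_lit 280) (nat_lit 253) (nat_lit 247)) (XT.lf (nat_lit 0) (nat_lit 5200737722) (nat_lit 152) (nat_lit 13645683558) (nat_lit 0) (nat_lit 3369203738) (nat_lit 7) (nat_lit 5) (nat_lit 9) (nat_lit 4) (nat_lit 7) (nat_lit 4) (nat_lit 281) (nat_lit 253) (nat_lit 246)))) (XT.nd (nat_lit 78) (nat_lit 76) (nat_lit 0) (XT.lf (nat_lit 0) (nat_lit 11040584612) (nat_lit 152) (nat_lit 4614692014) (nat_lit 0) (nat_lit 9065139257) (nat_lit 7) (nat_lit 5) (nat_lit 9) (nat_lit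 4) (nat_lit 7) (nat_lit 4) (nat_lit 282) (nat_lit 253) (nat_lit 245)) (XT.nd (nat_lit 78) (nat_lit 0) (nat_lit 0) (XT.lf (nat_lit 0) (nat_lit 5680252956) (nat_lit 76) (nat_lit 12015264727) (nat_lit 76) (nat_lit 9914679049) (nat_lit 6) (nat_lit 4) (nat_lit 7) (nat_lit 5) (nat_lit 7) (nat_lit 4) (nat_lit 283) (nat_lit 253) (nat_lit 244)) (XT.lf (nat_lit 0) (nat_lit 17468786096) (nat_lit 76) (nat_lit 7840077869) (nat_lit 76) (nat_lit 5630674519) (nat_lit 6) (nat_lit 4) (nat_lit 7) (nat_lit 5) (nat_lit 7) (nat_lit 4) (nat_lit 284) (nat_lit 253) (nat_lit 243))))))))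
noncomputable def xc34 : XT := (XT.nd (nat_lit 1560) (nat_lit 152) (nat_lit 0) (XT.nd (nat_lit 780) (nat_lit 0) (nat_lit 0) (XT.nd (nat_lit 390) (nat_lit 76) (nat_lit 0) (XT.nd (nat_lit 156) (nat_lit 0) (nat_lit 0) (XT.nd (nat_lit 78) (nat_lit 152) (nat_lit 0) (XT.lf (nat_lit 0) (nat_lit 30530571352) (nat_lit 76) (nat_lit 3289250151) (nat_lit 76) (nat_lit 985222738) (nat_lit 6) (nat_lit 4) (nat_lit 7) (nat_lit 5) (nat_lit 7) (nat_lit 4) (nat_lit 285) (nat_lit 253) (nat_lit 242)) (XT.lf (nat_lit 0) (nat_lit 4095956275) (nat_lit 152) (nat_lit 33087510552) (nat_lit 0) (nat_lit 2020904791) (nat_lit 4) (nat_lit 5) (nat_lit 6) (nat_lit 4) (nat_lit 4) (nat_lit 4) (nat_lit 286) (nat_lit 253) (nat_lit 241))) (XT.nd (nat_lit 78) (nat_lit 0) (nat_lit 0) (XT.lf (nat_lit 0) (nat_lit 10008491771) (nat_lit 152) (nat_lit 26351406918) (nat_lit 0) (nat_lit 7871223431) (nat_lit 4) (nat_lit 5) (nat_lit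 6) (nat_lit 4) (nat_lit 4) (nat_lit 4) (nat_lit 287) (nat_lit 253) (nat_lit 240)) (XT.nd (nat_lit 78) (nat_lit 0) (nat_lit 0) (XT.lf (nat_lit 0) (nat_lit 16616027971) (nat_lit 152) (nat_lit 19000040697) (nat_lit 0) (nat_lit 14424658015) (nat_lit 4) (nat_lit 5) (nat_lit 6) (nat_lit 4) (nat_lit 4) (nat_lit 4) (nat_lit 288) (nat_lit 253) (nat_lit 239)) (XT.lf (nat_lit 0) (nat_lit 24047842756) (nat_lit 152) (nat_lit 10889580809) (nat_lit 0) (nat_lit 21809427918) (nat_lit 4) (nat_lit 5) (nat_lit 6) (nat_lit 4) (nat_lit 4) (nat_lit 4) (nat_lit 289) (nat_lit 253) (nat_lit 238))))) (XT.nd (nat_lit 156) (nat_lit 0) (nat_lit 0) (XT.nd (nat_lit 78) (nat_lit 76) (nat_lit 0) (XT.lf (nat_lit 0) (nat_lit 32449341198) (nat_lit 152) (nat_lit 1861344345) (nat_lit 0) (nat_lit 30170017767) (nat_lit 4) (nat_lit 5) (nat_lit 6) (nat_lit 4) (nat_lit 4) (nat_lit 4) (nat_lit 290) (nat_lit 253) (nat_lit 237))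 (XT.lf (nat_lit 0) (nat_lit 9068663215) (nat_lit 76) (nat_lit 33291751231) (nat_lit 76) (nat_lit 30976855109) (nat_lit 3) (nat_lit 4) (nat_lit 4) (nat_lit 5) (nat_lit 4) (nat_lit 4) (nat_lit 291) (nat_lit 253) (nat_lit 236))) (XT.nd (nat_lit 78) (nat_lit 0) (nat_lit 0) (XT.lf (nat_lit 0) (nat_lit 21599352125) (nat_lit 76) (nat_lit 32136116760) (nat_lit 76) (nat_lit 29790287865) (nat_lit 3) (nat_lit 4) (nat_lit 4) (nat_lit 5) (nat_lit 4) (nat_lit 4) (nat_lit 292) (nat_lit 253) (nat_lit 235)) (XT.nd (nat_lit 78) (nat_lit 0) (nat_lit 0) (XT.lf (nat_lit 0) (nat_lit 35793983931) (nat_lit 76) (nat_lit 30918469437) (nat_lit 76) (nat_lit 28545742478) (nat_lit 3) (nat_lit 4) (nat_lit 4) (nat_lit 5) (nat_lit 4) (nat_lit 4) (nat_lit 293) (nat_lit 253) (nat_lit 234)) (XT.lf (nat_lit 0) (nat_lit 51930279689) (nat_lit 76) (nat_lit 29614985728) (nat_lit 76) (nat_lit 27218869147) (nat_lit 3) (nat_lit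 4) (nat_lit 4) (nat_lit 5) (nat_lit 4) (nat_lit 4) (nat_lit 294) (nat_lit 253) (nat_lit 233)))))) (XT.nd (nat_lit 390) (nat_lit 0) (nat_lit 0) (XT.nd (nat_lit 156) (nat_lit 0) (nat_lit 0) (XT.nd (nat_lit 78) (nat_lit 0) (nat_lit 0) (XT.lf (nat_lit 0) (nat_lit 70323949534) (nat_lit 76) (nat_lit 28200162689) (nat_lit 76) (nat_lit 25783707308) (nat_lit 3) (nat_lit 4) (nat_lit 4) (nat_lit 5) (nat_lit 4) (nat_lit 4) (nat_lit 295) (nat_lit 253) (nat_lit 232)) (XT.lf (nat_lit 0) (nat_lit 91334869615) (nat_lit 76) (nat_lit 26646319002) (nat_lit 76) (nat_lit 24212177706) (nat_lit 3) (nat_lit 4) (nat_lit 4) (nat_lit 5) (nat_lit 4) (nat_lit 4) (nat_lit 296) (nat_lit 253) (nat_lit 231))) (XT.nd (nat_lit 78) (nat_lit 0) (nat_lit 0) (XT.lf (nat_lit 0) (nat_lit 115374123151) (nat_lit 76) (nat_lit 24923053376) (nat_lit 76) (nat_lit 22473533025) (nat_lit 3) (nat_lit 4) (nat_lit 4) (nat_lit 5) (nat_lit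 4) (nat_lit 4) (nat_lit 297) (nat_lit 253) (nat_lit 230)) (XT.nd (nat_lit 78) (nat_lit 0) (nat_lit 0) (XT.lf (nat_lit 0) (nat_lit 142912043363) (nat_lit 76) (nat_lit 22996649744) (nat_lit 76) (nat_lit 20533756301) (nat_lit 3) (nat_lit 4) (nat_lit 4) (nat_lit 5) (nat_lit 4) (nat_lit 4) (nat_lit 298) (nat_lit 253) (nat_lit 229)) (XT.lf (nat_lit 0) (nat_lit 174487415647) (nat_lit 76) (nat_lit 20829417601) (nat_lit 76) (nat_lit 18354895383) (nat_lit 3) (nat_lit 4) (nat_lit 4) (nat_lit 5) (nat_lit 4) (nat_lit 4) (nat_lit 299) (nat_lit 253) (nat_lit 228))))) (XT.nd (nat_lit 156) (nat_lit 0) (nat_lit 0) (XT.nd (nat_lit 78) (nat_lit 0) (nat_lit 0) (XT.lf (nat_lit 0) (nat_lit 210718019026) (nat_lit 76) (nat_lit 18378954580) (nat_lit 76) (nat_lit 15894320383) (nat_lit 3) (nat_lit 4) (nat_lit 4) (nat_lit 5) (nat_lit 4) (nat_lit 4) (nat_lit 300) (nat_lit 253) (nat_lit 227)) (XT.lf (nat_lit 0) (nat_lit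 252312713132) (nat_lit 76) (nat_lit 15597316837) (nat_lit 76) (nat_lit 13103889615) (nat_lit 3) (nat_lit 4) (nat_lit 4) (nat_lit 5) (nat_lit 4) (nat_lit 4) (nat_lit 301) (nat_lit 253) (nat_lit 226))) (XT.nd (nat_lit 78) (nat_lit 0) (nat_lit 0) (XT.lf (nat_lit 0) (nat_lit 300085307195) (nat_lit 76) (nat_lit 12430081026) (nat_lit 76) (nat_lit 9929007696) (nat_lit 3) (nat_lit 4) (nat_lit 4) (nat_lit 5) (nat_lit 4) (nat_lit 4) (nat_lit 302) (nat_lit 253) (nat_lit 225)) (XT.nd (nat_lit 78) (nat_lit 0) (nat_lit 0) (XT.lf (nat_lit 0) (nat_lit 354970482406) (nat_lit 76) (nat_lit 8815279490) (nat_lit 76) (nat_lit 6307557370) (nat_lit 3) (nat_lit 4) (nat_lit 4) (nat_lit 5) (nat_lit 4) (nat_lit 4) (nat_lit 303) (nat_lit 253) (nat_lit 224)) (XT.lf (nat_lit 0) (nat_lit 418042079148) (nat_lit 76) (nat_lit 4682187851) (nat_lit 76) (nat_lit 2168684174) (nat_lit 3) (nat_lit 4) (nat_lit 4) (nat_lit 5)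 (nat_lit 4) (nat_lit 4) (nat_lit 304) (nat_lit 253) (nat_lit 223))))))) (XT.nd (nat_lit 780) (nat_lit 0) (nat_lit 0) (XT.nd (nat_lit 390) (nat_lit 0) (nat_lit 0) (XT.nd (nat_lit 156) (nat_lit 0) (nat_lit 0) (XT.nd (nat_lit 78) (nat_lit 0) (nat_lit 0) (XT.lf (nat_lit 0) (nat_lit 2466686590) (nat_lit 152) (nat_lit 485137142697) (nat_lit 0) (nat_lit 276659532) (nat_lit 1) (nat_lit 5) (nat_lit 3) (nat_lit 4) (nat_lit 1) (nat_lit 4) (nat_lit 305) (nat_lit 253) (nat_lit 222)) (XT.lf (nat_lit 0) (nat_lit 8153151395) (nat_lit 152) (nat_lit 546101523376) (nat_lit 0) (nat_lit 5959322869) (nat_lit 1) (nat_lit 5) (nat_lit 3) (nat_lit 4) (nat_lit 1) (nat_lit 4) (nat_lit 306) (nat_lit 253) (nat_lit 221))) (XT.nd (nat_lit 78) (nat_lit 0) (nat_lit 0) (XT.lf (nat_lit 0) (nat_lit 14674927005) (nat_lit 152) (nat_lit 616247465397) (nat_lit 0) (nat_lit 12477792855) (nat_lit 1) (nat_lit 5) (nat_lit 3) (nat_lit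 4) (nat_lit 1) (nat_lit 4) (nat_lit 307) (nat_lit 253) (nat_lit 220)) (XT.nd (nat_lit 78) (nat_lit 0) (nat_lit 0) (XT.lf (nat_lit 0) (nat_lit 22159613379) (nat_lit 152) (nat_lit 696947389366) (nat_lit 0) (nat_lit 19959604774) (nat_lit 1) (nat_lit 5) (nat_lit 3) (nat_lit 4) (nat_lit 1) (nat_lit 4) (nat_lit 308) (nat_lit 253) (nat_lit 219)) (XT.lf (nat_lit 0) (nat_lit 30753650032) (nat_lit 152) (nat_lit 789780206838) (nat_lit 0) (nat_lit 28551141900) (nat_lit 1) (nat_lit 5) (nat_lit 3) (nat_lit 4) (nat_lit 1) (nat_lit 4) (nat_lit 309) (nat_lit 253) (nat_lit 218))))) (XT.nd (nat_lit 156) (nat_lit 0) (nat_lit 0) (XT.nd (nat_lit 78) (nat_lit 0) (nat_lit 0) (XT.lf (nat_lit 0) (nat_lit 40625181160) (nat_lit 152) (nat_lit 896562212069) (nat_lit 0) (nat_lit 38420499527) (nat_lit 1) (nat_lit 5) (nat_lit 3) (nat_lit 4) (nat_lit 1) (nat_lit 4) (nat_lit 310) (nat_lit 253) (nat_lit 217)) (XT.lf (nat_lit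 0) (nat_lit 51967345416) (nat_lit 152) (nat_lit 1019382618205) (nat_lit 0) (nat_lit 49760773781) (nat_lit 1) (nat_lit 5) (nat_lit 3) (nat_lit 4) (nat_lit 1) (nat_lit 4) (nat_lit 311) (nat_lit 253) (nat_lit 216))) (XT.nd (nat_lit 78) (nat_lit 0) (nat_lit 0) (XT.lf (nat_lit 0) (nat_lit 65002054708) (nat_lit 152) (nat_lit 1160644433191) (nat_lit 0) (nat_lit 62793839594) (nat_lit 1) (nat_lit 5) (nat_lit 3) (nat_lit 4) (nat_lit 1) (nat_lit 4) (nat_lit 312) (nat_lit 253) (nat_lit 215)) (XT.nd (nat_lit 78) (nat_lit 0) (nat_lit 0) (XT.lf (nat_lit 0) (nat_lit 79984335957) (nat_lit 152) (nat_lit 1323111475147) (nat_lit 0) (nat_lit 77774691732) (nat_lit 1) (nat_lit 5) (nat_lit 3) (nat_lit 4) (nat_lit 1) (nat_lit 4) (nat_lit 313) (nat_lit 253) (nat_lit 214)) (XT.lf (nat_lit 0) (nat_lit 97207320754) (nat_lit 152) (nat_lit 1509962447067) (nat_lit 0) (nat_lit 94996433822) (nat_lit 1) (nat_lit 5) (nat_lit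 3) (nat_lit 4) (nat_lit 1) (nat_lit 4) (nat_lit 314) (nat_lit 253) (nat_lit 213)))))) (XT.nd (nat_lit 390) (nat_lit 0) (nat_lit 0) (XT.nd (nat_lit 156) (nat_lit 0) (nat_lit 0) (XT.nd (nat_lit 78) (nat_lit 0) (nat_lit 0) (XT.lf (nat_lit 0) (nat_lit 117007980540) (nat_lit 152) (nat_lit 1724853128838) (nat_lit 0) (nat_lit 114796012994) (nat_lit 1) (nat_lit 5) (nat_lit 3) (nat_lit 4) (nat_lit 1) (nat_lit 4) (nat_lit 315) (nat_lit 253) (nat_lit 212)) (XT.lf (nat_lit 0) (nat_lit 139773719529) (nat_lit 152) (nat_lit 1971987903362) (nat_lit 0) (nat_lit 137560812317) (nat_lit 1) (nat_lit 5) (nat_lit 3) (nat_lit 4) (nat_lit 1) (nat_lit 4) (nat_lit 316) (nat_lit 253) (nat_lit 211))) (XT.nd (nat_lit 78) (nat_lit 0) (nat_lit 0) (XT.lf (nat_lit 0) (nat_lit 165949954351) (nat_lit 152) (nat_lit 2256202016230) (nat_lit 0) (nat_lit 163736230041) (nat_lit 1) (nat_lit 5) (nat_lit 3) (nat_lit 4) (nat_lit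 1) (nat_lit 4) (nat_lit 317) (nat_lit 253) (nat_lit 210)) (XT.nd (nat_lit 78) (nat_lit 0) (nat_lit 0) (XT.lf (nat_lit 0) (nat_lit 196048828733) (nat_lit 152) (nat_lit 2583056178344) (nat_lit 0) (nat_lit 193834393901) (nat_lit 1) (nat_lit 5) (nat_lit 3) (nat_lit 4) (nat_lit 1) (nat_lit 4) (nat_lit 318) (nat_lit 253) (nat_lit 209)) (XT.lf (nat_lit 0) (nat_lit 230659233695) (nat_lit 152) (nat_lit 2958945362441) (nat_lit 0) (nat_lit 228444181018) (nat_lit 1) (nat_lit 5) (nat_lit 3) (nat_lit 4) (nat_lit 1) (nat_lit 4) (nat_lit 319) (nat_lit 253) (nat_lit 208))))) (XT.nd (nat_lit 156) (nat_lit 0) (nat_lit 0) (XT.nd (nat_lit 78) (nat_lit 0) (nat_lit 0) (XT.lf (nat_lit 0) (nat_lit 270458329334) (nat_lit 152) (nat_lit 3391223922125) (nat_lit 0) (nat_lit 268242739401) (nat_lit 1) (nat_lit 5) (nat_lit 3) (nat_lit 4) (nat_lit 1) (nat_lit 4) (nat_lit 320) (nat_lit 253) (nat_lit 207)) (XT.lf (nat_lit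 0) (nat_lit 316224793608) (nat_lit 152) (nat_lit 3888349481387) (nat_lit 0) (nat_lit 314008736496) (nat_lit 1) (nat_lit 5) (nat_lit 3) (nat_lit 4) (nat_lit 1) (nat_lit 4) (nat_lit 321) (nat_lit 253) (nat_lit 206))) (XT.nd (nat_lit 78) (nat_lit 0) (nat_lit 0) (XT.lf (nat_lit 0) (nat_lit 368854057340) (nat_lit 152) (nat_lit 4460048409867) (nat_lit 0) (nat_lit 366637593984) (nat_lit 1) (nat_lit 5) (nat_lit 3) (nat_lit 4) (nat_lit 1) (nat_lit 4) (nat_lit 322) (nat_lit 253) (nat_lit 205)) (XT.nd (nat_lit 78) (nat_lit 0) (nat_lit 0) (XT.lf (nat_lit 0) (nat_lit 429375823516) (nat_lit 152) (nat_lit 5117506121382) (nat_lit 0) (nat_lit 427159006905) (nat_lit 1) (nat_lit 5) (nat_lit 3) (nat_lit 4) (nat_lit 1) (nat_lit 4) (nat_lit 323) (nat_lit 253) (nat_lit 204)) (XT.lf (nat_lit 0) (nat_lit 498974213647) (nat_lit 152) (nat_lit 5873585918984) (nat_lit 0) (nat_lit 496757089859) (nat_lit 1) (nat_lit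 5) (nat_lit 3) (nat_lit 4) (nat_lit 1) (nat_lit 4) (nat_lit 324) (nat_lit 253) (nat_lit 203))))))))
noncomputable def xc35 : XT := (XT.nd (nat_lit 2730) (nat_lit 0) (nat_lit 0) (XT.nd (nat_lit 780) (nat_lit 0) (nat_lit 0) (XT.nd (nat_lit 390) (nat_lit 0) (nat_lit 0) (XT.nd (nat_lit 156) (nat_lit 0) (nat_lit 0) (XT.nd (nat_lit 78) (nat_lit 0) (nat_lit 0) (XT.lf (nat_lit 0) (nat_lit 579010935368) (nat_lit 152) (nat_lit 6743080668277) (nat_lit 0) (nat_lit 576793544469) (nat_lit 1) (nat_lit 5) (nat_lit 3) (nat_lit 4) (nat_lit 1) (nat_lit 4) (nat_lit 325) (nat_lit 253) (nat_lit 202)) (XT.lf (nat_lit 0) (nat_lit 671051924538) (nat_lit 152) (nat_lit 7743002223053) (nat_lit 0) (nat_lit 668834301368) (nat_lit 1) (nat_lit 5) (nat_lit 3) (nat_lit 4) (nat_lit 1) (nat_lit 4) (nat_lit 326) (nat_lit 253) (nat_lit 201))) (XT.nd (nat_lit 78) (nat_lit 0) (nat_lit 0) (XT.lf (nat_lit 0) (nat_lit 776897983118)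 (nat_lit 152) (nat_lit 8892914265905) (nat_lit 0) (nat_lit 774680157974) (nat_lit 1) (nat_lit 5) (nat_lit 3) (nat_lit 4) (nat_lit 1) (nat_lit 4) (nat_lit 327) (nat_lit 253) (nat_lit 200)) (XT.nd (nat_lit 78) (nat_lit 0) (nat_lit 0) (XT.lf (nat_lit 0) (nat_lit 898620012256) (nat_lit 152) (nat_lit 10215315075931) (nat_lit 0) (nat_lit 896402011481) (nat_lit 1) (nat_lit 5) (nat_lit 3) (nat_lit 4) (nat_lit 1) (nat_lit 4) (nat_lit 328) (nat_lit 253) (nat_lit 199)) (XT.lf (nat_lit 0) (nat_lit 1038599529911) (nat_lit 152) (nat_lit 11736077712460) (nat_lit 0) (nat_lit 1036381376415) (nat_lit 1) (nat_lit 5) (nat_lit 3) (nat_lit 4) (nat_lit 1) (nat_lit 4) (nat_lit 329) (nat_lit 253) (nat_lit 198))))) (XT.nd (nat_lit 156) (nat_lit 0) (nat_lit 0) (XT.nd (nat_lit 78) (nat_lit 0) (nat_lit 0) (XT.lf (nat_lit 0) (nat_lit 1199575265779) (nat_lit 152) (nat_lit 13484956227074) (nat_lit 0) (nat_lit 1197356979481)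 (nat_lit 1) (nat_lit 5) (nat_lit 3) (nat_lit 4) (nat_lit 1) (nat_lit 4) (nat_lit 330) (nat_lit 253) (nat_lit 197)) (XT.lf (nat_lit 0) (nat_lit 1384696745125) (nat_lit 152) (nat_lit 15496167808104) (nat_lit 0) (nat_lit 1382478343347) (nat_lit 1) (nat_lit 5) (nat_lit 3) (nat_lit 4) (nat_lit 1) (nat_lit 4) (nat_lit 331) (nat_lit 253) (nat_lit 196))) (XT.nd (nat_lit 78) (nat_lit 0) (nat_lit 0) (XT.lf (nat_lit 0) (nat_lit 1597585909936) (nat_lit 152) (nat_lit 17809062247351) (nat_lit 0) (nat_lit 1595367407742) (nat_lit 1) (nat_lit 5) (nat_lit 3) (nat_lit 4) (nat_lit 1) (nat_lit 4) (nat_lit 332) (nat_lit 253) (nat_lit 195)) (XT.nd (nat_lit 78) (nat_lit 0) (nat_lit 0) (XT.lf (nat_lit 0) (nat_lit 1842407983004) (nat_lit 152) (nat_lit 20468891827324) (nat_lit 0) (nat_lit 1840189393490) (nat_lit 1) (nat_lit 5) (nat_lit 3) (nat_lit 4) (nat_lit 1) (nat_lit 4) (nat_lit 333) (nat_lit 253) (nat_lit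 194)) (XT.lf (nat_lit 0) (nat_lit 2123952961408) (nat_lit 152) (nat_lit 23527696691978) (nat_lit 0) (nat_lit 2121734295965) (nat_lit 1) (nat_lit 5) (nat_lit 3) (nat_lit 4) (nat_lit 1) (nat_lit 4) (nat_lit 334) (nat_lit 253) (nat_lit 193)))))) (XT.nd (nat_lit 390) (nat_lit 0) (nat_lit 0) (XT.nd (nat_lit 156) (nat_lit 0) (nat_lit 0) (XT.nd (nat_lit 78) (nat_lit 0) (nat_lit 0) (XT.lf (nat_lit 0) (nat_lit 2447729333858) (nat_lit 152) (nat_lit 27045323023448) (nat_lit 0) (nat_lit 2445510602389) (nat_lit 1) (nat_lit 5) (nat_lit 3) (nat_lit 4) (nat_lit 1) (nat_lit 4) (nat_lit 335) (nat_lit 253) (nat_lit 192)) (XT.lf (nat_lit 0) (nat_lit 2820071855466) (nat_lit 152) (nat_lit 31090593945610) (nat_lit 0) (nat_lit 2817853066583) (nat_lit 1) (nat_lit 5) (nat_lit 3) (nat_lit 4) (nat_lit 1) (nat_lit 4) (nat_lit 336) (nat_lit 253) (nat_lit 191))) (XT.nd (nat_lit 78) (nat_lit 0) (nat_lit 0) (XT.lf (nat_lit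 0) (nat_lit 3248265488612) (nat_lit 152) (nat_lit 35742656063463) (nat_lit 0) (nat_lit 3246046649804) (nat_lit 1) (nat_lit 5) (nat_lit 3) (nat_lit 4) (nat_lit 1) (nat_lit 4) (nat_lit 337) (nat_lit 253) (nat_lit 190)) (XT.nd (nat_lit 78) (nat_lit 0) (nat_lit 0) (XT.lf (nat_lit 0) (nat_lit 3740687934814) (nat_lit 152) (nat_lit 41092527983661) (nat_lit 0) (nat_lit 3738469052593) (nat_lit 1) (nat_lit 5) (nat_lit 3) (nat_lit 4) (nat_lit 1) (nat_lit 4) (nat_lit 338) (nat_lit 253) (nat_lit 189)) (XT.lf (nat_lit 0) (nat_lit 4306973546280) (nat_lit 152) (nat_lit 47244881113337) (nat_lit 0) (nat_lit 4304754626308) (nat_lit 1) (nat_lit 5) (nat_lit 3) (nat_lit 4) (nat_lit 1) (nat_lit 4) (nat_lit 339) (nat_lit 253) (nat_lit 188))))) (XT.nd (nat_lit 156) (nat_lit 0) (nat_lit 0) (XT.nd (nat_lit 78) (nat_lit 0) (nat_lit 0) (XT.lf (nat_lit 0) (nat_lit 4958201824103) (nat_lit 152) (nat_lit 54320087578943)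 (nat_lit 0) (nat_lit 4955982871305) (nat_lit 1) (nat_lit 5) (nat_lit 3) (nat_lit 4) (nat_lit 1) (nat_lit 4) (nat_lit 340) (nat_lit 253) (nat_lit 187)) (XT.lf (nat_lit 0) (nat_lit 5707114191112) (nat_lit 152) (nat_lit 62456575333066) (nat_lit 0) (nat_lit 5704895209769) (nat_lit 1) (nat_lit 5) (nat_lit 3) (nat_lit 4) (nat_lit 1) (nat_lit 4) (nat_lit 341) (nat_lit 253) (nat_lit 186))) (XT.nd (nat_lit 78) (nat_lit 0) (nat_lit 0) (XT.lf (nat_lit 0) (nat_lit 6568363280573) (nat_lit 152) (nat_lit 71813536527417) (nat_lit 0) (nat_lit 6566144274409) (nat_lit 1) (nat_lit 5) (nat_lit 3) (nat_lit 4) (nat_lit 1) (nat_lit 4) (nat_lit 342) (nat_lit 253) (nat_lit 185)) (XT.nd (nat_lit 1248) (nat_lit 0) (nat_lit 0) (XT.lf (nat_lit 0) (nat_lit 7558799618150) (nat_lit 152) (nat_lit 82574042141886) (nat_lit 0) (nat_lit 7556580590402) (nat_lit 1) (nat_lit 5) (nat_lit 3) (nat_lit 4) (nat_lit 1) (nat_lit 4)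 (nat_lit 343) (nat_lit 253) (nat_lit 184)) (XT.lf (nat_lit 0) (nat_lit 71021079639347) (nat_lit 152) (nat_lit 772054487457126) (nat_lit 0) (nat_lit 71018860483082) (nat_lit 1) (nat_lit 5) (nat_lit 3) (nat_lit 4) (nat_lit 1) (nat_lit 4) (nat_lit 359) (nat_lit 253) (nat_lit 168))))))) (XT.nd (nat_lit 34476) (nat_lit 0) (nat_lit 152) (XT.nd (nat_lit 34086) (nat_lit 0) (nat_lit 608) (XT.nd (nat_lit 33852) (nat_lit 0) (nat_lit 912) (XT.nd (nat_lit 33774) (nat_lit 0) (nat_lit 1140) (XT.lf (nat_lit 0) (nat_lit 81679422733482) (nat_lit 152) (nat_lit 887851137168206) (nat_lit 0) (nat_lit 81677203575213) (nat_lit 1) (nat_lit 5) (nat_lit 3) (nat_lit 4) (nat_lit 1) (nat_lit 4) (nat_lit 360) (nat_lit 253) (nat_lit 167)) (XT.lf (nat_lit 0) (nat_lit 1173292366) (nat_lit 152) (nat_lit 2752624824) (nat_lit 0) (nat_lit 1173292366) (nat_lit 16) (nat_lit 5) (nat_lit 18) (nat_lit 4) (nat_lit 16) (nat_lit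 4) (nat_lit 272) (nat_lit 254) (nat_lit 254))) (XT.nd (nat_lit 78) (nat_lit 152) (nat_lit 0) (XT.lf (nat_lit 0) (nat_lit 2662413129) (nat_lit 76) (nat_lit 4473344407) (nat_lit 76) (nat_lit 3803812382) (nat_lit 15) (nat_lit 4) (nat_lit 16) (nat_lit 5) (nat_lit 16) (nat_lit 4) (nat_lit 273) (nat_lit 254) (nat_lit 253)) (XT.nd (nat_lit 78) (nat_lit 0) (nat_lit 0) (XT.lf (nat_lit 0) (nat_lit 12062171) (nat_lit 76) (nat_lit 575749901) (nat_lit 152) (nat_lit 11227520494) (nat_lit 13) (nat_lit 5) (nat_lit 14) (nat_lit 5) (nat_lit 15) (nat_lit 4) (nat_lit 274) (nat_lit 254) (nat_lit 252)) (XT.lf (nat_lit 0) (nat_lit 5388530083) (nat_lit 152) (nat_lit 3526438022) (nat_lit 0) (nat_lit 3859837748) (nat_lit 13) (nat_lit 5) (nat_lit 15) (nat_lit 4) (nat_lit 13) (nat_lit 4) (nat_lit 275) (nat_lit 254) (nat_lit 251))))) (XT.nd (nat_lit 156) (nat_lit 76) (nat_lit 0) (XT.nd (nat_lit 78) (nat_lit 152)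 (nat_lit 0) (XT.lf (nat_lit 0) (nat_lit 5707124137) (nat_lit 76) (nat_lit 5052712322) (nat_lit 76) (nat_lit 3141212878) (nat_lit 12) (nat_lit 4) (nat_lit 13) (nat_lit 5) (nat_lit 13) (nat_lit 4) (nat_lit 276) (nat_lit 254) (nat_lit 250)) (XT.lf (nat_lit 0) (nat_lit 770275911) (nat_lit 76) (nat_lit 631887391) (nat_lit 152) (nat_lit 13811096130) (nat_lit 10) (nat_lit 5) (nat_lit 11) (nat_lit 5) (nat_lit 12) (nat_lit 4) (nat_lit 277) (nat_lit 254) (nat_lit 249))) (XT.nd (nat_lit 78) (nat_lit 76) (nat_lit 0) (XT.lf (nat_lit 0) (nat_lit 6538326518) (nat_lit 152) (nat_lit 5791888128) (nat_lit 0) (nat_lit 4334994030) (nat_lit 10) (nat_lit 5) (nat_lit 12) (nat_lit 4) (nat_lit 10) (nat_lit 4) (nat_lit 278) (nat_lit 254) (nat_lit 248)) (XT.nd (nat_lit 78) (nat_lit 0) (nat_lit 0) (XT.lf (nat_lit 0) (nat_lit 3786013121) (nat_lit 76) (nat_lit 8497775315) (nat_lit 76) (nat_lit 6075571621) (nat_lit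 9) (nat_lit 4) (nat_lit 10) (nat_lit 5) (nat_lit 10) (nat_lit 4) (nat_lit 279) (nat_lit 254) (nat_lit 247)) (XT.lf (nat_lit 0) (nat_lit 14804513413) (nat_lit 76) (nat_lit 4059925633) (nat_lit 76) (nat_lit 1447399150) (nat_lit 9) (nat_lit 4) (nat_lit 10) (nat_lit 5) (nat_lit 10) (nat_lit 4) (nat_lit 280) (nat_lit 254) (nat_lit 246)))))) (XT.nd (nat_lit 390) (nat_lit 228) (nat_lit 0) (XT.nd (nat_lit 156) (nat_lit 76) (nat_lit 0) (XT.nd (nat_lit 78) (nat_lit 0) (nat_lit 0) (XT.lf (nat_lit 0) (nat_lit 3466939643) (nat_lit 152) (nat_lit 18024534414) (nat_lit 0) (nat_lit 1051266114) (nat_lit 7) (nat_lit 5) (nat_lit 9) (nat_lit 4) (nat_lit 7) (nat_lit 4) (nat_lit 281) (nat_lit 254) (nat_lit 245)) (XT.lf (nat_lit 0) (nat_lit 9169066527) (nat_lit 152) (nat_lit 9270933894) (nat_lit 0) (nat_lit 6628252675) (nat_lit 7) (nat_lit 5) (nat_lit 9) (nat_lit 4) (nat_lit 7) (nat_lit 4) (nat_lit 282) (nat_lit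 254) (nat_lit 244))) (XT.nd (nat_lit 78) (nat_lit 0) (nat_lit 0) (XT.lf (nat_lit 0) (nat_lit 304186915) (nat_lit 76) (nat_lit 15177444726) (nat_lit 76) (nat_lit 12527813201) (nat_lit 6) (nat_lit 4) (nat_lit 7) (nat_lit 5) (nat_lit 7) (nat_lit 4) (nat_lit 283) (nat_lit 254) (nat_lit 243)) (XT.nd (nat_lit 78) (nat_lit 0) (nat_lit 0) (XT.lf (nat_lit 0) (nat_lit 11862474541) (nat_lit 76) (nat_lit 11118833295) (nat_lit 76) (nat_lit 8374577708) (nat_lit 6) (nat_lit 4) (nat_lit 7) (nat_lit 5) (nat_lit 7) (nat_lit 4) (nat_lit 284) (nat_lit 254) (nat_lit 242)) (XT.lf (nat_lit 0) (nat_lit 24724046307) (nat_lit 76) (nat_lit 6669375513) (nat_lit 76) (nat_lit 3842838133) (nat_lit 6) (nat_lit 4) (nat_lit 7) (nat_lit 5) (nat_lit 7) (nat_lit 4) (nat_lit 285) (nat_lit 254) (nat_lit 241))))) (XT.nd (nat_lit 234) (nat_lit 76) (nat_lit 0) (XT.nd (nat_lit 78) (nat_lit 76) (nat_lit 0) (XT.lf (nat_lit 0) (nat_lit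 1053148648) (nat_lit 152) (nat_lit 633817172) (nat_lit 76) (nat_lit 38032342061) (nat_lit 5) (nat_lit 5) (nat_lit 7) (nat_lit 5) (nat_lit 6) (nat_lit 4) (nat_lit 286) (nat_lit 254) (nat_lit 240)) (XT.nd (nat_lit 78) (nat_lit 0) (nat_lit 0) (XT.lf (nat_lit 0) (nat_lit 6776402382) (nat_lit 152) (nat_lit 33795850641) (nat_lit 0) (nat_lit 4202225318) (nat_lit 4) (nat_lit 5) (nat_lit 6) (nat_lit 4) (nat_lit 4) (nat_lit 4) (nat_lit 287) (nat_lit 254) (nat_lit 239)) (XT.lf (nat_lit 0) (nat_lit 13306333072) (nat_lit 152) (nat_lit 26604303613) (nat_lit 0) (nat_lit 10685111126) (nat_lit 4) (nat_lit 5) (nat_lit 6) (nat_lit 4) (nat_lit 4) (nat_lit 4) (nat_lit 288) (nat_lit 254) (nat_lit 238)))) (XT.nd (nat_lit 78) (nat_lit 76) (nat_lit 0) (XT.lf (nat_lit 0) (nat_lit 20670664806) (nat_lit 152) (nat_lit 18632816938) (nat_lit 0) (nat_lit 18008534266) (nat_lit 4) (nat_lit 5) (nat_lit 6) (nat_lit 4)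 (nat_lit 4) (nat_lit 4) (nat_lit 289) (nat_lit 254) (nat_lit 237)) (XT.nd (nat_lit 78) (nat_lit 76) (nat_lit 0) (XT.lf (nat_lit 0) (nat_lit 29013482334) (nat_lit 152) (nat_lit 9725426745) (nat_lit 0) (nat_lit 26315779104) (nat_lit 4) (nat_lit 5) (nat_lit 6) (nat_lit 4) (nat_lit 4) (nat_lit 4) (nat_lit 290) (nat_lit 254) (nat_lit 236)) (XT.lf (nat_lit 0) (nat_lit 320692230) (nat_lit 76) (nat_lit 38190601646) (nat_lit 76) (nat_lit 35461965643) (nat_lit 3) (nat_lit 4) (nat_lit 4) (nat_lit 5) (nat_lit 4) (nat_lit 4) (nat_lit 291) (nat_lit 254) (nat_lit 235))))))))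
noncomputable def xc36 : XT := (XT.nd (nat_lit 1560) (nat_lit 0) (nat_lit 0) (XT.nd (nat_lit 780) (nat_lit 152) (nat_lit 0) (XT.nd (nat_lit 390) (nat_lit 0) (nat_lit 0) (XT.nd (nat_lit 156) (nat_lit 0) (nat_lit 0) (XT.nd (nat_lit 78) (nat_lit 0) (nat_lit 0) (XT.lf (nat_lit 0) (nat_lit 12751073958) (nat_lit 76) (nat_lit 37086749649) (nat_lit 76) (nat_lit 34331215582) (nat_lit 3) (nat_lit 4) (nat_lit 4) (nat_lit 5) (nat_lit 4) (nat_lit 4) (nat_lit 292) (nat_lit 254) (nat_lit 234)) (XT.lf (nat_lit 0) (nat_lit 26858482127) (nat_lit 76) (nat_lit 35914130564) (nat_lit 76) (nat_lit 33135206876) (nat_lit 3) (nat_lit 4) (nat_lit 4) (nat_lit 5) (nat_lit 4) (nat_lit 4) (nat_lit 293) (nat_lit 254) (nat_lit 233))) (XT.nd (nat_lit 78) (nat_lit 0) (nat_lit 0) (XT.lf (nat_lit 0) (nat_lit 42918931245) (nat_lit 76) (nat_lit 34649801845) (nat_lit 76) (nat_lit 31850539355) (nat_lit 3) (nat_lit 4) (nat_lit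 4) (nat_lit 5) (nat_lit 4) (nat_lit 4) (nat_lit 294) (nat_lit 254) (nat_lit 232)) (XT.nd (nat_lit 78) (nat_lit 0) (nat_lit 0) (XT.lf (nat_lit 0) (nat_lit 61246647489) (nat_lit 76) (nat_lit 33269026623) (nat_lit 76) (nat_lit 30452078220) (nat_lit 3) (nat_lit 4) (nat_lit 4) (nat_lit 5) (nat_lit 4) (nat_lit 4) (nat_lit 295) (nat_lit 254) (nat_lit 231)) (XT.lf (nat_lit 0) (nat_lit 82200216613) (nat_lit 76) (nat_lit 31744789733) (nat_lit 76) (nat_lit 28912462274) (nat_lit 3) (nat_lit 4) (nat_lit 4) (nat_lit 5) (nat_lit 4) (nat_lit 4) (nat_lit 296) (nat_lit 254) (nat_lit 230))))) (XT.nd (nat_lit 156) (nat_lit 0) (nat_lit 0) (XT.nd (nat_lit 78) (nat_lit 0) (nat_lit 0) (XT.lf (nat_lit 0) (nat_lit 106189599752) (nat_lit 76) (nat_lit 30047269148) (nat_lit 76) (nat_lit 27201568597) (nat_lit 3) (nat_lit 4) (nat_lit 4) (nat_lit 5) (nat_lit 4) (nat_lit 4) (nat_lit 297) (nat_lit 254) (nat_lit 229))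 (XT.lf (nat_lit 0) (nat_lit 133684154402) (nat_lit 76) (nat_lit 28143252509) (nat_lit 76) (nat_lit 25285923183) (nat_lit 3) (nat_lit 4) (nat_lit 4) (nat_lit 5) (nat_lit 4) (nat_lit 4) (nat_lit 298) (nat_lit 254) (nat_lit 228))) (XT.nd (nat_lit 78) (nat_lit 0) (nat_lit 0) (XT.lf (nat_lit 0) (nat_lit 165221817501) (nat_lit 76) (nat_lit 25995487316) (nat_lit 76) (nat_lit 23128046011) (nat_lit 3) (nat_lit 4) (nat_lit 4) (nat_lit 5) (nat_lit 4) (nat_lit 4) (nat_lit 299) (nat_lit 254) (nat_lit 227)) (XT.nd (nat_lit 78) (nat_lit 0) (nat_lit 0) (XT.lf (nat_lit 0) (nat_lit 201419630285) (nat_lit 76) (nat_lit 23561952077) (nat_lit 76) (nat_lit 20685717747) (nat_lit 3) (nat_lit 4) (nat_lit 4) (nat_lit 5) (nat_lit 4) (nat_lit 4) (nat_lit 300) (nat_lit 254) (nat_lit 226)) (XT.lf (nat_lit 0) (nat_lit 242985810828) (nat_lit 76) (nat_lit 20795034145) (nat_lit 76) (nat_lit 17911153706) (nat_lit 3) (nat_lit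 4) (nat_lit 4) (nat_lit 5) (nat_lit 4) (nat_lit 4) (nat_lit 301) (nat_lit 254) (nat_lit 225)))))) (XT.nd (nat_lit 390) (nat_lit 0) (nat_lit 0) (XT.nd (nat_lit 156) (nat_lit 152) (nat_lit 0) (XT.nd (nat_lit 78) (nat_lit 0) (nat_lit 0) (XT.lf (nat_lit 0) (nat_lit 290733610491) (nat_lit 76) (nat_lit 17640598170) (nat_lit 76) (nat_lit 14750068941) (nat_lit 3) (nat_lit 4) (nat_lit 4) (nat_lit 5) (nat_lit 4) (nat_lit 4) (nat_lit 302) (nat_lit 254) (nat_lit 224)) (XT.lf (nat_lit 0) (nat_lit 345597225353) (nat_lit 76) (nat_lit 14036926925) (nat_lit 76) (nat_lit 11140616140) (nat_lit 3) (nat_lit 4) (nat_lit 4) (nat_lit 5) (nat_lit 4) (nat_lit 4) (nat_lit 303) (nat_lit 254) (nat_lit 223))) (XT.nd (nat_lit 78) (nat_lit 152) (nat_lit 0) (XT.lf (nat_lit 0) (nat_lit 408650073965) (nat_lit 76) (nat_lit 9913513801) (nat_lit 76) (nat_lit 7012175575) (nat_lit 3) (nat_lit 4) (nat_lit 4) (nat_lit 5) (nat_lit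 4) (nat_lit 4) (nat_lit 304) (nat_lit 254) (nat_lit 222)) (XT.nd (nat_lit 78) (nat_lit 152) (nat_lit 0) (XT.lf (nat_lit 0) (nat_lit 481125799019) (nat_lit 76) (nat_lit 5189683322) (nat_lit 76) (nat_lit 2283973409) (nat_lit 3) (nat_lit 4) (nat_lit 4) (nat_lit 5) (nat_lit 4) (nat_lit 4) (nat_lit 305) (nat_lit 254) (nat_lit 221)) (XT.lf (nat_lit 0) (nat_lit 3026830918) (nat_lit 152) (nat_lit 557510349830) (nat_lit 0) (nat_lit 496821022) (nat_lit 1) (nat_lit 5) (nat_lit 3) (nat_lit 4) (nat_lit 1) (nat_lit 4) (nat_lit 306) (nat_lit 254) (nat_lit 220))))) (XT.nd (nat_lit 156) (nat_lit 0) (nat_lit 0) (XT.nd (nat_lit 78) (nat_lit 0) (nat_lit 0) (XT.lf (nat_lit 0) (nat_lit 9541464399) (nat_lit 152) (nat_lit 627671217732) (nat_lit 0) (nat_lit 7008580047) (nat_lit 1) (nat_lit 5) (nat_lit 3) (nat_lit 4) (nat_lit 1) (nat_lit 4) (nat_lit 307) (nat_lit 254) (nat_lit 219)) (XT.lf (nat_lit 0) (nat_lit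 17019940225) (nat_lit 152) (nat_lit 708384120728) (nat_lit 0) (nat_lit 14484556347) (nat_lit 1) (nat_lit 5) (nat_lit 3) (nat_lit 4) (nat_lit 1) (nat_lit 4) (nat_lit 308) (nat_lit 254) (nat_lit 218))) (XT.nd (nat_lit 78) (nat_lit 0) (nat_lit 0) (XT.lf (nat_lit 0) (nat_lit 25608576403) (nat_lit 152) (nat_lit 801228224311) (nat_lit 0) (nat_lit 23071019023) (nat_lit 1) (nat_lit 5) (nat_lit 3) (nat_lit 4) (nat_lit 1) (nat_lit 4) (nat_lit 309) (nat_lit 254) (nat_lit 217)) (XT.nd (nat_lit 78) (nat_lit 0) (nat_lit 0) (XT.lf (nat_lit 0) (nat_lit 35475411465) (nat_lit 152) (nat_lit 908020043552) (nat_lit 0) (nat_lit 32935964084) (nat_lit 1) (nat_lit 5) (nat_lit 3) (nat_lit 4) (nat_lit 1) (nat_lit 4) (nat_lit 310) (nat_lit 254) (nat_lit 216)) (XT.lf (nat_lit 0) (nat_lit 46813492184) (nat_lit 152) (nat_lit 1030848983608) (nat_lit 0) (nat_lit 44272401325) (nat_lit 1) (nat_lit 5) (nat_lit 3) (nat_lit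 4) (nat_lit 1) (nat_lit 4) (nat_lit 311) (nat_lit 254) (nat_lit 215))))))) (XT.nd (nat_lit 780) (nat_lit 0) (nat_lit 0) (XT.nd (nat_lit 390) (nat_lit 0) (nat_lit 0) (XT.nd (nat_lit 156) (nat_lit 0) (nat_lit 0) (XT.nd (nat_lit 78) (nat_lit 0) (nat_lit 0) (XT.lf (nat_lit 0) (nat_lit 59844650576) (nat_lit 152) (nat_lit 1172118219395) (nat_lit 0) (nat_lit 57302130604) (nat_lit 1) (nat_lit 5) (nat_lit 3) (nat_lit 4) (nat_lit 1) (nat_lit 4) (nat_lit 312) (nat_lit 254) (nat_lit 214)) (XT.lf (nat_lit 0) (nat_lit 74823844086) (nat_lit 152) (nat_lit 1334591714221) (nat_lit 0) (nat_lit 72280081407) (nat_lit 1) (nat_lit 5) (nat_lit 3) (nat_lit 4) (nat_lit 1) (nat_lit 4) (nat_lit 313) (nat_lit 254) (nat_lit 213))) (XT.nd (nat_lit 78) (nat_lit 0) (nat_lit 0) (XT.lf (nat_lit 0) (nat_lit 92044143892) (nat_lit 152) (nat_lit 1521448297333) (nat_lit 0) (nat_lit 89499300599) (nat_lit 1) (nat_lit 5) (nat_lit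 3) (nat_lit 4) (nat_lit 1) (nat_lit 4) (nat_lit 314) (nat_lit 254) (nat_lit 212)) (XT.nd (nat_lit 78) (nat_lit 0) (nat_lit 0) (XT.lf (nat_lit 0) (nat_lit 111842468903) (nat_lit 152) (nat_lit 1736343858401) (nat_lit 0) (nat_lit 109296685946) (nat_lit 1) (nat_lit 5) (nat_lit 3) (nat_lit 4) (nat_lit 1) (nat_lit 4) (nat_lit 315) (nat_lit 254) (nat_lit 211)) (XT.lf (nat_lit 0) (nat_lit 134606177653) (nat_lit 152) (nat_lit 1983482875792) (nat_lit 0) (nat_lit 132059577596) (nat_lit 1) (nat_lit 5) (nat_lit 3) (nat_lit 4) (nat_lit 1) (nat_lit 4) (nat_lit 316) (nat_lit 254) (nat_lit 210))))) (XT.nd (nat_lit 156) (nat_lit 0) (nat_lit 0) (XT.nd (nat_lit 78) (nat_lit 0) (nat_lit 0) (XT.lf (nat_lit 0) (nat_lit 160780647050) (nat_lit 152) (nat_lit 2267700678109) (nat_lit 0) (nat_lit 158233336472) (nat_lit 1) (nat_lit 5) (nat_lit 3) (nat_lit 4) (nat_lit 1) (nat_lit 4) (nat_lit 317) (nat_lit 254) (nat_lit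 209)) (XT.lf (nat_lit 0) (nat_lit 190877986280) (nat_lit 152) (nat_lit 2594558048440) (nat_lit 0) (nat_lit 188330057857) (nat_lit 1) (nat_lit 5) (nat_lit 3) (nat_lit 4) (nat_lit 1) (nat_lit 4) (nat_lit 318) (nat_lit 254) (nat_lit 208))) (XT.nd (nat_lit 78) (nat_lit 0) (nat_lit 0) (XT.lf (nat_lit 0) (nat_lit 225487056327) (nat_lit 152) (nat_lit 2970450022292) (nat_lit 0) (nat_lit 222938590647) (nat_lit 1) (nat_lit 5) (nat_lit 3) (nat_lit 4) (nat_lit 1) (nat_lit 4) (nat_lit 319) (nat_lit 254) (nat_lit 207)) (XT.nd (nat_lit 78) (nat_lit 0) (nat_lit 0) (XT.lf (nat_lit 0) (nat_lit 265284991170) (nat_lit 152) (nat_lit 3402731007848) (nat_lit 0) (nat_lit 262736058311) (nat_lit 1) (nat_lit 5) (nat_lit 3) (nat_lit 4) (nat_lit 1) (nat_lit 4) (nat_lit 320) (nat_lit 254) (nat_lit 206)) (XT.lf (nat_lit 0) (nat_lit 311050446056) (nat_lit 152) (nat_lit 3899858676566) (nat_lit 0) (nat_lit 308501106955)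 (nat_lit 1) (nat_lit 5) (nat_lit 3) (nat_lit 4) (nat_lit 1) (nat_lit 4) (nat_lit 321) (nat_lit 254) (nat_lit 205)))))) (XT.nd (nat_lit 390) (nat_lit 0) (nat_lit 0) (XT.nd (nat_lit 156) (nat_lit 0) (nat_lit 0) (XT.nd (nat_lit 78) (nat_lit 0) (nat_lit 0) (XT.lf (nat_lit 0) (nat_lit 363678832060) (nat_lit 152) (nat_lit 4471559439354) (nat_lit 0) (nat_lit 361129139703) (nat_lit 1) (nat_lit 5) (nat_lit 3) (nat_lit 4) (nat_lit 1) (nat_lit 4) (nat_lit 322) (nat_lit 254) (nat_lit 204)) (XT.lf (nat_lit 0) (nat_lit 424199834994) (nat_lit 152) (nat_lit 5129018745920) (nat_lit 0) (nat_lit 421649835459) (nat_lit 1) (nat_lit 5) (nat_lit 3) (nat_lit 4) (nat_lit 1) (nat_lit 4) (nat_lit 323) (nat_lit 254) (nat_lit 203))) (XT.nd (nat_lit 78) (nat_lit 0) (nat_lit 0) (XT.lf (nat_lit 0) (nat_lit 493797561437) (nat_lit 152) (nat_lit 5885099930522) (nat_lit 0) (nat_lit 491247294791) (nat_lit 1) (nat_lit 5)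 (nat_lit 3) (nat_lit 4) (nat_lit 1) (nat_lit 4) (nat_lit 324) (nat_lit 254) (nat_lit 202)) (XT.nd (nat_lit 78) (nat_lit 0) (nat_lit 0) (XT.lf (nat_lit 0) (nat_lit 573833706037) (nat_lit 152) (nat_lit 6754595885903) (nat_lit 0) (nat_lit 571283207120) (nat_lit 1) (nat_lit 5) (nat_lit 3) (nat_lit 4) (nat_lit 1) (nat_lit 4) (nat_lit 325) (nat_lit 254) (nat_lit 201)) (XT.lf (nat_lit 0) (nat_lit 665874193362) (nat_lit 152) (nat_lit 7754518489451) (nat_lit 0) (nat_lit 663323492471) (nat_lit 1) (nat_lit 5) (nat_lit 3) (nat_lit 4) (nat_lit 1) (nat_lit 4) (nat_lit 326) (nat_lit 254) (nat_lit 200))))) (XT.nd (nat_lit 156) (nat_lit 0) (nat_lit 0) (XT.nd (nat_lit 78) (nat_lit 0) (nat_lit 0) (XT.lf (nat_lit 0) (nat_lit 771719815557) (nat_lit 152) (nat_lit 8904431444278) (nat_lit 0) (nat_lit 769168939036) (nat_lit 1) (nat_lit 5) (nat_lit 3) (nat_lit 4) (nat_lit 1) (nat_lit 4) (nat_lit 327) (nat_lit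 254) (nat_lit 199)) (XT.lf (nat_lit 0) (nat_lit 893441465228) (nat_lit 152) (nat_lit 10226833047327) (nat_lit 0) (nat_lit 890890435985) (nat_lit 1) (nat_lit 5) (nat_lit 3) (nat_lit 4) (nat_lit 1) (nat_lit 4) (nat_lit 328) (nat_lit 254) (nat_lit 198))) (XT.nd (nat_lit 78) (nat_lit 0) (nat_lit 0) (XT.lf (nat_lit 0) (nat_lit 1033420652913) (nat_lit 152) (nat_lit 11747596373440) (nat_lit 0) (nat_lit 1030869490869) (nat_lit 1) (nat_lit 5) (nat_lit 3) (nat_lit 4) (nat_lit 1) (nat_lit 4) (nat_lit 329) (nat_lit 254) (nat_lit 197)) (XT.nd (nat_lit 78) (nat_lit 0) (nat_lit 0) (XT.lf (nat_lit 0) (nat_lit 1194396101849) (nat_lit 152) (nat_lit 13496475487693) (nat_lit 0) (nat_lit 1191844824326) (nat_lit 1) (nat_lit 5) (nat_lit 3) (nat_lit 4) (nat_lit 1) (nat_lit 4) (nat_lit 330) (nat_lit 254) (nat_lit 196)) (XT.lf (nat_lit 0) (nat_lit 1379517331690) (nat_lit 152) (nat_lit 15507687590147) (nat_lit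 0) (nat_lit 1376965953749) (nat_lit 1) (nat_lit 5) (nat_lit 3) (nat_lit 4) (nat_lit 1) (nat_lit 4) (nat_lit 331) (nat_lit 254) (nat_lit 195))))))))
noncomputable def xc37 : XT := (XT.nd (nat_lit 36426) (nat_lit 0) (nat_lit 152) (XT.nd (nat_lit 780) (nat_lit 0) (nat_lit 0) (XT.nd (nat_lit 390) (nat_lit 0) (nat_lit 0) (XT.nd (nat_lit 156) (nat_lit 0) (nat_lit 0) (XT.nd (nat_lit 78) (nat_lit 0) (nat_lit 0) (XT.lf (nat_lit 0) (nat_lit 1592406279541) (nat_lit 152) (nat_lit 17820582482808) (nat_lit 0) (nat_lit 1589854814281) (nat_lit 1) (nat_lit 5) (nat_lit 3) (nat_lit 4) (nat_lit 1) (nat_lit 4) (nat_lit 332) (nat_lit 254) (nat_lit 194)) (XT.lf (nat_lit 0) (nat_lit 1837228163946) (nat_lit 152) (nat_lit 20480412457053) (nat_lit 0) (nat_lit 1834676622757) (nat_lit 1) (nat_lit 5) (nat_lit 3) (nat_lit 4) (nat_lit 1) (nat_lit 4) (nat_lit 333) (nat_lit 254) (nat_lit 193))) (XT.nd (nat_lit 78) (nat_lit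 0) (nat_lit 0) (XT.lf (nat_lit 0) (nat_lit 2118772978297) (nat_lit 152) (nat_lit 23539217664553) (nat_lit 0) (nat_lit 2116221371082) (nat_lit 1) (nat_lit 5) (nat_lit 3) (nat_lit 4) (nat_lit 1) (nat_lit 4) (nat_lit 334) (nat_lit 254) (nat_lit 192)) (XT.nd (nat_lit 78) (nat_lit 0) (nat_lit 0) (XT.lf (nat_lit 0) (nat_lit 2442549208092) (nat_lit 152) (nat_lit 27056844294149) (nat_lit 0) (nat_lit 2439997543462) (nat_lit 1) (nat_lit 5) (nat_lit 3) (nat_lit 4) (nat_lit 1) (nat_lit 4) (nat_lit 335) (nat_lit 254) (nat_lit 191)) (XT.lf (nat_lit 0) (nat_lit 2814891605652) (nat_lit 152) (nat_lit 31102115475551) (nat_lit 0) (nat_lit 2812339891098) (nat_lit 1) (nat_lit 5) (nat_lit 3) (nat_lit 4) (nat_lit 1) (nat_lit 4) (nat_lit 336) (nat_lit 254) (nat_lit 190))))) (XT.nd (nat_lit 156) (nat_lit 0) (nat_lit 0) (XT.nd (nat_lit 78) (nat_lit 0) (nat_lit 0) (XT.lf (nat_lit 0) (nat_lit 3243085130930) (nat_lit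 152) (nat_lit 35754177818830) (nat_lit 0) (nat_lit 3240533372962) (nat_lit 1) (nat_lit 5) (nat_lit 3) (nat_lit 4) (nat_lit 1) (nat_lit 4) (nat_lit 337) (nat_lit 254) (nat_lit 189)) (XT.lf (nat_lit 0) (nat_lit 3735507483333) (nat_lit 152) (nat_lit 41104049935051) (nat_lit 0) (nat_lit 3732955687615) (nat_lit 1) (nat_lit 5) (nat_lit 3) (nat_lit 4) (nat_lit 1) (nat_lit 4) (nat_lit 338) (nat_lit 254) (nat_lit 188))) (XT.nd (nat_lit 78) (nat_lit 0) (nat_lit 0) (XT.lf (nat_lit 0) (nat_lit 4301793013235) (nat_lit 152) (nat_lit 47256403235182) (nat_lit 0) (nat_lit 4299241184691) (nat_lit 1) (nat_lit 5) (nat_lit 3) (nat_lit 4) (nat_lit 1) (nat_lit 4) (nat_lit 339) (nat_lit 254) (nat_lit 187)) (XT.nd (nat_lit 78) (nat_lit 0) (nat_lit 0) (XT.lf (nat_lit 0) (nat_lit 4953021220134) (nat_lit 152) (nat_lit 54331609849010) (nat_lit 0) (nat_lit 4950469363045) (nat_lit 1) (nat_lit 5) (nat_lit 3) (nat_lit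 4) (nat_lit 1) (nat_lit 4) (nat_lit 340) (nat_lit 254) (nat_lit 186)) (XT.lf (nat_lit 0) (nat_lit 5701933525469) (nat_lit 152) (nat_lit 62468097732021) (nat_lit 0) (nat_lit 5699381643558) (nat_lit 1) (nat_lit 5) (nat_lit 3) (nat_lit 4) (nat_lit 1) (nat_lit 4) (nat_lit 341) (nat_lit 254) (nat_lit 185)))))) (XT.nd (nat_lit 35256) (nat_lit 0) (nat_lit 760) (XT.nd (nat_lit 35022) (nat_lit 0) (nat_lit 1140) (XT.nd (nat_lit 78) (nat_lit 0) (nat_lit 0) (XT.lf (nat_lit 0) (nat_lit 6563182561301) (nat_lit 152) (nat_lit 71825059038449) (nat_lit 0) (nat_lit 6560630657806) (nat_lit 1) (nat_lit 5) (nat_lit 3) (nat_lit 4) (nat_lit 1) (nat_lit 4) (nat_lit 342) (nat_lit 254) (nat_lit 184)) (XT.lf (nat_lit 0) (nat_lit 7553618852243) (nat_lit 152) (nat_lit 82585564750376) (nat_lit 0) (nat_lit 7551066929980) (nat_lit 1) (nat_lit 5) (nat_lit 3) (nat_lit 4) (nat_lit 1) (nat_lit 4) (nat_lit 343) (nat_lit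 254) (nat_lit 183))) (XT.nd (nat_lit 78) (nat_lit 304) (nat_lit 0) (XT.lf (nat_lit 0) (nat_lit 1884308334) (nat_lit 152) (nat_lit 718175890) (nat_lit 0) (nat_lit 1884308334) (nat_lit 20) (nat_lit 5) (nat_lit 22) (nat_lit 4) (nat_lit 20) (nat_lit 4) (nat_lit 270) (nat_lit 255) (nat_lit 255)) (XT.nd (nat_lit 78) (nat_lit 152) (nat_lit 0) (XT.lf (nat_lit 0) (nat_lit 6180562814) (nat_lit 152) (nat_lit 2132467567) (nat_lit 152) (nat_lit 1247011465) (nat_lit 18) (nat_lit 4) (nat_lit 20) (nat_lit 5) (nat_lit 20) (nat_lit 4) (nat_lit 271) (nat_lit 255) (nat_lit 254)) (XT.lf (nat_lit 0) (nat_lit 2884869194) (nat_lit 152) (nat_lit 5903268912) (nat_lit 0) (nat_lit 1445375341) (nat_lit 16) (nat_lit 5) (nat_lit 18) (nat_lit 4) (nat_lit 16) (nat_lit 4) (nat_lit 272) (nat_lit 255) (nat_lit 253))))) (XT.nd (nat_lit 156) (nat_lit 228) (nat_lit 0) (XT.nd (nat_lit 78) (nat_lit 76) (nat_lit 0) (XT.lf (nat_lit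 0) (nat_lit 1845569049) (nat_lit 76) (nat_lit 5593190596) (nat_lit 76) (nat_lit 3571494982) (nat_lit 15) (nat_lit 4) (nat_lit 16) (nat_lit 5) (nat_lit 16) (nat_lit 4) (nat_lit 273) (nat_lit 255) (nat_lit 252)) (XT.lf (nat_lit 0) (nat_lit 600856661) (nat_lit 152) (nat_lit 1236116192) (nat_lit 76) (nat_lit 10077615355) (nat_lit 14) (nat_lit 5) (nat_lit 16) (nat_lit 5) (nat_lit 15) (nat_lit 4) (nat_lit 274) (nat_lit 255) (nat_lit 251))) (XT.nd (nat_lit 78) (nat_lit 152) (nat_lit 0) (XT.lf (nat_lit 0) (nat_lit 5098275425) (nat_lit 152) (nat_lit 5304232955) (nat_lit 0) (nat_lit 2517243957) (nat_lit 13) (nat_lit 5) (nat_lit 15) (nat_lit 4) (nat_lit 13) (nat_lit 4) (nat_lit 275) (nat_lit 255) (nat_lit 250)) (XT.nd (nat_lit 78) (nat_lit 76) (nat_lit 0) (XT.lf (nat_lit 0) (nat_lit 3415742641) (nat_lit 76) (nat_lit 6791817054) (nat_lit 76) (nat_lit 3877909839) (nat_lit 12) (nat_lit 4) (nat_lit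 13) (nat_lit 5) (nat_lit 13) (nat_lit 4) (nat_lit 276) (nat_lit 255) (nat_lit 249)) (XT.lf (nat_lit 0) (nat_lit 533941348) (nat_lit 152) (nat_lit 2055390486) (nat_lit 76) (nat_lit 12842619025) (nat_lit 11) (nat_lit 5) (nat_lit 13) (nat_lit 5) (nat_lit 12) (nat_lit 4) (nat_lit 277) (nat_lit 255) (nat_lit 248))))))) (XT.nd (nat_lit 780) (nat_lit 76) (nat_lit 0) (XT.nd (nat_lit 390) (nat_lit 228) (nat_lit 0) (XT.nd (nat_lit 156) (nat_lit 228) (nat_lit 0) (XT.nd (nat_lit 78) (nat_lit 0) (nat_lit 0) (XT.lf (nat_lit 0) (nat_lit 5329321093) (nat_lit 152) (nat_lit 9280892931) (nat_lit 0) (nat_lit 2324915638) (nat_lit 10) (nat_lit 5) (nat_lit 12) (nat_lit 4) (nat_lit 10) (nat_lit 4) (nat_lit 278) (nat_lit 255) (nat_lit 247)) (XT.lf (nat_lit 0) (nat_lit 10777269557) (nat_lit 152) (nat_lit 314194614) (nat_lit 0) (nat_lit 7582541314) (nat_lit 10) (nat_lit 5) (nat_lit 12) (nat_lit 4) (nat_lit 10)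 (nat_lit 4) (nat_lit 279) (nat_lit 255) (nat_lit 246))) (XT.nd (nat_lit 78) (nat_lit 152) (nat_lit 0) (XT.lf (nat_lit 0) (nat_lit 10411915607) (nat_lit 76) (nat_lit 6798502204) (nat_lit 76) (nat_lit 3438275884) (nat_lit 9) (nat_lit 4) (nat_lit 10) (nat_lit 5) (nat_lit 10) (nat_lit 4) (nat_lit 280) (nat_lit 255) (nat_lit 245)) (XT.nd (nat_lit 78) (nat_lit 76) (nat_lit 0) (XT.lf (nat_lit 0) (nat_lit 1294727311) (nat_lit 152) (nat_lit 720473970) (nat_lit 76) (nat_lit 20930610723) (nat_lit 8) (nat_lit 5) (nat_lit 10) (nat_lit 5) (nat_lit 9) (nat_lit 4) (nat_lit 281) (nat_lit 255) (nat_lit 244)) (XT.lf (nat_lit 0) (nat_lit 6759344196) (nat_lit 152) (nat_lit 15144212666) (nat_lit 0) (nat_lit 3603450271) (nat_lit 7) (nat_lit 5) (nat_lit 9) (nat_lit 4) (nat_lit 7) (nat_lit 4) (nat_lit 282) (nat_lit 255) (nat_lit 243))))) (XT.nd (nat_lit 156) (nat_lit 152) (nat_lit 0) (XT.nd (nat_lit 78) (nat_lit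 76) (nat_lit 0) (XT.lf (nat_lit 0) (nat_lit 12955177468) (nat_lit 152) (nat_lit 5805920143) (nat_lit 0) (nat_lit 9704659481) (nat_lit 7) (nat_lit 5) (nat_lit 9) (nat_lit 4) (nat_lit 7) (nat_lit 4) (nat_lit 283) (nat_lit 255) (nat_lit 242)) (XT.lf (nat_lit 0) (nat_lit 4984757250) (nat_lit 76) (nat_lit 15107347398) (nat_lit 76) (nat_lit 11774547617) (nat_lit 6) (nat_lit 4) (nat_lit 7) (nat_lit 5) (nat_lit 7) (nat_lit 4) (nat_lit 284) (nat_lit 255) (nat_lit 241))) (XT.nd (nat_lit 78) (nat_lit 152) (nat_lit 0) (XT.lf (nat_lit 0) (nat_lit 17672230329) (nat_lit 76) (nat_lit 10746037388) (nat_lit 76) (nat_lit 7341688221) (nat_lit 6) (nat_lit 4) (nat_lit 7) (nat_lit 5) (nat_lit 7) (nat_lit 4) (nat_lit 285) (nat_lit 255) (nat_lit 240)) (XT.nd (nat_lit 78) (nat_lit 152) (nat_lit 0) (XT.lf (nat_lit 0) (nat_lit 31937335520) (nat_lit 76) (nat_lit 5895328882) (nat_lit 76) (nat_lit 2428762859) (nat_lit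 6) (nat_lit 4) (nat_lit 7) (nat_lit 5) (nat_lit 7) (nat_lit 4) (nat_lit 286) (nat_lit 255) (nat_lit 239)) (XT.lf (nat_lit 0) (nat_lit 2715021597) (nat_lit 76) (nat_lit 185298977) (nat_lit 152) (nat_lit 42522946047) (nat_lit 4) (nat_lit 5) (nat_lit 5) (nat_lit 5) (nat_lit 6) (nat_lit 4) (nat_lit 287) (nat_lit 255) (nat_lit 238)))))) (XT.nd (nat_lit 390) (nat_lit 0) (nat_lit 0) (XT.nd (nat_lit 156) (nat_lit 76) (nat_lit 0) (XT.nd (nat_lit 78) (nat_lit 0) (nat_lit 0) (XT.lf (nat_lit 0) (nat_lit 9355095378) (nat_lit 152) (nat_lit 35647998374) (nat_lit 0) (nat_lit 6252736664) (nat_lit 4) (nat_lit 5) (nat_lit 6) (nat_lit 4) (nat_lit 4) (nat_lit 4) (nat_lit 288) (nat_lit 255) (nat_lit 237)) (XT.lf (nat_lit 0) (nat_lit 16660746198) (nat_lit 152) (nat_lit 27797357970) (nat_lit 0) (nat_lit 13522814794) (nat_lit 4) (nat_lit 5) (nat_lit 6) (nat_lit 4) (nat_lit 4) (nat_lit 4) (nat_lit 289) (nat_lit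 255) (nat_lit 236))) (XT.nd (nat_lit 78) (nat_lit 76) (nat_lit 0) (XT.lf (nat_lit 0) (nat_lit 24952536844) (nat_lit 152) (nat_lit 18995051492) (nat_lit 0) (nat_lit 21783672666) (nat_lit 4) (nat_lit 5) (nat_lit 6) (nat_lit 4) (nat_lit 4) (nat_lit 4) (nat_lit 290) (nat_lit 255) (nat_lit 235)) (XT.nd (nat_lit 78) (nat_lit 76) (nat_lit 0) (XT.lf (nat_lit 0) (nat_lit 34392698003) (nat_lit 152) (nat_lit 9068859899) (nat_lit 0) (nat_lit 31196935761) (nat_lit 4) (nat_lit 5) (nat_lit 6) (nat_lit 4) (nat_lit 4) (nat_lit 4) (nat_lit 291) (nat_lit 255) (nat_lit 234)) (XT.lf (nat_lit 0) (nat_lit 2388023247) (nat_lit 76) (nat_lit 42876788184) (nat_lit 76) (nat_lit 39657636320) (nat_lit 3) (nat_lit 4) (nat_lit 4) (nat_lit 5) (nat_lit 4) (nat_lit 4) (nat_lit 292) (nat_lit 255) (nat_lit 233))))) (XT.nd (nat_lit 234) (nat_lit 0) (nat_lit 0) (XT.nd (nat_lit 78) (nat_lit 0) (nat_lit 0) (XT.lf (nat_lit 0)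 (nat_lit 16419584776) (nat_lit 76) (nat_lit 41743324088) (nat_lit 76) (nat_lit 38503833424) (nat_lit 3) (nat_lit 4) (nat_lit 4) (nat_lit 5) (nat_lit 4) (nat_lit 4) (nat_lit 293) (nat_lit 255) (nat_lit 232)) (XT.nd (nat_lit 78) (nat_lit 0) (nat_lit 0) (XT.lf (nat_lit 0) (nat_lit 32414080293) (nat_lit 76) (nat_lit 40513043186) (nat_lit 76) (nat_lit 37255866607) (nat_lit 3) (nat_lit 4) (nat_lit 4) (nat_lit 5) (nat_lit 4) (nat_lit 4) (nat_lit 294) (nat_lit 255) (nat_lit 231)) (XT.lf (nat_lit 0) (nat_lit 50684445581) (nat_lit 76) (nat_lit 39161874762) (nat_lit 76) (nat_lit 35889319128) (nat_lit 3) (nat_lit 4) (nat_lit 4) (nat_lit 5) (nat_lit 4) (nat_lit 4) (nat_lit 295) (nat_lit 255) (nat_lit 230)))) (XT.nd (nat_lit 78) (nat_lit 0) (nat_lit 0) (XT.lf (nat_lit 0) (nat_lit 71588144308) (nat_lit 76) (nat_lit 37663382913) (nat_lit 76) (nat_lit 34377454187) (nat_lit 3) (nat_lit 4) (nat_lit 4)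 (nat_lit 5) (nat_lit 4) (nat_lit 4) (nat_lit 296) (nat_lit 255) (nat_lit 229)) (XT.nd (nat_lit 78) (nat_lit 0) (nat_lit 0) (XT.lf (nat_lit 0) (nat_lit 95534161884) (nat_lit 76) (nat_lit 35988249320) (nat_lit 76) (nat_lit 32690691819) (nat_lit 3) (nat_lit 4) (nat_lit 4) (nat_lit 5) (nat_lit 4) (nat_lit 4) (nat_lit 297) (nat_lit 255) (nat_lit 228)) (XT.lf (nat_lit 0) (nat_lit 122991007349) (nat_lit 76) (nat_lit 34103699631) (nat_lit 76) (nat_lit 30796030151) (nat_lit 3) (nat_lit 4) (nat_lit 4) (nat_lit 5) (nat_lit 4) (nat_lit 4) (nat_lit 298) (nat_lit 255) (nat_lit 227))))))))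
noncomputable def xc38 : XT := (XT.nd (nat_lit 1560) (nat_lit 0) (nat_lit 0) (XT.nd (nat_lit 780) (nat_lit 0) (nat_lit 0) (XT.nd (nat_lit 390) (nat_lit 152) (nat_lit 0) (XT.nd (nat_lit 156) (nat_lit 0) (nat_lit 0) (XT.nd (nat_lit 78) (nat_lit 0) (nat_lit 0) (XT.lf (nat_lit 0) (nat_lit 154495879852) (nat_lit 76) (nat_lit 31972862220) (nat_lit 76) (nat_lit 28656399716) (nat_lit 3) (nat_lit 4) (nat_lit 4) (nat_lit 5) (nat_lit 4) (nat_lit 4) (nat_lit 299) (nat_lit 255) (nat_lit 226)) (XT.lf (nat_lit 0) (nat_lit 190665179074) (nat_lit 76) (nat_lit 29554046792) (nat_lit 76) (nat_lit 26229938179) (nat_lit 3) (nat_lit 4) (nat_lit 4) (nat_lit 5) (nat_lit 4) (nat_lit 4) (nat_lit 300) (nat_lit 255) (nat_lit 225))) (XT.nd (nat_lit 78) (nat_lit 0) (nat_lit 0) (XT.lf (nat_lit 0) (nat_lit 232206565217) (nat_lit 76) (nat_lit 26799928696) (nat_lit 76) (nat_lit 23469171292) (nat_lit 3) (nat_lit 4) (nat_lit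 4) (nat_lit 5) (nat_lit 4) (nat_lit 4) (nat_lit 301) (nat_lit 255) (nat_lit 224)) (XT.nd (nat_lit 78) (nat_lit 0) (nat_lit 0) (XT.lf (nat_lit 0) (nat_lit 279932804530) (nat_lit 76) (nat_lit 23656623012) (nat_lit 76) (nat_lit 20320084052) (nat_lit 3) (nat_lit 4) (nat_lit 4) (nat_lit 5) (nat_lit 4) (nat_lit 4) (nat_lit 302) (nat_lit 255) (nat_lit 223)) (XT.lf (nat_lit 0) (nat_lit 334777671263) (nat_lit 76) (nat_lit 20062630282) (nat_lit 76) (nat_lit 16721063882) (nat_lit 3) (nat_lit 4) (nat_lit 4) (nat_lit 5) (nat_lit 4) (nat_lit 4) (nat_lit 303) (nat_lit 255) (nat_lit 222))))) (XT.nd (nat_lit 156) (nat_lit 152) (nat_lit 0) (XT.nd (nat_lit 78) (nat_lit 0) (nat_lit 0) (XT.lf (nat_lit 0) (nat_lit 397814217154) (nat_lit 76) (nat_lit 15947633258) (nat_lit 76) (nat_lit 12601695170) (nat_lit 3) (nat_lit 4) (nat_lit 4) (nat_lit 5) (nat_lit 4) (nat_lit 4) (nat_lit 304) (nat_lit 255) (nat_lit 221))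 (XT.lf (nat_lit 0) (nat_lit 470275765928) (nat_lit 76) (nat_lit 11231121126) (nat_lit 76) (nat_lit 7881381571) (nat_lit 3) (nat_lit 4) (nat_lit 4) (nat_lit 5) (nat_lit 4) (nat_lit 4) (nat_lit 305) (nat_lit 255) (nat_lit 220))) (XT.nd (nat_lit 78) (nat_lit 152) (nat_lit 0) (XT.lf (nat_lit 0) (nat_lit 553580043540) (nat_lit 76) (nat_lit 5820814303) (nat_lit 76) (nat_lit 2467769124) (nat_lit 3) (nat_lit 4) (nat_lit 4) (nat_lit 5) (nat_lit 4) (nat_lit 4) (nat_lit 306) (nat_lit 255) (nat_lit 219)) (XT.nd (nat_lit 78) (nat_lit 0) (nat_lit 0) (XT.lf (nat_lit 0) (nat_lit 3624629725) (nat_lit 152) (nat_lit 640836437826) (nat_lit 0) (nat_lit 706438738) (nat_lit 1) (nat_lit 5) (nat_lit 3) (nat_lit 4) (nat_lit 1) (nat_lit 4) (nat_lit 307) (nat_lit 255) (nat_lit 218)) (XT.lf (nat_lit 0) (nat_lit 11097705075) (nat_lit 152) (nat_lit 721560626933) (nat_lit 0) (nat_lit 8177340588) (nat_lit 1) (nat_lit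 5) (nat_lit 3) (nat_lit 4) (nat_lit 1) (nat_lit 4) (nat_lit 308) (nat_lit 255) (nat_lit 217)))))) (XT.nd (nat_lit 390) (nat_lit 0) (nat_lit 0) (XT.nd (nat_lit 156) (nat_lit 0) (nat_lit 0) (XT.nd (nat_lit 78) (nat_lit 0) (nat_lit 0) (XT.lf (nat_lit 0) (nat_lit 19681645187) (nat_lit 152) (nat_lit 814414544525) (nat_lit 0) (nat_lit 16759390698) (nat_lit 1) (nat_lit 5) (nat_lit 3) (nat_lit 4) (nat_lit 1) (nat_lit 4) (nat_lit 309) (nat_lit 255) (nat_lit 216)) (XT.lf (nat_lit 0) (nat_lit 29544396713) (nat_lit 152) (nat_lit 921214897686) (nat_lit 0) (nat_lit 26620498745) (nat_lit 1) (nat_lit 5) (nat_lit 3) (nat_lit 4) (nat_lit 1) (nat_lit 4) (nat_lit 310) (nat_lit 255) (nat_lit 215))) (XT.nd (nat_lit 78) (nat_lit 0) (nat_lit 0) (XT.lf (nat_lit 0) (nat_lit 40878926532) (nat_lit 152) (nat_lit 1044051258544) (nat_lit 0) (nat_lit 37953599452) (nat_lit 1) (nat_lit 5) (nat_lit 3) (nat_lit 4) (nat_lit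 1) (nat_lit 4) (nat_lit 311) (nat_lit 255) (nat_lit 214)) (XT.nd (nat_lit 78) (nat_lit 0) (nat_lit 0) (XT.lf (nat_lit 0) (nat_lit 53906997184) (nat_lit 152) (nat_lit 1185326947201) (nat_lit 0) (nat_lit 50980427397) (nat_lit 1) (nat_lit 5) (nat_lit 3) (nat_lit 4) (nat_lit 1) (nat_lit 4) (nat_lit 312) (nat_lit 255) (nat_lit 213)) (XT.lf (nat_lit 0) (nat_lit 68883505703) (nat_lit 152) (nat_lit 1347806053219) (nat_lit 0) (nat_lit 65955855302) (nat_lit 1) (nat_lit 5) (nat_lit 3) (nat_lit 4) (nat_lit 1) (nat_lit 4) (nat_lit 313) (nat_lit 255) (nat_lit 212))))) (XT.nd (nat_lit 156) (nat_lit 0) (nat_lit 0) (XT.nd (nat_lit 78) (nat_lit 0) (nat_lit 0) (XT.lf (nat_lit 0) (nat_lit 86101470735) (nat_lit 152) (nat_lit 1534667515628) (nat_lit 0) (nat_lit 83172880669) (nat_lit 1) (nat_lit 5) (nat_lit 3) (nat_lit 4) (nat_lit 1) (nat_lit 4) (nat_lit 314) (nat_lit 255) (nat_lit 211)) (XT.lf (nat_lit 0)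 (nat_lit 105897765507) (nat_lit 152) (nat_lit 1749567319563) (nat_lit 0) (nat_lit 102968358342) (nat_lit 1) (nat_lit 5) (nat_lit 3) (nat_lit 4) (nat_lit 1) (nat_lit 4) (nat_lit 315) (nat_lit 255) (nat_lit 210))) (XT.nd (nat_lit 78) (nat_lit 0) (nat_lit 0) (XT.lf (nat_lit 0) (nat_lit 128659708831) (nat_lit 152) (nat_lit 1996710026404) (nat_lit 0) (nat_lit 125729591144) (nat_lit 1) (nat_lit 5) (nat_lit 3) (nat_lit 4) (nat_lit 1) (nat_lit 4) (nat_lit 316) (nat_lit 255) (nat_lit 209)) (XT.nd (nat_lit 78) (nat_lit 0) (nat_lit 0) (XT.lf (nat_lit 0) (nat_lit 154832643076) (nat_lit 152) (nat_lit 2280931036938) (nat_lit 0) (nat_lit 151901907545) (nat_lit 1) (nat_lit 5) (nat_lit 3) (nat_lit 4) (nat_lit 1) (nat_lit 4) (nat_lit 317) (nat_lit 255) (nat_lit 208)) (XT.lf (nat_lit 0) (nat_lit 184928647391) (nat_lit 152) (nat_lit 2607791197023) (nat_lit 0) (nat_lit 181997374603) (nat_lit 1) (nat_lit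 5) (nat_lit 3) (nat_lit 4) (nat_lit 1) (nat_lit 4) (nat_lit 318) (nat_lit 255) (nat_lit 207))))))) (XT.nd (nat_lit 780) (nat_lit 0) (nat_lit 0) (XT.nd (nat_lit 390) (nat_lit 0) (nat_lit 0) (XT.nd (nat_lit 156) (nat_lit 0) (nat_lit 0) (XT.nd (nat_lit 78) (nat_lit 0) (nat_lit 0) (XT.lf (nat_lit 0) (nat_lit 219536556642) (nat_lit 152) (nat_lit 2983685596747) (nat_lit 0) (nat_lit 216604816675) (nat_lit 1) (nat_lit 5) (nat_lit 3) (nat_lit 4) (nat_lit 1) (nat_lit 4) (nat_lit 319) (nat_lit 255) (nat_lit 206)) (XT.lf (nat_lit 0) (nat_lit 259333482098) (nat_lit 152) (nat_lit 3415968691758) (nat_lit 0) (nat_lit 256401335888) (nat_lit 1) (nat_lit 5) (nat_lit 3) (nat_lit 4) (nat_lit 1) (nat_lit 4) (nat_lit 320) (nat_lit 255) (nat_lit 205))) (XT.nd (nat_lit 78) (nat_lit 0) (nat_lit 0) (XT.lf (nat_lit 0) (nat_lit 305098059256) (nat_lit 152) (nat_lit 3913098194784) (nat_lit 0) (nat_lit 302165559791)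 (nat_lit 1) (nat_lit 5) (nat_lit 3) (nat_lit 4) (nat_lit 1) (nat_lit 4) (nat_lit 321) (nat_lit 255) (nat_lit 204)) (XT.nd (nat_lit 78) (nat_lit 0) (nat_lit 0) (XT.lf (nat_lit 0) (nat_lit 357725682017) (nat_lit 152) (nat_lit 4484800552623) (nat_lit 0) (nat_lit 354792875375) (nat_lit 1) (nat_lit 5) (nat_lit 3) (nat_lit 4) (nat_lit 1) (nat_lit 4) (nat_lit 322) (nat_lit 255) (nat_lit 203)) (XT.lf (nat_lit 0) (nat_lit 418246021262) (nat_lit 152) (nat_lit 5142261246190) (nat_lit 0) (nat_lit 415312947508) (nat_lit 1) (nat_lit 5) (nat_lit 3) (nat_lit 4) (nat_lit 1) (nat_lit 4) (nat_lit 323) (nat_lit 255) (nat_lit 202))))) (XT.nd (nat_lit 156) (nat_lit 0) (nat_lit 0) (XT.nd (nat_lit 78) (nat_lit 0) (nat_lit 0) (XT.lf (nat_lit 0) (nat_lit 487843170585) (nat_lit 152) (nat_lit 5898343636880) (nat_lit 0) (nat_lit 484909864560) (nat_lit 1) (nat_lit 5) (nat_lit 3) (nat_lit 4) (nat_lit 1) (nat_lit 4)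 (nat_lit 324) (nat_lit 255) (nat_lit 201)) (XT.lf (nat_lit 0) (nat_lit 567878813341) (nat_lit 152) (nat_lit 6767840641033) (nat_lit 0) (nat_lit 564945305342) (nat_lit 1) (nat_lit 5) (nat_lit 3) (nat_lit 4) (nat_lit 1) (nat_lit 4) (nat_lit 325) (nat_lit 255) (nat_lit 200))) (XT.nd (nat_lit 78) (nat_lit 0) (nat_lit 0) (XT.lf (nat_lit 0) (nat_lit 659918864280) (nat_lit 152) (nat_lit 7767764156556) (nat_lit 0) (nat_lit 656985180651) (nat_lit 1) (nat_lit 5) (nat_lit 3) (nat_lit 4) (nat_lit 1) (nat_lit 4) (nat_lit 326) (nat_lit 255) (nat_lit 199)) (XT.nd (nat_lit 78) (nat_lit 0) (nat_lit 0) (XT.lf (nat_lit 0) (nat_lit 765764107009) (nat_lit 152) (nat_lit 8917677904405) (nat_lit 0) (nat_lit 762830270658) (nat_lit 1) (nat_lit 5) (nat_lit 3) (nat_lit 4) (nat_lit 1) (nat_lit 4) (nat_lit 327) (nat_lit 255) (nat_lit 198)) (XT.lf (nat_lit 0) (nat_lit 887485426709) (nat_lit 152) (nat_lit 10240080197039)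 (nat_lit 0) (nat_lit 884551457557) (nat_lit 1) (nat_lit 5) (nat_lit 3) (nat_lit 4) (nat_lit 1) (nat_lit 4) (nat_lit 328) (nat_lit 255) (nat_lit 197)))))) (XT.nd (nat_lit 390) (nat_lit 0) (nat_lit 0) (XT.nd (nat_lit 156) (nat_lit 0) (nat_lit 0) (XT.nd (nat_lit 78) (nat_lit 0) (nat_lit 0) (XT.lf (nat_lit 0) (nat_lit 1027464327463) (nat_lit 152) (nat_lit 11760844122790) (nat_lit 0) (nat_lit 1024530242831) (nat_lit 1) (nat_lit 5) (nat_lit 3) (nat_lit 4) (nat_lit 1) (nat_lit 4) (nat_lit 329) (nat_lit 255) (nat_lit 196)) (XT.lf (nat_lit 0) (nat_lit 1188439526895) (nat_lit 152) (nat_lit 13509723758468) (nat_lit 0) (nat_lit 1185505341846) (nat_lit 1) (nat_lit 5) (nat_lit 3) (nat_lit 4) (nat_lit 1) (nat_lit 4) (nat_lit 330) (nat_lit 255) (nat_lit 195))) (XT.nd (nat_lit 78) (nat_lit 0) (nat_lit 0) (XT.lf (nat_lit 0) (nat_lit 1373560539774) (nat_lit 152) (nat_lit 15520936314336) (nat_lit 0) (nat_lit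 1370626267406) (nat_lit 1) (nat_lit 5) (nat_lit 3) (nat_lit 4) (nat_lit 1) (nat_lit 4) (nat_lit 331) (nat_lit 255) (nat_lit 194)) (XT.nd (nat_lit 78) (nat_lit 0) (nat_lit 0) (XT.lf (nat_lit 0) (nat_lit 1586449298963) (nat_lit 152) (nat_lit 17833831601269) (nat_lit 0) (nat_lit 1583514950665) (nat_lit 1) (nat_lit 5) (nat_lit 3) (nat_lit 4) (nat_lit 1) (nat_lit 4) (nat_lit 332) (nat_lit 255) (nat_lit 193)) (XT.lf (nat_lit 0) (nat_lit 1831271019315) (nat_lit 152) (nat_lit 20493661918359) (nat_lit 0) (nat_lit 1828336604991) (nat_lit 1) (nat_lit 5) (nat_lit 3) (nat_lit 4) (nat_lit 1) (nat_lit 4) (nat_lit 333) (nat_lit 255) (nat_lit 192))))) (XT.nd (nat_lit 156) (nat_lit 0) (nat_lit 0) (XT.nd (nat_lit 78) (nat_lit 0) (nat_lit 0) (XT.lf (nat_lit 0) (nat_lit 2112815691011) (nat_lit 152) (nat_lit 23552467423985) (nat_lit 0) (nat_lit 2109881219273) (nat_lit 1) (nat_lit 5) (nat_lit 3) (nat_lit 4)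 (nat_lit 1) (nat_lit 4) (nat_lit 334) (nat_lit 255) (nat_lit 191)) (XT.lf (nat_lit 0) (nat_lit 2436591796757) (nat_lit 152) (nat_lit 27070094312821) (nat_lit 0) (nat_lit 2433657275094) (nat_lit 1) (nat_lit 5) (nat_lit 3) (nat_lit 4) (nat_lit 1) (nat_lit 4) (nat_lit 335) (nat_lit 255) (nat_lit 190))) (XT.nd (nat_lit 78) (nat_lit 0) (nat_lit 0) (XT.lf (nat_lit 0) (nat_lit 2808934086449) (nat_lit 152) (nat_lit 31115365719650) (nat_lit 0) (nat_lit 2805999521373) (nat_lit 1) (nat_lit 5) (nat_lit 3) (nat_lit 4) (nat_lit 1) (nat_lit 4) (nat_lit 336) (nat_lit 255) (nat_lit 189)) (XT.nd (nat_lit 78) (nat_lit 0) (nat_lit 0) (XT.lf (nat_lit 0) (nat_lit 3237127517929) (nat_lit 152) (nat_lit 35767428258952) (nat_lit 0) (nat_lit 3234192915103) (nat_lit 1) (nat_lit 5) (nat_lit 3) (nat_lit 4) (nat_lit 1) (nat_lit 4) (nat_lit 337) (nat_lit 255) (nat_lit 188)) (XT.lf (nat_lit 0) (nat_lit 3729549788769)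 (nat_lit 152) (nat_lit 41117300545628) (nat_lit 0) (nat_lit 3726615153116) (nat_lit 1) (nat_lit 5) (nat_lit 3) (nat_lit 4) (nat_lit 1) (nat_lit 4) (nat_lit 338) (nat_lit 255) (nat_lit 187))))))))
noncomputable def xc39 : XT := (XT.nd (nat_lit 36270) (nat_lit 0) (nat_lit 152) (XT.nd (nat_lit 35490) (nat_lit 0) (nat_lit 456) (XT.nd (nat_lit 35100) (nat_lit 0) (nat_lit 1140) (XT.nd (nat_lit 156) (nat_lit 0) (nat_lit 0) (XT.nd (nat_lit 78) (nat_lit 0) (nat_lit 0) (XT.lf (nat_lit 0) (nat_lit 4295835247746) (nat_lit 152) (nat_lit 47269653993981) (nat_lit 0) (nat_lit 4292900583548) (nat_lit 1) (nat_lit 5) (nat_lit 3) (nat_lit 4) (nat_lit 1) (nat_lit 4) (nat_lit 339) (nat_lit 255) (nat_lit 186)) (XT.lf (nat_lit 0) (nat_lit 4947063392971) (nat_lit 152) (nat_lit 54344860736696) (nat_lit 0) (nat_lit 4944128703952) (nat_lit 1) (nat_lit 5) (nat_lit 3) (nat_lit 4) (nat_lit 1) (nat_lit 4) (nat_lit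 340) (nat_lit 255) (nat_lit 185))) (XT.nd (nat_lit 78) (nat_lit 0) (nat_lit 0) (XT.lf (nat_lit 0) (nat_lit 5695975644676) (nat_lit 152) (nat_lit 62481348731784) (nat_lit 0) (nat_lit 5693040934073) (nat_lit 1) (nat_lit 5) (nat_lit 3) (nat_lit 4) (nat_lit 1) (nat_lit 4) (nat_lit 341) (nat_lit 255) (nat_lit 184)) (XT.nd (nat_lit 78) (nat_lit 0) (nat_lit 0) (XT.lf (nat_lit 0) (nat_lit 6557224633873) (nat_lit 152) (nat_lit 71838310135670) (nat_lit 0) (nat_lit 6554289904502) (nat_lit 1) (nat_lit 5) (nat_lit 3) (nat_lit 4) (nat_lit 1) (nat_lit 4) (nat_lit 342) (nat_lit 255) (nat_lit 183)) (XT.lf (nat_lit 0) (nat_lit 7547660884265) (nat_lit 152) (nat_lit 82598815932344) (nat_lit 0) (nat_lit 7544726138572) (nat_lit 1) (nat_lit 5) (nat_lit 3) (nat_lit 4) (nat_lit 1) (nat_lit 4) (nat_lit 343) (nat_lit 255) (nat_lit 182))))) (XT.nd (nat_lit 156) (nat_lit 304) (nat_lit 0) (XT.nd (nat_lit 78) (nat_lit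 152) (nat_lit 0) (XT.lf (nat_lit 0) (nat_lit 1001944449) (nat_lit 152) (nat_lit 1505209713) (nat_lit 152) (nat_lit 1505209713) (nat_lit 22) (nat_lit 4) (nat_lit 24) (nat_lit 5) (nat_lit 24) (nat_lit 4) (nat_lit 268) (nat_lit 256) (nat_lit 256)) (XT.lf (nat_lit 0) (nat_lit 272404149) (nat_lit 76) (nat_lit 398953918) (nat_lit 152) (nat_lit 7817692432) (nat_lit 20) (nat_lit 5) (nat_lit 21) (nat_lit 5) (nat_lit 22) (nat_lit 4) (nat_lit 269) (nat_lit 256) (nat_lit 255))) (XT.nd (nat_lit 78) (nat_lit 304) (nat_lit 0) (XT.lf (nat_lit 0) (nat_lit 4571369742) (nat_lit 152) (nat_lit 1767357732) (nat_lit 0) (nat_lit 2667639121) (nat_lit 20) (nat_lit 5) (nat_lit 22) (nat_lit 4) (nat_lit 20) (nat_lit 4) (nat_lit 270) (nat_lit 256) (nat_lit 254)) (XT.nd (nat_lit 78) (nat_lit 152) (nat_lit 0) (XT.lf (nat_lit 0) (nat_lit 5501248328) (nat_lit 152) (nat_lit 3398996209) (nat_lit 152) (nat_lit 725303759)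 (nat_lit 18) (nat_lit 4) (nat_lit 20) (nat_lit 5) (nat_lit 20) (nat_lit 4) (nat_lit 271) (nat_lit 256) (nat_lit 253)) (XT.lf (nat_lit 0) (nat_lit 3070760378) (nat_lit 152) (nat_lit 7105114036) (nat_lit 0) (nat_lit 163608661) (nat_lit 16) (nat_lit 5) (nat_lit 18) (nat_lit 4) (nat_lit 16) (nat_lit 4) (nat_lit 272) (nat_lit 256) (nat_lit 252)))))) (XT.nd (nat_lit 390) (nat_lit 380) (nat_lit 0) (XT.nd (nat_lit 156) (nat_lit 152) (nat_lit 0) (XT.nd (nat_lit 78) (nat_lit 76) (nat_lit 0) (XT.lf (nat_lit 0) (nat_lit 195899158) (nat_lit 76) (nat_lit 7185260985) (nat_lit 76) (nat_lit 3771846868) (nat_lit 15) (nat_lit 4) (nat_lit 16) (nat_lit 5) (nat_lit 16) (nat_lit 4) (nat_lit 273) (nat_lit 256) (nat_lit 251)) (XT.lf (nat_lit 0) (nat_lit 246088581) (nat_lit 152) (nat_lit 3324551842) (nat_lit 76) (nat_lit 8513978482) (nat_lit 14) (nat_lit 5) (nat_lit 16) (nat_lit 5) (nat_lit 15) (nat_lit 4) (nat_lit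 274) (nat_lit 256) (nat_lit 250))) (XT.nd (nat_lit 78) (nat_lit 76) (nat_lit 0) (XT.lf (nat_lit 0) (nat_lit 4405129667) (nat_lit 152) (nat_lit 8014319792) (nat_lit 0) (nat_lit 721260623) (nat_lit 13) (nat_lit 5) (nat_lit 15) (nat_lit 4) (nat_lit 13) (nat_lit 4) (nat_lit 275) (nat_lit 256) (nat_lit 249)) (XT.nd (nat_lit 78) (nat_lit 0) (nat_lit 0) (XT.lf (nat_lit 0) (nat_lit 145286833) (nat_lit 76) (nat_lit 9088364604) (nat_lit 76) (nat_lit 5115038390) (nat_lit 12) (nat_lit 4) (nat_lit 13) (nat_lit 5) (nat_lit 13) (nat_lit 4) (nat_lit 276) (nat_lit 256) (nat_lit 248)) (XT.lf (nat_lit 0) (nat_lit 9877041591) (nat_lit 76) (nat_lit 5033740251) (nat_lit 76) (nat_lit 808712150) (nat_lit 12) (nat_lit 4) (nat_lit 13) (nat_lit 5) (nat_lit 13) (nat_lit 4) (nat_lit 277) (nat_lit 256) (nat_lit 247))))) (XT.nd (nat_lit 156) (nat_lit 228) (nat_lit 0) (XT.nd (nat_lit 78) (nat_lit 0) (nat_lit 0) (XT.lf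 (nat_lit 0) (nat_lit 3396563176) (nat_lit 76) (nat_lit 250163560) (nat_lit 152) (nat_lit 13642857240) (nat_lit 10) (nat_lit 5) (nat_lit 11) (nat_lit 5) (nat_lit 12) (nat_lit 4) (nat_lit 278) (nat_lit 256) (nat_lit 246)) (XT.lf (nat_lit 0) (nat_lit 8961931484) (nat_lit 152) (nat_lit 5154351451) (nat_lit 0) (nat_lit 4932173139) (nat_lit 10) (nat_lit 5) (nat_lit 12) (nat_lit 4) (nat_lit 10) (nat_lit 4) (nat_lit 279) (nat_lit 256) (nat_lit 245))) (XT.nd (nat_lit 78) (nat_lit 152) (nat_lit 0) (XT.lf (nat_lit 0) (nat_lit 4871191540) (nat_lit 76) (nat_lit 10188036910) (nat_lit 76) (nat_lit 6014367194) (nat_lit 9) (nat_lit 4) (nat_lit 10) (nat_lit 5) (nat_lit 10) (nat_lit 4) (nat_lit 280) (nat_lit 256) (nat_lit 244)) (XT.nd (nat_lit 78) (nat_lit 152) (nat_lit 0) (XT.lf (nat_lit 0) (nat_lit 16554421676) (nat_lit 76) (nat_lit 5569552084) (nat_lit 76) (nat_lit 1270742046) (nat_lit 9) (nat_lit 4)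 (nat_lit 10) (nat_lit 5) (nat_lit 10) (nat_lit 4) (nat_lit 281) (nat_lit 256) (nat_lit 243)) (XT.lf (nat_lit 0) (nat_lit 3692243997) (nat_lit 76) (nat_lit 75138192) (nat_lit 152) (nat_lit 22277413424) (nat_lit 7) (nat_lit 5) (nat_lit 8) (nat_lit 5) (nat_lit 9) (nat_lit 4) (nat_lit 282) (nat_lit 256) (nat_lit 242))))))) (XT.nd (nat_lit 780) (nat_lit 76) (nat_lit 0) (XT.nd (nat_lit 390) (nat_lit 152) (nat_lit 0) (XT.nd (nat_lit 156) (nat_lit 76) (nat_lit 0) (XT.nd (nat_lit 78) (nat_lit 0) (nat_lit 0) (XT.lf (nat_lit 0) (nat_lit 9869551010) (nat_lit 152) (nat_lit 13193536883) (nat_lit 0) (nat_lit 5954549468) (nat_lit 7) (nat_lit 5) (nat_lit 9) (nat_lit 4) (nat_lit 7) (nat_lit 4) (nat_lit 283) (nat_lit 256) (nat_lit 241)) (XT.lf (nat_lit 0) (nat_lit 16721328162) (nat_lit 152) (nat_lit 3005236267) (nat_lit 0) (nat_lit 12734777234) (nat_lit 7) (nat_lit 5) (nat_lit 9) (nat_lit 4) (nat_lit 7)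 (nat_lit 4) (nat_lit 284) (nat_lit 256) (nat_lit 240))) (XT.nd (nat_lit 78) (nat_lit 0) (nat_lit 0) (XT.lf (nat_lit 0) (nat_lit 9237153104) (nat_lit 76) (nat_lit 15598996550) (nat_lit 76) (nat_lit 11550228766) (nat_lit 6) (nat_lit 4) (nat_lit 7) (nat_lit 5) (nat_lit 7) (nat_lit 4) (nat_lit 285) (nat_lit 256) (nat_lit 239)) (XT.nd (nat_lit 78) (nat_lit 0) (nat_lit 0) (XT.lf (nat_lit 0) (nat_lit 23370614675) (nat_lit 76) (nat_lit 10814940424) (nat_lit 76) (nat_lit 6712071025) (nat_lit 6) (nat_lit 4) (nat_lit 7) (nat_lit 5) (nat_lit 7) (nat_lit 4) (nat_lit 286) (nat_lit 256) (nat_lit 238)) (XT.lf (nat_lit 0) (nat_lit 39377979149) (nat_lit 76) (nat_lit 5437886848) (nat_lit 76) (nat_lit 1287972566) (nat_lit 6) (nat_lit 4) (nat_lit 7) (nat_lit 5) (nat_lit 7) (nat_lit 4) (nat_lit 287) (nat_lit 256) (nat_lit 237))))) (XT.nd (nat_lit 156) (nat_lit 0) (nat_lit 0) (XT.nd (nat_lit 78) (nat_lit 0)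 (nat_lit 0) (XT.lf (nat_lit 0) (nat_lit 4685008064) (nat_lit 152) (nat_lit 46308066833) (nat_lit 0) (nat_lit 1040814260) (nat_lit 4) (nat_lit 5) (nat_lit 6) (nat_lit 4) (nat_lit 4) (nat_lit 4) (nat_lit 288) (nat_lit 256) (nat_lit 236)) (XT.lf (nat_lit 0) (nat_lit 11939632002) (nat_lit 152) (nat_lit 38562510143) (nat_lit 0) (nat_lit 8264505423) (nat_lit 4) (nat_lit 5) (nat_lit 6) (nat_lit 4) (nat_lit 4) (nat_lit 4) (nat_lit 289) (nat_lit 256) (nat_lit 235))) (XT.nd (nat_lit 78) (nat_lit 0) (nat_lit 0) (XT.lf (nat_lit 0) (nat_lit 20187051446) (nat_lit 152) (nat_lit 29851580807) (nat_lit 0) (nat_lit 16485026804) (nat_lit 4) (nat_lit 5) (nat_lit 6) (nat_lit 4) (nat_lit 4) (nat_lit 4) (nat_lit 290) (nat_lit 256) (nat_lit 234)) (XT.nd (nat_lit 78) (nat_lit 0) (nat_lit 0) (XT.lf (nat_lit 0) (nat_lit 29588628952) (nat_lit 152) (nat_lit 20004847599) (nat_lit 0) (nat_lit 25863214688) (nat_lit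 4) (nat_lit 5) (nat_lit 6) (nat_lit 4) (nat_lit 4) (nat_lit 4) (nat_lit 291) (nat_lit 256) (nat_lit 233)) (XT.lf (nat_lit 0) (nat_lit 40328308427) (nat_lit 152) (nat_lit 8829657043) (nat_lit 0) (nat_lit 36582555362) (nat_lit 4) (nat_lit 5) (nat_lit 6) (nat_lit 4) (nat_lit 4) (nat_lit 4) (nat_lit 292) (nat_lit 256) (nat_lit 232)))))) (XT.nd (nat_lit 390) (nat_lit 0) (nat_lit 0) (XT.nd (nat_lit 156) (nat_lit 0) (nat_lit 0) (XT.nd (nat_lit 78) (nat_lit 0) (nat_lit 0) (XT.lf (nat_lit 0) (nat_lit 4273052582) (nat_lit 76) (nat_lit 48520099447) (nat_lit 76) (nat_lit 44756660469) (nat_lit 3) (nat_lit 4) (nat_lit 4) (nat_lit 5) (nat_lit 4) (nat_lit 4) (nat_lit 293) (nat_lit 256) (nat_lit 231)) (XT.lf (nat_lit 0) (nat_lit 20210197142) (nat_lit 76) (nat_lit 47319425342) (nat_lit 76) (nat_lit 43540607308) (nat_lit 3) (nat_lit 4) (nat_lit 4) (nat_lit 5) (nat_lit 4) (nat_lit 4) (nat_lit 294) (nat_lit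 256) (nat_lit 230))) (XT.nd (nat_lit 78) (nat_lit 0) (nat_lit 0) (XT.lf (nat_lit 0) (nat_lit 38430692033) (nat_lit 76) (nat_lit 45994001959) (nat_lit 76) (nat_lit 42201810833) (nat_lit 3) (nat_lit 4) (nat_lit 4) (nat_lit 5) (nat_lit 4) (nat_lit 4) (nat_lit 295) (nat_lit 256) (nat_lit 229)) (XT.nd (nat_lit 78) (nat_lit 0) (nat_lit 0) (XT.lf (nat_lit 0) (nat_lit 59291025197) (nat_lit 76) (nat_lit 44517897103) (nat_lit 76) (nat_lit 40714077201) (nat_lit 3) (nat_lit 4) (nat_lit 4) (nat_lit 5) (nat_lit 4) (nat_lit 4) (nat_lit 296) (nat_lit 256) (nat_lit 228)) (XT.lf (nat_lit 0) (nat_lit 83199333588) (nat_lit 76) (nat_lit 42862230460) (nat_lit 76) (nat_lit 39048298580) (nat_lit 3) (nat_lit 4) (nat_lit 4) (nat_lit 5) (nat_lit 4) (nat_lit 4) (nat_lit 297) (nat_lit 256) (nat_lit 227))))) (XT.nd (nat_lit 234) (nat_lit 0) (nat_lit 0) (XT.nd (nat_lit 78) (nat_lit 0) (nat_lit 0) (XT.lf (nat_lit 0)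 (nat_lit 110623388457) (nat_lit 76) (nat_lit 40994608553) (nat_lit 76) (nat_lit 37171883648) (nat_lit 3) (nat_lit 4) (nat_lit 4) (nat_lit 5) (nat_lit 4) (nat_lit 4) (nat_lit 298) (nat_lit 256) (nat_lit 226)) (XT.nd (nat_lit 78) (nat_lit 0) (nat_lit 0) (XT.lf (nat_lit 0) (nat_lit 142099747399) (nat_lit 76) (nat_lit 38878490954) (nat_lit 76) (nat_lit 35048119940) (nat_lit 3) (nat_lit 4) (nat_lit 4) (nat_lit 5) (nat_lit 4) (nat_lit 4) (nat_lit 299) (nat_lit 256) (nat_lit 225)) (XT.lf (nat_lit 0) (nat_lit 178244252220) (nat_lit 76) (nat_lit 36472475361) (nat_lit 76) (nat_lit 32635455557) (nat_lit 3) (nat_lit 4) (nat_lit 4) (nat_lit 5) (nat_lit 4) (nat_lit 4) (nat_lit 300) (nat_lit 256) (nat_lit 224)))) (XT.nd (nat_lit 78) (nat_lit 0) (nat_lit 0) (XT.lf (nat_lit 0) (nat_lit 219764078013) (nat_lit 76) (nat_lit 33729487556) (nat_lit 76) (nat_lit 29886686196) (nat_lit 3) (nat_lit 4) (nat_lit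 4) (nat_lit 5) (nat_lit 4) (nat_lit 4) (nat_lit 301) (nat_lit 256) (nat_lit 223)) (XT.nd (nat_lit 78) (nat_lit 0) (nat_lit 0) (XT.lf (nat_lit 0) (nat_lit 267471569197) (nat_lit 76) (nat_lit 30595860387) (nat_lit 76) (nat_lit 26748031586) (nat_lit 3) (nat_lit 4) (nat_lit 4) (nat_lit 5) (nat_lit 4) (nat_lit 4) (nat_lit 302) (nat_lit 256) (nat_lit 222)) (XT.lf (nat_lit 0) (nat_lit 322300133208) (nat_lit 76) (nat_lit 27010283757) (nat_lit 76) (nat_lit 23158083269) (nat_lit 3) (nat_lit 4) (nat_lit 4) (nat_lit 5) (nat_lit 4) (nat_lit 4) (nat_lit 303) (nat_lit 256) (nat_lit 221))))))))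
noncomputable def xc40 : XT := (XT.nd (nat_lit 1560) (nat_lit 0) (nat_lit 0) (XT.nd (nat_lit 780) (nat_lit 0) (nat_lit 0) (XT.nd (nat_lit 390) (nat_lit 0) (nat_lit 0) (XT.nd (nat_lit 156) (nat_lit 152) (nat_lit 0) (XT.nd (nat_lit 78) (nat_lit 0) (nat_lit 0) (XT.lf (nat_lit 0) (nat_lit 385322502820) (nat_lit 76) (nat_lit 22902605080) (nat_lit 76) (nat_lit 19046603124) (nat_lit 3) (nat_lit 4) (nat_lit 4) (nat_lit 5) (nat_lit 4) (nat_lit 4) (nat_lit 304) (nat_lit 256) (nat_lit 220)) (XT.lf (nat_lit 0) (nat_lit 457771724395) (nat_lit 76) (nat_lit 18192456729) (nat_lit 76) (nat_lit 14333149150) (nat_lit 3) (nat_lit 4) (nat_lit 4) (nat_lit 5) (nat_lit 4) (nat_lit 4) (nat_lit 305) (nat_lit 256) (nat_lit 219))) (XT.nd (nat_lit 78) (nat_lit 152) (nat_lit 0) (XT.lf (nat_lit 0) (nat_lit 541065282703) (nat_lit 76) (nat_lit 12787683628) (nat_lit 76) (nat_lit 8925501593) (nat_lit 3) (nat_lit 4) (nat_lit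 4) (nat_lit 5) (nat_lit 4) (nat_lit 4) (nat_lit 306) (nat_lit 256) (nat_lit 218)) (XT.nd (nat_lit 78) (nat_lit 152) (nat_lit 0) (XT.lf (nat_lit 0) (nat_lit 636832834319) (nat_lit 76) (nat_lit 6582540216) (nat_lit 76) (nat_lit 2717858655) (nat_lit 3) (nat_lit 4) (nat_lit 4) (nat_lit 5) (nat_lit 4) (nat_lit 4) (nat_lit 307) (nat_lit 256) (nat_lit 217)) (XT.lf (nat_lit 0) (nat_lit 4277038111) (nat_lit 152) (nat_lit 736734709188) (nat_lit 0) (nat_lit 914555448) (nat_lit 1) (nat_lit 5) (nat_lit 3) (nat_lit 4) (nat_lit 1) (nat_lit 4) (nat_lit 308) (nat_lit 256) (nat_lit 216))))) (XT.nd (nat_lit 156) (nat_lit 0) (nat_lit 0) (XT.nd (nat_lit 78) (nat_lit 0) (nat_lit 0) (XT.lf (nat_lit 0) (nat_lit 12856894686) (nat_lit 152) (nat_lit 829597160701) (nat_lit 0) (nat_lit 9492768544) (nat_lit 1) (nat_lit 5) (nat_lit 3) (nat_lit 4) (nat_lit 1) (nat_lit 4) (nat_lit 309) (nat_lit 256) (nat_lit 215)) (XT.lf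 (nat_lit 0) (nat_lit 22716095312) (nat_lit 152) (nat_lit 936404934664) (nat_lit 0) (nat_lit 19350540058) (nat_lit 1) (nat_lit 5) (nat_lit 3) (nat_lit 4) (nat_lit 1) (nat_lit 4) (nat_lit 310) (nat_lit 256) (nat_lit 214))) (XT.nd (nat_lit 78) (nat_lit 0) (nat_lit 0) (XT.lf (nat_lit 0) (nat_lit 34047537392) (nat_lit 152) (nat_lit 1059247748391) (nat_lit 0) (nat_lit 30680739431) (nat_lit 1) (nat_lit 5) (nat_lit 3) (nat_lit 4) (nat_lit 1) (nat_lit 4) (nat_lit 311) (nat_lit 256) (nat_lit 213)) (XT.nd (nat_lit 78) (nat_lit 0) (nat_lit 0) (XT.lf (nat_lit 0) (nat_lit 47072923053) (nat_lit 152) (nat_lit 1200529048240) (nat_lit 0) (nat_lit 43705044478) (nat_lit 1) (nat_lit 5) (nat_lit 3) (nat_lit 4) (nat_lit 1) (nat_lit 4) (nat_lit 312) (nat_lit 256) (nat_lit 212)) (XT.lf (nat_lit 0) (nat_lit 62047096797) (nat_lit 152) (nat_lit 1363013033555) (nat_lit 0) (nat_lit 58678278557) (nat_lit 1) (nat_lit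 5) (nat_lit 3) (nat_lit 4) (nat_lit 1) (nat_lit 4) (nat_lit 313) (nat_lit 256) (nat_lit 211)))))) (XT.nd (nat_lit 390) (nat_lit 0) (nat_lit 0) (XT.nd (nat_lit 156) (nat_lit 0) (nat_lit 0) (XT.nd (nat_lit 78) (nat_lit 0) (nat_lit 0) (XT.lf (nat_lit 0) (nat_lit 79263031590) (nat_lit 152) (nat_lit 1549878738831) (nat_lit 0) (nat_lit 75893396250) (nat_lit 1) (nat_lit 5) (nat_lit 3) (nat_lit 4) (nat_lit 1) (nat_lit 4) (nat_lit 314) (nat_lit 256) (nat_lit 210)) (XT.lf (nat_lit 0) (nat_lit 99057560937) (nat_lit 152) (nat_lit 1764782232215) (nat_lit 0) (nat_lit 95687215076) (nat_lit 1) (nat_lit 5) (nat_lit 3) (nat_lit 4) (nat_lit 1) (nat_lit 4) (nat_lit 315) (nat_lit 256) (nat_lit 209))) (XT.nd (nat_lit 78) (nat_lit 0) (nat_lit 0) (XT.lf (nat_lit 0) (nat_lit 121817969109) (nat_lit 152) (nat_lit 2011928147273) (nat_lit 0) (nat_lit 118447005403) (nat_lit 1) (nat_lit 5) (nat_lit 3) (nat_lit 4)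 (nat_lit 1) (nat_lit 4) (nat_lit 316) (nat_lit 256) (nat_lit 208)) (XT.nd (nat_lit 78) (nat_lit 0) (nat_lit 0) (XT.lf (nat_lit 0) (nat_lit 147989568439) (nat_lit 152) (nat_lit 2296151947561) (nat_lit 0) (nat_lit 144618067477) (nat_lit 1) (nat_lit 5) (nat_lit 3) (nat_lit 4) (nat_lit 1) (nat_lit 4) (nat_lit 317) (nat_lit 256) (nat_lit 207)) (XT.lf (nat_lit 0) (nat_lit 178084411958) (nat_lit 152) (nat_lit 2623014533519) (nat_lit 0) (nat_lit 174712443817) (nat_lit 1) (nat_lit 5) (nat_lit 3) (nat_lit 4) (nat_lit 1) (nat_lit 4) (nat_lit 318) (nat_lit 256) (nat_lit 206))))) (XT.nd (nat_lit 156) (nat_lit 0) (nat_lit 0) (XT.nd (nat_lit 78) (nat_lit 0) (nat_lit 0) (XT.lf (nat_lit 0) (nat_lit 212691311822) (nat_lit 152) (nat_lit 2998911042698) (nat_lit 0) (nat_lit 209318937437) (nat_lit 1) (nat_lit 5) (nat_lit 3) (nat_lit 4) (nat_lit 1) (nat_lit 4) (nat_lit 319) (nat_lit 256) (nat_lit 205)) (XT.lf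 (nat_lit 0) (nat_lit 252487359549) (nat_lit 152) (nat_lit 3431195972018) (nat_lit 0) (nat_lit 249114631910) (nat_lit 1) (nat_lit 5) (nat_lit 3) (nat_lit 4) (nat_lit 1) (nat_lit 4) (nat_lit 320) (nat_lit 256) (nat_lit 204))) (XT.nd (nat_lit 78) (nat_lit 0) (nat_lit 0) (XT.lf (nat_lit 0) (nat_lit 298251173465) (nat_lit 152) (nat_lit 3928327070095) (nat_lit 0) (nat_lit 294878138648) (nat_lit 1) (nat_lit 5) (nat_lit 3) (nat_lit 4) (nat_lit 1) (nat_lit 4) (nat_lit 321) (nat_lit 256) (nat_lit 203)) (XT.nd (nat_lit 78) (nat_lit 0) (nat_lit 0) (XT.lf (nat_lit 0) (nat_lit 350878132538) (nat_lit 152) (nat_lit 4500030814935) (nat_lit 0) (nat_lit 347504830609) (nat_lit 1) (nat_lit 5) (nat_lit 3) (nat_lit 4) (nat_lit 1) (nat_lit 4) (nat_lit 322) (nat_lit 256) (nat_lit 202)) (XT.lf (nat_lit 0) (nat_lit 411397894662) (nat_lit 152) (nat_lit 5157492714589) (nat_lit 0) (nat_lit 408024360463) (nat_lit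 1) (nat_lit 5) (nat_lit 3) (nat_lit 4) (nat_lit 1) (nat_lit 4) (nat_lit 323) (nat_lit 256) (nat_lit 201))))))) (XT.nd (nat_lit 780) (nat_lit 0) (nat_lit 0) (XT.nd (nat_lit 390) (nat_lit 0) (nat_lit 0) (XT.nd (nat_lit 156) (nat_lit 0) (nat_lit 0) (XT.nd (nat_lit 78) (nat_lit 0) (nat_lit 0) (XT.lf (nat_lit 0) (nat_lit 480994542141) (nat_lit 152) (nat_lit 5913576154051) (nat_lit 0) (nat_lit 477620805967) (nat_lit 1) (nat_lit 5) (nat_lit 3) (nat_lit 4) (nat_lit 1) (nat_lit 4) (nat_lit 324) (nat_lit 256) (nat_lit 200)) (XT.lf (nat_lit 0) (nat_lit 561029748511) (nat_lit 152) (nat_lit 6783074070179) (nat_lit 0) (nat_lit 557655836707) (nat_lit 1) (nat_lit 5) (nat_lit 3) (nat_lit 4) (nat_lit 1) (nat_lit 4) (nat_lit 325) (nat_lit 256) (nat_lit 199))) (XT.nd (nat_lit 78) (nat_lit 0) (nat_lit 0) (XT.lf (nat_lit 0) (nat_lit 653069419984) (nat_lit 152) (nat_lit 7782998378724) (nat_lit 0) (nat_lit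 649695355459) (nat_lit 1) (nat_lit 5) (nat_lit 3) (nat_lit 4) (nat_lit 1) (nat_lit 4) (nat_lit 326) (nat_lit 256) (nat_lit 198)) (XT.nd (nat_lit 78) (nat_lit 0) (nat_lit 0) (XT.lf (nat_lit 0) (nat_lit 758914332742) (nat_lit 152) (nat_lit 8932912816158) (nat_lit 0) (nat_lit 755540135415) (nat_lit 1) (nat_lit 5) (nat_lit 3) (nat_lit 4) (nat_lit 1) (nat_lit 4) (nat_lit 327) (nat_lit 256) (nat_lit 197)) (XT.lf (nat_lit 0) (nat_lit 880635365511) (nat_lit 152) (nat_lit 10255315708430) (nat_lit 0) (nat_lit 877261052705) (nat_lit 1) (nat_lit 5) (nat_lit 3) (nat_lit 4) (nat_lit 1) (nat_lit 4) (nat_lit 328) (nat_lit 256) (nat_lit 196))))) (XT.nd (nat_lit 156) (nat_lit 0) (nat_lit 0) (XT.nd (nat_lit 78) (nat_lit 0) (nat_lit 0) (XT.lf (nat_lit 0) (nat_lit 1020614016760) (nat_lit 152) (nat_lit 11776080155607) (nat_lit 0) (nat_lit 1017239603537) (nat_lit 1) (nat_lit 5) (nat_lit 3) (nat_lit 4) (nat_lit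 1) (nat_lit 4) (nat_lit 329) (nat_lit 256) (nat_lit 195)) (XT.lf (nat_lit 0) (nat_lit 1181588999231) (nat_lit 152) (nat_lit 13524960244698) (nat_lit 0) (nat_lit 1178214498688) (nat_lit 1) (nat_lit 5) (nat_lit 3) (nat_lit 4) (nat_lit 1) (nat_lit 4) (nat_lit 330) (nat_lit 256) (nat_lit 194))) (XT.nd (nat_lit 78) (nat_lit 0) (nat_lit 0) (XT.lf (nat_lit 0) (nat_lit 1366709823449) (nat_lit 152) (nat_lit 15536173194837) (nat_lit 0) (nat_lit 1363335246976) (nat_lit 1) (nat_lit 5) (nat_lit 3) (nat_lit 4) (nat_lit 1) (nat_lit 4) (nat_lit 331) (nat_lit 256) (nat_lit 193)) (XT.nd (nat_lit 78) (nat_lit 0) (nat_lit 0) (XT.lf (nat_lit 0) (nat_lit 1579598418584) (nat_lit 152) (nat_lit 17849068824616) (nat_lit 0) (nat_lit 1576223776086) (nat_lit 1) (nat_lit 5) (nat_lit 3) (nat_lit 4) (nat_lit 1) (nat_lit 4) (nat_lit 332) (nat_lit 256) (nat_lit 192)) (XT.lf (nat_lit 0) (nat_lit 1824419996280) (nat_lit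 152) (nat_lit 20508899439833) (nat_lit 0) (nat_lit 1821045296368) (nat_lit 1) (nat_lit 5) (nat_lit 3) (nat_lit 4) (nat_lit 1) (nat_lit 4) (nat_lit 333) (nat_lit 256) (nat_lit 191)))))) (XT.nd (nat_lit 390) (nat_lit 0) (nat_lit 0) (XT.nd (nat_lit 156) (nat_lit 0) (nat_lit 0) (XT.nd (nat_lit 78) (nat_lit 0) (nat_lit 0) (XT.lf (nat_lit 0) (nat_lit 2105964543928) (nat_lit 152) (nat_lit 23567705204699) (nat_lit 0) (nat_lit 2102589794091) (nat_lit 1) (nat_lit 5) (nat_lit 3) (nat_lit 4) (nat_lit 1) (nat_lit 4) (nat_lit 334) (nat_lit 256) (nat_lit 190)) (XT.lf (nat_lit 0) (nat_lit 2429740541806) (nat_lit 152) (nat_lit 27085332318962) (nat_lit 0) (nat_lit 2426365748556) (nat_lit 1) (nat_lit 5) (nat_lit 3) (nat_lit 4) (nat_lit 1) (nat_lit 4) (nat_lit 335) (nat_lit 256) (nat_lit 189))) (XT.nd (nat_lit 78) (nat_lit 0) (nat_lit 0) (XT.lf (nat_lit 0) (nat_lit 2802082737700) (nat_lit 152) (nat_lit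 31130603921813) (nat_lit 0) (nat_lit 2798707906699) (nat_lit 1) (nat_lit 5) (nat_lit 3) (nat_lit 4) (nat_lit 1) (nat_lit 4) (nat_lit 336) (nat_lit 256) (nat_lit 188)) (XT.nd (nat_lit 78) (nat_lit 0) (nat_lit 0) (XT.lf (nat_lit 0) (nat_lit 3230276087616) (nat_lit 152) (nat_lit 35782666631570) (nat_lit 0) (nat_lit 3226901223789) (nat_lit 1) (nat_lit 5) (nat_lit 3) (nat_lit 4) (nat_lit 1) (nat_lit 4) (nat_lit 337) (nat_lit 256) (nat_lit 187)) (XT.lf (nat_lit 0) (nat_lit 3722698287531) (nat_lit 152) (nat_lit 41132539066467) (nat_lit 0) (nat_lit 3719323395159) (nat_lit 1) (nat_lit 5) (nat_lit 3) (nat_lit 4) (nat_lit 1) (nat_lit 4) (nat_lit 338) (nat_lit 256) (nat_lit 186))))) (XT.nd (nat_lit 156) (nat_lit 0) (nat_lit 0) (XT.nd (nat_lit 78) (nat_lit 0) (nat_lit 0) (XT.lf (nat_lit 0) (nat_lit 4288983684834) (nat_lit 152) (nat_lit 47284892643709) (nat_lit 0) (nat_lit 4285608767641) (nat_lit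 1) (nat_lit 5) (nat_lit 3) (nat_lit 4) (nat_lit 1) (nat_lit 4) (nat_lit 339) (nat_lit 256) (nat_lit 185)) (XT.lf (nat_lit 0) (nat_lit 4940211776429) (nat_lit 152) (nat_lit 54360099498501) (nat_lit 0) (nat_lit 4936836837652) (nat_lit 1) (nat_lit 5) (nat_lit 3) (nat_lit 4) (nat_lit 1) (nat_lit 4) (nat_lit 340) (nat_lit 256) (nat_lit 184))) (XT.nd (nat_lit 78) (nat_lit 0) (nat_lit 0) (XT.lf (nat_lit 0) (nat_lit 5689123981500) (nat_lit 152) (nat_lit 62496587591047) (nat_lit 0) (nat_lit 5685749023954) (nat_lit 1) (nat_lit 5) (nat_lit 3) (nat_lit 4) (nat_lit 1) (nat_lit 4) (nat_lit 341) (nat_lit 256) (nat_lit 183)) (XT.nd (nat_lit 78) (nat_lit 0) (nat_lit 0) (XT.lf (nat_lit 0) (nat_lit 6550372930146) (nat_lit 152) (nat_lit 71853549079679) (nat_lit 0) (nat_lit 6546997956280) (nat_lit 1) (nat_lit 5) (nat_lit 3) (nat_lit 4) (nat_lit 1) (nat_lit 4) (nat_lit 342) (nat_lit 256) (nat_lit 182)) (XT.lf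 (nat_lit 0) (nat_lit 7540809145275) (nat_lit 152) (nat_lit 82614054950045) (nat_lit 0) (nat_lit 7537434157217) (nat_lit 1) (nat_lit 5) (nat_lit 3) (nat_lit 4) (nat_lit 1) (nat_lit 4) (nat_lit 343) (nat_lit 256) (nat_lit 181))))))))
noncomputable def xc41 : XT := (XT.nd (nat_lit 1560) (nat_lit 304) (nat_lit 0) (XT.nd (nat_lit 780) (nat_lit 456) (nat_lit 0) (XT.nd (nat_lit 390) (nat_lit 532) (nat_lit 0) (XT.nd (nat_lit 156) (nat_lit 304) (nat_lit 0) (XT.nd (nat_lit 78) (nat_lit 380) (nat_lit 0) (XT.lf (nat_lit 0) (nat_lit 2677105616) (nat_lit 228) (nat_lit 491262332) (nat_lit 228) (nat_lit 491262332) (nat_lit 29) (nat_lit 4) (nat_lit 32) (nat_lit 5) (nat_lit 32) (nat_lit 4) (nat_lit 266) (nat_lit 257) (nat_lit 257)) (XT.lf (nat_lit 0) (nat_lit 2479628199) (nat_lit 380) (nat_lit 4037772446) (nat_lit 0) (nat_lit 1132960149) (nat_lit 24) (nat_lit 5) (nat_lit 29) (nat_lit 4) (nat_lit 24) (nat_lit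 4) (nat_lit 267) (nat_lit 257) (nat_lit 256))) (XT.nd (nat_lit 78) (nat_lit 152) (nat_lit 0) (XT.lf (nat_lit 0) (nat_lit 1709846754) (nat_lit 152) (nat_lit 4432945869) (nat_lit 152) (nat_lit 1915262123) (nat_lit 22) (nat_lit 4) (nat_lit 24) (nat_lit 5) (nat_lit 24) (nat_lit 4) (nat_lit 268) (nat_lit 257) (nat_lit 255)) (XT.nd (nat_lit 78) (nat_lit 76) (nat_lit 0) (XT.lf (nat_lit 0) (nat_lit 1458502852) (nat_lit 228) (nat_lit 400177131) (nat_lit 76) (nat_lit 6688925657) (nat_lit 21) (nat_lit 5) (nat_lit 24) (nat_lit 5) (nat_lit 22) (nat_lit 4) (nat_lit 269) (nat_lit 257) (nat_lit 254)) (XT.lf (nat_lit 0) (nat_lit 5091604377) (nat_lit 152) (nat_lit 2766851788) (nat_lit 0) (nat_lit 1246896232) (nat_lit 20) (nat_lit 5) (nat_lit 22) (nat_lit 4) (nat_lit 20) (nat_lit 4) (nat_lit 270) (nat_lit 257) (nat_lit 253))))) (XT.nd (nat_lit 156) (nat_lit 228) (nat_lit 0) (XT.nd (nat_lit 78) (nat_lit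 152) (nat_lit 0) (XT.lf (nat_lit 0) (nat_lit 4129328421) (nat_lit 152) (nat_lit 5071377297) (nat_lit 152) (nat_lit 557137127) (nat_lit 18) (nat_lit 4) (nat_lit 20) (nat_lit 5) (nat_lit 20) (nat_lit 4) (nat_lit 271) (nat_lit 257) (nat_lit 252)) (XT.lf (nat_lit 0) (nat_lit 1304449102) (nat_lit 76) (nat_lit 1672709517) (nat_lit 152) (nat_lit 7530853198) (nat_lit 16) (nat_lit 5) (nat_lit 17) (nat_lit 5) (nat_lit 18) (nat_lit 4) (nat_lit 272) (nat_lit 257) (nat_lit 251))) (XT.nd (nat_lit 78) (nat_lit 228) (nat_lit 0) (XT.lf (nat_lit 0) (nat_lit 7057851656) (nat_lit 152) (nat_lit 2112430611) (nat_lit 0) (nat_lit 2185934846) (nat_lit 16) (nat_lit 5) (nat_lit 18) (nat_lit 4) (nat_lit 16) (nat_lit 4) (nat_lit 273) (nat_lit 257) (nat_lit 250)) (XT.nd (nat_lit 78) (nat_lit 152) (nat_lit 0) (XT.lf (nat_lit 0) (nat_lit 6008350448) (nat_lit 76) (nat_lit 5785950097) (nat_lit 76) (nat_lit 531226179)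 (nat_lit 15) (nat_lit 4) (nat_lit 16) (nat_lit 5) (nat_lit 16) (nat_lit 4) (nat_lit 274) (nat_lit 257) (nat_lit 249)) (XT.lf (nat_lit 0) (nat_lit 1650564807) (nat_lit 76) (nat_lit 1716023318) (nat_lit 152) (nat_lit 10064755519) (nat_lit 13) (nat_lit 5) (nat_lit 14) (nat_lit 5) (nat_lit 15) (nat_lit 4) (nat_lit 275) (nat_lit 257) (nat_lit 248)))))) (XT.nd (nat_lit 390) (nat_lit 228) (nat_lit 0) (XT.nd (nat_lit 156) (nat_lit 152) (nat_lit 0) (XT.nd (nat_lit 78) (nat_lit 76) (nat_lit 0) (XT.lf (nat_lit 0) (nat_lit 7991654490) (nat_lit 152) (nat_lit 3797145767) (nat_lit 0) (nat_lit 2881170286) (nat_lit 13) (nat_lit 5) (nat_lit 15) (nat_lit 4) (nat_lit 13) (nat_lit 4) (nat_lit 276) (nat_lit 257) (nat_lit 247)) (XT.lf (nat_lit 0) (nat_lit 5340069034) (nat_lit 76) (nat_lit 8036967676) (nat_lit 76) (nat_lit 2707612265) (nat_lit 12) (nat_lit 4) (nat_lit 13) (nat_lit 5) (nat_lit 13) (nat_lit 4)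 (nat_lit 277) (nat_lit 257) (nat_lit 246))) (XT.nd (nat_lit 78) (nat_lit 76) (nat_lit 0) (XT.lf (nat_lit 0) (nat_lit 1667603615) (nat_lit 152) (nat_lit 1934330424) (nat_lit 76) (nat_lit 14102075482) (nat_lit 11) (nat_lit 5) (nat_lit 13) (nat_lit 5) (nat_lit 12) (nat_lit 4) (nat_lit 278) (nat_lit 257) (nat_lit 245)) (XT.nd (nat_lit 78) (nat_lit 0) (nat_lit 0) (XT.lf (nat_lit 0) (nat_lit 6645486003) (nat_lit 152) (nat_lit 11166213179) (nat_lit 0) (nat_lit 1701854458) (nat_lit 10) (nat_lit 5) (nat_lit 12) (nat_lit 4) (nat_lit 10) (nat_lit 4) (nat_lit 279) (nat_lit 257) (nat_lit 244)) (XT.lf (nat_lit 0) (nat_lit 12448536690) (nat_lit 152) (nat_lit 1754592698) (nat_lit 0) (nat_lit 7379764823) (nat_lit 10) (nat_lit 5) (nat_lit 12) (nat_lit 4) (nat_lit 10) (nat_lit 4) (nat_lit 280) (nat_lit 257) (nat_lit 243))))) (XT.nd (nat_lit 156) (nat_lit 76) (nat_lit 0) (XT.nd (nat_lit 78) (nat_lit 76)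 (nat_lit 0) (XT.lf (nat_lit 0) (nat_lit 9585103948) (nat_lit 76) (nat_lit 9760829011) (nat_lit 76) (nat_lit 4583239472) (nat_lit 9) (nat_lit 4) (nat_lit 10) (nat_lit 5) (nat_lit 10) (nat_lit 4) (nat_lit 281) (nat_lit 257) (nat_lit 242)) (XT.lf (nat_lit 0) (nat_lit 517057585) (nat_lit 152) (nat_lit 4160539792) (nat_lit 76) (nat_lit 21957180790) (nat_lit 8) (nat_lit 5) (nat_lit 10) (nat_lit 5) (nat_lit 9) (nat_lit 4) (nat_lit 282) (nat_lit 257) (nat_lit 241))) (XT.nd (nat_lit 78) (nat_lit 0) (nat_lit 0) (XT.lf (nat_lit 0) (nat_lit 6151785582) (nat_lit 152) (nat_lit 22030284452) (nat_lit 0) (nat_lit 1495702630) (nat_lit 7) (nat_lit 5) (nat_lit 9) (nat_lit 4) (nat_lit 7) (nat_lit 4) (nat_lit 283) (nat_lit 257) (nat_lit 240)) (XT.nd (nat_lit 78) (nat_lit 0) (nat_lit 0) (XT.lf (nat_lit 0) (nat_lit 12935091551) (nat_lit 152) (nat_lit 11979896200) (nat_lit 0) (nat_lit 8216791742) (nat_lit 7)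 (nat_lit 5) (nat_lit 9) (nat_lit 4) (nat_lit 7) (nat_lit 4) (nat_lit 284) (nat_lit 257) (nat_lit 239)) (XT.lf (nat_lit 0) (nat_lit 20607882073) (nat_lit 152) (nat_lit 679785867) (nat_lit 0) (nat_lit 15835480649) (nat_lit 7) (nat_lit 5) (nat_lit 9) (nat_lit 4) (nat_lit 7) (nat_lit 4) (nat_lit 285) (nat_lit 257) (nat_lit 238))))))) (XT.nd (nat_lit 780) (nat_lit 0) (nat_lit 0) (XT.nd (nat_lit 390) (nat_lit 76) (nat_lit 0) (XT.nd (nat_lit 156) (nat_lit 152) (nat_lit 0) (XT.nd (nat_lit 78) (nat_lit 0) (nat_lit 0) (XT.lf (nat_lit 0) (nat_lit 13272769371) (nat_lit 76) (nat_lit 16597104666) (nat_lit 76) (nat_lit 11777658359) (nat_lit 6) (nat_lit 4) (nat_lit 7) (nat_lit 5) (nat_lit 7) (nat_lit 4) (nat_lit 286) (nat_lit 257) (nat_lit 237)) (XT.lf (nat_lit 0) (nat_lit 29180592356) (nat_lit 76) (nat_lit 11270449864) (nat_lit 76) (nat_lit 6410094964) (nat_lit 6) (nat_lit 4) (nat_lit 7) (nat_lit 5)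 (nat_lit 7) (nat_lit 4) (nat_lit 287) (nat_lit 257) (nat_lit 236))) (XT.nd (nat_lit 78) (nat_lit 152) (nat_lit 0) (XT.lf (nat_lit 0) (nat_lit 47288489483) (nat_lit 76) (nat_lit 5239020637) (nat_lit 76) (nat_lit 343093047) (nat_lit 6) (nat_lit 4) (nat_lit 7) (nat_lit 5) (nat_lit 7) (nat_lit 4) (nat_lit 288) (nat_lit 257) (nat_lit 235)) (XT.nd (nat_lit 78) (nat_lit 0) (nat_lit 0) (XT.lf (nat_lit 0) (nat_lit 6414952593) (nat_lit 152) (nat_lit 51138895999) (nat_lit 0) (nat_lit 2130726190) (nat_lit 4) (nat_lit 5) (nat_lit 6) (nat_lit 4) (nat_lit 4) (nat_lit 4) (nat_lit 289) (nat_lit 257) (nat_lit 234)) (XT.lf (nat_lit 0) (nat_lit 14623788384) (nat_lit 152) (nat_lit 42507425049) (nat_lit 0) (nat_lit 10316172360) (nat_lit 4) (nat_lit 5) (nat_lit 6) (nat_lit 4) (nat_lit 4) (nat_lit 4) (nat_lit 290) (nat_lit 257) (nat_lit 233))))) (XT.nd (nat_lit 156) (nat_lit 76) (nat_lit 0) (XT.nd (nat_lit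 78) (nat_lit 0) (nat_lit 0) (XT.lf (nat_lit 0) (nat_lit 23991814887) (nat_lit 152) (nat_lit 32729786089) (nat_lit 0) (nat_lit 19663860061) (nat_lit 4) (nat_lit 5) (nat_lit 6) (nat_lit 4) (nat_lit 4) (nat_lit 4) (nat_lit 291) (nat_lit 257) (nat_lit 232)) (XT.lf (nat_lit 0) (nat_lit 34702319576) (nat_lit 152) (nat_lit 21614677487) (nat_lit 0) (nat_lit 30356678837) (nat_lit 4) (nat_lit 5) (nat_lit 6) (nat_lit 4) (nat_lit 4) (nat_lit 4) (nat_lit 292) (nat_lit 257) (nat_lit 231))) (XT.nd (nat_lit 78) (nat_lit 76) (nat_lit 0) (XT.lf (nat_lit 0) (nat_lit 46964855805) (nat_lit 152) (nat_lit 8944629729) (nat_lit 0) (nat_lit 42603836011) (nat_lit 4) (nat_lit 5) (nat_lit 6) (nat_lit 4) (nat_lit 4) (nat_lit 4) (nat_lit 293) (nat_lit 257) (nat_lit 230)) (XT.nd (nat_lit 78) (nat_lit 0) (nat_lit 0) (XT.lf (nat_lit 0) (nat_lit 6068510165) (nat_lit 76) (nat_lit 55202116661) (nat_lit 76) (nat_lit 50827723774)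 (nat_lit 3) (nat_lit 4) (nat_lit 4) (nat_lit 5) (nat_lit 4) (nat_lit 4) (nat_lit 294) (nat_lit 257) (nat_lit 229)) (XT.lf (nat_lit 0) (nat_lit 24245639493) (nat_lit 76) (nat_lit 53899080270) (nat_lit 76) (nat_lit 49513058608) (nat_lit 3) (nat_lit 4) (nat_lit 4) (nat_lit 5) (nat_lit 4) (nat_lit 4) (nat_lit 295) (nat_lit 257) (nat_lit 228)))))) (XT.nd (nat_lit 390) (nat_lit 0) (nat_lit 0) (XT.nd (nat_lit 156) (nat_lit 0) (nat_lit 0) (XT.nd (nat_lit 78) (nat_lit 0) (nat_lit 0) (XT.lf (nat_lit 0) (nat_lit 45068263472) (nat_lit 76) (nat_lit 52442442364) (nat_lit 76) (nat_lit 48046308723) (nat_lit 3) (nat_lit 4) (nat_lit 4) (nat_lit 5) (nat_lit 4) (nat_lit 4) (nat_lit 296) (nat_lit 257) (nat_lit 227)) (XT.lf (nat_lit 0) (nat_lit 68943781267) (nat_lit 76) (nat_lit 50803703503) (nat_lit 76) (nat_lit 46398776838) (nat_lit 3) (nat_lit 4) (nat_lit 4) (nat_lit 5) (nat_lit 4) (nat_lit 4) (nat_lit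 297) (nat_lit 257) (nat_lit 226))) (XT.nd (nat_lit 78) (nat_lit 0) (nat_lit 0) (XT.lf (nat_lit 0) (nat_lit 96339322574) (nat_lit 76) (nat_lit 48950801407) (nat_lit 76) (nat_lit 44538228633) (nat_lit 3) (nat_lit 4) (nat_lit 4) (nat_lit 5) (nat_lit 4) (nat_lit 4) (nat_lit 298) (nat_lit 257) (nat_lit 225)) (XT.nd (nat_lit 78) (nat_lit 0) (nat_lit 0) (XT.lf (nat_lit 0) (nat_lit 127790887115) (nat_lit 76) (nat_lit 46847483643) (nat_lit 76) (nat_lit 42428262079) (nat_lit 3) (nat_lit 4) (nat_lit 4) (nat_lit 5) (nat_lit 4) (nat_lit 4) (nat_lit 299) (nat_lit 257) (nat_lit 224)) (XT.lf (nat_lit 0) (nat_lit 163913831587) (nat_lit 76) (nat_lit 44452598342) (nat_lit 76) (nat_lit 40027595221) (nat_lit 3) (nat_lit 4) (nat_lit 4) (nat_lit 5) (nat_lit 4) (nat_lit 4) (nat_lit 300) (nat_lit 257) (nat_lit 223))))) (XT.nd (nat_lit 234) (nat_lit 0) (nat_lit 0) (XT.nd (nat_lit 78) (nat_lit 0) (nat_lit 0) (XT.lf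 (nat_lit 0) (nat_lit 205414909251) (nat_lit 76) (nat_lit 41719289052) (nat_lit 76) (nat_lit 37289258491) (nat_lit 3) (nat_lit 4) (nat_lit 4) (nat_lit 5) (nat_lit 4) (nat_lit 4) (nat_lit 301) (nat_lit 257) (nat_lit 222)) (XT.nd (nat_lit 78) (nat_lit 0) (nat_lit 0) (XT.lf (nat_lit 0) (nat_lit 253106097714) (nat_lit 76) (nat_lit 38594077983) (nat_lit 76) (nat_lit 34159675734) (nat_lit 3) (nat_lit 4) (nat_lit 4) (nat_lit 5) (nat_lit 4) (nat_lit 4) (nat_lit 302) (nat_lit 257) (nat_lit 221)) (XT.lf (nat_lit 0) (nat_lit 307920485445) (nat_lit 76) (nat_lit 35015819701) (nat_lit 76) (nat_lit 30577615984) (nat_lit 3) (nat_lit 4) (nat_lit 4) (nat_lit 5) (nat_lit 4) (nat_lit 4) (nat_lit 303) (nat_lit 257) (nat_lit 220)))) (XT.nd (nat_lit 78) (nat_lit 0) (nat_lit 0) (XT.lf (nat_lit 0) (nat_lit 370930527858) (nat_lit 76) (nat_lit 30914504804) (nat_lit 76) (nat_lit 26472995464) (nat_lit 3) (nat_lit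 4) (nat_lit 4) (nat_lit 5) (nat_lit 4) (nat_lit 4) (nat_lit 304) (nat_lit 257) (nat_lit 219)) (XT.nd (nat_lit 78) (nat_lit 0) (nat_lit 0) (XT.lf (nat_lit 0) (nat_lit 443369030129) (nat_lit 76) (nat_lit 26209890175) (nat_lit 76) (nat_lit 21765506379) (nat_lit 3) (nat_lit 4) (nat_lit 4) (nat_lit 5) (nat_lit 4) (nat_lit 4) (nat_lit 305) (nat_lit 257) (nat_lit 218)) (XT.lf (nat_lit 0) (nat_lit 526653267302) (nat_lit 76) (nat_lit 20809929006) (nat_lit 76) (nat_lit 16363045684) (nat_lit 3) (nat_lit 4) (nat_lit 4) (nat_lit 5) (nat_lit 4) (nat_lit 4) (nat_lit 306) (nat_lit 257) (nat_lit 217))))))))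
noncomputable def xc42 : XT := (XT.nd (nat_lit 1560) (nat_lit 0) (nat_lit 0) (XT.nd (nat_lit 780) (nat_lit 0) (nat_lit 0) (XT.nd (nat_lit 390) (nat_lit 0) (nat_lit 0) (XT.nd (nat_lit 156) (nat_lit 152) (nat_lit 0) (XT.nd (nat_lit 78) (nat_lit 0) (nat_lit 0) (XT.lf (nat_lit 0) (nat_lit 622412713584) (nat_lit 76) (nat_lit 14608969883) (nat_lit 76) (nat_lit 10159913060) (nat_lit 3) (nat_lit 4) (nat_lit 4) (nat_lit 5) (nat_lit 4) (nat_lit 4) (nat_lit 307) (nat_lit 257) (nat_lit 216)) (XT.lf (nat_lit 0) (nat_lit 732520923359) (nat_lit 76) (nat_lit 7485689693) (nat_lit 76) (nat_lit 3034742869) (nat_lit 3) (nat_lit 4) (nat_lit 4) (nat_lit 5) (nat_lit 4) (nat_lit 4) (nat_lit 308) (nat_lit 257) (nat_lit 215))) (XT.nd (nat_lit 78) (nat_lit 0) (nat_lit 0) (XT.lf (nat_lit 0) (nat_lit 5000797175) (nat_lit 152) (nat_lit 847073124026) (nat_lit 0) (nat_lit 1128979520) (nat_lit 1) (nat_lit 5) (nat_lit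 3) (nat_lit 4) (nat_lit 1) (nat_lit 4) (nat_lit 309) (nat_lit 257) (nat_lit 214)) (XT.nd (nat_lit 78) (nat_lit 0) (nat_lit 0) (XT.lf (nat_lit 0) (nat_lit 14856910062) (nat_lit 152) (nat_lit 953887350858) (nat_lit 0) (nat_lit 10983849700) (nat_lit 1) (nat_lit 5) (nat_lit 3) (nat_lit 4) (nat_lit 1) (nat_lit 4) (nat_lit 310) (nat_lit 257) (nat_lit 213)) (XT.lf (nat_lit 0) (nat_lit 26185667150) (nat_lit 152) (nat_lit 1076735775778) (nat_lit 0) (nat_lit 22311526174) (nat_lit 1) (nat_lit 5) (nat_lit 3) (nat_lit 4) (nat_lit 1) (nat_lit 4) (nat_lit 311) (nat_lit 257) (nat_lit 212))))) (XT.nd (nat_lit 156) (nat_lit 0) (nat_lit 0) (XT.nd (nat_lit 78) (nat_lit 0) (nat_lit 0) (XT.lf (nat_lit 0) (nat_lit 39208718036) (nat_lit 152) (nat_lit 1218021954924) (nat_lit 0) (nat_lit 35333637396) (nat_lit 1) (nat_lit 5) (nat_lit 3) (nat_lit 4) (nat_lit 1) (nat_lit 4) (nat_lit 312) (nat_lit 257) (nat_lit 211))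 (XT.lf (nat_lit 0) (nat_lit 54180861542) (nat_lit 152) (nat_lit 1380510183105) (nat_lit 0) (nat_lit 50304963802) (nat_lit 1) (nat_lit 5) (nat_lit 3) (nat_lit 4) (nat_lit 1) (nat_lit 4) (nat_lit 313) (nat_lit 257) (nat_lit 210))) (XT.nd (nat_lit 78) (nat_lit 0) (nat_lit 0) (XT.lf (nat_lit 0) (nat_lit 71395030909) (nat_lit 152) (nat_lit 1567379577831) (nat_lit 0) (nat_lit 67518422648) (nat_lit 1) (nat_lit 5) (nat_lit 3) (nat_lit 4) (nat_lit 1) (nat_lit 4) (nat_lit 314) (nat_lit 257) (nat_lit 209)) (XT.nd (nat_lit 78) (nat_lit 0) (nat_lit 0) (XT.lf (nat_lit 0) (nat_lit 91188025104) (nat_lit 152) (nat_lit 1782286279432) (nat_lit 0) (nat_lit 87310798998) (nat_lit 1) (nat_lit 5) (nat_lit 3) (nat_lit 4) (nat_lit 1) (nat_lit 4) (nat_lit 315) (nat_lit 257) (nat_lit 208)) (XT.lf (nat_lit 0) (nat_lit 113947098361) (nat_lit 152) (nat_lit 2029434984244) (nat_lit 0) (nat_lit 110069334998) (nat_lit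 1) (nat_lit 5) (nat_lit 3) (nat_lit 4) (nat_lit 1) (nat_lit 4) (nat_lit 316) (nat_lit 257) (nat_lit 207)))))) (XT.nd (nat_lit 390) (nat_lit 0) (nat_lit 0) (XT.nd (nat_lit 156) (nat_lit 0) (nat_lit 0) (XT.nd (nat_lit 78) (nat_lit 0) (nat_lit 0) (XT.lf (nat_lit 0) (nat_lit 140117536895) (nat_lit 152) (nat_lit 2313661210405) (nat_lit 0) (nat_lit 136239306353) (nat_lit 1) (nat_lit 5) (nat_lit 3) (nat_lit 4) (nat_lit 1) (nat_lit 4) (nat_lit 317) (nat_lit 257) (nat_lit 206)) (XT.lf (nat_lit 0) (nat_lit 170211371027) (nat_lit 152) (nat_lit 2640525905818) (nat_lit 0) (nat_lit 166332734242) (nat_lit 1) (nat_lit 5) (nat_lit 3) (nat_lit 4) (nat_lit 1) (nat_lit 4) (nat_lit 318) (nat_lit 257) (nat_lit 205))) (XT.nd (nat_lit 78) (nat_lit 0) (nat_lit 0) (XT.lf (nat_lit 0) (nat_lit 204817393162) (nat_lit 152) (nat_lit 3016424249306) (nat_lit 0) (nat_lit 200938403122) (nat_lit 1) (nat_lit 5) (nat_lit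 3) (nat_lit 4) (nat_lit 1) (nat_lit 4) (nat_lit 319) (nat_lit 257) (nat_lit 204)) (XT.nd (nat_lit 78) (nat_lit 0) (nat_lit 0) (XT.lf (nat_lit 0) (nat_lit 244612677647) (nat_lit 152) (nat_lit 3448710773676) (nat_lit 0) (nat_lit 240733380430) (nat_lit 1) (nat_lit 5) (nat_lit 3) (nat_lit 4) (nat_lit 1) (nat_lit 4) (nat_lit 320) (nat_lit 257) (nat_lit 203)) (XT.lf (nat_lit 0) (nat_lit 290375827875) (nat_lit 152) (nat_lit 3945843258753) (nat_lit 0) (nat_lit 286496263546) (nat_lit 1) (nat_lit 5) (nat_lit 3) (nat_lit 4) (nat_lit 1) (nat_lit 4) (nat_lit 321) (nat_lit 257) (nat_lit 202))))) (XT.nd (nat_lit 156) (nat_lit 0) (nat_lit 0) (XT.nd (nat_lit 78) (nat_lit 0) (nat_lit 0) (XT.lf (nat_lit 0) (nat_lit 343002209827) (nat_lit 152) (nat_lit 4517548209681) (nat_lit 0) (nat_lit 339122413227) (nat_lit 1) (nat_lit 5) (nat_lit 3) (nat_lit 4) (nat_lit 1) (nat_lit 4) (nat_lit 322) (nat_lit 257) (nat_lit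 201)) (XT.lf (nat_lit 0) (nat_lit 403521470107) (nat_lit 152) (nat_lit 5175011158107) (nat_lit 0) (nat_lit 399641471533) (nat_lit 1) (nat_lit 5) (nat_lit 3) (nat_lit 4) (nat_lit 1) (nat_lit 4) (nat_lit 323) (nat_lit 257) (nat_lit 200))) (XT.nd (nat_lit 78) (nat_lit 0) (nat_lit 0) (XT.lf (nat_lit 0) (nat_lit 473117681200) (nat_lit 152) (nat_lit 5931095509544) (nat_lit 0) (nat_lit 469237506995) (nat_lit 1) (nat_lit 5) (nat_lit 3) (nat_lit 4) (nat_lit 1) (nat_lit 4) (nat_lit 324) (nat_lit 257) (nat_lit 199)) (XT.nd (nat_lit 78) (nat_lit 0) (nat_lit 0) (XT.lf (nat_lit 0) (nat_lit 553152508104) (nat_lit 152) (nat_lit 6800594218695) (nat_lit 0) (nat_lit 549272181178) (nat_lit 1) (nat_lit 5) (nat_lit 3) (nat_lit 4) (nat_lit 1) (nat_lit 4) (nat_lit 325) (nat_lit 257) (nat_lit 198)) (XT.lf (nat_lit 0) (nat_lit 645191849606) (nat_lit 152) (nat_lit 7800519216825) (nat_lit 0) (nat_lit 641311389879)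 (nat_lit 1) (nat_lit 5) (nat_lit 3) (nat_lit 4) (nat_lit 1) (nat_lit 4) (nat_lit 326) (nat_lit 257) (nat_lit 197))))))) (XT.nd (nat_lit 780) (nat_lit 0) (nat_lit 0) (XT.nd (nat_lit 390) (nat_lit 0) (nat_lit 0) (XT.nd (nat_lit 156) (nat_lit 0) (nat_lit 0) (XT.nd (nat_lit 78) (nat_lit 0) (nat_lit 0) (XT.lf (nat_lit 0) (nat_lit 751036475433) (nat_lit 152) (nat_lit 8950434253897) (nat_lit 0) (nat_lit 747155900226) (nat_lit 1) (nat_lit 5) (nat_lit 3) (nat_lit 4) (nat_lit 1) (nat_lit 4) (nat_lit 327) (nat_lit 257) (nat_lit 196)) (XT.lf (nat_lit 0) (nat_lit 872757258697) (nat_lit 152) (nat_lit 10272837667594) (nat_lit 0) (nat_lit 868876583073) (nat_lit 1) (nat_lit 5) (nat_lit 3) (nat_lit 4) (nat_lit 1) (nat_lit 4) (nat_lit 328) (nat_lit 257) (nat_lit 195))) (XT.nd (nat_lit 78) (nat_lit 0) (nat_lit 0) (XT.lf (nat_lit 0) (nat_lit 1012735692986) (nat_lit 152) (nat_lit 11793602568184) (nat_lit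 0) (nat_lit 1008854930042) (nat_lit 1) (nat_lit 5) (nat_lit 3) (nat_lit 4) (nat_lit 1) (nat_lit 4) (nat_lit 329) (nat_lit 257) (nat_lit 194)) (XT.nd (nat_lit 78) (nat_lit 0) (nat_lit 0) (XT.lf (nat_lit 0) (nat_lit 1173710486794) (nat_lit 152) (nat_lit 13542483051547) (nat_lit 0) (nat_lit 1169829647921) (nat_lit 1) (nat_lit 5) (nat_lit 3) (nat_lit 4) (nat_lit 1) (nat_lit 4) (nat_lit 330) (nat_lit 257) (nat_lit 193)) (XT.lf (nat_lit 0) (nat_lit 1358831146958) (nat_lit 152) (nat_lit 15553696344532) (nat_lit 0) (nat_lit 1354950242059) (nat_lit 1) (nat_lit 5) (nat_lit 3) (nat_lit 4) (nat_lit 1) (nat_lit 4) (nat_lit 331) (nat_lit 257) (nat_lit 192))))) (XT.nd (nat_lit 156) (nat_lit 0) (nat_lit 0) (XT.nd (nat_lit 78) (nat_lit 0) (nat_lit 0) (XT.lf (nat_lit 0) (nat_lit 1571719599438) (nat_lit 152) (nat_lit 17866592272437) (nat_lit 0) (nat_lit 1567838637126) (nat_lit 1) (nat_lit 5) (nat_lit 3)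 (nat_lit 4) (nat_lit 1) (nat_lit 4) (nat_lit 332) (nat_lit 257) (nat_lit 191)) (XT.lf (nat_lit 0) (nat_lit 1816541053086) (nat_lit 152) (nat_lit 20526423146894) (nat_lit 0) (nat_lit 1812660040849) (nat_lit 1) (nat_lit 5) (nat_lit 3) (nat_lit 4) (nat_lit 1) (nat_lit 4) (nat_lit 333) (nat_lit 257) (nat_lit 190))) (XT.nd (nat_lit 78) (nat_lit 0) (nat_lit 0) (XT.lf (nat_lit 0) (nat_lit 2098085492866) (nat_lit 152) (nat_lit 23585229137187) (nat_lit 0) (nat_lit 2094204437215) (nat_lit 1) (nat_lit 5) (nat_lit 3) (nat_lit 4) (nat_lit 1) (nat_lit 4) (nat_lit 334) (nat_lit 257) (nat_lit 189)) (XT.nd (nat_lit 78) (nat_lit 0) (nat_lit 0) (XT.lf (nat_lit 0) (nat_lit 2421861396946) (nat_lit 152) (nat_lit 27102856447472) (nat_lit 0) (nat_lit 2417980303545) (nat_lit 1) (nat_lit 5) (nat_lit 3) (nat_lit 4) (nat_lit 1) (nat_lit 4) (nat_lit 335) (nat_lit 257) (nat_lit 188)) (XT.lf (nat_lit 0) (nat_lit 2794203511276)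 (nat_lit 152) (nat_lit 31148128220779) (nat_lit 0) (nat_lit 2790322385048) (nat_lit 1) (nat_lit 5) (nat_lit 3) (nat_lit 4) (nat_lit 1) (nat_lit 4) (nat_lit 336) (nat_lit 257) (nat_lit 187)))))) (XT.nd (nat_lit 390) (nat_lit 0) (nat_lit 0) (XT.nd (nat_lit 156) (nat_lit 0) (nat_lit 0) (XT.nd (nat_lit 78) (nat_lit 0) (nat_lit 0) (XT.lf (nat_lit 0) (nat_lit 3222396790267) (nat_lit 152) (nat_lit 35800191078757) (nat_lit 0) (nat_lit 3218515635495) (nat_lit 1) (nat_lit 5) (nat_lit 3) (nat_lit 4) (nat_lit 1) (nat_lit 4) (nat_lit 337) (nat_lit 257) (nat_lit 186)) (XT.lf (nat_lit 0) (nat_lit 3714818928508) (nat_lit 152) (nat_lit 41150063642543) (nat_lit 0) (nat_lit 3710937748914) (nat_lit 1) (nat_lit 5) (nat_lit 3) (nat_lit 4) (nat_lit 1) (nat_lit 4) (nat_lit 338) (nat_lit 257) (nat_lit 185))) (XT.nd (nat_lit 78) (nat_lit 0) (nat_lit 0) (XT.lf (nat_lit 0) (nat_lit 4281104272182) (nat_lit 152)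 (nat_lit 47302417331860) (nat_lit 0) (nat_lit 4277223071004) (nat_lit 1) (nat_lit 5) (nat_lit 3) (nat_lit 4) (nat_lit 1) (nat_lit 4) (nat_lit 339) (nat_lit 257) (nat_lit 184)) (XT.nd (nat_lit 78) (nat_lit 0) (nat_lit 0) (XT.lf (nat_lit 0) (nat_lit 4932332317143) (nat_lit 152) (nat_lit 54377624284111) (nat_lit 0) (nat_lit 4928451097197) (nat_lit 1) (nat_lit 5) (nat_lit 3) (nat_lit 4) (nat_lit 1) (nat_lit 4) (nat_lit 340) (nat_lit 257) (nat_lit 183)) (XT.lf (nat_lit 0) (nat_lit 5681244481663) (nat_lit 152) (nat_lit 62514112461403) (nat_lit 0) (nat_lit 5677363245395) (nat_lit 1) (nat_lit 5) (nat_lit 3) (nat_lit 4) (nat_lit 1) (nat_lit 4) (nat_lit 341) (nat_lit 257) (nat_lit 182))))) (XT.nd (nat_lit 156) (nat_lit 0) (nat_lit 0) (XT.nd (nat_lit 78) (nat_lit 0) (nat_lit 0) (XT.lf (nat_lit 0) (nat_lit 6542493395046) (nat_lit 152) (nat_lit 71871074023728) (nat_lit 0) (nat_lit 6538612144587)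 (nat_lit 1) (nat_lit 5) (nat_lit 3) (nat_lit 4) (nat_lit 1) (nat_lit 4) (nat_lit 342) (nat_lit 257) (nat_lit 181)) (XT.lf (nat_lit 0) (nat_lit 7532929579512) (nat_lit 152) (nat_lit 82631579958173) (nat_lit 0) (nat_lit 7529048316713) (nat_lit 1) (nat_lit 5) (nat_lit 3) (nat_lit 4) (nat_lit 1) (nat_lit 4) (nat_lit 343) (nat_lit 257) (nat_lit 180))) (XT.nd (nat_lit 78) (nat_lit 0) (nat_lit 0) (XT.lf (nat_lit 0) (nat_lit 8671931134322) (nat_lit 152) (nat_lit 95006161902588) (nat_lit 0) (nat_lit 8668049860791) (nat_lit 1) (nat_lit 5) (nat_lit 3) (nat_lit 4) (nat_lit 1) (nat_lit 4) (nat_lit 344) (nat_lit 257) (nat_lit 179)) (XT.nd (nat_lit 34320) (nat_lit 0) (nat_lit 2356) (XT.lf (nat_lit 0) (nat_lit 9981782872505) (nat_lit 152) (nat_lit 109236931242841) (nat_lit 0) (nat_lit 9977901589643) (nat_lit 1) (nat_lit 5) (nat_lit 3) (nat_lit 4) (nat_lit 1) (nat_lit 4) (nat_lit 345) (nat_lit 257) (nat_lit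 178)) (XT.lf (nat_lit 0) (nat_lit 548828617) (nat_lit 228) (nat_lit 2313267232) (nat_lit 0) (nat_lit 548828617) (nat_lit 32) (nat_lit 5) (nat_lit 35) (nat_lit 4) (nat_lit 32) (nat_lit 4) (nat_lit 264) (nat_lit 258) (nat_lit 258))))))))
noncomputable def xc43 : XT := (XT.nd (nat_lit 1560) (nat_lit 304) (nat_lit 0) (XT.nd (nat_lit 780) (nat_lit 608) (nat_lit 0) (XT.nd (nat_lit 390) (nat_lit 456) (nat_lit 0) (XT.nd (nat_lit 156) (nat_lit 532) (nat_lit 0) (XT.nd (nat_lit 78) (nat_lit 304) (nat_lit 0) (XT.lf (nat_lit 0) (nat_lit 4368649899) (nat_lit 228) (nat_lit 95569680) (nat_lit 0) (nat_lit 2587681402) (nat_lit 32) (nat_lit 5) (nat_lit 35) (nat_lit 4) (nat_lit 32) (nat_lit 4) (nat_lit 265) (nat_lit 258) (nat_lit 257)) (XT.lf (nat_lit 0) (nat_lit 503369293) (nat_lit 304) (nat_lit 2247392774) (nat_lit 76) (nat_lit 4597827297) (nat_lit 28) (nat_lit 5) (nat_lit 32) (nat_lit 5) (nat_lit 29)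 (nat_lit 4) (nat_lit 266) (nat_lit 258) (nat_lit 256))) (XT.nd (nat_lit 78) (nat_lit 228) (nat_lit 0) (XT.lf (nat_lit 0) (nat_lit 3079264344) (nat_lit 304) (nat_lit 527977119) (nat_lit 380) (nat_lit 4107566362) (nat_lit 24) (nat_lit 5) (nat_lit 28) (nat_lit 5) (nat_lit 29) (nat_lit 4) (nat_lit 267) (nat_lit 258) (nat_lit 255)) (XT.nd (nat_lit 78) (nat_lit 76) (nat_lit 0) (XT.lf (nat_lit 0) (nat_lit 821967324) (nat_lit 152) (nat_lit 6210673492) (nat_lit 152) (nat_lit 1126046970) (nat_lit 22) (nat_lit 4) (nat_lit 24) (nat_lit 5) (nat_lit 24) (nat_lit 4) (nat_lit 268) (nat_lit 258) (nat_lit 254)) (XT.lf (nat_lit 0) (nat_lit 2004209339) (nat_lit 228) (nat_lit 1661032544) (nat_lit 76) (nat_lit 5004476069) (nat_lit 21) (nat_lit 5) (nat_lit 24) (nat_lit 5) (nat_lit 22) (nat_lit 4) (nat_lit 269) (nat_lit 258) (nat_lit 253))))) (XT.nd (nat_lit 156) (nat_lit 228) (nat_lit 0) (XT.nd (nat_lit 78)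 (nat_lit 152) (nat_lit 0) (XT.lf (nat_lit 0) (nat_lit 4790834459) (nat_lit 76) (nat_lit 572365034) (nat_lit 152) (nat_lit 3905724649) (nat_lit 20) (nat_lit 5) (nat_lit 21) (nat_lit 5) (nat_lit 22) (nat_lit 4) (nat_lit 270) (nat_lit 258) (nat_lit 252)) (XT.lf (nat_lit 0) (nat_lit 2037961181) (nat_lit 152) (nat_lit 7182331331) (nat_lit 152) (nat_lit 739221350) (nat_lit 18) (nat_lit 4) (nat_lit 20) (nat_lit 5) (nat_lit 20) (nat_lit 4) (nat_lit 271) (nat_lit 258) (nat_lit 251))) (XT.nd (nat_lit 78) (nat_lit 152) (nat_lit 0) (XT.lf (nat_lit 0) (nat_lit 2618929227) (nat_lit 228) (nat_lit 1318674541) (nat_lit 76) (nat_lit 6802288709) (nat_lit 17) (nat_lit 5) (nat_lit 20) (nat_lit 5) (nat_lit 18) (nat_lit 4) (nat_lit 272) (nat_lit 258) (nat_lit 250)) (XT.nd (nat_lit 78) (nat_lit 76) (nat_lit 0) (XT.lf (nat_lit 0) (nat_lit 6394631051) (nat_lit 76) (nat_lit 16639463) (nat_lit 152) (nat_lit 5220275977)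 (nat_lit 16) (nat_lit 5) (nat_lit 17) (nat_lit 5) (nat_lit 18) (nat_lit 4) (nat_lit 273) (nat_lit 258) (nat_lit 249)) (XT.lf (nat_lit 0) (nat_lit 2362049807) (nat_lit 76) (nat_lit 8518810461) (nat_lit 76) (nat_lit 1760195101) (nat_lit 15) (nat_lit 4) (nat_lit 16) (nat_lit 5) (nat_lit 16) (nat_lit 4) (nat_lit 274) (nat_lit 258) (nat_lit 248)))))) (XT.nd (nat_lit 390) (nat_lit 228) (nat_lit 0) (XT.nd (nat_lit 156) (nat_lit 228) (nat_lit 0) (XT.nd (nat_lit 78) (nat_lit 76) (nat_lit 0) (XT.lf (nat_lit 0) (nat_lit 2065425065) (nat_lit 152) (nat_lit 2607408639) (nat_lit 76) (nat_lit 9109041596) (nat_lit 14) (nat_lit 5) (nat_lit 16) (nat_lit 5) (nat_lit 15) (nat_lit 4) (nat_lit 275) (nat_lit 258) (nat_lit 247)) (XT.lf (nat_lit 0) (nat_lit 6319649504) (nat_lit 76) (nat_lit 14966273) (nat_lit 152) (nat_lit 8739379808) (nat_lit 13) (nat_lit 5) (nat_lit 14) (nat_lit 5) (nat_lit 15) (nat_lit 4)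 (nat_lit 276) (nat_lit 258) (nat_lit 246))) (XT.nd (nat_lit 78) (nat_lit 228) (nat_lit 0) (XT.lf (nat_lit 0) (nat_lit 11402694062) (nat_lit 152) (nat_lit 268931625) (nat_lit 0) (nat_lit 4864741345) (nat_lit 13) (nat_lit 5) (nat_lit 15) (nat_lit 4) (nat_lit 13) (nat_lit 4) (nat_lit 277) (nat_lit 258) (nat_lit 245)) (XT.nd (nat_lit 78) (nat_lit 152) (nat_lit 0) (XT.lf (nat_lit 0) (nat_lit 10052602396) (nat_lit 76) (nat_lit 7416689297) (nat_lit 76) (nat_lit 713238503) (nat_lit 12) (nat_lit 4) (nat_lit 13) (nat_lit 5) (nat_lit 13) (nat_lit 4) (nat_lit 278) (nat_lit 258) (nat_lit 244)) (XT.lf (nat_lit 0) (nat_lit 1497478417) (nat_lit 76) (nat_lit 2383842783) (nat_lit 152) (nat_lit 16182270242) (nat_lit 10) (nat_lit 5) (nat_lit 11) (nat_lit 5) (nat_lit 12) (nat_lit 4) (nat_lit 279) (nat_lit 258) (nat_lit 243))))) (XT.nd (nat_lit 156) (nat_lit 152) (nat_lit 0) (XT.nd (nat_lit 78) (nat_lit 76)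 (nat_lit 0) (XT.lf (nat_lit 0) (nat_lit 9505191932) (nat_lit 152) (nat_lit 9212526486) (nat_lit 0) (nat_lit 3442146291) (nat_lit 10) (nat_lit 5) (nat_lit 12) (nat_lit 4) (nat_lit 10) (nat_lit 4) (nat_lit 280) (nat_lit 258) (nat_lit 242)) (XT.lf (nat_lit 0) (nat_lit 1248707562) (nat_lit 76) (nat_lit 14738714235) (nat_lit 76) (nat_lit 8581044531) (nat_lit 9) (nat_lit 4) (nat_lit 10) (nat_lit 5) (nat_lit 10) (nat_lit 4) (nat_lit 281) (nat_lit 258) (nat_lit 241))) (XT.nd (nat_lit 78) (nat_lit 152) (nat_lit 0) (XT.lf (nat_lit 0) (nat_lit 14034766460) (nat_lit 76) (nat_lit 9746379877) (nat_lit 76) (nat_lit 3506428379) (nat_lit 9) (nat_lit 4) (nat_lit 10) (nat_lit 5) (nat_lit 10) (nat_lit 4) (nat_lit 282) (nat_lit 258) (nat_lit 240)) (XT.nd (nat_lit 78) (nat_lit 76) (nat_lit 0) (XT.lf (nat_lit 0) (nat_lit 1992205000) (nat_lit 152) (nat_lit 2028260133) (nat_lit 76) (nat_lit 26399154155) (nat_lit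 8) (nat_lit 5) (nat_lit 10) (nat_lit 5) (nat_lit 9) (nat_lit 4) (nat_lit 283) (nat_lit 258) (nat_lit 239)) (XT.lf (nat_lit 0) (nat_lit 8452908106) (nat_lit 152) (nat_lit 22558591280) (nat_lit 0) (nat_lit 2910544853) (nat_lit 7) (nat_lit 5) (nat_lit 9) (nat_lit 4) (nat_lit 7) (nat_lit 4) (nat_lit 284) (nat_lit 258) (nat_lit 238))))))) (XT.nd (nat_lit 780) (nat_lit 76) (nat_lit 0) (XT.nd (nat_lit 390) (nat_lit 76) (nat_lit 0) (XT.nd (nat_lit 156) (nat_lit 76) (nat_lit 0) (XT.nd (nat_lit 78) (nat_lit 76) (nat_lit 0) (XT.lf (nat_lit 0) (nat_lit 16073924576) (nat_lit 152) (nat_lit 11362762508) (nat_lit 0) (nat_lit 10484516441) (nat_lit 7) (nat_lit 5) (nat_lit 9) (nat_lit 4) (nat_lit 7) (nat_lit 4) (nat_lit 285) (nat_lit 258) (nat_lit 237)) (XT.lf (nat_lit 0) (nat_lit 1446233069) (nat_lit 76) (nat_lit 23354950909) (nat_lit 76) (nat_lit 17724634180) (nat_lit 6) (nat_lit 4) (nat_lit 7) (nat_lit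 5) (nat_lit 7) (nat_lit 4) (nat_lit 286) (nat_lit 258) (nat_lit 236))) (XT.nd (nat_lit 78) (nat_lit 76) (nat_lit 0) (XT.lf (nat_lit 0) (nat_lit 17267498237) (nat_lit 76) (nat_lit 18072121128) (nat_lit 76) (nat_lit 12406231710) (nat_lit 6) (nat_lit 4) (nat_lit 7) (nat_lit 5) (nat_lit 7) (nat_lit 4) (nat_lit 287) (nat_lit 258) (nat_lit 235)) (XT.nd (nat_lit 78) (nat_lit 76) (nat_lit 0) (XT.lf (nat_lit 0) (nat_lit 35300127697) (nat_lit 76) (nat_lit 12078800615) (nat_lit 76) (nat_lit 6381978423) (nat_lit 6) (nat_lit 4) (nat_lit 7) (nat_lit 5) (nat_lit 7) (nat_lit 4) (nat_lit 288) (nat_lit 258) (nat_lit 234)) (XT.lf (nat_lit 0) (nat_lit 424505718) (nat_lit 152) (nat_lit 4811032962) (nat_lit 76) (nat_lit 55450237974) (nat_lit 5) (nat_lit 5) (nat_lit 7) (nat_lit 5) (nat_lit 6) (nat_lit 4) (nat_lit 289) (nat_lit 258) (nat_lit 233))))) (XT.nd (nat_lit 156) (nat_lit 0) (nat_lit 0) (XT.nd (nat_lit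 78) (nat_lit 0) (nat_lit 0) (XT.lf (nat_lit 0) (nat_lit 8153901206) (nat_lit 152) (nat_lit 57210198559) (nat_lit 0) (nat_lit 3156414355) (nat_lit 4) (nat_lit 5) (nat_lit 6) (nat_lit 4) (nat_lit 4) (nat_lit 4) (nat_lit 290) (nat_lit 258) (nat_lit 232)) (XT.lf (nat_lit 0) (nat_lit 17492752923) (nat_lit 152) (nat_lit 47492641554) (nat_lit 0) (nat_lit 12477580159) (nat_lit 4) (nat_lit 5) (nat_lit 6) (nat_lit 4) (nat_lit 4) (nat_lit 4) (nat_lit 291) (nat_lit 258) (nat_lit 231))) (XT.nd (nat_lit 78) (nat_lit 0) (nat_lit 0) (XT.lf (nat_lit 0) (nat_lit 28177888234) (nat_lit 152) (nat_lit 36429778131) (nat_lit 0) (nat_lit 23147336414) (nat_lit 4) (nat_lit 5) (nat_lit 6) (nat_lit 4) (nat_lit 4) (nat_lit 4) (nat_lit 292) (nat_lit 258) (nat_lit 230)) (XT.nd (nat_lit 78) (nat_lit 0) (nat_lit 0) (XT.lf (nat_lit 0) (nat_lit 40418364134) (nat_lit 152) (nat_lit 23805160961) (nat_lit 0) (nat_lit 35374439222)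 (nat_lit 4) (nat_lit 5) (nat_lit 6) (nat_lit 4) (nat_lit 4) (nat_lit 4) (nat_lit 293) (nat_lit 258) (nat_lit 229)) (XT.lf (nat_lit 0) (nat_lit 54453668194) (nat_lit 152) (nat_lit 9371786667) (nat_lit 0) (nat_lit 49398114508) (nat_lit 4) (nat_lit 5) (nat_lit 6) (nat_lit 4) (nat_lit 4) (nat_lit 4) (nat_lit 294) (nat_lit 258) (nat_lit 228)))))) (XT.nd (nat_lit 390) (nat_lit 0) (nat_lit 0) (XT.nd (nat_lit 156) (nat_lit 0) (nat_lit 0) (XT.nd (nat_lit 78) (nat_lit 0) (nat_lit 0) (XT.lf (nat_lit 0) (nat_lit 7851754323) (nat_lit 76) (nat_lit 63031774270) (nat_lit 76) (nat_lit 57966108604) (nat_lit 3) (nat_lit 4) (nat_lit 4) (nat_lit 5) (nat_lit 4) (nat_lit 4) (nat_lit 295) (nat_lit 258) (nat_lit 227)) (XT.lf (nat_lit 0) (nat_lit 28641587707) (nat_lit 76) (nat_lit 61592064146) (nat_lit 76) (nat_lit 56517605455) (nat_lit 3) (nat_lit 4) (nat_lit 4) (nat_lit 5) (nat_lit 4) (nat_lit 4) (nat_lit 296)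 (nat_lit 258) (nat_lit 226))) (XT.nd (nat_lit 78) (nat_lit 0) (nat_lit 0) (XT.lf (nat_lit 0) (nat_lit 52488591941) (nat_lit 76) (nat_lit 59968045096) (nat_lit 76) (nat_lit 54885940297) (nat_lit 3) (nat_lit 4) (nat_lit 4) (nat_lit 5) (nat_lit 4) (nat_lit 4) (nat_lit 297) (nat_lit 258) (nat_lit 225)) (XT.nd (nat_lit 78) (nat_lit 0) (nat_lit 0) (XT.lf (nat_lit 0) (nat_lit 79859338847) (nat_lit 76) (nat_lit 58127942836) (nat_lit 76) (nat_lit 53039189247) (nat_lit 3) (nat_lit 4) (nat_lit 4) (nat_lit 5) (nat_lit 4) (nat_lit 4) (nat_lit 298) (nat_lit 258) (nat_lit 224)) (XT.lf (nat_lit 0) (nat_lit 111289343039) (nat_lit 76) (nat_lit 56035755364) (nat_lit 76) (nat_lit 50941220218) (nat_lit 3) (nat_lit 4) (nat_lit 4) (nat_lit 5) (nat_lit 4) (nat_lit 4) (nat_lit 299) (nat_lit 258) (nat_lit 223))))) (XT.nd (nat_lit 234) (nat_lit 0) (nat_lit 0) (XT.nd (nat_lit 78) (nat_lit 0) (nat_lit 0) (XT.lf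 (nat_lit 0) (nat_lit 147393539381) (nat_lit 76) (nat_lit 53650548577) (nat_lit 76) (nat_lit 48550985991) (nat_lit 3) (nat_lit 4) (nat_lit 4) (nat_lit 5) (nat_lit 4) (nat_lit 4) (nat_lit 300) (nat_lit 258) (nat_lit 222)) (XT.nd (nat_lit 78) (nat_lit 0) (nat_lit 0) (XT.lf (nat_lit 0) (nat_lit 188878314323) (nat_lit 76) (nat_lit 50925655387) (nat_lit 76) (nat_lit 45821721113) (nat_lit 3) (nat_lit 4) (nat_lit 4) (nat_lit 5) (nat_lit 4) (nat_lit 4) (nat_lit 301) (nat_lit 258) (nat_lit 221)) (XT.lf (nat_lit 0) (nat_lit 236555326507) (nat_lit 76) (nat_lit 47807762665) (nat_lit 76) (nat_lit 42700026924) (nat_lit 3) (nat_lit 4) (nat_lit 4) (nat_lit 5) (nat_lit 4) (nat_lit 4) (nat_lit 302) (nat_lit 258) (nat_lit 220)))) (XT.nd (nat_lit 78) (nat_lit 0) (nat_lit 0) (XT.lf (nat_lit 0) (nat_lit 291357387039) (nat_lit 76) (nat_lit 44235868163) (nat_lit 76) (nat_lit 39124826798) (nat_lit 3) (nat_lit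 4) (nat_lit 4) (nat_lit 5) (nat_lit 4) (nat_lit 4) (nat_lit 303) (nat_lit 258) (nat_lit 219)) (XT.nd (nat_lit 78) (nat_lit 0) (nat_lit 0) (XT.lf (nat_lit 0) (nat_lit 354356710147) (nat_lit 76) (nat_lit 40140086988) (nat_lit 76) (nat_lit 35026171168) (nat_lit 3) (nat_lit 4) (nat_lit 4) (nat_lit 5) (nat_lit 4) (nat_lit 4) (nat_lit 304) (nat_lit 258) (nat_lit 218)) (XT.lf (nat_lit 0) (nat_lit 426785891284) (nat_lit 76) (nat_lit 35440284292) (nat_lit 76) (nat_lit 30323868945) (nat_lit 3) (nat_lit 4) (nat_lit 4) (nat_lit 5) (nat_lit 4) (nat_lit 4) (nat_lit 305) (nat_lit 258) (nat_lit 217))))))))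
noncomputable def xc44 : XT := (XT.nd (nat_lit 1560) (nat_lit 0) (nat_lit 0) (XT.nd (nat_lit 780) (nat_lit 0) (nat_lit 0) (XT.nd (nat_lit 390) (nat_lit 0) (nat_lit 0) (XT.nd (nat_lit 156) (nat_lit 152) (nat_lit 0) (XT.nd (nat_lit 78) (nat_lit 0) (nat_lit 0) (XT.lf (nat_lit 0) (nat_lit 510062023124) (nat_lit 76) (nat_lit 30044507412) (nat_lit 76) (nat_lit 24925918564) (nat_lit 3) (nat_lit 4) (nat_lit 4) (nat_lit 5) (nat_lit 4) (nat_lit 4) (nat_lit 306) (nat_lit 258) (nat_lit 216)) (XT.lf (nat_lit 0) (nat_lit 605814421290) (nat_lit 76) (nat_lit 23847186801) (nat_lit 76) (nat_lit 18726707952) (nat_lit 3) (nat_lit 4) (nat_lit 4) (nat_lit 5) (nat_lit 4) (nat_lit 4) (nat_lit 307) (nat_lit 258) (nat_lit 215))) (XT.nd (nat_lit 78) (nat_lit 152) (nat_lit 0) (XT.lf (nat_lit 0) (nat_lit 715916502268) (nat_lit 76) (nat_lit 16727070535) (nat_lit 76) (nat_lit 11604948206) (nat_lit 3) (nat_lit 4) (nat_lit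 4) (nat_lit 5) (nat_lit 4) (nat_lit 4) (nat_lit 308) (nat_lit 258) (nat_lit 214)) (XT.nd (nat_lit 78) (nat_lit 152) (nat_lit 0) (XT.lf (nat_lit 0) (nat_lit 842522437207) (nat_lit 76) (nat_lit 8544851989) (nat_lit 76) (nat_lit 3421300549) (nat_lit 3) (nat_lit 4) (nat_lit 4) (nat_lit 5) (nat_lit 4) (nat_lit 4) (nat_lit 309) (nat_lit 258) (nat_lit 213)) (XT.lf (nat_lit 0) (nat_lit 5813074293) (nat_lit 152) (nat_lit 974004193544) (nat_lit 0) (nat_lit 1356731556) (nat_lit 1) (nat_lit 5) (nat_lit 3) (nat_lit 4) (nat_lit 1) (nat_lit 4) (nat_lit 310) (nat_lit 258) (nat_lit 212))))) (XT.nd (nat_lit 156) (nat_lit 0) (nat_lit 0) (XT.nd (nat_lit 78) (nat_lit 0) (nat_lit 0) (XT.lf (nat_lit 0) (nat_lit 17139496606) (nat_lit 152) (nat_lit 1096857497761) (nat_lit 0) (nat_lit 12682214205) (nat_lit 1) (nat_lit 5) (nat_lit 3) (nat_lit 4) (nat_lit 1) (nat_lit 4) (nat_lit 311) (nat_lit 258) (nat_lit 211))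 (XT.lf (nat_lit 0) (nat_lit 30160517254) (nat_lit 152) (nat_lit 1238147919774) (nat_lit 0) (nat_lit 25702417753) (nat_lit 1) (nat_lit 5) (nat_lit 3) (nat_lit 4) (nat_lit 1) (nat_lit 4) (nat_lit 312) (nat_lit 258) (nat_lit 210))) (XT.nd (nat_lit 78) (nat_lit 0) (nat_lit 0) (XT.lf (nat_lit 0) (nat_lit 45130895334) (nat_lit 152) (nat_lit 1400639837405) (nat_lit 0) (nat_lit 40672085312) (nat_lit 1) (nat_lit 5) (nat_lit 3) (nat_lit 4) (nat_lit 1) (nat_lit 4) (nat_lit 313) (nat_lit 258) (nat_lit 209)) (XT.nd (nat_lit 78) (nat_lit 0) (nat_lit 0) (XT.lf (nat_lit 0) (nat_lit 62343529549) (nat_lit 152) (nat_lit 1587512440348) (nat_lit 0) (nat_lit 57884101682) (nat_lit 1) (nat_lit 5) (nat_lit 3) (nat_lit 4) (nat_lit 1) (nat_lit 4) (nat_lit 314) (nat_lit 258) (nat_lit 208)) (XT.lf (nat_lit 0) (nat_lit 82135188829) (nat_lit 152) (nat_lit 1802421931702) (nat_lit 0) (nat_lit 77675223706) (nat_lit 1)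 (nat_lit 5) (nat_lit 3) (nat_lit 4) (nat_lit 1) (nat_lit 4) (nat_lit 315) (nat_lit 258) (nat_lit 207)))))) (XT.nd (nat_lit 390) (nat_lit 0) (nat_lit 0) (XT.nd (nat_lit 156) (nat_lit 0) (nat_lit 0) (XT.nd (nat_lit 78) (nat_lit 0) (nat_lit 0) (XT.lf (nat_lit 0) (nat_lit 104893101290) (nat_lit 152) (nat_lit 2049573062388) (nat_lit 0) (nat_lit 100432668987) (nat_lit 1) (nat_lit 5) (nat_lit 3) (nat_lit 4) (nat_lit 1) (nat_lit 4) (nat_lit 316) (nat_lit 258) (nat_lit 206)) (XT.lf (nat_lit 0) (nat_lit 131062530437) (nat_lit 152) (nat_lit 2333801398003) (nat_lit 0) (nat_lit 126601691891) (nat_lit 1) (nat_lit 5) (nat_lit 3) (nat_lit 4) (nat_lit 1) (nat_lit 4) (nat_lit 317) (nat_lit 258) (nat_lit 205))) (XT.nd (nat_lit 78) (nat_lit 0) (nat_lit 0) (XT.lf (nat_lit 0) (nat_lit 161155486840) (nat_lit 152) (nat_lit 2660667927724) (nat_lit 0) (nat_lit 156694295040) (nat_lit 1) (nat_lit 5) (nat_lit 3)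 (nat_lit 4) (nat_lit 1) (nat_lit 4) (nat_lit 318) (nat_lit 258) (nat_lit 204)) (XT.nd (nat_lit 78) (nat_lit 0) (nat_lit 0) (XT.lf (nat_lit 0) (nat_lit 195760745733) (nat_lit 152) (nat_lit 3036567866263) (nat_lit 0) (nat_lit 191299246755) (nat_lit 1) (nat_lit 5) (nat_lit 3) (nat_lit 4) (nat_lit 1) (nat_lit 4) (nat_lit 319) (nat_lit 258) (nat_lit 203)) (XT.lf (nat_lit 0) (nat_lit 235555366530) (nat_lit 152) (nat_lit 3468855777634) (nat_lit 0) (nat_lit 231093600440) (nat_lit 1) (nat_lit 5) (nat_lit 3) (nat_lit 4) (nat_lit 1) (nat_lit 4) (nat_lit 320) (nat_lit 258) (nat_lit 202))))) (XT.nd (nat_lit 156) (nat_lit 0) (nat_lit 0) (XT.nd (nat_lit 78) (nat_lit 0) (nat_lit 0) (XT.lf (nat_lit 0) (nat_lit 281317939637) (nat_lit 152) (nat_lit 3965989468799) (nat_lit 0) (nat_lit 276855941276) (nat_lit 1) (nat_lit 5) (nat_lit 3) (nat_lit 4) (nat_lit 1) (nat_lit 4) (nat_lit 321) (nat_lit 258) (nat_lit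 201)) (XT.lf (nat_lit 0) (nat_lit 333943819745) (nat_lit 152) (nat_lit 4537695468499) (nat_lit 0) (nat_lit 329481619410) (nat_lit 1) (nat_lit 5) (nat_lit 3) (nat_lit 4) (nat_lit 1) (nat_lit 4) (nat_lit 322) (nat_lit 258) (nat_lit 200))) (XT.nd (nat_lit 78) (nat_lit 0) (nat_lit 0) (XT.lf (nat_lit 0) (nat_lit 394462643639) (nat_lit 152) (nat_lit 5195159328900) (nat_lit 0) (nat_lit 390000267674) (nat_lit 1) (nat_lit 5) (nat_lit 3) (nat_lit 4) (nat_lit 1) (nat_lit 4) (nat_lit 323) (nat_lit 258) (nat_lit 199)) (XT.nd (nat_lit 78) (nat_lit 0) (nat_lit 0) (XT.lf (nat_lit 0) (nat_lit 464058475265) (nat_lit 152) (nat_lit 5951244473360) (nat_lit 0) (nat_lit 459595946579) (nat_lit 1) (nat_lit 5) (nat_lit 3) (nat_lit 4) (nat_lit 1) (nat_lit 4) (nat_lit 324) (nat_lit 258) (nat_lit 198)) (XT.lf (nat_lit 0) (nat_lit 544092972199) (nat_lit 152) (nat_lit 6820743872095) (nat_lit 0) (nat_lit 539630310710)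 (nat_lit 1) (nat_lit 5) (nat_lit 3) (nat_lit 4) (nat_lit 1) (nat_lit 4) (nat_lit 325) (nat_lit 258) (nat_lit 197))))))) (XT.nd (nat_lit 780) (nat_lit 0) (nat_lit 0) (XT.nd (nat_lit 390) (nat_lit 0) (nat_lit 0) (XT.nd (nat_lit 156) (nat_lit 0) (nat_lit 0) (XT.nd (nat_lit 78) (nat_lit 0) (nat_lit 0) (XT.lf (nat_lit 0) (nat_lit 636132026770) (nat_lit 152) (nat_lit 7820669469863) (nat_lit 0) (nat_lit 631669249803) (nat_lit 1) (nat_lit 5) (nat_lit 3) (nat_lit 4) (nat_lit 1) (nat_lit 4) (nat_lit 326) (nat_lit 258) (nat_lit 196)) (XT.lf (nat_lit 0) (nat_lit 741976403092) (nat_lit 152) (nat_lit 8970585028361) (nat_lit 0) (nat_lit 737513525707) (nat_lit 1) (nat_lit 5) (nat_lit 3) (nat_lit 4) (nat_lit 1) (nat_lit 4) (nat_lit 327) (nat_lit 258) (nat_lit 195))) (XT.nd (nat_lit 78) (nat_lit 0) (nat_lit 0) (XT.lf (nat_lit 0) (nat_lit 863696969395) (nat_lit 152) (nat_lit 10292988895471) (nat_lit 0)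 (nat_lit 859234004691) (nat_lit 1) (nat_lit 5) (nat_lit 3) (nat_lit 4) (nat_lit 1) (nat_lit 4) (nat_lit 328) (nat_lit 258) (nat_lit 194)) (XT.nd (nat_lit 78) (nat_lit 0) (nat_lit 0) (XT.lf (nat_lit 0) (nat_lit 1003675215022) (nat_lit 152) (nat_lit 11813754190332) (nat_lit 0) (nat_lit 999212174388) (nat_lit 1) (nat_lit 5) (nat_lit 3) (nat_lit 4) (nat_lit 1) (nat_lit 4) (nat_lit 329) (nat_lit 258) (nat_lit 193)) (XT.lf (nat_lit 0) (nat_lit 1164649844777) (nat_lit 152) (nat_lit 13562635016541) (nat_lit 0) (nat_lit 1160186738117) (nat_lit 1) (nat_lit 5) (nat_lit 3) (nat_lit 4) (nat_lit 1) (nat_lit 4) (nat_lit 330) (nat_lit 258) (nat_lit 192))))) (XT.nd (nat_lit 156) (nat_lit 0) (nat_lit 0) (XT.nd (nat_lit 78) (nat_lit 0) (nat_lit 0) (XT.lf (nat_lit 0) (nat_lit 1349770362285) (nat_lit 152) (nat_lit 15573848607653) (nat_lit 0) (nat_lit 1345307198212) (nat_lit 1) (nat_lit 5) (nat_lit 3) (nat_lit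 4) (nat_lit 1) (nat_lit 4) (nat_lit 331) (nat_lit 258) (nat_lit 191)) (XT.lf (nat_lit 0) (nat_lit 1562658690717) (nat_lit 152) (nat_lit 17886744794798) (nat_lit 0) (nat_lit 1558195476719) (nat_lit 1) (nat_lit 5) (nat_lit 3) (nat_lit 4) (nat_lit 1) (nat_lit 4) (nat_lit 332) (nat_lit 258) (nat_lit 190))) (XT.nd (nat_lit 78) (nat_lit 0) (nat_lit 0) (XT.lf (nat_lit 0) (nat_lit 1807480036497) (nat_lit 152) (nat_lit 20546575894681) (nat_lit 0) (nat_lit 1803016779086) (nat_lit 1) (nat_lit 5) (nat_lit 3) (nat_lit 4) (nat_lit 1) (nat_lit 4) (nat_lit 333) (nat_lit 258) (nat_lit 189)) (XT.nd (nat_lit 78) (nat_lit 0) (nat_lit 0) (XT.lf (nat_lit 0) (nat_lit 2089024382479) (nat_lit 152) (nat_lit 23605382080997) (nat_lit 0) (nat_lit 2084561087317) (nat_lit 1) (nat_lit 5) (nat_lit 3) (nat_lit 4) (nat_lit 1) (nat_lit 4) (nat_lit 334) (nat_lit 258) (nat_lit 188)) (XT.lf (nat_lit 0) (nat_lit 2412800204995)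 (nat_lit 152) (nat_lit 27123009561737) (nat_lit 0) (nat_lit 2408336877007) (nat_lit 1) (nat_lit 5) (nat_lit 3) (nat_lit 4) (nat_lit 1) (nat_lit 4) (nat_lit 335) (nat_lit 258) (nat_lit 187)))))) (XT.nd (nat_lit 390) (nat_lit 0) (nat_lit 0) (XT.nd (nat_lit 156) (nat_lit 0) (nat_lit 0) (XT.nd (nat_lit 78) (nat_lit 0) (nat_lit 0) (XT.lf (nat_lit 0) (nat_lit 2785142248400) (nat_lit 152) (nat_lit 31168281483265) (nat_lit 0) (nat_lit 2780678891867) (nat_lit 1) (nat_lit 5) (nat_lit 3) (nat_lit 4) (nat_lit 1) (nat_lit 4) (nat_lit 336) (nat_lit 258) (nat_lit 186)) (XT.lf (nat_lit 0) (nat_lit 3213335465718) (nat_lit 152) (nat_lit 35820344470132) (nat_lit 0) (nat_lit 3208872084363) (nat_lit 1) (nat_lit 5) (nat_lit 3) (nat_lit 4) (nat_lit 1) (nat_lit 4) (nat_lit 337) (nat_lit 258) (nat_lit 185))) (XT.nd (nat_lit 78) (nat_lit 0) (nat_lit 0) (XT.lf (nat_lit 0) (nat_lit 3705757550329) (nat_lit 152)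 (nat_lit 41170217145994) (nat_lit 0) (nat_lit 3701294147390) (nat_lit 1) (nat_lit 5) (nat_lit 3) (nat_lit 4) (nat_lit 1) (nat_lit 4) (nat_lit 338) (nat_lit 258) (nat_lit 184)) (XT.nd (nat_lit 78) (nat_lit 0) (nat_lit 0) (XT.lf (nat_lit 0) (nat_lit 4272042847369) (nat_lit 152) (nat_lit 47322570932770) (nat_lit 0) (nat_lit 4267579425661) (nat_lit 1) (nat_lit 5) (nat_lit 3) (nat_lit 4) (nat_lit 1) (nat_lit 4) (nat_lit 339) (nat_lit 258) (nat_lit 183)) (XT.lf (nat_lit 0) (nat_lit 4923270851778) (nat_lit 152) (nat_lit 54397777969767) (nat_lit 0) (nat_lit 4918807413750) (nat_lit 1) (nat_lit 5) (nat_lit 3) (nat_lit 4) (nat_lit 1) (nat_lit 4) (nat_lit 340) (nat_lit 258) (nat_lit 182))))) (XT.nd (nat_lit 156) (nat_lit 0) (nat_lit 0) (XT.nd (nat_lit 78) (nat_lit 0) (nat_lit 0) (XT.lf (nat_lit 0) (nat_lit 5672182981035) (nat_lit 152) (nat_lit 62534266220751) (nat_lit 0) (nat_lit 5667719528816)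 (nat_lit 1) (nat_lit 5) (nat_lit 3) (nat_lit 4) (nat_lit 1) (nat_lit 4) (nat_lit 341) (nat_lit 258) (nat_lit 181)) (XT.lf (nat_lit 0) (nat_lit 6533431863756) (nat_lit 152) (nat_lit 71891227847156) (nat_lit 0) (nat_lit 6528968399196) (nat_lit 1) (nat_lit 5) (nat_lit 3) (nat_lit 4) (nat_lit 1) (nat_lit 4) (nat_lit 342) (nat_lit 258) (nat_lit 180))) (XT.nd (nat_lit 78) (nat_lit 0) (nat_lit 0) (XT.lf (nat_lit 0) (nat_lit 7523868021559) (nat_lit 152) (nat_lit 82651733837324) (nat_lit 0) (nat_lit 7519404546267) (nat_lit 1) (nat_lit 5) (nat_lit 3) (nat_lit 4) (nat_lit 1) (nat_lit 4) (nat_lit 343) (nat_lit 258) (nat_lit 179)) (XT.nd (nat_lit 78) (nat_lit 0) (nat_lit 0) (XT.lf (nat_lit 0) (nat_lit 8662869553183) (nat_lit 152) (nat_lit 95026315830192) (nat_lit 0) (nat_lit 8658406068560) (nat_lit 1) (nat_lit 5) (nat_lit 3) (nat_lit 4) (nat_lit 1) (nat_lit 4) (nat_lit 344) (nat_lit 258) (nat_lit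 178)) (XT.lf (nat_lit 0) (nat_lit 9972721271204) (nat_lit 152) (nat_lit 109257085212579) (nat_lit 0) (nat_lit 9968257778467) (nat_lit 1) (nat_lit 5) (nat_lit 3) (nat_lit 4) (nat_lit 1) (nat_lit 4) (nat_lit 345) (nat_lit 258) (nat_lit 177))))))))
noncomputable def xc45 : XT := (XT.nd (nat_lit 1560) (nat_lit 532) (nat_lit 0) (XT.nd (nat_lit 780) (nat_lit 760) (nat_lit 0) (XT.nd (nat_lit 390) (nat_lit 608) (nat_lit 0) (XT.nd (nat_lit 156) (nat_lit 456) (nat_lit 0) (XT.nd (nat_lit 78) (nat_lit 76) (nat_lit 0) (XT.lf (nat_lit 0) (nat_lit 185327039) (nat_lit 76) (nat_lit 1539263969) (nat_lit 76) (nat_lit 1539263969) (nat_lit 35) (nat_lit 4) (nat_lit 36) (nat_lit 5) (nat_lit 36) (nat_lit 4) (nat_lit 262) (nat_lit 259) (nat_lit 259)) (XT.lf (nat_lit 0) (nat_lit 63556823) (nat_lit 152) (nat_lit 2218683667) (nat_lit 76) (nat_lit 4376948512) (nat_lit 34) (nat_lit 5) (nat_lit 36) (nat_lit 5) (nat_lit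 35) (nat_lit 4) (nat_lit 263) (nat_lit 259) (nat_lit 258))) (XT.nd (nat_lit 78) (nat_lit 304) (nat_lit 0) (XT.lf (nat_lit 0) (nat_lit 1945906961) (nat_lit 152) (nat_lit 1007279814) (nat_lit 228) (nat_lit 3898461457) (nat_lit 32) (nat_lit 5) (nat_lit 34) (nat_lit 5) (nat_lit 35) (nat_lit 4) (nat_lit 264) (nat_lit 259) (nat_lit 257)) (XT.nd (nat_lit 78) (nat_lit 304) (nat_lit 0) (XT.lf (nat_lit 0) (nat_lit 5978736619) (nat_lit 228) (nat_lit 539586741) (nat_lit 0) (nat_lit 600986094) (nat_lit 32) (nat_lit 5) (nat_lit 35) (nat_lit 4) (nat_lit 32) (nat_lit 4) (nat_lit 265) (nat_lit 259) (nat_lit 256)) (XT.lf (nat_lit 0) (nat_lit 1692788725) (nat_lit 304) (nat_lit 3084922814) (nat_lit 76) (nat_lit 2661691718) (nat_lit 28) (nat_lit 5) (nat_lit 32) (nat_lit 5) (nat_lit 29) (nat_lit 4) (nat_lit 266) (nat_lit 259) (nat_lit 255))))) (XT.nd (nat_lit 156) (nat_lit 304) (nat_lit 0) (XT.nd (nat_lit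 78) (nat_lit 0) (nat_lit 0) (XT.lf (nat_lit 0) (nat_lit 1952971205) (nat_lit 304) (nat_lit 2627682504) (nat_lit 380) (nat_lit 3257890336) (nat_lit 24) (nat_lit 5) (nat_lit 28) (nat_lit 5) (nat_lit 29) (nat_lit 4) (nat_lit 267) (nat_lit 259) (nat_lit 254)) (XT.lf (nat_lit 0) (nat_lit 7706414168) (nat_lit 304) (nat_lit 23875579) (nat_lit 380) (nat_lit 593952014) (nat_lit 24) (nat_lit 5) (nat_lit 28) (nat_lit 5) (nat_lit 29) (nat_lit 4) (nat_lit 268) (nat_lit 259) (nat_lit 253))) (XT.nd (nat_lit 78) (nat_lit 76) (nat_lit 0) (XT.lf (nat_lit 0) (nat_lit 2307874720) (nat_lit 228) (nat_lit 3559082300) (nat_lit 76) (nat_lit 2992511518) (nat_lit 21) (nat_lit 5) (nat_lit 24) (nat_lit 5) (nat_lit 22) (nat_lit 4) (nat_lit 269) (nat_lit 259) (nat_lit 252)) (XT.nd (nat_lit 78) (nat_lit 0) (nat_lit 0) (XT.lf (nat_lit 0) (nat_lit 2508363525) (nat_lit 76) (nat_lit 2932989265) (nat_lit 152) (nat_lit 4051446776)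 (nat_lit 20) (nat_lit 5) (nat_lit 21) (nat_lit 5) (nat_lit 22) (nat_lit 4) (nat_lit 270) (nat_lit 259) (nat_lit 251)) (XT.lf (nat_lit 0) (nat_lit 8993084682) (nat_lit 152) (nat_lit 741323883) (nat_lit 0) (nat_lit 495044042) (nat_lit 20) (nat_lit 5) (nat_lit 22) (nat_lit 4) (nat_lit 20) (nat_lit 4) (nat_lit 271) (nat_lit 259) (nat_lit 250)))))) (XT.nd (nat_lit 390) (nat_lit 228) (nat_lit 0) (XT.nd (nat_lit 156) (nat_lit 228) (nat_lit 0) (XT.nd (nat_lit 78) (nat_lit 76) (nat_lit 0) (XT.lf (nat_lit 0) (nat_lit 2010444323) (nat_lit 228) (nat_lit 4615813519) (nat_lit 76) (nat_lit 4410196867) (nat_lit 17) (nat_lit 5) (nat_lit 20) (nat_lit 5) (nat_lit 18) (nat_lit 4) (nat_lit 272) (nat_lit 259) (nat_lit 249)) (XT.lf (nat_lit 0) (nat_lit 2591422878) (nat_lit 76) (nat_lit 2949274238) (nat_lit 152) (nat_lit 6426895278) (nat_lit 16) (nat_lit 5) (nat_lit 17) (nat_lit 5) (nat_lit 18) (nat_lit 4)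 (nat_lit 273) (nat_lit 259) (nat_lit 248))) (XT.nd (nat_lit 78) (nat_lit 228) (nat_lit 0) (XT.lf (nat_lit 0) (nat_lit 9690884753) (nat_lit 152) (nat_lit 2038130834) (nat_lit 0) (nat_lit 1296144172) (nat_lit 16) (nat_lit 5) (nat_lit 18) (nat_lit 4) (nat_lit 16) (nat_lit 4) (nat_lit 274) (nat_lit 259) (nat_lit 247)) (XT.nd (nat_lit 78) (nat_lit 76) (nat_lit 0) (XT.lf (nat_lit 0) (nat_lit 435940631) (nat_lit 152) (nat_lit 7709170110) (nat_lit 76) (nat_lit 6060088882) (nat_lit 14) (nat_lit 5) (nat_lit 16) (nat_lit 5) (nat_lit 15) (nat_lit 4) (nat_lit 275) (nat_lit 259) (nat_lit 246)) (XT.lf (nat_lit 0) (nat_lit 553225477) (nat_lit 76) (nat_lit 3827490407) (nat_lit 152) (nat_lit 11165363768) (nat_lit 13) (nat_lit 5) (nat_lit 14) (nat_lit 5) (nat_lit 15) (nat_lit 4) (nat_lit 276) (nat_lit 259) (nat_lit 245))))) (XT.nd (nat_lit 156) (nat_lit 152) (nat_lit 0) (XT.nd (nat_lit 78) (nat_lit 76)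 (nat_lit 0) (XT.lf (nat_lit 0) (nat_lit 9207827115) (nat_lit 152) (nat_lit 6503493134) (nat_lit 0) (nat_lit 1333360625) (nat_lit 13) (nat_lit 5) (nat_lit 15) (nat_lit 4) (nat_lit 13) (nat_lit 4) (nat_lit 277) (nat_lit 259) (nat_lit 244)) (XT.lf (nat_lit 0) (nat_lit 3061828736) (nat_lit 76) (nat_lit 11850863364) (nat_lit 76) (nat_lit 3832485503) (nat_lit 12) (nat_lit 4) (nat_lit 13) (nat_lit 5) (nat_lit 13) (nat_lit 4) (nat_lit 278) (nat_lit 259) (nat_lit 243))) (XT.nd (nat_lit 78) (nat_lit 76) (nat_lit 0) (XT.lf (nat_lit 0) (nat_lit 906336588) (nat_lit 152) (nat_lit 6194894518) (nat_lit 76) (nat_lit 13564452833) (nat_lit 11) (nat_lit 5) (nat_lit 13) (nat_lit 5) (nat_lit 12) (nat_lit 4) (nat_lit 279) (nat_lit 259) (nat_lit 242)) (XT.nd (nat_lit 78) (nat_lit 0) (nat_lit 0) (XT.lf (nat_lit 0) (nat_lit 4700815316) (nat_lit 76) (nat_lit 1323906159) (nat_lit 152) (nat_lit 16813107046) (nat_lit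 10) (nat_lit 5) (nat_lit 11) (nat_lit 5) (nat_lit 12) (nat_lit 4) (nat_lit 280) (nat_lit 259) (nat_lit 241)) (XT.lf (nat_lit 0) (nat_lit 12339577928) (nat_lit 152) (nat_lit 7850648430) (nat_lit 0) (nat_lit 5081351912) (nat_lit 10) (nat_lit 5) (nat_lit 12) (nat_lit 4) (nat_lit 10) (nat_lit 4) (nat_lit 281) (nat_lit 259) (nat_lit 240))))))) (XT.nd (nat_lit 780) (nat_lit 76) (nat_lit 0) (XT.nd (nat_lit 390) (nat_lit 228) (nat_lit 0) (XT.nd (nat_lit 156) (nat_lit 152) (nat_lit 0) (XT.nd (nat_lit 78) (nat_lit 0) (nat_lit 0) (XT.lf (nat_lit 0) (nat_lit 4055054496) (nat_lit 76) (nat_lit 15663805296) (nat_lit 76) (nat_lit 8334029894) (nat_lit 9) (nat_lit 4) (nat_lit 10) (nat_lit 5) (nat_lit 10) (nat_lit 4) (nat_lit 282) (nat_lit 259) (nat_lit 239)) (XT.lf (nat_lit 0) (nat_lit 18417408212) (nat_lit 76) (nat_lit 10090322880) (nat_lit 76) (nat_lit 2698330622) (nat_lit 9) (nat_lit 4) (nat_lit 10)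 (nat_lit 5) (nat_lit 10) (nat_lit 4) (nat_lit 283) (nat_lit 259) (nat_lit 238))) (XT.nd (nat_lit 78) (nat_lit 76) (nat_lit 0) (XT.lf (nat_lit 0) (nat_lit 3347813653) (nat_lit 152) (nat_lit 248294518) (nat_lit 76) (nat_lit 31227379827) (nat_lit 8) (nat_lit 5) (nat_lit 10) (nat_lit 5) (nat_lit 9) (nat_lit 4) (nat_lit 284) (nat_lit 259) (nat_lit 237)) (XT.nd (nat_lit 78) (nat_lit 0) (nat_lit 0) (XT.lf (nat_lit 0) (nat_lit 10763078490) (nat_lit 152) (nat_lit 23843146823) (nat_lit 0) (nat_lit 4247305658) (nat_lit 7) (nat_lit 5) (nat_lit 9) (nat_lit 4) (nat_lit 7) (nat_lit 4) (nat_lit 285) (nat_lit 259) (nat_lit 236)) (XT.lf (nat_lit 0) (nat_lit 19391303843) (nat_lit 152) (nat_lit 11241756755) (nat_lit 0) (nat_lit 12839958322) (nat_lit 7) (nat_lit 5) (nat_lit 9) (nat_lit 4) (nat_lit 7) (nat_lit 4) (nat_lit 286) (nat_lit 259) (nat_lit 235))))) (XT.nd (nat_lit 156) (nat_lit 152) (nat_lit 0)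 (XT.nd (nat_lit 78) (nat_lit 0) (nat_lit 0) (XT.lf (nat_lit 0) (nat_lit 3405614517) (nat_lit 76) (nat_lit 25975976817) (nat_lit 76) (nat_lit 19393698522) (nat_lit 6) (nat_lit 4) (nat_lit 7) (nat_lit 5) (nat_lit 7) (nat_lit 4) (nat_lit 287) (nat_lit 259) (nat_lit 234)) (XT.lf (nat_lit 0) (nat_lit 21372793832) (nat_lit 76) (nat_lit 20015794316) (nat_lit 76) (nat_lit 13406617957) (nat_lit 6) (nat_lit 4) (nat_lit 7) (nat_lit 5) (nat_lit 7) (nat_lit 4) (nat_lit 288) (nat_lit 259) (nat_lit 233))) (XT.nd (nat_lit 78) (nat_lit 152) (nat_lit 0) (XT.lf (nat_lit 0) (nat_lit 41912686729) (nat_lit 76) (nat_lit 13223538115) (nat_lit 76) (nat_lit 6590972135) (nat_lit 6) (nat_lit 4) (nat_lit 7) (nat_lit 5) (nat_lit 7) (nat_lit 4) (nat_lit 289) (nat_lit 259) (nat_lit 232)) (XT.nd (nat_lit 78) (nat_lit 76) (nat_lit 0) (XT.lf (nat_lit 0) (nat_lit 1080950218) (nat_lit 152) (nat_lit 4328861810) (nat_lit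 76) (nat_lit 64289706243) (nat_lit 5) (nat_lit 5) (nat_lit 7) (nat_lit 5) (nat_lit 6) (nat_lit 4) (nat_lit 290) (nat_lit 259) (nat_lit 231)) (XT.lf (nat_lit 0) (nat_lit 9964287501) (nat_lit 152) (nat_lit 64582252472) (nat_lit 0) (nat_lit 4163773853) (nat_lit 4) (nat_lit 5) (nat_lit 6) (nat_lit 4) (nat_lit 4) (nat_lit 4) (nat_lit 291) (nat_lit 259) (nat_lit 230)))))) (XT.nd (nat_lit 390) (nat_lit 0) (nat_lit 0) (XT.nd (nat_lit 156) (nat_lit 76) (nat_lit 0) (XT.nd (nat_lit 78) (nat_lit 0) (nat_lit 0) (XT.lf (nat_lit 0) (nat_lit 20627362482) (nat_lit 152) (nat_lit 53564819638) (nat_lit 0) (nat_lit 14813475743) (nat_lit 4) (nat_lit 5) (nat_lit 6) (nat_lit 4) (nat_lit 4) (nat_lit 4) (nat_lit 292) (nat_lit 259) (nat_lit 229)) (XT.lf (nat_lit 0) (nat_lit 32848655487) (nat_lit 152) (nat_lit 40979707329) (nat_lit 0) (nat_lit 27023139972) (nat_lit 4) (nat_lit 5) (nat_lit 6) (nat_lit 4) (nat_lit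 4) (nat_lit 4) (nat_lit 293) (nat_lit 259) (nat_lit 228))) (XT.nd (nat_lit 78) (nat_lit 76) (nat_lit 0) (XT.lf (nat_lit 0) (nat_lit 46867278770) (nat_lit 152) (nat_lit 26580685087) (nat_lit 0) (nat_lit 41031651276) (nat_lit 4) (nat_lit 5) (nat_lit 6) (nat_lit 4) (nat_lit 4) (nat_lit 4) (nat_lit 294) (nat_lit 259) (nat_lit 227)) (XT.nd (nat_lit 78) (nat_lit 76) (nat_lit 0) (XT.lf (nat_lit 0) (nat_lit 62957509742) (nat_lit 152) (nat_lit 10086032912) (nat_lit 0) (nat_lit 57113089223) (nat_lit 4) (nat_lit 5) (nat_lit 6) (nat_lit 4) (nat_lit 4) (nat_lit 4) (nat_lit 295) (nat_lit 259) (nat_lit 226)) (XT.lf (nat_lit 0) (nat_lit 9689606420) (nat_lit 76) (nat_lit 72145776789) (nat_lit 76) (nat_lit 66293710161) (nat_lit 3) (nat_lit 4) (nat_lit 4) (nat_lit 5) (nat_lit 4) (nat_lit 4) (nat_lit 296) (nat_lit 259) (nat_lit 225))))) (XT.nd (nat_lit 234) (nat_lit 0) (nat_lit 0) (XT.nd (nat_lit 78) (nat_lit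 0) (nat_lit 0) (XT.lf (nat_lit 0) (nat_lit 33511816252) (nat_lit 76) (nat_lit 70534557575) (nat_lit 76) (nat_lit 64675842157) (nat_lit 3) (nat_lit 4) (nat_lit 4) (nat_lit 5) (nat_lit 4) (nat_lit 4) (nat_lit 297) (nat_lit 259) (nat_lit 224)) (XT.nd (nat_lit 78) (nat_lit 0) (nat_lit 0) (XT.lf (nat_lit 0) (nat_lit 60861002810) (nat_lit 76) (nat_lit 68705585606) (nat_lit 76) (nat_lit 62841088632) (nat_lit 3) (nat_lit 4) (nat_lit 4) (nat_lit 5) (nat_lit 4) (nat_lit 4) (nat_lit 298) (nat_lit 259) (nat_lit 223)) (XT.lf (nat_lit 0) (nat_lit 92272258872) (nat_lit 76) (nat_lit 66623076649) (nat_lit 76) (nat_lit 60753552234) (nat_lit 3) (nat_lit 4) (nat_lit 4) (nat_lit 5) (nat_lit 4) (nat_lit 4) (nat_lit 299) (nat_lit 259) (nat_lit 222)))) (XT.nd (nat_lit 78) (nat_lit 0) (nat_lit 0) (XT.lf (nat_lit 0) (nat_lit 128360152493) (nat_lit 76) (nat_lit 64246285962) (nat_lit 76) (nat_lit 58372389860) (nat_lit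 3) (nat_lit 4) (nat_lit 4) (nat_lit 5) (nat_lit 4) (nat_lit 4) (nat_lit 300) (nat_lit 259) (nat_lit 221)) (XT.nd (nat_lit 78) (nat_lit 0) (nat_lit 0) (XT.lf (nat_lit 0) (nat_lit 169830751156) (nat_lit 76) (nat_lit 61528711119) (nat_lit 76) (nat_lit 55651013550) (nat_lit 3) (nat_lit 4) (nat_lit 4) (nat_lit 5) (nat_lit 4) (nat_lit 4) (nat_lit 301) (nat_lit 259) (nat_lit 220)) (XT.lf (nat_lit 0) (nat_lit 217495436140) (nat_lit 76) (nat_lit 58417182178) (nat_lit 76) (nat_lit 52536178984) (nat_lit 3) (nat_lit 4) (nat_lit 4) (nat_lit 5) (nat_lit 4) (nat_lit 4) (nat_lit 302) (nat_lit 259) (nat_lit 219))))))))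
noncomputable def xc46 : XT := (XT.nd (nat_lit 1560) (nat_lit 0) (nat_lit 0) (XT.nd (nat_lit 780) (nat_lit 0) (nat_lit 0) (XT.nd (nat_lit 390) (nat_lit 152) (nat_lit 0) (XT.nd (nat_lit 156) (nat_lit 0) (nat_lit 0) (XT.nd (nat_lit 78) (nat_lit 0) (nat_lit 0) (XT.lf (nat_lit 0) (nat_lit 272286777368) (nat_lit 76) (nat_lit 54850821398) (nat_lit 76) (nat_lit 48966943749) (nat_lit 3) (nat_lit 4) (nat_lit 4) (nat_lit 5) (nat_lit 4) (nat_lit 4) (nat_lit 303) (nat_lit 259) (nat_lit 218)) (XT.lf (nat_lit 0) (nat_lit 335276779343) (nat_lit 76) (nat_lit 50759852155) (nat_lit 76) (nat_lit 44873474980) (nat_lit 3) (nat_lit 4) (nat_lit 4) (nat_lit 5) (nat_lit 4) (nat_lit 4) (nat_lit 304) (nat_lit 259) (nat_lit 217))) (XT.nd (nat_lit 78) (nat_lit 0) (nat_lit 0) (XT.lf (nat_lit 0) (nat_lit 407697855146) (nat_lit 76) (nat_lit 46064233748) (nat_lit 76) (nat_lit 40175683071) (nat_lit 3) (nat_lit 4) (nat_lit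 4) (nat_lit 5) (nat_lit 4) (nat_lit 4) (nat_lit 305) (nat_lit 259) (nat_lit 216)) (XT.nd (nat_lit 78) (nat_lit 0) (nat_lit 0) (XT.lf (nat_lit 0) (nat_lit 490966938870) (nat_lit 76) (nat_lit 40672095380) (nat_lit 76) (nat_lit 34781654702) (nat_lit 3) (nat_lit 4) (nat_lit 4) (nat_lit 5) (nat_lit 4) (nat_lit 4) (nat_lit 306) (nat_lit 259) (nat_lit 215)) (XT.lf (nat_lit 0) (nat_lit 586713208239) (nat_lit 76) (nat_lit 34477938693) (nat_lit 76) (nat_lit 28585854536) (nat_lit 3) (nat_lit 4) (nat_lit 4) (nat_lit 5) (nat_lit 4) (nat_lit 4) (nat_lit 307) (nat_lit 259) (nat_lit 214))))) (XT.nd (nat_lit 156) (nat_lit 152) (nat_lit 0) (XT.nd (nat_lit 78) (nat_lit 0) (nat_lit 0) (XT.lf (nat_lit 0) (nat_lit 696809959828) (nat_lit 76) (nat_lit 27360573664) (nat_lit 76) (nat_lit 21467060395) (nat_lit 3) (nat_lit 4) (nat_lit 4) (nat_lit 5) (nat_lit 4) (nat_lit 4) (nat_lit 308) (nat_lit 259) (nat_lit 213))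 (XT.lf (nat_lit 0) (nat_lit 823411260516) (nat_lit 76) (nat_lit 19180747500) (nat_lit 76) (nat_lit 13285991524) (nat_lit 3) (nat_lit 4) (nat_lit 4) (nat_lit 5) (nat_lit 4) (nat_lit 4) (nat_lit 309) (nat_lit 259) (nat_lit 212))) (XT.nd (nat_lit 78) (nat_lit 152) (nat_lit 0) (XT.lf (nat_lit 0) (nat_lit 968994092273) (nat_lit 76) (nat_lit 9778420123) (nat_lit 76) (nat_lit 3882583533) (nat_lit 3) (nat_lit 4) (nat_lit 4) (nat_lit 5) (nat_lit 4) (nat_lit 4) (nat_lit 310) (nat_lit 259) (nat_lit 211)) (XT.nd (nat_lit 78) (nat_lit 0) (nat_lit 0) (XT.lf (nat_lit 0) (nat_lit 6732035467) (nat_lit 152) (nat_lit 1120006600205) (nat_lit 0) (nat_lit 1604403942) (nat_lit 1) (nat_lit 5) (nat_lit 3) (nat_lit 4) (nat_lit 1) (nat_lit 4) (nat_lit 311) (nat_lit 259) (nat_lit 210)) (XT.lf (nat_lit 0) (nat_lit 19751290690) (nat_lit 152) (nat_lit 1261300711668) (nat_lit 0) (nat_lit 14622948643) (nat_lit 1) (nat_lit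 5) (nat_lit 3) (nat_lit 4) (nat_lit 1) (nat_lit 4) (nat_lit 312) (nat_lit 259) (nat_lit 209)))))) (XT.nd (nat_lit 390) (nat_lit 0) (nat_lit 0) (XT.nd (nat_lit 156) (nat_lit 0) (nat_lit 0) (XT.nd (nat_lit 78) (nat_lit 0) (nat_lit 0) (XT.lf (nat_lit 0) (nat_lit 34720133618) (nat_lit 152) (nat_lit 1423795837516) (nat_lit 0) (nat_lit 29591173726) (nat_lit 1) (nat_lit 5) (nat_lit 3) (nat_lit 4) (nat_lit 1) (nat_lit 4) (nat_lit 313) (nat_lit 259) (nat_lit 208)) (XT.lf (nat_lit 0) (nat_lit 51931432917) (nat_lit 152) (nat_lit 1610671230212) (nat_lit 0) (nat_lit 46801935769) (nat_lit 1) (nat_lit 5) (nat_lit 3) (nat_lit 4) (nat_lit 1) (nat_lit 4) (nat_lit 314) (nat_lit 259) (nat_lit 207))) (XT.nd (nat_lit 78) (nat_lit 0) (nat_lit 0) (XT.lf (nat_lit 0) (nat_lit 71721931402) (nat_lit 152) (nat_lit 1825583147440) (nat_lit 0) (nat_lit 66591967074) (nat_lit 1) (nat_lit 5) (nat_lit 3) (nat_lit 4) (nat_lit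 1) (nat_lit 4) (nat_lit 315) (nat_lit 259) (nat_lit 206)) (XT.nd (nat_lit 78) (nat_lit 0) (nat_lit 0) (XT.lf (nat_lit 0) (nat_lit 94478834475) (nat_lit 152) (nat_lit 2072736387580) (nat_lit 0) (nat_lit 89348463905) (nat_lit 1) (nat_lit 5) (nat_lit 3) (nat_lit 4) (nat_lit 1) (nat_lit 4) (nat_lit 316) (nat_lit 259) (nat_lit 205)) (XT.lf (nat_lit 0) (nat_lit 120647385894) (nat_lit 152) (nat_lit 2356966557504) (nat_lit 0) (nat_lit 115516662069) (nat_lit 1) (nat_lit 5) (nat_lit 3) (nat_lit 4) (nat_lit 1) (nat_lit 4) (nat_lit 317) (nat_lit 259) (nat_lit 204))))) (XT.nd (nat_lit 156) (nat_lit 0) (nat_lit 0) (XT.nd (nat_lit 78) (nat_lit 0) (nat_lit 0) (XT.lf (nat_lit 0) (nat_lit 150739579055) (nat_lit 152) (nat_lit 2683834682276) (nat_lit 0) (nat_lit 145608548052) (nat_lit 1) (nat_lit 5) (nat_lit 3) (nat_lit 4) (nat_lit 1) (nat_lit 4) (nat_lit 318) (nat_lit 259) (nat_lit 203)) (XT.lf (nat_lit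 0) (nat_lit 185344174260) (nat_lit 152) (nat_lit 3059736007816) (nat_lit 0) (nat_lit 180212876145) (nat_lit 1) (nat_lit 5) (nat_lit 3) (nat_lit 4) (nat_lit 1) (nat_lit 4) (nat_lit 319) (nat_lit 259) (nat_lit 202))) (XT.nd (nat_lit 78) (nat_lit 0) (nat_lit 0) (XT.lf (nat_lit 0) (nat_lit 225138217936) (nat_lit 152) (nat_lit 3492025125275) (nat_lit 0) (nat_lit 220006687550) (nat_lit 1) (nat_lit 5) (nat_lit 3) (nat_lit 4) (nat_lit 1) (nat_lit 4) (nat_lit 320) (nat_lit 259) (nat_lit 201)) (XT.nd (nat_lit 78) (nat_lit 0) (nat_lit 0) (XT.lf (nat_lit 0) (nat_lit 270900289198) (nat_lit 152) (nat_lit 3989159865211) (nat_lit 0) (nat_lit 265768556839) (nat_lit 1) (nat_lit 5) (nat_lit 3) (nat_lit 4) (nat_lit 1) (nat_lit 4) (nat_lit 321) (nat_lit 259) (nat_lit 200)) (XT.lf (nat_lit 0) (nat_lit 323525732920) (nat_lit 152) (nat_lit 4560866776886) (nat_lit 0) (nat_lit 318393824931) (nat_lit 1) (nat_lit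 5) (nat_lit 3) (nat_lit 4) (nat_lit 1) (nat_lit 4) (nat_lit 322) (nat_lit 259) (nat_lit 199))))))) (XT.nd (nat_lit 780) (nat_lit 0) (nat_lit 0) (XT.nd (nat_lit 390) (nat_lit 0) (nat_lit 0) (XT.nd (nat_lit 156) (nat_lit 0) (nat_lit 0) (XT.nd (nat_lit 78) (nat_lit 0) (nat_lit 0) (XT.lf (nat_lit 0) (nat_lit 384044177348) (nat_lit 152) (nat_lit 5218331430310) (nat_lit 0) (nat_lit 378912116637) (nat_lit 1) (nat_lit 5) (nat_lit 3) (nat_lit 4) (nat_lit 1) (nat_lit 4) (nat_lit 323) (nat_lit 259) (nat_lit 198)) (XT.lf (nat_lit 0) (nat_lit 453639679004) (nat_lit 152) (nat_lit 5974417264354) (nat_lit 0) (nat_lit 448507485491) (nat_lit 1) (nat_lit 5) (nat_lit 3) (nat_lit 4) (nat_lit 1) (nat_lit 4) (nat_lit 324) (nat_lit 259) (nat_lit 197))) (XT.nd (nat_lit 78) (nat_lit 0) (nat_lit 0) (XT.lf (nat_lit 0) (nat_lit 533673889006) (nat_lit 152) (nat_lit 6843917262728) (nat_lit 0) (nat_lit 528541580014)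 (nat_lit 1) (nat_lit 5) (nat_lit 3) (nat_lit 4) (nat_lit 1) (nat_lit 4) (nat_lit 325) (nat_lit 259) (nat_lit 196)) (XT.nd (nat_lit 78) (nat_lit 0) (nat_lit 0) (XT.lf (nat_lit 0) (nat_lit 625712694073) (nat_lit 152) (nat_lit 7843843381921) (nat_lit 0) (nat_lit 620580284664) (nat_lit 1) (nat_lit 5) (nat_lit 3) (nat_lit 4) (nat_lit 1) (nat_lit 4) (nat_lit 326) (nat_lit 259) (nat_lit 195)) (XT.lf (nat_lit 0) (nat_lit 731556853434) (nat_lit 152) (nat_lit 8993759393832) (nat_lit 0) (nat_lit 726424356705) (nat_lit 1) (nat_lit 5) (nat_lit 3) (nat_lit 4) (nat_lit 1) (nat_lit 4) (nat_lit 327) (nat_lit 259) (nat_lit 194))))) (XT.nd (nat_lit 156) (nat_lit 0) (nat_lit 0) (XT.nd (nat_lit 78) (nat_lit 0) (nat_lit 0) (XT.lf (nat_lit 0) (nat_lit 853277231075) (nat_lit 152) (nat_lit 10316163655214) (nat_lit 0) (nat_lit 848144658417) (nat_lit 1) (nat_lit 5) (nat_lit 3) (nat_lit 4) (nat_lit 1) (nat_lit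 4) (nat_lit 328) (nat_lit 259) (nat_lit 193)) (XT.lf (nat_lit 0) (nat_lit 993255312648) (nat_lit 152) (nat_lit 11836929292921) (nat_lit 0) (nat_lit 988122673964) (nat_lit 1) (nat_lit 5) (nat_lit 3) (nat_lit 4) (nat_lit 1) (nat_lit 4) (nat_lit 329) (nat_lit 259) (nat_lit 192))) (XT.nd (nat_lit 78) (nat_lit 0) (nat_lit 0) (XT.lf (nat_lit 0) (nat_lit 1154229799747) (nat_lit 152) (nat_lit 13585810417256) (nat_lit 0) (nat_lit 1149097103649) (nat_lit 1) (nat_lit 5) (nat_lit 3) (nat_lit 4) (nat_lit 1) (nat_lit 4) (nat_lit 330) (nat_lit 259) (nat_lit 191)) (XT.nd (nat_lit 78) (nat_lit 0) (nat_lit 0) (XT.lf (nat_lit 0) (nat_lit 1339350193208) (nat_lit 152) (nat_lit 15597024267608) (nat_lit 0) (nat_lit 1334217447185) (nat_lit 1) (nat_lit 5) (nat_lit 3) (nat_lit 4) (nat_lit 1) (nat_lit 4) (nat_lit 331) (nat_lit 259) (nat_lit 190)) (XT.lf (nat_lit 0) (nat_lit 1552238413772) (nat_lit 152) (nat_lit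 17909920680179) (nat_lit 0) (nat_lit 1547105624336) (nat_lit 1) (nat_lit 5) (nat_lit 3) (nat_lit 4) (nat_lit 1) (nat_lit 4) (nat_lit 332) (nat_lit 259) (nat_lit 189)))))) (XT.nd (nat_lit 390) (nat_lit 0) (nat_lit 0) (XT.nd (nat_lit 156) (nat_lit 0) (nat_lit 0) (XT.nd (nat_lit 78) (nat_lit 0) (nat_lit 0) (XT.lf (nat_lit 0) (nat_lit 1797059665754) (nat_lit 152) (nat_lit 20569751976086) (nat_lit 0) (nat_lit 1791926838567) (nat_lit 1) (nat_lit 5) (nat_lit 3) (nat_lit 4) (nat_lit 1) (nat_lit 4) (nat_lit 333) (nat_lit 259) (nat_lit 188)) (XT.lf (nat_lit 0) (nat_lit 2078603930171) (nat_lit 152) (nat_lit 23628558332856) (nat_lit 0) (nat_lit 2073471070158) (nat_lit 1) (nat_lit 5) (nat_lit 3) (nat_lit 4) (nat_lit 1) (nat_lit 4) (nat_lit 334) (nat_lit 259) (nat_lit 187))) (XT.nd (nat_lit 78) (nat_lit 0) (nat_lit 0) (XT.lf (nat_lit 0) (nat_lit 2402379681763) (nat_lit 152) (nat_lit 27146185961818)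 (nat_lit 0) (nat_lit 2397246793205) (nat_lit 1) (nat_lit 5) (nat_lit 3) (nat_lit 4) (nat_lit 1) (nat_lit 4) (nat_lit 335) (nat_lit 259) (nat_lit 186)) (XT.nd (nat_lit 78) (nat_lit 0) (nat_lit 0) (XT.lf (nat_lit 0) (nat_lit 2774721663494) (nat_lit 152) (nat_lit 31191458012235) (nat_lit 0) (nat_lit 2769588750115) (nat_lit 1) (nat_lit 5) (nat_lit 3) (nat_lit 4) (nat_lit 1) (nat_lit 4) (nat_lit 336) (nat_lit 259) (nat_lit 185)) (XT.lf (nat_lit 0) (nat_lit 3202914827182) (nat_lit 152) (nat_lit 35843521111178) (nat_lit 0) (nat_lit 3197781892219) (nat_lit 1) (nat_lit 5) (nat_lit 3) (nat_lit 4) (nat_lit 1) (nat_lit 4) (nat_lit 337) (nat_lit 259) (nat_lit 184))))) (XT.nd (nat_lit 156) (nat_lit 0) (nat_lit 0) (XT.nd (nat_lit 78) (nat_lit 0) (nat_lit 0) (XT.lf (nat_lit 0) (nat_lit 3695336865159) (nat_lit 152) (nat_lit 41193393884498) (nat_lit 0) (nat_lit 3690203911427) (nat_lit 1) (nat_lit 5) (nat_lit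 3) (nat_lit 4) (nat_lit 1) (nat_lit 4) (nat_lit 338) (nat_lit 259) (nat_lit 183)) (XT.lf (nat_lit 0) (nat_lit 4261622121647) (nat_lit 152) (nat_lit 47345747756020) (nat_lit 0) (nat_lit 4256489151595) (nat_lit 1) (nat_lit 5) (nat_lit 3) (nat_lit 4) (nat_lit 1) (nat_lit 4) (nat_lit 339) (nat_lit 259) (nat_lit 182))) (XT.nd (nat_lit 78) (nat_lit 0) (nat_lit 0) (XT.lf (nat_lit 0) (nat_lit 4912850090795) (nat_lit 152) (nat_lit 54420954866709) (nat_lit 0) (nat_lit 4907717106550) (nat_lit 1) (nat_lit 5) (nat_lit 3) (nat_lit 4) (nat_lit 1) (nat_lit 4) (nat_lit 340) (nat_lit 259) (nat_lit 181)) (XT.nd (nat_lit 78) (nat_lit 0) (nat_lit 0) (XT.lf (nat_lit 0) (nat_lit 5661762189389) (nat_lit 152) (nat_lit 62557443181774) (nat_lit 0) (nat_lit 5656629192804) (nat_lit 1) (nat_lit 5) (nat_lit 3) (nat_lit 4) (nat_lit 1) (nat_lit 4) (nat_lit 341) (nat_lit 259) (nat_lit 180)) (XT.lf (nat_lit 0) (nat_lit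 6523011045446) (nat_lit 152) (nat_lit 71914404863901) (nat_lit 0) (nat_lit 6517878038130) (nat_lit 1) (nat_lit 5) (nat_lit 3) (nat_lit 4) (nat_lit 1) (nat_lit 4) (nat_lit 342) (nat_lit 259) (nat_lit 179))))))))
noncomputable def xc47 : XT := (XT.nd (nat_lit 35490) (nat_lit 0) (nat_lit 152) (XT.nd (nat_lit 34710) (nat_lit 0) (nat_lit 988) (XT.nd (nat_lit 34320) (nat_lit 0) (nat_lit 2052) (XT.nd (nat_lit 156) (nat_lit 0) (nat_lit 0) (XT.nd (nat_lit 78) (nat_lit 0) (nat_lit 0) (XT.lf (nat_lit 0) (nat_lit 7513447180064) (nat_lit 152) (nat_lit 82674910902522) (nat_lit 0) (nat_lit 7508314163416) (nat_lit 1) (nat_lit 5) (nat_lit 3) (nat_lit 4) (nat_lit 1) (nat_lit 4) (nat_lit 343) (nat_lit 259) (nat_lit 178)) (XT.lf (nat_lit 0) (nat_lit 8652448691527) (nat_lit 152) (nat_lit 95049492937525) (nat_lit 0) (nat_lit 8647315666765) (nat_lit 1) (nat_lit 5) (nat_lit 3) (nat_lit 4) (nat_lit 1) (nat_lit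 4) (nat_lit 344) (nat_lit 259) (nat_lit 177))) (XT.nd (nat_lit 34008) (nat_lit 0) (nat_lit 2660) (XT.lf (nat_lit 0) (nat_lit 9962300392016) (nat_lit 152) (nat_lit 109280262356549) (nat_lit 0) (nat_lit 9957167360199) (nat_lit 1) (nat_lit 5) (nat_lit 3) (nat_lit 4) (nat_lit 1) (nat_lit 4) (nat_lit 345) (nat_lit 259) (nat_lit 176)) (XT.nd (nat_lit 78) (nat_lit 76) (nat_lit 0) (XT.lf (nat_lit 0) (nat_lit 1073741823) (nat_lit 0) (nat_lit 0) (nat_lit 0) (nat_lit 0) (nat_lit 37) (nat_lit 0) (nat_lit 1) (nat_lit 0) (nat_lit 1) (nat_lit 0) (nat_lit 260) (nat_lit 260) (nat_lit 260)) (XT.lf (nat_lit 0) (nat_lit 2985942628) (nat_lit 76) (nat_lit 3199930037) (nat_lit 0) (nat_lit 277312166) (nat_lit 36) (nat_lit 5) (nat_lit 37) (nat_lit 0) (nat_lit 36) (nat_lit 4) (nat_lit 261) (nat_lit 260) (nat_lit 259))))) (XT.nd (nat_lit 156) (nat_lit 456) (nat_lit 0) (XT.nd (nat_lit 78) (nat_lit 76) (nat_lit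 0) (XT.lf (nat_lit 0) (nat_lit 188037014) (nat_lit 76) (nat_lit 5721072668) (nat_lit 76) (nat_lit 657111369) (nat_lit 35) (nat_lit 4) (nat_lit 36) (nat_lit 5) (nat_lit 36) (nat_lit 4) (nat_lit 262) (nat_lit 260) (nat_lit 258)) (XT.lf (nat_lit 0) (nat_lit 2041885513) (nat_lit 152) (nat_lit 2722021216) (nat_lit 76) (nat_lit 1953792673) (nat_lit 34) (nat_lit 5) (nat_lit 36) (nat_lit 5) (nat_lit 35) (nat_lit 4) (nat_lit 263) (nat_lit 260) (nat_lit 257))) (XT.nd (nat_lit 78) (nat_lit 304) (nat_lit 0) (XT.lf (nat_lit 0) (nat_lit 1219706081) (nat_lit 152) (nat_lit 3483898405) (nat_lit 228) (nat_lit 2241533544) (nat_lit 32) (nat_lit 5) (nat_lit 34) (nat_lit 5) (nat_lit 35) (nat_lit 4) (nat_lit 264) (nat_lit 260) (nat_lit 256)) (XT.nd (nat_lit 78) (nat_lit 228) (nat_lit 0) (XT.lf (nat_lit 0) (nat_lit 254360579) (nat_lit 228) (nat_lit 1521974824) (nat_lit 76) (nat_lit 5466259859) (nat_lit 31)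 (nat_lit 5) (nat_lit 34) (nat_lit 5) (nat_lit 32) (nat_lit 5) (nat_lit 265) (nat_lit 260) (nat_lit 255)) (XT.lf (nat_lit 0) (nat_lit 2696476024) (nat_lit 304) (nat_lit 4453341655) (nat_lit 76) (nat_lit 449763996) (nat_lit 28) (nat_lit 5) (nat_lit 32) (nat_lit 5) (nat_lit 29) (nat_lit 4) (nat_lit 266) (nat_lit 260) (nat_lit 254)))))) (XT.nd (nat_lit 390) (nat_lit 456) (nat_lit 0) (XT.nd (nat_lit 156) (nat_lit 304) (nat_lit 0) (XT.nd (nat_lit 78) (nat_lit 0) (nat_lit 0) (XT.lf (nat_lit 0) (nat_lit 270895677) (nat_lit 304) (nat_lit 5096516091) (nat_lit 380) (nat_lit 2664303338) (nat_lit 24) (nat_lit 5) (nat_lit 28) (nat_lit 5) (nat_lit 29) (nat_lit 4) (nat_lit 267) (nat_lit 260) (nat_lit 253)) (XT.lf (nat_lit 0) (nat_lit 5867882253) (nat_lit 304) (nat_lit 2514619133) (nat_lit 380) (nat_lit 155487537) (nat_lit 24) (nat_lit 5) (nat_lit 28) (nat_lit 5) (nat_lit 29) (nat_lit 4) (nat_lit 268)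 (nat_lit 260) (nat_lit 252))) (XT.nd (nat_lit 78) (nat_lit 76) (nat_lit 0) (XT.lf (nat_lit 0) (nat_lit 2375440273) (nat_lit 228) (nat_lit 6131462157) (nat_lit 76) (nat_lit 613667481) (nat_lit 21) (nat_lit 5) (nat_lit 24) (nat_lit 5) (nat_lit 22) (nat_lit 4) (nat_lit 269) (nat_lit 260) (nat_lit 251)) (XT.nd (nat_lit 78) (nat_lit 76) (nat_lit 0) (XT.lf (nat_lit 0) (nat_lit 5291139463) (nat_lit 228) (nat_lit 444910658) (nat_lit 76) (nat_lit 4050776800) (nat_lit 21) (nat_lit 5) (nat_lit 24) (nat_lit 5) (nat_lit 22) (nat_lit 4) (nat_lit 270) (nat_lit 260) (nat_lit 250)) (XT.lf (nat_lit 0) (nat_lit 6366832314) (nat_lit 76) (nat_lit 2328030578) (nat_lit 152) (nat_lit 1851043690) (nat_lit 20) (nat_lit 5) (nat_lit 21) (nat_lit 5) (nat_lit 22) (nat_lit 4) (nat_lit 271) (nat_lit 260) (nat_lit 249))))) (XT.nd (nat_lit 156) (nat_lit 228) (nat_lit 0) (XT.nd (nat_lit 78) (nat_lit 0) (nat_lit 0) (XT.lf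 (nat_lit 0) (nat_lit 1085784311) (nat_lit 228) (nat_lit 8767608148) (nat_lit 76) (nat_lit 1558210523) (nat_lit 17) (nat_lit 5) (nat_lit 20) (nat_lit 5) (nat_lit 18) (nat_lit 4) (nat_lit 272) (nat_lit 260) (nat_lit 248)) (XT.lf (nat_lit 0) (nat_lit 4417770284) (nat_lit 228) (nat_lit 1936714053) (nat_lit 76) (nat_lit 6018144524) (nat_lit 17) (nat_lit 5) (nat_lit 20) (nat_lit 5) (nat_lit 18) (nat_lit 4) (nat_lit 273) (nat_lit 260) (nat_lit 247))) (XT.nd (nat_lit 78) (nat_lit 152) (nat_lit 0) (XT.lf (nat_lit 0) (nat_lit 6198359098) (nat_lit 76) (nat_lit 2137797382) (nat_lit 152) (nat_lit 5128938807) (nat_lit 16) (nat_lit 5) (nat_lit 17) (nat_lit 5) (nat_lit 18) (nat_lit 4) (nat_lit 274) (nat_lit 260) (nat_lit 246)) (XT.nd (nat_lit 78) (nat_lit 76) (nat_lit 0) (XT.lf (nat_lit 0) (nat_lit 733578419) (nat_lit 76) (nat_lit 12194597396) (nat_lit 76) (nat_lit 1780615464) (nat_lit 15) (nat_lit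 4) (nat_lit 16) (nat_lit 5) (nat_lit 16) (nat_lit 4) (nat_lit 275) (nat_lit 260) (nat_lit 245)) (XT.lf (nat_lit 0) (nat_lit 2225304919) (nat_lit 152) (nat_lit 5819899144) (nat_lit 76) (nat_lit 8030218321) (nat_lit 14) (nat_lit 5) (nat_lit 16) (nat_lit 5) (nat_lit 15) (nat_lit 4) (nat_lit 276) (nat_lit 260) (nat_lit 244))))))) (XT.nd (nat_lit 780) (nat_lit 304) (nat_lit 0) (XT.nd (nat_lit 390) (nat_lit 228) (nat_lit 0) (XT.nd (nat_lit 156) (nat_lit 228) (nat_lit 0) (XT.nd (nat_lit 78) (nat_lit 0) (nat_lit 0) (XT.lf (nat_lit 0) (nat_lit 3543417304) (nat_lit 76) (nat_lit 3113894370) (nat_lit 152) (nat_lit 10976051269) (nat_lit 13) (nat_lit 5) (nat_lit 14) (nat_lit 5) (nat_lit 15) (nat_lit 4) (nat_lit 277) (nat_lit 260) (nat_lit 243)) (XT.lf (nat_lit 0) (nat_lit 12043618687) (nat_lit 152) (nat_lit 4784656287) (nat_lit 0) (nat_lit 2553432453) (nat_lit 13) (nat_lit 5) (nat_lit 15) (nat_lit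 4) (nat_lit 13) (nat_lit 4) (nat_lit 278) (nat_lit 260) (nat_lit 242))) (XT.nd (nat_lit 78) (nat_lit 152) (nat_lit 0) (XT.lf (nat_lit 0) (nat_lit 6092992917) (nat_lit 76) (nat_lit 12427984260) (nat_lit 76) (nat_lit 2828980354) (nat_lit 12) (nat_lit 4) (nat_lit 13) (nat_lit 5) (nat_lit 13) (nat_lit 4) (nat_lit 279) (nat_lit 260) (nat_lit 241)) (XT.nd (nat_lit 78) (nat_lit 76) (nat_lit 0) (XT.lf (nat_lit 0) (nat_lit 2292599991) (nat_lit 152) (nat_lit 4764537986) (nat_lit 76) (nat_lit 16519876551) (nat_lit 11) (nat_lit 5) (nat_lit 13) (nat_lit 5) (nat_lit 12) (nat_lit 4) (nat_lit 280) (nat_lit 260) (nat_lit 240)) (XT.lf (nat_lit 0) (nat_lit 7658274200) (nat_lit 76) (nat_lit 450648572) (nat_lit 152) (nat_lit 17976658182) (nat_lit 10) (nat_lit 5) (nat_lit 11) (nat_lit 5) (nat_lit 12) (nat_lit 4) (nat_lit 281) (nat_lit 260) (nat_lit 239))))) (XT.nd (nat_lit 156) (nat_lit 152) (nat_lit 0) (XT.nd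 (nat_lit 78) (nat_lit 76) (nat_lit 0) (XT.lf (nat_lit 0) (nat_lit 15255624035) (nat_lit 152) (nat_lit 6953571193) (nat_lit 0) (nat_lit 6692616081) (nat_lit 10) (nat_lit 5) (nat_lit 12) (nat_lit 4) (nat_lit 10) (nat_lit 4) (nat_lit 282) (nat_lit 260) (nat_lit 238)) (XT.lf (nat_lit 0) (nat_lit 6643683786) (nat_lit 76) (nat_lit 17041190022) (nat_lit 76) (nat_lit 8424080453) (nat_lit 9) (nat_lit 4) (nat_lit 10) (nat_lit 5) (nat_lit 10) (nat_lit 4) (nat_lit 283) (nat_lit 260) (nat_lit 237))) (XT.nd (nat_lit 78) (nat_lit 152) (nat_lit 0) (XT.lf (nat_lit 0) (nat_lit 22902081283) (nat_lit 76) (nat_lit 10758492123) (nat_lit 76) (nat_lit 2094337671) (nat_lit 9) (nat_lit 4) (nat_lit 10) (nat_lit 5) (nat_lit 10) (nat_lit 4) (nat_lit 284) (nat_lit 260) (nat_lit 236)) (XT.nd (nat_lit 78) (nat_lit 0) (nat_lit 0) (XT.lf (nat_lit 0) (nat_lit 1416528611) (nat_lit 76) (nat_lit 3291188438) (nat_lit 152)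 (nat_lit 35210212900) (nat_lit 7) (nat_lit 5) (nat_lit 8) (nat_lit 5) (nat_lit 9) (nat_lit 4) (nat_lit 285) (nat_lit 260) (nat_lit 235)) (XT.lf (nat_lit 0) (nat_lit 13165619029) (nat_lit 152) (nat_lit 25832296994) (nat_lit 0) (nat_lit 5565066215) (nat_lit 7) (nat_lit 5) (nat_lit 9) (nat_lit 4) (nat_lit 7) (nat_lit 4) (nat_lit 286) (nat_lit 260) (nat_lit 234)))))) (XT.nd (nat_lit 390) (nat_lit 152) (nat_lit 0) (XT.nd (nat_lit 156) (nat_lit 76) (nat_lit 0) (XT.nd (nat_lit 78) (nat_lit 76) (nat_lit 0) (XT.lf (nat_lit 0) (nat_lit 22985285303) (nat_lit 152) (nat_lit 11547740397) (nat_lit 0) (nat_lit 15357834426) (nat_lit 7) (nat_lit 5) (nat_lit 9) (nat_lit 4) (nat_lit 7) (nat_lit 4) (nat_lit 287) (nat_lit 260) (nat_lit 233)) (XT.lf (nat_lit 0) (nat_lit 5233996572) (nat_lit 76) (nat_lit 29205290747) (nat_lit 76) (nat_lit 21554450248) (nat_lit 6) (nat_lit 4) (nat_lit 7) (nat_lit 5) (nat_lit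 7) (nat_lit 4) (nat_lit 288) (nat_lit 260) (nat_lit 232))) (XT.nd (nat_lit 78) (nat_lit 76) (nat_lit 0) (XT.lf (nat_lit 0) (nat_lit 25724399756) (nat_lit 76) (nat_lit 22438091644) (nat_lit 76) (nat_lit 14766912345) (nat_lit 6) (nat_lit 4) (nat_lit 7) (nat_lit 5) (nat_lit 7) (nat_lit 4) (nat_lit 289) (nat_lit 260) (nat_lit 231)) (XT.nd (nat_lit 78) (nat_lit 76) (nat_lit 0) (XT.lf (nat_lit 0) (nat_lit 49195839173) (nat_lit 76) (nat_lit 14702658555) (nat_lit 76) (nat_lit 7013793342) (nat_lit 6) (nat_lit 4) (nat_lit 7) (nat_lit 5) (nat_lit 7) (nat_lit 4) (nat_lit 290) (nat_lit 260) (nat_lit 230)) (XT.lf (nat_lit 0) (nat_lit 1691311007) (nat_lit 152) (nat_lit 4067925603) (nat_lit 76) (nat_lit 74327818189) (nat_lit 5) (nat_lit 5) (nat_lit 7) (nat_lit 5) (nat_lit 6) (nat_lit 4) (nat_lit 291) (nat_lit 260) (nat_lit 229))))) (XT.nd (nat_lit 234) (nat_lit 76) (nat_lit 0) (XT.nd (nat_lit 78) (nat_lit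 0) (nat_lit 0) (XT.lf (nat_lit 0) (nat_lit 11903014644) (nat_lit 152) (nat_lit 73355052822) (nat_lit 0) (nat_lit 5192043026) (nat_lit 4) (nat_lit 5) (nat_lit 6) (nat_lit 4) (nat_lit 4) (nat_lit 4) (nat_lit 292) (nat_lit 260) (nat_lit 228)) (XT.nd (nat_lit 78) (nat_lit 0) (nat_lit 0) (XT.lf (nat_lit 0) (nat_lit 24107626871) (nat_lit 152) (nat_lit 60804292566) (nat_lit 0) (nat_lit 17386543274) (nat_lit 4) (nat_lit 5) (nat_lit 6) (nat_lit 4) (nat_lit 4) (nat_lit 4) (nat_lit 293) (nat_lit 260) (nat_lit 227)) (XT.lf (nat_lit 0) (nat_lit 38111745129) (nat_lit 152) (nat_lit 46435141674) (nat_lit 0) (nat_lit 31381868507) (nat_lit 4) (nat_lit 5) (nat_lit 6) (nat_lit 4) (nat_lit 4) (nat_lit 4) (nat_lit 294) (nat_lit 260) (nat_lit 226)))) (XT.nd (nat_lit 78) (nat_lit 76) (nat_lit 0) (XT.lf (nat_lit 0) (nat_lit 54189363036) (nat_lit 152) (nat_lit 29966464585) (nat_lit 0) (nat_lit 47451840306) (nat_lit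 4) (nat_lit 5) (nat_lit 6) (nat_lit 4) (nat_lit 4) (nat_lit 4) (nat_lit 295) (nat_lit 260) (nat_lit 225)) (XT.nd (nat_lit 78) (nat_lit 76) (nat_lit 0) (XT.lf (nat_lit 0) (nat_lit 72655042682) (nat_lit 152) (nat_lit 11076048053) (nat_lit 0) (nat_lit 65910871162) (nat_lit 4) (nat_lit 5) (nat_lit 6) (nat_lit 4) (nat_lit 4) (nat_lit 4) (nat_lit 296) (nat_lit 260) (nat_lit 224)) (XT.lf (nat_lit 0) (nat_lit 11642169461) (nat_lit 76) (nat_lit 82709977053) (nat_lit 76) (nat_lit 75960023976) (nat_lit 3) (nat_lit 4) (nat_lit 4) (nat_lit 5) (nat_lit 4) (nat_lit 4) (nat_lit 297) (nat_lit 260) (nat_lit 223))))))))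
noncomputable def xc48 : XT := (XT.nd (nat_lit 1560) (nat_lit 0) (nat_lit 0) (XT.nd (nat_lit 780) (nat_lit 152) (nat_lit 0) (XT.nd (nat_lit 390) (nat_lit 0) (nat_lit 0) (XT.nd (nat_lit 156) (nat_lit 0) (nat_lit 0) (XT.nd (nat_lit 78) (nat_lit 0) (nat_lit 0) (XT.lf (nat_lit 0) (nat_lit 38972607888) (nat_lit 76) (nat_lit 80890683599) (nat_lit 76) (nat_lit 74135703081) (nat_lit 3) (nat_lit 4) (nat_lit 4) (nat_lit 5) (nat_lit 4) (nat_lit 4) (nat_lit 298) (nat_lit 260) (nat_lit 222)) (XT.lf (nat_lit 0) (nat_lit 70367561229) (nat_lit 76) (nat_lit 78816590741) (nat_lit 76) (nat_lit 72057238536) (nat_lit 3) (nat_lit 4) (nat_lit 4) (nat_lit 5) (nat_lit 4) (nat_lit 4) (nat_lit 299) (nat_lit 260) (nat_lit 221))) (XT.nd (nat_lit 78) (nat_lit 0) (nat_lit 0) (XT.lf (nat_lit 0) (nat_lit 106441278571) (nat_lit 76) (nat_lit 76447118401) (nat_lit 76) (nat_lit 69683964729) (nat_lit 3) (nat_lit 4) (nat_lit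 4) (nat_lit 5) (nat_lit 4) (nat_lit 4) (nat_lit 300) (nat_lit 260) (nat_lit 220)) (XT.nd (nat_lit 78) (nat_lit 0) (nat_lit 0) (XT.lf (nat_lit 0) (nat_lit 147899550035) (nat_lit 76) (nat_lit 73735907339) (nat_lit 76) (nat_lit 66969448043) (nat_lit 3) (nat_lit 4) (nat_lit 4) (nat_lit 5) (nat_lit 4) (nat_lit 4) (nat_lit 301) (nat_lit 260) (nat_lit 219)) (XT.lf (nat_lit 0) (nat_lit 195553515715) (nat_lit 76) (nat_lit 70629912120) (nat_lit 76) (nat_lit 63860578368) (nat_lit 3) (nat_lit 4) (nat_lit 4) (nat_lit 5) (nat_lit 4) (nat_lit 4) (nat_lit 302) (nat_lit 260) (nat_lit 218))))) (XT.nd (nat_lit 156) (nat_lit 0) (nat_lit 0) (XT.nd (nat_lit 78) (nat_lit 0) (nat_lit 0) (XT.lf (nat_lit 0) (nat_lit 250335535809) (nat_lit 76) (nat_lit 67068363272) (nat_lit 76) (nat_lit 60296529994) (nat_lit 3) (nat_lit 4) (nat_lit 4) (nat_lit 5) (nat_lit 4) (nat_lit 4) (nat_lit 303) (nat_lit 260) (nat_lit 217))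 (XT.lf (nat_lit 0) (nat_lit 313317432450) (nat_lit 76) (nat_lit 62981578319) (nat_lit 76) (nat_lit 56207571539) (nat_lit 3) (nat_lit 4) (nat_lit 4) (nat_lit 5) (nat_lit 4) (nat_lit 4) (nat_lit 304) (nat_lit 260) (nat_lit 216))) (XT.nd (nat_lit 78) (nat_lit 0) (nat_lit 0) (XT.lf (nat_lit 0) (nat_lit 385731460137) (nat_lit 76) (nat_lit 58289598423) (nat_lit 76) (nat_lit 51513701643) (nat_lit 3) (nat_lit 4) (nat_lit 4) (nat_lit 5) (nat_lit 4) (nat_lit 4) (nat_lit 305) (nat_lit 260) (nat_lit 215)) (XT.nd (nat_lit 78) (nat_lit 0) (nat_lit 0) (XT.lf (nat_lit 0) (nat_lit 468994415064) (nat_lit 76) (nat_lit 52900623979) (nat_lit 76) (nat_lit 46123083719) (nat_lit 3) (nat_lit 4) (nat_lit 4) (nat_lit 5) (nat_lit 4) (nat_lit 4) (nat_lit 306) (nat_lit 260) (nat_lit 214)) (XT.lf (nat_lit 0) (nat_lit 564735355044) (nat_lit 76) (nat_lit 46709218530) (nat_lit 76) (nat_lit 39930249158) (nat_lit 3) (nat_lit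 4) (nat_lit 4) (nat_lit 5) (nat_lit 4) (nat_lit 4) (nat_lit 307) (nat_lit 260) (nat_lit 213)))))) (XT.nd (nat_lit 390) (nat_lit 0) (nat_lit 0) (XT.nd (nat_lit 156) (nat_lit 152) (nat_lit 0) (XT.nd (nat_lit 78) (nat_lit 0) (nat_lit 0) (XT.lf (nat_lit 0) (nat_lit 674827472383) (nat_lit 76) (nat_lit 39594245882) (nat_lit 76) (nat_lit 32814033803) (nat_lit 3) (nat_lit 4) (nat_lit 4) (nat_lit 5) (nat_lit 4) (nat_lit 4) (nat_lit 308) (nat_lit 260) (nat_lit 212)) (XT.lf (nat_lit 0) (nat_lit 801424743287) (nat_lit 76) (nat_lit 31416500048) (nat_lit 76) (nat_lit 24635207356) (nat_lit 3) (nat_lit 4) (nat_lit 4) (nat_lit 5) (nat_lit 4) (nat_lit 4) (nat_lit 309) (nat_lit 260) (nat_lit 211))) (XT.nd (nat_lit 78) (nat_lit 152) (nat_lit 0) (XT.lf (nat_lit 0) (nat_lit 947004070885) (nat_lit 76) (nat_lit 22015981655) (nat_lit 76) (nat_lit 15233749298) (nat_lit 3) (nat_lit 4) (nat_lit 4) (nat_lit 5) (nat_lit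 4) (nat_lit 4) (nat_lit 310) (nat_lit 260) (nat_lit 210)) (XT.nd (nat_lit 78) (nat_lit 152) (nat_lit 0) (XT.lf (nat_lit 0) (nat_lit 1114413746368) (nat_lit 76) (nat_lit 11208767515) (nat_lit 76) (nat_lit 4425718058) (nat_lit 3) (nat_lit 4) (nat_lit 4) (nat_lit 5) (nat_lit 4) (nat_lit 4) (nat_lit 311) (nat_lit 260) (nat_lit 209)) (XT.lf (nat_lit 0) (nat_lit 7777379563) (nat_lit 152) (nat_lit 1287933320012) (nat_lit 0) (nat_lit 1878457843) (nat_lit 1) (nat_lit 5) (nat_lit 3) (nat_lit 4) (nat_lit 1) (nat_lit 4) (nat_lit 312) (nat_lit 260) (nat_lit 208))))) (XT.nd (nat_lit 156) (nat_lit 0) (nat_lit 0) (XT.nd (nat_lit 78) (nat_lit 0) (nat_lit 0) (XT.lf (nat_lit 0) (nat_lit 22744887576) (nat_lit 152) (nat_lit 1450431235615) (nat_lit 0) (nat_lit 16845428600) (nat_lit 1) (nat_lit 5) (nat_lit 3) (nat_lit 4) (nat_lit 1) (nat_lit 4) (nat_lit 313) (nat_lit 260) (nat_lit 207)) (XT.lf (nat_lit 0)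 (nat_lit 39955026081) (nat_lit 152) (nat_lit 1637309054184) (nat_lit 0) (nat_lit 34055099925) (nat_lit 1) (nat_lit 5) (nat_lit 3) (nat_lit 4) (nat_lit 1) (nat_lit 4) (nat_lit 314) (nat_lit 260) (nat_lit 206))) (XT.nd (nat_lit 78) (nat_lit 0) (nat_lit 0) (XT.lf (nat_lit 0) (nat_lit 59744515177) (nat_lit 152) (nat_lit 1852223080867) (nat_lit 0) (nat_lit 53844182778) (nat_lit 1) (nat_lit 5) (nat_lit 3) (nat_lit 4) (nat_lit 1) (nat_lit 4) (nat_lit 315) (nat_lit 260) (nat_lit 205)) (XT.nd (nat_lit 78) (nat_lit 0) (nat_lit 0) (XT.lf (nat_lit 0) (nat_lit 82500540522) (nat_lit 152) (nat_lit 2099378155315) (nat_lit 0) (nat_lit 76599854869) (nat_lit 1) (nat_lit 5) (nat_lit 3) (nat_lit 4) (nat_lit 1) (nat_lit 4) (nat_lit 316) (nat_lit 260) (nat_lit 204)) (XT.lf (nat_lit 0) (nat_lit 108668328699) (nat_lit 152) (nat_lit 2383609920290) (nat_lit 0) (nat_lit 102767335867) (nat_lit 1) (nat_lit 5) (nat_lit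 3) (nat_lit 4) (nat_lit 1) (nat_lit 4) (nat_lit 317) (nat_lit 260) (nat_lit 203))))))) (XT.nd (nat_lit 780) (nat_lit 0) (nat_lit 0) (XT.nd (nat_lit 390) (nat_lit 0) (nat_lit 0) (XT.nd (nat_lit 156) (nat_lit 0) (nat_lit 0) (XT.nd (nat_lit 78) (nat_lit 0) (nat_lit 0) (XT.lf (nat_lit 0) (nat_lit 138759858171) (nat_lit 152) (nat_lit 2710479432063) (nat_lit 0) (nat_lit 132858598229) (nat_lit 1) (nat_lit 5) (nat_lit 3) (nat_lit 4) (nat_lit 1) (nat_lit 4) (nat_lit 318) (nat_lit 260) (nat_lit 202)) (XT.lf (nat_lit 0) (nat_lit 173363876255) (nat_lit 152) (nat_lit 3086381963690) (nat_lit 0) (nat_lit 167462384042) (nat_lit 1) (nat_lit 5) (nat_lit 3) (nat_lit 4) (nat_lit 1) (nat_lit 4) (nat_lit 319) (nat_lit 260) (nat_lit 201))) (XT.nd (nat_lit 78) (nat_lit 0) (nat_lit 0) (XT.lf (nat_lit 0) (nat_lit 213157418087) (nat_lit 152) (nat_lit 3518672129920) (nat_lit 0) (nat_lit 207255723899) (nat_lit 1)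 (nat_lit 5) (nat_lit 3) (nat_lit 4) (nat_lit 1) (nat_lit 4) (nat_lit 320) (nat_lit 260) (nat_lit 200)) (XT.nd (nat_lit 78) (nat_lit 0) (nat_lit 0) (XT.lf (nat_lit 0) (nat_lit 258919052964) (nat_lit 152) (nat_lit 4015807781833) (nat_lit 0) (nat_lit 253017183146) (nat_lit 1) (nat_lit 5) (nat_lit 3) (nat_lit 4) (nat_lit 1) (nat_lit 4) (nat_lit 321) (nat_lit 260) (nat_lit 199)) (XT.lf (nat_lit 0) (nat_lit 311544117220) (nat_lit 152) (nat_lit 4587515486530) (nat_lit 0) (nat_lit 305642094680) (nat_lit 1) (nat_lit 5) (nat_lit 3) (nat_lit 4) (nat_lit 1) (nat_lit 4) (nat_lit 322) (nat_lit 260) (nat_lit 198))))) (XT.nd (nat_lit 156) (nat_lit 0) (nat_lit 0) (XT.nd (nat_lit 78) (nat_lit 0) (nat_lit 0) (XT.lf (nat_lit 0) (nat_lit 372062231677) (nat_lit 152) (nat_lit 5244980829538) (nat_lit 0) (nat_lit 366160076336) (nat_lit 1) (nat_lit 5) (nat_lit 3) (nat_lit 4) (nat_lit 1) (nat_lit 4) (nat_lit 323)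 (nat_lit 260) (nat_lit 197)) (XT.lf (nat_lit 0) (nat_lit 441657446402) (nat_lit 152) (nat_lit 6001067263221) (nat_lit 0) (nat_lit 435755175581) (nat_lit 1) (nat_lit 5) (nat_lit 3) (nat_lit 4) (nat_lit 1) (nat_lit 4) (nat_lit 324) (nat_lit 260) (nat_lit 196))) (XT.nd (nat_lit 78) (nat_lit 0) (nat_lit 0) (XT.lf (nat_lit 0) (nat_lit 521691406899) (nat_lit 152) (nat_lit 6870567783019) (nat_lit 0) (nat_lit 515789035661) (nat_lit 1) (nat_lit 5) (nat_lit 3) (nat_lit 4) (nat_lit 1) (nat_lit 4) (nat_lit 325) (nat_lit 260) (nat_lit 195)) (XT.nd (nat_lit 78) (nat_lit 0) (nat_lit 0) (XT.lf (nat_lit 0) (nat_lit 613729995005) (nat_lit 152) (nat_lit 7870494355626) (nat_lit 0) (nat_lit 607827536448) (nat_lit 1) (nat_lit 5) (nat_lit 3) (nat_lit 4) (nat_lit 1) (nat_lit 4) (nat_lit 326) (nat_lit 260) (nat_lit 194)) (XT.lf (nat_lit 0) (nat_lit 719573965704) (nat_lit 152) (nat_lit 9020410761809) (nat_lit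 0) (nat_lit 713671431217) (nat_lit 1) (nat_lit 5) (nat_lit 3) (nat_lit 4) (nat_lit 1) (nat_lit 4) (nat_lit 327) (nat_lit 260) (nat_lit 193)))))) (XT.nd (nat_lit 390) (nat_lit 0) (nat_lit 0) (XT.nd (nat_lit 156) (nat_lit 0) (nat_lit 0) (XT.nd (nat_lit 78) (nat_lit 0) (nat_lit 0) (XT.lf (nat_lit 0) (nat_lit 841294179292) (nat_lit 152) (nat_lit 10342815366036) (nat_lit 0) (nat_lit 835391578779) (nat_lit 1) (nat_lit 5) (nat_lit 3) (nat_lit 4) (nat_lit 1) (nat_lit 4) (nat_lit 328) (nat_lit 260) (nat_lit 192)) (XT.lf (nat_lit 0) (nat_lit 981272118209) (nat_lit 152) (nat_lit 11863581301870) (nat_lit 0) (nat_lit 975369460282) (nat_lit 1) (nat_lit 5) (nat_lit 3) (nat_lit 4) (nat_lit 1) (nat_lit 4) (nat_lit 329) (nat_lit 260) (nat_lit 191))) (XT.nd (nat_lit 78) (nat_lit 0) (nat_lit 0) (XT.lf (nat_lit 0) (nat_lit 1142246481260) (nat_lit 152) (nat_lit 13612462685445) (nat_lit 0) (nat_lit 1136343773409)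 (nat_lit 1) (nat_lit 5) (nat_lit 3) (nat_lit 4) (nat_lit 1) (nat_lit 4) (nat_lit 330) (nat_lit 260) (nat_lit 190)) (XT.nd (nat_lit 78) (nat_lit 0) (nat_lit 0) (XT.lf (nat_lit 0) (nat_lit 1327366766853) (nat_lit 152) (nat_lit 15623676761223) (nat_lit 0) (nat_lit 1321464015588) (nat_lit 1) (nat_lit 5) (nat_lit 3) (nat_lit 4) (nat_lit 1) (nat_lit 4) (nat_lit 331) (nat_lit 260) (nat_lit 189)) (XT.lf (nat_lit 0) (nat_lit 1540254893618) (nat_lit 152) (nat_lit 17936573369818) (nat_lit 0) (nat_lit 1534352104603) (nat_lit 1) (nat_lit 5) (nat_lit 3) (nat_lit 4) (nat_lit 1) (nat_lit 4) (nat_lit 332) (nat_lit 260) (nat_lit 188))))) (XT.nd (nat_lit 156) (nat_lit 0) (nat_lit 0) (XT.nd (nat_lit 78) (nat_lit 0) (nat_lit 0) (XT.lf (nat_lit 0) (nat_lit 1785076064037) (nat_lit 152) (nat_lit 20596404836179) (nat_lit 0) (nat_lit 1779173242195) (nat_lit 1) (nat_lit 5) (nat_lit 3) (nat_lit 4) (nat_lit 1) (nat_lit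 4) (nat_lit 333) (nat_lit 260) (nat_lit 187)) (XT.lf (nat_lit 0) (nat_lit 2066620257529) (nat_lit 152) (nat_lit 23655211341171) (nat_lit 0) (nat_lit 2060717407143) (nat_lit 1) (nat_lit 5) (nat_lit 3) (nat_lit 4) (nat_lit 1) (nat_lit 4) (nat_lit 334) (nat_lit 260) (nat_lit 186))) (XT.nd (nat_lit 78) (nat_lit 0) (nat_lit 0) (XT.lf (nat_lit 0) (nat_lit 2390395947447) (nat_lit 152) (nat_lit 27172839099021) (nat_lit 0) (nat_lit 2384493072239) (nat_lit 1) (nat_lit 5) (nat_lit 3) (nat_lit 4) (nat_lit 1) (nat_lit 4) (nat_lit 335) (nat_lit 260) (nat_lit 185)) (XT.nd (nat_lit 78) (nat_lit 0) (nat_lit 0) (XT.lf (nat_lit 0) (nat_lit 2762737875549) (nat_lit 152) (nat_lit 31218111261514) (nat_lit 0) (nat_lit 2756834978757) (nat_lit 1) (nat_lit 5) (nat_lit 3) (nat_lit 4) (nat_lit 1) (nat_lit 4) (nat_lit 336) (nat_lit 260) (nat_lit 184)) (XT.lf (nat_lit 0) (nat_lit 3190930992602) (nat_lit 152) (nat_lit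 35870174457916) (nat_lit 0) (nat_lit 3185028077042) (nat_lit 1) (nat_lit 5) (nat_lit 3) (nat_lit 4) (nat_lit 1) (nat_lit 4) (nat_lit 337) (nat_lit 260) (nat_lit 183))))))))
noncomputable def xc49 : XT := (XT.nd (nat_lit 35412) (nat_lit 0) (nat_lit 380) (XT.nd (nat_lit 34632) (nat_lit 0) (nat_lit 1520) (XT.nd (nat_lit 390) (nat_lit 0) (nat_lit 0) (XT.nd (nat_lit 156) (nat_lit 0) (nat_lit 0) (XT.nd (nat_lit 78) (nat_lit 0) (nat_lit 0) (XT.lf (nat_lit 0) (nat_lit 3683352990028) (nat_lit 152) (nat_lit 41220047315982) (nat_lit 0) (nat_lit 3677450058147) (nat_lit 1) (nat_lit 5) (nat_lit 3) (nat_lit 4) (nat_lit 1) (nat_lit 4) (nat_lit 338) (nat_lit 260) (nat_lit 182)) (XT.lf (nat_lit 0) (nat_lit 4249638211254) (nat_lit 152) (nat_lit 47372401261196) (nat_lit 0) (nat_lit 4243735265181) (nat_lit 1) (nat_lit 5) (nat_lit 3) (nat_lit 4) (nat_lit 1) (nat_lit 4) (nat_lit 339) (nat_lit 260) (nat_lit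 181))) (XT.nd (nat_lit 78) (nat_lit 0) (nat_lit 0) (XT.lf (nat_lit 0) (nat_lit 4900866149738) (nat_lit 152) (nat_lit 54447608435965) (nat_lit 0) (nat_lit 4894963191325) (nat_lit 1) (nat_lit 5) (nat_lit 3) (nat_lit 4) (nat_lit 1) (nat_lit 4) (nat_lit 340) (nat_lit 260) (nat_lit 180)) (XT.nd (nat_lit 78) (nat_lit 0) (nat_lit 0) (XT.lf (nat_lit 0) (nat_lit 5649778221670) (nat_lit 152) (nat_lit 62584096806752) (nat_lit 0) (nat_lit 5643875252525) (nat_lit 1) (nat_lit 5) (nat_lit 3) (nat_lit 4) (nat_lit 1) (nat_lit 4) (nat_lit 341) (nat_lit 260) (nat_lit 179)) (XT.lf (nat_lit 0) (nat_lit 6511027054542) (nat_lit 152) (nat_lit 71941058537333) (nat_lit 0) (nat_lit 6505124076065) (nat_lit 1) (nat_lit 5) (nat_lit 3) (nat_lit 4) (nat_lit 1) (nat_lit 4) (nat_lit 342) (nat_lit 260) (nat_lit 178))))) (XT.nd (nat_lit 156) (nat_lit 0) (nat_lit 0) (XT.nd (nat_lit 78) (nat_lit 0) (nat_lit 0) (XT.lf (nat_lit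 0) (nat_lit 7501463168997) (nat_lit 152) (nat_lit 82701564618088) (nat_lit 0) (nat_lit 7495560182407) (nat_lit 1) (nat_lit 5) (nat_lit 3) (nat_lit 4) (nat_lit 1) (nat_lit 4) (nat_lit 343) (nat_lit 260) (nat_lit 177)) (XT.lf (nat_lit 0) (nat_lit 8640464662929) (nat_lit 152) (nat_lit 95076146689729) (nat_lit 0) (nat_lit 8634561669283) (nat_lit 1) (nat_lit 5) (nat_lit 3) (nat_lit 4) (nat_lit 1) (nat_lit 4) (nat_lit 344) (nat_lit 260) (nat_lit 176))) (XT.nd (nat_lit 1794) (nat_lit 0) (nat_lit 0) (XT.lf (nat_lit 0) (nat_lit 9950316348174) (nat_lit 152) (nat_lit 109306916140612) (nat_lit 0) (nat_lit 9944413348392) (nat_lit 1) (nat_lit 5) (nat_lit 3) (nat_lit 4) (nat_lit 1) (nat_lit 4) (nat_lit 345) (nat_lit 260) (nat_lit 175)) (XT.nd (nat_lit 78) (nat_lit 0) (nat_lit 0) (XT.lf (nat_lit 0) (nat_lit 249873003958341) (nat_lit 152) (nat_lit 2715926273673840) (nat_lit 0) (nat_lit 249867100919300)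 (nat_lit 1) (nat_lit 5) (nat_lit 3) (nat_lit 4) (nat_lit 1) (nat_lit 4) (nat_lit 368) (nat_lit 260) (nat_lit 152)) (XT.lf (nat_lit 0) (nat_lit 287367736327023) (nat_lit 152) (nat_lit 3123284562613038) (nat_lit 0) (nat_lit 287361833287766) (nat_lit 1) (nat_lit 5) (nat_lit 3) (nat_lit 4) (nat_lit 1) (nat_lit 4) (nat_lit 369) (nat_lit 260) (nat_lit 151)))))) (XT.nd (nat_lit 390) (nat_lit 760) (nat_lit 0) (XT.nd (nat_lit 156) (nat_lit 152) (nat_lit 0) (XT.nd (nat_lit 78) (nat_lit 228) (nat_lit 0) (XT.lf (nat_lit 0) (nat_lit 1425108981) (nat_lit 0) (nat_lit 1425108981) (nat_lit 76) (nat_lit 412702934) (nat_lit 36) (nat_lit 5) (nat_lit 36) (nat_lit 3) (nat_lit 37) (nat_lit 0) (nat_lit 261) (nat_lit 261) (nat_lit 258)) (XT.lf (nat_lit 0) (nat_lit 1557042424) (nat_lit 228) (nat_lit 489942027) (nat_lit 228) (nat_lit 4609430381) (nat_lit 33) (nat_lit 3) (nat_lit 36) (nat_lit 3) (nat_lit 36) (nat_lit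 5) (nat_lit 262) (nat_lit 261) (nat_lit 257))) (XT.nd (nat_lit 78) (nat_lit 152) (nat_lit 0) (XT.lf (nat_lit 76) (nat_lit 3173822722) (nat_lit 0) (nat_lit 748789374) (nat_lit 228) (nat_lit 2923231393) (nat_lit 34) (nat_lit 5) (nat_lit 33) (nat_lit 3) (nat_lit 36) (nat_lit 5) (nat_lit 263) (nat_lit 261) (nat_lit 256)) (XT.nd (nat_lit 78) (nat_lit 76) (nat_lit 0) (XT.lf (nat_lit 0) (nat_lit 59881089) (nat_lit 152) (nat_lit 6273383070) (nat_lit 228) (nat_lit 778367345) (nat_lit 32) (nat_lit 5) (nat_lit 34) (nat_lit 5) (nat_lit 35) (nat_lit 4) (nat_lit 264) (nat_lit 261) (nat_lit 255)) (XT.lf (nat_lit 0) (nat_lit 1424303335) (nat_lit 228) (nat_lit 3056649122) (nat_lit 76) (nat_lit 2944013878) (nat_lit 31) (nat_lit 5) (nat_lit 34) (nat_lit 5) (nat_lit 32) (nat_lit 5) (nat_lit 265) (nat_lit 261) (nat_lit 254))))) (XT.nd (nat_lit 156) (nat_lit 532) (nat_lit 0) (XT.nd (nat_lit 78) (nat_lit 0)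 (nat_lit 0) (XT.lf (nat_lit 0) (nat_lit 1344044121) (nat_lit 228) (nat_lit 2284625913) (nat_lit 304) (nat_lit 4189398283) (nat_lit 28) (nat_lit 5) (nat_lit 31) (nat_lit 5) (nat_lit 32) (nat_lit 5) (nat_lit 266) (nat_lit 261) (nat_lit 253)) (XT.lf (nat_lit 0) (nat_lit 6065719186) (nat_lit 304) (nat_lit 1821829940) (nat_lit 76) (nat_lit 398129750) (nat_lit 28) (nat_lit 5) (nat_lit 32) (nat_lit 5) (nat_lit 29) (nat_lit 4) (nat_lit 267) (nat_lit 261) (nat_lit 252))) (XT.nd (nat_lit 78) (nat_lit 152) (nat_lit 0) (XT.lf (nat_lit 0) (nat_lit 53505951) (nat_lit 380) (nat_lit 5363633480) (nat_lit 76) (nat_lit 3404762276) (nat_lit 23) (nat_lit 5) (nat_lit 28) (nat_lit 5) (nat_lit 24) (nat_lit 5) (nat_lit 268) (nat_lit 261) (nat_lit 251)) (XT.nd (nat_lit 78) (nat_lit 152) (nat_lit 0) (XT.lf (nat_lit 0) (nat_lit 2310743840) (nat_lit 380) (nat_lit 76751305) (nat_lit 76) (nat_lit 7055258043) (nat_lit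 23) (nat_lit 5) (nat_lit 28) (nat_lit 5) (nat_lit 24) (nat_lit 5) (nat_lit 269) (nat_lit 261) (nat_lit 250)) (XT.lf (nat_lit 0) (nat_lit 5024872432) (nat_lit 228) (nat_lit 3878978013) (nat_lit 76) (nat_lit 1235620694) (nat_lit 21) (nat_lit 5) (nat_lit 24) (nat_lit 5) (nat_lit 22) (nat_lit 4) (nat_lit 270) (nat_lit 261) (nat_lit 249))))))) (XT.nd (nat_lit 780) (nat_lit 456) (nat_lit 0) (XT.nd (nat_lit 390) (nat_lit 304) (nat_lit 0) (XT.nd (nat_lit 156) (nat_lit 304) (nat_lit 0) (XT.nd (nat_lit 78) (nat_lit 0) (nat_lit 0) (XT.lf (nat_lit 0) (nat_lit 2466363251) (nat_lit 76) (nat_lit 5714587990) (nat_lit 152) (nat_lit 2754942209) (nat_lit 20) (nat_lit 5) (nat_lit 21) (nat_lit 5) (nat_lit 22) (nat_lit 4) (nat_lit 271) (nat_lit 261) (nat_lit 248)) (XT.lf (nat_lit 0) (nat_lit 9954911423) (nat_lit 76) (nat_lit 1887135297) (nat_lit 152) (nat_lit 5358011) (nat_lit 20) (nat_lit 5) (nat_lit 21)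 (nat_lit 5) (nat_lit 22) (nat_lit 4) (nat_lit 272) (nat_lit 261) (nat_lit 247))) (XT.nd (nat_lit 78) (nat_lit 76) (nat_lit 0) (XT.lf (nat_lit 0) (nat_lit 3079747012) (nat_lit 228) (nat_lit 7151035029) (nat_lit 76) (nat_lit 2614914385) (nat_lit 17) (nat_lit 5) (nat_lit 20) (nat_lit 5) (nat_lit 18) (nat_lit 4) (nat_lit 273) (nat_lit 261) (nat_lit 246)) (XT.nd (nat_lit 78) (nat_lit 0) (nat_lit 0) (XT.lf (nat_lit 0) (nat_lit 353573187) (nat_lit 76) (nat_lit 6333759920) (nat_lit 152) (nat_lit 7297561800) (nat_lit 16) (nat_lit 5) (nat_lit 17) (nat_lit 5) (nat_lit 18) (nat_lit 4) (nat_lit 274) (nat_lit 261) (nat_lit 245)) (XT.lf (nat_lit 0) (nat_lit 9561551745) (nat_lit 76) (nat_lit 1510362648) (nat_lit 152) (nat_lit 4187889638) (nat_lit 16) (nat_lit 5) (nat_lit 17) (nat_lit 5) (nat_lit 18) (nat_lit 4) (nat_lit 275) (nat_lit 261) (nat_lit 244))))) (XT.nd (nat_lit 156) (nat_lit 152) (nat_lit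 0) (XT.nd (nat_lit 78) (nat_lit 76) (nat_lit 0) (XT.lf (nat_lit 0) (nat_lit 3343794382) (nat_lit 76) (nat_lit 12952868303) (nat_lit 76) (nat_lit 402097008) (nat_lit 15) (nat_lit 4) (nat_lit 16) (nat_lit 5) (nat_lit 16) (nat_lit 4) (nat_lit 276) (nat_lit 261) (nat_lit 243)) (XT.lf (nat_lit 0) (nat_lit 3862672069) (nat_lit 152) (nat_lit 4389937715) (nat_lit 76) (nat_lit 10037107294) (nat_lit 14) (nat_lit 5) (nat_lit 16) (nat_lit 5) (nat_lit 15) (nat_lit 4) (nat_lit 277) (nat_lit 261) (nat_lit 242))) (XT.nd (nat_lit 78) (nat_lit 76) (nat_lit 0) (XT.lf (nat_lit 0) (nat_lit 6273196823) (nat_lit 76) (nat_lit 2607277507) (nat_lit 152) (nat_lit 11212918647) (nat_lit 13) (nat_lit 5) (nat_lit 14) (nat_lit 5) (nat_lit 15) (nat_lit 4) (nat_lit 278) (nat_lit 261) (nat_lit 241)) (XT.nd (nat_lit 78) (nat_lit 76) (nat_lit 0) (XT.lf (nat_lit 0) (nat_lit 14950061305) (nat_lit 152) (nat_lit 3465030861)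 (nat_lit 0) (nat_lit 3707765079) (nat_lit 13) (nat_lit 5) (nat_lit 15) (nat_lit 4) (nat_lit 13) (nat_lit 4) (nat_lit 279) (nat_lit 261) (nat_lit 240)) (XT.lf (nat_lit 0) (nat_lit 8951660093) (nat_lit 76) (nat_lit 13384424917) (nat_lit 76) (nat_lit 2059846897) (nat_lit 12) (nat_lit 4) (nat_lit 13) (nat_lit 5) (nat_lit 13) (nat_lit 4) (nat_lit 280) (nat_lit 261) (nat_lit 239)))))) (XT.nd (nat_lit 390) (nat_lit 228) (nat_lit 0) (XT.nd (nat_lit 156) (nat_lit 76) (nat_lit 0) (XT.nd (nat_lit 78) (nat_lit 76) (nat_lit 0) (XT.lf (nat_lit 0) (nat_lit 3581906183) (nat_lit 152) (nat_lit 3695029111) (nat_lit 76) (nat_lit 19694081696) (nat_lit 11) (nat_lit 5) (nat_lit 13) (nat_lit 5) (nat_lit 12) (nat_lit 4) (nat_lit 281) (nat_lit 261) (nat_lit 238)) (XT.lf (nat_lit 0) (nat_lit 10229983836) (nat_lit 152) (nat_lit 19365878528) (nat_lit 0) (nat_lit 266206216) (nat_lit 10) (nat_lit 5) (nat_lit 12) (nat_lit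 4) (nat_lit 10) (nat_lit 4) (nat_lit 282) (nat_lit 261) (nat_lit 237))) (XT.nd (nat_lit 78) (nat_lit 76) (nat_lit 0) (XT.lf (nat_lit 0) (nat_lit 18349343382) (nat_lit 152) (nat_lit 6427854886) (nat_lit 0) (nat_lit 8338520880) (nat_lit 10) (nat_lit 5) (nat_lit 12) (nat_lit 4) (nat_lit 10) (nat_lit 4) (nat_lit 283) (nat_lit 261) (nat_lit 236)) (XT.nd (nat_lit 78) (nat_lit 0) (nat_lit 0) (XT.lf (nat_lit 0) (nat_lit 9137681431) (nat_lit 76) (nat_lit 18862256187) (nat_lit 76) (nat_lit 8810525092) (nat_lit 9) (nat_lit 4) (nat_lit 10) (nat_lit 5) (nat_lit 10) (nat_lit 4) (nat_lit 284) (nat_lit 261) (nat_lit 235)) (XT.lf (nat_lit 0) (nat_lit 27639519631) (nat_lit 76) (nat_lit 11733037821) (nat_lit 76) (nat_lit 1645734036) (nat_lit 9) (nat_lit 4) (nat_lit 10) (nat_lit 5) (nat_lit 10) (nat_lit 4) (nat_lit 285) (nat_lit 261) (nat_lit 234))))) (XT.nd (nat_lit 234) (nat_lit 76) (nat_lit 0) (XT.nd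 (nat_lit 78) (nat_lit 0) (nat_lit 0) (XT.lf (nat_lit 0) (nat_lit 2937115445) (nat_lit 76) (nat_lit 3135141300) (nat_lit 152) (nat_lit 39734286624) (nat_lit 7) (nat_lit 5) (nat_lit 8) (nat_lit 5) (nat_lit 9) (nat_lit 4) (nat_lit 286) (nat_lit 261) (nat_lit 233)) (XT.nd (nat_lit 78) (nat_lit 0) (nat_lit 0) (XT.lf (nat_lit 0) (nat_lit 15736362651) (nat_lit 152) (nat_lit 28506898177) (nat_lit 0) (nat_lit 6914506457) (nat_lit 7) (nat_lit 5) (nat_lit 9) (nat_lit 4) (nat_lit 7) (nat_lit 4) (nat_lit 287) (nat_lit 261) (nat_lit 232)) (XT.lf (nat_lit 0) (nat_lit 26951252680) (nat_lit 152) (nat_lit 12236211573) (nat_lit 0) (nat_lit 18109057684) (nat_lit 7) (nat_lit 5) (nat_lit 9) (nat_lit 4) (nat_lit 7) (nat_lit 4) (nat_lit 288) (nat_lit 261) (nat_lit 231)))) (XT.nd (nat_lit 78) (nat_lit 0) (nat_lit 0) (XT.lf (nat_lit 0) (nat_lit 7015345492) (nat_lit 76) (nat_lit 33081674081) (nat_lit 76) (nat_lit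 24221793172) (nat_lit 6) (nat_lit 4) (nat_lit 7) (nat_lit 5) (nat_lit 7) (nat_lit 4) (nat_lit 289) (nat_lit 261) (nat_lit 230)) (XT.nd (nat_lit 78) (nat_lit 0) (nat_lit 0) (XT.lf (nat_lit 0) (nat_lit 30449363576) (nat_lit 76) (nat_lit 25365187758) (nat_lit 76) (nat_lit 16489927793) (nat_lit 6) (nat_lit 4) (nat_lit 7) (nat_lit 5) (nat_lit 7) (nat_lit 4) (nat_lit 290) (nat_lit 261) (nat_lit 229)) (XT.lf (nat_lit 0) (nat_lit 57328522749) (nat_lit 76) (nat_lit 16526650701) (nat_lit 76) (nat_lit 7638017644) (nat_lit 6) (nat_lit 4) (nat_lit 7) (nat_lit 5) (nat_lit 7) (nat_lit 4) (nat_lit 291) (nat_lit 261) (nat_lit 228))))))))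
noncomputable def xc50 : XT := (XT.nd (nat_lit 1560) (nat_lit 152) (nat_lit 0) (XT.nd (nat_lit 780) (nat_lit 0) (nat_lit 0) (XT.nd (nat_lit 390) (nat_lit 76) (nat_lit 0) (XT.nd (nat_lit 156) (nat_lit 0) (nat_lit 0) (XT.nd (nat_lit 78) (nat_lit 76) (nat_lit 0) (XT.lf (nat_lit 0) (nat_lit 2283925053) (nat_lit 152) (nat_lit 3989822966) (nat_lit 76) (nat_lit 85775407561) (nat_lit 5) (nat_lit 5) (nat_lit 7) (nat_lit 5) (nat_lit 6) (nat_lit 4) (nat_lit 292) (nat_lit 261) (nat_lit 227)) (XT.lf (nat_lit 0) (nat_lit 14024258159) (nat_lit 152) (nat_lit 83666788990) (nat_lit 0) (nat_lit 6276107019) (nat_lit 4) (nat_lit 5) (nat_lit 6) (nat_lit 4) (nat_lit 4) (nat_lit 4) (nat_lit 293) (nat_lit 261) (nat_lit 226))) (XT.nd (nat_lit 78) (nat_lit 0) (nat_lit 0) (XT.lf (nat_lit 0) (nat_lit 28015763352) (nat_lit 152) (nat_lit 69323613185) (nat_lit 0) (nat_lit 20259966103) (nat_lit 4) (nat_lit 5) (nat_lit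 6) (nat_lit 4) (nat_lit 4) (nat_lit 4) (nat_lit 294) (nat_lit 261) (nat_lit 225)) (XT.nd (nat_lit 78) (nat_lit 0) (nat_lit 0) (XT.lf (nat_lit 0) (nat_lit 44082413377) (nat_lit 152) (nat_lit 52877523129) (nat_lit 0) (nat_lit 36319967338) (nat_lit 4) (nat_lit 5) (nat_lit 6) (nat_lit 4) (nat_lit 4) (nat_lit 4) (nat_lit 295) (nat_lit 261) (nat_lit 224)) (XT.lf (nat_lit 0) (nat_lit 62538555734) (nat_lit 152) (nat_lit 34006747494) (nat_lit 0) (nat_lit 54770328139) (nat_lit 4) (nat_lit 5) (nat_lit 6) (nat_lit 4) (nat_lit 4) (nat_lit 4) (nat_lit 296) (nat_lit 261) (nat_lit 223))))) (XT.nd (nat_lit 156) (nat_lit 0) (nat_lit 0) (XT.nd (nat_lit 78) (nat_lit 76) (nat_lit 0) (XT.lf (nat_lit 0) (nat_lit 83745288860) (nat_lit 152) (nat_lit 12342075453) (nat_lit 0) (nat_lit 75972033825) (nat_lit 4) (nat_lit 5) (nat_lit 6) (nat_lit 4) (nat_lit 4) (nat_lit 4) (nat_lit 297) (nat_lit 261) (nat_lit 222))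 (XT.lf (nat_lit 0) (nat_lit 13765902878) (nat_lit 76) (nat_lit 94921640904) (nat_lit 76) (nat_lit 87144014181) (nat_lit 3) (nat_lit 4) (nat_lit 4) (nat_lit 5) (nat_lit 4) (nat_lit 4) (nat_lit 298) (nat_lit 261) (nat_lit 221))) (XT.nd (nat_lit 78) (nat_lit 0) (nat_lit 0) (XT.lf (nat_lit 0) (nat_lit 45146679940) (nat_lit 76) (nat_lit 92854866393) (nat_lit 76) (nat_lit 85073438203) (nat_lit 3) (nat_lit 4) (nat_lit 4) (nat_lit 5) (nat_lit 4) (nat_lit 4) (nat_lit 299) (nat_lit 261) (nat_lit 220)) (XT.nd (nat_lit 78) (nat_lit 0) (nat_lit 0) (XT.lf (nat_lit 0) (nat_lit 81208070082) (nat_lit 76) (nat_lit 90491757834) (nat_lit 76) (nat_lit 82707024020) (nat_lit 3) (nat_lit 4) (nat_lit 4) (nat_lit 5) (nat_lit 4) (nat_lit 4) (nat_lit 300) (nat_lit 261) (nat_lit 219)) (XT.lf (nat_lit 0) (nat_lit 122655622242) (nat_lit 76) (nat_lit 87786080494) (nat_lit 76) (nat_lit 79998472225) (nat_lit 3) (nat_lit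 4) (nat_lit 4) (nat_lit 5) (nat_lit 4) (nat_lit 4) (nat_lit 301) (nat_lit 261) (nat_lit 218)))))) (XT.nd (nat_lit 390) (nat_lit 0) (nat_lit 0) (XT.nd (nat_lit 156) (nat_lit 0) (nat_lit 0) (XT.nd (nat_lit 78) (nat_lit 0) (nat_lit 0) (XT.lf (nat_lit 0) (nat_lit 170300266788) (nat_lit 76) (nat_lit 84684897207) (nat_lit 76) (nat_lit 76894789411) (nat_lit 3) (nat_lit 4) (nat_lit 4) (nat_lit 5) (nat_lit 4) (nat_lit 4) (nat_lit 302) (nat_lit 261) (nat_lit 217)) (XT.lf (nat_lit 0) (nat_lit 225074181549) (nat_lit 76) (nat_lit 81127532649) (nat_lit 76) (nat_lit 73335251351) (nat_lit 3) (nat_lit 4) (nat_lit 4) (nat_lit 5) (nat_lit 4) (nat_lit 4) (nat_lit 303) (nat_lit 261) (nat_lit 216))) (XT.nd (nat_lit 78) (nat_lit 0) (nat_lit 0) (XT.lf (nat_lit 0) (nat_lit 288049030073) (nat_lit 76) (nat_lit 77044386207) (nat_lit 76) (nat_lit 69250214909) (nat_lit 3) (nat_lit 4) (nat_lit 4) (nat_lit 5) (nat_lit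 4) (nat_lit 4) (nat_lit 304) (nat_lit 261) (nat_lit 215)) (XT.nd (nat_lit 78) (nat_lit 0) (nat_lit 0) (XT.lf (nat_lit 0) (nat_lit 360456928963) (nat_lit 76) (nat_lit 72355570235) (nat_lit 76) (nat_lit 64559755458) (nat_lit 3) (nat_lit 4) (nat_lit 4) (nat_lit 5) (nat_lit 4) (nat_lit 4) (nat_lit 305) (nat_lit 261) (nat_lit 214)) (XT.lf (nat_lit 0) (nat_lit 443714554502) (nat_lit 76) (nat_lit 66969347029) (nat_lit 76) (nat_lit 59172103139) (nat_lit 3) (nat_lit 4) (nat_lit 4) (nat_lit 5) (nat_lit 4) (nat_lit 4) (nat_lit 306) (nat_lit 261) (nat_lit 213))))) (XT.nd (nat_lit 156) (nat_lit 0) (nat_lit 0) (XT.nd (nat_lit 78) (nat_lit 0) (nat_lit 0) (XT.lf (nat_lit 0) (nat_lit 539450860231) (nat_lit 76) (nat_lit 60780333961) (nat_lit 76) (nat_lit 52981847364) (nat_lit 3) (nat_lit 4) (nat_lit 4) (nat_lit 5) (nat_lit 4) (nat_lit 4) (nat_lit 307) (nat_lit 261) (nat_lit 212)) (XT.lf (nat_lit 0) (nat_lit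 649538947786) (nat_lit 76) (nat_lit 53667441644) (nat_lit 76) (nat_lit 45867874433) (nat_lit 3) (nat_lit 4) (nat_lit 4) (nat_lit 5) (nat_lit 4) (nat_lit 4) (nat_lit 308) (nat_lit 261) (nat_lit 211))) (XT.nd (nat_lit 78) (nat_lit 0) (nat_lit 0) (XT.lf (nat_lit 0) (nat_lit 776132714532) (nat_lit 76) (nat_lit 45491504794) (nat_lit 76) (nat_lit 37690997919) (nat_lit 3) (nat_lit 4) (nat_lit 4) (nat_lit 5) (nat_lit 4) (nat_lit 4) (nat_lit 309) (nat_lit 261) (nat_lit 210)) (XT.nd (nat_lit 78) (nat_lit 0) (nat_lit 0) (XT.lf (nat_lit 0) (nat_lit 921708995034) (nat_lit 76) (nat_lit 36092559430) (nat_lit 76) (nat_lit 28291235455) (nat_lit 3) (nat_lit 4) (nat_lit 4) (nat_lit 5) (nat_lit 4) (nat_lit 4) (nat_lit 310) (nat_lit 261) (nat_lit 209)) (XT.lf (nat_lit 0) (nat_lit 1089116020869) (nat_lit 76) (nat_lit 25286713142) (nat_lit 76) (nat_lit 17484678645) (nat_lit 3) (nat_lit 4) (nat_lit 4) (nat_lit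 5) (nat_lit 4) (nat_lit 4) (nat_lit 311) (nat_lit 261) (nat_lit 208))))))) (XT.nd (nat_lit 780) (nat_lit 0) (nat_lit 0) (XT.nd (nat_lit 390) (nat_lit 0) (nat_lit 0) (XT.nd (nat_lit 156) (nat_lit 0) (nat_lit 0) (XT.nd (nat_lit 78) (nat_lit 152) (nat_lit 0) (XT.lf (nat_lit 0) (nat_lit 1281629146889) (nat_lit 76) (nat_lit 12862547198) (nat_lit 76) (nat_lit 5059894856) (nat_lit 3) (nat_lit 4) (nat_lit 4) (nat_lit 5) (nat_lit 4) (nat_lit 4) (nat_lit 312) (nat_lit 261) (nat_lit 207)) (XT.lf (nat_lit 0) (nat_lit 8970858918) (nat_lit 152) (nat_lit 1481067159055) (nat_lit 0) (nat_lit 2185476660) (nat_lit 1) (nat_lit 5) (nat_lit 3) (nat_lit 4) (nat_lit 1) (nat_lit 4) (nat_lit 313) (nat_lit 261) (nat_lit 206))) (XT.nd (nat_lit 78) (nat_lit 0) (nat_lit 0) (XT.lf (nat_lit 0) (nat_lit 26179988035) (nat_lit 152) (nat_lit 1667947087079) (nat_lit 0) (nat_lit 19394199533) (nat_lit 1) (nat_lit 5) (nat_lit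 3) (nat_lit 4) (nat_lit 1) (nat_lit 4) (nat_lit 314) (nat_lit 261) (nat_lit 205)) (XT.nd (nat_lit 78) (nat_lit 0) (nat_lit 0) (XT.lf (nat_lit 0) (nat_lit 45968599403) (nat_lit 152) (nat_lit 1882862948070) (nat_lit 0) (nat_lit 39182457647) (nat_lit 1) (nat_lit 5) (nat_lit 3) (nat_lit 4) (nat_lit 1) (nat_lit 4) (nat_lit 315) (nat_lit 261) (nat_lit 204)) (XT.lf (nat_lit 0) (nat_lit 68723861506) (nat_lit 152) (nat_lit 2130019617570) (nat_lit 0) (nat_lit 61937412572) (nat_lit 1) (nat_lit 5) (nat_lit 3) (nat_lit 4) (nat_lit 1) (nat_lit 4) (nat_lit 316) (nat_lit 261) (nat_lit 203))))) (XT.nd (nat_lit 156) (nat_lit 0) (nat_lit 0) (XT.nd (nat_lit 78) (nat_lit 0) (nat_lit 0) (XT.lf (nat_lit 0) (nat_lit 94890985994) (nat_lit 152) (nat_lit 2414252769545) (nat_lit 0) (nat_lit 88104269949) (nat_lit 1) (nat_lit 5) (nat_lit 3) (nat_lit 4) (nat_lit 1) (nat_lit 4) (nat_lit 317) (nat_lit 261) (nat_lit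 202)) (XT.lf (nat_lit 0) (nat_lit 124981938346) (nat_lit 152) (nat_lit 2741123487406) (nat_lit 0) (nat_lit 118194990030) (nat_lit 1) (nat_lit 5) (nat_lit 3) (nat_lit 4) (nat_lit 1) (nat_lit 4) (nat_lit 318) (nat_lit 261) (nat_lit 201))) (XT.nd (nat_lit 78) (nat_lit 0) (nat_lit 0) (XT.lf (nat_lit 0) (nat_lit 159585454586) (nat_lit 152) (nat_lit 3117027067804) (nat_lit 0) (nat_lit 152798304295) (nat_lit 1) (nat_lit 5) (nat_lit 3) (nat_lit 4) (nat_lit 1) (nat_lit 4) (nat_lit 319) (nat_lit 261) (nat_lit 200)) (XT.nd (nat_lit 78) (nat_lit 0) (nat_lit 0) (XT.lf (nat_lit 0) (nat_lit 199378560032) (nat_lit 152) (nat_lit 3549318146010) (nat_lit 0) (nat_lit 192591234111) (nat_lit 1) (nat_lit 5) (nat_lit 3) (nat_lit 4) (nat_lit 1) (nat_lit 4) (nat_lit 320) (nat_lit 261) (nat_lit 199)) (XT.lf (nat_lit 0) (nat_lit 245139815442) (nat_lit 152) (nat_lit 4046454590945) (nat_lit 0) (nat_lit 238352336800)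 (nat_lit 1) (nat_lit 5) (nat_lit 3) (nat_lit 4) (nat_lit 1) (nat_lit 4) (nat_lit 321) (nat_lit 261) (nat_lit 198)))))) (XT.nd (nat_lit 390) (nat_lit 0) (nat_lit 0) (XT.nd (nat_lit 156) (nat_lit 0) (nat_lit 0) (XT.nd (nat_lit 78) (nat_lit 0) (nat_lit 0) (XT.lf (nat_lit 0) (nat_lit 297764549728) (nat_lit 152) (nat_lit 4618162985227) (nat_lit 0) (nat_lit 290976938284) (nat_lit 1) (nat_lit 5) (nat_lit 3) (nat_lit 4) (nat_lit 1) (nat_lit 4) (nat_lit 322) (nat_lit 261) (nat_lit 197)) (XT.lf (nat_lit 0) (nat_lit 358282377254) (nat_lit 152) (nat_lit 5275628927874) (nat_lit 0) (nat_lit 351494650331) (nat_lit 1) (nat_lit 5) (nat_lit 3) (nat_lit 4) (nat_lit 1) (nat_lit 4) (nat_lit 323) (nat_lit 261) (nat_lit 196))) (XT.nd (nat_lit 78) (nat_lit 0) (nat_lit 0) (XT.lf (nat_lit 0) (nat_lit 427877342474) (nat_lit 152) (nat_lit 6031715882981) (nat_lit 0) (nat_lit 421089515133) (nat_lit 1) (nat_lit 5)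 (nat_lit 3) (nat_lit 4) (nat_lit 1) (nat_lit 4) (nat_lit 324) (nat_lit 261) (nat_lit 195)) (XT.nd (nat_lit 78) (nat_lit 0) (nat_lit 0) (XT.lf (nat_lit 0) (nat_lit 507911086010) (nat_lit 152) (nat_lit 6901216856193) (nat_lit 0) (nat_lit 501123171350) (nat_lit 1) (nat_lit 5) (nat_lit 3) (nat_lit 4) (nat_lit 1) (nat_lit 4) (nat_lit 325) (nat_lit 261) (nat_lit 194)) (XT.lf (nat_lit 0) (nat_lit 599949485454) (nat_lit 152) (nat_lit 7901143823072) (nat_lit 0) (nat_lit 593161494864) (nat_lit 1) (nat_lit 5) (nat_lit 3) (nat_lit 4) (nat_lit 1) (nat_lit 4) (nat_lit 326) (nat_lit 261) (nat_lit 193))))) (XT.nd (nat_lit 156) (nat_lit 0) (nat_lit 0) (XT.nd (nat_lit 78) (nat_lit 0) (nat_lit 0) (XT.lf (nat_lit 0) (nat_lit 705793292099) (nat_lit 152) (nat_lit 9051060572100) (nat_lit 0) (nat_lit 699005235483) (nat_lit 1) (nat_lit 5) (nat_lit 3) (nat_lit 4) (nat_lit 1) (nat_lit 4) (nat_lit 327) (nat_lit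 261) (nat_lit 192)) (XT.lf (nat_lit 0) (nat_lit 827513363032) (nat_lit 152) (nat_lit 10373465474454) (nat_lit 0) (nat_lit 820725249002) (nat_lit 1) (nat_lit 5) (nat_lit 3) (nat_lit 4) (nat_lit 1) (nat_lit 4) (nat_lit 328) (nat_lit 261) (nat_lit 191))) (XT.nd (nat_lit 78) (nat_lit 0) (nat_lit 0) (XT.lf (nat_lit 0) (nat_lit 967491177901) (nat_lit 152) (nat_lit 11894231669527) (nat_lit 0) (nat_lit 960703013946) (nat_lit 1) (nat_lit 5) (nat_lit 3) (nat_lit 4) (nat_lit 1) (nat_lit 4) (nat_lit 329) (nat_lit 261) (nat_lit 190)) (XT.nd (nat_lit 78) (nat_lit 0) (nat_lit 0) (XT.lf (nat_lit 0) (nat_lit 1128465433084) (nat_lit 152) (nat_lit 13643113278529) (nat_lit 0) (nat_lit 1121677225717) (nat_lit 1) (nat_lit 5) (nat_lit 3) (nat_lit 4) (nat_lit 1) (nat_lit 4) (nat_lit 330) (nat_lit 261) (nat_lit 189)) (XT.lf (nat_lit 0) (nat_lit 1313585624878) (nat_lit 152) (nat_lit 15654327550330) (nat_lit 0)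 (nat_lit 1306797379761) (nat_lit 1) (nat_lit 5) (nat_lit 3) (nat_lit 4) (nat_lit 1) (nat_lit 4) (nat_lit 331) (nat_lit 261) (nat_lit 188))))))))
noncomputable def xc51 : XT := (XT.nd (nat_lit 35724) (nat_lit 0) (nat_lit 456) (XT.nd (nat_lit 780) (nat_lit 0) (nat_lit 0) (XT.nd (nat_lit 390) (nat_lit 0) (nat_lit 0) (XT.nd (nat_lit 156) (nat_lit 0) (nat_lit 0) (XT.nd (nat_lit 78) (nat_lit 0) (nat_lit 0) (XT.lf (nat_lit 0) (nat_lit 1526473670080) (nat_lit 152) (nat_lit 17967224329380) (nat_lit 0) (nat_lit 1519685392136) (nat_lit 1) (nat_lit 5) (nat_lit 3) (nat_lit 4) (nat_lit 1) (nat_lit 4) (nat_lit 332) (nat_lit 261) (nat_lit 187)) (XT.lf (nat_lit 0) (nat_lit 1771294769574) (nat_lit 152) (nat_lit 20627055943962) (nat_lit 0) (nat_lit 1764506463085) (nat_lit 1) (nat_lit 5) (nat_lit 3) (nat_lit 4) (nat_lit 1) (nat_lit 4) (nat_lit 333) (nat_lit 261) (nat_lit 186))) (XT.nd (nat_lit 78) (nat_lit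 0) (nat_lit 0) (XT.lf (nat_lit 0) (nat_lit 2052838901392) (nat_lit 152) (nat_lit 23685862577843) (nat_lit 0) (nat_lit 2046050570082) (nat_lit 1) (nat_lit 5) (nat_lit 3) (nat_lit 4) (nat_lit 1) (nat_lit 4) (nat_lit 334) (nat_lit 261) (nat_lit 185)) (XT.nd (nat_lit 78) (nat_lit 0) (nat_lit 0) (XT.lf (nat_lit 0) (nat_lit 2376614537681) (nat_lit 152) (nat_lit 27203490447770) (nat_lit 0) (nat_lit 2369826184786) (nat_lit 1) (nat_lit 5) (nat_lit 3) (nat_lit 4) (nat_lit 1) (nat_lit 4) (nat_lit 335) (nat_lit 261) (nat_lit 184)) (XT.lf (nat_lit 0) (nat_lit 2748956419148) (nat_lit 152) (nat_lit 31248762707721) (nat_lit 0) (nat_lit 2742168047485) (nat_lit 1) (nat_lit 5) (nat_lit 3) (nat_lit 4) (nat_lit 1) (nat_lit 4) (nat_lit 336) (nat_lit 261) (nat_lit 183))))) (XT.nd (nat_lit 156) (nat_lit 0) (nat_lit 0) (XT.nd (nat_lit 78) (nat_lit 0) (nat_lit 0) (XT.lf (nat_lit 0) (nat_lit 3177149495650) (nat_lit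 152) (nat_lit 35900825988868) (nat_lit 0) (nat_lit 3170361107666) (nat_lit 1) (nat_lit 5) (nat_lit 3) (nat_lit 4) (nat_lit 1) (nat_lit 4) (nat_lit 337) (nat_lit 261) (nat_lit 182)) (XT.lf (nat_lit 0) (nat_lit 3669571457814) (nat_lit 152) (nat_lit 41250698920627) (nat_lit 0) (nat_lit 3662783055638) (nat_lit 1) (nat_lit 5) (nat_lit 3) (nat_lit 4) (nat_lit 1) (nat_lit 4) (nat_lit 338) (nat_lit 261) (nat_lit 181))) (XT.nd (nat_lit 78) (nat_lit 0) (nat_lit 0) (XT.lf (nat_lit 0) (nat_lit 4235856648376) (nat_lit 152) (nat_lit 47403052929922) (nat_lit 0) (nat_lit 4229068233860) (nat_lit 1) (nat_lit 5) (nat_lit 3) (nat_lit 4) (nat_lit 1) (nat_lit 4) (nat_lit 339) (nat_lit 261) (nat_lit 180)) (XT.nd (nat_lit 78) (nat_lit 0) (nat_lit 0) (XT.lf (nat_lit 0) (nat_lit 4887084560198) (nat_lit 152) (nat_lit 54478260160413) (nat_lit 0) (nat_lit 4880296134950) (nat_lit 1) (nat_lit 5) (nat_lit 3) (nat_lit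 4) (nat_lit 1) (nat_lit 4) (nat_lit 340) (nat_lit 261) (nat_lit 179)) (XT.lf (nat_lit 0) (nat_lit 5635996608943) (nat_lit 152) (nat_lit 62614748579653) (nat_lit 0) (nat_lit 5629208174365) (nat_lit 1) (nat_lit 5) (nat_lit 3) (nat_lit 4) (nat_lit 1) (nat_lit 4) (nat_lit 341) (nat_lit 261) (nat_lit 178)))))) (XT.nd (nat_lit 34554) (nat_lit 0) (nat_lit 1672) (XT.nd (nat_lit 156) (nat_lit 0) (nat_lit 0) (XT.nd (nat_lit 78) (nat_lit 0) (nat_lit 0) (XT.lf (nat_lit 0) (nat_lit 6497245421654) (nat_lit 152) (nat_lit 71971710352368) (nat_lit 0) (nat_lit 6490456978961) (nat_lit 1) (nat_lit 5) (nat_lit 3) (nat_lit 4) (nat_lit 1) (nat_lit 4) (nat_lit 342) (nat_lit 261) (nat_lit 177)) (XT.lf (nat_lit 0) (nat_lit 7487681518578) (nat_lit 152) (nat_lit 82732216469761) (nat_lit 0) (nat_lit 7480893068830) (nat_lit 1) (nat_lit 5) (nat_lit 3) (nat_lit 4) (nat_lit 1) (nat_lit 4) (nat_lit 343) (nat_lit 261)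 (nat_lit 176))) (XT.nd (nat_lit 34242) (nat_lit 0) (nat_lit 2432) (XT.lf (nat_lit 0) (nat_lit 8626682997265) (nat_lit 152) (nat_lit 95106798573261) (nat_lit 0) (nat_lit 8619894541381) (nat_lit 1) (nat_lit 5) (nat_lit 3) (nat_lit 4) (nat_lit 1) (nat_lit 4) (nat_lit 344) (nat_lit 261) (nat_lit 175)) (XT.nd (nat_lit 78) (nat_lit 0) (nat_lit 0) (XT.lf (nat_lit 0) (nat_lit 1835059211) (nat_lit 228) (nat_lit 785479699) (nat_lit 228) (nat_lit 785479699) (nat_lit 33) (nat_lit 3) (nat_lit 36) (nat_lit 3) (nat_lit 36) (nat_lit 5) (nat_lit 262) (nat_lit 262) (nat_lit 256)) (XT.lf (nat_lit 76) (nat_lit 1879265787) (nat_lit 0) (nat_lit 3932479243) (nat_lit 228) (nat_lit 1224001656) (nat_lit 34) (nat_lit 5) (nat_lit 33) (nat_lit 3) (nat_lit 36) (nat_lit 5) (nat_lit 263) (nat_lit 262) (nat_lit 255))))) (XT.nd (nat_lit 156) (nat_lit 532) (nat_lit 0) (XT.nd (nat_lit 78) (nat_lit 0) (nat_lit 76) (XT.lf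 (nat_lit 0) (nat_lit 636695164) (nat_lit 228) (nat_lit 1538082934) (nat_lit 304) (nat_lit 5151886062) (nat_lit 30) (nat_lit 5) (nat_lit 33) (nat_lit 3) (nat_lit 34) (nat_lit 5) (nat_lit 264) (nat_lit 262) (nat_lit 254)) (XT.lf (nat_lit 0) (nat_lit 2465068910) (nat_lit 228) (nat_lit 5097788799) (nat_lit 76) (nat_lit 118510153) (nat_lit 31) (nat_lit 5) (nat_lit 34) (nat_lit 5) (nat_lit 32) (nat_lit 5) (nat_lit 265) (nat_lit 262) (nat_lit 253))) (XT.nd (nat_lit 78) (nat_lit 608) (nat_lit 0) (XT.lf (nat_lit 0) (nat_lit 4490558720) (nat_lit 228) (nat_lit 928486432) (nat_lit 76) (nat_lit 2682650364) (nat_lit 31) (nat_lit 5) (nat_lit 34) (nat_lit 5) (nat_lit 32) (nat_lit 5) (nat_lit 266) (nat_lit 262) (nat_lit 252)) (XT.nd (nat_lit 78) (nat_lit 380) (nat_lit 0) (XT.lf (nat_lit 0) (nat_lit 4014735341) (nat_lit 228) (nat_lit 2741005061) (nat_lit 304) (nat_lit 1839688521) (nat_lit 28) (nat_lit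 5) (nat_lit 31) (nat_lit 5) (nat_lit 32) (nat_lit 5) (nat_lit 267) (nat_lit 262) (nat_lit 251)) (XT.lf (nat_lit 0) (nat_lit 48196611) (nat_lit 380) (nat_lit 8745954363) (nat_lit 76) (nat_lit 388156921) (nat_lit 23) (nat_lit 5) (nat_lit 28) (nat_lit 5) (nat_lit 24) (nat_lit 5) (nat_lit 268) (nat_lit 262) (nat_lit 250))))))) (XT.nd (nat_lit 780) (nat_lit 532) (nat_lit 0) (XT.nd (nat_lit 390) (nat_lit 380) (nat_lit 0) (XT.nd (nat_lit 156) (nat_lit 152) (nat_lit 0) (XT.nd (nat_lit 78) (nat_lit 152) (nat_lit 0) (XT.lf (nat_lit 0) (nat_lit 2212519276) (nat_lit 380) (nat_lit 3571250504) (nat_lit 76) (nat_lit 4033552229) (nat_lit 23) (nat_lit 5) (nat_lit 28) (nat_lit 5) (nat_lit 24) (nat_lit 5) (nat_lit 269) (nat_lit 262) (nat_lit 249)) (XT.lf (nat_lit 0) (nat_lit 2381996014) (nat_lit 152) (nat_lit 2244416631) (nat_lit 228) (nat_lit 5932858554) (nat_lit 21) (nat_lit 5) (nat_lit 23) (nat_lit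 5) (nat_lit 24) (nat_lit 5) (nat_lit 270) (nat_lit 262) (nat_lit 248))) (XT.nd (nat_lit 78) (nat_lit 152) (nat_lit 0) (XT.lf (nat_lit 0) (nat_lit 7512528527) (nat_lit 228) (nat_lit 2062183153) (nat_lit 76) (nat_lit 1821646665) (nat_lit 21) (nat_lit 5) (nat_lit 24) (nat_lit 5) (nat_lit 22) (nat_lit 4) (nat_lit 271) (nat_lit 262) (nat_lit 247)) (XT.nd (nat_lit 78) (nat_lit 76) (nat_lit 0) (XT.lf (nat_lit 0) (nat_lit 5125930139) (nat_lit 76) (nat_lit 5884732824) (nat_lit 152) (nat_lit 1321798990) (nat_lit 20) (nat_lit 5) (nat_lit 21) (nat_lit 5) (nat_lit 22) (nat_lit 4) (nat_lit 272) (nat_lit 262) (nat_lit 246)) (XT.lf (nat_lit 0) (nat_lit 1457001305) (nat_lit 152) (nat_lit 39613842) (nat_lit 76) (nat_lit 11905952704) (nat_lit 19) (nat_lit 5) (nat_lit 21) (nat_lit 5) (nat_lit 20) (nat_lit 5) (nat_lit 273) (nat_lit 262) (nat_lit 245))))) (XT.nd (nat_lit 156) (nat_lit 152) (nat_lit 0) (XT.nd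 (nat_lit 78) (nat_lit 76) (nat_lit 0) (XT.lf (nat_lit 0) (nat_lit 4926279993) (nat_lit 228) (nat_lit 6006893050) (nat_lit 76) (nat_lit 3629436824) (nat_lit 17) (nat_lit 5) (nat_lit 20) (nat_lit 5) (nat_lit 18) (nat_lit 4) (nat_lit 274) (nat_lit 262) (nat_lit 244)) (XT.lf (nat_lit 0) (nat_lit 2522642888) (nat_lit 76) (nat_lit 6459385350) (nat_lit 152) (nat_lit 6904900427) (nat_lit 16) (nat_lit 5) (nat_lit 17) (nat_lit 5) (nat_lit 18) (nat_lit 4) (nat_lit 275) (nat_lit 262) (nat_lit 243))) (XT.nd (nat_lit 78) (nat_lit 152) (nat_lit 0) (XT.lf (nat_lit 0) (nat_lit 12835813831) (nat_lit 76) (nat_lit 1020013951) (nat_lit 152) (nat_lit 3522772524) (nat_lit 16) (nat_lit 5) (nat_lit 17) (nat_lit 5) (nat_lit 18) (nat_lit 4) (nat_lit 276) (nat_lit 262) (nat_lit 242)) (XT.nd (nat_lit 78) (nat_lit 0) (nat_lit 0) (XT.lf (nat_lit 0) (nat_lit 712295873) (nat_lit 152) (nat_lit 13336500631) (nat_lit 76)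 (nat_lit 4986328688) (nat_lit 14) (nat_lit 5) (nat_lit 16) (nat_lit 5) (nat_lit 15) (nat_lit 4) (nat_lit 277) (nat_lit 262) (nat_lit 241)) (XT.lf (nat_lit 0) (nat_lit 5427760148) (nat_lit 152) (nat_lit 3307070111) (nat_lit 76) (nat_lit 12149369966) (nat_lit 14) (nat_lit 5) (nat_lit 16) (nat_lit 5) (nat_lit 15) (nat_lit 4) (nat_lit 278) (nat_lit 262) (nat_lit 240)))))) (XT.nd (nat_lit 390) (nat_lit 228) (nat_lit 0) (XT.nd (nat_lit 156) (nat_lit 228) (nat_lit 0) (XT.nd (nat_lit 78) (nat_lit 0) (nat_lit 0) (XT.lf (nat_lit 0) (nat_lit 8876381960) (nat_lit 76) (nat_lit 2262111273) (nat_lit 152) (nat_lit 11829041463) (nat_lit 13) (nat_lit 5) (nat_lit 14) (nat_lit 5) (nat_lit 15) (nat_lit 4) (nat_lit 279) (nat_lit 262) (nat_lit 239)) (XT.lf (nat_lit 0) (nat_lit 18024252780) (nat_lit 152) (nat_lit 2444275949) (nat_lit 0) (nat_lit 4847156878) (nat_lit 13) (nat_lit 5) (nat_lit 15) (nat_lit 4)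 (nat_lit 13) (nat_lit 4) (nat_lit 280) (nat_lit 262) (nat_lit 238))) (XT.nd (nat_lit 78) (nat_lit 152) (nat_lit 0) (XT.lf (nat_lit 0) (nat_lit 11764895488) (nat_lit 76) (nat_lit 14705693961) (nat_lit 76) (nat_lit 1466381202) (nat_lit 12) (nat_lit 4) (nat_lit 13) (nat_lit 5) (nat_lit 13) (nat_lit 4) (nat_lit 281) (nat_lit 262) (nat_lit 237)) (XT.nd (nat_lit 78) (nat_lit 76) (nat_lit 0) (XT.lf (nat_lit 0) (nat_lit 4834062577) (nat_lit 152) (nat_lit 2900179831) (nat_lit 76) (nat_lit 23174639063) (nat_lit 11) (nat_lit 5) (nat_lit 13) (nat_lit 5) (nat_lit 12) (nat_lit 4) (nat_lit 282) (nat_lit 262) (nat_lit 236)) (XT.lf (nat_lit 0) (nat_lit 12464808143) (nat_lit 152) (nat_lit 20906628145) (nat_lit 0) (nat_lit 864408789) (nat_lit 10) (nat_lit 5) (nat_lit 12) (nat_lit 4) (nat_lit 10) (nat_lit 4) (nat_lit 283) (nat_lit 262) (nat_lit 235))))) (XT.nd (nat_lit 234) (nat_lit 152) (nat_lit 0) (XT.nd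 (nat_lit 78) (nat_lit 76) (nat_lit 0) (XT.lf (nat_lit 0) (nat_lit 21710724656) (nat_lit 152) (nat_lit 6205831239) (nat_lit 0) (nat_lit 10074752613) (nat_lit 10) (nat_lit 5) (nat_lit 12) (nat_lit 4) (nat_lit 10) (nat_lit 4) (nat_lit 284) (nat_lit 262) (nat_lit 234)) (XT.nd (nat_lit 78) (nat_lit 0) (nat_lit 0) (XT.lf (nat_lit 0) (nat_lit 11640617259) (nat_lit 76) (nat_lit 21135744076) (nat_lit 76) (nat_lit 9468839258) (nat_lit 9) (nat_lit 4) (nat_lit 10) (nat_lit 5) (nat_lit 10) (nat_lit 4) (nat_lit 285) (nat_lit 262) (nat_lit 233)) (XT.lf (nat_lit 0) (nat_lit 32770042021) (nat_lit 76) (nat_lit 13009645199) (nat_lit 76) (nat_lit 1315842318) (nat_lit 9) (nat_lit 4) (nat_lit 10) (nat_lit 5) (nat_lit 10) (nat_lit 4) (nat_lit 286) (nat_lit 262) (nat_lit 232)))) (XT.nd (nat_lit 78) (nat_lit 0) (nat_lit 0) (XT.lf (nat_lit 0) (nat_lit 4366799997) (nat_lit 76) (nat_lit 3114126746) (nat_lit 152)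 (nat_lit 45121682388) (nat_lit 7) (nat_lit 5) (nat_lit 8) (nat_lit 5) (nat_lit 9) (nat_lit 4) (nat_lit 287) (nat_lit 262) (nat_lit 231)) (XT.nd (nat_lit 78) (nat_lit 0) (nat_lit 0) (XT.lf (nat_lit 0) (nat_lit 18547403641) (nat_lit 152) (nat_lit 31875376484) (nat_lit 0) (nat_lit 8340854681) (nat_lit 7) (nat_lit 5) (nat_lit 9) (nat_lit 4) (nat_lit 7) (nat_lit 4) (nat_lit 288) (nat_lit 262) (nat_lit 230)) (XT.lf (nat_lit 0) (nat_lit 31385755010) (nat_lit 152) (nat_lit 13282463812) (nat_lit 0) (nat_lit 21163826994) (nat_lit 7) (nat_lit 5) (nat_lit 9) (nat_lit 4) (nat_lit 7) (nat_lit 4) (nat_lit 289) (nat_lit 262) (nat_lit 229))))))))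
noncomputable def xc52 : XT := (XT.nd (nat_lit 1560) (nat_lit 152) (nat_lit 0) (XT.nd (nat_lit 780) (nat_lit 0) (nat_lit 0) (XT.nd (nat_lit 390) (nat_lit 76) (nat_lit 0) (XT.nd (nat_lit 156) (nat_lit 152) (nat_lit 0) (XT.nd (nat_lit 78) (nat_lit 0) (nat_lit 0) (XT.lf (nat_lit 0) (nat_lit 8820955017) (nat_lit 76) (nat_lit 37662518556) (nat_lit 76) (nat_lit 27427217449) (nat_lit 6) (nat_lit 4) (nat_lit 7) (nat_lit 5) (nat_lit 7) (nat_lit 4) (nat_lit 290) (nat_lit 262) (nat_lit 228)) (XT.lf (nat_lit 0) (nat_lit 35671818287) (nat_lit 76) (nat_lit 28838307976) (nat_lit 76) (nat_lit 18591378094) (nat_lit 6) (nat_lit 4) (nat_lit 7) (nat_lit 5) (nat_lit 7) (nat_lit 4) (nat_lit 291) (nat_lit 262) (nat_lit 227))) (XT.nd (nat_lit 78) (nat_lit 152) (nat_lit 0) (XT.lf (nat_lit 0) (nat_lit 66497410009) (nat_lit 76) (nat_lit 18717250093) (nat_lit 76) (nat_lit 8460208232) (nat_lit 6) (nat_lit 4) (nat_lit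 7) (nat_lit 5) (nat_lit 7) (nat_lit 4) (nat_lit 292) (nat_lit 262) (nat_lit 226)) (XT.nd (nat_lit 78) (nat_lit 76) (nat_lit 0) (XT.lf (nat_lit 0) (nat_lit 2882784054) (nat_lit 152) (nat_lit 4067849169) (nat_lit 76) (nat_lit 98867364549) (nat_lit 5) (nat_lit 5) (nat_lit 7) (nat_lit 5) (nat_lit 6) (nat_lit 4) (nat_lit 293) (nat_lit 262) (nat_lit 225)) (XT.lf (nat_lit 0) (nat_lit 16381803361) (nat_lit 152) (nat_lit 95693917543) (nat_lit 0) (nat_lit 7448341627) (nat_lit 4) (nat_lit 5) (nat_lit 6) (nat_lit 4) (nat_lit 4) (nat_lit 4) (nat_lit 294) (nat_lit 262) (nat_lit 224))))) (XT.nd (nat_lit 156) (nat_lit 76) (nat_lit 0) (XT.nd (nat_lit 78) (nat_lit 0) (nat_lit 0) (XT.lf (nat_lit 0) (nat_lit 32438916097) (nat_lit 152) (nat_lit 79267468384) (nat_lit 0) (nat_lit 23499672806) (nat_lit 4) (nat_lit 5) (nat_lit 6) (nat_lit 4) (nat_lit 4) (nat_lit 4) (nat_lit 295) (nat_lit 262) (nat_lit 223))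 (XT.lf (nat_lit 0) (nat_lit 50886765159) (nat_lit 152) (nat_lit 60413771791) (nat_lit 0) (nat_lit 41942494428) (nat_lit 4) (nat_lit 5) (nat_lit 6) (nat_lit 4) (nat_lit 4) (nat_lit 4) (nat_lit 296) (nat_lit 262) (nat_lit 222))) (XT.nd (nat_lit 78) (nat_lit 76) (nat_lit 0) (XT.lf (nat_lit 0) (nat_lit 72086286725) (nat_lit 152) (nat_lit 38763951090) (nat_lit 0) (nat_lit 63137644306) (nat_lit 4) (nat_lit 5) (nat_lit 6) (nat_lit 4) (nat_lit 4) (nat_lit 4) (nat_lit 297) (nat_lit 262) (nat_lit 221)) (XT.nd (nat_lit 78) (nat_lit 76) (nat_lit 0) (XT.lf (nat_lit 0) (nat_lit 96452254043) (nat_lit 152) (nat_lit 13894422834) (nat_lit 0) (nat_lit 87499810156) (nat_lit 4) (nat_lit 5) (nat_lit 6) (nat_lit 4) (nat_lit 4) (nat_lit 4) (nat_lit 298) (nat_lit 262) (nat_lit 220)) (XT.lf (nat_lit 0) (nat_lit 16116162978) (nat_lit 76) (nat_lit 109012565522) (nat_lit 76) (nat_lit 100056816012) (nat_lit 3) (nat_lit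 4) (nat_lit 4) (nat_lit 5) (nat_lit 4) (nat_lit 4) (nat_lit 299) (nat_lit 262) (nat_lit 219)))))) (XT.nd (nat_lit 390) (nat_lit 0) (nat_lit 0) (XT.nd (nat_lit 156) (nat_lit 0) (nat_lit 0) (XT.nd (nat_lit 78) (nat_lit 0) (nat_lit 0) (XT.lf (nat_lit 0) (nat_lit 52166833816) (nat_lit 76) (nat_lit 106654990685) (nat_lit 76) (nat_lit 97696366720) (nat_lit 3) (nat_lit 4) (nat_lit 4) (nat_lit 5) (nat_lit 4) (nat_lit 4) (nat_lit 300) (nat_lit 262) (nat_lit 218)) (XT.lf (nat_lit 0) (nat_lit 93605064842) (nat_lit 76) (nat_lit 103954125277) (nat_lit 76) (nat_lit 94993001785) (nat_lit 3) (nat_lit 4) (nat_lit 4) (nat_lit 5) (nat_lit 4) (nat_lit 4) (nat_lit 301) (nat_lit 262) (nat_lit 217))) (XT.nd (nat_lit 78) (nat_lit 0) (nat_lit 0) (XT.lf (nat_lit 0) (nat_lit 141241604055) (nat_lit 76) (nat_lit 100857126279) (nat_lit 76) (nat_lit 91893829286) (nat_lit 3) (nat_lit 4) (nat_lit 4) (nat_lit 5) (nat_lit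 4) (nat_lit 4) (nat_lit 302) (nat_lit 262) (nat_lit 216)) (XT.nd (nat_lit 78) (nat_lit 0) (nat_lit 0) (XT.lf (nat_lit 0) (nat_lit 196008470699) (nat_lit 76) (nat_lit 97303400233) (nat_lit 76) (nat_lit 88338213238) (nat_lit 3) (nat_lit 4) (nat_lit 4) (nat_lit 5) (nat_lit 4) (nat_lit 4) (nat_lit 303) (nat_lit 262) (nat_lit 215)) (XT.lf (nat_lit 0) (nat_lit 258977190427) (nat_lit 76) (nat_lit 93223417715) (nat_lit 76) (nat_lit 84256587241) (nat_lit 3) (nat_lit 4) (nat_lit 4) (nat_lit 5) (nat_lit 4) (nat_lit 4) (nat_lit 304) (nat_lit 262) (nat_lit 214))))) (XT.nd (nat_lit 156) (nat_lit 0) (nat_lit 0) (XT.nd (nat_lit 78) (nat_lit 0) (nat_lit 0) (XT.lf (nat_lit 0) (nat_lit 331379759928) (nat_lit 76) (nat_lit 88537352981) (nat_lit 76) (nat_lit 79569093395) (nat_lit 3) (nat_lit 4) (nat_lit 4) (nat_lit 5) (nat_lit 4) (nat_lit 4) (nat_lit 305) (nat_lit 262) (nat_lit 213)) (XT.lf (nat_lit 0) (nat_lit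 414632751216) (nat_lit 76) (nat_lit 83153522156) (nat_lit 76) (nat_lit 74184019863) (nat_lit 3) (nat_lit 4) (nat_lit 4) (nat_lit 5) (nat_lit 4) (nat_lit 4) (nat_lit 306) (nat_lit 262) (nat_lit 212))) (XT.nd (nat_lit 78) (nat_lit 0) (nat_lit 0) (XT.lf (nat_lit 0) (nat_lit 510365027162) (nat_lit 76) (nat_lit 76966589418) (nat_lit 76) (nat_lit 67996006512) (nat_lit 3) (nat_lit 4) (nat_lit 4) (nat_lit 5) (nat_lit 4) (nat_lit 4) (nat_lit 307) (nat_lit 262) (nat_lit 211)) (XT.nd (nat_lit 78) (nat_lit 0) (nat_lit 0) (XT.lf (nat_lit 0) (nat_lit 620449610558) (nat_lit 76) (nat_lit 69855506085) (nat_lit 76) (nat_lit 60883983514) (nat_lit 3) (nat_lit 4) (nat_lit 4) (nat_lit 5) (nat_lit 4) (nat_lit 4) (nat_lit 308) (nat_lit 262) (nat_lit 210)) (XT.lf (nat_lit 0) (nat_lit 747040330208) (nat_lit 76) (nat_lit 61681142264) (nat_lit 76) (nat_lit 52708802594) (nat_lit 3) (nat_lit 4) (nat_lit 4) (nat_lit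 5) (nat_lit 4) (nat_lit 4) (nat_lit 309) (nat_lit 262) (nat_lit 209))))))) (XT.nd (nat_lit 780) (nat_lit 0) (nat_lit 0) (XT.nd (nat_lit 390) (nat_lit 0) (nat_lit 0) (XT.nd (nat_lit 156) (nat_lit 152) (nat_lit 0) (XT.nd (nat_lit 78) (nat_lit 0) (nat_lit 0) (XT.lf (nat_lit 0) (nat_lit 892613961062) (nat_lit 76) (nat_lit 52283564752) (nat_lit 76) (nat_lit 43310514559) (nat_lit 3) (nat_lit 4) (nat_lit 4) (nat_lit 5) (nat_lit 4) (nat_lit 4) (nat_lit 310) (nat_lit 262) (nat_lit 208)) (XT.lf (nat_lit 0) (nat_lit 1060018682855) (nat_lit 76) (nat_lit 41478907899) (nat_lit 76) (nat_lit 32505239862) (nat_lit 3) (nat_lit 4) (nat_lit 4) (nat_lit 5) (nat_lit 4) (nat_lit 4) (nat_lit 311) (nat_lit 262) (nat_lit 207))) (XT.nd (nat_lit 78) (nat_lit 152) (nat_lit 0) (XT.lf (nat_lit 0) (nat_lit 1252529805361) (nat_lit 76) (nat_lit 29055776248) (nat_lit 76) (nat_lit 20081570954) (nat_lit 3) (nat_lit 4) (nat_lit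 4) (nat_lit 5) (nat_lit 4) (nat_lit 4) (nat_lit 312) (nat_lit 262) (nat_lit 206)) (XT.nd (nat_lit 78) (nat_lit 152) (nat_lit 0) (XT.lf (nat_lit 0) (nat_lit 1473913850541) (nat_lit 76) (nat_lit 14771108525) (nat_lit 76) (nat_lit 5796436052) (nat_lit 3) (nat_lit 4) (nat_lit 4) (nat_lit 5) (nat_lit 4) (nat_lit 4) (nat_lit 313) (nat_lit 262) (nat_lit 205)) (XT.lf (nat_lit 0) (nat_lit 10336807166) (nat_lit 152) (nat_lit 1703184768672) (nat_lit 0) (nat_lit 2532390892) (nat_lit 1) (nat_lit 5) (nat_lit 3) (nat_lit 4) (nat_lit 1) (nat_lit 4) (nat_lit 314) (nat_lit 262) (nat_lit 204))))) (XT.nd (nat_lit 156) (nat_lit 0) (nat_lit 0) (XT.nd (nat_lit 78) (nat_lit 0) (nat_lit 0) (XT.lf (nat_lit 0) (nat_lit 30124655293) (nat_lit 152) (nat_lit 1918102224714) (nat_lit 0) (nat_lit 22319931840) (nat_lit 1) (nat_lit 5) (nat_lit 3) (nat_lit 4) (nat_lit 1) (nat_lit 4) (nat_lit 315) (nat_lit 262) (nat_lit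 203)) (XT.lf (nat_lit 0) (nat_lit 52879253707) (nat_lit 152) (nat_lit 2165260281214) (nat_lit 0) (nat_lit 45074263143) (nat_lit 1) (nat_lit 5) (nat_lit 3) (nat_lit 4) (nat_lit 1) (nat_lit 4) (nat_lit 316) (nat_lit 262) (nat_lit 202))) (XT.nd (nat_lit 78) (nat_lit 0) (nat_lit 0) (XT.lf (nat_lit 0) (nat_lit 79045801074) (nat_lit 152) (nat_lit 2449494639277) (nat_lit 0) (nat_lit 71240578240) (nat_lit 1) (nat_lit 5) (nat_lit 3) (nat_lit 4) (nat_lit 1) (nat_lit 4) (nat_lit 317) (nat_lit 262) (nat_lit 201)) (XT.nd (nat_lit 78) (nat_lit 0) (nat_lit 0) (XT.lf (nat_lit 0) (nat_lit 109136251582) (nat_lit 152) (nat_lit 2776366405909) (nat_lit 0) (nat_lit 101330826773) (nat_lit 1) (nat_lit 5) (nat_lit 3) (nat_lit 4) (nat_lit 1) (nat_lit 4) (nat_lit 318) (nat_lit 262) (nat_lit 200)) (XT.lf (nat_lit 0) (nat_lit 143739331436) (nat_lit 152) (nat_lit 3152270898284) (nat_lit 0) (nat_lit 135933730997)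 (nat_lit 1) (nat_lit 5) (nat_lit 3) (nat_lit 4) (nat_lit 1) (nat_lit 4) (nat_lit 319) (nat_lit 262) (nat_lit 199)))))) (XT.nd (nat_lit 390) (nat_lit 0) (nat_lit 0) (XT.nd (nat_lit 156) (nat_lit 0) (nat_lit 0) (XT.nd (nat_lit 78) (nat_lit 0) (nat_lit 0) (XT.lf (nat_lit 0) (nat_lit 183532057416) (nat_lit 152) (nat_lit 3584562769512) (nat_lit 0) (nat_lit 175726304255) (nat_lit 1) (nat_lit 5) (nat_lit 3) (nat_lit 4) (nat_lit 1) (nat_lit 4) (nat_lit 320) (nat_lit 262) (nat_lit 198)) (XT.lf (nat_lit 0) (nat_lit 229292982856) (nat_lit 152) (nat_lit 4081699904031) (nat_lit 0) (nat_lit 221487096893) (nat_lit 1) (nat_lit 5) (nat_lit 3) (nat_lit 4) (nat_lit 1) (nat_lit 4) (nat_lit 321) (nat_lit 262) (nat_lit 197))) (XT.nd (nat_lit 78) (nat_lit 0) (nat_lit 0) (XT.lf (nat_lit 0) (nat_lit 281917430210) (nat_lit 152) (nat_lit 4653408897951) (nat_lit 0) (nat_lit 274111428768) (nat_lit 1) (nat_lit 5)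 (nat_lit 3) (nat_lit 4) (nat_lit 1) (nat_lit 4) (nat_lit 322) (nat_lit 262) (nat_lit 196)) (XT.nd (nat_lit 78) (nat_lit 0) (nat_lit 0) (XT.lf (nat_lit 0) (nat_lit 342435008232) (nat_lit 152) (nat_lit 5310875362023) (nat_lit 0) (nat_lit 334628906373) (nat_lit 1) (nat_lit 5) (nat_lit 3) (nat_lit 4) (nat_lit 1) (nat_lit 4) (nat_lit 323) (nat_lit 262) (nat_lit 195)) (XT.lf (nat_lit 0) (nat_lit 412029756490) (nat_lit 152) (nat_lit 6066962770544) (nat_lit 0) (nat_lit 404223567312) (nat_lit 1) (nat_lit 5) (nat_lit 3) (nat_lit 4) (nat_lit 1) (nat_lit 4) (nat_lit 324) (nat_lit 262) (nat_lit 194))))) (XT.nd (nat_lit 156) (nat_lit 0) (nat_lit 0) (XT.nd (nat_lit 78) (nat_lit 0) (nat_lit 0) (XT.lf (nat_lit 0) (nat_lit 492063311364) (nat_lit 152) (nat_lit 6936464138028) (nat_lit 0) (nat_lit 484257046257) (nat_lit 1) (nat_lit 5) (nat_lit 3) (nat_lit 4) (nat_lit 1) (nat_lit 4) (nat_lit 325) (nat_lit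 262) (nat_lit 193)) (XT.lf (nat_lit 0) (nat_lit 584101546755) (nat_lit 152) (nat_lit 7936391447752) (nat_lit 0) (nat_lit 576295215621) (nat_lit 1) (nat_lit 5) (nat_lit 3) (nat_lit 4) (nat_lit 1) (nat_lit 4) (nat_lit 326) (nat_lit 262) (nat_lit 192))) (XT.nd (nat_lit 78) (nat_lit 0) (nat_lit 0) (XT.lf (nat_lit 0) (nat_lit 689945210744) (nat_lit 152) (nat_lit 9086308494906) (nat_lit 0) (nat_lit 682138822197) (nat_lit 1) (nat_lit 5) (nat_lit 3) (nat_lit 4) (nat_lit 1) (nat_lit 4) (nat_lit 327) (nat_lit 262) (nat_lit 191)) (XT.nd (nat_lit 78) (nat_lit 0) (nat_lit 0) (XT.lf (nat_lit 0) (nat_lit 811665157629) (nat_lit 152) (nat_lit 10408713656500) (nat_lit 0) (nat_lit 803858719156) (nat_lit 1) (nat_lit 5) (nat_lit 3) (nat_lit 4) (nat_lit 1) (nat_lit 4) (nat_lit 328) (nat_lit 262) (nat_lit 190)) (XT.lf (nat_lit 0) (nat_lit 951642864630) (nat_lit 152) (nat_lit 11929480077001) (nat_lit 0) (nat_lit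 943836382744) (nat_lit 1) (nat_lit 5) (nat_lit 3) (nat_lit 4) (nat_lit 1) (nat_lit 4) (nat_lit 329) (nat_lit 262) (nat_lit 189))))))))
noncomputable def xc53 : XT := (XT.nd (nat_lit 35802) (nat_lit 0) (nat_lit 456) (XT.nd (nat_lit 780) (nat_lit 0) (nat_lit 0) (XT.nd (nat_lit 390) (nat_lit 0) (nat_lit 0) (XT.nd (nat_lit 156) (nat_lit 0) (nat_lit 0) (XT.nd (nat_lit 78) (nat_lit 0) (nat_lit 0) (XT.lf (nat_lit 0) (nat_lit 1112617026015) (nat_lit 152) (nat_lit 13678361882025) (nat_lit 0) (nat_lit 1104810506379) (nat_lit 1) (nat_lit 5) (nat_lit 3) (nat_lit 4) (nat_lit 1) (nat_lit 4) (nat_lit 330) (nat_lit 262) (nat_lit 188)) (XT.lf (nat_lit 0) (nat_lit 1297737136246) (nat_lit 152) (nat_lit 15689576324281) (nat_lit 0) (nat_lit 1289930583783) (nat_lit 1) (nat_lit 5) (nat_lit 3) (nat_lit 4) (nat_lit 1) (nat_lit 4) (nat_lit 331) (nat_lit 262) (nat_lit 187))) (XT.nd (nat_lit 78) (nat_lit 0) (nat_lit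 0) (XT.lf (nat_lit 0) (nat_lit 1510625110523) (nat_lit 152) (nat_lit 18002473251552) (nat_lit 0) (nat_lit 1502818529515) (nat_lit 1) (nat_lit 5) (nat_lit 3) (nat_lit 4) (nat_lit 1) (nat_lit 4) (nat_lit 332) (nat_lit 262) (nat_lit 186)) (XT.nd (nat_lit 78) (nat_lit 0) (nat_lit 0) (XT.lf (nat_lit 0) (nat_lit 1755446148342) (nat_lit 152) (nat_lit 20662304995023) (nat_lit 0) (nat_lit 1747639542513) (nat_lit 1) (nat_lit 5) (nat_lit 3) (nat_lit 4) (nat_lit 1) (nat_lit 4) (nat_lit 333) (nat_lit 262) (nat_lit 185)) (XT.lf (nat_lit 0) (nat_lit 2036990226531) (nat_lit 152) (nat_lit 23721111740980) (nat_lit 0) (nat_lit 2029183599119) (nat_lit 1) (nat_lit 5) (nat_lit 3) (nat_lit 4) (nat_lit 1) (nat_lit 4) (nat_lit 334) (nat_lit 262) (nat_lit 184))))) (XT.nd (nat_lit 156) (nat_lit 0) (nat_lit 0) (XT.nd (nat_lit 78) (nat_lit 0) (nat_lit 0) (XT.lf (nat_lit 0) (nat_lit 2360765816185) (nat_lit 152) (nat_lit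 27238739708365) (nat_lit 0) (nat_lit 2352959170004) (nat_lit 1) (nat_lit 5) (nat_lit 3) (nat_lit 4) (nat_lit 1) (nat_lit 4) (nat_lit 335) (nat_lit 262) (nat_lit 183)) (XT.lf (nat_lit 0) (nat_lit 2733107657101) (nat_lit 152) (nat_lit 31284012053062) (nat_lit 0) (nat_lit 2725300994599) (nat_lit 1) (nat_lit 5) (nat_lit 3) (nat_lit 4) (nat_lit 1) (nat_lit 4) (nat_lit 336) (nat_lit 262) (nat_lit 182))) (XT.nd (nat_lit 78) (nat_lit 0) (nat_lit 0) (XT.lf (nat_lit 0) (nat_lit 3161300698341) (nat_lit 152) (nat_lit 35936075407902) (nat_lit 0) (nat_lit 3153494021647) (nat_lit 1) (nat_lit 5) (nat_lit 3) (nat_lit 4) (nat_lit 1) (nat_lit 4) (nat_lit 337) (nat_lit 262) (nat_lit 181)) (XT.nd (nat_lit 78) (nat_lit 0) (nat_lit 0) (XT.lf (nat_lit 0) (nat_lit 3653722629842) (nat_lit 152) (nat_lit 41285948403741) (nat_lit 0) (nat_lit 3645915940807) (nat_lit 1) (nat_lit 5) (nat_lit 3) (nat_lit 4) (nat_lit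 1) (nat_lit 4) (nat_lit 338) (nat_lit 262) (nat_lit 180)) (XT.lf (nat_lit 0) (nat_lit 4220007793741) (nat_lit 152) (nat_lit 47438302468758) (nat_lit 0) (nat_lit 4212201093976) (nat_lit 1) (nat_lit 5) (nat_lit 3) (nat_lit 4) (nat_lit 1) (nat_lit 4) (nat_lit 339) (nat_lit 262) (nat_lit 179)))))) (XT.nd (nat_lit 34632) (nat_lit 0) (nat_lit 2052) (XT.nd (nat_lit 156) (nat_lit 0) (nat_lit 0) (XT.nd (nat_lit 78) (nat_lit 0) (nat_lit 0) (XT.lf (nat_lit 0) (nat_lit 4871235682377) (nat_lit 152) (nat_lit 54513509747703) (nat_lit 0) (nat_lit 4863428973280) (nat_lit 1) (nat_lit 5) (nat_lit 3) (nat_lit 4) (nat_lit 1) (nat_lit 4) (nat_lit 340) (nat_lit 262) (nat_lit 178)) (XT.lf (nat_lit 0) (nat_lit 5620147710961) (nat_lit 152) (nat_lit 62649998209077) (nat_lit 0) (nat_lit 5612340993750) (nat_lit 1) (nat_lit 5) (nat_lit 3) (nat_lit 4) (nat_lit 1) (nat_lit 4) (nat_lit 341) (nat_lit 262) (nat_lit 177)))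 (XT.nd (nat_lit 78) (nat_lit 0) (nat_lit 0) (XT.lf (nat_lit 0) (nat_lit 6481396506141) (nat_lit 152) (nat_lit 72006960018429) (nat_lit 0) (nat_lit 6473589781874) (nat_lit 1) (nat_lit 5) (nat_lit 3) (nat_lit 4) (nat_lit 1) (nat_lit 4) (nat_lit 342) (nat_lit 262) (nat_lit 176)) (XT.nd (nat_lit 78) (nat_lit 0) (nat_lit 0) (XT.lf (nat_lit 0) (nat_lit 7471832587820) (nat_lit 152) (nat_lit 82767466167682) (nat_lit 0) (nat_lit 7464025857418) (nat_lit 1) (nat_lit 5) (nat_lit 3) (nat_lit 4) (nat_lit 1) (nat_lit 4) (nat_lit 343) (nat_lit 262) (nat_lit 175)) (XT.lf (nat_lit 0) (nat_lit 8610834053250) (nat_lit 152) (nat_lit 95142048298885) (nat_lit 0) (nat_lit 8603027317513) (nat_lit 1) (nat_lit 5) (nat_lit 3) (nat_lit 4) (nat_lit 1) (nat_lit 4) (nat_lit 344) (nat_lit 262) (nat_lit 174))))) (XT.nd (nat_lit 156) (nat_lit 152) (nat_lit 0) (XT.nd (nat_lit 78) (nat_lit 0) (nat_lit 0) (XT.lf (nat_lit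 0) (nat_lit 82090941) (nat_lit 0) (nat_lit 82090941) (nat_lit 228) (nat_lit 3486434893) (nat_lit 30) (nat_lit 5) (nat_lit 30) (nat_lit 3) (nat_lit 33) (nat_lit 3) (nat_lit 263) (nat_lit 263) (nat_lit 254)) (XT.lf (nat_lit 0) (nat_lit 1934345638) (nat_lit 228) (nat_lit 3658154673) (nat_lit 304) (nat_lit 2014363354) (nat_lit 30) (nat_lit 5) (nat_lit 33) (nat_lit 3) (nat_lit 34) (nat_lit 5) (nat_lit 264) (nat_lit 263) (nat_lit 253))) (XT.nd (nat_lit 78) (nat_lit 152) (nat_lit 0) (XT.lf (nat_lit 76) (nat_lit 171243437) (nat_lit 0) (nat_lit 3365119077) (nat_lit 304) (nat_lit 4459552521) (nat_lit 31) (nat_lit 5) (nat_lit 30) (nat_lit 5) (nat_lit 34) (nat_lit 5) (nat_lit 265) (nat_lit 263) (nat_lit 252)) (XT.nd (nat_lit 78) (nat_lit 152) (nat_lit 0) (XT.lf (nat_lit 76) (nat_lit 4815542922) (nat_lit 0) (nat_lit 521407011) (nat_lit 304) (nat_lit 3113370843) (nat_lit 31) (nat_lit 5) (nat_lit 30)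 (nat_lit 5) (nat_lit 34) (nat_lit 5) (nat_lit 266) (nat_lit 263) (nat_lit 251)) (XT.lf (nat_lit 0) (nat_lit 974921477) (nat_lit 228) (nat_lit 6386573370) (nat_lit 304) (nat_lit 1618952877) (nat_lit 28) (nat_lit 5) (nat_lit 31) (nat_lit 5) (nat_lit 32) (nat_lit 5) (nat_lit 267) (nat_lit 263) (nat_lit 250))))))) (XT.nd (nat_lit 780) (nat_lit 684) (nat_lit 0) (XT.nd (nat_lit 390) (nat_lit 380) (nat_lit 0) (XT.nd (nat_lit 156) (nat_lit 152) (nat_lit 0) (XT.nd (nat_lit 78) (nat_lit 304) (nat_lit 0) (XT.lf (nat_lit 0) (nat_lit 124114984) (nat_lit 304) (nat_lit 3107515397) (nat_lit 76) (nat_lit 6353325514) (nat_lit 27) (nat_lit 5) (nat_lit 31) (nat_lit 5) (nat_lit 28) (nat_lit 5) (nat_lit 268) (nat_lit 263) (nat_lit 249)) (XT.lf (nat_lit 0) (nat_lit 1925849956) (nat_lit 380) (nat_lit 7799649259) (nat_lit 76) (nat_lit 549054904) (nat_lit 23) (nat_lit 5) (nat_lit 28) (nat_lit 5) (nat_lit 24)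 (nat_lit 5) (nat_lit 269) (nat_lit 263) (nat_lit 248))) (XT.nd (nat_lit 78) (nat_lit 152) (nat_lit 0) (XT.lf (nat_lit 0) (nat_lit 4170852692) (nat_lit 380) (nat_lit 2143287420) (nat_lit 76) (nat_lit 4727867189) (nat_lit 23) (nat_lit 5) (nat_lit 28) (nat_lit 5) (nat_lit 24) (nat_lit 5) (nat_lit 270) (nat_lit 263) (nat_lit 247)) (XT.nd (nat_lit 78) (nat_lit 0) (nat_lit 0) (XT.lf (nat_lit 0) (nat_lit 4613689228) (nat_lit 152) (nat_lit 2198609117) (nat_lit 228) (nat_lit 5103644807) (nat_lit 21) (nat_lit 5) (nat_lit 23) (nat_lit 5) (nat_lit 24) (nat_lit 5) (nat_lit 271) (nat_lit 263) (nat_lit 246)) (XT.lf (nat_lit 0) (nat_lit 9950504389) (nat_lit 228) (nat_lit 557792998) (nat_lit 76) (nat_lit 2397867477) (nat_lit 21) (nat_lit 5) (nat_lit 24) (nat_lit 5) (nat_lit 22) (nat_lit 4) (nat_lit 272) (nat_lit 263) (nat_lit 245))))) (XT.nd (nat_lit 156) (nat_lit 76) (nat_lit 0) (XT.nd (nat_lit 78)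 (nat_lit 228) (nat_lit 0) (XT.lf (nat_lit 0) (nat_lit 7626095578) (nat_lit 76) (nat_lit 6247939259) (nat_lit 152) (nat_lit 123936854) (nat_lit 20) (nat_lit 5) (nat_lit 21) (nat_lit 5) (nat_lit 22) (nat_lit 4) (nat_lit 273) (nat_lit 263) (nat_lit 244)) (XT.lf (nat_lit 0) (nat_lit 1723370076) (nat_lit 152) (nat_lit 1129489166) (nat_lit 228) (nat_lit 12381536423) (nat_lit 17) (nat_lit 5) (nat_lit 19) (nat_lit 5) (nat_lit 20) (nat_lit 5) (nat_lit 274) (nat_lit 263) (nat_lit 243))) (XT.nd (nat_lit 78) (nat_lit 76) (nat_lit 0) (XT.lf (nat_lit 0) (nat_lit 6712156533) (nat_lit 228) (nat_lit 5231709817) (nat_lit 76) (nat_lit 4644389422) (nat_lit 17) (nat_lit 5) (nat_lit 20) (nat_lit 5) (nat_lit 18) (nat_lit 4) (nat_lit 275) (nat_lit 263) (nat_lit 242)) (XT.nd (nat_lit 78) (nat_lit 0) (nat_lit 0) (XT.lf (nat_lit 0) (nat_lit 4501064821) (nat_lit 76) (nat_lit 6804899158) (nat_lit 152) (nat_lit 6816026308)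 (nat_lit 16) (nat_lit 5) (nat_lit 17) (nat_lit 5) (nat_lit 18) (nat_lit 4) (nat_lit 276) (nat_lit 263) (nat_lit 241)) (XT.lf (nat_lit 0) (nat_lit 16152512427) (nat_lit 76) (nat_lit 630934309) (nat_lit 152) (nat_lit 3073267375) (nat_lit 16) (nat_lit 5) (nat_lit 17) (nat_lit 5) (nat_lit 18) (nat_lit 4) (nat_lit 277) (nat_lit 263) (nat_lit 240)))))) (XT.nd (nat_lit 390) (nat_lit 380) (nat_lit 0) (XT.nd (nat_lit 156) (nat_lit 152) (nat_lit 0) (XT.nd (nat_lit 78) (nat_lit 0) (nat_lit 0) (XT.lf (nat_lit 0) (nat_lit 1676259618) (nat_lit 152) (nat_lit 13822751150) (nat_lit 76) (nat_lit 6261840233) (nat_lit 14) (nat_lit 5) (nat_lit 16) (nat_lit 5) (nat_lit 15) (nat_lit 4) (nat_lit 278) (nat_lit 263) (nat_lit 239)) (XT.lf (nat_lit 0) (nat_lit 6987245356) (nat_lit 152) (nat_lit 2486413606) (nat_lit 76) (nat_lit 14430525237) (nat_lit 14) (nat_lit 5) (nat_lit 16) (nat_lit 5) (nat_lit 15) (nat_lit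 4) (nat_lit 279) (nat_lit 263) (nat_lit 238))) (XT.nd (nat_lit 78) (nat_lit 76) (nat_lit 0) (XT.lf (nat_lit 0) (nat_lit 11464705502) (nat_lit 76) (nat_lit 2044711247) (nat_lit 152) (nat_lit 12797488434) (nat_lit 13) (nat_lit 5) (nat_lit 14) (nat_lit 5) (nat_lit 15) (nat_lit 4) (nat_lit 280) (nat_lit 263) (nat_lit 237)) (XT.nd (nat_lit 78) (nat_lit 76) (nat_lit 0) (XT.lf (nat_lit 0) (nat_lit 21356761986) (nat_lit 152) (nat_lit 1646070807) (nat_lit 0) (nat_lit 6015233842) (nat_lit 13) (nat_lit 5) (nat_lit 15) (nat_lit 4) (nat_lit 13) (nat_lit 4) (nat_lit 281) (nat_lit 263) (nat_lit 236)) (XT.lf (nat_lit 0) (nat_lit 14641528776) (nat_lit 76) (nat_lit 16392535055) (nat_lit 76) (nat_lit 1003962027) (nat_lit 12) (nat_lit 4) (nat_lit 13) (nat_lit 5) (nat_lit 13) (nat_lit 4) (nat_lit 282) (nat_lit 263) (nat_lit 235))))) (XT.nd (nat_lit 234) (nat_lit 228) (nat_lit 0) (XT.nd (nat_lit 78) (nat_lit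 76) (nat_lit 0) (XT.lf (nat_lit 0) (nat_lit 6099716741) (nat_lit 152) (nat_lit 2315090626) (nat_lit 76) (nat_lit 27048903061) (nat_lit 11) (nat_lit 5) (nat_lit 13) (nat_lit 5) (nat_lit 12) (nat_lit 4) (nat_lit 283) (nat_lit 263) (nat_lit 234)) (XT.nd (nat_lit 78) (nat_lit 0) (nat_lit 0) (XT.lf (nat_lit 0) (nat_lit 14864076988) (nat_lit 152) (nat_lit 23011142471) (nat_lit 0) (nat_lit 1416203674) (nat_lit 10) (nat_lit 5) (nat_lit 12) (nat_lit 4) (nat_lit 10) (nat_lit 4) (nat_lit 284) (nat_lit 263) (nat_lit 233)) (XT.lf (nat_lit 0) (nat_lit 25427809549) (nat_lit 152) (nat_lit 6239766885) (nat_lit 0) (nat_lit 11953038171) (nat_lit 10) (nat_lit 5) (nat_lit 12) (nat_lit 4) (nat_lit 10) (nat_lit 4) (nat_lit 285) (nat_lit 263) (nat_lit 232)))) (XT.nd (nat_lit 78) (nat_lit 152) (nat_lit 0) (XT.lf (nat_lit 0) (nat_lit 14242878931) (nat_lit 76) (nat_lit 23885802822) (nat_lit 76) (nat_lit 10387641823)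 (nat_lit 9) (nat_lit 4) (nat_lit 10) (nat_lit 5) (nat_lit 10) (nat_lit 4) (nat_lit 286) (nat_lit 263) (nat_lit 231)) (XT.nd (nat_lit 78) (nat_lit 152) (nat_lit 0) (XT.lf (nat_lit 0) (nat_lit 38430043179) (nat_lit 76) (nat_lit 14595611226) (nat_lit 76) (nat_lit 1077111426) (nat_lit 9) (nat_lit 4) (nat_lit 10) (nat_lit 5) (nat_lit 10) (nat_lit 4) (nat_lit 287) (nat_lit 263) (nat_lit 230)) (XT.lf (nat_lit 0) (nat_lit 5769734730) (nat_lit 76) (nat_lit 3209763150) (nat_lit 152) (nat_lit 51456855556) (nat_lit 7) (nat_lit 5) (nat_lit 8) (nat_lit 5) (nat_lit 9) (nat_lit 4) (nat_lit 288) (nat_lit 263) (nat_lit 229))))))))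
noncomputable def xc54 : XT := (XT.nd (nat_lit 1560) (nat_lit 152) (nat_lit 0) (XT.nd (nat_lit 780) (nat_lit 76) (nat_lit 0) (XT.nd (nat_lit 390) (nat_lit 152) (nat_lit 0) (XT.nd (nat_lit 156) (nat_lit 76) (nat_lit 0) (XT.nd (nat_lit 78) (nat_lit 0) (nat_lit 0) (XT.lf (nat_lit 0) (nat_lit 21670222385) (nat_lit 152) (nat_lit 35970439916) (nat_lit 0) (nat_lit 9886253021) (nat_lit 7) (nat_lit 5) (nat_lit 9) (nat_lit 4) (nat_lit 7) (nat_lit 4) (nat_lit 289) (nat_lit 263) (nat_lit 228)) (XT.lf (nat_lit 0) (nat_lit 36389886259) (nat_lit 152) (nat_lit 14678100306) (nat_lit 0) (nat_lit 24594288119) (nat_lit 7) (nat_lit 5) (nat_lit 9) (nat_lit 4) (nat_lit 7) (nat_lit 4) (nat_lit 290) (nat_lit 263) (nat_lit 227))) (XT.nd (nat_lit 78) (nat_lit 0) (nat_lit 0) (XT.lf (nat_lit 0) (nat_lit 10713707117) (nat_lit 76) (nat_lit 43023498126) (nat_lit 76) (nat_lit 31217788007) (nat_lit 6) (nat_lit 4) (nat_lit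 7) (nat_lit 5) (nat_lit 7) (nat_lit 4) (nat_lit 291) (nat_lit 263) (nat_lit 226)) (XT.nd (nat_lit 78) (nat_lit 0) (nat_lit 0) (XT.lf (nat_lit 0) (nat_lit 41517903071) (nat_lit 76) (nat_lit 32913273118) (nat_lit 76) (nat_lit 21098769974) (nat_lit 6) (nat_lit 4) (nat_lit 7) (nat_lit 5) (nat_lit 7) (nat_lit 4) (nat_lit 292) (nat_lit 263) (nat_lit 225)) (XT.lf (nat_lit 0) (nat_lit 76902727634) (nat_lit 76) (nat_lit 21306767124) (nat_lit 76) (nat_lit 9484617872) (nat_lit 6) (nat_lit 4) (nat_lit 7) (nat_lit 5) (nat_lit 7) (nat_lit 4) (nat_lit 293) (nat_lit 263) (nat_lit 224))))) (XT.nd (nat_lit 156) (nat_lit 0) (nat_lit 0) (XT.nd (nat_lit 78) (nat_lit 76) (nat_lit 0) (XT.lf (nat_lit 0) (nat_lit 3508978783) (nat_lit 152) (nat_lit 4284493658) (nat_lit 76) (nat_lit 113868089916) (nat_lit 5) (nat_lit 5) (nat_lit 7) (nat_lit 5) (nat_lit 6) (nat_lit 4) (nat_lit 294) (nat_lit 263) (nat_lit 223))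 (XT.lf (nat_lit 0) (nat_lit 19031063642) (nat_lit 152) (nat_lit 109652625366) (nat_lit 0) (nat_lit 8740124860) (nat_lit 4) (nat_lit 5) (nat_lit 6) (nat_lit 4) (nat_lit 4) (nat_lit 4) (nat_lit 295) (nat_lit 263) (nat_lit 222))) (XT.nd (nat_lit 78) (nat_lit 0) (nat_lit 0) (XT.lf (nat_lit 0) (nat_lit 37471701143) (nat_lit 152) (nat_lit 90813780113) (nat_lit 0) (nat_lit 27176390674) (nat_lit 4) (nat_lit 5) (nat_lit 6) (nat_lit 4) (nat_lit 4) (nat_lit 4) (nat_lit 296) (nat_lit 263) (nat_lit 221)) (XT.nd (nat_lit 78) (nat_lit 0) (nat_lit 0) (XT.lf (nat_lit 0) (nat_lit 58664951786) (nat_lit 152) (nat_lit 69176873622) (nat_lit 0) (nat_lit 48365839850) (nat_lit 4) (nat_lit 5) (nat_lit 6) (nat_lit 4) (nat_lit 4) (nat_lit 4) (nat_lit 297) (nat_lit 263) (nat_lit 220)) (XT.lf (nat_lit 0) (nat_lit 83025466128) (nat_lit 152) (nat_lit 44318575112) (nat_lit 0) (nat_lit 72723048568) (nat_lit 4) (nat_lit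 5) (nat_lit 6) (nat_lit 4) (nat_lit 4) (nat_lit 4) (nat_lit 298) (nat_lit 263) (nat_lit 219)))))) (XT.nd (nat_lit 390) (nat_lit 0) (nat_lit 0) (XT.nd (nat_lit 156) (nat_lit 0) (nat_lit 0) (XT.nd (nat_lit 78) (nat_lit 76) (nat_lit 0) (XT.lf (nat_lit 0) (nat_lit 111029862927) (nat_lit 152) (nat_lit 15752526570) (nat_lit 0) (nat_lit 100724570911) (nat_lit 4) (nat_lit 5) (nat_lit 6) (nat_lit 4) (nat_lit 4) (nat_lit 4) (nat_lit 299) (nat_lit 263) (nat_lit 218)) (XT.lf (nat_lit 0) (nat_lit 18749371673) (nat_lit 76) (nat_lit 125253054118) (nat_lit 76) (nat_lit 114945262576) (nat_lit 3) (nat_lit 4) (nat_lit 4) (nat_lit 5) (nat_lit 4) (nat_lit 4) (nat_lit 300) (nat_lit 263) (nat_lit 217))) (XT.nd (nat_lit 78) (nat_lit 0) (nat_lit 0) (XT.lf (nat_lit 0) (nat_lit 60179497365) (nat_lit 76) (nat_lit 122556372999) (nat_lit 76) (nat_lit 112246407956) (nat_lit 3) (nat_lit 4) (nat_lit 4) (nat_lit 5) (nat_lit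 4) (nat_lit 4) (nat_lit 301) (nat_lit 263) (nat_lit 216)) (XT.nd (nat_lit 78) (nat_lit 0) (nat_lit 0) (XT.lf (nat_lit 0) (nat_lit 107808988461) (nat_lit 76) (nat_lit 119463012513) (nat_lit 76) (nat_lit 109151157469) (nat_lit 3) (nat_lit 4) (nat_lit 4) (nat_lit 5) (nat_lit 4) (nat_lit 4) (nat_lit 302) (nat_lit 263) (nat_lit 215)) (XT.lf (nat_lit 0) (nat_lit 162569726309) (nat_lit 76) (nat_lit 115912450390) (nat_lit 76) (nat_lit 105598951866) (nat_lit 3) (nat_lit 4) (nat_lit 4) (nat_lit 5) (nat_lit 4) (nat_lit 4) (nat_lit 303) (nat_lit 263) (nat_lit 214))))) (XT.nd (nat_lit 156) (nat_lit 0) (nat_lit 0) (XT.nd (nat_lit 78) (nat_lit 0) (nat_lit 0) (XT.lf (nat_lit 0) (nat_lit 225533116648) (nat_lit 76) (nat_lit 111835219110) (nat_lit 76) (nat_lit 101520291474) (nat_lit 3) (nat_lit 4) (nat_lit 4) (nat_lit 5) (nat_lit 4) (nat_lit 4) (nat_lit 304) (nat_lit 263) (nat_lit 213)) (XT.lf (nat_lit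 0) (nat_lit 297931051899) (nat_lit 76) (nat_lit 107151546757) (nat_lit 76) (nat_lit 96835376415) (nat_lit 3) (nat_lit 4) (nat_lit 4) (nat_lit 5) (nat_lit 4) (nat_lit 4) (nat_lit 305) (nat_lit 263) (nat_lit 212))) (XT.nd (nat_lit 78) (nat_lit 0) (nat_lit 0) (XT.lf (nat_lit 0) (nat_lit 381180013403) (nat_lit 76) (nat_lit 101769796263) (nat_lit 76) (nat_lit 91452545306) (nat_lit 3) (nat_lit 4) (nat_lit 4) (nat_lit 5) (nat_lit 4) (nat_lit 4) (nat_lit 306) (nat_lit 263) (nat_lit 211)) (XT.nd (nat_lit 78) (nat_lit 0) (nat_lit 0) (XT.lf (nat_lit 0) (nat_lit 476908785190) (nat_lit 76) (nat_lit 95584672509) (nat_lit 76) (nat_lit 85266481888) (nat_lit 3) (nat_lit 4) (nat_lit 4) (nat_lit 5) (nat_lit 4) (nat_lit 4) (nat_lit 307) (nat_lit 263) (nat_lit 210)) (XT.lf (nat_lit 0) (nat_lit 586990321490) (nat_lit 76) (nat_lit 88475162205) (nat_lit 76) (nat_lit 78156154484) (nat_lit 3) (nat_lit 4) (nat_lit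 4) (nat_lit 5) (nat_lit 4) (nat_lit 4) (nat_lit 308) (nat_lit 263) (nat_lit 209))))))) (XT.nd (nat_lit 780) (nat_lit 0) (nat_lit 0) (XT.nd (nat_lit 390) (nat_lit 152) (nat_lit 0) (XT.nd (nat_lit 156) (nat_lit 0) (nat_lit 0) (XT.nd (nat_lit 78) (nat_lit 0) (nat_lit 0) (XT.lf (nat_lit 0) (nat_lit 713578391492) (nat_lit 76) (nat_lit 80302166236) (nat_lit 76) (nat_lit 69982447993) (nat_lit 3) (nat_lit 4) (nat_lit 4) (nat_lit 5) (nat_lit 4) (nat_lit 4) (nat_lit 309) (nat_lit 263) (nat_lit 208)) (XT.lf (nat_lit 0) (nat_lit 859149718305) (nat_lit 76) (nat_lit 70905778159) (nat_lit 76) (nat_lit 60585442072) (nat_lit 3) (nat_lit 4) (nat_lit 4) (nat_lit 5) (nat_lit 4) (nat_lit 4) (nat_lit 310) (nat_lit 263) (nat_lit 207))) (XT.nd (nat_lit 78) (nat_lit 0) (nat_lit 0) (XT.lf (nat_lit 0) (nat_lit 1026552436583) (nat_lit 76) (nat_lit 60102155599) (nat_lit 76) (nat_lit 49781282256) (nat_lit 3) (nat_lit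 4) (nat_lit 4) (nat_lit 5) (nat_lit 4) (nat_lit 4) (nat_lit 311) (nat_lit 263) (nat_lit 206)) (XT.nd (nat_lit 78) (nat_lit 0) (nat_lit 0) (XT.lf (nat_lit 0) (nat_lit 1219061816902) (nat_lit 76) (nat_lit 47679923332) (nat_lit 76) (nat_lit 37358582809) (nat_lit 3) (nat_lit 4) (nat_lit 4) (nat_lit 5) (nat_lit 4) (nat_lit 4) (nat_lit 312) (nat_lit 263) (nat_lit 205)) (XT.lf (nat_lit 0) (nat_lit 1440444347138) (nat_lit 76) (nat_lit 33396037683) (nat_lit 76) (nat_lit 23074290917) (nat_lit 3) (nat_lit 4) (nat_lit 4) (nat_lit 5) (nat_lit 4) (nat_lit 4) (nat_lit 313) (nat_lit 263) (nat_lit 204))))) (XT.nd (nat_lit 156) (nat_lit 0) (nat_lit 0) (XT.nd (nat_lit 78) (nat_lit 152) (nat_lit 0) (XT.lf (nat_lit 0) (nat_lit 1695031424621) (nat_lit 76) (nat_lit 16971031324) (nat_lit 76) (nat_lit 6648931303) (nat_lit 3) (nat_lit 4) (nat_lit 4) (nat_lit 5) (nat_lit 4) (nat_lit 4) (nat_lit 314) (nat_lit 263)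 (nat_lit 203)) (XT.lf (nat_lit 0) (nat_lit 11902692635) (nat_lit 152) (nat_lit 1958630374905) (nat_lit 0) (nat_lit 2926686375) (nat_lit 1) (nat_lit 5) (nat_lit 3) (nat_lit 4) (nat_lit 1) (nat_lit 4) (nat_lit 315) (nat_lit 263) (nat_lit 202))) (XT.nd (nat_lit 78) (nat_lit 0) (nat_lit 0) (XT.lf (nat_lit 0) (nat_lit 34656713929) (nat_lit 152) (nat_lit 2205789637493) (nat_lit 0) (nat_lit 25680475398) (nat_lit 1) (nat_lit 5) (nat_lit 3) (nat_lit 4) (nat_lit 1) (nat_lit 4) (nat_lit 316) (nat_lit 263) (nat_lit 201)) (XT.nd (nat_lit 78) (nat_lit 0) (nat_lit 0) (XT.lf (nat_lit 0) (nat_lit 60822759452) (nat_lit 152) (nat_lit 2490025044328) (nat_lit 0) (nat_lit 51846318947) (nat_lit 1) (nat_lit 5) (nat_lit 3) (nat_lit 4) (nat_lit 1) (nat_lit 4) (nat_lit 317) (nat_lit 263) (nat_lit 200)) (XT.lf (nat_lit 0) (nat_lit 90912773574) (nat_lit 152) (nat_lit 2816897722936) (nat_lit 0) (nat_lit 81936157439)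 (nat_lit 1) (nat_lit 5) (nat_lit 3) (nat_lit 4) (nat_lit 1) (nat_lit 4) (nat_lit 318) (nat_lit 263) (nat_lit 199)))))) (XT.nd (nat_lit 390) (nat_lit 0) (nat_lit 0) (XT.nd (nat_lit 156) (nat_lit 0) (nat_lit 0) (XT.nd (nat_lit 78) (nat_lit 0) (nat_lit 0) (XT.lf (nat_lit 0) (nat_lit 125515473961) (nat_lit 152) (nat_lit 3192803008332) (nat_lit 0) (nat_lit 116538705105) (nat_lit 1) (nat_lit 5) (nat_lit 3) (nat_lit 4) (nat_lit 1) (nat_lit 4) (nat_lit 319) (nat_lit 263) (nat_lit 198)) (XT.lf (nat_lit 0) (nat_lit 165307869971) (nat_lit 152) (nat_lit 3625095569145) (nat_lit 0) (nat_lit 156330968312) (nat_lit 1) (nat_lit 5) (nat_lit 3) (nat_lit 4) (nat_lit 1) (nat_lit 4) (nat_lit 320) (nat_lit 263) (nat_lit 197))) (XT.nd (nat_lit 78) (nat_lit 0) (nat_lit 0) (XT.lf (nat_lit 0) (nat_lit 211068508480) (nat_lit 152) (nat_lit 4122233303303) (nat_lit 0) (nat_lit 202091491342) (nat_lit 1) (nat_lit 5)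 (nat_lit 3) (nat_lit 4) (nat_lit 1) (nat_lit 4) (nat_lit 321) (nat_lit 263) (nat_lit 196)) (XT.nd (nat_lit 78) (nat_lit 0) (nat_lit 0) (XT.lf (nat_lit 0) (nat_lit 263692706329) (nat_lit 152) (nat_lit 4693942818648) (nat_lit 0) (nat_lit 254715588774) (nat_lit 1) (nat_lit 5) (nat_lit 3) (nat_lit 4) (nat_lit 1) (nat_lit 4) (nat_lit 322) (nat_lit 263) (nat_lit 195)) (XT.lf (nat_lit 0) (nat_lit 324210067389) (nat_lit 152) (nat_lit 5351409736133) (nat_lit 0) (nat_lit 315232862515) (nat_lit 1) (nat_lit 5) (nat_lit 3) (nat_lit 4) (nat_lit 1) (nat_lit 4) (nat_lit 323) (nat_lit 263) (nat_lit 194))))) (XT.nd (nat_lit 156) (nat_lit 0) (nat_lit 0) (XT.nd (nat_lit 78) (nat_lit 0) (nat_lit 0) (XT.lf (nat_lit 0) (nat_lit 393804626986) (nat_lit 152) (nat_lit 6107497538926) (nat_lit 0) (nat_lit 384827346182) (nat_lit 1) (nat_lit 5) (nat_lit 3) (nat_lit 4) (nat_lit 1) (nat_lit 4) (nat_lit 324) (nat_lit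 263) (nat_lit 193)) (XT.lf (nat_lit 0) (nat_lit 473838017807) (nat_lit 152) (nat_lit 6976999249255) (nat_lit 0) (nat_lit 464860670977) (nat_lit 1) (nat_lit 5) (nat_lit 3) (nat_lit 4) (nat_lit 1) (nat_lit 4) (nat_lit 325) (nat_lit 263) (nat_lit 192))) (XT.nd (nat_lit 78) (nat_lit 0) (nat_lit 0) (XT.lf (nat_lit 0) (nat_lit 565876110541) (nat_lit 152) (nat_lit 7976926857105) (nat_lit 0) (nat_lit 556898706298) (nat_lit 1) (nat_lit 5) (nat_lit 3) (nat_lit 4) (nat_lit 1) (nat_lit 4) (nat_lit 326) (nat_lit 263) (nat_lit 191)) (XT.nd (nat_lit 78) (nat_lit 0) (nat_lit 0) (XT.lf (nat_lit 0) (nat_lit 671719650483) (nat_lit 152) (nat_lit 9126844163500) (nat_lit 0) (nat_lit 662742196315) (nat_lit 1) (nat_lit 5) (nat_lit 3) (nat_lit 4) (nat_lit 1) (nat_lit 4) (nat_lit 327) (nat_lit 263) (nat_lit 190)) (XT.lf (nat_lit 0) (nat_lit 793439489499) (nat_lit 152) (nat_lit 10449249550521) (nat_lit 0) (nat_lit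 784461991918) (nat_lit 1) (nat_lit 5) (nat_lit 3) (nat_lit 4) (nat_lit 1) (nat_lit 4) (nat_lit 328) (nat_lit 263) (nat_lit 189))))))))
noncomputable def xc55 : XT := (XT.nd (nat_lit 35802) (nat_lit 0) (nat_lit 608) (XT.nd (nat_lit 780) (nat_lit 0) (nat_lit 0) (XT.nd (nat_lit 390) (nat_lit 0) (nat_lit 0) (XT.nd (nat_lit 156) (nat_lit 0) (nat_lit 0) (XT.nd (nat_lit 78) (nat_lit 0) (nat_lit 0) (XT.lf (nat_lit 0) (nat_lit 933417102702) (nat_lit 152) (nat_lit 11970016167044) (nat_lit 0) (nat_lit 924439567370) (nat_lit 1) (nat_lit 5) (nat_lit 3) (nat_lit 4) (nat_lit 1) (nat_lit 4) (nat_lit 329) (nat_lit 263) (nat_lit 188)) (XT.lf (nat_lit 0) (nat_lit 1094391182524) (nat_lit 152) (nat_lit 13718898142523) (nat_lit 0) (nat_lit 1085413614365) (nat_lit 1) (nat_lit 5) (nat_lit 3) (nat_lit 4) (nat_lit 1) (nat_lit 4) (nat_lit 330) (nat_lit 263) (nat_lit 187))) (XT.nd (nat_lit 78) (nat_lit 0) (nat_lit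 0) (XT.lf (nat_lit 0) (nat_lit 1279511221830) (nat_lit 152) (nat_lit 15730112733001) (nat_lit 0) (nat_lit 1270533625126) (nat_lit 1) (nat_lit 5) (nat_lit 3) (nat_lit 4) (nat_lit 1) (nat_lit 4) (nat_lit 331) (nat_lit 263) (nat_lit 186)) (XT.nd (nat_lit 78) (nat_lit 0) (nat_lit 0) (XT.lf (nat_lit 0) (nat_lit 1492399134433) (nat_lit 152) (nat_lit 18043009789160) (nat_lit 0) (nat_lit 1483421512908) (nat_lit 1) (nat_lit 5) (nat_lit 3) (nat_lit 4) (nat_lit 1) (nat_lit 4) (nat_lit 332) (nat_lit 263) (nat_lit 185)) (XT.lf (nat_lit 0) (nat_lit 1737220118623) (nat_lit 152) (nat_lit 20702841644708) (nat_lit 0) (nat_lit 1728242475514) (nat_lit 1) (nat_lit 5) (nat_lit 3) (nat_lit 4) (nat_lit 1) (nat_lit 4) (nat_lit 333) (nat_lit 263) (nat_lit 184))))) (XT.nd (nat_lit 156) (nat_lit 0) (nat_lit 0) (XT.nd (nat_lit 78) (nat_lit 0) (nat_lit 0) (XT.lf (nat_lit 0) (nat_lit 2018764150178) (nat_lit 152) (nat_lit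 23761648488123) (nat_lit 0) (nat_lit 2009786488300) (nat_lit 1) (nat_lit 5) (nat_lit 3) (nat_lit 4) (nat_lit 1) (nat_lit 4) (nat_lit 334) (nat_lit 263) (nat_lit 183)) (XT.lf (nat_lit 0) (nat_lit 2342539699280) (nat_lit 152) (nat_lit 27279276540254) (nat_lit 0) (nat_lit 2333562021082) (nat_lit 1) (nat_lit 5) (nat_lit 3) (nat_lit 4) (nat_lit 1) (nat_lit 4) (nat_lit 335) (nat_lit 263) (nat_lit 182))) (XT.nd (nat_lit 78) (nat_lit 0) (nat_lit 0) (XT.lf (nat_lit 0) (nat_lit 2714881504934) (nat_lit 152) (nat_lit 31324548958643) (nat_lit 0) (nat_lit 2705903812544) (nat_lit 1) (nat_lit 5) (nat_lit 3) (nat_lit 4) (nat_lit 1) (nat_lit 4) (nat_lit 336) (nat_lit 263) (nat_lit 181)) (XT.nd (nat_lit 78) (nat_lit 0) (nat_lit 0) (XT.lf (nat_lit 0) (nat_lit 3143074515511) (nat_lit 152) (nat_lit 35976612377564) (nat_lit 0) (nat_lit 3134096810780) (nat_lit 1) (nat_lit 5) (nat_lit 3) (nat_lit 4) (nat_lit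 1) (nat_lit 4) (nat_lit 337) (nat_lit 263) (nat_lit 180)) (XT.lf (nat_lit 0) (nat_lit 3635496420348) (nat_lit 152) (nat_lit 41326485429124) (nat_lit 0) (nat_lit 3626518704887) (nat_lit 1) (nat_lit 5) (nat_lit 3) (nat_lit 4) (nat_lit 1) (nat_lit 4) (nat_lit 338) (nat_lit 263) (nat_lit 179)))))) (XT.nd (nat_lit 390) (nat_lit 0) (nat_lit 0) (XT.nd (nat_lit 156) (nat_lit 0) (nat_lit 0) (XT.nd (nat_lit 78) (nat_lit 0) (nat_lit 0) (XT.lf (nat_lit 0) (nat_lit 4201781561062) (nat_lit 152) (nat_lit 47478839542595) (nat_lit 0) (nat_lit 4192803836269) (nat_lit 1) (nat_lit 5) (nat_lit 3) (nat_lit 4) (nat_lit 1) (nat_lit 4) (nat_lit 339) (nat_lit 263) (nat_lit 178)) (XT.lf (nat_lit 0) (nat_lit 4853009429537) (nat_lit 152) (nat_lit 54554046863674) (nat_lit 0) (nat_lit 4844031696630) (nat_lit 1) (nat_lit 5) (nat_lit 3) (nat_lit 4) (nat_lit 1) (nat_lit 4) (nat_lit 340) (nat_lit 263) (nat_lit 177)))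 (XT.nd (nat_lit 78) (nat_lit 0) (nat_lit 0) (XT.lf (nat_lit 0) (nat_lit 5601921440589) (nat_lit 152) (nat_lit 62690535361686) (nat_lit 0) (nat_lit 5592943700626) (nat_lit 1) (nat_lit 5) (nat_lit 3) (nat_lit 4) (nat_lit 1) (nat_lit 4) (nat_lit 341) (nat_lit 263) (nat_lit 176)) (XT.nd (nat_lit 78) (nat_lit 0) (nat_lit 0) (XT.lf (nat_lit 0) (nat_lit 6463170220524) (nat_lit 152) (nat_lit 72047497202898) (nat_lit 0) (nat_lit 6454192474425) (nat_lit 1) (nat_lit 5) (nat_lit 3) (nat_lit 4) (nat_lit 1) (nat_lit 4) (nat_lit 342) (nat_lit 263) (nat_lit 175)) (XT.lf (nat_lit 0) (nat_lit 7453606288947) (nat_lit 152) (nat_lit 82808003379854) (nat_lit 0) (nat_lit 7444628537513) (nat_lit 1) (nat_lit 5) (nat_lit 3) (nat_lit 4) (nat_lit 1) (nat_lit 4) (nat_lit 343) (nat_lit 263) (nat_lit 174))))) (XT.nd (nat_lit 34398) (nat_lit 0) (nat_lit 2204) (XT.nd (nat_lit 78) (nat_lit 0) (nat_lit 0) (XT.lf (nat_lit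 0) (nat_lit 8592607742850) (nat_lit 152) (nat_lit 95182585535148) (nat_lit 0) (nat_lit 8583629986777) (nat_lit 1) (nat_lit 5) (nat_lit 3) (nat_lit 4) (nat_lit 1) (nat_lit 4) (nat_lit 344) (nat_lit 263) (nat_lit 173)) (XT.lf (nat_lit 0) (nat_lit 9902459393287) (nat_lit 152) (nat_lit 109413355058773) (nat_lit 0) (nat_lit 9893481633180) (nat_lit 1) (nat_lit 5) (nat_lit 3) (nat_lit 4) (nat_lit 1) (nat_lit 4) (nat_lit 345) (nat_lit 263) (nat_lit 172))) (XT.nd (nat_lit 78) (nat_lit 0) (nat_lit 0) (XT.lf (nat_lit 0) (nat_lit 808456325) (nat_lit 0) (nat_lit 808456325) (nat_lit 228) (nat_lit 2362518975) (nat_lit 30) (nat_lit 5) (nat_lit 30) (nat_lit 3) (nat_lit 33) (nat_lit 3) (nat_lit 264) (nat_lit 264) (nat_lit 252)) (XT.nd (nat_lit 78) (nat_lit 0) (nat_lit 0) (XT.lf (nat_lit 0) (nat_lit 4656734224) (nat_lit 228) (nat_lit 2533144363) (nat_lit 304) (nat_lit 1185244954) (nat_lit 30) (nat_lit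 5) (nat_lit 33) (nat_lit 3) (nat_lit 34) (nat_lit 5) (nat_lit 265) (nat_lit 264) (nat_lit 251)) (XT.lf (nat_lit 76) (nat_lit 1794584668) (nat_lit 0) (nat_lit 4453376168) (nat_lit 304) (nat_lit 2613270592) (nat_lit 31) (nat_lit 5) (nat_lit 30) (nat_lit 5) (nat_lit 34) (nat_lit 5) (nat_lit 266) (nat_lit 264) (nat_lit 250))))))) (XT.nd (nat_lit 780) (nat_lit 608) (nat_lit 0) (XT.nd (nat_lit 390) (nat_lit 456) (nat_lit 0) (XT.nd (nat_lit 156) (nat_lit 304) (nat_lit 0) (XT.nd (nat_lit 78) (nat_lit 228) (nat_lit 0) (XT.lf (nat_lit 76) (nat_lit 6927139330) (nat_lit 0) (nat_lit 1107000001) (nat_lit 304) (nat_lit 1393233159) (nat_lit 31) (nat_lit 5) (nat_lit 30) (nat_lit 5) (nat_lit 34) (nat_lit 5) (nat_lit 267) (nat_lit 264) (nat_lit 249)) (XT.lf (nat_lit 0) (nat_lit 87786929) (nat_lit 304) (nat_lit 7326933488) (nat_lit 76) (nat_lit 2652247111) (nat_lit 27) (nat_lit 5) (nat_lit 31) (nat_lit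 5) (nat_lit 28) (nat_lit 5) (nat_lit 268) (nat_lit 264) (nat_lit 248))) (XT.nd (nat_lit 78) (nat_lit 304) (nat_lit 0) (XT.lf (nat_lit 0) (nat_lit 1693891190) (nat_lit 304) (nat_lit 2006400357) (nat_lit 76) (nat_lit 7085789209) (nat_lit 27) (nat_lit 5) (nat_lit 31) (nat_lit 5) (nat_lit 28) (nat_lit 5) (nat_lit 269) (nat_lit 264) (nat_lit 247)) (XT.nd (nat_lit 78) (nat_lit 0) (nat_lit 0) (XT.lf (nat_lit 0) (nat_lit 3629036602) (nat_lit 380) (nat_lit 7262074335) (nat_lit 76) (nat_lit 709049770) (nat_lit 23) (nat_lit 5) (nat_lit 28) (nat_lit 5) (nat_lit 24) (nat_lit 5) (nat_lit 270) (nat_lit 264) (nat_lit 246)) (XT.lf (nat_lit 0) (nat_lit 6026314642) (nat_lit 380) (nat_lit 979978522) (nat_lit 76) (nat_lit 5504557381) (nat_lit 23) (nat_lit 5) (nat_lit 28) (nat_lit 5) (nat_lit 24) (nat_lit 5) (nat_lit 271) (nat_lit 264) (nat_lit 245))))) (XT.nd (nat_lit 156) (nat_lit 228) (nat_lit 0) (XT.nd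 (nat_lit 78) (nat_lit 76) (nat_lit 0) (XT.lf (nat_lit 0) (nat_lit 6723053623) (nat_lit 152) (nat_lit 2239198209) (nat_lit 228) (nat_lit 4569272791) (nat_lit 21) (nat_lit 5) (nat_lit 23) (nat_lit 5) (nat_lit 24) (nat_lit 5) (nat_lit 272) (nat_lit 264) (nat_lit 244)) (XT.lf (nat_lit 0) (nat_lit 801307044) (nat_lit 76) (nat_lit 11666330797) (nat_lit 152) (nat_lit 2218512699) (nat_lit 20) (nat_lit 5) (nat_lit 21) (nat_lit 5) (nat_lit 22) (nat_lit 4) (nat_lit 273) (nat_lit 264) (nat_lit 243))) (XT.nd (nat_lit 78) (nat_lit 152) (nat_lit 0) (XT.lf (nat_lit 0) (nat_lit 831854140) (nat_lit 152) (nat_lit 5916973451) (nat_lit 76) (nat_lit 9203765811) (nat_lit 19) (nat_lit 5) (nat_lit 21) (nat_lit 5) (nat_lit 20) (nat_lit 5) (nat_lit 274) (nat_lit 264) (nat_lit 242)) (XT.nd (nat_lit 78) (nat_lit 0) (nat_lit 0) (XT.lf (nat_lit 0) (nat_lit 3322804171) (nat_lit 152) (nat_lit 849763515) (nat_lit 228)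 (nat_lit 13211737443) (nat_lit 17) (nat_lit 5) (nat_lit 19) (nat_lit 5) (nat_lit 20) (nat_lit 5) (nat_lit 275) (nat_lit 264) (nat_lit 241)) (XT.lf (nat_lit 0) (nat_lit 8510612935) (nat_lit 228) (nat_lit 4749005277) (nat_lit 76) (nat_lit 5696841464) (nat_lit 17) (nat_lit 5) (nat_lit 20) (nat_lit 5) (nat_lit 18) (nat_lit 4) (nat_lit 276) (nat_lit 264) (nat_lit 240)))))) (XT.nd (nat_lit 390) (nat_lit 304) (nat_lit 0) (XT.nd (nat_lit 156) (nat_lit 228) (nat_lit 0) (XT.nd (nat_lit 78) (nat_lit 0) (nat_lit 0) (XT.lf (nat_lit 0) (nat_lit 6386073693) (nat_lit 76) (nat_lit 7354258611) (nat_lit 152) (nat_lit 6988064143) (nat_lit 16) (nat_lit 5) (nat_lit 17) (nat_lit 5) (nat_lit 18) (nat_lit 4) (nat_lit 277) (nat_lit 264) (nat_lit 239)) (XT.lf (nat_lit 0) (nat_lit 19627432030) (nat_lit 76) (nat_lit 315682785) (nat_lit 152) (nat_lit 2794808688) (nat_lit 16) (nat_lit 5) (nat_lit 17) (nat_lit 5) (nat_lit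 18) (nat_lit 4) (nat_lit 278) (nat_lit 264) (nat_lit 238))) (XT.nd (nat_lit 78) (nat_lit 76) (nat_lit 0) (XT.lf (nat_lit 0) (nat_lit 2575803940) (nat_lit 152) (nat_lit 14751192500) (nat_lit 76) (nat_lit 7600029116) (nat_lit 14) (nat_lit 5) (nat_lit 16) (nat_lit 5) (nat_lit 15) (nat_lit 4) (nat_lit 279) (nat_lit 264) (nat_lit 237)) (XT.nd (nat_lit 78) (nat_lit 76) (nat_lit 0) (XT.lf (nat_lit 0) (nat_lit 8598902055) (nat_lit 152) (nat_lit 1863748410) (nat_lit 76) (nat_lit 16941984760) (nat_lit 14) (nat_lit 5) (nat_lit 16) (nat_lit 5) (nat_lit 15) (nat_lit 4) (nat_lit 280) (nat_lit 264) (nat_lit 236)) (XT.lf (nat_lit 0) (nat_lit 14134782782) (nat_lit 76) (nat_lit 1930460113) (nat_lit 152) (nat_lit 14107728524) (nat_lit 13) (nat_lit 5) (nat_lit 14) (nat_lit 5) (nat_lit 15) (nat_lit 4) (nat_lit 281) (nat_lit 264) (nat_lit 235))))) (XT.nd (nat_lit 234) (nat_lit 152) (nat_lit 0) (XT.nd (nat_lit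 78) (nat_lit 152) (nat_lit 0) (XT.lf (nat_lit 0) (nat_lit 25035793327) (nat_lit 152) (nat_lit 1012190098) (nat_lit 0) (nat_lit 7250980870) (nat_lit 13) (nat_lit 5) (nat_lit 15) (nat_lit 4) (nat_lit 13) (nat_lit 4) (nat_lit 282) (nat_lit 264) (nat_lit 234)) (XT.nd (nat_lit 78) (nat_lit 76) (nat_lit 0) (XT.lf (nat_lit 0) (nat_lit 17678513453) (nat_lit 76) (nat_lit 18458966919) (nat_lit 76) (nat_lit 638581772) (nat_lit 12) (nat_lit 4) (nat_lit 13) (nat_lit 5) (nat_lit 13) (nat_lit 4) (nat_lit 283) (nat_lit 264) (nat_lit 233)) (XT.lf (nat_lit 0) (nat_lit 7423403762) (nat_lit 152) (nat_lit 1890999832) (nat_lit 76) (nat_lit 31407235223) (nat_lit 11) (nat_lit 5) (nat_lit 13) (nat_lit 5) (nat_lit 12) (nat_lit 4) (nat_lit 284) (nat_lit 264) (nat_lit 232)))) (XT.nd (nat_lit 78) (nat_lit 76) (nat_lit 0) (XT.lf (nat_lit 0) (nat_lit 17494102618) (nat_lit 152) (nat_lit 25682866851) (nat_lit 0) (nat_lit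 1947827848) (nat_lit 10) (nat_lit 5) (nat_lit 12) (nat_lit 4) (nat_lit 10) (nat_lit 4) (nat_lit 285) (nat_lit 264) (nat_lit 231)) (XT.nd (nat_lit 78) (nat_lit 76) (nat_lit 0) (XT.lf (nat_lit 0) (nat_lit 29590167139) (nat_lit 152) (nat_lit 6497517143) (nat_lit 0) (nat_lit 14023553568) (nat_lit 10) (nat_lit 5) (nat_lit 12) (nat_lit 4) (nat_lit 10) (nat_lit 4) (nat_lit 286) (nat_lit 264) (nat_lit 230)) (XT.lf (nat_lit 0) (nat_lit 17026697601) (nat_lit 76) (nat_lit 27150863895) (nat_lit 76) (nat_lit 11566564410) (nat_lit 9) (nat_lit 4) (nat_lit 10) (nat_lit 5) (nat_lit 10) (nat_lit 4) (nat_lit 287) (nat_lit 264) (nat_lit 229))))))))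
noncomputable def xc56 : XT := (XT.nd (nat_lit 1560) (nat_lit 152) (nat_lit 0) (XT.nd (nat_lit 780) (nat_lit 76) (nat_lit 0) (XT.nd (nat_lit 390) (nat_lit 152) (nat_lit 0) (XT.nd (nat_lit 156) (nat_lit 76) (nat_lit 0) (XT.nd (nat_lit 78) (nat_lit 152) (nat_lit 0) (XT.lf (nat_lit 0) (nat_lit 44757494726) (nat_lit 76) (nat_lit 16508596954) (nat_lit 76) (nat_lit 908918414) (nat_lit 9) (nat_lit 4) (nat_lit 10) (nat_lit 5) (nat_lit 10) (nat_lit 4) (nat_lit 288) (nat_lit 264) (nat_lit 228)) (XT.lf (nat_lit 0) (nat_lit 7200725929) (nat_lit 76) (nat_lit 3410333401) (nat_lit 152) (nat_lit 58847913802) (nat_lit 7) (nat_lit 5) (nat_lit 8) (nat_lit 5) (nat_lit 9) (nat_lit 4) (nat_lit 289) (nat_lit 264) (nat_lit 227))) (XT.nd (nat_lit 78) (nat_lit 76) (nat_lit 0) (XT.lf (nat_lit 0) (nat_lit 25178380090) (nat_lit 152) (nat_lit 40847107574) (nat_lit 0) (nat_lit 11591701474) (nat_lit 7) (nat_lit 5)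 (nat_lit 9) (nat_lit 4) (nat_lit 7) (nat_lit 4) (nat_lit 290) (nat_lit 264) (nat_lit 226)) (XT.nd (nat_lit 78) (nat_lit 76) (nat_lit 0) (XT.lf (nat_lit 0) (nat_lit 42072390369) (nat_lit 152) (nat_lit 16428599414) (nat_lit 0) (nat_lit 28476918729) (nat_lit 7) (nat_lit 5) (nat_lit 9) (nat_lit 4) (nat_lit 7) (nat_lit 4) (nat_lit 291) (nat_lit 264) (nat_lit 225)) (XT.lf (nat_lit 0) (nat_lit 12751469308) (nat_lit 76) (nat_lit 49258952363) (nat_lit 76) (nat_lit 35655834614) (nat_lit 6) (nat_lit 4) (nat_lit 7) (nat_lit 5) (nat_lit 7) (nat_lit 4) (nat_lit 292) (nat_lit 264) (nat_lit 224))))) (XT.nd (nat_lit 156) (nat_lit 152) (nat_lit 0) (XT.nd (nat_lit 78) (nat_lit 0) (nat_lit 0) (XT.lf (nat_lit 0) (nat_lit 48120115596) (nat_lit 76) (nat_lit 37660637579) (nat_lit 76) (nat_lit 24050871040) (nat_lit 6) (nat_lit 4) (nat_lit 7) (nat_lit 5) (nat_lit 7) (nat_lit 4) (nat_lit 293) (nat_lit 264) (nat_lit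 223)) (XT.lf (nat_lit 0) (nat_lit 88763812486) (nat_lit 76) (nat_lit 24337889578) (nat_lit 76) (nat_lit 10722341483) (nat_lit 6) (nat_lit 4) (nat_lit 7) (nat_lit 5) (nat_lit 7) (nat_lit 4) (nat_lit 294) (nat_lit 264) (nat_lit 222))) (XT.nd (nat_lit 78) (nat_lit 76) (nat_lit 0) (XT.lf (nat_lit 0) (nat_lit 4181848943) (nat_lit 152) (nat_lit 4629600307) (nat_lit 76) (nat_lit 131077317153) (nat_lit 5) (nat_lit 5) (nat_lit 7) (nat_lit 5) (nat_lit 6) (nat_lit 4) (nat_lit 295) (nat_lit 264) (nat_lit 221)) (XT.nd (nat_lit 78) (nat_lit 0) (nat_lit 0) (XT.lf (nat_lit 0) (nat_lit 22030895041) (nat_lit 152) (nat_lit 125801555233) (nat_lit 0) (nat_lit 10183114847) (nat_lit 4) (nat_lit 5) (nat_lit 6) (nat_lit 4) (nat_lit 4) (nat_lit 4) (nat_lit 296) (nat_lit 264) (nat_lit 220)) (XT.lf (nat_lit 0) (nat_lit 43218692709) (nat_lit 152) (nat_lit 104175878489) (nat_lit 0) (nat_lit 31367606891) (nat_lit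 4) (nat_lit 5) (nat_lit 6) (nat_lit 4) (nat_lit 4) (nat_lit 4) (nat_lit 297) (nat_lit 264) (nat_lit 219)))))) (XT.nd (nat_lit 390) (nat_lit 0) (nat_lit 0) (XT.nd (nat_lit 156) (nat_lit 76) (nat_lit 0) (XT.nd (nat_lit 78) (nat_lit 0) (nat_lit 0) (XT.lf (nat_lit 0) (nat_lit 67574465332) (nat_lit 152) (nat_lit 79327344977) (nat_lit 0) (nat_lit 55720505058) (nat_lit 4) (nat_lit 5) (nat_lit 6) (nat_lit 4) (nat_lit 4) (nat_lit 4) (nat_lit 298) (nat_lit 264) (nat_lit 218)) (XT.lf (nat_lit 0) (nat_lit 95574738897) (nat_lit 152) (nat_lit 50769787737) (nat_lit 0) (nat_lit 83718279097) (nat_lit 4) (nat_lit 5) (nat_lit 6) (nat_lit 4) (nat_lit 4) (nat_lit 4) (nat_lit 299) (nat_lit 264) (nat_lit 217))) (XT.nd (nat_lit 78) (nat_lit 76) (nat_lit 0) (XT.lf (nat_lit 0) (nat_lit 127767344844) (nat_lit 152) (nat_lit 17944471954) (nat_lit 0) (nat_lit 115908711543) (nat_lit 4) (nat_lit 5) (nat_lit 6) (nat_lit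 4) (nat_lit 4) (nat_lit 4) (nat_lit 300) (nat_lit 264) (nat_lit 216)) (XT.nd (nat_lit 78) (nat_lit 0) (nat_lit 0) (XT.lf (nat_lit 0) (nat_lit 21724941316) (nat_lit 76) (nat_lit 143956780680) (nat_lit 76) (nat_lit 132096257378) (nat_lit 3) (nat_lit 4) (nat_lit 4) (nat_lit 5) (nat_lit 4) (nat_lit 4) (nat_lit 301) (nat_lit 264) (nat_lit 215)) (XT.lf (nat_lit 0) (nat_lit 69348303616) (nat_lit 76) (nat_lit 140866584118) (nat_lit 76) (nat_lit 129004417336) (nat_lit 3) (nat_lit 4) (nat_lit 4) (nat_lit 5) (nat_lit 4) (nat_lit 4) (nat_lit 302) (nat_lit 264) (nat_lit 214))))) (XT.nd (nat_lit 156) (nat_lit 0) (nat_lit 0) (XT.nd (nat_lit 78) (nat_lit 0) (nat_lit 0) (XT.lf (nat_lit 0) (nat_lit 124103712075) (nat_lit 76) (nat_lit 137318773233) (nat_lit 76) (nat_lit 125455177339) (nat_lit 3) (nat_lit 4) (nat_lit 4) (nat_lit 5) (nat_lit 4) (nat_lit 4) (nat_lit 303) (nat_lit 264) (nat_lit 213)) (XT.lf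 (nat_lit 0) (nat_lit 187062468163) (nat_lit 76) (nat_lit 133243934334) (nat_lit 76) (nat_lit 121379095733) (nat_lit 3) (nat_lit 4) (nat_lit 4) (nat_lit 5) (nat_lit 4) (nat_lit 4) (nat_lit 304) (nat_lit 264) (nat_lit 212))) (XT.nd (nat_lit 78) (nat_lit 0) (nat_lit 0) (XT.lf (nat_lit 0) (nat_lit 259456373630) (nat_lit 76) (nat_lit 128562342312) (nat_lit 76) (nat_lit 116696423097) (nat_lit 3) (nat_lit 4) (nat_lit 4) (nat_lit 5) (nat_lit 4) (nat_lit 4) (nat_lit 305) (nat_lit 264) (nat_lit 211)) (XT.nd (nat_lit 78) (nat_lit 0) (nat_lit 0) (XT.lf (nat_lit 0) (nat_lit 342701830975) (nat_lit 76) (nat_lit 123182400801) (nat_lit 76) (nat_lit 111315541922) (nat_lit 3) (nat_lit 4) (nat_lit 4) (nat_lit 5) (nat_lit 4) (nat_lit 4) (nat_lit 306) (nat_lit 264) (nat_lit 210)) (XT.lf (nat_lit 0) (nat_lit 438427555667) (nat_lit 76) (nat_lit 116998850076) (nat_lit 76) (nat_lit 105131174097) (nat_lit 3) (nat_lit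 4) (nat_lit 4) (nat_lit 5) (nat_lit 4) (nat_lit 4) (nat_lit 307) (nat_lit 264) (nat_lit 209))))))) (XT.nd (nat_lit 780) (nat_lit 0) (nat_lit 0) (XT.nd (nat_lit 390) (nat_lit 152) (nat_lit 0) (XT.nd (nat_lit 156) (nat_lit 0) (nat_lit 0) (XT.nd (nat_lit 78) (nat_lit 0) (nat_lit 0) (XT.lf (nat_lit 0) (nat_lit 548506442319) (nat_lit 76) (nat_lit 109890707624) (nat_lit 76) (nat_lit 98022321123) (nat_lit 3) (nat_lit 4) (nat_lit 4) (nat_lit 5) (nat_lit 4) (nat_lit 4) (nat_lit 308) (nat_lit 264) (nat_lit 208)) (XT.lf (nat_lit 0) (nat_lit 675092208279) (nat_lit 76) (nat_lit 101718901091) (nat_lit 76) (nat_lit 89849896746) (nat_lit 3) (nat_lit 4) (nat_lit 4) (nat_lit 5) (nat_lit 4) (nat_lit 4) (nat_lit 309) (nat_lit 264) (nat_lit 207))) (XT.nd (nat_lit 78) (nat_lit 0) (nat_lit 0) (XT.lf (nat_lit 0) (nat_lit 820661531578) (nat_lit 76) (nat_lit 92323547306) (nat_lit 76) (nat_lit 80454005705) (nat_lit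 3) (nat_lit 4) (nat_lit 4) (nat_lit 5) (nat_lit 4) (nat_lit 4) (nat_lit 310) (nat_lit 264) (nat_lit 206)) (XT.nd (nat_lit 78) (nat_lit 0) (nat_lit 0) (XT.lf (nat_lit 0) (nat_lit 988062507670) (nat_lit 76) (nat_lit 81520824131) (nat_lit 76) (nat_lit 69650815350) (nat_lit 3) (nat_lit 4) (nat_lit 4) (nat_lit 5) (nat_lit 4) (nat_lit 4) (nat_lit 311) (nat_lit 264) (nat_lit 205)) (XT.lf (nat_lit 0) (nat_lit 1180570373044) (nat_lit 76) (nat_lit 69099373937) (nat_lit 76) (nat_lit 57228958914) (nat_lit 3) (nat_lit 4) (nat_lit 4) (nat_lit 5) (nat_lit 4) (nat_lit 4) (nat_lit 312) (nat_lit 264) (nat_lit 204))))) (XT.nd (nat_lit 156) (nat_lit 152) (nat_lit 0) (XT.nd (nat_lit 78) (nat_lit 0) (nat_lit 0) (XT.lf (nat_lit 0) (nat_lit 1401951585936) (nat_lit 76) (nat_lit 54816168352) (nat_lit 76) (nat_lit 42945400074) (nat_lit 3) (nat_lit 4) (nat_lit 4) (nat_lit 5) (nat_lit 4) (nat_lit 4) (nat_lit 313)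 (nat_lit 264) (nat_lit 203)) (XT.lf (nat_lit 0) (nat_lit 1656537517903) (nat_lit 76) (nat_lit 38391753353) (nat_lit 76) (nat_lit 26520677896) (nat_lit 3) (nat_lit 4) (nat_lit 4) (nat_lit 5) (nat_lit 4) (nat_lit 4) (nat_lit 314) (nat_lit 264) (nat_lit 202))) (XT.nd (nat_lit 78) (nat_lit 152) (nat_lit 0) (XT.lf (nat_lit 0) (nat_lit 1949309198048) (nat_lit 76) (nat_lit 19504781690) (nat_lit 76) (nat_lit 7633439122) (nat_lit 3) (nat_lit 4) (nat_lit 4) (nat_lit 5) (nat_lit 4) (nat_lit 4) (nat_lit 315) (nat_lit 264) (nat_lit 201)) (XT.nd (nat_lit 78) (nat_lit 0) (nat_lit 0) (XT.lf (nat_lit 0) (nat_lit 13699714219) (nat_lit 152) (nat_lit 2252400652073) (nat_lit 0) (nat_lit 3376605664) (nat_lit 1) (nat_lit 5) (nat_lit 3) (nat_lit 4) (nat_lit 1) (nat_lit 4) (nat_lit 316) (nat_lit 264) (nat_lit 200)) (XT.lf (nat_lit 0) (nat_lit 39865323356) (nat_lit 152) (nat_lit 2536636970884) (nat_lit 0) (nat_lit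 29542039171) (nat_lit 1) (nat_lit 5) (nat_lit 3) (nat_lit 4) (nat_lit 1) (nat_lit 4) (nat_lit 317) (nat_lit 264) (nat_lit 199)))))) (XT.nd (nat_lit 390) (nat_lit 0) (nat_lit 0) (XT.nd (nat_lit 156) (nat_lit 0) (nat_lit 0) (XT.nd (nat_lit 78) (nat_lit 0) (nat_lit 0) (XT.lf (nat_lit 0) (nat_lit 69954958012) (nat_lit 152) (nat_lit 2863510442514) (nat_lit 0) (nat_lit 59631521105) (nat_lit 1) (nat_lit 5) (nat_lit 3) (nat_lit 4) (nat_lit 1) (nat_lit 4) (nat_lit 318) (nat_lit 264) (nat_lit 198)) (XT.lf (nat_lit 0) (nat_lit 104557328429) (nat_lit 152) (nat_lit 3239416417495) (nat_lit 0) (nat_lit 94233758720) (nat_lit 1) (nat_lit 5) (nat_lit 3) (nat_lit 4) (nat_lit 1) (nat_lit 4) (nat_lit 319) (nat_lit 264) (nat_lit 197))) (XT.nd (nat_lit 78) (nat_lit 0) (nat_lit 0) (XT.lf (nat_lit 0) (nat_lit 144349437507) (nat_lit 152) (nat_lit 3671709577946) (nat_lit 0) (nat_lit 134025752319) (nat_lit 1) (nat_lit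 5) (nat_lit 3) (nat_lit 4) (nat_lit 1) (nat_lit 4) (nat_lit 320) (nat_lit 264) (nat_lit 196)) (XT.nd (nat_lit 78) (nat_lit 0) (nat_lit 0) (XT.lf (nat_lit 0) (nat_lit 190109826511) (nat_lit 152) (nat_lit 4168847833529) (nat_lit 0) (nat_lit 179786040906) (nat_lit 1) (nat_lit 5) (nat_lit 3) (nat_lit 4) (nat_lit 1) (nat_lit 4) (nat_lit 321) (nat_lit 264) (nat_lit 195)) (XT.lf (nat_lit 0) (nat_lit 242733807399) (nat_lit 152) (nat_lit 4740557802287) (nat_lit 0) (nat_lit 232409934475) (nat_lit 1) (nat_lit 5) (nat_lit 3) (nat_lit 4) (nat_lit 1) (nat_lit 4) (nat_lit 322) (nat_lit 264) (nat_lit 194))))) (XT.nd (nat_lit 156) (nat_lit 0) (nat_lit 0) (XT.nd (nat_lit 78) (nat_lit 0) (nat_lit 0) (XT.lf (nat_lit 0) (nat_lit 303250979798) (nat_lit 152) (nat_lit 5398025114044) (nat_lit 0) (nat_lit 292927030944) (nat_lit 1) (nat_lit 5) (nat_lit 3) (nat_lit 4) (nat_lit 1) (nat_lit 4) (nat_lit 323) (nat_lit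 264) (nat_lit 193)) (XT.lf (nat_lit 0) (nat_lit 372845375341) (nat_lit 152) (nat_lit 6154113259682) (nat_lit 0) (nat_lit 362521360461) (nat_lit 1) (nat_lit 5) (nat_lit 3) (nat_lit 4) (nat_lit 1) (nat_lit 4) (nat_lit 324) (nat_lit 264) (nat_lit 192))) (XT.nd (nat_lit 78) (nat_lit 0) (nat_lit 0) (XT.lf (nat_lit 0) (nat_lit 452878623506) (nat_lit 152) (nat_lit 7023615268138) (nat_lit 0) (nat_lit 442554551213) (nat_lit 1) (nat_lit 5) (nat_lit 3) (nat_lit 4) (nat_lit 1) (nat_lit 4) (nat_lit 325) (nat_lit 264) (nat_lit 191)) (XT.nd (nat_lit 78) (nat_lit 0) (nat_lit 0) (XT.lf (nat_lit 0) (nat_lit 544916592193) (nat_lit 152) (nat_lit 8023543135229) (nat_lit 0) (nat_lit 534592469974) (nat_lit 1) (nat_lit 5) (nat_lit 3) (nat_lit 4) (nat_lit 1) (nat_lit 4) (nat_lit 326) (nat_lit 264) (nat_lit 190)) (XT.lf (nat_lit 0) (nat_lit 650760024266) (nat_lit 152) (nat_lit 9173460667050) (nat_lit 0) (nat_lit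 640435858635) (nat_lit 1) (nat_lit 5) (nat_lit 3) (nat_lit 4) (nat_lit 1) (nat_lit 4) (nat_lit 327) (nat_lit 264) (nat_lit 189))))))))
noncomputable def xc57 : XT := (XT.nd (nat_lit 35802) (nat_lit 0) (nat_lit 684) (XT.nd (nat_lit 780) (nat_lit 0) (nat_lit 0) (XT.nd (nat_lit 390) (nat_lit 0) (nat_lit 0) (XT.nd (nat_lit 156) (nat_lit 0) (nat_lit 0) (XT.nd (nat_lit 78) (nat_lit 0) (nat_lit 0) (XT.lf (nat_lit 0) (nat_lit 772479769485) (nat_lit 152) (nat_lit 10495866250094) (nat_lit 0) (nat_lit 762155566102) (nat_lit 1) (nat_lit 5) (nat_lit 3) (nat_lit 4) (nat_lit 1) (nat_lit 4) (nat_lit 328) (nat_lit 264) (nat_lit 188)) (XT.lf (nat_lit 0) (nat_lit 912457301124) (nat_lit 152) (nat_lit 12016633037072) (nat_lit 0) (nat_lit 902133064915) (nat_lit 1) (nat_lit 5) (nat_lit 3) (nat_lit 4) (nat_lit 1) (nat_lit 4) (nat_lit 329) (nat_lit 264) (nat_lit 187))) (XT.nd (nat_lit 78) (nat_lit 0) (nat_lit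 0) (XT.lf (nat_lit 0) (nat_lit 1073431310020) (nat_lit 152) (nat_lit 13765515160773) (nat_lit 0) (nat_lit 1063107045267) (nat_lit 1) (nat_lit 5) (nat_lit 3) (nat_lit 4) (nat_lit 1) (nat_lit 4) (nat_lit 330) (nat_lit 264) (nat_lit 186)) (XT.nd (nat_lit 78) (nat_lit 0) (nat_lit 0) (XT.lf (nat_lit 0) (nat_lit 1258551287652) (nat_lit 152) (nat_lit 15776729880138) (nat_lit 0) (nat_lit 1248226998077) (nat_lit 1) (nat_lit 5) (nat_lit 3) (nat_lit 4) (nat_lit 1) (nat_lit 4) (nat_lit 331) (nat_lit 264) (nat_lit 185)) (XT.lf (nat_lit 0) (nat_lit 1471439146626) (nat_lit 152) (nat_lit 18089627048374) (nat_lit 0) (nat_lit 1461114835467) (nat_lit 1) (nat_lit 5) (nat_lit 3) (nat_lit 4) (nat_lit 1) (nat_lit 4) (nat_lit 332) (nat_lit 264) (nat_lit 184))))) (XT.nd (nat_lit 156) (nat_lit 0) (nat_lit 0) (XT.nd (nat_lit 78) (nat_lit 0) (nat_lit 0) (XT.lf (nat_lit 0) (nat_lit 1716260084182) (nat_lit 152) (nat_lit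 20749459001380) (nat_lit 0) (nat_lit 1705935754254) (nat_lit 1) (nat_lit 5) (nat_lit 3) (nat_lit 4) (nat_lit 1) (nat_lit 4) (nat_lit 333) (nat_lit 264) (nat_lit 183)) (XT.lf (nat_lit 0) (nat_lit 1997804075185) (nat_lit 152) (nat_lit 23808265929541) (nat_lit 0) (nat_lit 1987479728937) (nat_lit 1) (nat_lit 5) (nat_lit 3) (nat_lit 4) (nat_lit 1) (nat_lit 4) (nat_lit 334) (nat_lit 264) (nat_lit 182))) (XT.nd (nat_lit 78) (nat_lit 0) (nat_lit 0) (XT.lf (nat_lit 0) (nat_lit 2321579589025) (nat_lit 152) (nat_lit 27325894055365) (nat_lit 0) (nat_lit 2311255228585) (nat_lit 1) (nat_lit 5) (nat_lit 3) (nat_lit 4) (nat_lit 1) (nat_lit 4) (nat_lit 335) (nat_lit 264) (nat_lit 181)) (XT.nd (nat_lit 78) (nat_lit 0) (nat_lit 0) (XT.lf (nat_lit 0) (nat_lit 2693921364016) (nat_lit 152) (nat_lit 31371166537834) (nat_lit 0) (nat_lit 2683596991235) (nat_lit 1) (nat_lit 5) (nat_lit 3) (nat_lit 4) (nat_lit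 1) (nat_lit 4) (nat_lit 336) (nat_lit 264) (nat_lit 180)) (XT.lf (nat_lit 0) (nat_lit 3122114347930) (nat_lit 152) (nat_lit 36023230012477) (nat_lit 0) (nat_lit 3111789964418) (nat_lit 1) (nat_lit 5) (nat_lit 3) (nat_lit 4) (nat_lit 1) (nat_lit 4) (nat_lit 337) (nat_lit 264) (nat_lit 179)))))) (XT.nd (nat_lit 390) (nat_lit 0) (nat_lit 0) (XT.nd (nat_lit 156) (nat_lit 0) (nat_lit 0) (XT.nd (nat_lit 78) (nat_lit 0) (nat_lit 0) (XT.lf (nat_lit 0) (nat_lit 3614536229581) (nat_lit 152) (nat_lit 41373103112491) (nat_lit 0) (nat_lit 3604211836738) (nat_lit 1) (nat_lit 5) (nat_lit 3) (nat_lit 4) (nat_lit 1) (nat_lit 4) (nat_lit 338) (nat_lit 264) (nat_lit 178)) (XT.lf (nat_lit 0) (nat_lit 4180821350134) (nat_lit 152) (nat_lit 47525457268095) (nat_lit 0) (nat_lit 4170496949177) (nat_lit 1) (nat_lit 5) (nat_lit 3) (nat_lit 4) (nat_lit 1) (nat_lit 4) (nat_lit 339) (nat_lit 264) (nat_lit 177)))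 (XT.nd (nat_lit 78) (nat_lit 0) (nat_lit 0) (XT.lf (nat_lit 0) (nat_lit 4832049201077) (nat_lit 152) (nat_lit 54600664625812) (nat_lit 0) (nat_lit 4821724793064) (nat_lit 1) (nat_lit 5) (nat_lit 3) (nat_lit 4) (nat_lit 1) (nat_lit 4) (nat_lit 340) (nat_lit 264) (nat_lit 176)) (XT.nd (nat_lit 78) (nat_lit 0) (nat_lit 0) (XT.lf (nat_lit 0) (nat_lit 5580961196885) (nat_lit 152) (nat_lit 62737153155684) (nat_lit 0) (nat_lit 5570636782736) (nat_lit 1) (nat_lit 5) (nat_lit 3) (nat_lit 4) (nat_lit 1) (nat_lit 4) (nat_lit 341) (nat_lit 264) (nat_lit 175)) (XT.lf (nat_lit 0) (nat_lit 6442209963563) (nat_lit 152) (nat_lit 72094115024599) (nat_lit 0) (nat_lit 6431885544079) (nat_lit 1) (nat_lit 5) (nat_lit 3) (nat_lit 4) (nat_lit 1) (nat_lit 4) (nat_lit 342) (nat_lit 264) (nat_lit 174))))) (XT.nd (nat_lit 156) (nat_lit 0) (nat_lit 0) (XT.nd (nat_lit 78) (nat_lit 0) (nat_lit 0) (XT.lf (nat_lit 0)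 (nat_lit 7432646020459) (nat_lit 152) (nat_lit 82854621225646) (nat_lit 0) (nat_lit 7422321596336) (nat_lit 1) (nat_lit 5) (nat_lit 3) (nat_lit 4) (nat_lit 1) (nat_lit 4) (nat_lit 343) (nat_lit 264) (nat_lit 173)) (XT.lf (nat_lit 0) (nat_lit 8571647464338) (nat_lit 152) (nat_lit 95229203401887) (nat_lit 0) (nat_lit 8561323036181) (nat_lit 1) (nat_lit 5) (nat_lit 3) (nat_lit 4) (nat_lit 1) (nat_lit 4) (nat_lit 344) (nat_lit 264) (nat_lit 172))) (XT.nd (nat_lit 78) (nat_lit 0) (nat_lit 0) (XT.lf (nat_lit 0) (nat_lit 9881499106059) (nat_lit 152) (nat_lit 109459972943728) (nat_lit 0) (nat_lit 9871174674394) (nat_lit 1) (nat_lit 5) (nat_lit 3) (nat_lit 4) (nat_lit 1) (nat_lit 4) (nat_lit 345) (nat_lit 264) (nat_lit 171)) (XT.nd (nat_lit 34320) (nat_lit 0) (nat_lit 2204) (XT.lf (nat_lit 0) (nat_lit 11387828477743) (nat_lit 152) (nat_lit 125825357950901) (nat_lit 0) (nat_lit 11377504043027)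 (nat_lit 1) (nat_lit 5) (nat_lit 3) (nat_lit 4) (nat_lit 1) (nat_lit 4) (nat_lit 346) (nat_lit 264) (nat_lit 170)) (XT.lf (nat_lit 0) (nat_lit 1469650477) (nat_lit 0) (nat_lit 1469650477) (nat_lit 228) (nat_lit 1471618068) (nat_lit 30) (nat_lit 5) (nat_lit 30) (nat_lit 3) (nat_lit 33) (nat_lit 3) (nat_lit 265) (nat_lit 265) (nat_lit 250))))))) (XT.nd (nat_lit 780) (nat_lit 684) (nat_lit 0) (XT.nd (nat_lit 390) (nat_lit 532) (nat_lit 0) (XT.nd (nat_lit 156) (nat_lit 304) (nat_lit 0) (XT.nd (nat_lit 78) (nat_lit 0) (nat_lit 0) (XT.lf (nat_lit 0) (nat_lit 7194364767) (nat_lit 228) (nat_lit 1647533023) (nat_lit 304) (nat_lit 507626856) (nat_lit 30) (nat_lit 5) (nat_lit 33) (nat_lit 3) (nat_lit 34) (nat_lit 5) (nat_lit 266) (nat_lit 265) (nat_lit 249)) (XT.lf (nat_lit 76) (nat_lit 3271828864) (nat_lit 0) (nat_lit 5562584279) (nat_lit 304) (nat_lit 1103397432) (nat_lit 31) (nat_lit 5) (nat_lit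 30) (nat_lit 5) (nat_lit 34) (nat_lit 5) (nat_lit 267) (nat_lit 265) (nat_lit 248))) (XT.nd (nat_lit 78) (nat_lit 0) (nat_lit 76) (XT.lf (nat_lit 0) (nat_lit 46984740) (nat_lit 304) (nat_lit 1607262880) (nat_lit 380) (nat_lit 8967253378) (nat_lit 26) (nat_lit 5) (nat_lit 30) (nat_lit 5) (nat_lit 31) (nat_lit 5) (nat_lit 268) (nat_lit 265) (nat_lit 247)) (XT.nd (nat_lit 78) (nat_lit 0) (nat_lit 0) (XT.lf (nat_lit 0) (nat_lit 1449788845) (nat_lit 304) (nat_lit 7063154077) (nat_lit 76) (nat_lit 2858314498) (nat_lit 27) (nat_lit 5) (nat_lit 31) (nat_lit 5) (nat_lit 28) (nat_lit 5) (nat_lit 269) (nat_lit 265) (nat_lit 246)) (XT.lf (nat_lit 0) (nat_lit 3120873892) (nat_lit 304) (nat_lit 1122300032) (nat_lit 76) (nat_lit 7981901346) (nat_lit 27) (nat_lit 5) (nat_lit 31) (nat_lit 5) (nat_lit 28) (nat_lit 5) (nat_lit 270) (nat_lit 265) (nat_lit 245))))) (XT.nd (nat_lit 156) (nat_lit 304) (nat_lit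 0) (XT.nd (nat_lit 78) (nat_lit 0) (nat_lit 0) (XT.lf (nat_lit 0) (nat_lit 5242813001) (nat_lit 380) (nat_lit 7060253302) (nat_lit 76) (nat_lit 874111682) (nat_lit 23) (nat_lit 5) (nat_lit 28) (nat_lit 5) (nat_lit 24) (nat_lit 5) (nat_lit 271) (nat_lit 265) (nat_lit 244)) (XT.lf (nat_lit 0) (nat_lit 7860193063) (nat_lit 380) (nat_lit 4251662) (nat_lit 76) (nat_lit 6381288333) (nat_lit 23) (nat_lit 5) (nat_lit 28) (nat_lit 5) (nat_lit 24) (nat_lit 5) (nat_lit 272) (nat_lit 265) (nat_lit 243))) (XT.nd (nat_lit 78) (nat_lit 152) (nat_lit 0) (XT.lf (nat_lit 0) (nat_lit 8803202412) (nat_lit 152) (nat_lit 2356399472) (nat_lit 228) (nat_lit 4271738388) (nat_lit 21) (nat_lit 5) (nat_lit 23) (nat_lit 5) (nat_lit 24) (nat_lit 5) (nat_lit 273) (nat_lit 265) (nat_lit 242)) (XT.nd (nat_lit 78) (nat_lit 76) (nat_lit 0) (XT.lf (nat_lit 0) (nat_lit 2059845120) (nat_lit 76) (nat_lit 13074698440) (nat_lit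 152) (nat_lit 1633310161) (nat_lit 20) (nat_lit 5) (nat_lit 21) (nat_lit 5) (nat_lit 22) (nat_lit 4) (nat_lit 274) (nat_lit 265) (nat_lit 241)) (XT.lf (nat_lit 0) (nat_lit 1683810143) (nat_lit 152) (nat_lit 5742302209) (nat_lit 76) (nat_lit 10809003854) (nat_lit 19) (nat_lit 5) (nat_lit 21) (nat_lit 5) (nat_lit 20) (nat_lit 5) (nat_lit 275) (nat_lit 265) (nat_lit 240)))))) (XT.nd (nat_lit 390) (nat_lit 304) (nat_lit 0) (XT.nd (nat_lit 156) (nat_lit 228) (nat_lit 0) (XT.nd (nat_lit 78) (nat_lit 0) (nat_lit 0) (XT.lf (nat_lit 0) (nat_lit 4835159453) (nat_lit 152) (nat_lit 637606851) (nat_lit 228) (nat_lit 14416916250) (nat_lit 17) (nat_lit 5) (nat_lit 19) (nat_lit 5) (nat_lit 20) (nat_lit 5) (nat_lit 276) (nat_lit 265) (nat_lit 239)) (XT.lf (nat_lit 0) (nat_lit 10385793097) (nat_lit 228) (nat_lit 4502973449) (nat_lit 76) (nat_lit 6820398784) (nat_lit 17) (nat_lit 5) (nat_lit 20) (nat_lit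 5) (nat_lit 18) (nat_lit 4) (nat_lit 277) (nat_lit 265) (nat_lit 238))) (XT.nd (nat_lit 78) (nat_lit 152) (nat_lit 0) (XT.lf (nat_lit 0) (nat_lit 8258804519) (nat_lit 76) (nat_lit 8100969863) (nat_lit 152) (nat_lit 7393274814) (nat_lit 16) (nat_lit 5) (nat_lit 17) (nat_lit 5) (nat_lit 18) (nat_lit 4) (nat_lit 278) (nat_lit 265) (nat_lit 237)) (XT.nd (nat_lit 78) (nat_lit 152) (nat_lit 0) (XT.lf (nat_lit 0) (nat_lit 23367042288) (nat_lit 76) (nat_lit 53098212) (nat_lit 152) (nat_lit 2654900470) (nat_lit 16) (nat_lit 5) (nat_lit 17) (nat_lit 5) (nat_lit 18) (nat_lit 4) (nat_lit 279) (nat_lit 265) (nat_lit 236)) (XT.lf (nat_lit 0) (nat_lit 3452235309) (nat_lit 152) (nat_lit 16098108560) (nat_lit 76) (nat_lit 9041668908) (nat_lit 14) (nat_lit 5) (nat_lit 16) (nat_lit 5) (nat_lit 15) (nat_lit 4) (nat_lit 280) (nat_lit 265) (nat_lit 235))))) (XT.nd (nat_lit 234) (nat_lit 228) (nat_lit 0) (XT.nd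 (nat_lit 78) (nat_lit 76) (nat_lit 0) (XT.lf (nat_lit 0) (nat_lit 10314877170) (nat_lit 152) (nat_lit 1390473441) (nat_lit 76) (nat_lit 19745574147) (nat_lit 14) (nat_lit 5) (nat_lit 16) (nat_lit 5) (nat_lit 15) (nat_lit 4) (nat_lit 281) (nat_lit 265) (nat_lit 234)) (XT.nd (nat_lit 78) (nat_lit 0) (nat_lit 0) (XT.lf (nat_lit 0) (nat_lit 16973617556) (nat_lit 76) (nat_lit 1901724540) (nat_lit 152) (nat_lit 15763106574) (nat_lit 13) (nat_lit 5) (nat_lit 14) (nat_lit 5) (nat_lit 15) (nat_lit 4) (nat_lit 282) (nat_lit 265) (nat_lit 233)) (XT.lf (nat_lit 0) (nat_lit 29150721527) (nat_lit 152) (nat_lit 498013826) (nat_lit 0) (nat_lit 8590773143) (nat_lit 13) (nat_lit 5) (nat_lit 15) (nat_lit 4) (nat_lit 13) (nat_lit 4) (nat_lit 283) (nat_lit 265) (nat_lit 232)))) (XT.nd (nat_lit 78) (nat_lit 152) (nat_lit 0) (XT.lf (nat_lit 0) (nat_lit 20966022313) (nat_lit 76) (nat_lit 20931064590) (nat_lit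 76) (nat_lit 344218142) (nat_lit 12) (nat_lit 4) (nat_lit 13) (nat_lit 5) (nat_lit 13) (nat_lit 4) (nat_lit 284) (nat_lit 265) (nat_lit 231)) (XT.nd (nat_lit 78) (nat_lit 76) (nat_lit 0) (XT.lf (nat_lit 0) (nat_lit 8845972557) (nat_lit 152) (nat_lit 1591395070) (nat_lit 76) (nat_lit 36345917256) (nat_lit 11) (nat_lit 5) (nat_lit 13) (nat_lit 5) (nat_lit 12) (nat_lit 4) (nat_lit 285) (nat_lit 265) (nat_lit 230)) (XT.lf (nat_lit 0) (nat_lit 20420988583) (nat_lit 152) (nat_lit 28945544901) (nat_lit 0) (nat_lit 2481358261) (nat_lit 10) (nat_lit 5) (nat_lit 12) (nat_lit 4) (nat_lit 10) (nat_lit 4) (nat_lit 286) (nat_lit 265) (nat_lit 229))))))))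
noncomputable def xc58 : XT := (XT.nd (nat_lit 1560) (nat_lit 152) (nat_lit 0) (XT.nd (nat_lit 780) (nat_lit 152) (nat_lit 0) (XT.nd (nat_lit 390) (nat_lit 152) (nat_lit 0) (XT.nd (nat_lit 156) (nat_lit 152) (nat_lit 0) (XT.nd (nat_lit 78) (nat_lit 76) (nat_lit 0) (XT.lf (nat_lit 0) (nat_lit 34291970969) (nat_lit 152) (nat_lit 6959316907) (nat_lit 0) (nat_lit 16336961592) (nat_lit 10) (nat_lit 5) (nat_lit 12) (nat_lit 4) (nat_lit 10) (nat_lit 4) (nat_lit 287) (nat_lit 265) (nat_lit 228)) (XT.lf (nat_lit 0) (nat_lit 20070219693) (nat_lit 76) (nat_lit 30983183952) (nat_lit 76) (nat_lit 13014801483) (nat_lit 9) (nat_lit 4) (nat_lit 10) (nat_lit 5) (nat_lit 10) (nat_lit 4) (nat_lit 288) (nat_lit 265) (nat_lit 227))) (XT.nd (nat_lit 78) (nat_lit 152) (nat_lit 0) (XT.lf (nat_lit 0) (nat_lit 51896786285) (nat_lit 76) (nat_lit 18775921691) (nat_lit 76) (nat_lit 795910446) (nat_lit 9) (nat_lit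 4) (nat_lit 10) (nat_lit 5) (nat_lit 10) (nat_lit 4) (nat_lit 289) (nat_lit 265) (nat_lit 226)) (XT.nd (nat_lit 78) (nat_lit 0) (nat_lit 0) (XT.lf (nat_lit 0) (nat_lit 8708457495) (nat_lit 76) (nat_lit 3709487024) (nat_lit 152) (nat_lit 67427486440) (nat_lit 7) (nat_lit 5) (nat_lit 8) (nat_lit 5) (nat_lit 9) (nat_lit 4) (nat_lit 290) (nat_lit 265) (nat_lit 225)) (XT.lf (nat_lit 0) (nat_lit 29149938121) (nat_lit 152) (nat_lit 46581812025) (nat_lit 0) (nat_lit 13498706601) (nat_lit 7) (nat_lit 5) (nat_lit 9) (nat_lit 4) (nat_lit 7) (nat_lit 4) (nat_lit 291) (nat_lit 265) (nat_lit 224))))) (XT.nd (nat_lit 156) (nat_lit 76) (nat_lit 0) (XT.nd (nat_lit 78) (nat_lit 76) (nat_lit 0) (XT.lf (nat_lit 0) (nat_lit 48552641114) (nat_lit 152) (nat_lit 18551705251) (nat_lit 0) (nat_lit 32894760804) (nat_lit 7) (nat_lit 5) (nat_lit 9) (nat_lit 4) (nat_lit 7) (nat_lit 4) (nat_lit 292) (nat_lit 265)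 (nat_lit 223)) (XT.lf (nat_lit 0) (nat_lit 14989865411) (nat_lit 76) (nat_lit 56482902602) (nat_lit 76) (nat_lit 40819240736) (nat_lit 6) (nat_lit 4) (nat_lit 7) (nat_lit 5) (nat_lit 7) (nat_lit 4) (nat_lit 293) (nat_lit 265) (nat_lit 222))) (XT.nd (nat_lit 78) (nat_lit 76) (nat_lit 0) (XT.lf (nat_lit 0) (nat_lit 55621329202) (nat_lit 76) (nat_lit 43166348333) (nat_lit 76) (nat_lit 27497659026) (nat_lit 6) (nat_lit 4) (nat_lit 7) (nat_lit 5) (nat_lit 7) (nat_lit 4) (nat_lit 294) (nat_lit 265) (nat_lit 221)) (XT.nd (nat_lit 78) (nat_lit 76) (nat_lit 0) (XT.lf (nat_lit 0) (nat_lit 102324641983) (nat_lit 76) (nat_lit 27863890509) (nat_lit 76) (nat_lit 12190829514) (nat_lit 6) (nat_lit 4) (nat_lit 7) (nat_lit 5) (nat_lit 7) (nat_lit 4) (nat_lit 295) (nat_lit 265) (nat_lit 220)) (XT.lf (nat_lit 0) (nat_lit 4919918982) (nat_lit 152) (nat_lit 5099036649) (nat_lit 76) (nat_lit 150836467656)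 (nat_lit 5) (nat_lit 5) (nat_lit 7) (nat_lit 5) (nat_lit 6) (nat_lit 4) (nat_lit 296) (nat_lit 265) (nat_lit 219)))))) (XT.nd (nat_lit 390) (nat_lit 76) (nat_lit 0) (XT.nd (nat_lit 156) (nat_lit 0) (nat_lit 0) (XT.nd (nat_lit 78) (nat_lit 0) (nat_lit 0) (XT.lf (nat_lit 0) (nat_lit 25445300075) (nat_lit 152) (nat_lit 144445728830) (nat_lit 0) (nat_lit 11810371305) (nat_lit 4) (nat_lit 5) (nat_lit 6) (nat_lit 4) (nat_lit 4) (nat_lit 4) (nat_lit 297) (nat_lit 265) (nat_lit 218)) (XT.lf (nat_lit 0) (nat_lit 49796949465) (nat_lit 152) (nat_lit 119605686620) (nat_lit 0) (nat_lit 36159521169) (nat_lit 4) (nat_lit 5) (nat_lit 6) (nat_lit 4) (nat_lit 4) (nat_lit 4) (nat_lit 298) (nat_lit 265) (nat_lit 217))) (XT.nd (nat_lit 78) (nat_lit 0) (nat_lit 0) (XT.lf (nat_lit 0) (nat_lit 77793637610) (nat_lit 152) (nat_lit 91055513121) (nat_lit 0) (nat_lit 64154035812) (nat_lit 4) (nat_lit 5) (nat_lit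 6) (nat_lit 4) (nat_lit 4) (nat_lit 4) (nat_lit 299) (nat_lit 265) (nat_lit 216)) (XT.nd (nat_lit 78) (nat_lit 0) (nat_lit 0) (XT.lf (nat_lit 0) (nat_lit 109983125800) (nat_lit 152) (nat_lit 58236617983) (nat_lit 0) (nat_lit 96341634001) (nat_lit 4) (nat_lit 5) (nat_lit 6) (nat_lit 4) (nat_lit 4) (nat_lit 4) (nat_lit 300) (nat_lit 265) (nat_lit 215)) (XT.lf (nat_lit 0) (nat_lit 146995208369) (nat_lit 152) (nat_lit 20506892387) (nat_lit 0) (nat_lit 133352073091) (nat_lit 4) (nat_lit 5) (nat_lit 6) (nat_lit 4) (nat_lit 4) (nat_lit 4) (nat_lit 301) (nat_lit 265) (nat_lit 214))))) (XT.nd (nat_lit 156) (nat_lit 0) (nat_lit 0) (XT.nd (nat_lit 78) (nat_lit 0) (nat_lit 0) (XT.lf (nat_lit 0) (nat_lit 25107057858) (nat_lit 76) (nat_lit 165486606625) (nat_lit 76) (nat_lit 151842042234) (nat_lit 3) (nat_lit 4) (nat_lit 4) (nat_lit 5) (nat_lit 4) (nat_lit 4) (nat_lit 302) (nat_lit 265) (nat_lit 213))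 (XT.lf (nat_lit 0) (nat_lit 79857832066) (nat_lit 76) (nat_lit 161941188121) (nat_lit 76) (nat_lit 148295381024) (nat_lit 3) (nat_lit 4) (nat_lit 4) (nat_lit 5) (nat_lit 4) (nat_lit 4) (nat_lit 303) (nat_lit 265) (nat_lit 212))) (XT.nd (nat_lit 78) (nat_lit 0) (nat_lit 0) (XT.lf (nat_lit 0) (nat_lit 142812558371) (nat_lit 76) (nat_lit 157868429553) (nat_lit 76) (nat_lit 144221541841) (nat_lit 3) (nat_lit 4) (nat_lit 4) (nat_lit 5) (nat_lit 4) (nat_lit 4) (nat_lit 304) (nat_lit 265) (nat_lit 211)) (XT.nd (nat_lit 78) (nat_lit 0) (nat_lit 0) (XT.lf (nat_lit 0) (nat_lit 215202959679) (nat_lit 76) (nat_lit 153188646514) (nat_lit 76) (nat_lit 139540819138) (nat_lit 3) (nat_lit 4) (nat_lit 4) (nat_lit 5) (nat_lit 4) (nat_lit 4) (nat_lit 305) (nat_lit 265) (nat_lit 210)) (XT.lf (nat_lit 0) (nat_lit 298445369928) (nat_lit 76) (nat_lit 147810278033) (nat_lit 76) (nat_lit 134161633557) (nat_lit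 3) (nat_lit 4) (nat_lit 4) (nat_lit 5) (nat_lit 4) (nat_lit 4) (nat_lit 306) (nat_lit 265) (nat_lit 209))))))) (XT.nd (nat_lit 780) (nat_lit 152) (nat_lit 0) (XT.nd (nat_lit 390) (nat_lit 0) (nat_lit 0) (XT.nd (nat_lit 156) (nat_lit 0) (nat_lit 0) (XT.nd (nat_lit 78) (nat_lit 0) (nat_lit 0) (XT.lf (nat_lit 0) (nat_lit 394168444972) (nat_lit 76) (nat_lit 141628095159) (nat_lit 76) (nat_lit 127978740163) (nat_lit 3) (nat_lit 4) (nat_lit 4) (nat_lit 5) (nat_lit 4) (nat_lit 4) (nat_lit 307) (nat_lit 265) (nat_lit 208)) (XT.lf (nat_lit 0) (nat_lit 504245027583) (nat_lit 76) (nat_lit 134521142143) (nat_lit 76) (nat_lit 120871169301) (nat_lit 3) (nat_lit 4) (nat_lit 4) (nat_lit 5) (nat_lit 4) (nat_lit 4) (nat_lit 308) (nat_lit 265) (nat_lit 207))) (XT.nd (nat_lit 78) (nat_lit 0) (nat_lit 0) (XT.lf (nat_lit 0) (nat_lit 630828790029) (nat_lit 76) (nat_lit 126350369902) (nat_lit 76) (nat_lit 112699859804)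 (nat_lit 3) (nat_lit 4) (nat_lit 4) (nat_lit 5) (nat_lit 4) (nat_lit 4) (nat_lit 309) (nat_lit 265) (nat_lit 206)) (XT.nd (nat_lit 78) (nat_lit 0) (nat_lit 0) (XT.lf (nat_lit 0) (nat_lit 776396371140) (nat_lit 76) (nat_lit 116955915502) (nat_lit 76) (nat_lit 103304938225) (nat_lit 3) (nat_lit 4) (nat_lit 4) (nat_lit 5) (nat_lit 4) (nat_lit 4) (nat_lit 310) (nat_lit 265) (nat_lit 205)) (XT.lf (nat_lit 0) (nat_lit 943795832287) (nat_lit 76) (nat_lit 106153974400) (nat_lit 76) (nat_lit 92502590880) (nat_lit 3) (nat_lit 4) (nat_lit 4) (nat_lit 5) (nat_lit 4) (nat_lit 4) (nat_lit 311) (nat_lit 265) (nat_lit 204))))) (XT.nd (nat_lit 156) (nat_lit 0) (nat_lit 0) (XT.nd (nat_lit 78) (nat_lit 0) (nat_lit 0) (XT.lf (nat_lit 0) (nat_lit 1136302380318) (nat_lit 76) (nat_lit 93733204271) (nat_lit 76) (nat_lit 80081467496) (nat_lit 3) (nat_lit 4) (nat_lit 4) (nat_lit 5) (nat_lit 4) (nat_lit 4) (nat_lit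 312) (nat_lit 265) (nat_lit 203)) (XT.lf (nat_lit 0) (nat_lit 1357682447694) (nat_lit 76) (nat_lit 79450590045) (nat_lit 76) (nat_lit 65798546092) (nat_lit 3) (nat_lit 4) (nat_lit 4) (nat_lit 5) (nat_lit 4) (nat_lit 4) (nat_lit 313) (nat_lit 265) (nat_lit 202))) (XT.nd (nat_lit 78) (nat_lit 0) (nat_lit 0) (XT.lf (nat_lit 0) (nat_lit 1612267383560) (nat_lit 76) (nat_lit 63026689272) (nat_lit 76) (nat_lit 49374378208) (nat_lit 3) (nat_lit 4) (nat_lit 4) (nat_lit 5) (nat_lit 4) (nat_lit 4) (nat_lit 314) (nat_lit 265) (nat_lit 201)) (XT.nd (nat_lit 78) (nat_lit 0) (nat_lit 0) (XT.lf (nat_lit 0) (nat_lit 1905038197531) (nat_lit 76) (nat_lit 44140164762) (nat_lit 76) (nat_lit 30487621427) (nat_lit 3) (nat_lit 4) (nat_lit 4) (nat_lit 5) (nat_lit 4) (nat_lit 4) (nat_lit 315) (nat_lit 265) (nat_lit 200)) (XT.lf (nat_lit 0) (nat_lit 2241723014227) (nat_lit 76) (nat_lit 22421497557) (nat_lit 76)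 (nat_lit 8768752248) (nat_lit 3) (nat_lit 4) (nat_lit 4) (nat_lit 5) (nat_lit 4) (nat_lit 4) (nat_lit 316) (nat_lit 265) (nat_lit 199)))))) (XT.nd (nat_lit 390) (nat_lit 0) (nat_lit 0) (XT.nd (nat_lit 156) (nat_lit 0) (nat_lit 0) (XT.nd (nat_lit 78) (nat_lit 0) (nat_lit 0) (XT.lf (nat_lit 0) (nat_lit 15763455994) (nat_lit 152) (nat_lit 2590242391421) (nat_lit 0) (nat_lit 3891350829) (nat_lit 1) (nat_lit 5) (nat_lit 3) (nat_lit 4) (nat_lit 1) (nat_lit 4) (nat_lit 317) (nat_lit 265) (nat_lit 198)) (XT.lf (nat_lit 0) (nat_lit 45852760679) (nat_lit 152) (nat_lit 2917116552635) (nat_lit 0) (nat_lit 33980522712) (nat_lit 1) (nat_lit 5) (nat_lit 3) (nat_lit 4) (nat_lit 1) (nat_lit 4) (nat_lit 318) (nat_lit 265) (nat_lit 197))) (XT.nd (nat_lit 78) (nat_lit 0) (nat_lit 0) (XT.lf (nat_lit 0) (nat_lit 80454844165) (nat_lit 152) (nat_lit 3293023127255) (nat_lit 0) (nat_lit 68582490719) (nat_lit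 1) (nat_lit 5) (nat_lit 3) (nat_lit 4) (nat_lit 1) (nat_lit 4) (nat_lit 319) (nat_lit 265) (nat_lit 196)) (XT.nd (nat_lit 78) (nat_lit 0) (nat_lit 0) (XT.lf (nat_lit 0) (nat_lit 120246703738) (nat_lit 152) (nat_lit 3725316809131) (nat_lit 0) (nat_lit 108374249875) (nat_lit 1) (nat_lit 5) (nat_lit 3) (nat_lit 4) (nat_lit 1) (nat_lit 4) (nat_lit 320) (nat_lit 265) (nat_lit 195)) (XT.lf (nat_lit 0) (nat_lit 166006875781) (nat_lit 152) (nat_lit 4222455518127) (nat_lit 0) (nat_lit 154134334599) (nat_lit 1) (nat_lit 5) (nat_lit 3) (nat_lit 4) (nat_lit 1) (nat_lit 4) (nat_lit 321) (nat_lit 265) (nat_lit 194))))) (XT.nd (nat_lit 156) (nat_lit 0) (nat_lit 0) (XT.nd (nat_lit 78) (nat_lit 0) (nat_lit 0) (XT.lf (nat_lit 0) (nat_lit 218630668007) (nat_lit 152) (nat_lit 4794165881158) (nat_lit 0) (nat_lit 206758050895) (nat_lit 1) (nat_lit 5) (nat_lit 3) (nat_lit 4) (nat_lit 1) (nat_lit 4) (nat_lit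 322) (nat_lit 265) (nat_lit 193)) (XT.lf (nat_lit 0) (nat_lit 279147676352) (nat_lit 152) (nat_lit 5451633535760) (nat_lit 0) (nat_lit 267274993214) (nat_lit 1) (nat_lit 5) (nat_lit 3) (nat_lit 4) (nat_lit 1) (nat_lit 4) (nat_lit 323) (nat_lit 265) (nat_lit 192))) (XT.nd (nat_lit 78) (nat_lit 0) (nat_lit 0) (XT.lf (nat_lit 0) (nat_lit 348741929240) (nat_lit 152) (nat_lit 6207721979525) (nat_lit 0) (nat_lit 336869188688) (nat_lit 1) (nat_lit 5) (nat_lit 3) (nat_lit 4) (nat_lit 1) (nat_lit 4) (nat_lit 324) (nat_lit 265) (nat_lit 191)) (XT.nd (nat_lit 78) (nat_lit 0) (nat_lit 0) (XT.lf (nat_lit 0) (nat_lit 428775053357) (nat_lit 152) (nat_lit 7077224247221) (nat_lit 0) (nat_lit 416902262880) (nat_lit 1) (nat_lit 5) (nat_lit 3) (nat_lit 4) (nat_lit 1) (nat_lit 4) (nat_lit 325) (nat_lit 265) (nat_lit 190)) (XT.lf (nat_lit 0) (nat_lit 520812914176) (nat_lit 152) (nat_lit 8077152339738) (nat_lit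 0) (nat_lit 508940080286) (nat_lit 1) (nat_lit 5) (nat_lit 3) (nat_lit 4) (nat_lit 1) (nat_lit 4) (nat_lit 326) (nat_lit 265) (nat_lit 189))))))))
noncomputable def xc59 : XT := (XT.nd (nat_lit 35880) (nat_lit 0) (nat_lit 760) (XT.nd (nat_lit 780) (nat_lit 0) (nat_lit 0) (XT.nd (nat_lit 390) (nat_lit 0) (nat_lit 0) (XT.nd (nat_lit 156) (nat_lit 0) (nat_lit 0) (XT.nd (nat_lit 78) (nat_lit 0) (nat_lit 0) (XT.lf (nat_lit 0) (nat_lit 626656252451) (nat_lit 152) (nat_lit 9227070067582) (nat_lit 0) (nat_lit 614783380811) (nat_lit 1) (nat_lit 5) (nat_lit 3) (nat_lit 4) (nat_lit 1) (nat_lit 4) (nat_lit 327) (nat_lit 265) (nat_lit 188)) (XT.lf (nat_lit 0) (nat_lit 748375916105) (nat_lit 152) (nat_lit 10549475821080) (nat_lit 0) (nat_lit 736503011639) (nat_lit 1) (nat_lit 5) (nat_lit 3) (nat_lit 4) (nat_lit 1) (nat_lit 4) (nat_lit 328) (nat_lit 265) (nat_lit 187))) (XT.nd (nat_lit 78) (nat_lit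 0) (nat_lit 0) (XT.lf (nat_lit 0) (nat_lit 888353376820) (nat_lit 152) (nat_lit 12070242756280) (nat_lit 0) (nat_lit 876480443808) (nat_lit 1) (nat_lit 5) (nat_lit 3) (nat_lit 4) (nat_lit 1) (nat_lit 4) (nat_lit 329) (nat_lit 265) (nat_lit 186)) (XT.nd (nat_lit 78) (nat_lit 0) (nat_lit 0) (XT.lf (nat_lit 0) (nat_lit 1049327324042) (nat_lit 152) (nat_lit 13819125008869) (nat_lit 0) (nat_lit 1037454366209) (nat_lit 1) (nat_lit 5) (nat_lit 3) (nat_lit 4) (nat_lit 1) (nat_lit 4) (nat_lit 330) (nat_lit 265) (nat_lit 185)) (XT.lf (nat_lit 0) (nat_lit 1234447248045) (nat_lit 152) (nat_lit 15830339840312) (nat_lit 0) (nat_lit 1222574268628) (nat_lit 1) (nat_lit 5) (nat_lit 3) (nat_lit 4) (nat_lit 1) (nat_lit 4) (nat_lit 331) (nat_lit 265) (nat_lit 184))))) (XT.nd (nat_lit 156) (nat_lit 0) (nat_lit 0) (XT.nd (nat_lit 78) (nat_lit 0) (nat_lit 0) (XT.lf (nat_lit 0) (nat_lit 1447335060384) (nat_lit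 152) (nat_lit 18143237106005) (nat_lit 0) (nat_lit 1435462062199) (nat_lit 1) (nat_lit 5) (nat_lit 3) (nat_lit 4) (nat_lit 1) (nat_lit 4) (nat_lit 332) (nat_lit 265) (nat_lit 183)) (XT.lf (nat_lit 0) (nat_lit 1692155957388) (nat_lit 152) (nat_lit 20803069143758) (nat_lit 0) (nat_lit 1680282942882) (nat_lit 1) (nat_lit 5) (nat_lit 3) (nat_lit 4) (nat_lit 1) (nat_lit 4) (nat_lit 333) (nat_lit 265) (nat_lit 182))) (XT.nd (nat_lit 78) (nat_lit 0) (nat_lit 0) (XT.lf (nat_lit 0) (nat_lit 1973699913130) (nat_lit 152) (nat_lit 23861876145611) (nat_lit 0) (nat_lit 1961826884432) (nat_lit 1) (nat_lit 5) (nat_lit 3) (nat_lit 4) (nat_lit 1) (nat_lit 4) (nat_lit 334) (nat_lit 265) (nat_lit 181)) (XT.nd (nat_lit 78) (nat_lit 0) (nat_lit 0) (XT.lf (nat_lit 0) (nat_lit 2297475396307) (nat_lit 152) (nat_lit 27379504335515) (nat_lit 0) (nat_lit 2285602355268) (nat_lit 1) (nat_lit 5) (nat_lit 3) (nat_lit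 4) (nat_lit 1) (nat_lit 4) (nat_lit 335) (nat_lit 265) (nat_lit 180)) (XT.lf (nat_lit 0) (nat_lit 2669817144635) (nat_lit 152) (nat_lit 31424776873706) (nat_lit 0) (nat_lit 2657944092865) (nat_lit 1) (nat_lit 5) (nat_lit 3) (nat_lit 4) (nat_lit 1) (nat_lit 4) (nat_lit 336) (nat_lit 265) (nat_lit 179)))))) (XT.nd (nat_lit 390) (nat_lit 0) (nat_lit 0) (XT.nd (nat_lit 156) (nat_lit 0) (nat_lit 0) (XT.nd (nat_lit 78) (nat_lit 0) (nat_lit 0) (XT.lf (nat_lit 0) (nat_lit 3098010105363) (nat_lit 152) (nat_lit 36076840396802) (nat_lit 0) (nat_lit 3086137044262) (nat_lit 1) (nat_lit 5) (nat_lit 3) (nat_lit 4) (nat_lit 1) (nat_lit 4) (nat_lit 337) (nat_lit 265) (nat_lit 178)) (XT.lf (nat_lit 0) (nat_lit 3590431966853) (nat_lit 152) (nat_lit 41426713538951) (nat_lit 0) (nat_lit 3578558897638) (nat_lit 1) (nat_lit 5) (nat_lit 3) (nat_lit 4) (nat_lit 1) (nat_lit 4) (nat_lit 338) (nat_lit 265) (nat_lit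 177))) (XT.nd (nat_lit 78) (nat_lit 0) (nat_lit 0) (XT.lf (nat_lit 0) (nat_lit 4156717069874) (nat_lit 152) (nat_lit 47579067731193) (nat_lit 0) (nat_lit 4144843993603) (nat_lit 1) (nat_lit 5) (nat_lit 3) (nat_lit 4) (nat_lit 1) (nat_lit 4) (nat_lit 339) (nat_lit 265) (nat_lit 176)) (XT.nd (nat_lit 78) (nat_lit 0) (nat_lit 0) (XT.lf (nat_lit 0) (nat_lit 4807944905572) (nat_lit 152) (nat_lit 54654275120769) (nat_lit 0) (nat_lit 4796071823166) (nat_lit 1) (nat_lit 5) (nat_lit 3) (nat_lit 4) (nat_lit 1) (nat_lit 4) (nat_lit 340) (nat_lit 265) (nat_lit 175)) (XT.lf (nat_lit 0) (nat_lit 5556856888124) (nat_lit 152) (nat_lit 62790763678345) (nat_lit 0) (nat_lit 5544983800382) (nat_lit 1) (nat_lit 5) (nat_lit 3) (nat_lit 4) (nat_lit 1) (nat_lit 4) (nat_lit 341) (nat_lit 265) (nat_lit 174))))) (XT.nd (nat_lit 156) (nat_lit 0) (nat_lit 0) (XT.nd (nat_lit 78) (nat_lit 0) (nat_lit 0) (XT.lf (nat_lit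 0) (nat_lit 6418105643275) (nat_lit 152) (nat_lit 72147725571350) (nat_lit 0) (nat_lit 6406232550894) (nat_lit 1) (nat_lit 5) (nat_lit 3) (nat_lit 4) (nat_lit 1) (nat_lit 4) (nat_lit 342) (nat_lit 265) (nat_lit 173)) (XT.lf (nat_lit 0) (nat_lit 7408541690147) (nat_lit 152) (nat_lit 82908231793344) (nat_lit 0) (nat_lit 7396668593732) (nat_lit 1) (nat_lit 5) (nat_lit 3) (nat_lit 4) (nat_lit 1) (nat_lit 4) (nat_lit 343) (nat_lit 265) (nat_lit 172))) (XT.nd (nat_lit 78) (nat_lit 0) (nat_lit 0) (XT.lf (nat_lit 0) (nat_lit 8547543125310) (nat_lit 152) (nat_lit 95282813987802) (nat_lit 0) (nat_lit 8535670025387) (nat_lit 1) (nat_lit 5) (nat_lit 3) (nat_lit 4) (nat_lit 1) (nat_lit 4) (nat_lit 344) (nat_lit 265) (nat_lit 171)) (XT.nd (nat_lit 78) (nat_lit 0) (nat_lit 0) (XT.lf (nat_lit 0) (nat_lit 9857394759452) (nat_lit 152) (nat_lit 109513583545482) (nat_lit 0) (nat_lit 9845521656478) (nat_lit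 1) (nat_lit 5) (nat_lit 3) (nat_lit 4) (nat_lit 1) (nat_lit 4) (nat_lit 345) (nat_lit 265) (nat_lit 170)) (XT.lf (nat_lit 0) (nat_lit 11363724124544) (nat_lit 152) (nat_lit 125878968566429) (nat_lit 0) (nat_lit 11351851018918) (nat_lit 1) (nat_lit 5) (nat_lit 3) (nat_lit 4) (nat_lit 1) (nat_lit 4) (nat_lit 346) (nat_lit 265) (nat_lit 169))))))) (XT.nd (nat_lit 780) (nat_lit 684) (nat_lit 0) (XT.nd (nat_lit 390) (nat_lit 456) (nat_lit 0) (XT.nd (nat_lit 156) (nat_lit 304) (nat_lit 0) (XT.nd (nat_lit 78) (nat_lit 0) (nat_lit 0) (XT.lf (nat_lit 0) (nat_lit 2098359450) (nat_lit 0) (nat_lit 2098359450) (nat_lit 228) (nat_lit 750751134) (nat_lit 30) (nat_lit 5) (nat_lit 30) (nat_lit 3) (nat_lit 33) (nat_lit 3) (nat_lit 266) (nat_lit 266) (nat_lit 248)) (XT.lf (nat_lit 0) (nat_lit 9597825492) (nat_lit 0) (nat_lit 69198606) (nat_lit 228) (nat_lit 871367169) (nat_lit 30) (nat_lit 5) (nat_lit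 30) (nat_lit 3) (nat_lit 33) (nat_lit 3) (nat_lit 267) (nat_lit 266) (nat_lit 247))) (XT.nd (nat_lit 78) (nat_lit 0) (nat_lit 0) (XT.lf (nat_lit 0) (nat_lit 154114037) (nat_lit 304) (nat_lit 6568413784) (nat_lit 380) (nat_lit 4513897464) (nat_lit 26) (nat_lit 5) (nat_lit 30) (nat_lit 5) (nat_lit 31) (nat_lit 5) (nat_lit 268) (nat_lit 266) (nat_lit 246)) (XT.nd (nat_lit 78) (nat_lit 0) (nat_lit 76) (XT.lf (nat_lit 0) (nat_lit 1193210021) (nat_lit 304) (nat_lit 939724095) (nat_lit 380) (nat_lit 9907932652) (nat_lit 26) (nat_lit 5) (nat_lit 30) (nat_lit 5) (nat_lit 31) (nat_lit 5) (nat_lit 269) (nat_lit 266) (nat_lit 245)) (XT.lf (nat_lit 0) (nat_lit 2687169366) (nat_lit 304) (nat_lit 7092139903) (nat_lit 76) (nat_lit 3142056243) (nat_lit 27) (nat_lit 5) (nat_lit 31) (nat_lit 5) (nat_lit 28) (nat_lit 5) (nat_lit 270) (nat_lit 266) (nat_lit 244))))) (XT.nd (nat_lit 156) (nat_lit 228) (nat_lit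 0) (XT.nd (nat_lit 78) (nat_lit 304) (nat_lit 0) (XT.lf (nat_lit 0) (nat_lit 4475885144) (nat_lit 304) (nat_lit 394569137) (nat_lit 76) (nat_lit 9053094870) (nat_lit 27) (nat_lit 5) (nat_lit 31) (nat_lit 5) (nat_lit 28) (nat_lit 5) (nat_lit 271) (nat_lit 266) (nat_lit 243)) (XT.lf (nat_lit 0) (nat_lit 6837870800) (nat_lit 380) (nat_lit 7143009873) (nat_lit 76) (nat_lit 1049617430) (nat_lit 23) (nat_lit 5) (nat_lit 28) (nat_lit 5) (nat_lit 24) (nat_lit 5) (nat_lit 272) (nat_lit 266) (nat_lit 242))) (XT.nd (nat_lit 78) (nat_lit 76) (nat_lit 0) (XT.lf (nat_lit 0) (nat_lit 926537755) (nat_lit 152) (nat_lit 8854211827) (nat_lit 228) (nat_lit 6488908907) (nat_lit 21) (nat_lit 5) (nat_lit 23) (nat_lit 5) (nat_lit 24) (nat_lit 5) (nat_lit 273) (nat_lit 266) (nat_lit 241)) (XT.nd (nat_lit 78) (nat_lit 76) (nat_lit 0) (XT.lf (nat_lit 0) (nat_lit 10934034944) (nat_lit 152) (nat_lit 2544507053)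 (nat_lit 228) (nat_lit 4169266389) (nat_lit 21) (nat_lit 5) (nat_lit 23) (nat_lit 5) (nat_lit 24) (nat_lit 5) (nat_lit 274) (nat_lit 266) (nat_lit 240)) (XT.lf (nat_lit 0) (nat_lit 3229571996) (nat_lit 76) (nat_lit 14777618158) (nat_lit 152) (nat_lit 1184182343) (nat_lit 20) (nat_lit 5) (nat_lit 21) (nat_lit 5) (nat_lit 22) (nat_lit 4) (nat_lit 275) (nat_lit 266) (nat_lit 239)))))) (XT.nd (nat_lit 390) (nat_lit 380) (nat_lit 0) (XT.nd (nat_lit 156) (nat_lit 76) (nat_lit 0) (XT.nd (nat_lit 78) (nat_lit 152) (nat_lit 0) (XT.lf (nat_lit 0) (nat_lit 2486232615) (nat_lit 152) (nat_lit 5800458687) (nat_lit 76) (nat_lit 12600239628) (nat_lit 19) (nat_lit 5) (nat_lit 21) (nat_lit 5) (nat_lit 20) (nat_lit 5) (nat_lit 276) (nat_lit 266) (nat_lit 238)) (XT.lf (nat_lit 0) (nat_lit 6327113640) (nat_lit 152) (nat_lit 476445466) (nat_lit 228) (nat_lit 15992246270) (nat_lit 17) (nat_lit 5) (nat_lit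 19) (nat_lit 5) (nat_lit 20) (nat_lit 5) (nat_lit 277) (nat_lit 266) (nat_lit 237))) (XT.nd (nat_lit 78) (nat_lit 76) (nat_lit 0) (XT.lf (nat_lit 0) (nat_lit 12396280755) (nat_lit 228) (nat_lit 4453744519) (nat_lit 76) (nat_lit 8046884763) (nat_lit 17) (nat_lit 5) (nat_lit 20) (nat_lit 5) (nat_lit 18) (nat_lit 4) (nat_lit 278) (nat_lit 266) (nat_lit 236)) (XT.nd (nat_lit 78) (nat_lit 0) (nat_lit 0) (XT.lf (nat_lit 0) (nat_lit 10189360375) (nat_lit 76) (nat_lit 9046604915) (nat_lit 152) (nat_lit 8016066453) (nat_lit 16) (nat_lit 5) (nat_lit 17) (nat_lit 5) (nat_lit 18) (nat_lit 4) (nat_lit 279) (nat_lit 266) (nat_lit 235)) (XT.lf (nat_lit 0) (nat_lit 27307489266) (nat_lit 152) (nat_lit 2464235078) (nat_lit 0) (nat_lit 157866123) (nat_lit 16) (nat_lit 5) (nat_lit 18) (nat_lit 4) (nat_lit 16) (nat_lit 4) (nat_lit 280) (nat_lit 266) (nat_lit 234))))) (XT.nd (nat_lit 234) (nat_lit 152) (nat_lit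 0) (XT.nd (nat_lit 78) (nat_lit 76) (nat_lit 0) (XT.lf (nat_lit 0) (nat_lit 4340626959) (nat_lit 152) (nat_lit 17858183773) (nat_lit 76) (nat_lit 10625998960) (nat_lit 14) (nat_lit 5) (nat_lit 16) (nat_lit 5) (nat_lit 15) (nat_lit 4) (nat_lit 281) (nat_lit 266) (nat_lit 233)) (XT.nd (nat_lit 78) (nat_lit 76) (nat_lit 0) (XT.lf (nat_lit 0) (nat_lit 12184331662) (nat_lit 152) (nat_lit 1029791352) (nat_lit 76) (nat_lit 22905740457) (nat_lit 14) (nat_lit 5) (nat_lit 16) (nat_lit 5) (nat_lit 15) (nat_lit 4) (nat_lit 282) (nat_lit 266) (nat_lit 232)) (XT.lf (nat_lit 0) (nat_lit 20063038153) (nat_lit 76) (nat_lit 1946299220) (nat_lit 152) (nat_lit 17779155752) (nat_lit 13) (nat_lit 5) (nat_lit 14) (nat_lit 5) (nat_lit 15) (nat_lit 4) (nat_lit 283) (nat_lit 266) (nat_lit 231)))) (XT.nd (nat_lit 78) (nat_lit 152) (nat_lit 0) (XT.lf (nat_lit 0) (nat_lit 33795208168) (nat_lit 152) (nat_lit 69120598)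 (nat_lit 0) (nat_lit 10070047068) (nat_lit 13) (nat_lit 5) (nat_lit 15) (nat_lit 4) (nat_lit 13) (nat_lit 4) (nat_lit 284) (nat_lit 266) (nat_lit 230)) (XT.nd (nat_lit 78) (nat_lit 76) (nat_lit 0) (XT.lf (nat_lit 0) (nat_lit 24591630267) (nat_lit 76) (nat_lit 23846340636) (nat_lit 76) (nat_lit 100840735) (nat_lit 12) (nat_lit 4) (nat_lit 13) (nat_lit 5) (nat_lit 13) (nat_lit 4) (nat_lit 285) (nat_lit 266) (nat_lit 229)) (XT.lf (nat_lit 0) (nat_lit 10406560864) (nat_lit 152) (nat_lit 1389079955) (nat_lit 76) (nat_lit 41969900686) (nat_lit 11) (nat_lit 5) (nat_lit 13) (nat_lit 5) (nat_lit 12) (nat_lit 4) (nat_lit 286) (nat_lit 266) (nat_lit 228))))))))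
noncomputable def xc60 : XT := (XT.nd (nat_lit 1560) (nat_lit 152) (nat_lit 0) (XT.nd (nat_lit 780) (nat_lit 228) (nat_lit 0) (XT.nd (nat_lit 390) (nat_lit 76) (nat_lit 0) (XT.nd (nat_lit 156) (nat_lit 228) (nat_lit 0) (XT.nd (nat_lit 78) (nat_lit 0) (nat_lit 0) (XT.lf (nat_lit 0) (nat_lit 23713074921) (nat_lit 152) (nat_lit 32841439413) (nat_lit 0) (nat_lit 3036061990) (nat_lit 10) (nat_lit 5) (nat_lit 12) (nat_lit 4) (nat_lit 10) (nat_lit 4) (nat_lit 287) (nat_lit 266) (nat_lit 227)) (XT.lf (nat_lit 0) (nat_lit 39634843180) (nat_lit 152) (nat_lit 7615442945) (nat_lit 0) (nat_lit 18946201474) (nat_lit 10) (nat_lit 5) (nat_lit 12) (nat_lit 4) (nat_lit 10) (nat_lit 4) (nat_lit 288) (nat_lit 266) (nat_lit 226))) (XT.nd (nat_lit 78) (nat_lit 152) (nat_lit 0) (XT.lf (nat_lit 0) (nat_lit 23450898169) (nat_lit 76) (nat_lit 35448953017) (nat_lit 76) (nat_lit 14750199332) (nat_lit 9) (nat_lit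 4) (nat_lit 10) (nat_lit 5) (nat_lit 10) (nat_lit 4) (nat_lit 289) (nat_lit 266) (nat_lit 225)) (XT.nd (nat_lit 78) (nat_lit 152) (nat_lit 0) (XT.lf (nat_lit 0) (nat_lit 60003169899) (nat_lit 76) (nat_lit 21434302529) (nat_lit 76) (nat_lit 726755819) (nat_lit 9) (nat_lit 4) (nat_lit 10) (nat_lit 5) (nat_lit 10) (nat_lit 4) (nat_lit 290) (nat_lit 266) (nat_lit 224)) (XT.lf (nat_lit 0) (nat_lit 10338070298) (nat_lit 76) (nat_lit 4105307895) (nat_lit 152) (nat_lit 77354377320) (nat_lit 7) (nat_lit 5) (nat_lit 8) (nat_lit 5) (nat_lit 9) (nat_lit 4) (nat_lit 291) (nat_lit 266) (nat_lit 223))))) (XT.nd (nat_lit 156) (nat_lit 76) (nat_lit 0) (XT.nd (nat_lit 78) (nat_lit 0) (nat_lit 0) (XT.lf (nat_lit 0) (nat_lit 33669726396) (nat_lit 152) (nat_lit 53272402025) (nat_lit 0) (nat_lit 15650733693) (nat_lit 7) (nat_lit 5) (nat_lit 9) (nat_lit 4) (nat_lit 7) (nat_lit 4) (nat_lit 292) (nat_lit 266)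 (nat_lit 222)) (XT.lf (nat_lit 0) (nat_lit 55963622113) (nat_lit 152) (nat_lit 21076476862) (nat_lit 0) (nat_lit 37939601969) (nat_lit 7) (nat_lit 5) (nat_lit 9) (nat_lit 4) (nat_lit 7) (nat_lit 4) (nat_lit 293) (nat_lit 266) (nat_lit 221))) (XT.nd (nat_lit 78) (nat_lit 0) (nat_lit 0) (XT.lf (nat_lit 0) (nat_lit 17484602847) (nat_lit 76) (nat_lit 64830655487) (nat_lit 76) (nat_lit 46802263656) (nat_lit 6) (nat_lit 4) (nat_lit 7) (nat_lit 5) (nat_lit 7) (nat_lit 4) (nat_lit 294) (nat_lit 266) (nat_lit 220)) (XT.nd (nat_lit 78) (nat_lit 0) (nat_lit 0) (XT.lf (nat_lit 0) (nat_lit 64178665647) (nat_lit 76) (nat_lit 49532881013) (nat_lit 76) (nat_lit 31500687714) (nat_lit 6) (nat_lit 4) (nat_lit 7) (nat_lit 5) (nat_lit 7) (nat_lit 4) (nat_lit 295) (nat_lit 266) (nat_lit 219)) (XT.lf (nat_lit 0) (nat_lit 117859544423) (nat_lit 76) (nat_lit 31949196197) (nat_lit 76) (nat_lit 13913697275) (nat_lit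 6) (nat_lit 4) (nat_lit 7) (nat_lit 5) (nat_lit 7) (nat_lit 4) (nat_lit 296) (nat_lit 266) (nat_lit 218)))))) (XT.nd (nat_lit 390) (nat_lit 76) (nat_lit 0) (XT.nd (nat_lit 156) (nat_lit 0) (nat_lit 0) (XT.nd (nat_lit 78) (nat_lit 76) (nat_lit 0) (XT.lf (nat_lit 0) (nat_lit 5741682026) (nat_lit 152) (nat_lit 5693757019) (nat_lit 76) (nat_lit 173535701834) (nat_lit 5) (nat_lit 5) (nat_lit 7) (nat_lit 5) (nat_lit 6) (nat_lit 4) (nat_lit 297) (nat_lit 266) (nat_lit 217)) (XT.lf (nat_lit 0) (nat_lit 29345097565) (nat_lit 152) (nat_lit 165941654553) (nat_lit 0) (nat_lit 13657381996) (nat_lit 4) (nat_lit 5) (nat_lit 6) (nat_lit 4) (nat_lit 4) (nat_lit 4) (nat_lit 298) (nat_lit 266) (nat_lit 216))) (XT.nd (nat_lit 78) (nat_lit 0) (nat_lit 0) (XT.lf (nat_lit 0) (nat_lit 57338667953) (nat_lit 152) (nat_lit 137397901699) (nat_lit 0) (nat_lit 41649062383) (nat_lit 4) (nat_lit 5) (nat_lit 6) (nat_lit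 4) (nat_lit 4) (nat_lit 4) (nat_lit 299) (nat_lit 266) (nat_lit 215)) (XT.nd (nat_lit 78) (nat_lit 0) (nat_lit 0) (XT.lf (nat_lit 0) (nat_lit 89525445050) (nat_lit 152) (nat_lit 104584589729) (nat_lit 0) (nat_lit 73834196001) (nat_lit 4) (nat_lit 5) (nat_lit 6) (nat_lit 4) (nat_lit 4) (nat_lit 4) (nat_lit 300) (nat_lit 266) (nat_lit 214)) (XT.lf (nat_lit 0) (nat_lit 126535170147) (nat_lit 152) (nat_lit 66859719063) (nat_lit 0) (nat_lit 110842491986) (nat_lit 4) (nat_lit 5) (nat_lit 6) (nat_lit 4) (nat_lit 4) (nat_lit 4) (nat_lit 301) (nat_lit 266) (nat_lit 213))))) (XT.nd (nat_lit 156) (nat_lit 0) (nat_lit 0) (XT.nd (nat_lit 78) (nat_lit 76) (nat_lit 0) (XT.lf (nat_lit 0) (nat_lit 169091946561) (nat_lit 152) (nat_lit 23485194403) (nat_lit 0) (nat_lit 153398025693) (nat_lit 4) (nat_lit 5) (nat_lit 6) (nat_lit 4) (nat_lit 4) (nat_lit 4) (nat_lit 302) (nat_lit 266) (nat_lit 212)) (XT.lf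 (nat_lit 0) (nat_lit 28966406022) (nat_lit 76) (nat_lit 190261437953) (nat_lit 76) (nat_lit 174566436471) (nat_lit 3) (nat_lit 4) (nat_lit 4) (nat_lit 5) (nat_lit 4) (nat_lit 4) (nat_lit 303) (nat_lit 266) (nat_lit 211))) (XT.nd (nat_lit 78) (nat_lit 0) (nat_lit 0) (XT.lf (nat_lit 0) (nat_lit 91917628167) (nat_lit 76) (nat_lit 186190488369) (nat_lit 76) (nat_lit 170494547222) (nat_lit 3) (nat_lit 4) (nat_lit 4) (nat_lit 5) (nat_lit 4) (nat_lit 4) (nat_lit 304) (nat_lit 266) (nat_lit 210)) (XT.nd (nat_lit 78) (nat_lit 0) (nat_lit 0) (XT.lf (nat_lit 0) (nat_lit 164304982380) (nat_lit 76) (nat_lit 181512278360) (nat_lit 76) (nat_lit 165815520113) (nat_lit 3) (nat_lit 4) (nat_lit 4) (nat_lit 5) (nat_lit 4) (nat_lit 4) (nat_lit 305) (nat_lit 266) (nat_lit 209)) (XT.lf (nat_lit 0) (nat_lit 247544742982) (nat_lit 76) (nat_lit 176135277730) (nat_lit 76) (nat_lit 160437808962) (nat_lit 3) (nat_lit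 4) (nat_lit 4) (nat_lit 5) (nat_lit 4) (nat_lit 4) (nat_lit 306) (nat_lit 266) (nat_lit 208))))))) (XT.nd (nat_lit 780) (nat_lit 152) (nat_lit 0) (XT.nd (nat_lit 390) (nat_lit 0) (nat_lit 0) (XT.nd (nat_lit 156) (nat_lit 0) (nat_lit 0) (XT.nd (nat_lit 78) (nat_lit 0) (nat_lit 0) (XT.lf (nat_lit 0) (nat_lit 343265513984) (nat_lit 76) (nat_lit 169954284293) (nat_lit 76) (nat_lit 154256197680) (nat_lit 3) (nat_lit 4) (nat_lit 4) (nat_lit 5) (nat_lit 4) (nat_lit 4) (nat_lit 307) (nat_lit 266) (nat_lit 207)) (XT.lf (nat_lit 0) (nat_lit 453340093080) (nat_lit 76) (nat_lit 162848365568) (nat_lit 76) (nat_lit 147149741699) (nat_lit 3) (nat_lit 4) (nat_lit 4) (nat_lit 5) (nat_lit 4) (nat_lit 4) (nat_lit 308) (nat_lit 266) (nat_lit 206))) (XT.nd (nat_lit 78) (nat_lit 0) (nat_lit 0) (XT.lf (nat_lit 0) (nat_lit 579922113339) (nat_lit 76) (nat_lit 154678492712) (nat_lit 76) (nat_lit 138979401664)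 (nat_lit 3) (nat_lit 4) (nat_lit 4) (nat_lit 5) (nat_lit 4) (nat_lit 4) (nat_lit 309) (nat_lit 266) (nat_lit 205)) (XT.nd (nat_lit 78) (nat_lit 0) (nat_lit 0) (XT.lf (nat_lit 0) (nat_lit 725488179506) (nat_lit 76) (nat_lit 145284820386) (nat_lit 76) (nat_lit 129585323095) (nat_lit 3) (nat_lit 4) (nat_lit 4) (nat_lit 5) (nat_lit 4) (nat_lit 4) (nat_lit 310) (nat_lit 266) (nat_lit 204)) (XT.lf (nat_lit 0) (nat_lit 892886323309) (nat_lit 76) (nat_lit 134483559348) (nat_lit 76) (nat_lit 118783708802) (nat_lit 3) (nat_lit 4) (nat_lit 4) (nat_lit 5) (nat_lit 4) (nat_lit 4) (nat_lit 311) (nat_lit 266) (nat_lit 203))))) (XT.nd (nat_lit 156) (nat_lit 0) (nat_lit 0) (XT.nd (nat_lit 78) (nat_lit 0) (nat_lit 0) (XT.lf (nat_lit 0) (nat_lit 1085391725824) (nat_lit 76) (nat_lit 122063380578) (nat_lit 76) (nat_lit 106363222854) (nat_lit 3) (nat_lit 4) (nat_lit 4) (nat_lit 5) (nat_lit 4) (nat_lit 4)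 (nat_lit 312) (nat_lit 266) (nat_lit 202)) (XT.lf (nat_lit 0) (nat_lit 1306770797100) (nat_lit 76) (nat_lit 107781280579) (nat_lit 76) (nat_lit 92080855743) (nat_lit 3) (nat_lit 4) (nat_lit 4) (nat_lit 5) (nat_lit 4) (nat_lit 4) (nat_lit 313) (nat_lit 266) (nat_lit 201))) (XT.nd (nat_lit 78) (nat_lit 0) (nat_lit 0) (XT.lf (nat_lit 0) (nat_lit 1561354866791) (nat_lit 76) (nat_lit 91357826958) (nat_lit 76) (nat_lit 75657169853) (nat_lit 3) (nat_lit 4) (nat_lit 4) (nat_lit 5) (nat_lit 4) (nat_lit 4) (nat_lit 314) (nat_lit 266) (nat_lit 200)) (XT.nd (nat_lit 78) (nat_lit 0) (nat_lit 0) (XT.lf (nat_lit 0) (nat_lit 1854124927566) (nat_lit 76) (nat_lit 72471691277) (nat_lit 76) (nat_lit 56770832197) (nat_lit 3) (nat_lit 4) (nat_lit 4) (nat_lit 5) (nat_lit 4) (nat_lit 4) (nat_lit 315) (nat_lit 266) (nat_lit 199)) (XT.lf (nat_lit 0) (nat_lit 2190809089310) (nat_lit 76) (nat_lit 50753362184) (nat_lit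 76) (nat_lit 35052327474) (nat_lit 3) (nat_lit 4) (nat_lit 4) (nat_lit 5) (nat_lit 4) (nat_lit 4) (nat_lit 316) (nat_lit 266) (nat_lit 198)))))) (XT.nd (nat_lit 390) (nat_lit 0) (nat_lit 0) (XT.nd (nat_lit 156) (nat_lit 0) (nat_lit 0) (XT.nd (nat_lit 78) (nat_lit 152) (nat_lit 0) (XT.lf (nat_lit 0) (nat_lit 2577994650839) (nat_lit 76) (nat_lit 25777915850) (nat_lit 76) (nat_lit 10076728418) (nat_lit 3) (nat_lit 4) (nat_lit 4) (nat_lit 5) (nat_lit 4) (nat_lit 4) (nat_lit 317) (nat_lit 266) (nat_lit 197)) (XT.lf (nat_lit 0) (nat_lit 18134616844) (nat_lit 152) (nat_lit 2978764868498) (nat_lit 0) (nat_lit 4481294902) (nat_lit 1) (nat_lit 5) (nat_lit 3) (nat_lit 4) (nat_lit 1) (nat_lit 4) (nat_lit 318) (nat_lit 266) (nat_lit 196))) (XT.nd (nat_lit 78) (nat_lit 0) (nat_lit 0) (XT.lf (nat_lit 0) (nat_lit 52736450825) (nat_lit 152) (nat_lit 3354671964543) (nat_lit 0) (nat_lit 39083028466) (nat_lit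 1) (nat_lit 5) (nat_lit 3) (nat_lit 4) (nat_lit 1) (nat_lit 4) (nat_lit 319) (nat_lit 266) (nat_lit 195)) (XT.nd (nat_lit 78) (nat_lit 0) (nat_lit 0) (XT.lf (nat_lit 0) (nat_lit 92528093437) (nat_lit 152) (nat_lit 3786966099832) (nat_lit 0) (nat_lit 78874583759) (nat_lit 1) (nat_lit 5) (nat_lit 3) (nat_lit 4) (nat_lit 1) (nat_lit 4) (nat_lit 320) (nat_lit 266) (nat_lit 194)) (XT.lf (nat_lit 0) (nat_lit 138288076818) (nat_lit 152) (nat_lit 4284105203100) (nat_lit 0) (nat_lit 124634491210) (nat_lit 1) (nat_lit 5) (nat_lit 3) (nat_lit 4) (nat_lit 1) (nat_lit 4) (nat_lit 321) (nat_lit 266) (nat_lit 193))))) (XT.nd (nat_lit 156) (nat_lit 0) (nat_lit 0) (XT.nd (nat_lit 78) (nat_lit 0) (nat_lit 0) (XT.lf (nat_lit 0) (nat_lit 190911704991) (nat_lit 152) (nat_lit 4855815908976) (nat_lit 0) (nat_lit 177258053357) (nat_lit 1) (nat_lit 5) (nat_lit 3) (nat_lit 4) (nat_lit 1) (nat_lit 4) (nat_lit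 322) (nat_lit 266) (nat_lit 192)) (XT.lf (nat_lit 0) (nat_lit 251428570680) (nat_lit 152) (nat_lit 5513283861705) (nat_lit 0) (nat_lit 237774861633) (nat_lit 1) (nat_lit 5) (nat_lit 3) (nat_lit 4) (nat_lit 1) (nat_lit 4) (nat_lit 323) (nat_lit 266) (nat_lit 191))) (XT.nd (nat_lit 78) (nat_lit 0) (nat_lit 0) (XT.lf (nat_lit 0) (nat_lit 321022699520) (nat_lit 152) (nat_lit 6269372564710) (nat_lit 0) (nat_lit 307368940547) (nat_lit 1) (nat_lit 5) (nat_lit 3) (nat_lit 4) (nat_lit 1) (nat_lit 4) (nat_lit 324) (nat_lit 266) (nat_lit 190)) (XT.nd (nat_lit 78) (nat_lit 0) (nat_lit 0) (XT.lf (nat_lit 0) (nat_lit 401055715769) (nat_lit 152) (nat_lit 7138875057832) (nat_lit 0) (nat_lit 387401913383) (nat_lit 1) (nat_lit 5) (nat_lit 3) (nat_lit 4) (nat_lit 1) (nat_lit 4) (nat_lit 325) (nat_lit 266) (nat_lit 189)) (XT.lf (nat_lit 0) (nat_lit 493093482790) (nat_lit 152) (nat_lit 8138803346372) (nat_lit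 0) (nat_lit 479439642653) (nat_lit 1) (nat_lit 5) (nat_lit 3) (nat_lit 4) (nat_lit 1) (nat_lit 4) (nat_lit 326) (nat_lit 266) (nat_lit 188))))))))
noncomputable def xc61 : XT := (XT.nd (nat_lit 35958) (nat_lit 0) (nat_lit 760) (XT.nd (nat_lit 780) (nat_lit 0) (nat_lit 0) (XT.nd (nat_lit 390) (nat_lit 0) (nat_lit 0) (XT.nd (nat_lit 156) (nat_lit 0) (nat_lit 0) (XT.nd (nat_lit 78) (nat_lit 0) (nat_lit 0) (XT.lf (nat_lit 0) (nat_lit 598936739501) (nat_lit 152) (nat_lit 9288721244671) (nat_lit 0) (nat_lit 585282866538) (nat_lit 1) (nat_lit 5) (nat_lit 3) (nat_lit 4) (nat_lit 1) (nat_lit 4) (nat_lit 327) (nat_lit 266) (nat_lit 187)) (XT.lf (nat_lit 0) (nat_lit 720656332231) (nat_lit 152) (nat_lit 10611127146391) (nat_lit 0) (nat_lit 707002430723) (nat_lit 1) (nat_lit 5) (nat_lit 3) (nat_lit 4) (nat_lit 1) (nat_lit 4) (nat_lit 328) (nat_lit 266) (nat_lit 186))) (XT.nd (nat_lit 78) (nat_lit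 0) (nat_lit 0) (XT.lf (nat_lit 0) (nat_lit 860633731271) (nat_lit 152) (nat_lit 12131894210479) (nat_lit 0) (nat_lit 846979804942) (nat_lit 1) (nat_lit 5) (nat_lit 3) (nat_lit 4) (nat_lit 1) (nat_lit 4) (nat_lit 329) (nat_lit 266) (nat_lit 185)) (XT.nd (nat_lit 78) (nat_lit 0) (nat_lit 0) (XT.lf (nat_lit 0) (nat_lit 1021607624864) (nat_lit 152) (nat_lit 13880776575145) (nat_lit 0) (nat_lit 1007953676951) (nat_lit 1) (nat_lit 5) (nat_lit 3) (nat_lit 4) (nat_lit 1) (nat_lit 4) (nat_lit 330) (nat_lit 266) (nat_lit 184)) (XT.lf (nat_lit 0) (nat_lit 1206727502233) (nat_lit 152) (nat_lit 15891991504046) (nat_lit 0) (nat_lit 1193073535551) (nat_lit 1) (nat_lit 5) (nat_lit 3) (nat_lit 4) (nat_lit 1) (nat_lit 4) (nat_lit 331) (nat_lit 266) (nat_lit 183))))) (XT.nd (nat_lit 156) (nat_lit 0) (nat_lit 0) (XT.nd (nat_lit 78) (nat_lit 0) (nat_lit 0) (XT.lf (nat_lit 0) (nat_lit 1419615274020) (nat_lit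 152) (nat_lit 18204888854485) (nat_lit 0) (nat_lit 1405961291018) (nat_lit 1) (nat_lit 5) (nat_lit 3) (nat_lit 4) (nat_lit 1) (nat_lit 4) (nat_lit 332) (nat_lit 266) (nat_lit 182)) (XT.lf (nat_lit 0) (nat_lit 1664436135762) (nat_lit 152) (nat_lit 20864720965930) (nat_lit 0) (nat_lit 1650782138568) (nat_lit 1) (nat_lit 5) (nat_lit 3) (nat_lit 4) (nat_lit 1) (nat_lit 4) (nat_lit 333) (nat_lit 266) (nat_lit 181))) (XT.nd (nat_lit 78) (nat_lit 0) (nat_lit 0) (XT.lf (nat_lit 0) (nat_lit 1945980060841) (nat_lit 152) (nat_lit 23923528031863) (nat_lit 0) (nat_lit 1932326051306) (nat_lit 1) (nat_lit 5) (nat_lit 3) (nat_lit 4) (nat_lit 1) (nat_lit 4) (nat_lit 334) (nat_lit 266) (nat_lit 180)) (XT.nd (nat_lit 78) (nat_lit 0) (nat_lit 0) (XT.lf (nat_lit 0) (nat_lit 2269755517355) (nat_lit 152) (nat_lit 27441156277489) (nat_lit 0) (nat_lit 2256101497089) (nat_lit 1) (nat_lit 5) (nat_lit 3) (nat_lit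 4) (nat_lit 1) (nat_lit 4) (nat_lit 335) (nat_lit 266) (nat_lit 179)) (XT.lf (nat_lit 0) (nat_lit 2642097242497) (nat_lit 152) (nat_lit 31486428864135) (nat_lit 0) (nat_lit 2628443212900) (nat_lit 1) (nat_lit 5) (nat_lit 3) (nat_lit 4) (nat_lit 1) (nat_lit 4) (nat_lit 336) (nat_lit 266) (nat_lit 178)))))) (XT.nd (nat_lit 390) (nat_lit 0) (nat_lit 0) (XT.nd (nat_lit 156) (nat_lit 0) (nat_lit 0) (XT.nd (nat_lit 78) (nat_lit 0) (nat_lit 0) (XT.lf (nat_lit 0) (nat_lit 3070290183064) (nat_lit 152) (nat_lit 36138492429365) (nat_lit 0) (nat_lit 3056636145352) (nat_lit 1) (nat_lit 5) (nat_lit 3) (nat_lit 4) (nat_lit 1) (nat_lit 4) (nat_lit 337) (nat_lit 266) (nat_lit 177)) (XT.lf (nat_lit 0) (nat_lit 3562712027023) (nat_lit 152) (nat_lit 41488365608151) (nat_lit 0) (nat_lit 3549057982255) (nat_lit 1) (nat_lit 5) (nat_lit 3) (nat_lit 4) (nat_lit 1) (nat_lit 4) (nat_lit 338) (nat_lit 266) (nat_lit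 176))) (XT.nd (nat_lit 78) (nat_lit 0) (nat_lit 0) (XT.lf (nat_lit 0) (nat_lit 4128997114799) (nat_lit 152) (nat_lit 47640719832253) (nat_lit 0) (nat_lit 4115343063896) (nat_lit 1) (nat_lit 5) (nat_lit 3) (nat_lit 4) (nat_lit 1) (nat_lit 4) (nat_lit 339) (nat_lit 266) (nat_lit 175)) (XT.nd (nat_lit 78) (nat_lit 0) (nat_lit 0) (XT.lf (nat_lit 0) (nat_lit 4780224937241) (nat_lit 152) (nat_lit 54715927249532) (nat_lit 0) (nat_lit 4766570881003) (nat_lit 1) (nat_lit 5) (nat_lit 3) (nat_lit 4) (nat_lit 1) (nat_lit 4) (nat_lit 340) (nat_lit 266) (nat_lit 174)) (XT.lf (nat_lit 0) (nat_lit 5529136908265) (nat_lit 152) (nat_lit 62852415831198) (nat_lit 0) (nat_lit 5515482847388) (nat_lit 1) (nat_lit 5) (nat_lit 3) (nat_lit 4) (nat_lit 1) (nat_lit 4) (nat_lit 341) (nat_lit 266) (nat_lit 173))))) (XT.nd (nat_lit 156) (nat_lit 0) (nat_lit 0) (XT.nd (nat_lit 78) (nat_lit 0) (nat_lit 0) (XT.lf (nat_lit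 0) (nat_lit 6390385653392) (nat_lit 152) (nat_lit 72209377745151) (nat_lit 0) (nat_lit 6376731588480) (nat_lit 1) (nat_lit 5) (nat_lit 3) (nat_lit 4) (nat_lit 1) (nat_lit 4) (nat_lit 342) (nat_lit 266) (nat_lit 172)) (XT.lf (nat_lit 0) (nat_lit 7380821691548) (nat_lit 152) (nat_lit 82969883985361) (nat_lit 0) (nat_lit 7367167623128) (nat_lit 1) (nat_lit 5) (nat_lit 3) (nat_lit 4) (nat_lit 1) (nat_lit 4) (nat_lit 343) (nat_lit 266) (nat_lit 171))) (XT.nd (nat_lit 78) (nat_lit 0) (nat_lit 0) (XT.lf (nat_lit 0) (nat_lit 8519823119131) (nat_lit 152) (nat_lit 95344466195658) (nat_lit 0) (nat_lit 8506169047661) (nat_lit 1) (nat_lit 5) (nat_lit 3) (nat_lit 4) (nat_lit 1) (nat_lit 4) (nat_lit 344) (nat_lit 266) (nat_lit 170)) (XT.nd (nat_lit 78) (nat_lit 0) (nat_lit 0) (XT.lf (nat_lit 0) (nat_lit 9829674746682) (nat_lit 152) (nat_lit 109575235767112) (nat_lit 0) (nat_lit 9816020672560) (nat_lit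 1) (nat_lit 5) (nat_lit 3) (nat_lit 4) (nat_lit 1) (nat_lit 4) (nat_lit 345) (nat_lit 266) (nat_lit 169)) (XT.lf (nat_lit 0) (nat_lit 11336004106044) (nat_lit 152) (nat_lit 125940620800036) (nat_lit 0) (nat_lit 11322350029615) (nat_lit 1) (nat_lit 5) (nat_lit 3) (nat_lit 4) (nat_lit 1) (nat_lit 4) (nat_lit 346) (nat_lit 266) (nat_lit 168))))))) (XT.nd (nat_lit 780) (nat_lit 684) (nat_lit 0) (XT.nd (nat_lit 390) (nat_lit 380) (nat_lit 0) (XT.nd (nat_lit 156) (nat_lit 0) (nat_lit 76) (XT.nd (nat_lit 78) (nat_lit 380) (nat_lit 0) (XT.lf (nat_lit 0) (nat_lit 2721817641) (nat_lit 0) (nat_lit 2721817641) (nat_lit 228) (nat_lit 151371636) (nat_lit 30) (nat_lit 5) (nat_lit 30) (nat_lit 3) (nat_lit 33) (nat_lit 3) (nat_lit 267) (nat_lit 267) (nat_lit 246)) (XT.lf (nat_lit 0) (nat_lit 215149072) (nat_lit 380) (nat_lit 390059892) (nat_lit 380) (nat_lit 11347980811) (nat_lit 25) (nat_lit 3) (nat_lit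 30) (nat_lit 3) (nat_lit 30) (nat_lit 5) (nat_lit 268) (nat_lit 267) (nat_lit 245))) (XT.nd (nat_lit 78) (nat_lit 0) (nat_lit 0) (XT.lf (nat_lit 0) (nat_lit 1167820333) (nat_lit 304) (nat_lit 6763564358) (nat_lit 380) (nat_lit 4839322316) (nat_lit 26) (nat_lit 5) (nat_lit 30) (nat_lit 5) (nat_lit 31) (nat_lit 5) (nat_lit 269) (nat_lit 267) (nat_lit 244)) (XT.nd (nat_lit 78) (nat_lit 0) (nat_lit 76) (XT.lf (nat_lit 0) (nat_lit 2233573429) (nat_lit 304) (nat_lit 393629236) (nat_lit 380) (nat_lit 11088331448) (nat_lit 26) (nat_lit 5) (nat_lit 30) (nat_lit 5) (nat_lit 31) (nat_lit 5) (nat_lit 270) (nat_lit 267) (nat_lit 243)) (XT.lf (nat_lit 0) (nat_lit 3861444917) (nat_lit 304) (nat_lit 7376764454) (nat_lit 76) (nat_lit 3503719742) (nat_lit 27) (nat_lit 5) (nat_lit 31) (nat_lit 5) (nat_lit 28) (nat_lit 5) (nat_lit 271) (nat_lit 267) (nat_lit 242))))) (XT.nd (nat_lit 156) (nat_lit 228) (nat_lit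 0) (XT.nd (nat_lit 78) (nat_lit 0) (nat_lit 0) (XT.lf (nat_lit 0) (nat_lit 245679716) (nat_lit 304) (nat_lit 5582370096) (nat_lit 380) (nat_lit 10080209034) (nat_lit 23) (nat_lit 5) (nat_lit 27) (nat_lit 5) (nat_lit 28) (nat_lit 5) (nat_lit 272) (nat_lit 267) (nat_lit 241)) (XT.lf (nat_lit 0) (nat_lit 8474996295) (nat_lit 380) (nat_lit 7476252337) (nat_lit 76) (nat_lit 1240624503) (nat_lit 23) (nat_lit 5) (nat_lit 28) (nat_lit 5) (nat_lit 24) (nat_lit 5) (nat_lit 273) (nat_lit 267) (nat_lit 240))) (XT.nd (nat_lit 78) (nat_lit 76) (nat_lit 0) (XT.lf (nat_lit 0) (nat_lit 1770172479) (nat_lit 152) (nat_lit 10038558958) (nat_lit 228) (nat_lit 6815955889) (nat_lit 21) (nat_lit 5) (nat_lit 23) (nat_lit 5) (nat_lit 24) (nat_lit 5) (nat_lit 274) (nat_lit 267) (nat_lit 239)) (XT.nd (nat_lit 78) (nat_lit 76) (nat_lit 0) (XT.lf (nat_lit 0) (nat_lit 13186882847) (nat_lit 152) (nat_lit 2801152986)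 (nat_lit 228) (nat_lit 4232665605) (nat_lit 21) (nat_lit 5) (nat_lit 23) (nat_lit 5) (nat_lit 24) (nat_lit 5) (nat_lit 275) (nat_lit 267) (nat_lit 238)) (XT.lf (nat_lit 0) (nat_lit 4364858539) (nat_lit 76) (nat_lit 16798960278) (nat_lit 152) (nat_lit 836951969) (nat_lit 20) (nat_lit 5) (nat_lit 21) (nat_lit 5) (nat_lit 22) (nat_lit 4) (nat_lit 276) (nat_lit 267) (nat_lit 237)))))) (XT.nd (nat_lit 390) (nat_lit 380) (nat_lit 0) (XT.nd (nat_lit 156) (nat_lit 76) (nat_lit 0) (XT.nd (nat_lit 78) (nat_lit 152) (nat_lit 0) (XT.lf (nat_lit 0) (nat_lit 3274933822) (nat_lit 152) (nat_lit 6063201324) (nat_lit 76) (nat_lit 14618733187) (nat_lit 19) (nat_lit 5) (nat_lit 21) (nat_lit 5) (nat_lit 20) (nat_lit 5) (nat_lit 277) (nat_lit 267) (nat_lit 236)) (XT.lf (nat_lit 0) (nat_lit 7855901117) (nat_lit 152) (nat_lit 353732768) (nat_lit 228) (nat_lit 17947070041) (nat_lit 17) (nat_lit 5) (nat_lit 19)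 (nat_lit 5) (nat_lit 20) (nat_lit 5) (nat_lit 278) (nat_lit 267) (nat_lit 235))) (XT.nd (nat_lit 78) (nat_lit 76) (nat_lit 0) (XT.lf (nat_lit 0) (nat_lit 14597967626) (nat_lit 228) (nat_lit 4573847824) (nat_lit 76) (nat_lit 9407736882) (nat_lit 17) (nat_lit 5) (nat_lit 20) (nat_lit 5) (nat_lit 18) (nat_lit 4) (nat_lit 279) (nat_lit 267) (nat_lit 234)) (XT.nd (nat_lit 78) (nat_lit 0) (nat_lit 0) (XT.lf (nat_lit 0) (nat_lit 12240815605) (nat_lit 76) (nat_lit 10199807050) (nat_lit 152) (nat_lit 8850839684) (nat_lit 16) (nat_lit 5) (nat_lit 17) (nat_lit 5) (nat_lit 18) (nat_lit 4) (nat_lit 280) (nat_lit 267) (nat_lit 233)) (XT.lf (nat_lit 0) (nat_lit 31688570067) (nat_lit 152) (nat_lit 2344316524) (nat_lit 0) (nat_lit 342977286) (nat_lit 16) (nat_lit 5) (nat_lit 18) (nat_lit 4) (nat_lit 16) (nat_lit 4) (nat_lit 281) (nat_lit 267) (nat_lit 232))))) (XT.nd (nat_lit 234) (nat_lit 152) (nat_lit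 0) (XT.nd (nat_lit 78) (nat_lit 76) (nat_lit 0) (XT.lf (nat_lit 0) (nat_lit 5271914843) (nat_lit 152) (nat_lit 20041908640) (nat_lit 76) (nat_lit 12392359837) (nat_lit 14) (nat_lit 5) (nat_lit 16) (nat_lit 5) (nat_lit 15) (nat_lit 4) (nat_lit 282) (nat_lit 267) (nat_lit 231)) (XT.nd (nat_lit 78) (nat_lit 76) (nat_lit 0) (XT.lf (nat_lit 0) (nat_lit 14255628229) (nat_lit 152) (nat_lit 753822925) (nat_lit 76) (nat_lit 26491567641) (nat_lit 14) (nat_lit 5) (nat_lit 16) (nat_lit 5) (nat_lit 15) (nat_lit 4) (nat_lit 283) (nat_lit 267) (nat_lit 230)) (XT.lf (nat_lit 0) (nat_lit 23483365681) (nat_lit 76) (nat_lit 2056252421) (nat_lit 152) (nat_lit 20182575952) (nat_lit 13) (nat_lit 5) (nat_lit 14) (nat_lit 5) (nat_lit 15) (nat_lit 4) (nat_lit 284) (nat_lit 267) (nat_lit 229)))) (XT.nd (nat_lit 78) (nat_lit 76) (nat_lit 0) (XT.lf (nat_lit 0) (nat_lit 330747104) (nat_lit 76) (nat_lit 38753016961)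 (nat_lit 76) (nat_lit 11407667360) (nat_lit 12) (nat_lit 4) (nat_lit 13) (nat_lit 5) (nat_lit 13) (nat_lit 4) (nat_lit 285) (nat_lit 267) (nat_lit 228)) (XT.nd (nat_lit 78) (nat_lit 0) (nat_lit 0) (XT.lf (nat_lit 0) (nat_lit 97568128) (nat_lit 152) (nat_lit 27150957180) (nat_lit 76) (nat_lit 28541188270) (nat_lit 11) (nat_lit 5) (nat_lit 13) (nat_lit 5) (nat_lit 12) (nat_lit 4) (nat_lit 286) (nat_lit 267) (nat_lit 227)) (XT.lf (nat_lit 0) (nat_lit 12144250040) (nat_lit 152) (nat_lit 1263964160) (nat_lit 76) (nat_lit 48395514970) (nat_lit 11) (nat_lit 5) (nat_lit 13) (nat_lit 5) (nat_lit 12) (nat_lit 4) (nat_lit 287) (nat_lit 267) (nat_lit 226))))))))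
noncomputable def xc62 : XT := (XT.nd (nat_lit 1560) (nat_lit 152) (nat_lit 0) (XT.nd (nat_lit 780) (nat_lit 228) (nat_lit 0) (XT.nd (nat_lit 390) (nat_lit 76) (nat_lit 0) (XT.nd (nat_lit 156) (nat_lit 228) (nat_lit 0) (XT.nd (nat_lit 78) (nat_lit 0) (nat_lit 0) (XT.lf (nat_lit 0) (nat_lit 27443146217) (nat_lit 152) (nat_lit 37430462717) (nat_lit 0) (nat_lit 3629467500) (nat_lit 10) (nat_lit 5) (nat_lit 12) (nat_lit 4) (nat_lit 10) (nat_lit 4) (nat_lit 288) (nat_lit 267) (nat_lit 225)) (XT.lf (nat_lit 0) (nat_lit 45730600142) (nat_lit 152) (nat_lit 8464548424) (nat_lit 0) (nat_lit 21908128401) (nat_lit 10) (nat_lit 5) (nat_lit 12) (nat_lit 4) (nat_lit 10) (nat_lit 4) (nat_lit 289) (nat_lit 267) (nat_lit 224))) (XT.nd (nat_lit 78) (nat_lit 152) (nat_lit 0) (XT.lf (nat_lit 0) (nat_lit 27248416086) (nat_lit 76) (nat_lit 40628898217) (nat_lit 76) (nat_lit 16798780368) (nat_lit 9) (nat_lit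 4) (nat_lit 10) (nat_lit 5) (nat_lit 10) (nat_lit 4) (nat_lit 290) (nat_lit 267) (nat_lit 223)) (XT.nd (nat_lit 78) (nat_lit 152) (nat_lit 0) (XT.lf (nat_lit 0) (nat_lit 69247022072) (nat_lit 76) (nat_lit 24529971602) (nat_lit 76) (nat_lit 693204962) (nat_lit 9) (nat_lit 4) (nat_lit 10) (nat_lit 5) (nat_lit 10) (nat_lit 4) (nat_lit 291) (nat_lit 267) (nat_lit 222)) (XT.lf (nat_lit 0) (nat_lit 12133275496) (nat_lit 76) (nat_lit 4599665756) (nat_lit 152) (nat_lit 88815959563) (nat_lit 7) (nat_lit 5) (nat_lit 8) (nat_lit 5) (nat_lit 9) (nat_lit 4) (nat_lit 292) (nat_lit 267) (nat_lit 221))))) (XT.nd (nat_lit 156) (nat_lit 76) (nat_lit 0) (XT.nd (nat_lit 78) (nat_lit 0) (nat_lit 0) (XT.lf (nat_lit 0) (nat_lit 38831563470) (nat_lit 152) (nat_lit 61038928262) (nat_lit 0) (nat_lit 18094541176) (nat_lit 7) (nat_lit 5) (nat_lit 9) (nat_lit 4) (nat_lit 7) (nat_lit 4) (nat_lit 293) (nat_lit 267)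 (nat_lit 220)) (XT.lf (nat_lit 0) (nat_lit 64455015964) (nat_lit 152) (nat_lit 24042875289) (nat_lit 0) (nat_lit 43714192204) (nat_lit 7) (nat_lit 5) (nat_lit 9) (nat_lit 4) (nat_lit 7) (nat_lit 4) (nat_lit 294) (nat_lit 267) (nat_lit 219))) (XT.nd (nat_lit 78) (nat_lit 0) (nat_lit 0) (XT.lf (nat_lit 0) (nat_lit 20293499417) (nat_lit 76) (nat_lit 74460975922) (nat_lit 76) (nat_lit 53716846538) (nat_lit 6) (nat_lit 4) (nat_lit 7) (nat_lit 5) (nat_lit 7) (nat_lit 4) (nat_lit 295) (nat_lit 267) (nat_lit 218)) (XT.nd (nat_lit 78) (nat_lit 0) (nat_lit 0) (XT.lf (nat_lit 0) (nat_lit 73967383879) (nat_lit 76) (nat_lit 56880832393) (nat_lit 76) (nat_lit 36133828553) (nat_lit 6) (nat_lit 4) (nat_lit 7) (nat_lit 5) (nat_lit 7) (nat_lit 4) (nat_lit 296) (nat_lit 267) (nat_lit 217)) (XT.lf (nat_lit 0) (nat_lit 135679274682) (nat_lit 76) (nat_lit 36670288000) (nat_lit 76) (nat_lit 15920784633) (nat_lit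 6) (nat_lit 4) (nat_lit 7) (nat_lit 5) (nat_lit 7) (nat_lit 4) (nat_lit 297) (nat_lit 267) (nat_lit 216)))))) (XT.nd (nat_lit 390) (nat_lit 76) (nat_lit 0) (XT.nd (nat_lit 156) (nat_lit 0) (nat_lit 0) (XT.nd (nat_lit 78) (nat_lit 76) (nat_lit 0) (XT.lf (nat_lit 0) (nat_lit 6666280415) (nat_lit 152) (nat_lit 6419173974) (nat_lit 76) (nat_lit 199621833314) (nat_lit 5) (nat_lit 5) (nat_lit 7) (nat_lit 5) (nat_lit 6) (nat_lit 4) (nat_lit 298) (nat_lit 267) (nat_lit 215)) (XT.lf (nat_lit 0) (nat_lit 33809623998) (nat_lit 152) (nat_lit 190703652376) (nat_lit 0) (nat_lit 15763044112) (nat_lit 4) (nat_lit 5) (nat_lit 6) (nat_lit 4) (nat_lit 4) (nat_lit 4) (nat_lit 299) (nat_lit 267) (nat_lit 214))) (XT.nd (nat_lit 78) (nat_lit 0) (nat_lit 0) (XT.lf (nat_lit 0) (nat_lit 65994043623) (nat_lit 152) (nat_lit 157895195336) (nat_lit 0) (nat_lit 47946034625) (nat_lit 4) (nat_lit 5) (nat_lit 6) (nat_lit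 4) (nat_lit 4) (nat_lit 4) (nat_lit 300) (nat_lit 267) (nat_lit 213)) (XT.nd (nat_lit 78) (nat_lit 0) (nat_lit 0) (XT.lf (nat_lit 0) (nat_lit 103001718744) (nat_lit 152) (nat_lit 120174546347) (nat_lit 0) (nat_lit 84952467040) (nat_lit 4) (nat_lit 5) (nat_lit 6) (nat_lit 4) (nat_lit 4) (nat_lit 4) (nat_lit 301) (nat_lit 267) (nat_lit 212)) (XT.lf (nat_lit 0) (nat_lit 145556712570) (nat_lit 152) (nat_lit 76803692712) (nat_lit 0) (nat_lit 127506380252) (nat_lit 4) (nat_lit 5) (nat_lit 6) (nat_lit 4) (nat_lit 4) (nat_lit 4) (nat_lit 302) (nat_lit 267) (nat_lit 211))))) (XT.nd (nat_lit 156) (nat_lit 0) (nat_lit 0) (XT.nd (nat_lit 78) (nat_lit 76) (nat_lit 0) (XT.lf (nat_lit 0) (nat_lit 194491622807) (nat_lit 152) (nat_lit 26934074251) (nat_lit 0) (nat_lit 176440350823) (nat_lit 4) (nat_lit 5) (nat_lit 6) (nat_lit 4) (nat_lit 4) (nat_lit 4) (nat_lit 303) (nat_lit 267) (nat_lit 210)) (XT.lf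 (nat_lit 0) (nat_lit 33381907179) (nat_lit 76) (nat_lit 218764238021) (nat_lit 76) (nat_lit 200712148938) (nat_lit 3) (nat_lit 4) (nat_lit 4) (nat_lit 5) (nat_lit 4) (nat_lit 4) (nat_lit 304) (nat_lit 267) (nat_lit 209))) (XT.nd (nat_lit 78) (nat_lit 0) (nat_lit 0) (XT.lf (nat_lit 0) (nat_lit 105766611743) (nat_lit 76) (nat_lit 214087395863) (nat_lit 76) (nat_lit 196034596258) (nat_lit 3) (nat_lit 4) (nat_lit 4) (nat_lit 5) (nat_lit 4) (nat_lit 4) (nat_lit 305) (nat_lit 267) (nat_lit 208)) (XT.nd (nat_lit 78) (nat_lit 0) (nat_lit 0) (XT.lf (nat_lit 0) (nat_lit 189004068303) (nat_lit 76) (nat_lit 208711584669) (nat_lit 76) (nat_lit 190658167220) (nat_lit 3) (nat_lit 4) (nat_lit 4) (nat_lit 5) (nat_lit 4) (nat_lit 4) (nat_lit 306) (nat_lit 267) (nat_lit 207)) (XT.lf (nat_lit 0) (nat_lit 284722835791) (nat_lit 76) (nat_lit 202531625524) (nat_lit 76) (nat_lit 184477670819) (nat_lit 3) (nat_lit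 4) (nat_lit 4) (nat_lit 5) (nat_lit 4) (nat_lit 4) (nat_lit 307) (nat_lit 267) (nat_lit 206))))))) (XT.nd (nat_lit 780) (nat_lit 152) (nat_lit 0) (XT.nd (nat_lit 390) (nat_lit 0) (nat_lit 0) (XT.nd (nat_lit 156) (nat_lit 0) (nat_lit 0) (XT.nd (nat_lit 78) (nat_lit 0) (nat_lit 0) (XT.lf (nat_lit 0) (nat_lit 394795672700) (nat_lit 76) (nat_lit 195426606184) (nat_lit 76) (nat_lit 177372184299) (nat_lit 3) (nat_lit 4) (nat_lit 4) (nat_lit 5) (nat_lit 4) (nat_lit 4) (nat_lit 308) (nat_lit 267) (nat_lit 205)) (XT.lf (nat_lit 0) (nat_lit 521376178015) (nat_lit 76) (nat_lit 187257515402) (nat_lit 76) (nat_lit 169202687274) (nat_lit 3) (nat_lit 4) (nat_lit 4) (nat_lit 5) (nat_lit 4) (nat_lit 4) (nat_lit 309) (nat_lit 267) (nat_lit 204))) (XT.nd (nat_lit 78) (nat_lit 0) (nat_lit 0) (XT.lf (nat_lit 0) (nat_lit 666940926838) (nat_lit 76) (nat_lit 177864523139) (nat_lit 76) (nat_lit 159809341757)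 (nat_lit 3) (nat_lit 4) (nat_lit 4) (nat_lit 5) (nat_lit 4) (nat_lit 4) (nat_lit 310) (nat_lit 267) (nat_lit 203)) (XT.nd (nat_lit 78) (nat_lit 0) (nat_lit 0) (XT.lf (nat_lit 0) (nat_lit 834337925126) (nat_lit 76) (nat_lit 167063853461) (nat_lit 76) (nat_lit 149008364901) (nat_lit 3) (nat_lit 4) (nat_lit 4) (nat_lit 5) (nat_lit 4) (nat_lit 4) (nat_lit 311) (nat_lit 267) (nat_lit 202)) (XT.lf (nat_lit 0) (nat_lit 1026842331540) (nat_lit 76) (nat_lit 154644188917) (nat_lit 76) (nat_lit 136588433245) (nat_lit 3) (nat_lit 4) (nat_lit 4) (nat_lit 5) (nat_lit 4) (nat_lit 4) (nat_lit 312) (nat_lit 267) (nat_lit 201))))) (XT.nd (nat_lit 156) (nat_lit 0) (nat_lit 0) (XT.nd (nat_lit 78) (nat_lit 0) (nat_lit 0) (XT.lf (nat_lit 0) (nat_lit 1248220536641) (nat_lit 76) (nat_lit 140362536071) (nat_lit 76) (nat_lit 122306548128) (nat_lit 3) (nat_lit 4) (nat_lit 4) (nat_lit 5) (nat_lit 4) (nat_lit 4)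 (nat_lit 313) (nat_lit 267) (nat_lit 200)) (XT.lf (nat_lit 0) (nat_lit 1502803853137) (nat_lit 76) (nat_lit 123939471280) (nat_lit 76) (nat_lit 105883281363) (nat_lit 3) (nat_lit 4) (nat_lit 4) (nat_lit 5) (nat_lit 4) (nat_lit 4) (nat_lit 314) (nat_lit 267) (nat_lit 199))) (XT.nd (nat_lit 78) (nat_lit 0) (nat_lit 0) (XT.lf (nat_lit 0) (nat_lit 1795573258959) (nat_lit 76) (nat_lit 105053673710) (nat_lit 76) (nat_lit 86997308163) (nat_lit 3) (nat_lit 4) (nat_lit 4) (nat_lit 5) (nat_lit 4) (nat_lit 4) (nat_lit 315) (nat_lit 267) (nat_lit 198)) (XT.nd (nat_lit 78) (nat_lit 0) (nat_lit 0) (XT.lf (nat_lit 0) (nat_lit 2132256851179) (nat_lit 76) (nat_lit 83335638628) (nat_lit 76) (nat_lit 65279120359) (nat_lit 3) (nat_lit 4) (nat_lit 4) (nat_lit 5) (nat_lit 4) (nat_lit 4) (nat_lit 316) (nat_lit 267) (nat_lit 197)) (XT.lf (nat_lit 0) (nat_lit 2519441917470) (nat_lit 76) (nat_lit 58360447955)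 (nat_lit 76) (nat_lit 40303796884) (nat_lit 3) (nat_lit 4) (nat_lit 4) (nat_lit 5) (nat_lit 4) (nat_lit 4) (nat_lit 317) (nat_lit 267) (nat_lit 196)))))) (XT.nd (nat_lit 390) (nat_lit 0) (nat_lit 0) (XT.nd (nat_lit 156) (nat_lit 0) (nat_lit 0) (XT.nd (nat_lit 78) (nat_lit 152) (nat_lit 0) (XT.lf (nat_lit 0) (nat_lit 2964703817824) (nat_lit 76) (nat_lit 29639456656) (nat_lit 76) (nat_lit 11582690106) (nat_lit 3) (nat_lit 4) (nat_lit 4) (nat_lit 5) (nat_lit 4) (nat_lit 4) (nat_lit 318) (nat_lit 267) (nat_lit 195)) (XT.lf (nat_lit 0) (nat_lit 20859832018) (nat_lit 152) (nat_lit 3425569102262) (nat_lit 0) (nat_lit 5158208569) (nat_lit 1) (nat_lit 5) (nat_lit 3) (nat_lit 4) (nat_lit 1) (nat_lit 4) (nat_lit 319) (nat_lit 267) (nat_lit 194))) (XT.nd (nat_lit 78) (nat_lit 0) (nat_lit 0) (XT.lf (nat_lit 0) (nat_lit 60651285968) (nat_lit 152) (nat_lit 3857863631824) (nat_lit 0) (nat_lit 44949586589)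 (nat_lit 1) (nat_lit 5) (nat_lit 3) (nat_lit 4) (nat_lit 1) (nat_lit 4) (nat_lit 320) (nat_lit 267) (nat_lit 193)) (XT.nd (nat_lit 78) (nat_lit 0) (nat_lit 0) (XT.lf (nat_lit 0) (nat_lit 106411105296) (nat_lit 152) (nat_lit 4355003077937) (nat_lit 0) (nat_lit 90709339891) (nat_lit 1) (nat_lit 5) (nat_lit 3) (nat_lit 4) (nat_lit 1) (nat_lit 4) (nat_lit 321) (nat_lit 267) (nat_lit 192)) (XT.lf (nat_lit 0) (nat_lit 159034590813) (nat_lit 152) (nat_lit 4926714081939) (nat_lit 0) (nat_lit 143332767994) (nat_lit 1) (nat_lit 5) (nat_lit 3) (nat_lit 4) (nat_lit 1) (nat_lit 4) (nat_lit 322) (nat_lit 267) (nat_lit 191))))) (XT.nd (nat_lit 234) (nat_lit 0) (nat_lit 0) (XT.nd (nat_lit 78) (nat_lit 0) (nat_lit 0) (XT.lf (nat_lit 0) (nat_lit 219551332455) (nat_lit 152) (nat_lit 5584182293908) (nat_lit 0) (nat_lit 203849459711) (nat_lit 1) (nat_lit 5) (nat_lit 3) (nat_lit 4) (nat_lit 1) (nat_lit 4)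 (nat_lit 323) (nat_lit 267) (nat_lit 190)) (XT.nd (nat_lit 78) (nat_lit 0) (nat_lit 0) (XT.lf (nat_lit 0) (nat_lit 289145353426) (nat_lit 152) (nat_lit 6340271222340) (nat_lit 0) (nat_lit 273443437269) (nat_lit 1) (nat_lit 5) (nat_lit 3) (nat_lit 4) (nat_lit 1) (nat_lit 4) (nat_lit 324) (nat_lit 267) (nat_lit 189)) (XT.lf (nat_lit 0) (nat_lit 369178275877) (nat_lit 152) (nat_lit 7209773911485) (nat_lit 0) (nat_lit 353476321970) (nat_lit 1) (nat_lit 5) (nat_lit 3) (nat_lit 4) (nat_lit 1) (nat_lit 4) (nat_lit 325) (nat_lit 267) (nat_lit 188)))) (XT.nd (nat_lit 78) (nat_lit 0) (nat_lit 0) (XT.lf (nat_lit 0) (nat_lit 461215961334) (nat_lit 152) (nat_lit 8209702370480) (nat_lit 0) (nat_lit 445513974600) (nat_lit 1) (nat_lit 5) (nat_lit 3) (nat_lit 4) (nat_lit 1) (nat_lit 4) (nat_lit 326) (nat_lit 267) (nat_lit 187)) (XT.nd (nat_lit 78) (nat_lit 0) (nat_lit 0) (XT.lf (nat_lit 0) (nat_lit 567059147121)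 (nat_lit 152) (nat_lit 9359620417000) (nat_lit 0) (nat_lit 551357131842) (nat_lit 1) (nat_lit 5) (nat_lit 3) (nat_lit 4) (nat_lit 1) (nat_lit 4) (nat_lit 327) (nat_lit 267) (nat_lit 186)) (XT.lf (nat_lit 0) (nat_lit 688778678176) (nat_lit 152) (nat_lit 10682026447608) (nat_lit 0) (nat_lit 673076638076) (nat_lit 1) (nat_lit 5) (nat_lit 3) (nat_lit 4) (nat_lit 1) (nat_lit 4) (nat_lit 328) (nat_lit 267) (nat_lit 185))))))))
noncomputable def xc63 : XT := (XT.nd (nat_lit 1794) (nat_lit 0) (nat_lit 0) (XT.nd (nat_lit 780) (nat_lit 0) (nat_lit 0) (XT.nd (nat_lit 390) (nat_lit 0) (nat_lit 0) (XT.nd (nat_lit 156) (nat_lit 0) (nat_lit 0) (XT.nd (nat_lit 78) (nat_lit 0) (nat_lit 0) (XT.lf (nat_lit 0) (nat_lit 828756023587) (nat_lit 152) (nat_lit 12202793623773) (nat_lit 0) (nat_lit 813053961903) (nat_lit 1) (nat_lit 5) (nat_lit 3) (nat_lit 4) (nat_lit 1) (nat_lit 4) (nat_lit 329) (nat_lit 267)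 (nat_lit 184)) (XT.lf (nat_lit 0) (nat_lit 989729870546) (nat_lit 152) (nat_lit 13951676085897) (nat_lit 0) (nat_lit 974027790093) (nat_lit 1) (nat_lit 5) (nat_lit 3) (nat_lit 4) (nat_lit 1) (nat_lit 4) (nat_lit 330) (nat_lit 267) (nat_lit 183))) (XT.nd (nat_lit 78) (nat_lit 0) (nat_lit 0) (XT.lf (nat_lit 0) (nat_lit 1174849707363) (nat_lit 152) (nat_lit 15962891099544) (nat_lit 0) (nat_lit 1159147610589) (nat_lit 1) (nat_lit 5) (nat_lit 3) (nat_lit 4) (nat_lit 1) (nat_lit 4) (nat_lit 331) (nat_lit 267) (nat_lit 182)) (XT.nd (nat_lit 78) (nat_lit 0) (nat_lit 0) (XT.lf (nat_lit 0) (nat_lit 1387737443888) (nat_lit 152) (nat_lit 18275788523676) (nat_lit 0) (nat_lit 1372035332923) (nat_lit 1) (nat_lit 5) (nat_lit 3) (nat_lit 4) (nat_lit 1) (nat_lit 4) (nat_lit 332) (nat_lit 267) (nat_lit 181)) (XT.lf (nat_lit 0) (nat_lit 1632558274968) (nat_lit 152) (nat_lit 20935620699201) (nat_lit 0) (nat_lit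 1616856151662) (nat_lit 1) (nat_lit 5) (nat_lit 3) (nat_lit 4) (nat_lit 1) (nat_lit 4) (nat_lit 333) (nat_lit 267) (nat_lit 180))))) (XT.nd (nat_lit 156) (nat_lit 0) (nat_lit 0) (XT.nd (nat_lit 78) (nat_lit 0) (nat_lit 0) (XT.lf (nat_lit 0) (nat_lit 1914102173383) (nat_lit 152) (nat_lit 23994427820856) (nat_lit 0) (nat_lit 1898400039346) (nat_lit 1) (nat_lit 5) (nat_lit 3) (nat_lit 4) (nat_lit 1) (nat_lit 4) (nat_lit 334) (nat_lit 267) (nat_lit 179)) (XT.lf (nat_lit 0) (nat_lit 2237877606711) (nat_lit 152) (nat_lit 27512056114936) (nat_lit 0) (nat_lit 2222175463343) (nat_lit 1) (nat_lit 5) (nat_lit 3) (nat_lit 4) (nat_lit 1) (nat_lit 4) (nat_lit 335) (nat_lit 267) (nat_lit 178))) (XT.nd (nat_lit 78) (nat_lit 0) (nat_lit 0) (XT.lf (nat_lit 0) (nat_lit 2610219311692) (nat_lit 152) (nat_lit 31557328743715) (nat_lit 0) (nat_lit 2594517160209) (nat_lit 1) (nat_lit 5) (nat_lit 3) (nat_lit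 4) (nat_lit 1) (nat_lit 4) (nat_lit 336) (nat_lit 267) (nat_lit 177)) (XT.nd (nat_lit 78) (nat_lit 0) (nat_lit 0) (XT.lf (nat_lit 0) (nat_lit 3038412234727) (nat_lit 152) (nat_lit 36209392345583) (nat_lit 0) (nat_lit 3022710076189) (nat_lit 1) (nat_lit 5) (nat_lit 3) (nat_lit 4) (nat_lit 1) (nat_lit 4) (nat_lit 337) (nat_lit 267) (nat_lit 176)) (XT.lf (nat_lit 0) (nat_lit 3530834063441) (nat_lit 152) (nat_lit 41559265556229) (nat_lit 0) (nat_lit 3515131898767) (nat_lit 1) (nat_lit 5) (nat_lit 3) (nat_lit 4) (nat_lit 1) (nat_lit 4) (nat_lit 338) (nat_lit 267) (nat_lit 175)))))) (XT.nd (nat_lit 390) (nat_lit 0) (nat_lit 0) (XT.nd (nat_lit 156) (nat_lit 0) (nat_lit 0) (XT.nd (nat_lit 78) (nat_lit 0) (nat_lit 0) (XT.lf (nat_lit 0) (nat_lit 4097119137961) (nat_lit 152) (nat_lit 47711619808034) (nat_lit 0) (nat_lit 4081416967952) (nat_lit 1) (nat_lit 5) (nat_lit 3) (nat_lit 4) (nat_lit 1)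 (nat_lit 4) (nat_lit 339) (nat_lit 267) (nat_lit 174)) (XT.lf (nat_lit 0) (nat_lit 4748346948876) (nat_lit 152) (nat_lit 54786827249404) (nat_lit 0) (nat_lit 4732644774227) (nat_lit 1) (nat_lit 5) (nat_lit 3) (nat_lit 4) (nat_lit 1) (nat_lit 4) (nat_lit 340) (nat_lit 267) (nat_lit 173))) (XT.nd (nat_lit 78) (nat_lit 0) (nat_lit 0) (XT.lf (nat_lit 0) (nat_lit 5497258909876) (nat_lit 152) (nat_lit 62923315852017) (nat_lit 0) (nat_lit 5481556731194) (nat_lit 1) (nat_lit 5) (nat_lit 3) (nat_lit 4) (nat_lit 1) (nat_lit 4) (nat_lit 341) (nat_lit 267) (nat_lit 172)) (XT.nd (nat_lit 78) (nat_lit 0) (nat_lit 0) (XT.lf (nat_lit 0) (nat_lit 6358507646287) (nat_lit 152) (nat_lit 72280277784186) (nat_lit 0) (nat_lit 6342805464096) (nat_lit 1) (nat_lit 5) (nat_lit 3) (nat_lit 4) (nat_lit 1) (nat_lit 4) (nat_lit 342) (nat_lit 267) (nat_lit 171)) (XT.lf (nat_lit 0) (nat_lit 7348943676863) (nat_lit 152)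 (nat_lit 83040784040236) (nat_lit 0) (nat_lit 7333241491622) (nat_lit 1) (nat_lit 5) (nat_lit 3) (nat_lit 4) (nat_lit 1) (nat_lit 4) (nat_lit 343) (nat_lit 267) (nat_lit 170))))) (XT.nd (nat_lit 156) (nat_lit 0) (nat_lit 0) (XT.nd (nat_lit 78) (nat_lit 0) (nat_lit 0) (XT.lf (nat_lit 0) (nat_lit 8487945097856) (nat_lit 152) (nat_lit 95415366264306) (nat_lit 0) (nat_lit 8472242909963) (nat_lit 1) (nat_lit 5) (nat_lit 3) (nat_lit 4) (nat_lit 1) (nat_lit 4) (nat_lit 344) (nat_lit 267) (nat_lit 169)) (XT.lf (nat_lit 0) (nat_lit 9797796719676) (nat_lit 152) (nat_lit 109646135847738) (nat_lit 0) (nat_lit 9782094529476) (nat_lit 1) (nat_lit 5) (nat_lit 3) (nat_lit 4) (nat_lit 1) (nat_lit 4) (nat_lit 345) (nat_lit 267) (nat_lit 168))) (XT.nd (nat_lit 312) (nat_lit 0) (nat_lit 0) (XT.lf (nat_lit 0) (nat_lit 11304126074054) (nat_lit 152) (nat_lit 126011520891076) (nat_lit 0) (nat_lit 11288423881849)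 (nat_lit 1) (nat_lit 5) (nat_lit 3) (nat_lit 4) (nat_lit 1) (nat_lit 4) (nat_lit 346) (nat_lit 267) (nat_lit 167)) (XT.nd (nat_lit 78) (nat_lit 0) (nat_lit 0) (XT.lf (nat_lit 0) (nat_lit 19954043419030) (nat_lit 152) (nat_lit 219987801313451) (nat_lit 0) (nat_lit 19938341221098) (nat_lit 1) (nat_lit 5) (nat_lit 3) (nat_lit 4) (nat_lit 1) (nat_lit 4) (nat_lit 350) (nat_lit 267) (nat_lit 163)) (XT.lf (nat_lit 0) (nat_lit 22983809742395) (nat_lit 152) (nat_lit 252904436251707) (nat_lit 0) (nat_lit 22968107543465) (nat_lit 1) (nat_lit 5) (nat_lit 3) (nat_lit 4) (nat_lit 1) (nat_lit 4) (nat_lit 351) (nat_lit 267) (nat_lit 162))))))) (XT.nd (nat_lit 34710) (nat_lit 0) (nat_lit 836) (XT.nd (nat_lit 34320) (nat_lit 0) (nat_lit 1520) (XT.nd (nat_lit 34086) (nat_lit 0) (nat_lit 1824) (XT.nd (nat_lit 78) (nat_lit 0) (nat_lit 0) (XT.lf (nat_lit 0) (nat_lit 26468041009631) (nat_lit 152) (nat_lit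 290758566440383) (nat_lit 0) (nat_lit 26452338809834) (nat_lit 1) (nat_lit 5) (nat_lit 3) (nat_lit 4) (nat_lit 1) (nat_lit 4) (nat_lit 352) (nat_lit 267) (nat_lit 161)) (XT.lf (nat_lit 0) (nat_lit 30474906962925) (nat_lit 152) (nat_lit 334290816165777) (nat_lit 0) (nat_lit 30459204762375) (nat_lit 1) (nat_lit 5) (nat_lit 3) (nat_lit 4) (nat_lit 1) (nat_lit 4) (nat_lit 353) (nat_lit 267) (nat_lit 160))) (XT.nd (nat_lit 78) (nat_lit 0) (nat_lit 0) (XT.lf (nat_lit 0) (nat_lit 331859285) (nat_lit 380) (nat_lit 3014308593) (nat_lit 380) (nat_lit 3014308593) (nat_lit 25) (nat_lit 3) (nat_lit 30) (nat_lit 3) (nat_lit 30) (nat_lit 5) (nat_lit 268) (nat_lit 268) (nat_lit 244)) (XT.nd (nat_lit 78) (nat_lit 0) (nat_lit 76) (XT.lf (nat_lit 76) (nat_lit 47199978) (nat_lit 0) (nat_lit 1055113461) (nat_lit 380) (nat_lit 12513365618) (nat_lit 26) (nat_lit 5) (nat_lit 25) (nat_lit 3) (nat_lit 30) (nat_lit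 5) (nat_lit 269) (nat_lit 268) (nat_lit 243)) (XT.lf (nat_lit 0) (nat_lit 2092021127) (nat_lit 304) (nat_lit 7180661209) (nat_lit 380) (nat_lit 5299315357) (nat_lit 26) (nat_lit 5) (nat_lit 30) (nat_lit 5) (nat_lit 31) (nat_lit 5) (nat_lit 270) (nat_lit 268) (nat_lit 242))))) (XT.nd (nat_lit 156) (nat_lit 380) (nat_lit 0) (XT.nd (nat_lit 78) (nat_lit 0) (nat_lit 76) (XT.lf (nat_lit 76) (nat_lit 73369357) (nat_lit 0) (nat_lit 3149606627) (nat_lit 380) (nat_lit 12450027870) (nat_lit 27) (nat_lit 5) (nat_lit 26) (nat_lit 5) (nat_lit 31) (nat_lit 5) (nat_lit 271) (nat_lit 268) (nat_lit 241)) (XT.lf (nat_lit 0) (nat_lit 5023799762) (nat_lit 304) (nat_lit 7894094672) (nat_lit 76) (nat_lit 3946370379) (nat_lit 27) (nat_lit 5) (nat_lit 31) (nat_lit 5) (nat_lit 28) (nat_lit 5) (nat_lit 272) (nat_lit 268) (nat_lit 240))) (XT.nd (nat_lit 78) (nat_lit 152) (nat_lit 0) (XT.lf (nat_lit 0) (nat_lit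 844935012) (nat_lit 304) (nat_lit 6387686809) (nat_lit 380) (nat_lit 10981031648) (nat_lit 23) (nat_lit 5) (nat_lit 27) (nat_lit 5) (nat_lit 28) (nat_lit 5) (nat_lit 273) (nat_lit 268) (nat_lit 239)) (XT.nd (nat_lit 78) (nat_lit 152) (nat_lit 0) (XT.lf (nat_lit 0) (nat_lit 10208585910) (nat_lit 380) (nat_lit 8039498115) (nat_lit 76) (nat_lit 1452097731) (nat_lit 23) (nat_lit 5) (nat_lit 28) (nat_lit 5) (nat_lit 24) (nat_lit 5) (nat_lit 274) (nat_lit 268) (nat_lit 238)) (XT.lf (nat_lit 0) (nat_lit 2568518057) (nat_lit 152) (nat_lit 11435620954) (nat_lit 228) (nat_lit 7349661670) (nat_lit 21) (nat_lit 5) (nat_lit 23) (nat_lit 5) (nat_lit 24) (nat_lit 5) (nat_lit 275) (nat_lit 268) (nat_lit 237)))))) (XT.nd (nat_lit 390) (nat_lit 380) (nat_lit 0) (XT.nd (nat_lit 156) (nat_lit 228) (nat_lit 0) (XT.nd (nat_lit 78) (nat_lit 76) (nat_lit 0) (XT.lf (nat_lit 0) (nat_lit 15628236758) (nat_lit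 152) (nat_lit 3126785198) (nat_lit 228) (nat_lit 4442619705) (nat_lit 21) (nat_lit 5) (nat_lit 23) (nat_lit 5) (nat_lit 24) (nat_lit 5) (nat_lit 276) (nat_lit 268) (nat_lit 236)) (XT.lf (nat_lit 0) (nat_lit 5511723988) (nat_lit 76) (nat_lit 19171129005) (nat_lit 152) (nat_lit 565626919) (nat_lit 20) (nat_lit 5) (nat_lit 21) (nat_lit 5) (nat_lit 22) (nat_lit 4) (nat_lit 277) (nat_lit 268) (nat_lit 235))) (XT.nd (nat_lit 78) (nat_lit 152) (nat_lit 0) (XT.lf (nat_lit 0) (nat_lit 4080552961) (nat_lit 152) (nat_lit 6513455689) (nat_lit 76) (nat_lit 16908675577) (nat_lit 19) (nat_lit 5) (nat_lit 21) (nat_lit 5) (nat_lit 20) (nat_lit 5) (nat_lit 278) (nat_lit 268) (nat_lit 234)) (XT.nd (nat_lit 78) (nat_lit 0) (nat_lit 0) (XT.lf (nat_lit 0) (nat_lit 9472638217) (nat_lit 152) (nat_lit 259965070) (nat_lit 228) (nat_lit 20303392800) (nat_lit 17) (nat_lit 5) (nat_lit 19) (nat_lit 5) (nat_lit 20)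 (nat_lit 5) (nat_lit 279) (nat_lit 268) (nat_lit 233)) (XT.lf (nat_lit 0) (nat_lit 17046448977) (nat_lit 228) (nat_lit 4845589744) (nat_lit 76) (nat_lit 10935206983) (nat_lit 17) (nat_lit 5) (nat_lit 20) (nat_lit 5) (nat_lit 18) (nat_lit 4) (nat_lit 280) (nat_lit 268) (nat_lit 232))))) (XT.nd (nat_lit 234) (nat_lit 152) (nat_lit 0) (XT.nd (nat_lit 78) (nat_lit 152) (nat_lit 0) (XT.lf (nat_lit 0) (nat_lit 14472439779) (nat_lit 76) (nat_lit 11575684646) (nat_lit 152) (nat_lit 9900479446) (nat_lit 16) (nat_lit 5) (nat_lit 17) (nat_lit 5) (nat_lit 18) (nat_lit 4) (nat_lit 281) (nat_lit 268) (nat_lit 231)) (XT.nd (nat_lit 78) (nat_lit 152) (nat_lit 0) (XT.lf (nat_lit 0) (nat_lit 36657324319) (nat_lit 152) (nat_lit 2325790985) (nat_lit 0) (nat_lit 516489093) (nat_lit 16) (nat_lit 5) (nat_lit 18) (nat_lit 4) (nat_lit 16) (nat_lit 4) (nat_lit 282) (nat_lit 268) (nat_lit 230)) (XT.lf (nat_lit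 0) (nat_lit 6274568868) (nat_lit 152) (nat_lit 22673901779) (nat_lit 76) (nat_lit 14381619130) (nat_lit 14) (nat_lit 5) (nat_lit 16) (nat_lit 5) (nat_lit 15) (nat_lit 4) (nat_lit 283) (nat_lit 268) (nat_lit 229)))) (XT.nd (nat_lit 78) (nat_lit 152) (nat_lit 0) (XT.lf (nat_lit 0) (nat_lit 16578204462) (nat_lit 152) (nat_lit 541424054) (nat_lit 76) (nat_lit 30578698716) (nat_lit 14) (nat_lit 5) (nat_lit 16) (nat_lit 5) (nat_lit 15) (nat_lit 4) (nat_lit 284) (nat_lit 268) (nat_lit 228)) (XT.nd (nat_lit 78) (nat_lit 76) (nat_lit 0) (XT.lf (nat_lit 0) (nat_lit 27316548648) (nat_lit 76) (nat_lit 2227078426) (nat_lit 152) (nat_lit 23010753904) (nat_lit 13) (nat_lit 5) (nat_lit 14) (nat_lit 5) (nat_lit 15) (nat_lit 4) (nat_lit 285) (nat_lit 268) (nat_lit 227)) (XT.lf (nat_lit 0) (nat_lit 696430251) (nat_lit 76) (nat_lit 44418433618) (nat_lit 76) (nat_lit 12924843516) (nat_lit 12) (nat_lit 4)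 (nat_lit 13) (nat_lit 5) (nat_lit 13) (nat_lit 4) (nat_lit 286) (nat_lit 268) (nat_lit 226))))))))
noncomputable def xc64 : XT := (XT.nd (nat_lit 1560) (nat_lit 152) (nat_lit 0) (XT.nd (nat_lit 780) (nat_lit 228) (nat_lit 0) (XT.nd (nat_lit 390) (nat_lit 228) (nat_lit 0) (XT.nd (nat_lit 156) (nat_lit 152) (nat_lit 0) (XT.nd (nat_lit 78) (nat_lit 0) (nat_lit 0) (XT.lf (nat_lit 0) (nat_lit 265859909) (nat_lit 152) (nat_lit 30933620071) (nat_lit 76) (nat_lit 32935522320) (nat_lit 11) (nat_lit 5) (nat_lit 13) (nat_lit 5) (nat_lit 12) (nat_lit 4) (nat_lit 287) (nat_lit 268) (nat_lit 225)) (XT.lf (nat_lit 0) (nat_lit 14099501948) (nat_lit 152) (nat_lit 1201401667) (nat_lit 76) (nat_lit 55753238571) (nat_lit 11) (nat_lit 5) (nat_lit 13) (nat_lit 5) (nat_lit 12) (nat_lit 4) (nat_lit 288) (nat_lit 268) (nat_lit 224))) (XT.nd (nat_lit 78) (nat_lit 76) (nat_lit 0) (XT.lf (nat_lit 0) (nat_lit 31690514223)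 (nat_lit 152) (nat_lit 42790066070) (nat_lit 0) (nat_lit 4278232587) (nat_lit 10) (nat_lit 5) (nat_lit 12) (nat_lit 4) (nat_lit 10) (nat_lit 4) (nat_lit 289) (nat_lit 268) (nat_lit 223)) (XT.nd (nat_lit 78) (nat_lit 76) (nat_lit 0) (XT.lf (nat_lit 0) (nat_lit 52704012836) (nat_lit 152) (nat_lit 9512521074) (nat_lit 0) (nat_lit 25285082410) (nat_lit 10) (nat_lit 5) (nat_lit 12) (nat_lit 4) (nat_lit 10) (nat_lit 4) (nat_lit 290) (nat_lit 268) (nat_lit 222)) (XT.lf (nat_lit 0) (nat_lit 31547310402) (nat_lit 76) (nat_lit 46619340510) (nat_lit 76) (nat_lit 19194628527) (nat_lit 9) (nat_lit 4) (nat_lit 10) (nat_lit 5) (nat_lit 10) (nat_lit 4) (nat_lit 291) (nat_lit 268) (nat_lit 221))))) (XT.nd (nat_lit 156) (nat_lit 76) (nat_lit 0) (XT.nd (nat_lit 78) (nat_lit 152) (nat_lit 0) (XT.lf (nat_lit 0) (nat_lit 79818103125) (nat_lit 76) (nat_lit 28119126090) (nat_lit 76) (nat_lit 689386667) (nat_lit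 9) (nat_lit 4) (nat_lit 10) (nat_lit 5) (nat_lit 10) (nat_lit 4) (nat_lit 292) (nat_lit 268) (nat_lit 220)) (XT.lf (nat_lit 0) (nat_lit 14138139904) (nat_lit 76) (nat_lit 5197790800) (nat_lit 152) (nat_lit 102031302945) (nat_lit 7) (nat_lit 5) (nat_lit 8) (nat_lit 5) (nat_lit 9) (nat_lit 4) (nat_lit 293) (nat_lit 268) (nat_lit 219))) (XT.nd (nat_lit 78) (nat_lit 76) (nat_lit 0) (XT.lf (nat_lit 0) (nat_lit 44740515846) (nat_lit 152) (nat_lit 70025138717) (nat_lit 0) (nat_lit 20881461430) (nat_lit 7) (nat_lit 5) (nat_lit 9) (nat_lit 4) (nat_lit 7) (nat_lit 4) (nat_lit 294) (nat_lit 268) (nat_lit 218)) (XT.nd (nat_lit 78) (nat_lit 76) (nat_lit 0) (XT.lf (nat_lit 0) (nat_lit 74196501277) (nat_lit 152) (nat_lit 27501803292) (nat_lit 0) (nat_lit 50334572406) (nat_lit 7) (nat_lit 5) (nat_lit 9) (nat_lit 4) (nat_lit 7) (nat_lit 4) (nat_lit 295) (nat_lit 268) (nat_lit 217)) (XT.lf (nat_lit 0)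 (nat_lit 23478322925) (nat_lit 76) (nat_lit 85558834683) (nat_lit 76) (nat_lit 61694406285) (nat_lit 6) (nat_lit 4) (nat_lit 7) (nat_lit 5) (nat_lit 7) (nat_lit 4) (nat_lit 296) (nat_lit 268) (nat_lit 216)))))) (XT.nd (nat_lit 390) (nat_lit 76) (nat_lit 0) (XT.nd (nat_lit 156) (nat_lit 152) (nat_lit 0) (XT.nd (nat_lit 78) (nat_lit 0) (nat_lit 0) (XT.lf (nat_lit 0) (nat_lit 85184925022) (nat_lit 76) (nat_lit 65350968011) (nat_lit 76) (nat_lit 41484366112) (nat_lit 6) (nat_lit 4) (nat_lit 7) (nat_lit 5) (nat_lit 7) (nat_lit 4) (nat_lit 297) (nat_lit 268) (nat_lit 215)) (XT.lf (nat_lit 0) (nat_lit 156137629851) (nat_lit 76) (nat_lit 42116927511) (nat_lit 76) (nat_lit 18248435611) (nat_lit 6) (nat_lit 4) (nat_lit 7) (nat_lit 5) (nat_lit 7) (nat_lit 4) (nat_lit 298) (nat_lit 268) (nat_lit 214))) (XT.nd (nat_lit 78) (nat_lit 76) (nat_lit 0) (XT.lf (nat_lit 0) (nat_lit 7714121218) (nat_lit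 152) (nat_lit 7284774759) (nat_lit 76) (nat_lit 229607283134) (nat_lit 5) (nat_lit 5) (nat_lit 7) (nat_lit 5) (nat_lit 6) (nat_lit 4) (nat_lit 299) (nat_lit 268) (nat_lit 213)) (XT.nd (nat_lit 78) (nat_lit 0) (nat_lit 0) (XT.lf (nat_lit 0) (nat_lit 38928524534) (nat_lit 152) (nat_lit 219211468390) (nat_lit 0) (nat_lit 18170642367) (nat_lit 4) (nat_lit 5) (nat_lit 6) (nat_lit 4) (nat_lit 4) (nat_lit 4) (nat_lit 300) (nat_lit 268) (nat_lit 212)) (XT.lf (nat_lit 0) (nat_lit 75934417068) (nat_lit 152) (nat_lit 181494490426) (nat_lit 0) (nat_lit 55175454287) (nat_lit 4) (nat_lit 5) (nat_lit 6) (nat_lit 4) (nat_lit 4) (nat_lit 4) (nat_lit 301) (nat_lit 268) (nat_lit 211))))) (XT.nd (nat_lit 156) (nat_lit 76) (nat_lit 0) (XT.nd (nat_lit 78) (nat_lit 0) (nat_lit 0) (XT.lf (nat_lit 0) (nat_lit 118487860818) (nat_lit 152) (nat_lit 138126828986) (nat_lit 0) (nat_lit 97727958372) (nat_lit 4) (nat_lit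 5) (nat_lit 6) (nat_lit 4) (nat_lit 4) (nat_lit 4) (nat_lit 302) (nat_lit 268) (nat_lit 210)) (XT.lf (nat_lit 0) (nat_lit 167421423162) (nat_lit 152) (nat_lit 88259986346) (nat_lit 0) (nat_lit 146660703617) (nat_lit 4) (nat_lit 5) (nat_lit 6) (nat_lit 4) (nat_lit 4) (nat_lit 4) (nat_lit 303) (nat_lit 268) (nat_lit 209))) (XT.nd (nat_lit 78) (nat_lit 76) (nat_lit 0) (XT.lf (nat_lit 0) (nat_lit 223692499885) (nat_lit 152) (nat_lit 30918306891) (nat_lit 0) (nat_lit 202931069819) (nat_lit 4) (nat_lit 5) (nat_lit 6) (nat_lit 4) (nat_lit 4) (nat_lit 4) (nat_lit 304) (nat_lit 268) (nat_lit 208)) (XT.nd (nat_lit 78) (nat_lit 0) (nat_lit 0) (XT.lf (nat_lit 0) (nat_lit 38442531821) (nat_lit 76) (nat_lit 251551338279) (nat_lit 76) (nat_lit 230789290368) (nat_lit 3) (nat_lit 4) (nat_lit 4) (nat_lit 5) (nat_lit 4) (nat_lit 4) (nat_lit 305) (nat_lit 268) (nat_lit 207)) (XT.lf (nat_lit 0) (nat_lit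 121677984867) (nat_lit 76) (nat_lit 246176561377) (nat_lit 76) (nat_lit 225413976209) (nat_lit 3) (nat_lit 4) (nat_lit 4) (nat_lit 5) (nat_lit 4) (nat_lit 4) (nat_lit 306) (nat_lit 268) (nat_lit 206))))))) (XT.nd (nat_lit 780) (nat_lit 152) (nat_lit 0) (XT.nd (nat_lit 390) (nat_lit 0) (nat_lit 0) (XT.nd (nat_lit 156) (nat_lit 0) (nat_lit 0) (XT.nd (nat_lit 78) (nat_lit 0) (nat_lit 0) (XT.lf (nat_lit 0) (nat_lit 217395010167) (nat_lit 76) (nat_lit 239997501617) (nat_lit 76) (nat_lit 219234449270) (nat_lit 3) (nat_lit 4) (nat_lit 4) (nat_lit 5) (nat_lit 4) (nat_lit 4) (nat_lit 307) (nat_lit 268) (nat_lit 205)) (XT.lf (nat_lit 0) (nat_lit 327466332132) (nat_lit 76) (nat_lit 232893264351) (nat_lit 76) (nat_lit 212129805761) (nat_lit 3) (nat_lit 4) (nat_lit 4) (nat_lit 5) (nat_lit 4) (nat_lit 4) (nat_lit 308) (nat_lit 268) (nat_lit 204))) (XT.nd (nat_lit 78) (nat_lit 0) (nat_lit 0) (XT.lf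 (nat_lit 0) (nat_lit 454045520103) (nat_lit 76) (nat_lit 224724853632) (nat_lit 76) (nat_lit 203961041787) (nat_lit 3) (nat_lit 4) (nat_lit 4) (nat_lit 5) (nat_lit 4) (nat_lit 4) (nat_lit 309) (nat_lit 268) (nat_lit 203)) (XT.nd (nat_lit 78) (nat_lit 0) (nat_lit 0) (XT.lf (nat_lit 0) (nat_lit 599609123411) (nat_lit 76) (nat_lit 215332452729) (nat_lit 76) (nat_lit 194568333707) (nat_lit 3) (nat_lit 4) (nat_lit 4) (nat_lit 5) (nat_lit 4) (nat_lit 4) (nat_lit 310) (nat_lit 268) (nat_lit 202)) (XT.lf (nat_lit 0) (nat_lit 767005125598) (nat_lit 76) (nat_lit 204532297277) (nat_lit 76) (nat_lit 183767911143) (nat_lit 3) (nat_lit 4) (nat_lit 4) (nat_lit 5) (nat_lit 4) (nat_lit 4) (nat_lit 311) (nat_lit 268) (nat_lit 201))))) (XT.nd (nat_lit 156) (nat_lit 0) (nat_lit 0) (XT.nd (nat_lit 78) (nat_lit 0) (nat_lit 0) (XT.lf (nat_lit 0) (nat_lit 959508665837) (nat_lit 76) (nat_lit 192113079886) (nat_lit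 76) (nat_lit 171348461482) (nat_lit 3) (nat_lit 4) (nat_lit 4) (nat_lit 5) (nat_lit 4) (nat_lit 4) (nat_lit 312) (nat_lit 268) (nat_lit 200)) (XT.lf (nat_lit 0) (nat_lit 1180886117743) (nat_lit 76) (nat_lit 177831815869) (nat_lit 76) (nat_lit 157066995490) (nat_lit 3) (nat_lit 4) (nat_lit 4) (nat_lit 5) (nat_lit 4) (nat_lit 4) (nat_lit 313) (nat_lit 268) (nat_lit 199))) (XT.nd (nat_lit 78) (nat_lit 0) (nat_lit 0) (XT.lf (nat_lit 0) (nat_lit 1435468779286) (nat_lit 76) (nat_lit 161409089190) (nat_lit 76) (nat_lit 140644093181) (nat_lit 3) (nat_lit 4) (nat_lit 4) (nat_lit 5) (nat_lit 4) (nat_lit 4) (nat_lit 314) (nat_lit 268) (nat_lit 198)) (XT.nd (nat_lit 78) (nat_lit 0) (nat_lit 0) (XT.lf (nat_lit 0) (nat_lit 1728237615585) (nat_lit 76) (nat_lit 142523585631) (nat_lit 76) (nat_lit 121758436900) (nat_lit 3) (nat_lit 4) (nat_lit 4) (nat_lit 5) (nat_lit 4) (nat_lit 4) (nat_lit 315) (nat_lit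 268) (nat_lit 197)) (XT.lf (nat_lit 0) (nat_lit 2064920712567) (nat_lit 76) (nat_lit 120805806210) (nat_lit 76) (nat_lit 100040524677) (nat_lit 3) (nat_lit 4) (nat_lit 4) (nat_lit 5) (nat_lit 4) (nat_lit 4) (nat_lit 316) (nat_lit 268) (nat_lit 196)))))) (XT.nd (nat_lit 390) (nat_lit 0) (nat_lit 0) (XT.nd (nat_lit 156) (nat_lit 152) (nat_lit 0) (XT.nd (nat_lit 78) (nat_lit 0) (nat_lit 0) (XT.lf (nat_lit 0) (nat_lit 2452105348216) (nat_lit 76) (nat_lit 95830837851) (nat_lit 76) (nat_lit 75065440839) (nat_lit 3) (nat_lit 4) (nat_lit 4) (nat_lit 5) (nat_lit 4) (nat_lit 4) (nat_lit 317) (nat_lit 268) (nat_lit 195)) (XT.lf (nat_lit 0) (nat_lit 2897366874099) (nat_lit 76) (nat_lit 67110039868) (nat_lit 76) (nat_lit 46344542439) (nat_lit 3) (nat_lit 4) (nat_lit 4) (nat_lit 5) (nat_lit 4) (nat_lit 4) (nat_lit 318) (nat_lit 268) (nat_lit 194))) (XT.nd (nat_lit 78) (nat_lit 152) (nat_lit 0) (XT.lf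 (nat_lit 0) (nat_lit 3409416928766) (nat_lit 76) (nat_lit 34081483607) (nat_lit 76) (nat_lit 13315898859) (nat_lit 3) (nat_lit 4) (nat_lit 4) (nat_lit 5) (nat_lit 4) (nat_lit 4) (nat_lit 319) (nat_lit 268) (nat_lit 193)) (XT.nd (nat_lit 78) (nat_lit 0) (nat_lit 0) (XT.lf (nat_lit 0) (nat_lit 23992604664) (nat_lit 152) (nat_lit 3939396530731) (nat_lit 0) (nat_lit 5935508422) (nat_lit 1) (nat_lit 5) (nat_lit 3) (nat_lit 4) (nat_lit 1) (nat_lit 4) (nat_lit 320) (nat_lit 268) (nat_lit 192)) (XT.lf (nat_lit 0) (nat_lit 69752281336) (nat_lit 152) (nat_lit 4436536274971) (nat_lit 0) (nat_lit 51695127681) (nat_lit 1) (nat_lit 5) (nat_lit 3) (nat_lit 4) (nat_lit 1) (nat_lit 4) (nat_lit 321) (nat_lit 268) (nat_lit 191))))) (XT.nd (nat_lit 156) (nat_lit 0) (nat_lit 0) (XT.nd (nat_lit 78) (nat_lit 0) (nat_lit 0) (XT.lf (nat_lit 0) (nat_lit 122375642805) (nat_lit 152) (nat_lit 5008247538213) (nat_lit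 0) (nat_lit 104318439225) (nat_lit 1) (nat_lit 5) (nat_lit 3) (nat_lit 4) (nat_lit 1) (nat_lit 4) (nat_lit 322) (nat_lit 268) (nat_lit 190)) (XT.lf (nat_lit 0) (nat_lit 182892276579) (nat_lit 152) (nat_lit 5665715975609) (nat_lit 0) (nat_lit 164835029585) (nat_lit 1) (nat_lit 5) (nat_lit 3) (nat_lit 4) (nat_lit 1) (nat_lit 4) (nat_lit 323) (nat_lit 268) (nat_lit 189))) (XT.nd (nat_lit 78) (nat_lit 0) (nat_lit 0) (XT.lf (nat_lit 0) (nat_lit 252486203752) (nat_lit 152) (nat_lit 6421805100063) (nat_lit 0) (nat_lit 234428919008) (nat_lit 1) (nat_lit 5) (nat_lit 3) (nat_lit 4) (nat_lit 1) (nat_lit 4) (nat_lit 324) (nat_lit 268) (nat_lit 188)) (XT.nd (nat_lit 78) (nat_lit 0) (nat_lit 0) (XT.lf (nat_lit 0) (nat_lit 332519044639) (nat_lit 152) (nat_lit 7291307959663) (nat_lit 0) (nat_lit 314461727069) (nat_lit 1) (nat_lit 5) (nat_lit 3) (nat_lit 4) (nat_lit 1) (nat_lit 4) (nat_lit 325) (nat_lit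 268) (nat_lit 187)) (XT.lf (nat_lit 0) (nat_lit 424556659171) (nat_lit 152) (nat_lit 8291236566880) (nat_lit 0) (nat_lit 406499313056) (nat_lit 1) (nat_lit 5) (nat_lit 3) (nat_lit 4) (nat_lit 1) (nat_lit 4) (nat_lit 326) (nat_lit 268) (nat_lit 186))))))))
noncomputable def xc65 : XT := (XT.nd (nat_lit 1794) (nat_lit 0) (nat_lit 0) (XT.nd (nat_lit 780) (nat_lit 0) (nat_lit 0) (XT.nd (nat_lit 390) (nat_lit 0) (nat_lit 0) (XT.nd (nat_lit 156) (nat_lit 0) (nat_lit 0) (XT.nd (nat_lit 78) (nat_lit 0) (nat_lit 0) (XT.lf (nat_lit 0) (nat_lit 530399783284) (nat_lit 152) (nat_lit 9441154742288) (nat_lit 0) (nat_lit 512342412347) (nat_lit 1) (nat_lit 5) (nat_lit 3) (nat_lit 4) (nat_lit 1) (nat_lit 4) (nat_lit 327) (nat_lit 268) (nat_lit 185)) (XT.lf (nat_lit 0) (nat_lit 652119260710) (nat_lit 152) (nat_lit 10763560884973) (nat_lit 0) (nat_lit 634061868190) (nat_lit 1) (nat_lit 5) (nat_lit 3) (nat_lit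 4) (nat_lit 1) (nat_lit 4) (nat_lit 328) (nat_lit 268) (nat_lit 184))) (XT.nd (nat_lit 78) (nat_lit 0) (nat_lit 0) (XT.lf (nat_lit 0) (nat_lit 792096559487) (nat_lit 152) (nat_lit 12284328158596) (nat_lit 0) (nat_lit 774039148197) (nat_lit 1) (nat_lit 5) (nat_lit 3) (nat_lit 4) (nat_lit 1) (nat_lit 4) (nat_lit 329) (nat_lit 268) (nat_lit 183)) (XT.nd (nat_lit 78) (nat_lit 0) (nat_lit 0) (XT.lf (nat_lit 0) (nat_lit 953070365894) (nat_lit 152) (nat_lit 14033210705466) (nat_lit 0) (nat_lit 935012938284) (nat_lit 1) (nat_lit 5) (nat_lit 3) (nat_lit 4) (nat_lit 1) (nat_lit 4) (nat_lit 330) (nat_lit 268) (nat_lit 182)) (XT.lf (nat_lit 0) (nat_lit 1138190167449) (nat_lit 152) (nat_lit 16044425792805) (nat_lit 0) (nat_lit 1120132725647) (nat_lit 1) (nat_lit 5) (nat_lit 3) (nat_lit 4) (nat_lit 1) (nat_lit 4) (nat_lit 331) (nat_lit 268) (nat_lit 181))))) (XT.nd (nat_lit 156) (nat_lit 0) (nat_lit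 0) (XT.nd (nat_lit 78) (nat_lit 0) (nat_lit 0) (XT.lf (nat_lit 0) (nat_lit 1351077873311) (nat_lit 152) (nat_lit 18357323281018) (nat_lit 0) (nat_lit 1333020419169) (nat_lit 1) (nat_lit 5) (nat_lit 3) (nat_lit 4) (nat_lit 1) (nat_lit 4) (nat_lit 332) (nat_lit 268) (nat_lit 180)) (XT.lf (nat_lit 0) (nat_lit 1595898677727) (nat_lit 152) (nat_lit 21017155512264) (nat_lit 0) (nat_lit 1577841212854) (nat_lit 1) (nat_lit 5) (nat_lit 3) (nat_lit 4) (nat_lit 1) (nat_lit 4) (nat_lit 333) (nat_lit 268) (nat_lit 179))) (XT.nd (nat_lit 78) (nat_lit 0) (nat_lit 0) (XT.lf (nat_lit 0) (nat_lit 1877442552957) (nat_lit 152) (nat_lit 24075962682374) (nat_lit 0) (nat_lit 1859385078752) (nat_lit 1) (nat_lit 5) (nat_lit 3) (nat_lit 4) (nat_lit 1) (nat_lit 4) (nat_lit 334) (nat_lit 268) (nat_lit 178)) (XT.nd (nat_lit 78) (nat_lit 0) (nat_lit 0) (XT.lf (nat_lit 0) (nat_lit 2201217966124) (nat_lit 152) (nat_lit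 27593591018587) (nat_lit 0) (nat_lit 2183160483805) (nat_lit 1) (nat_lit 5) (nat_lit 3) (nat_lit 4) (nat_lit 1) (nat_lit 4) (nat_lit 335) (nat_lit 268) (nat_lit 177)) (XT.lf (nat_lit 0) (nat_lit 2573559653573) (nat_lit 152) (nat_lit 31638863684004) (nat_lit 0) (nat_lit 2555502164198) (nat_lit 1) (nat_lit 5) (nat_lit 3) (nat_lit 4) (nat_lit 1) (nat_lit 4) (nat_lit 336) (nat_lit 268) (nat_lit 176)))))) (XT.nd (nat_lit 390) (nat_lit 0) (nat_lit 0) (XT.nd (nat_lit 156) (nat_lit 0) (nat_lit 0) (XT.nd (nat_lit 78) (nat_lit 0) (nat_lit 0) (XT.lf (nat_lit 0) (nat_lit 3001752561364) (nat_lit 152) (nat_lit 36290927317732) (nat_lit 0) (nat_lit 2983695065853) (nat_lit 1) (nat_lit 5) (nat_lit 3) (nat_lit 4) (nat_lit 1) (nat_lit 4) (nat_lit 337) (nat_lit 268) (nat_lit 175)) (XT.lf (nat_lit 0) (nat_lit 3494174376822) (nat_lit 152) (nat_lit 41640800556081) (nat_lit 0) (nat_lit 3476116875976) (nat_lit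 1) (nat_lit 5) (nat_lit 3) (nat_lit 4) (nat_lit 1) (nat_lit 4) (nat_lit 338) (nat_lit 268) (nat_lit 174))) (XT.nd (nat_lit 78) (nat_lit 0) (nat_lit 0) (XT.lf (nat_lit 0) (nat_lit 4060459439814) (nat_lit 152) (nat_lit 47793154831976) (nat_lit 0) (nat_lit 4042401934329) (nat_lit 1) (nat_lit 5) (nat_lit 3) (nat_lit 4) (nat_lit 1) (nat_lit 4) (nat_lit 339) (nat_lit 268) (nat_lit 173)) (XT.nd (nat_lit 78) (nat_lit 0) (nat_lit 0) (XT.lf (nat_lit 0) (nat_lit 4711687240705) (nat_lit 152) (nat_lit 54868362294294) (nat_lit 0) (nat_lit 4693629731186) (nat_lit 1) (nat_lit 5) (nat_lit 3) (nat_lit 4) (nat_lit 1) (nat_lit 4) (nat_lit 340) (nat_lit 268) (nat_lit 172)) (XT.lf (nat_lit 0) (nat_lit 5460599192989) (nat_lit 152) (nat_lit 63004850915123) (nat_lit 0) (nat_lit 5442541679962) (nat_lit 1) (nat_lit 5) (nat_lit 3) (nat_lit 4) (nat_lit 1) (nat_lit 4) (nat_lit 341) (nat_lit 268) (nat_lit 171)))))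 (XT.nd (nat_lit 156) (nat_lit 0) (nat_lit 0) (XT.nd (nat_lit 78) (nat_lit 0) (nat_lit 0) (XT.lf (nat_lit 0) (nat_lit 6321847921820) (nat_lit 152) (nat_lit 72361812863132) (nat_lit 0) (nat_lit 6303790405743) (nat_lit 1) (nat_lit 5) (nat_lit 3) (nat_lit 4) (nat_lit 1) (nat_lit 4) (nat_lit 342) (nat_lit 268) (nat_lit 170)) (XT.lf (nat_lit 0) (nat_lit 7312283945806) (nat_lit 152) (nat_lit 83122319132955) (nat_lit 0) (nat_lit 7294226427076) (nat_lit 1) (nat_lit 5) (nat_lit 3) (nat_lit 4) (nat_lit 1) (nat_lit 4) (nat_lit 343) (nat_lit 268) (nat_lit 169))) (XT.nd (nat_lit 78) (nat_lit 0) (nat_lit 0) (XT.lf (nat_lit 0) (nat_lit 8451285361068) (nat_lit 152) (nat_lit 95496901369003) (nat_lit 0) (nat_lit 8433227840031) (nat_lit 1) (nat_lit 5) (nat_lit 3) (nat_lit 4) (nat_lit 1) (nat_lit 4) (nat_lit 344) (nat_lit 268) (nat_lit 168)) (XT.nd (nat_lit 78) (nat_lit 0) (nat_lit 0) (XT.lf (nat_lit 0)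 (nat_lit 9761136977904) (nat_lit 152) (nat_lit 109727670962849) (nat_lit 0) (nat_lit 9743079454862) (nat_lit 1) (nat_lit 5) (nat_lit 3) (nat_lit 4) (nat_lit 1) (nat_lit 4) (nat_lit 345) (nat_lit 268) (nat_lit 167)) (XT.lf (nat_lit 0) (nat_lit 11267466327949) (nat_lit 152) (nat_lit 126093056015244) (nat_lit 0) (nat_lit 11249408803162) (nat_lit 1) (nat_lit 5) (nat_lit 3) (nat_lit 4) (nat_lit 1) (nat_lit 4) (nat_lit 346) (nat_lit 268) (nat_lit 166))))))) (XT.nd (nat_lit 34710) (nat_lit 0) (nat_lit 988) (XT.nd (nat_lit 34320) (nat_lit 0) (nat_lit 1824) (XT.nd (nat_lit 156) (nat_lit 0) (nat_lit 0) (XT.nd (nat_lit 78) (nat_lit 0) (nat_lit 0) (XT.lf (nat_lit 0) (nat_lit 19917383660553) (nat_lit 152) (nat_lit 220069336463474) (nat_lit 0) (nat_lit 19899326130787) (nat_lit 1) (nat_lit 5) (nat_lit 3) (nat_lit 4) (nat_lit 1) (nat_lit 4) (nat_lit 350) (nat_lit 268) (nat_lit 162)) (XT.lf (nat_lit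 0) (nat_lit 22947149981762) (nat_lit 152) (nat_lit 252985971406233) (nat_lit 0) (nat_lit 22929092451130) (nat_lit 1) (nat_lit 5) (nat_lit 3) (nat_lit 4) (nat_lit 1) (nat_lit 4) (nat_lit 351) (nat_lit 268) (nat_lit 161))) (XT.nd (nat_lit 78) (nat_lit 0) (nat_lit 0) (XT.lf (nat_lit 0) (nat_lit 26431381247126) (nat_lit 152) (nat_lit 290840101598823) (nat_lit 0) (nat_lit 26413323715739) (nat_lit 1) (nat_lit 5) (nat_lit 3) (nat_lit 4) (nat_lit 1) (nat_lit 4) (nat_lit 352) (nat_lit 268) (nat_lit 160)) (XT.nd (nat_lit 78) (nat_lit 0) (nat_lit 0) (XT.lf (nat_lit 0) (nat_lit 30438247198791) (nat_lit 152) (nat_lit 334372351327623) (nat_lit 0) (nat_lit 30420189666748) (nat_lit 1) (nat_lit 5) (nat_lit 3) (nat_lit 4) (nat_lit 1) (nat_lit 4) (nat_lit 353) (nat_lit 268) (nat_lit 159)) (XT.lf (nat_lit 0) (nat_lit 35046143040159) (nat_lit 152) (nat_lit 384434438522107) (nat_lit 0) (nat_lit 35028085507546)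 (nat_lit 1) (nat_lit 5) (nat_lit 3) (nat_lit 4) (nat_lit 1) (nat_lit 4) (nat_lit 354) (nat_lit 268) (nat_lit 158))))) (XT.nd (nat_lit 156) (nat_lit 0) (nat_lit 76) (XT.nd (nat_lit 78) (nat_lit 0) (nat_lit 0) (XT.lf (nat_lit 0) (nat_lit 752480593) (nat_lit 380) (nat_lit 3252730192) (nat_lit 380) (nat_lit 3252730192) (nat_lit 25) (nat_lit 3) (nat_lit 30) (nat_lit 3) (nat_lit 30) (nat_lit 5) (nat_lit 269) (nat_lit 269) (nat_lit 242)) (XT.lf (nat_lit 76) (nat_lit 462299837) (nat_lit 0) (nat_lit 1467199182) (nat_lit 380) (nat_lit 13627550718) (nat_lit 26) (nat_lit 5) (nat_lit 25) (nat_lit 3) (nat_lit 30) (nat_lit 5) (nat_lit 270) (nat_lit 269) (nat_lit 241))) (XT.nd (nat_lit 78) (nat_lit 0) (nat_lit 0) (XT.lf (nat_lit 0) (nat_lit 2972196881) (nat_lit 304) (nat_lit 7806011579) (nat_lit 380) (nat_lit 5893150047) (nat_lit 26) (nat_lit 5) (nat_lit 30) (nat_lit 5) (nat_lit 31) (nat_lit 5) (nat_lit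 271) (nat_lit 269) (nat_lit 240)) (XT.nd (nat_lit 78) (nat_lit 0) (nat_lit 76) (XT.lf (nat_lit 76) (nat_lit 515589535) (nat_lit 0) (nat_lit 3701186431) (nat_lit 380) (nat_lit 13729335906) (nat_lit 27) (nat_lit 5) (nat_lit 26) (nat_lit 5) (nat_lit 31) (nat_lit 5) (nat_lit 272) (nat_lit 269) (nat_lit 239)) (XT.lf (nat_lit 0) (nat_lit 6218305913) (nat_lit 304) (nat_lit 8632700783) (nat_lit 76) (nat_lit 4475636087) (nat_lit 27) (nat_lit 5) (nat_lit 31) (nat_lit 5) (nat_lit 28) (nat_lit 5) (nat_lit 273) (nat_lit 269) (nat_lit 238)))))) (XT.nd (nat_lit 390) (nat_lit 456) (nat_lit 0) (XT.nd (nat_lit 156) (nat_lit 228) (nat_lit 0) (XT.nd (nat_lit 78) (nat_lit 0) (nat_lit 0) (XT.lf (nat_lit 0) (nat_lit 1396932987) (nat_lit 304) (nat_lit 7321613894) (nat_lit 380) (nat_lit 12166024776) (nat_lit 23) (nat_lit 5) (nat_lit 27) (nat_lit 5) (nat_lit 28) (nat_lit 5) (nat_lit 274) (nat_lit 269) (nat_lit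 237)) (XT.lf (nat_lit 0) (nat_lit 12089469389) (nat_lit 380) (nat_lit 8823349431) (nat_lit 76) (nat_lit 1689102978) (nat_lit 23) (nat_lit 5) (nat_lit 28) (nat_lit 5) (nat_lit 24) (nat_lit 5) (nat_lit 275) (nat_lit 269) (nat_lit 236))) (XT.nd (nat_lit 78) (nat_lit 76) (nat_lit 0) (XT.lf (nat_lit 0) (nat_lit 3356684013) (nat_lit 152) (nat_lit 13068754761) (nat_lit 228) (nat_lit 8082592885) (nat_lit 21) (nat_lit 5) (nat_lit 23) (nat_lit 5) (nat_lit 24) (nat_lit 5) (nat_lit 276) (nat_lit 269) (nat_lit 235)) (XT.nd (nat_lit 78) (nat_lit 76) (nat_lit 0) (XT.lf (nat_lit 0) (nat_lit 18322809878) (nat_lit 152) (nat_lit 3524316598) (nat_lit 228) (nat_lit 4787692629) (nat_lit 21) (nat_lit 5) (nat_lit 23) (nat_lit 5) (nat_lit 24) (nat_lit 5) (nat_lit 277) (nat_lit 269) (nat_lit 234)) (XT.lf (nat_lit 0) (nat_lit 6710608612) (nat_lit 76) (nat_lit 21935134602) (nat_lit 152) (nat_lit 350381849) (nat_lit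 20) (nat_lit 5) (nat_lit 21) (nat_lit 5) (nat_lit 22) (nat_lit 4) (nat_lit 278) (nat_lit 269) (nat_lit 233))))) (XT.nd (nat_lit 234) (nat_lit 228) (nat_lit 0) (XT.nd (nat_lit 78) (nat_lit 152) (nat_lit 0) (XT.lf (nat_lit 0) (nat_lit 4930351645) (nat_lit 152) (nat_lit 7143233336) (nat_lit 76) (nat_lit 19518422972) (nat_lit 19) (nat_lit 5) (nat_lit 21) (nat_lit 5) (nat_lit 20) (nat_lit 5) (nat_lit 279) (nat_lit 269) (nat_lit 232)) (XT.nd (nat_lit 78) (nat_lit 0) (nat_lit 0) (XT.lf (nat_lit 0) (nat_lit 11224990988) (nat_lit 152) (nat_lit 187937061) (nat_lit 228) (nat_lit 23095035749) (nat_lit 17) (nat_lit 5) (nat_lit 19) (nat_lit 5) (nat_lit 20) (nat_lit 5) (nat_lit 280) (nat_lit 269) (nat_lit 231)) (XT.lf (nat_lit 0) (nat_lit 19799095875) (nat_lit 228) (nat_lit 5259131228) (nat_lit 76) (nat_lit 12663434774) (nat_lit 17) (nat_lit 5) (nat_lit 20) (nat_lit 5) (nat_lit 18) (nat_lit 4) (nat_lit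 281) (nat_lit 269) (nat_lit 230)))) (XT.nd (nat_lit 78) (nat_lit 152) (nat_lit 0) (XT.lf (nat_lit 0) (nat_lit 16942361952) (nat_lit 76) (nat_lit 13195520548) (nat_lit 152) (nat_lit 11175353866) (nat_lit 16) (nat_lit 5) (nat_lit 17) (nat_lit 5) (nat_lit 18) (nat_lit 4) (nat_lit 282) (nat_lit 269) (nat_lit 229)) (XT.nd (nat_lit 78) (nat_lit 152) (nat_lit 0) (XT.lf (nat_lit 0) (nat_lit 42318848292) (nat_lit 152) (nat_lit 2394755650) (nat_lit 0) (nat_lit 686261295) (nat_lit 16) (nat_lit 5) (nat_lit 18) (nat_lit 4) (nat_lit 16) (nat_lit 4) (nat_lit 283) (nat_lit 269) (nat_lit 228)) (XT.lf (nat_lit 0) (nat_lit 7375955936) (nat_lit 152) (nat_lit 25791967646) (nat_lit 76) (nat_lit 16637467155) (nat_lit 14) (nat_lit 5) (nat_lit 16) (nat_lit 5) (nat_lit 15) (nat_lit 4) (nat_lit 284) (nat_lit 269) (nat_lit 227))))))))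
noncomputable def xc66 : XT := (XT.nd (nat_lit 1560) (nat_lit 228) (nat_lit 0) (XT.nd (nat_lit 780) (nat_lit 228) (nat_lit 0) (XT.nd (nat_lit 390) (nat_lit 304) (nat_lit 0) (XT.nd (nat_lit 156) (nat_lit 152) (nat_lit 0) (XT.nd (nat_lit 78) (nat_lit 76) (nat_lit 0) (XT.lf (nat_lit 0) (nat_lit 19204240990) (nat_lit 152) (nat_lit 376533836) (nat_lit 76) (nat_lit 35251247137) (nat_lit 14) (nat_lit 5) (nat_lit 16) (nat_lit 5) (nat_lit 15) (nat_lit 4) (nat_lit 285) (nat_lit 269) (nat_lit 226)) (XT.lf (nat_lit 0) (nat_lit 31648948234) (nat_lit 76) (nat_lit 2457085855) (nat_lit 152) (nat_lit 26311736789) (nat_lit 13) (nat_lit 5) (nat_lit 14) (nat_lit 5) (nat_lit 15) (nat_lit 4) (nat_lit 286) (nat_lit 269) (nat_lit 225))) (XT.nd (nat_lit 78) (nat_lit 76) (nat_lit 0) (XT.lf (nat_lit 0) (nat_lit 1039889936) (nat_lit 76) (nat_lit 50969640334) (nat_lit 76) (nat_lit 14716897870) (nat_lit 12) (nat_lit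 4) (nat_lit 13) (nat_lit 5) (nat_lit 13) (nat_lit 4) (nat_lit 287) (nat_lit 269) (nat_lit 224)) (XT.nd (nat_lit 78) (nat_lit 0) (nat_lit 0) (XT.lf (nat_lit 0) (nat_lit 421925332) (nat_lit 152) (nat_lit 35354396023) (nat_lit 76) (nat_lit 37961412716) (nat_lit 11) (nat_lit 5) (nat_lit 13) (nat_lit 5) (nat_lit 12) (nat_lit 4) (nat_lit 288) (nat_lit 269) (nat_lit 223)) (XT.lf (nat_lit 0) (nat_lit 16315458924) (nat_lit 152) (nat_lit 1190944909) (nat_lit 76) (nat_lit 64190626138) (nat_lit 11) (nat_lit 5) (nat_lit 13) (nat_lit 5) (nat_lit 12) (nat_lit 4) (nat_lit 289) (nat_lit 269) (nat_lit 222))))) (XT.nd (nat_lit 156) (nat_lit 228) (nat_lit 0) (XT.nd (nat_lit 78) (nat_lit 0) (nat_lit 0) (XT.lf (nat_lit 0) (nat_lit 36543067593) (nat_lit 152) (nat_lit 49015785013) (nat_lit 0) (nat_lit 4998867257) (nat_lit 10) (nat_lit 5) (nat_lit 12) (nat_lit 4) (nat_lit 10) (nat_lit 4) (nat_lit 290) (nat_lit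 269) (nat_lit 221)) (XT.lf (nat_lit 0) (nat_lit 60695681055) (nat_lit 152) (nat_lit 10771754916) (nat_lit 0) (nat_lit 29146453277) (nat_lit 10) (nat_lit 5) (nat_lit 12) (nat_lit 4) (nat_lit 10) (nat_lit 4) (nat_lit 291) (nat_lit 269) (nat_lit 220))) (XT.nd (nat_lit 78) (nat_lit 152) (nat_lit 0) (XT.lf (nat_lit 0) (nat_lit 36439431086) (nat_lit 76) (nat_lit 53533683975) (nat_lit 76) (nat_lit 21980084511) (nat_lit 9) (nat_lit 4) (nat_lit 10) (nat_lit 5) (nat_lit 10) (nat_lit 4) (nat_lit 292) (nat_lit 269) (nat_lit 219)) (XT.nd (nat_lit 78) (nat_lit 152) (nat_lit 0) (XT.lf (nat_lit 0) (nat_lit 91929970006) (nat_lit 76) (nat_lit 32268684038) (nat_lit 76) (nat_lit 711283106) (nat_lit 9) (nat_lit 4) (nat_lit 10) (nat_lit 5) (nat_lit 10) (nat_lit 4) (nat_lit 293) (nat_lit 269) (nat_lit 218)) (XT.lf (nat_lit 0) (nat_lit 16398651501) (nat_lit 76) (nat_lit 5908026664) (nat_lit 152) (nat_lit 117255052789)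 (nat_lit 7) (nat_lit 5) (nat_lit 8) (nat_lit 5) (nat_lit 9) (nat_lit 4) (nat_lit 294) (nat_lit 269) (nat_lit 217)))))) (XT.nd (nat_lit 390) (nat_lit 152) (nat_lit 0) (XT.nd (nat_lit 156) (nat_lit 76) (nat_lit 0) (XT.nd (nat_lit 78) (nat_lit 0) (nat_lit 0) (XT.lf (nat_lit 0) (nat_lit 51515274021) (nat_lit 152) (nat_lit 80400645794) (nat_lit 0) (nat_lit 24068681838) (nat_lit 7) (nat_lit 5) (nat_lit 9) (nat_lit 4) (nat_lit 7) (nat_lit 4) (nat_lit 295) (nat_lit 269) (nat_lit 216)) (XT.lf (nat_lit 0) (nat_lit 85381351076) (nat_lit 152) (nat_lit 31515540107) (nat_lit 0) (nat_lit 57932585391) (nat_lit 7) (nat_lit 5) (nat_lit 9) (nat_lit 4) (nat_lit 7) (nat_lit 4) (nat_lit 296) (nat_lit 269) (nat_lit 215))) (XT.nd (nat_lit 78) (nat_lit 0) (nat_lit 0) (XT.lf (nat_lit 0) (nat_lit 27106535330) (nat_lit 76) (nat_lit 98338756197) (nat_lit 76) (nat_lit 70888100511) (nat_lit 6) (nat_lit 4) (nat_lit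 7) (nat_lit 5) (nat_lit 7) (nat_lit 4) (nat_lit 297) (nat_lit 269) (nat_lit 214)) (XT.nd (nat_lit 78) (nat_lit 0) (nat_lit 0) (XT.lf (nat_lit 0) (nat_lit 98055241137) (nat_lit 76) (nat_lit 75106740440) (nat_lit 76) (nat_lit 47654441275) (nat_lit 6) (nat_lit 4) (nat_lit 7) (nat_lit 5) (nat_lit 7) (nat_lit 4) (nat_lit 298) (nat_lit 269) (nat_lit 213)) (XT.lf (nat_lit 0) (nat_lit 179638776383) (nat_lit 76) (nat_lit 48393707706) (nat_lit 76) (nat_lit 20939979428) (nat_lit 6) (nat_lit 4) (nat_lit 7) (nat_lit 5) (nat_lit 7) (nat_lit 4) (nat_lit 299) (nat_lit 269) (nat_lit 212))))) (XT.nd (nat_lit 156) (nat_lit 0) (nat_lit 0) (XT.nd (nat_lit 78) (nat_lit 76) (nat_lit 0) (XT.lf (nat_lit 0) (nat_lit 8907457730) (nat_lit 152) (nat_lit 8303936863) (nat_lit 76) (nat_lit 264080265830) (nat_lit 5) (nat_lit 5) (nat_lit 7) (nat_lit 5) (nat_lit 6) (nat_lit 4) (nat_lit 300) (nat_lit 269) (nat_lit 211))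 (XT.lf (nat_lit 0) (nat_lit 44803687476) (nat_lit 152) (nat_lit 252019289336) (nat_lit 0) (nat_lit 20928859999) (nat_lit 4) (nat_lit 5) (nat_lit 6) (nat_lit 4) (nat_lit 4) (nat_lit 4) (nat_lit 301) (nat_lit 269) (nat_lit 210))) (XT.nd (nat_lit 78) (nat_lit 0) (nat_lit 0) (XT.lf (nat_lit 0) (nat_lit 87355783334) (nat_lit 152) (nat_lit 208654403718) (nat_lit 0) (nat_lit 63480138757) (nat_lit 4) (nat_lit 5) (nat_lit 6) (nat_lit 4) (nat_lit 4) (nat_lit 4) (nat_lit 302) (nat_lit 269) (nat_lit 209)) (XT.nd (nat_lit 78) (nat_lit 0) (nat_lit 0) (XT.lf (nat_lit 0) (nat_lit 136288173598) (nat_lit 152) (nat_lit 158789974836) (nat_lit 0) (nat_lit 112411818500) (nat_lit 4) (nat_lit 5) (nat_lit 6) (nat_lit 4) (nat_lit 4) (nat_lit 4) (nat_lit 303) (nat_lit 269) (nat_lit 208)) (XT.lf (nat_lit 0) (nat_lit 192558231121) (nat_lit 152) (nat_lit 101450394301) (nat_lit 0) (nat_lit 168681258178) (nat_lit 4)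 (nat_lit 5) (nat_lit 6) (nat_lit 4) (nat_lit 4) (nat_lit 4) (nat_lit 304) (nat_lit 269) (nat_lit 207))))))) (XT.nd (nat_lit 780) (nat_lit 152) (nat_lit 0) (XT.nd (nat_lit 390) (nat_lit 0) (nat_lit 0) (XT.nd (nat_lit 156) (nat_lit 0) (nat_lit 0) (XT.nd (nat_lit 78) (nat_lit 76) (nat_lit 0) (XT.lf (nat_lit 0) (nat_lit 257266891811) (nat_lit 152) (nat_lit 35513800752) (nat_lit 0) (nat_lit 233389381612) (nat_lit 4) (nat_lit 5) (nat_lit 6) (nat_lit 4) (nat_lit 4) (nat_lit 4) (nat_lit 305) (nat_lit 269) (nat_lit 206)) (XT.lf (nat_lit 0) (nat_lit 44249243213) (nat_lit 76) (nat_lit 289263218268) (nat_lit 76) (nat_lit 265385240890) (nat_lit 3) (nat_lit 4) (nat_lit 4) (nat_lit 5) (nat_lit 4) (nat_lit 4) (nat_lit 306) (nat_lit 269) (nat_lit 205))) (XT.nd (nat_lit 78) (nat_lit 0) (nat_lit 0) (XT.lf (nat_lit 0) (nat_lit 139964753570) (nat_lit 76) (nat_lit 283084940582) (nat_lit 76) (nat_lit 259206556960)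 (nat_lit 3) (nat_lit 4) (nat_lit 4) (nat_lit 5) (nat_lit 4) (nat_lit 4) (nat_lit 307) (nat_lit 269) (nat_lit 204)) (XT.nd (nat_lit 78) (nat_lit 0) (nat_lit 0) (XT.lf (nat_lit 0) (nat_lit 250034758191) (nat_lit 76) (nat_lit 275981383379) (nat_lit 76) (nat_lit 252102646503) (nat_lit 3) (nat_lit 4) (nat_lit 4) (nat_lit 5) (nat_lit 4) (nat_lit 4) (nat_lit 308) (nat_lit 269) (nat_lit 203)) (XT.lf (nat_lit 0) (nat_lit 376612800646) (nat_lit 76) (nat_lit 267813564021) (nat_lit 76) (nat_lit 243934519967) (nat_lit 3) (nat_lit 4) (nat_lit 4) (nat_lit 5) (nat_lit 4) (nat_lit 4) (nat_lit 309) (nat_lit 269) (nat_lit 202))))) (XT.nd (nat_lit 156) (nat_lit 0) (nat_lit 0) (XT.nd (nat_lit 78) (nat_lit 0) (nat_lit 0) (XT.lf (nat_lit 0) (nat_lit 522175407853) (nat_lit 76) (nat_lit 258421677344) (nat_lit 76) (nat_lit 234542366179) (nat_lit 3) (nat_lit 4) (nat_lit 4) (nat_lit 5) (nat_lit 4) (nat_lit 4) (nat_lit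 310) (nat_lit 269) (nat_lit 201)) (XT.lf (nat_lit 0) (nat_lit 689570543865) (nat_lit 76) (nat_lit 247621969045) (nat_lit 76) (nat_lit 223742425609) (nat_lit 3) (nat_lit 4) (nat_lit 4) (nat_lit 5) (nat_lit 4) (nat_lit 4) (nat_lit 311) (nat_lit 269) (nat_lit 200))) (XT.nd (nat_lit 78) (nat_lit 0) (nat_lit 0) (XT.lf (nat_lit 0) (nat_lit 882073330909) (nat_lit 76) (nat_lit 235203140483) (nat_lit 76) (nat_lit 211323395073) (nat_lit 3) (nat_lit 4) (nat_lit 4) (nat_lit 5) (nat_lit 4) (nat_lit 4) (nat_lit 312) (nat_lit 269) (nat_lit 199)) (XT.nd (nat_lit 78) (nat_lit 0) (nat_lit 0) (XT.lf (nat_lit 0) (nat_lit 1103450127862) (nat_lit 76) (nat_lit 220922214578) (nat_lit 76) (nat_lit 197042293537) (nat_lit 3) (nat_lit 4) (nat_lit 4) (nat_lit 5) (nat_lit 4) (nat_lit 4) (nat_lit 313) (nat_lit 269) (nat_lit 198)) (XT.lf (nat_lit 0) (nat_lit 1358032219882) (nat_lit 76) (nat_lit 204499781909) (nat_lit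 76) (nat_lit 180619708146) (nat_lit 3) (nat_lit 4) (nat_lit 4) (nat_lit 5) (nat_lit 4) (nat_lit 4) (nat_lit 314) (nat_lit 269) (nat_lit 197)))))) (XT.nd (nat_lit 390) (nat_lit 152) (nat_lit 0) (XT.nd (nat_lit 156) (nat_lit 0) (nat_lit 0) (XT.nd (nat_lit 78) (nat_lit 0) (nat_lit 0) (XT.lf (nat_lit 0) (nat_lit 1650800560943) (nat_lit 76) (nat_lit 185614534011) (nat_lit 76) (nat_lit 161734327447) (nat_lit 3) (nat_lit 4) (nat_lit 4) (nat_lit 5) (nat_lit 4) (nat_lit 4) (nat_lit 315) (nat_lit 269) (nat_lit 196)) (XT.lf (nat_lit 0) (nat_lit 1987483227282) (nat_lit 76) (nat_lit 163896976904) (nat_lit 76) (nat_lit 140016654860) (nat_lit 3) (nat_lit 4) (nat_lit 4) (nat_lit 5) (nat_lit 4) (nat_lit 4) (nat_lit 316) (nat_lit 269) (nat_lit 195))) (XT.nd (nat_lit 78) (nat_lit 0) (nat_lit 0) (XT.lf (nat_lit 0) (nat_lit 2374667488460) (nat_lit 76) (nat_lit 138922201861) (nat_lit 76) (nat_lit 115041779401)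 (nat_lit 3) (nat_lit 4) (nat_lit 4) (nat_lit 5) (nat_lit 4) (nat_lit 4) (nat_lit 317) (nat_lit 269) (nat_lit 194)) (XT.nd (nat_lit 78) (nat_lit 0) (nat_lit 0) (XT.lf (nat_lit 0) (nat_lit 2819928688716) (nat_lit 76) (nat_lit 110201571981) (nat_lit 76) (nat_lit 86321062201) (nat_lit 3) (nat_lit 4) (nat_lit 4) (nat_lit 5) (nat_lit 4) (nat_lit 4) (nat_lit 318) (nat_lit 269) (nat_lit 193)) (XT.lf (nat_lit 0) (nat_lit 3331978460229) (nat_lit 76) (nat_lit 77173161894) (nat_lit 76) (nat_lit 53292576185) (nat_lit 3) (nat_lit 4) (nat_lit 4) (nat_lit 5) (nat_lit 4) (nat_lit 4) (nat_lit 319) (nat_lit 269) (nat_lit 192))))) (XT.nd (nat_lit 156) (nat_lit 0) (nat_lit 0) (XT.nd (nat_lit 78) (nat_lit 152) (nat_lit 0) (XT.lf (nat_lit 0) (nat_lit 3920835168094) (nat_lit 76) (nat_lit 39190763579) (nat_lit 76) (nat_lit 15310111844) (nat_lit 3) (nat_lit 4) (nat_lit 4) (nat_lit 5) (nat_lit 4) (nat_lit 4) (nat_lit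 320) (nat_lit 269) (nat_lit 191)) (XT.lf (nat_lit 0) (nat_lit 27594367079) (nat_lit 152) (nat_lit 4530300008926) (nat_lit 0) (nat_lit 6828533036) (nat_lit 1) (nat_lit 5) (nat_lit 3) (nat_lit 4) (nat_lit 1) (nat_lit 4) (nat_lit 321) (nat_lit 269) (nat_lit 190))) (XT.nd (nat_lit 78) (nat_lit 0) (nat_lit 0) (XT.lf (nat_lit 0) (nat_lit 80217620680) (nat_lit 152) (nat_lit 5102011497595) (nat_lit 0) (nat_lit 59451743224) (nat_lit 1) (nat_lit 5) (nat_lit 3) (nat_lit 4) (nat_lit 1) (nat_lit 4) (nat_lit 322) (nat_lit 269) (nat_lit 189)) (XT.nd (nat_lit 78) (nat_lit 0) (nat_lit 0) (XT.lf (nat_lit 0) (nat_lit 140734160655) (nat_lit 152) (nat_lit 5759480131014) (nat_lit 0) (nat_lit 119968245449) (nat_lit 1) (nat_lit 5) (nat_lit 3) (nat_lit 4) (nat_lit 1) (nat_lit 4) (nat_lit 323) (nat_lit 269) (nat_lit 188)) (XT.lf (nat_lit 0) (nat_lit 210328006265) (nat_lit 152) (nat_lit 6515569425923) (nat_lit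 0) (nat_lit 189562058232) (nat_lit 1) (nat_lit 5) (nat_lit 3) (nat_lit 4) (nat_lit 1) (nat_lit 4) (nat_lit 324) (nat_lit 269) (nat_lit 187))))))))
noncomputable def xc67 : XT := (XT.nd (nat_lit 1560) (nat_lit 0) (nat_lit 0) (XT.nd (nat_lit 780) (nat_lit 0) (nat_lit 0) (XT.nd (nat_lit 390) (nat_lit 0) (nat_lit 0) (XT.nd (nat_lit 156) (nat_lit 0) (nat_lit 0) (XT.nd (nat_lit 78) (nat_lit 0) (nat_lit 0) (XT.lf (nat_lit 0) (nat_lit 290360776227) (nat_lit 152) (nat_lit 7385072433745) (nat_lit 0) (nat_lit 269594799650) (nat_lit 1) (nat_lit 5) (nat_lit 3) (nat_lit 4) (nat_lit 1) (nat_lit 4) (nat_lit 325) (nat_lit 269) (nat_lit 186)) (XT.lf (nat_lit 0) (nat_lit 382398329085) (nat_lit 152) (nat_lit 8385001169849) (nat_lit 0) (nat_lit 361632327686) (nat_lit 1) (nat_lit 5) (nat_lit 3) (nat_lit 4) (nat_lit 1) (nat_lit 4) (nat_lit 326) (nat_lit 269) (nat_lit 185))) (XT.nd (nat_lit 78) (nat_lit 0)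 (nat_lit 0) (XT.lf (nat_lit 0) (nat_lit 488241399569) (nat_lit 152) (nat_lit 9534919457335) (nat_lit 0) (nat_lit 467475376586) (nat_lit 1) (nat_lit 5) (nat_lit 3) (nat_lit 4) (nat_lit 1) (nat_lit 4) (nat_lit 327) (nat_lit 269) (nat_lit 184)) (XT.nd (nat_lit 78) (nat_lit 0) (nat_lit 0) (XT.lf (nat_lit 0) (nat_lit 609960830361) (nat_lit 152) (nat_lit 10857325697478) (nat_lit 0) (nat_lit 589194788609) (nat_lit 1) (nat_lit 5) (nat_lit 3) (nat_lit 4) (nat_lit 1) (nat_lit 4) (nat_lit 328) (nat_lit 269) (nat_lit 183)) (XT.lf (nat_lit 0) (nat_lit 749938088586) (nat_lit 152) (nat_lit 12378093055846) (nat_lit 0) (nat_lit 729172030514) (nat_lit 1) (nat_lit 5) (nat_lit 3) (nat_lit 4) (nat_lit 1) (nat_lit 4) (nat_lit 329) (nat_lit 269) (nat_lit 182))))) (XT.nd (nat_lit 156) (nat_lit 0) (nat_lit 0) (XT.nd (nat_lit 78) (nat_lit 0) (nat_lit 0) (XT.lf (nat_lit 0) (nat_lit 910911859731) (nat_lit 152)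 (nat_lit 14126975676409) (nat_lit 0) (nat_lit 890145787467) (nat_lit 1) (nat_lit 5) (nat_lit 3) (nat_lit 4) (nat_lit 1) (nat_lit 4) (nat_lit 330) (nat_lit 269) (nat_lit 181)) (XT.lf (nat_lit 0) (nat_lit 1096031630622) (nat_lit 152) (nat_lit 16138190827828) (nat_lit 0) (nat_lit 1075265546018) (nat_lit 1) (nat_lit 5) (nat_lit 3) (nat_lit 4) (nat_lit 1) (nat_lit 4) (nat_lit 331) (nat_lit 269) (nat_lit 180))) (XT.nd (nat_lit 78) (nat_lit 0) (nat_lit 0) (XT.lf (nat_lit 0) (nat_lit 1308919309822) (nat_lit 152) (nat_lit 18451088371763) (nat_lit 0) (nat_lit 1288153214486) (nat_lit 1) (nat_lit 5) (nat_lit 3) (nat_lit 4) (nat_lit 1) (nat_lit 4) (nat_lit 332) (nat_lit 269) (nat_lit 179)) (XT.nd (nat_lit 78) (nat_lit 0) (nat_lit 0) (XT.lf (nat_lit 0) (nat_lit 1553740091052) (nat_lit 152) (nat_lit 21110920651463) (nat_lit 0) (nat_lit 1532973986385) (nat_lit 1) (nat_lit 5) (nat_lit 3) (nat_lit 4)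 (nat_lit 1) (nat_lit 4) (nat_lit 333) (nat_lit 269) (nat_lit 178)) (XT.lf (nat_lit 0) (nat_lit 1835283946120) (nat_lit 152) (nat_lit 24169727863706) (nat_lit 0) (nat_lit 1814517833339) (nat_lit 1) (nat_lit 5) (nat_lit 3) (nat_lit 4) (nat_lit 1) (nat_lit 4) (nat_lit 334) (nat_lit 269) (nat_lit 177)))))) (XT.nd (nat_lit 390) (nat_lit 0) (nat_lit 0) (XT.nd (nat_lit 156) (nat_lit 0) (nat_lit 0) (XT.nd (nat_lit 78) (nat_lit 0) (nat_lit 0) (XT.lf (nat_lit 0) (nat_lit 2159059341756) (nat_lit 152) (nat_lit 27687356236558) (nat_lit 0) (nat_lit 2138293221919) (nat_lit 1) (nat_lit 5) (nat_lit 3) (nat_lit 4) (nat_lit 1) (nat_lit 4) (nat_lit 335) (nat_lit 269) (nat_lit 176)) (XT.lf (nat_lit 0) (nat_lit 2531401013961) (nat_lit 152) (nat_lit 31732628933834) (nat_lit 0) (nat_lit 2510634887988) (nat_lit 1) (nat_lit 5) (nat_lit 3) (nat_lit 4) (nat_lit 1) (nat_lit 4) (nat_lit 336) (nat_lit 269) (nat_lit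 175))) (XT.nd (nat_lit 78) (nat_lit 0) (nat_lit 0) (XT.lf (nat_lit 0) (nat_lit 2959593908495) (nat_lit 152) (nat_lit 36384692595265) (nat_lit 0) (nat_lit 2938827777187) (nat_lit 1) (nat_lit 5) (nat_lit 3) (nat_lit 4) (nat_lit 1) (nat_lit 4) (nat_lit 337) (nat_lit 269) (nat_lit 174)) (XT.nd (nat_lit 78) (nat_lit 0) (nat_lit 0) (XT.lf (nat_lit 0) (nat_lit 3452015712425) (nat_lit 152) (nat_lit 41734565857705) (nat_lit 0) (nat_lit 3431249576478) (nat_lit 1) (nat_lit 5) (nat_lit 3) (nat_lit 4) (nat_lit 1) (nat_lit 4) (nat_lit 338) (nat_lit 269) (nat_lit 173)) (XT.lf (nat_lit 0) (nat_lit 4018300765394) (nat_lit 152) (nat_lit 47886920154548) (nat_lit 0) (nat_lit 3997534625413) (nat_lit 1) (nat_lit 5) (nat_lit 3) (nat_lit 4) (nat_lit 1) (nat_lit 4) (nat_lit 339) (nat_lit 269) (nat_lit 172))))) (XT.nd (nat_lit 156) (nat_lit 0) (nat_lit 0) (XT.nd (nat_lit 78) (nat_lit 0) (nat_lit 0) (XT.lf (nat_lit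 0) (nat_lit 4669528557568) (nat_lit 152) (nat_lit 54962127635081) (nat_lit 0) (nat_lit 4648762414079) (nat_lit 1) (nat_lit 5) (nat_lit 3) (nat_lit 4) (nat_lit 1) (nat_lit 4) (nat_lit 340) (nat_lit 269) (nat_lit 171)) (XT.lf (nat_lit 0) (nat_lit 5418440502273) (nat_lit 152) (nat_lit 63098616271750) (nat_lit 0) (nat_lit 5397674355734) (nat_lit 1) (nat_lit 5) (nat_lit 3) (nat_lit 4) (nat_lit 1) (nat_lit 4) (nat_lit 341) (nat_lit 269) (nat_lit 170))) (XT.nd (nat_lit 78) (nat_lit 0) (nat_lit 0) (XT.lf (nat_lit 0) (nat_lit 6279689224514) (nat_lit 152) (nat_lit 72455578233533) (nat_lit 0) (nat_lit 6258923075322) (nat_lit 1) (nat_lit 5) (nat_lit 3) (nat_lit 4) (nat_lit 1) (nat_lit 4) (nat_lit 342) (nat_lit 269) (nat_lit 169)) (XT.nd (nat_lit 78) (nat_lit 0) (nat_lit 0) (XT.lf (nat_lit 0) (nat_lit 7270125242768) (nat_lit 152) (nat_lit 83216084515333) (nat_lit 0) (nat_lit 7249359091270) (nat_lit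 1) (nat_lit 5) (nat_lit 3) (nat_lit 4) (nat_lit 1) (nat_lit 4) (nat_lit 343) (nat_lit 269) (nat_lit 168)) (XT.lf (nat_lit 0) (nat_lit 8409126653047) (nat_lit 152) (nat_lit 95590666761795) (nat_lit 0) (nat_lit 8388360499542) (nat_lit 1) (nat_lit 5) (nat_lit 3) (nat_lit 4) (nat_lit 1) (nat_lit 4) (nat_lit 344) (nat_lit 269) (nat_lit 167))))))) (XT.nd (nat_lit 35100) (nat_lit 0) (nat_lit 1140) (XT.nd (nat_lit 624) (nat_lit 0) (nat_lit 0) (XT.nd (nat_lit 390) (nat_lit 0) (nat_lit 0) (XT.nd (nat_lit 78) (nat_lit 0) (nat_lit 0) (XT.lf (nat_lit 0) (nat_lit 9718978265550) (nat_lit 152) (nat_lit 109821436364698) (nat_lit 0) (nat_lit 9698212110301) (nat_lit 1) (nat_lit 5) (nat_lit 3) (nat_lit 4) (nat_lit 1) (nat_lit 4) (nat_lit 345) (nat_lit 269) (nat_lit 166)) (XT.lf (nat_lit 0) (nat_lit 11225307611826) (nat_lit 152) (nat_lit 126186821424968) (nat_lit 0) (nat_lit 11204541455061) (nat_lit 1) (nat_lit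 5) (nat_lit 3) (nat_lit 4) (nat_lit 1) (nat_lit 4) (nat_lit 346) (nat_lit 269) (nat_lit 165))) (XT.nd (nat_lit 78) (nat_lit 0) (nat_lit 0) (XT.lf (nat_lit 0) (nat_lit 19875224933672) (nat_lit 152) (nat_lit 220163101895681) (nat_lit 0) (nat_lit 19854458772576) (nat_lit 1) (nat_lit 5) (nat_lit 3) (nat_lit 4) (nat_lit 1) (nat_lit 4) (nat_lit 350) (nat_lit 269) (nat_lit 161)) (XT.nd (nat_lit 78) (nat_lit 0) (nat_lit 0) (XT.lf (nat_lit 0) (nat_lit 22904991253007) (nat_lit 152) (nat_lit 253079736842355) (nat_lit 0) (nat_lit 22884225091158) (nat_lit 1) (nat_lit 5) (nat_lit 3) (nat_lit 4) (nat_lit 1) (nat_lit 4) (nat_lit 351) (nat_lit 269) (nat_lit 160)) (XT.lf (nat_lit 0) (nat_lit 26389222516741) (nat_lit 152) (nat_lit 290933867038351) (nat_lit 0) (nat_lit 26368456354236) (nat_lit 1) (nat_lit 5) (nat_lit 3) (nat_lit 4) (nat_lit 1) (nat_lit 4) (nat_lit 352) (nat_lit 269) (nat_lit 159))))) (XT.nd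 (nat_lit 34242) (nat_lit 0) (nat_lit 1824) (XT.nd (nat_lit 34164) (nat_lit 0) (nat_lit 1824) (XT.lf (nat_lit 0) (nat_lit 30396088466990) (nat_lit 152) (nat_lit 334466116770110) (nat_lit 0) (nat_lit 30375322303915) (nat_lit 1) (nat_lit 5) (nat_lit 3) (nat_lit 4) (nat_lit 1) (nat_lit 4) (nat_lit 353) (nat_lit 269) (nat_lit 158)) (XT.lf (nat_lit 0) (nat_lit 1145762826) (nat_lit 380) (nat_lit 3579033150) (nat_lit 380) (nat_lit 3579033150) (nat_lit 25) (nat_lit 3) (nat_lit 30) (nat_lit 3) (nat_lit 30) (nat_lit 5) (nat_lit 270) (nat_lit 270) (nat_lit 240))) (XT.nd (nat_lit 78) (nat_lit 0) (nat_lit 76) (XT.lf (nat_lit 76) (nat_lit 840166448) (nat_lit 0) (nat_lit 1879202463) (nat_lit 380) (nat_lit 15094882008) (nat_lit 26) (nat_lit 5) (nat_lit 25) (nat_lit 3) (nat_lit 30) (nat_lit 5) (nat_lit 271) (nat_lit 270) (nat_lit 239)) (XT.nd (nat_lit 78) (nat_lit 0) (nat_lit 0) (XT.lf (nat_lit 0) (nat_lit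 3846285457) (nat_lit 304) (nat_lit 8635326314) (nat_lit 380) (nat_lit 6625090332) (nat_lit 26) (nat_lit 5) (nat_lit 30) (nat_lit 5) (nat_lit 31) (nat_lit 5) (nat_lit 272) (nat_lit 270) (nat_lit 238)) (XT.lf (nat_lit 76) (nat_lit 918988286) (nat_lit 0) (nat_lit 4316204706) (nat_lit 380) (nat_lit 15343975502) (nat_lit 27) (nat_lit 5) (nat_lit 26) (nat_lit 5) (nat_lit 31) (nat_lit 5) (nat_lit 273) (nat_lit 270) (nat_lit 237)))))) (XT.nd (nat_lit 390) (nat_lit 380) (nat_lit 0) (XT.nd (nat_lit 156) (nat_lit 152) (nat_lit 0) (XT.nd (nat_lit 78) (nat_lit 304) (nat_lit 0) (XT.lf (nat_lit 0) (nat_lit 7484462905) (nat_lit 304) (nat_lit 9590737779) (nat_lit 76) (nat_lit 5099578968) (nat_lit 27) (nat_lit 5) (nat_lit 31) (nat_lit 5) (nat_lit 28) (nat_lit 5) (nat_lit 274) (nat_lit 270) (nat_lit 236)) (XT.lf (nat_lit 0) (nat_lit 1928028869) (nat_lit 304) (nat_lit 8401537690) (nat_lit 380) (nat_lit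 13641467910) (nat_lit 23) (nat_lit 5) (nat_lit 27) (nat_lit 5) (nat_lit 28) (nat_lit 5) (nat_lit 275) (nat_lit 270) (nat_lit 235))) (XT.nd (nat_lit 78) (nat_lit 152) (nat_lit 0) (XT.lf (nat_lit 0) (nat_lit 14167234290) (nat_lit 380) (nat_lit 9827703716) (nat_lit 76) (nat_lit 1956979266) (nat_lit 23) (nat_lit 5) (nat_lit 28) (nat_lit 5) (nat_lit 24) (nat_lit 5) (nat_lit 276) (nat_lit 270) (nat_lit 234)) (XT.nd (nat_lit 78) (nat_lit 0) (nat_lit 0) (XT.lf (nat_lit 0) (nat_lit 4164828011) (nat_lit 152) (nat_lit 14966905906) (nat_lit 228) (nat_lit 9015573095) (nat_lit 21) (nat_lit 5) (nat_lit 23) (nat_lit 5) (nat_lit 24) (nat_lit 5) (nat_lit 277) (nat_lit 270) (nat_lit 233)) (XT.lf (nat_lit 0) (nat_lit 21336136921) (nat_lit 152) (nat_lit 3998910115) (nat_lit 228) (nat_lit 5262882417) (nat_lit 21) (nat_lit 5) (nat_lit 23) (nat_lit 5) (nat_lit 24) (nat_lit 5) (nat_lit 278) (nat_lit 270) (nat_lit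 232))))) (XT.nd (nat_lit 234) (nat_lit 76) (nat_lit 0) (XT.nd (nat_lit 78) (nat_lit 228) (nat_lit 0) (XT.lf (nat_lit 0) (nat_lit 7998580641) (nat_lit 76) (nat_lit 25140970951) (nat_lit 152) (nat_lit 176028647) (nat_lit 20) (nat_lit 5) (nat_lit 21) (nat_lit 5) (nat_lit 22) (nat_lit 4) (nat_lit 279) (nat_lit 270) (nat_lit 231)) (XT.nd (nat_lit 78) (nat_lit 152) (nat_lit 0) (XT.lf (nat_lit 0) (nat_lit 5849651643) (nat_lit 152) (nat_lit 7952154475) (nat_lit 76) (nat_lit 22501722190) (nat_lit 19) (nat_lit 5) (nat_lit 21) (nat_lit 5) (nat_lit 20) (nat_lit 5) (nat_lit 280) (nat_lit 270) (nat_lit 230)) (XT.lf (nat_lit 0) (nat_lit 13159368776) (nat_lit 152) (nat_lit 132178455) (nat_lit 228) (nat_lit 26367331965) (nat_lit 17) (nat_lit 5) (nat_lit 19) (nat_lit 5) (nat_lit 20) (nat_lit 5) (nat_lit 281) (nat_lit 270) (nat_lit 229)))) (XT.nd (nat_lit 78) (nat_lit 76) (nat_lit 0) (XT.lf (nat_lit 0)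 (nat_lit 22916922110) (nat_lit 228) (nat_lit 5811103386) (nat_lit 76) (nat_lit 14629450363) (nat_lit 17) (nat_lit 5) (nat_lit 20) (nat_lit 5) (nat_lit 18) (nat_lit 4) (nat_lit 282) (nat_lit 270) (nat_lit 228)) (XT.nd (nat_lit 78) (nat_lit 0) (nat_lit 0) (XT.lf (nat_lit 0) (nat_lit 19709845702) (nat_lit 76) (nat_lit 15086745194) (nat_lit 152) (nat_lit 12692717439) (nat_lit 16) (nat_lit 5) (nat_lit 17) (nat_lit 5) (nat_lit 18) (nat_lit 4) (nat_lit 283) (nat_lit 270) (nat_lit 227)) (XT.lf (nat_lit 0) (nat_lit 48789870488) (nat_lit 152) (nat_lit 2542321373) (nat_lit 0) (nat_lit 858991672) (nat_lit 16) (nat_lit 5) (nat_lit 18) (nat_lit 4) (nat_lit 16) (nat_lit 4) (nat_lit 284) (nat_lit 270) (nat_lit 226))))))))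
noncomputable def xc68 : XT := (XT.nd (nat_lit 1560) (nat_lit 228) (nat_lit 0) (XT.nd (nat_lit 780) (nat_lit 380) (nat_lit 0) (XT.nd (nat_lit 390) (nat_lit 152) (nat_lit 0) (XT.nd (nat_lit 156) (nat_lit 228) (nat_lit 0) (XT.nd (nat_lit 78) (nat_lit 0) (nat_lit 0) (XT.lf (nat_lit 0) (nat_lit 8603484856) (nat_lit 152) (nat_lit 29446759466) (nat_lit 76) (nat_lit 19207646892) (nat_lit 14) (nat_lit 5) (nat_lit 16) (nat_lit 5) (nat_lit 15) (nat_lit 4) (nat_lit 285) (nat_lit 270) (nat_lit 225)) (XT.lf (nat_lit 0) (nat_lit 22190212381) (nat_lit 152) (nat_lit 246924062) (nat_lit 76) (nat_lit 40603768697) (nat_lit 14) (nat_lit 5) (nat_lit 16) (nat_lit 5) (nat_lit 15) (nat_lit 4) (nat_lit 286) (nat_lit 270) (nat_lit 224))) (XT.nd (nat_lit 78) (nat_lit 152) (nat_lit 0) (XT.lf (nat_lit 0) (nat_lit 36573921689) (nat_lit 76) (nat_lit 2746968706) (nat_lit 152) (nat_lit 30144599235) (nat_lit 13) (nat_lit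 5) (nat_lit 14) (nat_lit 5) (nat_lit 15) (nat_lit 4) (nat_lit 287) (nat_lit 270) (nat_lit 223)) (XT.nd (nat_lit 78) (nat_lit 76) (nat_lit 0) (XT.lf (nat_lit 0) (nat_lit 1376588093) (nat_lit 76) (nat_lit 58530732262) (nat_lit 76) (nat_lit 16813527316) (nat_lit 12) (nat_lit 4) (nat_lit 13) (nat_lit 5) (nat_lit 13) (nat_lit 4) (nat_lit 288) (nat_lit 270) (nat_lit 222)) (XT.lf (nat_lit 0) (nat_lit 573067770) (nat_lit 152) (nat_lit 40491758028) (nat_lit 76) (nat_lit 43720321825) (nat_lit 11) (nat_lit 5) (nat_lit 13) (nat_lit 5) (nat_lit 12) (nat_lit 4) (nat_lit 289) (nat_lit 270) (nat_lit 221))))) (XT.nd (nat_lit 156) (nat_lit 76) (nat_lit 0) (XT.nd (nat_lit 78) (nat_lit 76) (nat_lit 0) (XT.lf (nat_lit 0) (nat_lit 18839172231) (nat_lit 152) (nat_lit 1225414995) (nat_lit 76) (nat_lit 73875478494) (nat_lit 11) (nat_lit 5) (nat_lit 13) (nat_lit 5) (nat_lit 12) (nat_lit 4) (nat_lit 290) (nat_lit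 270) (nat_lit 220)) (XT.lf (nat_lit 0) (nat_lit 42099367987) (nat_lit 152) (nat_lit 56222375095) (nat_lit 0) (nat_lit 5808356916) (nat_lit 10) (nat_lit 5) (nat_lit 12) (nat_lit 4) (nat_lit 10) (nat_lit 4) (nat_lit 291) (nat_lit 270) (nat_lit 219))) (XT.nd (nat_lit 78) (nat_lit 76) (nat_lit 0) (XT.lf (nat_lit 0) (nat_lit 69865111695) (nat_lit 152) (nat_lit 12260754962) (nat_lit 0) (nat_lit 33570299156) (nat_lit 10) (nat_lit 5) (nat_lit 12) (nat_lit 4) (nat_lit 10) (nat_lit 4) (nat_lit 292) (nat_lit 270) (nat_lit 218)) (XT.nd (nat_lit 78) (nat_lit 0) (nat_lit 0) (XT.lf (nat_lit 0) (nat_lit 42026346977) (nat_lit 76) (nat_lit 61504335732) (nat_lit 76) (nat_lit 25206217569) (nat_lit 9) (nat_lit 4) (nat_lit 10) (nat_lit 5) (nat_lit 10) (nat_lit 4) (nat_lit 293) (nat_lit 270) (nat_lit 217)) (XT.lf (nat_lit 0) (nat_lit 105824683965) (nat_lit 76) (nat_lit 37057333739) (nat_lit 76) (nat_lit 756341121)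 (nat_lit 9) (nat_lit 4) (nat_lit 10) (nat_lit 5) (nat_lit 10) (nat_lit 4) (nat_lit 294) (nat_lit 270) (nat_lit 216)))))) (XT.nd (nat_lit 390) (nat_lit 152) (nat_lit 0) (XT.nd (nat_lit 156) (nat_lit 76) (nat_lit 0) (XT.nd (nat_lit 78) (nat_lit 0) (nat_lit 0) (XT.lf (nat_lit 0) (nat_lit 18964151012) (nat_lit 76) (nat_lit 6741729525) (nat_lit 152) (nat_lit 134782104207) (nat_lit 7) (nat_lit 5) (nat_lit 8) (nat_lit 5) (nat_lit 9) (nat_lit 4) (nat_lit 295) (nat_lit 270) (nat_lit 215)) (XT.lf (nat_lit 0) (nat_lit 59290716957) (nat_lit 152) (nat_lit 92363756855) (nat_lit 0) (nat_lit 27720572917) (nat_lit 7) (nat_lit 5) (nat_lit 9) (nat_lit 4) (nat_lit 7) (nat_lit 4) (nat_lit 296) (nat_lit 270) (nat_lit 214))) (XT.nd (nat_lit 78) (nat_lit 76) (nat_lit 0) (XT.lf (nat_lit 0) (nat_lit 98230424896) (nat_lit 152) (nat_lit 36158535638) (nat_lit 0) (nat_lit 66658637377) (nat_lit 7) (nat_lit 5) (nat_lit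 9) (nat_lit 4) (nat_lit 7) (nat_lit 4) (nat_lit 297) (nat_lit 270) (nat_lit 213)) (XT.nd (nat_lit 78) (nat_lit 0) (nat_lit 0) (XT.lf (nat_lit 0) (nat_lit 31253017684) (nat_lit 76) (nat_lit 113048810694) (nat_lit 76) (nat_lit 81475594063) (nat_lit 6) (nat_lit 4) (nat_lit 7) (nat_lit 5) (nat_lit 7) (nat_lit 4) (nat_lit 298) (nat_lit 270) (nat_lit 212)) (XT.lf (nat_lit 0) (nat_lit 112833529094) (nat_lit 76) (nat_lit 86337308956) (nat_lit 76) (nat_lit 54762849618) (nat_lit 6) (nat_lit 4) (nat_lit 7) (nat_lit 5) (nat_lit 7) (nat_lit 4) (nat_lit 299) (nat_lit 270) (nat_lit 211))))) (XT.nd (nat_lit 156) (nat_lit 76) (nat_lit 0) (XT.nd (nat_lit 78) (nat_lit 76) (nat_lit 0) (XT.lf (nat_lit 0) (nat_lit 206645463959) (nat_lit 76) (nat_lit 55621944253) (nat_lit 76) (nat_lit 24046404301) (nat_lit 6) (nat_lit 4) (nat_lit 7) (nat_lit 5) (nat_lit 7) (nat_lit 4) (nat_lit 300) (nat_lit 270) (nat_lit 210))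 (XT.lf (nat_lit 0) (nat_lit 10270962650) (nat_lit 152) (nat_lit 9493909918) (nat_lit 76) (nat_lit 303716419297) (nat_lit 5) (nat_lit 5) (nat_lit 7) (nat_lit 5) (nat_lit 6) (nat_lit 4) (nat_lit 301) (nat_lit 270) (nat_lit 209))) (XT.nd (nat_lit 78) (nat_lit 0) (nat_lit 0) (XT.lf (nat_lit 0) (nat_lit 51551374255) (nat_lit 152) (nat_lit 289766304239) (nat_lit 0) (nat_lit 24092855371) (nat_lit 4) (nat_lit 5) (nat_lit 6) (nat_lit 4) (nat_lit 4) (nat_lit 4) (nat_lit 302) (nat_lit 270) (nat_lit 208)) (XT.nd (nat_lit 78) (nat_lit 0) (nat_lit 0) (XT.lf (nat_lit 0) (nat_lit 100482745319) (nat_lit 152) (nat_lit 239903974277) (nat_lit 0) (nat_lit 73023608590) (nat_lit 4) (nat_lit 5) (nat_lit 6) (nat_lit 4) (nat_lit 4) (nat_lit 4) (nat_lit 303) (nat_lit 270) (nat_lit 207)) (XT.lf (nat_lit 0) (nat_lit 156751916581) (nat_lit 152) (nat_lit 182566218890) (nat_lit 0) (nat_lit 129292242596) (nat_lit 4)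 (nat_lit 5) (nat_lit 6) (nat_lit 4) (nat_lit 4) (nat_lit 4) (nat_lit 304) (nat_lit 270) (nat_lit 206))))))) (XT.nd (nat_lit 780) (nat_lit 152) (nat_lit 0) (XT.nd (nat_lit 390) (nat_lit 0) (nat_lit 0) (XT.nd (nat_lit 156) (nat_lit 76) (nat_lit 0) (XT.nd (nat_lit 78) (nat_lit 0) (nat_lit 0) (XT.lf (nat_lit 0) (nat_lit 221459806609) (nat_lit 152) (nat_lit 116631212426) (nat_lit 0) (nat_lit 193999665445) (nat_lit 4) (nat_lit 5) (nat_lit 6) (nat_lit 4) (nat_lit 4) (nat_lit 4) (nat_lit 305) (nat_lit 270) (nat_lit 205)) (XT.lf (nat_lit 0) (nat_lit 295872439340) (nat_lit 152) (nat_lit 40808922153) (nat_lit 0) (nat_lit 268411891933) (nat_lit 4) (nat_lit 5) (nat_lit 6) (nat_lit 4) (nat_lit 4) (nat_lit 4) (nat_lit 306) (nat_lit 270) (nat_lit 204))) (XT.nd (nat_lit 78) (nat_lit 0) (nat_lit 0) (XT.lf (nat_lit 0) (nat_lit 50917126194) (nat_lit 76) (nat_lit 332636957529) (nat_lit 76) (nat_lit 305176056867)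 (nat_lit 3) (nat_lit 4) (nat_lit 4) (nat_lit 5) (nat_lit 4) (nat_lit 4) (nat_lit 307) (nat_lit 270) (nat_lit 203)) (XT.nd (nat_lit 78) (nat_lit 0) (nat_lit 0) (XT.lf (nat_lit 0) (nat_lit 160985985299) (nat_lit 76) (nat_lit 325533991686) (nat_lit 76) (nat_lit 298072783846) (nat_lit 3) (nat_lit 4) (nat_lit 4) (nat_lit 5) (nat_lit 4) (nat_lit 4) (nat_lit 308) (nat_lit 270) (nat_lit 202)) (XT.lf (nat_lit 0) (nat_lit 287563031653) (nat_lit 76) (nat_lit 317366686553) (nat_lit 76) (nat_lit 289905211602) (nat_lit 3) (nat_lit 4) (nat_lit 4) (nat_lit 5) (nat_lit 4) (nat_lit 4) (nat_lit 309) (nat_lit 270) (nat_lit 201))))) (XT.nd (nat_lit 156) (nat_lit 0) (nat_lit 0) (XT.nd (nat_lit 78) (nat_lit 0) (nat_lit 0) (XT.lf (nat_lit 0) (nat_lit 433124772686) (nat_lit 76) (nat_lit 307975247030) (nat_lit 76) (nat_lit 280513539808) (nat_lit 3) (nat_lit 4) (nat_lit 4) (nat_lit 5) (nat_lit 4) (nat_lit 4) (nat_lit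 310) (nat_lit 270) (nat_lit 200)) (XT.lf (nat_lit 0) (nat_lit 600519155503) (nat_lit 76) (nat_lit 297175927560) (nat_lit 76) (nat_lit 269714018363) (nat_lit 3) (nat_lit 4) (nat_lit 4) (nat_lit 5) (nat_lit 4) (nat_lit 4) (nat_lit 311) (nat_lit 270) (nat_lit 199))) (XT.nd (nat_lit 78) (nat_lit 0) (nat_lit 0) (XT.lf (nat_lit 0) (nat_lit 793021287594) (nat_lit 76) (nat_lit 284757437110) (nat_lit 76) (nat_lit 257295352283) (nat_lit 3) (nat_lit 4) (nat_lit 4) (nat_lit 5) (nat_lit 4) (nat_lit 4) (nat_lit 312) (nat_lit 270) (nat_lit 198)) (XT.nd (nat_lit 78) (nat_lit 0) (nat_lit 0) (XT.lf (nat_lit 0) (nat_lit 1014397515024) (nat_lit 76) (nat_lit 270476805215) (nat_lit 76) (nat_lit 243014567666) (nat_lit 3) (nat_lit 4) (nat_lit 4) (nat_lit 5) (nat_lit 4) (nat_lit 4) (nat_lit 313) (nat_lit 270) (nat_lit 197)) (XT.lf (nat_lit 0) (nat_lit 1268979111805) (nat_lit 76) (nat_lit 254054628207) (nat_lit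 76) (nat_lit 226592257857) (nat_lit 3) (nat_lit 4) (nat_lit 4) (nat_lit 5) (nat_lit 4) (nat_lit 4) (nat_lit 314) (nat_lit 270) (nat_lit 196)))))) (XT.nd (nat_lit 390) (nat_lit 152) (nat_lit 0) (XT.nd (nat_lit 156) (nat_lit 0) (nat_lit 0) (XT.nd (nat_lit 78) (nat_lit 0) (nat_lit 0) (XT.lf (nat_lit 0) (nat_lit 1561747022224) (nat_lit 76) (nat_lit 235169602623) (nat_lit 76) (nat_lit 207707116794) (nat_lit 3) (nat_lit 4) (nat_lit 4) (nat_lit 5) (nat_lit 4) (nat_lit 4) (nat_lit 315) (nat_lit 270) (nat_lit 195)) (XT.lf (nat_lit 0) (nat_lit 1898429314092) (nat_lit 76) (nat_lit 213452238833) (nat_lit 76) (nat_lit 185989652586) (nat_lit 3) (nat_lit 4) (nat_lit 4) (nat_lit 5) (nat_lit 4) (nat_lit 4) (nat_lit 316) (nat_lit 270) (nat_lit 194))) (XT.nd (nat_lit 78) (nat_lit 0) (nat_lit 0) (XT.lf (nat_lit 0) (nat_lit 2285613249643) (nat_lit 76) (nat_lit 188477631892) (nat_lit 76) (nat_lit 161014958326)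 (nat_lit 3) (nat_lit 4) (nat_lit 4) (nat_lit 5) (nat_lit 4) (nat_lit 4) (nat_lit 317) (nat_lit 270) (nat_lit 193)) (XT.nd (nat_lit 78) (nat_lit 0) (nat_lit 0) (XT.lf (nat_lit 0) (nat_lit 2730874166745) (nat_lit 76) (nat_lit 159757148186) (nat_lit 76) (nat_lit 132294398691) (nat_lit 3) (nat_lit 4) (nat_lit 4) (nat_lit 5) (nat_lit 4) (nat_lit 4) (nat_lit 318) (nat_lit 270) (nat_lit 192)) (XT.lf (nat_lit 0) (nat_lit 3242923692037) (nat_lit 76) (nat_lit 126728865209) (nat_lit 76) (nat_lit 99266049688) (nat_lit 3) (nat_lit 4) (nat_lit 4) (nat_lit 5) (nat_lit 4) (nat_lit 4) (nat_lit 319) (nat_lit 270) (nat_lit 191))))) (XT.nd (nat_lit 156) (nat_lit 152) (nat_lit 0) (XT.nd (nat_lit 78) (nat_lit 0) (nat_lit 0) (XT.lf (nat_lit 0) (nat_lit 3831780185797) (nat_lit 76) (nat_lit 88746577423) (nat_lit 76) (nat_lit 61283704488) (nat_lit 3) (nat_lit 4) (nat_lit 4) (nat_lit 5) (nat_lit 4) (nat_lit 4)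 (nat_lit 320) (nat_lit 270) (nat_lit 190)) (XT.lf (nat_lit 0) (nat_lit 4508964753337) (nat_lit 76) (nat_lit 45067153111) (nat_lit 76) (nat_lit 17604230251) (nat_lit 3) (nat_lit 4) (nat_lit 4) (nat_lit 5) (nat_lit 4) (nat_lit 4) (nat_lit 321) (nat_lit 270) (nat_lit 189))) (XT.nd (nat_lit 78) (nat_lit 0) (nat_lit 0) (XT.lf (nat_lit 0) (nat_lit 31735693570) (nat_lit 152) (nat_lit 5209840472334) (nat_lit 0) (nat_lit 7854853332) (nat_lit 1) (nat_lit 5) (nat_lit 3) (nat_lit 4) (nat_lit 1) (nat_lit 4) (nat_lit 322) (nat_lit 270) (nat_lit 188)) (XT.nd (nat_lit 78) (nat_lit 0) (nat_lit 0) (XT.lf (nat_lit 0) (nat_lit 92252151981) (nat_lit 152) (nat_lit 5867309276207) (nat_lit 0) (nat_lit 68371278917) (nat_lit 1) (nat_lit 5) (nat_lit 3) (nat_lit 4) (nat_lit 1) (nat_lit 4) (nat_lit 323) (nat_lit 270) (nat_lit 187)) (XT.lf (nat_lit 0) (nat_lit 161845926666) (nat_lit 152) (nat_lit 6623398719338) (nat_lit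 0) (nat_lit 137965025057) (nat_lit 1) (nat_lit 5) (nat_lit 3) (nat_lit 4) (nat_lit 1) (nat_lit 4) (nat_lit 324) (nat_lit 270) (nat_lit 186))))))))
noncomputable def xc69 : XT := (XT.nd (nat_lit 1560) (nat_lit 0) (nat_lit 0) (XT.nd (nat_lit 780) (nat_lit 0) (nat_lit 0) (XT.nd (nat_lit 390) (nat_lit 0) (nat_lit 0) (XT.nd (nat_lit 156) (nat_lit 0) (nat_lit 0) (XT.nd (nat_lit 78) (nat_lit 0) (nat_lit 0) (XT.lf (nat_lit 0) (nat_lit 241878634955) (nat_lit 152) (nat_lit 7492901856048) (nat_lit 0) (nat_lit 217997708524) (nat_lit 1) (nat_lit 5) (nat_lit 3) (nat_lit 4) (nat_lit 1) (nat_lit 4) (nat_lit 325) (nat_lit 270) (nat_lit 185)) (XT.lf (nat_lit 0) (nat_lit 333916134183) (nat_lit 152) (nat_lit 8492830704229) (nat_lit 0) (nat_lit 310035186169) (nat_lit 1) (nat_lit 5) (nat_lit 3) (nat_lit 4) (nat_lit 1) (nat_lit 4) (nat_lit 326) (nat_lit 270) (nat_lit 184))) (XT.nd (nat_lit 78) (nat_lit 0)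 (nat_lit 0) (XT.lf (nat_lit 0) (nat_lit 439759158032) (nat_lit 152) (nat_lit 9642749089173) (nat_lit 0) (nat_lit 415878191249) (nat_lit 1) (nat_lit 5) (nat_lit 3) (nat_lit 4) (nat_lit 1) (nat_lit 4) (nat_lit 327) (nat_lit 270) (nat_lit 183)) (XT.nd (nat_lit 78) (nat_lit 0) (nat_lit 0) (XT.lf (nat_lit 0) (nat_lit 561478548273) (nat_lit 152) (nat_lit 10965155414062) (nat_lit 0) (nat_lit 537597565169) (nat_lit 1) (nat_lit 5) (nat_lit 3) (nat_lit 4) (nat_lit 1) (nat_lit 4) (nat_lit 328) (nat_lit 270) (nat_lit 182)) (XT.lf (nat_lit 0) (nat_lit 701455771235) (nat_lit 152) (nat_lit 12485922846123) (nat_lit 0) (nat_lit 677574773940) (nat_lit 1) (nat_lit 5) (nat_lit 3) (nat_lit 4) (nat_lit 1) (nat_lit 4) (nat_lit 329) (nat_lit 270) (nat_lit 181))))) (XT.nd (nat_lit 156) (nat_lit 0) (nat_lit 0) (XT.nd (nat_lit 78) (nat_lit 0) (nat_lit 0) (XT.lf (nat_lit 0) (nat_lit 862429511718) (nat_lit 152)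 (nat_lit 14234805530766) (nat_lit 0) (nat_lit 838548502082) (nat_lit 1) (nat_lit 5) (nat_lit 3) (nat_lit 4) (nat_lit 1) (nat_lit 4) (nat_lit 330) (nat_lit 270) (nat_lit 180)) (XT.lf (nat_lit 0) (nat_lit 1047549255946) (nat_lit 152) (nat_lit 16246020737907) (nat_lit 0) (nat_lit 1023668235579) (nat_lit 1) (nat_lit 5) (nat_lit 3) (nat_lit 4) (nat_lit 1) (nat_lit 4) (nat_lit 331) (nat_lit 270) (nat_lit 179))) (XT.nd (nat_lit 78) (nat_lit 0) (nat_lit 0) (XT.lf (nat_lit 0) (nat_lit 1260436911960) (nat_lit 152) (nat_lit 18558918330295) (nat_lit 0) (nat_lit 1236555882261) (nat_lit 1) (nat_lit 5) (nat_lit 3) (nat_lit 4) (nat_lit 1) (nat_lit 4) (nat_lit 332) (nat_lit 270) (nat_lit 178)) (XT.nd (nat_lit 78) (nat_lit 0) (nat_lit 0) (XT.lf (nat_lit 0) (nat_lit 1505257673029) (nat_lit 152) (nat_lit 21218750652130) (nat_lit 0) (nat_lit 1481376635216) (nat_lit 1) (nat_lit 5) (nat_lit 3) (nat_lit 4)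 (nat_lit 1) (nat_lit 4) (nat_lit 333) (nat_lit 270) (nat_lit 177)) (XT.lf (nat_lit 0) (nat_lit 1786801510566) (nat_lit 152) (nat_lit 24277557901011) (nat_lit 0) (nat_lit 1762920465697) (nat_lit 1) (nat_lit 5) (nat_lit 3) (nat_lit 4) (nat_lit 1) (nat_lit 4) (nat_lit 334) (nat_lit 270) (nat_lit 176)))))) (XT.nd (nat_lit 390) (nat_lit 0) (nat_lit 0) (XT.nd (nat_lit 156) (nat_lit 0) (nat_lit 0) (XT.nd (nat_lit 78) (nat_lit 0) (nat_lit 0) (XT.lf (nat_lit 0) (nat_lit 2110576890956) (nat_lit 152) (nat_lit 27795186305722) (nat_lit 0) (nat_lit 2086695839953) (nat_lit 1) (nat_lit 5) (nat_lit 3) (nat_lit 4) (nat_lit 1) (nat_lit 4) (nat_lit 335) (nat_lit 270) (nat_lit 175)) (XT.lf (nat_lit 0) (nat_lit 2482918549905) (nat_lit 152) (nat_lit 31840459030702) (nat_lit 0) (nat_lit 2459037493565) (nat_lit 1) (nat_lit 5) (nat_lit 3) (nat_lit 4) (nat_lit 1) (nat_lit 4) (nat_lit 336) (nat_lit 270) (nat_lit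 174))) (XT.nd (nat_lit 78) (nat_lit 0) (nat_lit 0) (XT.lf (nat_lit 0) (nat_lit 2911111432911) (nat_lit 152) (nat_lit 36492522716223) (nat_lit 0) (nat_lit 2887230371933) (nat_lit 1) (nat_lit 5) (nat_lit 3) (nat_lit 4) (nat_lit 1) (nat_lit 4) (nat_lit 337) (nat_lit 270) (nat_lit 173)) (XT.nd (nat_lit 78) (nat_lit 0) (nat_lit 0) (XT.lf (nat_lit 0) (nat_lit 3403533226818) (nat_lit 152) (nat_lit 41842395999610) (nat_lit 0) (nat_lit 3379652161805) (nat_lit 1) (nat_lit 5) (nat_lit 3) (nat_lit 4) (nat_lit 1) (nat_lit 4) (nat_lit 338) (nat_lit 270) (nat_lit 172)) (XT.lf (nat_lit 0) (nat_lit 3969818271071) (nat_lit 152) (nat_lit 47994750314669) (nat_lit 0) (nat_lit 3945937202550) (nat_lit 1) (nat_lit 5) (nat_lit 3) (nat_lit 4) (nat_lit 1) (nat_lit 4) (nat_lit 339) (nat_lit 270) (nat_lit 171))))) (XT.nd (nat_lit 156) (nat_lit 0) (nat_lit 0) (XT.nd (nat_lit 78) (nat_lit 0) (nat_lit 0) (XT.lf (nat_lit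 0) (nat_lit 4621046055666) (nat_lit 152) (nat_lit 55069957811042) (nat_lit 0) (nat_lit 4597164984095) (nat_lit 1) (nat_lit 5) (nat_lit 3) (nat_lit 4) (nat_lit 1) (nat_lit 4) (nat_lit 340) (nat_lit 270) (nat_lit 170)) (XT.lf (nat_lit 0) (nat_lit 5369957993780) (nat_lit 152) (nat_lit 63206446461485) (nat_lit 0) (nat_lit 5346076919556) (nat_lit 1) (nat_lit 5) (nat_lit 3) (nat_lit 4) (nat_lit 1) (nat_lit 4) (nat_lit 341) (nat_lit 270) (nat_lit 169))) (XT.nd (nat_lit 78) (nat_lit 0) (nat_lit 0) (XT.lf (nat_lit 0) (nat_lit 6231206710289) (nat_lit 152) (nat_lit 72563408435244) (nat_lit 0) (nat_lit 6207325633759) (nat_lit 1) (nat_lit 5) (nat_lit 3) (nat_lit 4) (nat_lit 1) (nat_lit 4) (nat_lit 342) (nat_lit 270) (nat_lit 168)) (XT.nd (nat_lit 78) (nat_lit 0) (nat_lit 0) (XT.lf (nat_lit 0) (nat_lit 7221642723560) (nat_lit 152) (nat_lit 83323914727459) (nat_lit 0) (nat_lit 7197761645024) (nat_lit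 1) (nat_lit 5) (nat_lit 3) (nat_lit 4) (nat_lit 1) (nat_lit 4) (nat_lit 343) (nat_lit 270) (nat_lit 167)) (XT.lf (nat_lit 0) (nat_lit 8360644129505) (nat_lit 152) (nat_lit 95698496982978) (nat_lit 0) (nat_lit 8336763049225) (nat_lit 1) (nat_lit 5) (nat_lit 3) (nat_lit 4) (nat_lit 1) (nat_lit 4) (nat_lit 344) (nat_lit 270) (nat_lit 166))))))) (XT.nd (nat_lit 35256) (nat_lit 0) (nat_lit 988) (XT.nd (nat_lit 34866) (nat_lit 0) (nat_lit 1824) (XT.nd (nat_lit 468) (nat_lit 0) (nat_lit 0) (XT.nd (nat_lit 390) (nat_lit 0) (nat_lit 0) (XT.lf (nat_lit 0) (nat_lit 9670495738240) (nat_lit 152) (nat_lit 109929266593756) (nat_lit 0) (nat_lit 9646614656443) (nat_lit 1) (nat_lit 5) (nat_lit 3) (nat_lit 4) (nat_lit 1) (nat_lit 4) (nat_lit 345) (nat_lit 270) (nat_lit 165)) (XT.lf (nat_lit 0) (nat_lit 19826742393730) (nat_lit 152) (nat_lit 220270932151137) (nat_lit 0) (nat_lit 19802861306849) (nat_lit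 1) (nat_lit 5) (nat_lit 3) (nat_lit 4) (nat_lit 1) (nat_lit 4) (nat_lit 350) (nat_lit 270) (nat_lit 160))) (XT.nd (nat_lit 78) (nat_lit 0) (nat_lit 0) (XT.lf (nat_lit 0) (nat_lit 22856508711437) (nat_lit 152) (nat_lit 253187567101216) (nat_lit 0) (nat_lit 22832627623900) (nat_lit 1) (nat_lit 5) (nat_lit 3) (nat_lit 4) (nat_lit 1) (nat_lit 4) (nat_lit 351) (nat_lit 270) (nat_lit 159)) (XT.nd (nat_lit 78) (nat_lit 0) (nat_lit 0) (XT.lf (nat_lit 0) (nat_lit 26340739973754) (nat_lit 152) (nat_lit 291041697300172) (nat_lit 0) (nat_lit 26316858885648) (nat_lit 1) (nat_lit 5) (nat_lit 3) (nat_lit 4) (nat_lit 1) (nat_lit 4) (nat_lit 352) (nat_lit 270) (nat_lit 158)) (XT.lf (nat_lit 0) (nat_lit 30347605922770) (nat_lit 152) (nat_lit 334573947034506) (nat_lit 0) (nat_lit 30323724834168) (nat_lit 1) (nat_lit 5) (nat_lit 3) (nat_lit 4) (nat_lit 1) (nat_lit 4) (nat_lit 353) (nat_lit 270) (nat_lit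 157))))) (XT.nd (nat_lit 156) (nat_lit 0) (nat_lit 76) (XT.nd (nat_lit 78) (nat_lit 0) (nat_lit 0) (XT.lf (nat_lit 0) (nat_lit 1529657605) (nat_lit 380) (nat_lit 3993690338) (nat_lit 380) (nat_lit 3993690338) (nat_lit 25) (nat_lit 3) (nat_lit 30) (nat_lit 3) (nat_lit 30) (nat_lit 5) (nat_lit 271) (nat_lit 271) (nat_lit 238)) (XT.lf (nat_lit 76) (nat_lit 1199478096) (nat_lit 0) (nat_lit 2306204499) (nat_lit 380) (nat_lit 16922969646) (nat_lit 26) (nat_lit 5) (nat_lit 25) (nat_lit 3) (nat_lit 30) (nat_lit 5) (nat_lit 272) (nat_lit 271) (nat_lit 237))) (XT.nd (nat_lit 78) (nat_lit 0) (nat_lit 0) (XT.lf (nat_lit 0) (nat_lit 4747053639) (nat_lit 304) (nat_lit 9672336412) (nat_lit 380) (nat_lit 7503895680) (nat_lit 26) (nat_lit 5) (nat_lit 30) (nat_lit 5) (nat_lit 31) (nat_lit 5) (nat_lit 273) (nat_lit 271) (nat_lit 236)) (XT.nd (nat_lit 78) (nat_lit 0) (nat_lit 76) (XT.lf (nat_lit 76) (nat_lit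 1303384976) (nat_lit 0) (nat_lit 5008883283) (nat_lit 380) (nat_lit 17309268772) (nat_lit 27) (nat_lit 5) (nat_lit 26) (nat_lit 5) (nat_lit 31) (nat_lit 5) (nat_lit 274) (nat_lit 271) (nat_lit 235)) (XT.lf (nat_lit 0) (nat_lit 8859239037) (nat_lit 304) (nat_lit 10774627749) (nat_lit 76) (nat_lit 5828672689) (nat_lit 27) (nat_lit 5) (nat_lit 31) (nat_lit 5) (nat_lit 28) (nat_lit 5) (nat_lit 275) (nat_lit 271) (nat_lit 234)))))) (XT.nd (nat_lit 390) (nat_lit 456) (nat_lit 0) (XT.nd (nat_lit 156) (nat_lit 228) (nat_lit 0) (XT.nd (nat_lit 78) (nat_lit 0) (nat_lit 0) (XT.lf (nat_lit 0) (nat_lit 2460375682) (nat_lit 304) (nat_lit 9647917086) (nat_lit 380) (nat_lit 15423445691) (nat_lit 23) (nat_lit 5) (nat_lit 27) (nat_lit 5) (nat_lit 28) (nat_lit 5) (nat_lit 276) (nat_lit 271) (nat_lit 233)) (XT.lf (nat_lit 0) (nat_lit 16492201848) (nat_lit 380) (nat_lit 11060537437) (nat_lit 76) (nat_lit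 2261498437) (nat_lit 23) (nat_lit 5) (nat_lit 28) (nat_lit 5) (nat_lit 24) (nat_lit 5) (nat_lit 277) (nat_lit 271) (nat_lit 232))) (XT.nd (nat_lit 78) (nat_lit 76) (nat_lit 0) (XT.lf (nat_lit 0) (nat_lit 5019904875) (nat_lit 152) (nat_lit 17164938338) (nat_lit 228) (nat_lit 10156635923) (nat_lit 21) (nat_lit 5) (nat_lit 23) (nat_lit 5) (nat_lit 24) (nat_lit 5) (nat_lit 278) (nat_lit 271) (nat_lit 231)) (XT.nd (nat_lit 78) (nat_lit 76) (nat_lit 0) (XT.lf (nat_lit 0) (nat_lit 24736864123) (nat_lit 152) (nat_lit 4557874063) (nat_lit 228) (nat_lit 5868599009) (nat_lit 21) (nat_lit 5) (nat_lit 23) (nat_lit 5) (nat_lit 24) (nat_lit 5) (nat_lit 279) (nat_lit 271) (nat_lit 230)) (XT.lf (nat_lit 0) (nat_lit 9411132000) (nat_lit 76) (nat_lit 28848272480) (nat_lit 152) (nat_lit 30856023) (nat_lit 20) (nat_lit 5) (nat_lit 21) (nat_lit 5) (nat_lit 22) (nat_lit 4) (nat_lit 280) (nat_lit 271) (nat_lit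 229))))) (XT.nd (nat_lit 234) (nat_lit 228) (nat_lit 0) (XT.nd (nat_lit 78) (nat_lit 152) (nat_lit 0) (XT.lf (nat_lit 0) (nat_lit 6863014135) (nat_lit 152) (nat_lit 8946441646) (nat_lit 76) (nat_lit 25918973541) (nat_lit 19) (nat_lit 5) (nat_lit 21) (nat_lit 5) (nat_lit 20) (nat_lit 5) (nat_lit 281) (nat_lit 271) (nat_lit 228)) (XT.nd (nat_lit 78) (nat_lit 0) (nat_lit 0) (XT.lf (nat_lit 0) (nat_lit 15322785730) (nat_lit 152) (nat_lit 88527595) (nat_lit 228) (nat_lit 30177283067) (nat_lit 17) (nat_lit 5) (nat_lit 19) (nat_lit 5) (nat_lit 20) (nat_lit 5) (nat_lit 282) (nat_lit 271) (nat_lit 227)) (XT.lf (nat_lit 0) (nat_lit 26466340845) (nat_lit 228) (nat_lit 6503640330) (nat_lit 76) (nat_lit 16874151754) (nat_lit 17) (nat_lit 5) (nat_lit 20) (nat_lit 5) (nat_lit 18) (nat_lit 4) (nat_lit 283) (nat_lit 271) (nat_lit 226)))) (XT.nd (nat_lit 78) (nat_lit 152) (nat_lit 0) (XT.lf (nat_lit 0)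 (nat_lit 22837308914) (nat_lit 76) (nat_lit 17283138117) (nat_lit 152) (nat_lit 14476443954) (nat_lit 16) (nat_lit 5) (nat_lit 17) (nat_lit 5) (nat_lit 18) (nat_lit 4) (nat_lit 284) (nat_lit 271) (nat_lit 225)) (XT.nd (nat_lit 78) (nat_lit 152) (nat_lit 0) (XT.lf (nat_lit 0) (nat_lit 56201504145) (nat_lit 152) (nat_lit 2763633569) (nat_lit 0) (nat_lit 1040612583) (nat_lit 16) (nat_lit 5) (nat_lit 18) (nat_lit 4) (nat_lit 16) (nat_lit 4) (nat_lit 285) (nat_lit 271) (nat_lit 224)) (XT.lf (nat_lit 0) (nat_lit 9985603448) (nat_lit 152) (nat_lit 33701956126) (nat_lit 76) (nat_lit 22145171743) (nat_lit 14) (nat_lit 5) (nat_lit 16) (nat_lit 5) (nat_lit 15) (nat_lit 4) (nat_lit 286) (nat_lit 271) (nat_lit 223))))))))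
noncomputable def xc70 : XT := (XT.nd (nat_lit 1560) (nat_lit 228) (nat_lit 0) (XT.nd (nat_lit 780) (nat_lit 228) (nat_lit 0) (XT.nd (nat_lit 390) (nat_lit 304) (nat_lit 0) (XT.nd (nat_lit 156) (nat_lit 152) (nat_lit 0) (XT.nd (nat_lit 78) (nat_lit 76) (nat_lit 0) (XT.lf (nat_lit 0) (nat_lit 25598392816) (nat_lit 152) (nat_lit 143252010) (nat_lit 76) (nat_lit 46743358191) (nat_lit 14) (nat_lit 5) (nat_lit 16) (nat_lit 5) (nat_lit 15) (nat_lit 4) (nat_lit 287) (nat_lit 271) (nat_lit 222)) (XT.lf (nat_lit 0) (nat_lit 42194324665) (nat_lit 76) (nat_lit 3099520608) (nat_lit 152) (nat_lit 34580165814) (nat_lit 13) (nat_lit 5) (nat_lit 14) (nat_lit 5) (nat_lit 15) (nat_lit 4) (nat_lit 288) (nat_lit 271) (nat_lit 221))) (XT.nd (nat_lit 78) (nat_lit 76) (nat_lit 0) (XT.lf (nat_lit 0) (nat_lit 1719722558) (nat_lit 76) (nat_lit 67246558265) (nat_lit 76) (nat_lit 19251696123) (nat_lit 12) (nat_lit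 4) (nat_lit 13) (nat_lit 5) (nat_lit 13) (nat_lit 4) (nat_lit 289) (nat_lit 271) (nat_lit 220)) (XT.nd (nat_lit 78) (nat_lit 0) (nat_lit 0) (XT.lf (nat_lit 0) (nat_lit 725457908) (nat_lit 152) (nat_lit 46440155080) (nat_lit 76) (nat_lit 50327290478) (nat_lit 11) (nat_lit 5) (nat_lit 13) (nat_lit 5) (nat_lit 12) (nat_lit 4) (nat_lit 290) (nat_lit 271) (nat_lit 219)) (XT.lf (nat_lit 0) (nat_lit 21722813258) (nat_lit 152) (nat_lit 1300212763) (nat_lit 76) (nat_lit 84999339729) (nat_lit 11) (nat_lit 5) (nat_lit 13) (nat_lit 5) (nat_lit 12) (nat_lit 4) (nat_lit 291) (nat_lit 271) (nat_lit 218))))) (XT.nd (nat_lit 156) (nat_lit 228) (nat_lit 0) (XT.nd (nat_lit 78) (nat_lit 0) (nat_lit 0) (XT.lf (nat_lit 0) (nat_lit 48470863170) (nat_lit 152) (nat_lit 64545502498) (nat_lit 0) (nat_lit 6724721659) (nat_lit 10) (nat_lit 5) (nat_lit 12) (nat_lit 4) (nat_lit 10) (nat_lit 4) (nat_lit 292) (nat_lit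 271) (nat_lit 217)) (XT.lf (nat_lit 0) (nat_lit 80394087132) (nat_lit 152) (nat_lit 14004017023) (nat_lit 0) (nat_lit 38645071166) (nat_lit 10) (nat_lit 5) (nat_lit 12) (nat_lit 4) (nat_lit 10) (nat_lit 4) (nat_lit 293) (nat_lit 271) (nat_lit 216))) (XT.nd (nat_lit 78) (nat_lit 152) (nat_lit 0) (XT.lf (nat_lit 0) (nat_lit 48421793336) (nat_lit 76) (nat_lit 70685070523) (nat_lit 76) (nat_lit 28933555030) (nat_lit 9) (nat_lit 4) (nat_lit 10) (nat_lit 5) (nat_lit 10) (nat_lit 4) (nat_lit 294) (nat_lit 271) (nat_lit 215)) (XT.nd (nat_lit 78) (nat_lit 152) (nat_lit 0) (XT.lf (nat_lit 0) (nat_lit 121777946831) (nat_lit 76) (nat_lit 42576876784) (nat_lit 76) (nat_lit 823187790) (nat_lit 9) (nat_lit 4) (nat_lit 10) (nat_lit 5) (nat_lit 10) (nat_lit 4) (nat_lit 295) (nat_lit 271) (nat_lit 214)) (XT.lf (nat_lit 0) (nat_lit 21888699399) (nat_lit 76) (nat_lit 7713290551) (nat_lit 152) (nat_lit 154953138930)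 (nat_lit 7) (nat_lit 5) (nat_lit 8) (nat_lit 5) (nat_lit 9) (nat_lit 4) (nat_lit 296) (nat_lit 271) (nat_lit 213)))))) (XT.nd (nat_lit 390) (nat_lit 152) (nat_lit 0) (XT.nd (nat_lit 156) (nat_lit 76) (nat_lit 0) (XT.nd (nat_lit 78) (nat_lit 0) (nat_lit 0) (XT.lf (nat_lit 0) (nat_lit 68220734204) (nat_lit 152) (nat_lit 106144985179) (nat_lit 0) (nat_lit 31910105965) (nat_lit 7) (nat_lit 5) (nat_lit 9) (nat_lit 4) (nat_lit 7) (nat_lit 4) (nat_lit 297) (nat_lit 271) (nat_lit 212)) (XT.lf (nat_lit 0) (nat_lit 112996649242) (nat_lit 152) (nat_lit 41518546241) (nat_lit 0) (nat_lit 76684778297) (nat_lit 7) (nat_lit 5) (nat_lit 9) (nat_lit 4) (nat_lit 7) (nat_lit 4) (nat_lit 298) (nat_lit 271) (nat_lit 211))) (XT.nd (nat_lit 78) (nat_lit 0) (nat_lit 0) (XT.lf (nat_lit 0) (nat_lit 36001841455) (nat_lit 76) (nat_lit 129975312690) (nat_lit 76) (nat_lit 93662361131) (nat_lit 6) (nat_lit 4) (nat_lit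 7) (nat_lit 5) (nat_lit 7) (nat_lit 4) (nat_lit 299) (nat_lit 271) (nat_lit 210)) (XT.nd (nat_lit 78) (nat_lit 0) (nat_lit 0) (XT.lf (nat_lit 0) (nat_lit 129811489866) (nat_lit 76) (nat_lit 99261105640) (nat_lit 76) (nat_lit 62947214416) (nat_lit 6) (nat_lit 4) (nat_lit 7) (nat_lit 5) (nat_lit 7) (nat_lit 4) (nat_lit 300) (nat_lit 271) (nat_lit 209)) (XT.lf (nat_lit 0) (nat_lit 237688310863) (nat_lit 76) (nat_lit 63941931839) (nat_lit 76) (nat_lit 27627223515) (nat_lit 6) (nat_lit 4) (nat_lit 7) (nat_lit 5) (nat_lit 7) (nat_lit 4) (nat_lit 301) (nat_lit 271) (nat_lit 208))))) (XT.nd (nat_lit 156) (nat_lit 0) (nat_lit 0) (XT.nd (nat_lit 78) (nat_lit 76) (nat_lit 0) (XT.lf (nat_lit 0) (nat_lit 11832314995) (nat_lit 152) (nat_lit 10875941604) (nat_lit 76) (nat_lit 349292115532) (nat_lit 5) (nat_lit 5) (nat_lit 7) (nat_lit 5) (nat_lit 6) (nat_lit 4) (nat_lit 302) (nat_lit 271) (nat_lit 207))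 (XT.lf (nat_lit 0) (nat_lit 59304597336) (nat_lit 152) (nat_lit 333188997702) (nat_lit 0) (nat_lit 27725434997) (nat_lit 4) (nat_lit 5) (nat_lit 6) (nat_lit 4) (nat_lit 4) (nat_lit 4) (nat_lit 303) (nat_lit 271) (nat_lit 206))) (XT.nd (nat_lit 78) (nat_lit 0) (nat_lit 0) (XT.lf (nat_lit 0) (nat_lit 115572997937) (nat_lit 152) (nat_lit 275852829400) (nat_lit 0) (nat_lit 83993368418) (nat_lit 4) (nat_lit 5) (nat_lit 6) (nat_lit 4) (nat_lit 4) (nat_lit 4) (nat_lit 304) (nat_lit 271) (nat_lit 205)) (XT.nd (nat_lit 78) (nat_lit 0) (nat_lit 0) (XT.lf (nat_lit 0) (nat_lit 180280217825) (nat_lit 152) (nat_lit 209919203011) (nat_lit 0) (nat_lit 148700182063) (nat_lit 4) (nat_lit 5) (nat_lit 6) (nat_lit 4) (nat_lit 4) (nat_lit 4) (nat_lit 305) (nat_lit 271) (nat_lit 204)) (XT.lf (nat_lit 0) (nat_lit 254692267824) (nat_lit 152) (nat_lit 134098112802) (nat_lit 0) (nat_lit 223111878808) (nat_lit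 4) (nat_lit 5) (nat_lit 6) (nat_lit 4) (nat_lit 4) (nat_lit 4) (nat_lit 306) (nat_lit 271) (nat_lit 203))))))) (XT.nd (nat_lit 780) (nat_lit 152) (nat_lit 0) (XT.nd (nat_lit 390) (nat_lit 0) (nat_lit 0) (XT.nd (nat_lit 156) (nat_lit 0) (nat_lit 0) (XT.nd (nat_lit 78) (nat_lit 76) (nat_lit 0) (XT.lf (nat_lit 0) (nat_lit 340265035870) (nat_lit 152) (nat_lit 46906102660) (nat_lit 0) (nat_lit 308684339676) (nat_lit 4) (nat_lit 5) (nat_lit 6) (nat_lit 4) (nat_lit 4) (nat_lit 4) (nat_lit 307) (nat_lit 271) (nat_lit 202)) (XT.lf (nat_lit 0) (nat_lit 58577754857) (nat_lit 76) (nat_lit 382520596825) (nat_lit 76) (nat_lit 350939633520) (nat_lit 3) (nat_lit 4) (nat_lit 4) (nat_lit 5) (nat_lit 4) (nat_lit 4) (nat_lit 308) (nat_lit 271) (nat_lit 201))) (XT.nd (nat_lit 78) (nat_lit 0) (nat_lit 0) (XT.lf (nat_lit 0) (nat_lit 185153935037) (nat_lit 76) (nat_lit 374353738846) (nat_lit 76) (nat_lit 342772543269)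 (nat_lit 3) (nat_lit 4) (nat_lit 4) (nat_lit 5) (nat_lit 4) (nat_lit 4) (nat_lit 309) (nat_lit 271) (nat_lit 200)) (XT.nd (nat_lit 78) (nat_lit 0) (nat_lit 0) (XT.lf (nat_lit 0) (nat_lit 330714922873) (nat_lit 76) (nat_lit 364962688151) (nat_lit 76) (nat_lit 333381290600) (nat_lit 3) (nat_lit 4) (nat_lit 4) (nat_lit 5) (nat_lit 4) (nat_lit 4) (nat_lit 310) (nat_lit 271) (nat_lit 199)) (XT.lf (nat_lit 0) (nat_lit 498108650738) (nat_lit 76) (nat_lit 354163706793) (nat_lit 76) (nat_lit 322582133612) (nat_lit 3) (nat_lit 4) (nat_lit 4) (nat_lit 5) (nat_lit 4) (nat_lit 4) (nat_lit 311) (nat_lit 271) (nat_lit 198))))) (XT.nd (nat_lit 156) (nat_lit 0) (nat_lit 0) (XT.nd (nat_lit 78) (nat_lit 0) (nat_lit 0) (XT.lf (nat_lit 0) (nat_lit 690610213306) (nat_lit 76) (nat_lit 341745510353) (nat_lit 76) (nat_lit 310163784451) (nat_lit 3) (nat_lit 4) (nat_lit 4) (nat_lit 5) (nat_lit 4) (nat_lit 4) (nat_lit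 312) (nat_lit 271) (nat_lit 197)) (XT.lf (nat_lit 0) (nat_lit 911985945497) (nat_lit 76) (nat_lit 327465134119) (nat_lit 76) (nat_lit 295883275415) (nat_lit 3) (nat_lit 4) (nat_lit 4) (nat_lit 5) (nat_lit 4) (nat_lit 4) (nat_lit 313) (nat_lit 271) (nat_lit 196))) (XT.nd (nat_lit 78) (nat_lit 0) (nat_lit 0) (XT.lf (nat_lit 0) (nat_lit 1166567111637) (nat_lit 76) (nat_lit 311043179425) (nat_lit 76) (nat_lit 279461205242) (nat_lit 3) (nat_lit 4) (nat_lit 4) (nat_lit 5) (nat_lit 4) (nat_lit 4) (nat_lit 314) (nat_lit 271) (nat_lit 195)) (XT.nd (nat_lit 78) (nat_lit 0) (nat_lit 0) (XT.lf (nat_lit 0) (nat_lit 1459334647584) (nat_lit 76) (nat_lit 292158347158) (nat_lit 76) (nat_lit 260576272558) (nat_lit 3) (nat_lit 4) (nat_lit 4) (nat_lit 5) (nat_lit 4) (nat_lit 4) (nat_lit 315) (nat_lit 271) (nat_lit 194)) (XT.lf (nat_lit 0) (nat_lit 1796016613825) (nat_lit 76) (nat_lit 270441151469) (nat_lit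 76) (nat_lit 238858989550) (nat_lit 3) (nat_lit 4) (nat_lit 4) (nat_lit 5) (nat_lit 4) (nat_lit 4) (nat_lit 316) (nat_lit 271) (nat_lit 193)))))) (XT.nd (nat_lit 390) (nat_lit 152) (nat_lit 0) (XT.nd (nat_lit 156) (nat_lit 0) (nat_lit 0) (XT.nd (nat_lit 78) (nat_lit 0) (nat_lit 0) (XT.lf (nat_lit 0) (nat_lit 2183200266222) (nat_lit 76) (nat_lit 245466690704) (nat_lit 76) (nat_lit 213884452854) (nat_lit 3) (nat_lit 4) (nat_lit 4) (nat_lit 5) (nat_lit 4) (nat_lit 4) (nat_lit 317) (nat_lit 271) (nat_lit 192)) (XT.lf (nat_lit 0) (nat_lit 2628460937103) (nat_lit 76) (nat_lit 216746334107) (nat_lit 76) (nat_lit 185164030232) (nat_lit 3) (nat_lit 4) (nat_lit 4) (nat_lit 5) (nat_lit 4) (nat_lit 4) (nat_lit 318) (nat_lit 271) (nat_lit 191))) (XT.nd (nat_lit 78) (nat_lit 0) (nat_lit 0) (XT.lf (nat_lit 0) (nat_lit 3140510248290) (nat_lit 76) (nat_lit 183718161659) (nat_lit 76) (nat_lit 152135800370)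 (nat_lit 3) (nat_lit 4) (nat_lit 4) (nat_lit 5) (nat_lit 4) (nat_lit 4) (nat_lit 319) (nat_lit 271) (nat_lit 190)) (XT.nd (nat_lit 78) (nat_lit 0) (nat_lit 0) (XT.lf (nat_lit 0) (nat_lit 3729366555872) (nat_lit 76) (nat_lit 145735969985) (nat_lit 76) (nat_lit 114153558771) (nat_lit 3) (nat_lit 4) (nat_lit 4) (nat_lit 5) (nat_lit 4) (nat_lit 4) (nat_lit 320) (nat_lit 271) (nat_lit 189)) (XT.lf (nat_lit 0) (nat_lit 4406550961518) (nat_lit 76) (nat_lit 102056629250) (nat_lit 76) (nat_lit 70474174623) (nat_lit 3) (nat_lit 4) (nat_lit 4) (nat_lit 5) (nat_lit 4) (nat_lit 4) (nat_lit 321) (nat_lit 271) (nat_lit 188))))) (XT.nd (nat_lit 156) (nat_lit 0) (nat_lit 0) (XT.nd (nat_lit 78) (nat_lit 152) (nat_lit 0) (XT.lf (nat_lit 0) (nat_lit 5185312725339) (nat_lit 76) (nat_lit 51825543655) (nat_lit 76) (nat_lit 20243051277) (nat_lit 3) (nat_lit 4) (nat_lit 4) (nat_lit 5) (nat_lit 4) (nat_lit 4)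 (nat_lit 322) (nat_lit 271) (nat_lit 187)) (XT.lf (nat_lit 0) (nat_lit 36497689518) (nat_lit 152) (nat_lit 5991313111856) (nat_lit 0) (nat_lit 9034624123) (nat_lit 1) (nat_lit 5) (nat_lit 3) (nat_lit 4) (nat_lit 1) (nat_lit 4) (nat_lit 323) (nat_lit 271) (nat_lit 186))) (XT.nd (nat_lit 78) (nat_lit 0) (nat_lit 0) (XT.lf (nat_lit 0) (nat_lit 106091402529) (nat_lit 152) (nat_lit 6747402683875) (nat_lit 0) (nat_lit 78628312312) (nat_lit 1) (nat_lit 5) (nat_lit 3) (nat_lit 4) (nat_lit 1) (nat_lit 4) (nat_lit 324) (nat_lit 271) (nat_lit 185)) (XT.nd (nat_lit 78) (nat_lit 0) (nat_lit 0) (XT.lf (nat_lit 0) (nat_lit 186124057188) (nat_lit 152) (nat_lit 7616905932662) (nat_lit 0) (nat_lit 158660945387) (nat_lit 1) (nat_lit 5) (nat_lit 3) (nat_lit 4) (nat_lit 1) (nat_lit 4) (nat_lit 325) (nat_lit 271) (nat_lit 184)) (XT.lf (nat_lit 0) (nat_lit 278161509782) (nat_lit 152) (nat_lit 8616834878301)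 (nat_lit 0) (nat_lit 250698379213) (nat_lit 1) (nat_lit 5) (nat_lit 3) (nat_lit 4) (nat_lit 1) (nat_lit 4) (nat_lit 326) (nat_lit 271) (nat_lit 183))))))))
noncomputable def xc71 : XT := (XT.nd (nat_lit 1872) (nat_lit 0) (nat_lit 0) (XT.nd (nat_lit 780) (nat_lit 0) (nat_lit 0) (XT.nd (nat_lit 390) (nat_lit 0) (nat_lit 0) (XT.nd (nat_lit 156) (nat_lit 0) (nat_lit 0) (XT.nd (nat_lit 78) (nat_lit 0) (nat_lit 0) (XT.lf (nat_lit 0) (nat_lit 384004493079) (nat_lit 152) (nat_lit 9766753347991) (nat_lit 0) (nat_lit 356541346190) (nat_lit 1) (nat_lit 5) (nat_lit 3) (nat_lit 4) (nat_lit 1) (nat_lit 4) (nat_lit 327) (nat_lit 271) (nat_lit 182)) (XT.lf (nat_lit 0) (nat_lit 505723848058) (nat_lit 152) (nat_lit 11089159746572) (nat_lit 0) (nat_lit 478260686976) (nat_lit 1) (nat_lit 5) (nat_lit 3) (nat_lit 4) (nat_lit 1) (nat_lit 4) (nat_lit 328) (nat_lit 271) (nat_lit 181))) (XT.nd (nat_lit 78) (nat_lit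 0) (nat_lit 0) (XT.lf (nat_lit 0) (nat_lit 645701040358) (nat_lit 152) (nat_lit 12609927242714) (nat_lit 0) (nat_lit 618237866935) (nat_lit 1) (nat_lit 5) (nat_lit 3) (nat_lit 4) (nat_lit 1) (nat_lit 4) (nat_lit 329) (nat_lit 271) (nat_lit 180)) (XT.nd (nat_lit 78) (nat_lit 0) (nat_lit 0) (XT.lf (nat_lit 0) (nat_lit 806674754176) (nat_lit 152) (nat_lit 14358809983078) (nat_lit 0) (nat_lit 779211570023) (nat_lit 1) (nat_lit 5) (nat_lit 3) (nat_lit 4) (nat_lit 1) (nat_lit 4) (nat_lit 330) (nat_lit 271) (nat_lit 179)) (XT.lf (nat_lit 0) (nat_lit 991794475219) (nat_lit 152) (nat_lit 16370025238673) (nat_lit 0) (nat_lit 964331281735) (nat_lit 1) (nat_lit 5) (nat_lit 3) (nat_lit 4) (nat_lit 1) (nat_lit 4) (nat_lit 331) (nat_lit 271) (nat_lit 178))))) (XT.nd (nat_lit 156) (nat_lit 0) (nat_lit 0) (XT.nd (nat_lit 78) (nat_lit 0) (nat_lit 0) (XT.lf (nat_lit 0) (nat_lit 1204682111072) (nat_lit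 152) (nat_lit 18682922873195) (nat_lit 0) (nat_lit 1177218909473) (nat_lit 1) (nat_lit 5) (nat_lit 3) (nat_lit 4) (nat_lit 1) (nat_lit 4) (nat_lit 332) (nat_lit 271) (nat_lit 177)) (XT.lf (nat_lit 0) (nat_lit 1449502854610) (nat_lit 152) (nat_lit 21342755231668) (nat_lit 0) (nat_lit 1422039645955) (nat_lit 1) (nat_lit 5) (nat_lit 3) (nat_lit 4) (nat_lit 1) (nat_lit 4) (nat_lit 333) (nat_lit 271) (nat_lit 176))) (XT.nd (nat_lit 78) (nat_lit 0) (nat_lit 0) (XT.lf (nat_lit 0) (nat_lit 1731046676901) (nat_lit 152) (nat_lit 24401562512408) (nat_lit 0) (nat_lit 1703583462111) (nat_lit 1) (nat_lit 5) (nat_lit 3) (nat_lit 4) (nat_lit 1) (nat_lit 4) (nat_lit 334) (nat_lit 271) (nat_lit 175)) (XT.nd (nat_lit 78) (nat_lit 0) (nat_lit 0) (XT.lf (nat_lit 0) (nat_lit 2054822044036) (nat_lit 152) (nat_lit 27919190944823) (nat_lit 0) (nat_lit 2027358823910) (nat_lit 1) (nat_lit 5) (nat_lit 3) (nat_lit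 4) (nat_lit 1) (nat_lit 4) (nat_lit 335) (nat_lit 271) (nat_lit 174)) (XT.lf (nat_lit 0) (nat_lit 2427163691457) (nat_lit 152) (nat_lit 31964463693893) (nat_lit 0) (nat_lit 2399700466692) (nat_lit 1) (nat_lit 5) (nat_lit 3) (nat_lit 4) (nat_lit 1) (nat_lit 4) (nat_lit 336) (nat_lit 271) (nat_lit 173)))))) (XT.nd (nat_lit 390) (nat_lit 0) (nat_lit 0) (XT.nd (nat_lit 156) (nat_lit 0) (nat_lit 0) (XT.nd (nat_lit 78) (nat_lit 0) (nat_lit 0) (XT.lf (nat_lit 0) (nat_lit 2855356564440) (nat_lit 152) (nat_lit 36616527400362) (nat_lit 0) (nat_lit 2827893335641) (nat_lit 1) (nat_lit 5) (nat_lit 3) (nat_lit 4) (nat_lit 1) (nat_lit 4) (nat_lit 337) (nat_lit 271) (nat_lit 172)) (XT.lf (nat_lit 0) (nat_lit 3347778349630) (nat_lit 152) (nat_lit 41966400701965) (nat_lit 0) (nat_lit 3320315117323) (nat_lit 1) (nat_lit 5) (nat_lit 3) (nat_lit 4) (nat_lit 1) (nat_lit 4) (nat_lit 338) (nat_lit 271) (nat_lit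 171))) (XT.nd (nat_lit 78) (nat_lit 0) (nat_lit 0) (XT.lf (nat_lit 0) (nat_lit 3914063386304) (nat_lit 152) (nat_lit 48118755032864) (nat_lit 0) (nat_lit 3886600150946) (nat_lit 1) (nat_lit 5) (nat_lit 3) (nat_lit 4) (nat_lit 1) (nat_lit 4) (nat_lit 339) (nat_lit 271) (nat_lit 170)) (XT.nd (nat_lit 78) (nat_lit 0) (nat_lit 0) (XT.lf (nat_lit 0) (nat_lit 4565291164308) (nat_lit 152) (nat_lit 55193962543010) (nat_lit 0) (nat_lit 4537827926298) (nat_lit 1) (nat_lit 5) (nat_lit 3) (nat_lit 4) (nat_lit 1) (nat_lit 4) (nat_lit 340) (nat_lit 271) (nat_lit 169)) (XT.lf (nat_lit 0) (nat_lit 5314203096691) (nat_lit 152) (nat_lit 63330451205430) (nat_lit 0) (nat_lit 5286739856374) (nat_lit 1) (nat_lit 5) (nat_lit 3) (nat_lit 4) (nat_lit 1) (nat_lit 4) (nat_lit 341) (nat_lit 271) (nat_lit 168))))) (XT.nd (nat_lit 156) (nat_lit 0) (nat_lit 0) (XT.nd (nat_lit 78) (nat_lit 0) (nat_lit 0) (XT.lf (nat_lit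 0) (nat_lit 6175451808217) (nat_lit 152) (nat_lit 72687413189604) (nat_lit 0) (nat_lit 6147988565894) (nat_lit 1) (nat_lit 5) (nat_lit 3) (nat_lit 4) (nat_lit 1) (nat_lit 4) (nat_lit 342) (nat_lit 271) (nat_lit 167)) (XT.lf (nat_lit 0) (nat_lit 7165887817154) (nat_lit 152) (nat_lit 83447919490876) (nat_lit 0) (nat_lit 7138424573088) (nat_lit 1) (nat_lit 5) (nat_lit 3) (nat_lit 4) (nat_lit 1) (nat_lit 4) (nat_lit 343) (nat_lit 271) (nat_lit 166))) (XT.nd (nat_lit 78) (nat_lit 0) (nat_lit 0) (XT.lf (nat_lit 0) (nat_lit 8304889219331) (nat_lit 152) (nat_lit 95822501754269) (nat_lit 0) (nat_lit 8277425973748) (nat_lit 1) (nat_lit 5) (nat_lit 3) (nat_lit 4) (nat_lit 1) (nat_lit 4) (nat_lit 344) (nat_lit 271) (nat_lit 165)) (XT.nd (nat_lit 390) (nat_lit 0) (nat_lit 0) (XT.lf (nat_lit 0) (nat_lit 9614740824788) (nat_lit 152) (nat_lit 110053271371895) (nat_lit 0) (nat_lit 9587277577887) (nat_lit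 1) (nat_lit 5) (nat_lit 3) (nat_lit 4) (nat_lit 1) (nat_lit 4) (nat_lit 345) (nat_lit 271) (nat_lit 164)) (XT.lf (nat_lit 0) (nat_lit 19770987469294) (nat_lit 152) (nat_lit 220394936952232) (nat_lit 0) (nat_lit 19743524217972) (nat_lit 1) (nat_lit 5) (nat_lit 3) (nat_lit 4) (nat_lit 1) (nat_lit 4) (nat_lit 350) (nat_lit 271) (nat_lit 159))))))) (XT.nd (nat_lit 35100) (nat_lit 0) (nat_lit 836) (XT.nd (nat_lit 34710) (nat_lit 0) (nat_lit 1520) (XT.nd (nat_lit 34476) (nat_lit 0) (nat_lit 1824) (XT.nd (nat_lit 78) (nat_lit 0) (nat_lit 0) (XT.lf (nat_lit 0) (nat_lit 22800753785584) (nat_lit 152) (nat_lit 253311571905271) (nat_lit 0) (nat_lit 22773290533692) (nat_lit 1) (nat_lit 5) (nat_lit 3) (nat_lit 4) (nat_lit 1) (nat_lit 4) (nat_lit 351) (nat_lit 271) (nat_lit 158)) (XT.lf (nat_lit 0) (nat_lit 26284985046670) (nat_lit 152) (nat_lit 291165702106802) (nat_lit 0) (nat_lit 26257521794281)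 (nat_lit 1) (nat_lit 5) (nat_lit 3) (nat_lit 4) (nat_lit 1) (nat_lit 4) (nat_lit 352) (nat_lit 271) (nat_lit 157))) (XT.nd (nat_lit 78) (nat_lit 0) (nat_lit 0) (XT.lf (nat_lit 0) (nat_lit 1919431656) (nat_lit 380) (nat_lit 4500344807) (nat_lit 380) (nat_lit 4500344807) (nat_lit 25) (nat_lit 3) (nat_lit 30) (nat_lit 3) (nat_lit 30) (nat_lit 5) (nat_lit 272) (nat_lit 272) (nat_lit 236)) (XT.nd (nat_lit 78) (nat_lit 0) (nat_lit 76) (XT.lf (nat_lit 76) (nat_lit 1555798057) (nat_lit 0) (nat_lit 2761868003) (nat_lit 380) (nat_lit 19131627067) (nat_lit 26) (nat_lit 5) (nat_lit 25) (nat_lit 3) (nat_lit 30) (nat_lit 5) (nat_lit 273) (nat_lit 272) (nat_lit 235)) (XT.lf (nat_lit 0) (nat_lit 5703970183) (nat_lit 304) (nat_lit 10927883396) (nat_lit 380) (nat_lit 8542555116) (nat_lit 26) (nat_lit 5) (nat_lit 30) (nat_lit 5) (nat_lit 31) (nat_lit 5) (nat_lit 274) (nat_lit 272) (nat_lit 234))))) (XT.nd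 (nat_lit 156) (nat_lit 380) (nat_lit 0) (XT.nd (nat_lit 78) (nat_lit 0) (nat_lit 76) (XT.lf (nat_lit 76) (nat_lit 1685318769) (nat_lit 0) (nat_lit 5794429668) (nat_lit 380) (nat_lit 19651365663) (nat_lit 27) (nat_lit 5) (nat_lit 26) (nat_lit 5) (nat_lit 31) (nat_lit 5) (nat_lit 275) (nat_lit 272) (nat_lit 233)) (XT.lf (nat_lit 0) (nat_lit 10378753774) (nat_lit 304) (nat_lit 12198216469) (nat_lit 76) (nat_lit 6675871041) (nat_lit 27) (nat_lit 5) (nat_lit 31) (nat_lit 5) (nat_lit 28) (nat_lit 5) (nat_lit 276) (nat_lit 272) (nat_lit 232))) (XT.nd (nat_lit 78) (nat_lit 152) (nat_lit 0) (XT.lf (nat_lit 0) (nat_lit 3013282684) (nat_lit 304) (nat_lit 11084631109) (nat_lit 380) (nat_lit 17537157323) (nat_lit 23) (nat_lit 5) (nat_lit 27) (nat_lit 5) (nat_lit 28) (nat_lit 5) (nat_lit 277) (nat_lit 272) (nat_lit 231)) (XT.nd (nat_lit 78) (nat_lit 152) (nat_lit 0) (XT.lf (nat_lit 0) (nat_lit 19117171948)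 (nat_lit 380) (nat_lit 12537144073) (nat_lit 76) (nat_lit 2609019823) (nat_lit 23) (nat_lit 5) (nat_lit 28) (nat_lit 5) (nat_lit 24) (nat_lit 5) (nat_lit 278) (nat_lit 272) (nat_lit 230)) (XT.lf (nat_lit 0) (nat_lit 5947070314) (nat_lit 152) (nat_lit 19704137724) (nat_lit 228) (nat_lit 11520378467) (nat_lit 21) (nat_lit 5) (nat_lit 23) (nat_lit 5) (nat_lit 24) (nat_lit 5) (nat_lit 279) (nat_lit 272) (nat_lit 229)))))) (XT.nd (nat_lit 390) (nat_lit 380) (nat_lit 0) (XT.nd (nat_lit 156) (nat_lit 152) (nat_lit 0) (XT.nd (nat_lit 78) (nat_lit 152) (nat_lit 0) (XT.lf (nat_lit 0) (nat_lit 28598854356) (nat_lit 152) (nat_lit 5210649637) (nat_lit 228) (nat_lit 6609973344) (nat_lit 21) (nat_lit 5) (nat_lit 23) (nat_lit 5) (nat_lit 24) (nat_lit 5) (nat_lit 280) (nat_lit 272) (nat_lit 228)) (XT.lf (nat_lit 0) (nat_lit 85861377) (nat_lit 152) (nat_lit 33036888445) (nat_lit 76) (nat_lit 10893332564)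 (nat_lit 19) (nat_lit 5) (nat_lit 21) (nat_lit 5) (nat_lit 20) (nat_lit 5) (nat_lit 281) (nat_lit 272) (nat_lit 227))) (XT.nd (nat_lit 78) (nat_lit 152) (nat_lit 0) (XT.lf (nat_lit 0) (nat_lit 7995237330) (nat_lit 152) (nat_lit 10138286153) (nat_lit 76) (nat_lit 29838572330) (nat_lit 19) (nat_lit 5) (nat_lit 21) (nat_lit 5) (nat_lit 20) (nat_lit 5) (nat_lit 282) (nat_lit 272) (nat_lit 226)) (XT.nd (nat_lit 78) (nat_lit 0) (nat_lit 0) (XT.lf (nat_lit 0) (nat_lit 17764501613) (nat_lit 152) (nat_lit 53808527) (nat_lit 228) (nat_lit 34594122262) (nat_lit 17) (nat_lit 5) (nat_lit 19) (nat_lit 5) (nat_lit 20) (nat_lit 5) (nat_lit 283) (nat_lit 272) (nat_lit 225)) (XT.lf (nat_lit 0) (nat_lit 30520889642) (nat_lit 228) (nat_lit 7343739450) (nat_lit 76) (nat_lit 19443296321) (nat_lit 17) (nat_lit 5) (nat_lit 20) (nat_lit 5) (nat_lit 18) (nat_lit 4) (nat_lit 284) (nat_lit 272) (nat_lit 224)))))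 (XT.nd (nat_lit 234) (nat_lit 152) (nat_lit 0) (XT.nd (nat_lit 78) (nat_lit 152) (nat_lit 0) (XT.lf (nat_lit 0) (nat_lit 26392195501) (nat_lit 76) (nat_lit 19825235409) (nat_lit 152) (nat_lit 16557036369) (nat_lit 16) (nat_lit 5) (nat_lit 17) (nat_lit 5) (nat_lit 18) (nat_lit 4) (nat_lit 285) (nat_lit 272) (nat_lit 223)) (XT.nd (nat_lit 78) (nat_lit 152) (nat_lit 0) (XT.lf (nat_lit 0) (nat_lit 64702166881) (nat_lit 152) (nat_lit 3057168388) (nat_lit 0) (nat_lit 1236607806) (nat_lit 16) (nat_lit 5) (nat_lit 18) (nat_lit 4) (nat_lit 16) (nat_lit 4) (nat_lit 286) (nat_lit 272) (nat_lit 222)) (XT.lf (nat_lit 0) (nat_lit 11552703597) (nat_lit 152) (nat_lit 38634892448) (nat_lit 76) (nat_lit 25509577234) (nat_lit 14) (nat_lit 5) (nat_lit 16) (nat_lit 5) (nat_lit 15) (nat_lit 4) (nat_lit 287) (nat_lit 272) (nat_lit 221)))) (XT.nd (nat_lit 78) (nat_lit 152) (nat_lit 0) (XT.lf (nat_lit 0) (nat_lit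 29498377505) (nat_lit 152) (nat_lit 58342336) (nat_lit 76) (nat_lit 53791931250) (nat_lit 14) (nat_lit 5) (nat_lit 16) (nat_lit 5) (nat_lit 15) (nat_lit 4) (nat_lit 288) (nat_lit 272) (nat_lit 220)) (XT.nd (nat_lit 78) (nat_lit 76) (nat_lit 0) (XT.lf (nat_lit 0) (nat_lit 48625034591) (nat_lit 76) (nat_lit 3519463139) (nat_lit 152) (nat_lit 39702069093) (nat_lit 13) (nat_lit 5) (nat_lit 14) (nat_lit 5) (nat_lit 15) (nat_lit 4) (nat_lit 289) (nat_lit 272) (nat_lit 219)) (XT.lf (nat_lit 0) (nat_lit 2081005139) (nat_lit 76) (nat_lit 77285312262) (nat_lit 76) (nat_lit 22076040114) (nat_lit 12) (nat_lit 4) (nat_lit 13) (nat_lit 5) (nat_lit 13) (nat_lit 4) (nat_lit 290) (nat_lit 272) (nat_lit 218))))))))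
noncomputable def xc72 : XT := (XT.nd (nat_lit 1560) (nat_lit 152) (nat_lit 0) (XT.nd (nat_lit 780) (nat_lit 228) (nat_lit 0) (XT.nd (nat_lit 390) (nat_lit 228) (nat_lit 0) (XT.nd (nat_lit 156) (nat_lit 152) (nat_lit 0) (XT.nd (nat_lit 78) (nat_lit 0) (nat_lit 0) (XT.lf (nat_lit 0) (nat_lit 884507197) (nat_lit 152) (nat_lit 53311383141) (nat_lit 76) (nat_lit 57913374884) (nat_lit 11) (nat_lit 5) (nat_lit 13) (nat_lit 5) (nat_lit 12) (nat_lit 4) (nat_lit 291) (nat_lit 272) (nat_lit 217)) (XT.lf (nat_lit 0) (nat_lit 25024914032) (nat_lit 152) (nat_lit 1412814069) (nat_lit 76) (nat_lit 97781406631) (nat_lit 11) (nat_lit 5) (nat_lit 13) (nat_lit 5) (nat_lit 12) (nat_lit 4) (nat_lit 292) (nat_lit 272) (nat_lit 216))) (XT.nd (nat_lit 78) (nat_lit 76) (nat_lit 0) (XT.lf (nat_lit 0) (nat_lit 55784282805) (nat_lit 152) (nat_lit 74143979017) (nat_lit 0) (nat_lit 7767540461) (nat_lit 10) (nat_lit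 5) (nat_lit 12) (nat_lit 4) (nat_lit 10) (nat_lit 4) (nat_lit 293) (nat_lit 272) (nat_lit 215)) (XT.nd (nat_lit 78) (nat_lit 76) (nat_lit 0) (XT.lf (nat_lit 0) (nat_lit 92490409036) (nat_lit 152) (nat_lit 16032142310) (nat_lit 0) (nat_lit 44471493191) (nat_lit 10) (nat_lit 5) (nat_lit 12) (nat_lit 4) (nat_lit 10) (nat_lit 4) (nat_lit 294) (nat_lit 272) (nat_lit 214)) (XT.lf (nat_lit 0) (nat_lit 55754245180) (nat_lit 76) (nat_lit 81253868478) (nat_lit 76) (nat_lit 33233062633) (nat_lit 9) (nat_lit 4) (nat_lit 10) (nat_lit 5) (nat_lit 10) (nat_lit 4) (nat_lit 295) (nat_lit 272) (nat_lit 213))))) (XT.nd (nat_lit 156) (nat_lit 76) (nat_lit 0) (XT.nd (nat_lit 78) (nat_lit 152) (nat_lit 0) (XT.lf (nat_lit 0) (nat_lit 140104797851) (nat_lit 76) (nat_lit 48933875586) (nat_lit 76) (nat_lit 911426261) (nat_lit 9) (nat_lit 4) (nat_lit 10) (nat_lit 5) (nat_lit 10) (nat_lit 4) (nat_lit 296) (nat_lit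 272) (nat_lit 212)) (XT.lf (nat_lit 0) (nat_lit 25232439648) (nat_lit 76) (nat_lit 8840266437) (nat_lit 152) (nat_lit 178161114754) (nat_lit 7) (nat_lit 5) (nat_lit 8) (nat_lit 5) (nat_lit 9) (nat_lit 4) (nat_lit 297) (nat_lit 272) (nat_lit 211))) (XT.nd (nat_lit 78) (nat_lit 76) (nat_lit 0) (XT.lf (nat_lit 0) (nat_lit 78481375301) (nat_lit 152) (nat_lit 122011281005) (nat_lit 0) (nat_lit 36720400393) (nat_lit 7) (nat_lit 5) (nat_lit 9) (nat_lit 4) (nat_lit 7) (nat_lit 4) (nat_lit 298) (nat_lit 272) (nat_lit 210)) (XT.nd (nat_lit 78) (nat_lit 76) (nat_lit 0) (XT.lf (nat_lit 0) (nat_lit 129970086599) (nat_lit 152) (nat_lit 47698109090) (nat_lit 0) (nat_lit 88208172027) (nat_lit 7) (nat_lit 5) (nat_lit 9) (nat_lit 4) (nat_lit 7) (nat_lit 4) (nat_lit 299) (nat_lit 272) (nat_lit 209)) (XT.lf (nat_lit 0) (nat_lit 41448144984) (nat_lit 76) (nat_lit 149448305542) (nat_lit 76) (nat_lit 107685573870)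 (nat_lit 6) (nat_lit 4) (nat_lit 7) (nat_lit 5) (nat_lit 7) (nat_lit 4) (nat_lit 300) (nat_lit 272) (nat_lit 208)))))) (XT.nd (nat_lit 390) (nat_lit 76) (nat_lit 0) (XT.nd (nat_lit 156) (nat_lit 152) (nat_lit 0) (XT.nd (nat_lit 78) (nat_lit 0) (nat_lit 0) (XT.lf (nat_lit 0) (nat_lit 149323237094) (nat_lit 76) (nat_lit 114130007093) (nat_lit 76) (nat_lit 72366564899) (nat_lit 6) (nat_lit 4) (nat_lit 7) (nat_lit 5) (nat_lit 7) (nat_lit 4) (nat_lit 301) (nat_lit 272) (nat_lit 207)) (XT.lf (nat_lit 0) (nat_lit 273376360752) (nat_lit 76) (nat_lit 73515600404) (nat_lit 76) (nat_lit 31751540366) (nat_lit 6) (nat_lit 4) (nat_lit 7) (nat_lit 5) (nat_lit 7) (nat_lit 4) (nat_lit 302) (nat_lit 272) (nat_lit 206))) (XT.nd (nat_lit 78) (nat_lit 76) (nat_lit 0) (XT.lf (nat_lit 0) (nat_lit 13622820428) (nat_lit 152) (nat_lit 12475533373) (nat_lit 76) (nat_lit 401699719887) (nat_lit 5) (nat_lit 5) (nat_lit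 7) (nat_lit 5) (nat_lit 6) (nat_lit 4) (nat_lit 303) (nat_lit 272) (nat_lit 205)) (XT.nd (nat_lit 78) (nat_lit 0) (nat_lit 0) (XT.lf (nat_lit 0) (nat_lit 68215800694) (nat_lit 152) (nat_lit 383135398645) (nat_lit 0) (nat_lit 31898353325) (nat_lit 4) (nat_lit 5) (nat_lit 6) (nat_lit 4) (nat_lit 4) (nat_lit 4) (nat_lit 304) (nat_lit 272) (nat_lit 204)) (XT.lf (nat_lit 0) (nat_lit 132922437850) (nat_lit 152) (nat_lit 317202972321) (nat_lit 0) (nat_lit 96604637227) (nat_lit 4) (nat_lit 5) (nat_lit 6) (nat_lit 4) (nat_lit 4) (nat_lit 4) (nat_lit 305) (nat_lit 272) (nat_lit 203))))) (XT.nd (nat_lit 156) (nat_lit 76) (nat_lit 0) (XT.nd (nat_lit 78) (nat_lit 0) (nat_lit 0) (XT.lf (nat_lit 0) (nat_lit 207333981127) (nat_lit 152) (nat_lit 241382925646) (nat_lit 0) (nat_lit 171015873326) (nat_lit 4) (nat_lit 5) (nat_lit 6) (nat_lit 4) (nat_lit 4) (nat_lit 4) (nat_lit 306) (nat_lit 272) (nat_lit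 202)) (XT.lf (nat_lit 0) (nat_lit 292906308545) (nat_lit 152) (nat_lit 154191822925) (nat_lit 0) (nat_lit 256587933632) (nat_lit 4) (nat_lit 5) (nat_lit 6) (nat_lit 4) (nat_lit 4) (nat_lit 4) (nat_lit 307) (nat_lit 272) (nat_lit 201))) (XT.nd (nat_lit 78) (nat_lit 76) (nat_lit 0) (XT.lf (nat_lit 0) (nat_lit 391313661291) (nat_lit 152) (nat_lit 53923751279) (nat_lit 0) (nat_lit 354995054108) (nat_lit 4) (nat_lit 5) (nat_lit 6) (nat_lit 4) (nat_lit 4) (nat_lit 4) (nat_lit 308) (nat_lit 272) (nat_lit 200)) (XT.nd (nat_lit 78) (nat_lit 0) (nat_lit 0) (XT.lf (nat_lit 0) (nat_lit 67381854557) (nat_lit 76) (nat_lit 439889684963) (nat_lit 76) (nat_lit 403570875806) (nat_lit 3) (nat_lit 4) (nat_lit 4) (nat_lit 5) (nat_lit 4) (nat_lit 4) (nat_lit 309) (nat_lit 272) (nat_lit 199)) (XT.lf (nat_lit 0) (nat_lit 212942187442) (nat_lit 76) (nat_lit 430498972380) (nat_lit 76) (nat_lit 394179987593) (nat_lit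 3) (nat_lit 4) (nat_lit 4) (nat_lit 5) (nat_lit 4) (nat_lit 4) (nat_lit 310) (nat_lit 272) (nat_lit 198))))))) (XT.nd (nat_lit 780) (nat_lit 152) (nat_lit 0) (XT.nd (nat_lit 390) (nat_lit 0) (nat_lit 0) (XT.nd (nat_lit 156) (nat_lit 0) (nat_lit 0) (XT.nd (nat_lit 78) (nat_lit 0) (nat_lit 0) (XT.lf (nat_lit 0) (nat_lit 380335345782) (nat_lit 76) (nat_lit 419700285033) (nat_lit 76) (nat_lit 383381147523) (nat_lit 3) (nat_lit 4) (nat_lit 4) (nat_lit 5) (nat_lit 4) (nat_lit 4) (nat_lit 311) (nat_lit 272) (nat_lit 197)) (XT.lf (nat_lit 0) (nat_lit 572836413112) (nat_lit 76) (nat_lit 407282344254) (nat_lit 76) (nat_lit 370963073943) (nat_lit 3) (nat_lit 4) (nat_lit 4) (nat_lit 5) (nat_lit 4) (nat_lit 4) (nat_lit 312) (nat_lit 272) (nat_lit 196))) (XT.nd (nat_lit 78) (nat_lit 0) (nat_lit 0) (XT.lf (nat_lit 0) (nat_lit 794211714661) (nat_lit 76) (nat_lit 393002190334) (nat_lit 76) (nat_lit 356682804544)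 (nat_lit 3) (nat_lit 4) (nat_lit 4) (nat_lit 5) (nat_lit 4) (nat_lit 4) (nat_lit 313) (nat_lit 272) (nat_lit 195)) (XT.nd (nat_lit 78) (nat_lit 0) (nat_lit 0) (XT.lf (nat_lit 0) (nat_lit 1048792506330) (nat_lit 76) (nat_lit 376580428957) (nat_lit 76) (nat_lit 340260942750) (nat_lit 3) (nat_lit 4) (nat_lit 4) (nat_lit 5) (nat_lit 4) (nat_lit 4) (nat_lit 314) (nat_lit 272) (nat_lit 194)) (XT.lf (nat_lit 0) (nat_lit 1341559716650) (nat_lit 76) (nat_lit 357695764792) (nat_lit 76) (nat_lit 321376191265) (nat_lit 3) (nat_lit 4) (nat_lit 4) (nat_lit 5) (nat_lit 4) (nat_lit 4) (nat_lit 315) (nat_lit 272) (nat_lit 193))))) (XT.nd (nat_lit 156) (nat_lit 0) (nat_lit 0) (XT.nd (nat_lit 78) (nat_lit 0) (nat_lit 0) (XT.lf (nat_lit 0) (nat_lit 1678241399737) (nat_lit 76) (nat_lit 335978715278) (nat_lit 76) (nat_lit 299659065821) (nat_lit 3) (nat_lit 4) (nat_lit 4) (nat_lit 5) (nat_lit 4) (nat_lit 4)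 (nat_lit 316) (nat_lit 272) (nat_lit 192)) (XT.lf (nat_lit 0) (nat_lit 2065424805913) (nat_lit 76) (nat_lit 311004381621) (nat_lit 76) (nat_lit 274684666139) (nat_lit 3) (nat_lit 4) (nat_lit 4) (nat_lit 5) (nat_lit 4) (nat_lit 4) (nat_lit 317) (nat_lit 272) (nat_lit 191))) (XT.nd (nat_lit 78) (nat_lit 0) (nat_lit 0) (XT.lf (nat_lit 0) (nat_lit 2510685262689) (nat_lit 76) (nat_lit 282284135554) (nat_lit 76) (nat_lit 245964362657) (nat_lit 3) (nat_lit 4) (nat_lit 4) (nat_lit 5) (nat_lit 4) (nat_lit 4) (nat_lit 318) (nat_lit 272) (nat_lit 190)) (XT.nd (nat_lit 78) (nat_lit 0) (nat_lit 0) (XT.lf (nat_lit 0) (nat_lit 3022734387697) (nat_lit 76) (nat_lit 249256059218) (nat_lit 76) (nat_lit 212936236397) (nat_lit 3) (nat_lit 4) (nat_lit 4) (nat_lit 5) (nat_lit 4) (nat_lit 4) (nat_lit 319) (nat_lit 272) (nat_lit 189)) (XT.lf (nat_lit 0) (nat_lit 3611590533385) (nat_lit 76) (nat_lit 211273951121)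 (nat_lit 76) (nat_lit 174954084887) (nat_lit 3) (nat_lit 4) (nat_lit 4) (nat_lit 5) (nat_lit 4) (nat_lit 4) (nat_lit 320) (nat_lit 272) (nat_lit 188)))))) (XT.nd (nat_lit 390) (nat_lit 0) (nat_lit 0) (XT.nd (nat_lit 156) (nat_lit 152) (nat_lit 0) (XT.nd (nat_lit 78) (nat_lit 0) (nat_lit 0) (XT.lf (nat_lit 0) (nat_lit 4288774798254) (nat_lit 76) (nat_lit 167594683060) (nat_lit 76) (nat_lit 131274779075) (nat_lit 3) (nat_lit 4) (nat_lit 4) (nat_lit 5) (nat_lit 4) (nat_lit 4) (nat_lit 321) (nat_lit 272) (nat_lit 187)) (XT.lf (nat_lit 0) (nat_lit 5067536439660) (nat_lit 76) (nat_lit 117363660660) (nat_lit 76) (nat_lit 81043723849) (nat_lit 3) (nat_lit 4) (nat_lit 4) (nat_lit 5) (nat_lit 4) (nat_lit 4) (nat_lit 322) (nat_lit 272) (nat_lit 186))) (XT.nd (nat_lit 78) (nat_lit 152) (nat_lit 0) (XT.lf (nat_lit 0) (nat_lit 5963112098414) (nat_lit 76) (nat_lit 59598103049) (nat_lit 76) (nat_lit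 23278137693) (nat_lit 3) (nat_lit 4) (nat_lit 4) (nat_lit 5) (nat_lit 4) (nat_lit 4) (nat_lit 323) (nat_lit 272) (nat_lit 185)) (XT.nd (nat_lit 78) (nat_lit 0) (nat_lit 0) (XT.lf (nat_lit 0) (nat_lit 41973584467) (nat_lit 152) (nat_lit 6890007484058) (nat_lit 0) (nat_lit 10390984313) (nat_lit 1) (nat_lit 5) (nat_lit 3) (nat_lit 4) (nat_lit 1) (nat_lit 4) (nat_lit 324) (nat_lit 272) (nat_lit 184)) (XT.lf (nat_lit 0) (nat_lit 122006192492) (nat_lit 152) (nat_lit 7759510830303) (nat_lit 0) (nat_lit 90423573569) (nat_lit 1) (nat_lit 5) (nat_lit 3) (nat_lit 4) (nat_lit 1) (nat_lit 4) (nat_lit 325) (nat_lit 272) (nat_lit 183))))) (XT.nd (nat_lit 156) (nat_lit 0) (nat_lit 0) (XT.nd (nat_lit 78) (nat_lit 0) (nat_lit 0) (XT.lf (nat_lit 0) (nat_lit 214043604535) (nat_lit 152) (nat_lit 8759439860688) (nat_lit 0) (nat_lit 182460969291) (nat_lit 1) (nat_lit 5) (nat_lit 3) (nat_lit 4) (nat_lit 1)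 (nat_lit 4) (nat_lit 326) (nat_lit 272) (nat_lit 182)) (XT.lf (nat_lit 0) (nat_lit 319886552570) (nat_lit 152) (nat_lit 9909358404070) (nat_lit 0) (nat_lit 288303903134) (nat_lit 1) (nat_lit 5) (nat_lit 3) (nat_lit 4) (nat_lit 1) (nat_lit 4) (nat_lit 327) (nat_lit 272) (nat_lit 181))) (XT.nd (nat_lit 78) (nat_lit 0) (nat_lit 0) (XT.lf (nat_lit 0) (nat_lit 441605876885) (nat_lit 152) (nat_lit 11231764866732) (nat_lit 0) (nat_lit 410023215109) (nat_lit 1) (nat_lit 5) (nat_lit 3) (nat_lit 4) (nat_lit 1) (nat_lit 4) (nat_lit 328) (nat_lit 272) (nat_lit 180)) (XT.nd (nat_lit 78) (nat_lit 0) (nat_lit 0) (XT.lf (nat_lit 0) (nat_lit 581583042522) (nat_lit 152) (nat_lit 12752532418595) (nat_lit 0) (nat_lit 550000370015) (nat_lit 1) (nat_lit 5) (nat_lit 3) (nat_lit 4) (nat_lit 1) (nat_lit 4) (nat_lit 329) (nat_lit 272) (nat_lit 179)) (XT.lf (nat_lit 0) (nat_lit 742556733155) (nat_lit 152) (nat_lit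 14501415207413) (nat_lit 0) (nat_lit 710974051317) (nat_lit 1) (nat_lit 5) (nat_lit 3) (nat_lit 4) (nat_lit 1) (nat_lit 4) (nat_lit 330) (nat_lit 272) (nat_lit 178))))))))
noncomputable def xc73 : XT := (XT.nd (nat_lit 36348) (nat_lit 0) (nat_lit 608) (XT.nd (nat_lit 780) (nat_lit 0) (nat_lit 0) (XT.nd (nat_lit 390) (nat_lit 0) (nat_lit 0) (XT.nd (nat_lit 156) (nat_lit 0) (nat_lit 0) (XT.nd (nat_lit 78) (nat_lit 0) (nat_lit 0) (XT.lf (nat_lit 0) (nat_lit 927676434037) (nat_lit 152) (nat_lit 16512630505142) (nat_lit 0) (nat_lit 896093744084) (nat_lit 1) (nat_lit 5) (nat_lit 3) (nat_lit 4) (nat_lit 1) (nat_lit 4) (nat_lit 331) (nat_lit 272) (nat_lit 177)) (XT.lf (nat_lit 0) (nat_lit 1140564052358) (nat_lit 152) (nat_lit 18825528176303) (nat_lit 0) (nat_lit 1108981355349) (nat_lit 1) (nat_lit 5) (nat_lit 3) (nat_lit 4) (nat_lit 1) (nat_lit 4) (nat_lit 332) (nat_lit 272) (nat_lit 176)))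 (XT.nd (nat_lit 78) (nat_lit 0) (nat_lit 0) (XT.lf (nat_lit 0) (nat_lit 1385384780651) (nat_lit 152) (nat_lit 21485360566634) (nat_lit 0) (nat_lit 1353802077507) (nat_lit 1) (nat_lit 5) (nat_lit 3) (nat_lit 4) (nat_lit 1) (nat_lit 4) (nat_lit 333) (nat_lit 272) (nat_lit 175)) (XT.nd (nat_lit 78) (nat_lit 0) (nat_lit 0) (XT.lf (nat_lit 0) (nat_lit 1666928589686) (nat_lit 152) (nat_lit 24544167875078) (nat_lit 0) (nat_lit 1635345881207) (nat_lit 1) (nat_lit 5) (nat_lit 3) (nat_lit 4) (nat_lit 1) (nat_lit 4) (nat_lit 334) (nat_lit 272) (nat_lit 174)) (XT.lf (nat_lit 0) (nat_lit 1990703945293) (nat_lit 152) (nat_lit 28061796331583) (nat_lit 0) (nat_lit 1959121232175) (nat_lit 1) (nat_lit 5) (nat_lit 3) (nat_lit 4) (nat_lit 1) (nat_lit 4) (nat_lit 335) (nat_lit 272) (nat_lit 173))))) (XT.nd (nat_lit 156) (nat_lit 0) (nat_lit 0) (XT.nd (nat_lit 78) (nat_lit 0) (nat_lit 0) (XT.lf (nat_lit 0)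 (nat_lit 2363045582691) (nat_lit 152) (nat_lit 32107069101601) (nat_lit 0) (nat_lit 2331462865538) (nat_lit 1) (nat_lit 5) (nat_lit 3) (nat_lit 4) (nat_lit 1) (nat_lit 4) (nat_lit 336) (nat_lit 272) (nat_lit 172)) (XT.lf (nat_lit 0) (nat_lit 2791238446957) (nat_lit 152) (nat_lit 36759132826286) (nat_lit 0) (nat_lit 2759655726296) (nat_lit 1) (nat_lit 5) (nat_lit 3) (nat_lit 4) (nat_lit 1) (nat_lit 4) (nat_lit 337) (nat_lit 272) (nat_lit 171))) (XT.nd (nat_lit 78) (nat_lit 0) (nat_lit 0) (XT.lf (nat_lit 0) (nat_lit 3283660224568) (nat_lit 152) (nat_lit 42109006143728) (nat_lit 0) (nat_lit 3252077500857) (nat_lit 1) (nat_lit 5) (nat_lit 3) (nat_lit 4) (nat_lit 1) (nat_lit 4) (nat_lit 338) (nat_lit 272) (nat_lit 170)) (XT.nd (nat_lit 78) (nat_lit 0) (nat_lit 0) (XT.lf (nat_lit 0) (nat_lit 3849945254651) (nat_lit 152) (nat_lit 48261360488401) (nat_lit 0) (nat_lit 3818362528287) (nat_lit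 1) (nat_lit 5) (nat_lit 3) (nat_lit 4) (nat_lit 1) (nat_lit 4) (nat_lit 339) (nat_lit 272) (nat_lit 169)) (XT.lf (nat_lit 0) (nat_lit 4501173026924) (nat_lit 152) (nat_lit 55336568010524) (nat_lit 0) (nat_lit 4469590298254) (nat_lit 1) (nat_lit 5) (nat_lit 3) (nat_lit 4) (nat_lit 1) (nat_lit 4) (nat_lit 340) (nat_lit 272) (nat_lit 168)))))) (XT.nd (nat_lit 702) (nat_lit 0) (nat_lit 0) (XT.nd (nat_lit 156) (nat_lit 0) (nat_lit 0) (XT.nd (nat_lit 78) (nat_lit 0) (nat_lit 0) (XT.lf (nat_lit 0) (nat_lit 5250084954323) (nat_lit 152) (nat_lit 63473056683359) (nat_lit 0) (nat_lit 5218502223647) (nat_lit 1) (nat_lit 5) (nat_lit 3) (nat_lit 4) (nat_lit 1) (nat_lit 4) (nat_lit 341) (nat_lit 272) (nat_lit 167)) (XT.lf (nat_lit 0) (nat_lit 6111333661516) (nat_lit 152) (nat_lit 72830018676589) (nat_lit 0) (nat_lit 6079750929096) (nat_lit 1) (nat_lit 5) (nat_lit 3) (nat_lit 4) (nat_lit 1) (nat_lit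 4) (nat_lit 342) (nat_lit 272) (nat_lit 166))) (XT.nd (nat_lit 78) (nat_lit 0) (nat_lit 0) (XT.lf (nat_lit 0) (nat_lit 7101769666685) (nat_lit 152) (nat_lit 83590524985736) (nat_lit 0) (nat_lit 7070186932748) (nat_lit 1) (nat_lit 5) (nat_lit 3) (nat_lit 4) (nat_lit 1) (nat_lit 4) (nat_lit 343) (nat_lit 272) (nat_lit 165)) (XT.nd (nat_lit 78) (nat_lit 0) (nat_lit 0) (XT.lf (nat_lit 0) (nat_lit 8240771065585) (nat_lit 152) (nat_lit 95965107255978) (nat_lit 0) (nat_lit 8209188330329) (nat_lit 1) (nat_lit 5) (nat_lit 3) (nat_lit 4) (nat_lit 1) (nat_lit 4) (nat_lit 344) (nat_lit 272) (nat_lit 164)) (XT.lf (nat_lit 0) (nat_lit 9550622668193) (nat_lit 152) (nat_lit 110195876879558) (nat_lit 0) (nat_lit 9519039931791) (nat_lit 1) (nat_lit 5) (nat_lit 3) (nat_lit 4) (nat_lit 1) (nat_lit 4) (nat_lit 345) (nat_lit 272) (nat_lit 163))))) (XT.nd (nat_lit 34632) (nat_lit 0) (nat_lit 1824) (XT.nd (nat_lit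 78) (nat_lit 0) (nat_lit 0) (XT.lf (nat_lit 0) (nat_lit 19706869303147) (nat_lit 152) (nat_lit 220537542479856) (nat_lit 0) (nat_lit 19675286562901) (nat_lit 1) (nat_lit 5) (nat_lit 3) (nat_lit 4) (nat_lit 1) (nat_lit 4) (nat_lit 350) (nat_lit 272) (nat_lit 158)) (XT.lf (nat_lit 0) (nat_lit 22736635618206) (nat_lit 152) (nat_lit 253454177435470) (nat_lit 0) (nat_lit 22705052877463) (nat_lit 1) (nat_lit 5) (nat_lit 3) (nat_lit 4) (nat_lit 1) (nat_lit 4) (nat_lit 351) (nat_lit 272) (nat_lit 157))) (XT.nd (nat_lit 78) (nat_lit 0) (nat_lit 0) (XT.lf (nat_lit 0) (nat_lit 2328575448) (nat_lit 380) (nat_lit 5105529548) (nat_lit 380) (nat_lit 5105529548) (nat_lit 25) (nat_lit 3) (nat_lit 30) (nat_lit 3) (nat_lit 30) (nat_lit 5) (nat_lit 273) (nat_lit 273) (nat_lit 234)) (XT.nd (nat_lit 78) (nat_lit 0) (nat_lit 76) (XT.lf (nat_lit 76) (nat_lit 1922550182) (nat_lit 0) (nat_lit 3259121987) (nat_lit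 380) (nat_lit 21752004000) (nat_lit 26) (nat_lit 5) (nat_lit 25) (nat_lit 3) (nat_lit 30) (nat_lit 5) (nat_lit 274) (nat_lit 273) (nat_lit 233)) (XT.lf (nat_lit 0) (nat_lit 6744713913) (nat_lit 304) (nat_lit 12419388418) (nat_lit 380) (nat_lit 9758210659) (nat_lit 26) (nat_lit 5) (nat_lit 30) (nat_lit 5) (nat_lit 31) (nat_lit 5) (nat_lit 275) (nat_lit 273) (nat_lit 232))))))) (XT.nd (nat_lit 780) (nat_lit 608) (nat_lit 0) (XT.nd (nat_lit 390) (nat_lit 304) (nat_lit 0) (XT.nd (nat_lit 156) (nat_lit 380) (nat_lit 0) (XT.nd (nat_lit 78) (nat_lit 0) (nat_lit 76) (XT.lf (nat_lit 76) (nat_lit 2079081459) (nat_lit 0) (nat_lit 6689464735) (nat_lit 380) (nat_lit 22406788149) (nat_lit 27) (nat_lit 5) (nat_lit 26) (nat_lit 5) (nat_lit 31) (nat_lit 5) (nat_lit 276) (nat_lit 273) (nat_lit 231)) (XT.lf (nat_lit 0) (nat_lit 12079709662) (nat_lit 304) (nat_lit 13882311555) (nat_lit 76) (nat_lit 7656758274)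 (nat_lit 27) (nat_lit 5) (nat_lit 31) (nat_lit 5) (nat_lit 28) (nat_lit 5) (nat_lit 277) (nat_lit 273) (nat_lit 230))) (XT.nd (nat_lit 78) (nat_lit 152) (nat_lit 0) (XT.lf (nat_lit 0) (nat_lit 3604292590) (nat_lit 304) (nat_lit 12739406273) (nat_lit 380) (nat_lit 20016649468) (nat_lit 23) (nat_lit 5) (nat_lit 27) (nat_lit 5) (nat_lit 28) (nat_lit 5) (nat_lit 278) (nat_lit 273) (nat_lit 229)) (XT.nd (nat_lit 78) (nat_lit 152) (nat_lit 0) (XT.lf (nat_lit 0) (nat_lit 22099031159) (nat_lit 380) (nat_lit 14279739141) (nat_lit 76) (nat_lit 3006646234) (nat_lit 23) (nat_lit 5) (nat_lit 28) (nat_lit 5) (nat_lit 24) (nat_lit 5) (nat_lit 279) (nat_lit 273) (nat_lit 228)) (XT.lf (nat_lit 0) (nat_lit 6970835743) (nat_lit 152) (nat_lit 22632884004) (nat_lit 228) (nat_lit 13127639136) (nat_lit 21) (nat_lit 5) (nat_lit 23) (nat_lit 5) (nat_lit 24) (nat_lit 5) (nat_lit 280) (nat_lit 273) (nat_lit 227)))))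 (XT.nd (nat_lit 156) (nat_lit 152) (nat_lit 0) (XT.nd (nat_lit 78) (nat_lit 152) (nat_lit 0) (XT.lf (nat_lit 0) (nat_lit 33003208494) (nat_lit 152) (nat_lit 5968878059) (nat_lit 228) (nat_lit 7496429257) (nat_lit 21) (nat_lit 5) (nat_lit 23) (nat_lit 5) (nat_lit 24) (nat_lit 5) (nat_lit 281) (nat_lit 273) (nat_lit 226)) (XT.lf (nat_lit 0) (nat_lit 188106735) (nat_lit 152) (nat_lit 37861881068) (nat_lit 76) (nat_lit 12554943543) (nat_lit 19) (nat_lit 5) (nat_lit 21) (nat_lit 5) (nat_lit 20) (nat_lit 5) (nat_lit 282) (nat_lit 273) (nat_lit 225))) (XT.nd (nat_lit 78) (nat_lit 152) (nat_lit 0) (XT.lf (nat_lit 0) (nat_lit 9272232626) (nat_lit 152) (nat_lit 11545515473) (nat_lit 76) (nat_lit 34338367826) (nat_lit 19) (nat_lit 5) (nat_lit 21) (nat_lit 5) (nat_lit 20) (nat_lit 5) (nat_lit 283) (nat_lit 273) (nat_lit 224)) (XT.nd (nat_lit 78) (nat_lit 0) (nat_lit 0) (XT.lf (nat_lit 0) (nat_lit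 20537530749) (nat_lit 152) (nat_lit 25586266) (nat_lit 228) (nat_lit 39700251365) (nat_lit 17) (nat_lit 5) (nat_lit 19) (nat_lit 5) (nat_lit 20) (nat_lit 5) (nat_lit 284) (nat_lit 273) (nat_lit 223)) (XT.lf (nat_lit 0) (nat_lit 35162991081) (nat_lit 228) (nat_lit 8342883030) (nat_lit 76) (nat_lit 22388540716) (nat_lit 17) (nat_lit 5) (nat_lit 20) (nat_lit 5) (nat_lit 18) (nat_lit 4) (nat_lit 285) (nat_lit 273) (nat_lit 222)))))) (XT.nd (nat_lit 390) (nat_lit 304) (nat_lit 0) (XT.nd (nat_lit 156) (nat_lit 228) (nat_lit 0) (XT.nd (nat_lit 78) (nat_lit 0) (nat_lit 0) (XT.lf (nat_lit 0) (nat_lit 30448786831) (nat_lit 76) (nat_lit 22760931173) (nat_lit 152) (nat_lit 18971877889) (nat_lit 16) (nat_lit 5) (nat_lit 17) (nat_lit 5) (nat_lit 18) (nat_lit 4) (nat_lit 286) (nat_lit 273) (nat_lit 221)) (XT.lf (nat_lit 0) (nat_lit 74460752490) (nat_lit 152) (nat_lit 3424242538) (nat_lit 0) (nat_lit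 1452271631) (nat_lit 16) (nat_lit 5) (nat_lit 18) (nat_lit 4) (nat_lit 16) (nat_lit 4) (nat_lit 287) (nat_lit 273) (nat_lit 220))) (XT.nd (nat_lit 78) (nat_lit 76) (nat_lit 0) (XT.lf (nat_lit 0) (nat_lit 13337979369) (nat_lit 152) (nat_lit 44337606771) (nat_lit 76) (nat_lit 29368248019) (nat_lit 14) (nat_lit 5) (nat_lit 16) (nat_lit 5) (nat_lit 15) (nat_lit 4) (nat_lit 288) (nat_lit 273) (nat_lit 219)) (XT.nd (nat_lit 78) (nat_lit 0) (nat_lit 0) (XT.lf (nat_lit 0) (nat_lit 14663540) (nat_lit 76) (nat_lit 33954617109) (nat_lit 152) (nat_lit 61874694323) (nat_lit 13) (nat_lit 5) (nat_lit 14) (nat_lit 5) (nat_lit 15) (nat_lit 4) (nat_lit 289) (nat_lit 273) (nat_lit 218)) (XT.lf (nat_lit 0) (nat_lit 55995584658) (nat_lit 76) (nat_lit 4013367063) (nat_lit 152) (nat_lit 45608138177) (nat_lit 13) (nat_lit 5) (nat_lit 14) (nat_lit 5) (nat_lit 15) (nat_lit 4) (nat_lit 290) (nat_lit 273) (nat_lit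 217))))) (XT.nd (nat_lit 234) (nat_lit 152) (nat_lit 0) (XT.nd (nat_lit 78) (nat_lit 76) (nat_lit 0) (XT.lf (nat_lit 0) (nat_lit 2471283847) (nat_lit 76) (nat_lit 88841640486) (nat_lit 76) (nat_lit 25339498737) (nat_lit 12) (nat_lit 4) (nat_lit 13) (nat_lit 5) (nat_lit 13) (nat_lit 4) (nat_lit 291) (nat_lit 273) (nat_lit 216)) (XT.nd (nat_lit 78) (nat_lit 0) (nat_lit 0) (XT.lf (nat_lit 0) (nat_lit 1055164828) (nat_lit 152) (nat_lit 61236411822) (nat_lit 76) (nat_lit 66628351502) (nat_lit 11) (nat_lit 5) (nat_lit 13) (nat_lit 5) (nat_lit 12) (nat_lit 4) (nat_lit 292) (nat_lit 273) (nat_lit 215)) (XT.lf (nat_lit 0) (nat_lit 28811678574) (nat_lit 152) (nat_lit 1562406796) (nat_lit 76) (nat_lit 112472939700) (nat_lit 11) (nat_lit 5) (nat_lit 13) (nat_lit 5) (nat_lit 12) (nat_lit 4) (nat_lit 293) (nat_lit 273) (nat_lit 214)))) (XT.nd (nat_lit 78) (nat_lit 76) (nat_lit 0) (XT.lf (nat_lit 0)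 (nat_lit 64184280733) (nat_lit 152) (nat_lit 85202552161) (nat_lit 0) (nat_lit 8958464009) (nat_lit 10) (nat_lit 5) (nat_lit 12) (nat_lit 4) (nat_lit 10) (nat_lit 4) (nat_lit 294) (nat_lit 273) (nat_lit 213)) (XT.nd (nat_lit 78) (nat_lit 76) (nat_lit 0) (XT.lf (nat_lit 0) (nat_lit 106392105615) (nat_lit 152) (nat_lit 18382160432) (nat_lit 0) (nat_lit 51164645412) (nat_lit 10) (nat_lit 5) (nat_lit 12) (nat_lit 4) (nat_lit 10) (nat_lit 4) (nat_lit 295) (nat_lit 273) (nat_lit 212)) (XT.lf (nat_lit 0) (nat_lit 64169694127) (nat_lit 76) (nat_lit 93416268128) (nat_lit 76) (nat_lit 38187378813) (nat_lit 9) (nat_lit 4) (nat_lit 10) (nat_lit 5) (nat_lit 10) (nat_lit 4) (nat_lit 296) (nat_lit 273) (nat_lit 211))))))))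
noncomputable def xc74 : XT := (XT.nd (nat_lit 1560) (nat_lit 152) (nat_lit 0) (XT.nd (nat_lit 780) (nat_lit 76) (nat_lit 0) (XT.nd (nat_lit 390) (nat_lit 152) (nat_lit 0) (XT.nd (nat_lit 156) (nat_lit 76) (nat_lit 0) (XT.nd (nat_lit 78) (nat_lit 152) (nat_lit 0) (XT.lf (nat_lit 0) (nat_lit 161166006372) (nat_lit 76) (nat_lit 56251625948) (nat_lit 76) (nat_lit 1021493926) (nat_lit 9) (nat_lit 4) (nat_lit 10) (nat_lit 5) (nat_lit 10) (nat_lit 4) (nat_lit 297) (nat_lit 273) (nat_lit 210)) (XT.lf (nat_lit 0) (nat_lit 29063003395) (nat_lit 76) (nat_lit 10143608712) (nat_lit 152) (nat_lit 204858820708) (nat_lit 7) (nat_lit 5) (nat_lit 8) (nat_lit 5) (nat_lit 9) (nat_lit 4) (nat_lit 298) (nat_lit 273) (nat_lit 209))) (XT.nd (nat_lit 78) (nat_lit 76) (nat_lit 0) (XT.lf (nat_lit 0) (nat_lit 90274398962) (nat_lit 152) (nat_lit 140271043515) (nat_lit 0) (nat_lit 42246440440) (nat_lit 7) (nat_lit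 5) (nat_lit 9) (nat_lit 4) (nat_lit 7) (nat_lit 4) (nat_lit 299) (nat_lit 273) (nat_lit 208)) (XT.nd (nat_lit 78) (nat_lit 76) (nat_lit 0) (XT.lf (nat_lit 0) (nat_lit 149483701647) (nat_lit 152) (nat_lit 54816364896) (nat_lit 0) (nat_lit 101455032603) (nat_lit 7) (nat_lit 5) (nat_lit 9) (nat_lit 4) (nat_lit 7) (nat_lit 4) (nat_lit 300) (nat_lit 273) (nat_lit 207)) (XT.lf (nat_lit 0) (nat_lit 47700169991) (nat_lit 76) (nat_lit 171847930162) (nat_lit 76) (nat_lit 123818643273) (nat_lit 6) (nat_lit 4) (nat_lit 7) (nat_lit 5) (nat_lit 7) (nat_lit 4) (nat_lit 301) (nat_lit 273) (nat_lit 206))))) (XT.nd (nat_lit 156) (nat_lit 152) (nat_lit 0) (XT.nd (nat_lit 78) (nat_lit 0) (nat_lit 0) (XT.lf (nat_lit 0) (nat_lit 171751986362) (nat_lit 76) (nat_lit 131234185364) (nat_lit 76) (nat_lit 83204361220) (nat_lit 6) (nat_lit 4) (nat_lit 7) (nat_lit 5) (nat_lit 7) (nat_lit 4) (nat_lit 302) (nat_lit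 273) (nat_lit 205)) (XT.lf (nat_lit 0) (nat_lit 314409131130) (nat_lit 76) (nat_lit 84529616297) (nat_lit 76) (nat_lit 36499324973) (nat_lit 6) (nat_lit 4) (nat_lit 7) (nat_lit 5) (nat_lit 7) (nat_lit 4) (nat_lit 303) (nat_lit 273) (nat_lit 204))) (XT.nd (nat_lit 78) (nat_lit 76) (nat_lit 0) (XT.lf (nat_lit 0) (nat_lit 15678083328) (nat_lit 152) (nat_lit 14322818410) (nat_lit 76) (nat_lit 461965102841) (nat_lit 5) (nat_lit 5) (nat_lit 7) (nat_lit 5) (nat_lit 6) (nat_lit 4) (nat_lit 304) (nat_lit 273) (nat_lit 203)) (XT.nd (nat_lit 78) (nat_lit 0) (nat_lit 0) (XT.lf (nat_lit 0) (nat_lit 78459901426) (nat_lit 152) (nat_lit 440581550626) (nat_lit 0) (nat_lit 36693770277) (nat_lit 4) (nat_lit 5) (nat_lit 6) (nat_lit 4) (nat_lit 4) (nat_lit 4) (nat_lit 305) (nat_lit 273) (nat_lit 202)) (XT.lf (nat_lit 0) (nat_lit 152871004075) (nat_lit 152) (nat_lit 364762411372) (nat_lit 0) (nat_lit 111104605814)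 (nat_lit 4) (nat_lit 5) (nat_lit 6) (nat_lit 4) (nat_lit 4) (nat_lit 4) (nat_lit 306) (nat_lit 273) (nat_lit 201)))))) (XT.nd (nat_lit 390) (nat_lit 0) (nat_lit 0) (XT.nd (nat_lit 156) (nat_lit 76) (nat_lit 0) (XT.nd (nat_lit 78) (nat_lit 0) (nat_lit 0) (XT.lf (nat_lit 0) (nat_lit 238442948337) (nat_lit 152) (nat_lit 277572097713) (nat_lit 0) (nat_lit 196676317806) (nat_lit 4) (nat_lit 5) (nat_lit 6) (nat_lit 4) (nat_lit 4) (nat_lit 4) (nat_lit 307) (nat_lit 273) (nat_lit 200)) (XT.lf (nat_lit 0) (nat_lit 336849967905) (nat_lit 152) (nat_lit 177304712207) (nat_lit 0) (nat_lit 295083135399) (nat_lit 4) (nat_lit 5) (nat_lit 6) (nat_lit 4) (nat_lit 4) (nat_lit 4) (nat_lit 308) (nat_lit 273) (nat_lit 199))) (XT.nd (nat_lit 78) (nat_lit 76) (nat_lit 0) (XT.lf (nat_lit 0) (nat_lit 450017417510) (nat_lit 152) (nat_lit 61998501660) (nat_lit 0) (nat_lit 408250409374) (nat_lit 4) (nat_lit 5) (nat_lit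 6) (nat_lit 4) (nat_lit 4) (nat_lit 4) (nat_lit 309) (nat_lit 273) (nat_lit 198)) (XT.nd (nat_lit 78) (nat_lit 0) (nat_lit 0) (XT.lf (nat_lit 0) (nat_lit 77502317219) (nat_lit 76) (nat_lit 505866331367) (nat_lit 76) (nat_lit 464099170509) (nat_lit 3) (nat_lit 4) (nat_lit 4) (nat_lit 5) (nat_lit 4) (nat_lit 4) (nat_lit 310) (nat_lit 273) (nat_lit 197)) (XT.lf (nat_lit 0) (nat_lit 244894980321) (nat_lit 76) (nat_lit 495067899680) (nat_lit 76) (nat_lit 453300606021) (nat_lit 3) (nat_lit 4) (nat_lit 4) (nat_lit 5) (nat_lit 4) (nat_lit 4) (nat_lit 311) (nat_lit 273) (nat_lit 196))))) (XT.nd (nat_lit 156) (nat_lit 0) (nat_lit 0) (XT.nd (nat_lit 78) (nat_lit 0) (nat_lit 0) (XT.lf (nat_lit 0) (nat_lit 437395617009) (nat_lit 76) (nat_lit 482650181216) (nat_lit 76) (nat_lit 440882772077) (nat_lit 3) (nat_lit 4) (nat_lit 4) (nat_lit 5) (nat_lit 4) (nat_lit 4) (nat_lit 312) (nat_lit 273) (nat_lit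 195)) (XT.lf (nat_lit 0) (nat_lit 658770544087) (nat_lit 76) (nat_lit 468370220613) (nat_lit 76) (nat_lit 426602711057) (nat_lit 3) (nat_lit 4) (nat_lit 4) (nat_lit 5) (nat_lit 4) (nat_lit 4) (nat_lit 313) (nat_lit 273) (nat_lit 194))) (XT.nd (nat_lit 78) (nat_lit 0) (nat_lit 0) (XT.lf (nat_lit 0) (nat_lit 913351010128) (nat_lit 76) (nat_lit 451948627337) (nat_lit 76) (nat_lit 410181030462) (nat_lit 3) (nat_lit 4) (nat_lit 4) (nat_lit 5) (nat_lit 4) (nat_lit 4) (nat_lit 314) (nat_lit 273) (nat_lit 193)) (XT.nd (nat_lit 78) (nat_lit 0) (nat_lit 0) (XT.lf (nat_lit 0) (nat_lit 1206117937295) (nat_lit 76) (nat_lit 433064109347) (nat_lit 76) (nat_lit 391296436542) (nat_lit 3) (nat_lit 4) (nat_lit 4) (nat_lit 5) (nat_lit 4) (nat_lit 4) (nat_lit 315) (nat_lit 273) (nat_lit 192)) (XT.lf (nat_lit 0) (nat_lit 1542799374161) (nat_lit 76) (nat_lit 411347186942) (nat_lit 76) (nat_lit 369579448111)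 (nat_lit 3) (nat_lit 4) (nat_lit 4) (nat_lit 5) (nat_lit 4) (nat_lit 4) (nat_lit 316) (nat_lit 273) (nat_lit 191))))))) (XT.nd (nat_lit 780) (nat_lit 0) (nat_lit 0) (XT.nd (nat_lit 390) (nat_lit 152) (nat_lit 0) (XT.nd (nat_lit 156) (nat_lit 0) (nat_lit 0) (XT.nd (nat_lit 78) (nat_lit 0) (nat_lit 0) (XT.lf (nat_lit 0) (nat_lit 1929982566232) (nat_lit 76) (nat_lit 386372963814) (nat_lit 76) (nat_lit 344605167570) (nat_lit 3) (nat_lit 4) (nat_lit 4) (nat_lit 5) (nat_lit 4) (nat_lit 4) (nat_lit 317) (nat_lit 273) (nat_lit 190)) (XT.lf (nat_lit 0) (nat_lit 2375242836829) (nat_lit 76) (nat_lit 357652813859) (nat_lit 76) (nat_lit 315884967690) (nat_lit 3) (nat_lit 4) (nat_lit 4) (nat_lit 5) (nat_lit 4) (nat_lit 4) (nat_lit 318) (nat_lit 273) (nat_lit 189))) (XT.nd (nat_lit 78) (nat_lit 0) (nat_lit 0) (XT.lf (nat_lit 0) (nat_lit 2887291799944) (nat_lit 76) (nat_lit 324624821100) (nat_lit 76)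 (nat_lit 282856931517) (nat_lit 3) (nat_lit 4) (nat_lit 4) (nat_lit 5) (nat_lit 4) (nat_lit 4) (nat_lit 319) (nat_lit 273) (nat_lit 188)) (XT.nd (nat_lit 78) (nat_lit 0) (nat_lit 0) (XT.lf (nat_lit 0) (nat_lit 3476147804853) (nat_lit 76) (nat_lit 286642785677) (nat_lit 76) (nat_lit 244874858345) (nat_lit 3) (nat_lit 4) (nat_lit 4) (nat_lit 5) (nat_lit 4) (nat_lit 4) (nat_lit 320) (nat_lit 273) (nat_lit 187)) (XT.lf (nat_lit 0) (nat_lit 4153331947307) (nat_lit 76) (nat_lit 242963580812) (nat_lit 76) (nat_lit 201195620653) (nat_lit 3) (nat_lit 4) (nat_lit 4) (nat_lit 5) (nat_lit 4) (nat_lit 4) (nat_lit 321) (nat_lit 273) (nat_lit 186))))) (XT.nd (nat_lit 156) (nat_lit 152) (nat_lit 0) (XT.nd (nat_lit 78) (nat_lit 0) (nat_lit 0) (XT.lf (nat_lit 0) (nat_lit 4932093482265) (nat_lit 76) (nat_lit 192732613365) (nat_lit 76) (nat_lit 150964624661) (nat_lit 3) (nat_lit 4) (nat_lit 4) (nat_lit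 5) (nat_lit 4) (nat_lit 4) (nat_lit 322) (nat_lit 273) (nat_lit 185)) (XT.lf (nat_lit 0) (nat_lit 5827669048455) (nat_lit 76) (nat_lit 134967103539) (nat_lit 76) (nat_lit 93199090013) (nat_lit 3) (nat_lit 4) (nat_lit 4) (nat_lit 5) (nat_lit 4) (nat_lit 4) (nat_lit 323) (nat_lit 273) (nat_lit 184))) (XT.nd (nat_lit 78) (nat_lit 152) (nat_lit 0) (XT.lf (nat_lit 0) (nat_lit 6857580776520) (nat_lit 76) (nat_lit 68536856576) (nat_lit 76) (nat_lit 26768821466) (nat_lit 3) (nat_lit 4) (nat_lit 4) (nat_lit 5) (nat_lit 4) (nat_lit 4) (nat_lit 324) (nat_lit 273) (nat_lit 183)) (XT.nd (nat_lit 78) (nat_lit 0) (nat_lit 0) (XT.lf (nat_lit 0) (nat_lit 48270560906) (nat_lit 152) (nat_lit 7923506644794) (nat_lit 0) (nat_lit 11950514055) (nat_lit 1) (nat_lit 5) (nat_lit 3) (nat_lit 4) (nat_lit 1) (nat_lit 4) (nat_lit 325) (nat_lit 273) (nat_lit 182)) (XT.lf (nat_lit 0) (nat_lit 140307937686) (nat_lit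 152) (nat_lit 8923435748871) (nat_lit 0) (nat_lit 103987876644) (nat_lit 1) (nat_lit 5) (nat_lit 3) (nat_lit 4) (nat_lit 1) (nat_lit 4) (nat_lit 326) (nat_lit 273) (nat_lit 181)))))) (XT.nd (nat_lit 390) (nat_lit 0) (nat_lit 0) (XT.nd (nat_lit 156) (nat_lit 0) (nat_lit 0) (XT.nd (nat_lit 78) (nat_lit 0) (nat_lit 0) (XT.lf (nat_lit 0) (nat_lit 246150855059) (nat_lit 152) (nat_lit 10073354356334) (nat_lit 0) (nat_lit 209830781676) (nat_lit 1) (nat_lit 5) (nat_lit 3) (nat_lit 4) (nat_lit 1) (nat_lit 4) (nat_lit 327) (nat_lit 273) (nat_lit 180)) (XT.lf (nat_lit 0) (nat_lit 367870152711) (nat_lit 152) (nat_lit 11395760874717) (nat_lit 0) (nat_lit 331550068597) (nat_lit 1) (nat_lit 5) (nat_lit 3) (nat_lit 4) (nat_lit 1) (nat_lit 4) (nat_lit 328) (nat_lit 273) (nat_lit 179))) (XT.nd (nat_lit 78) (nat_lit 0) (nat_lit 0) (XT.lf (nat_lit 0) (nat_lit 507847295162) (nat_lit 152) (nat_lit 12916528475034)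 (nat_lit 0) (nat_lit 471527201717) (nat_lit 1) (nat_lit 5) (nat_lit 3) (nat_lit 4) (nat_lit 1) (nat_lit 4) (nat_lit 329) (nat_lit 273) (nat_lit 178)) (XT.nd (nat_lit 78) (nat_lit 0) (nat_lit 0) (XT.lf (nat_lit 0) (nat_lit 668820965634) (nat_lit 152) (nat_lit 14665411305987) (nat_lit 0) (nat_lit 632500864074) (nat_lit 1) (nat_lit 5) (nat_lit 3) (nat_lit 4) (nat_lit 1) (nat_lit 4) (nat_lit 330) (nat_lit 273) (nat_lit 177)) (XT.lf (nat_lit 0) (nat_lit 853940648984) (nat_lit 152) (nat_lit 16676626640354) (nat_lit 0) (nat_lit 817620540369) (nat_lit 1) (nat_lit 5) (nat_lit 3) (nat_lit 4) (nat_lit 1) (nat_lit 4) (nat_lit 331) (nat_lit 273) (nat_lit 176))))) (XT.nd (nat_lit 156) (nat_lit 0) (nat_lit 0) (XT.nd (nat_lit 78) (nat_lit 0) (nat_lit 0) (XT.lf (nat_lit 0) (nat_lit 1066828252061) (nat_lit 152) (nat_lit 18989524343373) (nat_lit 0) (nat_lit 1030508137309) (nat_lit 1) (nat_lit 5) (nat_lit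 3) (nat_lit 4) (nat_lit 1) (nat_lit 4) (nat_lit 332) (nat_lit 273) (nat_lit 175)) (XT.lf (nat_lit 0) (nat_lit 1311648967097) (nat_lit 152) (nat_lit 21649356761408) (nat_lit 0) (nat_lit 1275328847011) (nat_lit 1) (nat_lit 5) (nat_lit 3) (nat_lit 4) (nat_lit 1) (nat_lit 4) (nat_lit 333) (nat_lit 273) (nat_lit 174))) (XT.nd (nat_lit 78) (nat_lit 0) (nat_lit 0) (XT.lf (nat_lit 0) (nat_lit 1593192764605) (nat_lit 152) (nat_lit 24708164093943) (nat_lit 0) (nat_lit 1556872639879) (nat_lit 1) (nat_lit 5) (nat_lit 3) (nat_lit 4) (nat_lit 1) (nat_lit 4) (nat_lit 334) (nat_lit 273) (nat_lit 173)) (XT.nd (nat_lit 78) (nat_lit 0) (nat_lit 0) (XT.lf (nat_lit 0) (nat_lit 1916968110188) (nat_lit 152) (nat_lit 28225792571395) (nat_lit 0) (nat_lit 1880647981429) (nat_lit 1) (nat_lit 5) (nat_lit 3) (nat_lit 4) (nat_lit 1) (nat_lit 4) (nat_lit 335) (nat_lit 273) (nat_lit 172)) (XT.lf (nat_lit 0) (nat_lit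 2289309738869) (nat_lit 152) (nat_lit 32271065359629) (nat_lit 0) (nat_lit 2252989606601) (nat_lit 1) (nat_lit 5) (nat_lit 3) (nat_lit 4) (nat_lit 1) (nat_lit 4) (nat_lit 336) (nat_lit 273) (nat_lit 171))))))))
noncomputable def xc75 : XT := (XT.nd (nat_lit 36660) (nat_lit 0) (nat_lit 228) (XT.nd (nat_lit 35880) (nat_lit 0) (nat_lit 1216) (XT.nd (nat_lit 390) (nat_lit 0) (nat_lit 0) (XT.nd (nat_lit 156) (nat_lit 0) (nat_lit 0) (XT.nd (nat_lit 78) (nat_lit 0) (nat_lit 0) (XT.lf (nat_lit 0) (nat_lit 2717502595557) (nat_lit 152) (nat_lit 36923129100153) (nat_lit 0) (nat_lit 2681182460238) (nat_lit 1) (nat_lit 5) (nat_lit 3) (nat_lit 4) (nat_lit 1) (nat_lit 4) (nat_lit 337) (nat_lit 273) (nat_lit 170)) (XT.lf (nat_lit 0) (nat_lit 3209924366577) (nat_lit 152) (nat_lit 42273002431370) (nat_lit 0) (nat_lit 3173604228606) (nat_lit 1) (nat_lit 5) (nat_lit 3) (nat_lit 4) (nat_lit 1) (nat_lit 4)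 (nat_lit 338) (nat_lit 273) (nat_lit 169))) (XT.nd (nat_lit 78) (nat_lit 0) (nat_lit 0) (XT.lf (nat_lit 0) (nat_lit 3776209390929) (nat_lit 152) (nat_lit 48425356788019) (nat_lit 0) (nat_lit 3739889250651) (nat_lit 1) (nat_lit 5) (nat_lit 3) (nat_lit 4) (nat_lit 1) (nat_lit 4) (nat_lit 339) (nat_lit 273) (nat_lit 168)) (XT.nd (nat_lit 78) (nat_lit 0) (nat_lit 0) (XT.lf (nat_lit 0) (nat_lit 4427437158218) (nat_lit 152) (nat_lit 55500564320557) (nat_lit 0) (nat_lit 4391117015935) (nat_lit 1) (nat_lit 5) (nat_lit 3) (nat_lit 4) (nat_lit 1) (nat_lit 4) (nat_lit 340) (nat_lit 273) (nat_lit 167)) (XT.lf (nat_lit 0) (nat_lit 5176349081284) (nat_lit 152) (nat_lit 63637053002448) (nat_lit 0) (nat_lit 5140028937257) (nat_lit 1) (nat_lit 5) (nat_lit 3) (nat_lit 4) (nat_lit 1) (nat_lit 4) (nat_lit 341) (nat_lit 273) (nat_lit 166))))) (XT.nd (nat_lit 156) (nat_lit 0) (nat_lit 0) (XT.nd (nat_lit 78)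 (nat_lit 0) (nat_lit 0) (XT.lf (nat_lit 0) (nat_lit 6037597784708) (nat_lit 152) (nat_lit 72994015003554) (nat_lit 0) (nat_lit 6001277639164) (nat_lit 1) (nat_lit 5) (nat_lit 3) (nat_lit 4) (nat_lit 1) (nat_lit 4) (nat_lit 342) (nat_lit 273) (nat_lit 165)) (XT.lf (nat_lit 0) (nat_lit 7028033786600) (nat_lit 152) (nat_lit 83754521319548) (nat_lit 0) (nat_lit 6991713639738) (nat_lit 1) (nat_lit 5) (nat_lit 3) (nat_lit 4) (nat_lit 1) (nat_lit 4) (nat_lit 343) (nat_lit 273) (nat_lit 164))) (XT.nd (nat_lit 35178) (nat_lit 0) (nat_lit 1824) (XT.lf (nat_lit 0) (nat_lit 8167035182651) (nat_lit 152) (nat_lit 96129103595745) (nat_lit 0) (nat_lit 8130715034641) (nat_lit 1) (nat_lit 5) (nat_lit 3) (nat_lit 4) (nat_lit 1) (nat_lit 4) (nat_lit 344) (nat_lit 273) (nat_lit 163)) (XT.nd (nat_lit 78) (nat_lit 0) (nat_lit 0) (XT.lf (nat_lit 0) (nat_lit 2769528339) (nat_lit 380) (nat_lit 5818529506) (nat_lit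 380) (nat_lit 5818529506) (nat_lit 25) (nat_lit 3) (nat_lit 30) (nat_lit 3) (nat_lit 30) (nat_lit 5) (nat_lit 274) (nat_lit 274) (nat_lit 232)) (XT.lf (nat_lit 76) (nat_lit 2311788979) (nat_lit 0) (nat_lit 3810730386) (nat_lit 380) (nat_lit 24826247227) (nat_lit 26) (nat_lit 5) (nat_lit 25) (nat_lit 3) (nat_lit 30) (nat_lit 5) (nat_lit 275) (nat_lit 274) (nat_lit 231)))))) (XT.nd (nat_lit 390) (nat_lit 456) (nat_lit 0) (XT.nd (nat_lit 156) (nat_lit 228) (nat_lit 0) (XT.nd (nat_lit 78) (nat_lit 0) (nat_lit 0) (XT.lf (nat_lit 0) (nat_lit 7896419641) (nat_lit 304) (nat_lit 14170631284) (nat_lit 380) (nat_lit 11172242655) (nat_lit 26) (nat_lit 5) (nat_lit 30) (nat_lit 5) (nat_lit 31) (nat_lit 5) (nat_lit 276) (nat_lit 274) (nat_lit 230)) (XT.lf (nat_lit 76) (nat_lit 2497533375) (nat_lit 0) (nat_lit 7712446349) (nat_lit 380) (nat_lit 25622413280) (nat_lit 27) (nat_lit 5) (nat_lit 26) (nat_lit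 5) (nat_lit 31) (nat_lit 5) (nat_lit 277) (nat_lit 274) (nat_lit 229))) (XT.nd (nat_lit 78) (nat_lit 304) (nat_lit 0) (XT.lf (nat_lit 0) (nat_lit 14000658793) (nat_lit 304) (nat_lit 15854535502) (nat_lit 76) (nat_lit 8789776044) (nat_lit 27) (nat_lit 5) (nat_lit 31) (nat_lit 5) (nat_lit 28) (nat_lit 5) (nat_lit 278) (nat_lit 274) (nat_lit 228)) (XT.nd (nat_lit 78) (nat_lit 0) (nat_lit 0) (XT.lf (nat_lit 0) (nat_lit 4250053684) (nat_lit 304) (nat_lit 14644328933) (nat_lit 380) (nat_lit 22904907604) (nat_lit 23) (nat_lit 5) (nat_lit 27) (nat_lit 5) (nat_lit 28) (nat_lit 5) (nat_lit 279) (nat_lit 274) (nat_lit 227)) (XT.lf (nat_lit 0) (nat_lit 25500300517) (nat_lit 380) (nat_lit 16317369923) (nat_lit 76) (nat_lit 3462386789) (nat_lit 23) (nat_lit 5) (nat_lit 28) (nat_lit 5) (nat_lit 24) (nat_lit 5) (nat_lit 280) (nat_lit 274) (nat_lit 226))))) (XT.nd (nat_lit 156) (nat_lit 304) (nat_lit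 0) (XT.nd (nat_lit 78) (nat_lit 0) (nat_lit 0) (XT.lf (nat_lit 0) (nat_lit 8116048918) (nat_lit 152) (nat_lit 26007495714) (nat_lit 228) (nat_lit 15005445799) (nat_lit 21) (nat_lit 5) (nat_lit 23) (nat_lit 5) (nat_lit 24) (nat_lit 5) (nat_lit 281) (nat_lit 274) (nat_lit 225)) (XT.lf (nat_lit 0) (nat_lit 38040287867) (nat_lit 152) (nat_lit 6846539428) (nat_lit 228) (nat_lit 8541468249) (nat_lit 21) (nat_lit 5) (nat_lit 23) (nat_lit 5) (nat_lit 24) (nat_lit 5) (nat_lit 282) (nat_lit 274) (nat_lit 224))) (XT.nd (nat_lit 78) (nat_lit 152) (nat_lit 0) (XT.lf (nat_lit 0) (nat_lit 283896395) (nat_lit 152) (nat_lit 43442455748) (nat_lit 76) (nat_lit 14459063028) (nat_lit 19) (nat_lit 5) (nat_lit 21) (nat_lit 5) (nat_lit 20) (nat_lit 5) (nat_lit 283) (nat_lit 274) (nat_lit 223)) (XT.nd (nat_lit 78) (nat_lit 152) (nat_lit 0) (XT.lf (nat_lit 0) (nat_lit 10721827216) (nat_lit 152) (nat_lit 13191510202)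 (nat_lit 76) (nat_lit 39507277742) (nat_lit 19) (nat_lit 5) (nat_lit 21) (nat_lit 5) (nat_lit 20) (nat_lit 5) (nat_lit 284) (nat_lit 274) (nat_lit 222)) (XT.lf (nat_lit 0) (nat_lit 23700091472) (nat_lit 152) (nat_lit 1981075) (nat_lit 228) (nat_lit 45592537285) (nat_lit 17) (nat_lit 5) (nat_lit 19) (nat_lit 5) (nat_lit 20) (nat_lit 5) (nat_lit 285) (nat_lit 274) (nat_lit 221))))))) (XT.nd (nat_lit 780) (nat_lit 456) (nat_lit 0) (XT.nd (nat_lit 390) (nat_lit 228) (nat_lit 0) (XT.nd (nat_lit 156) (nat_lit 228) (nat_lit 0) (XT.nd (nat_lit 78) (nat_lit 76) (nat_lit 0) (XT.lf (nat_lit 0) (nat_lit 40485808735) (nat_lit 228) (nat_lit 9516873263) (nat_lit 76) (nat_lit 25768560914) (nat_lit 17) (nat_lit 5) (nat_lit 20) (nat_lit 5) (nat_lit 18) (nat_lit 4) (nat_lit 286) (nat_lit 274) (nat_lit 220)) (XT.lf (nat_lit 0) (nat_lit 35090026976) (nat_lit 76) (nat_lit 26146269680) (nat_lit 152) (nat_lit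 21765701966) (nat_lit 16) (nat_lit 5) (nat_lit 17) (nat_lit 5) (nat_lit 18) (nat_lit 4) (nat_lit 287) (nat_lit 274) (nat_lit 219))) (XT.nd (nat_lit 78) (nat_lit 228) (nat_lit 0) (XT.lf (nat_lit 0) (nat_lit 85670138012) (nat_lit 152) (nat_lit 3868690935) (nat_lit 0) (nat_lit 1692927237) (nat_lit 16) (nat_lit 5) (nat_lit 18) (nat_lit 4) (nat_lit 16) (nat_lit 4) (nat_lit 288) (nat_lit 274) (nat_lit 218)) (XT.nd (nat_lit 78) (nat_lit 76) (nat_lit 0) (XT.lf (nat_lit 0) (nat_lit 15378275694) (nat_lit 152) (nat_lit 50918289720) (nat_lit 76) (nat_lit 33797858909) (nat_lit 14) (nat_lit 5) (nat_lit 16) (nat_lit 5) (nat_lit 15) (nat_lit 4) (nat_lit 289) (nat_lit 274) (nat_lit 217)) (XT.lf (nat_lit 0) (nat_lit 83641226) (nat_lit 76) (nat_lit 39018230939) (nat_lit 152) (nat_lit 71113079967) (nat_lit 13) (nat_lit 5) (nat_lit 14) (nat_lit 5) (nat_lit 15) (nat_lit 4) (nat_lit 290) (nat_lit 274) (nat_lit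 216))))) (XT.nd (nat_lit 156) (nat_lit 152) (nat_lit 0) (XT.nd (nat_lit 78) (nat_lit 76) (nat_lit 0) (XT.lf (nat_lit 0) (nat_lit 64452990318) (nat_lit 76) (nat_lit 4589651482) (nat_lit 152) (nat_lit 52412125422) (nat_lit 13) (nat_lit 5) (nat_lit 14) (nat_lit 5) (nat_lit 15) (nat_lit 4) (nat_lit 291) (nat_lit 274) (nat_lit 215)) (XT.lf (nat_lit 0) (nat_lit 2901052369) (nat_lit 76) (nat_lit 102140311047) (nat_lit 76) (nat_lit 29104168430) (nat_lit 12) (nat_lit 4) (nat_lit 13) (nat_lit 5) (nat_lit 13) (nat_lit 4) (nat_lit 292) (nat_lit 274) (nat_lit 214))) (XT.nd (nat_lit 78) (nat_lit 76) (nat_lit 0) (XT.lf (nat_lit 0) (nat_lit 1242159063) (nat_lit 152) (nat_lit 70367674132) (nat_lit 76) (nat_lit 76643753857) (nat_lit 11) (nat_lit 5) (nat_lit 13) (nat_lit 5) (nat_lit 12) (nat_lit 4) (nat_lit 293) (nat_lit 274) (nat_lit 213)) (XT.nd (nat_lit 78) (nat_lit 76) (nat_lit 0) (XT.lf (nat_lit 0)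 (nat_lit 33158403847) (nat_lit 152) (nat_lit 1749637847) (nat_lit 76) (nat_lit 129362271638) (nat_lit 11) (nat_lit 5) (nat_lit 13) (nat_lit 5) (nat_lit 12) (nat_lit 4) (nat_lit 294) (nat_lit 274) (nat_lit 212)) (XT.lf (nat_lit 0) (nat_lit 73836388255) (nat_lit 152) (nat_lit 97935280006) (nat_lit 0) (nat_lit 10321736430) (nat_lit 10) (nat_lit 5) (nat_lit 12) (nat_lit 4) (nat_lit 10) (nat_lit 4) (nat_lit 295) (nat_lit 274) (nat_lit 211)))))) (XT.nd (nat_lit 390) (nat_lit 228) (nat_lit 0) (XT.nd (nat_lit 156) (nat_lit 152) (nat_lit 0) (XT.nd (nat_lit 78) (nat_lit 76) (nat_lit 0) (XT.lf (nat_lit 0) (nat_lit 122372195729) (nat_lit 152) (nat_lit 21098045384) (nat_lit 0) (nat_lit 58856301198) (nat_lit 10) (nat_lit 5) (nat_lit 12) (nat_lit 4) (nat_lit 10) (nat_lit 4) (nat_lit 296) (nat_lit 274) (nat_lit 210)) (XT.lf (nat_lit 0) (nat_lit 73834703763) (nat_lit 76) (nat_lit 107409290107) (nat_lit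 76) (nat_lit 43892314962) (nat_lit 9) (nat_lit 4) (nat_lit 10) (nat_lit 5) (nat_lit 10) (nat_lit 4) (nat_lit 297) (nat_lit 274) (nat_lit 209))) (XT.nd (nat_lit 78) (nat_lit 152) (nat_lit 0) (XT.lf (nat_lit 0) (nat_lit 185375303429) (nat_lit 76) (nat_lit 64672484414) (nat_lit 76) (nat_lit 1154569604) (nat_lit 9) (nat_lit 4) (nat_lit 10) (nat_lit 5) (nat_lit 10) (nat_lit 4) (nat_lit 298) (nat_lit 274) (nat_lit 208)) (XT.nd (nat_lit 78) (nat_lit 0) (nat_lit 0) (XT.lf (nat_lit 0) (nat_lit 33457008005) (nat_lit 76) (nat_lit 11647987303) (nat_lit 152) (nat_lit 235567635301) (nat_lit 7) (nat_lit 5) (nat_lit 8) (nat_lit 5) (nat_lit 9) (nat_lit 4) (nat_lit 299) (nat_lit 274) (nat_lit 207)) (XT.lf (nat_lit 0) (nat_lit 103831299726) (nat_lit 152) (nat_lit 161279995210) (nat_lit 0) (nat_lit 48597001959) (nat_lit 7) (nat_lit 5) (nat_lit 9) (nat_lit 4) (nat_lit 7) (nat_lit 4) (nat_lit 300) (nat_lit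 274) (nat_lit 206))))) (XT.nd (nat_lit 234) (nat_lit 152) (nat_lit 0) (XT.nd (nat_lit 78) (nat_lit 76) (nat_lit 0) (XT.lf (nat_lit 0) (nat_lit 171919944650) (nat_lit 152) (nat_lit 63011250211) (nat_lit 0) (nat_lit 116685109627) (nat_lit 7) (nat_lit 5) (nat_lit 9) (nat_lit 4) (nat_lit 7) (nat_lit 4) (nat_lit 301) (nat_lit 274) (nat_lit 205)) (XT.nd (nat_lit 78) (nat_lit 0) (nat_lit 0) (XT.lf (nat_lit 0) (nat_lit 54881511754) (nat_lit 76) (nat_lit 197611795519) (nat_lit 76) (nat_lit 142376493317) (nat_lit 6) (nat_lit 4) (nat_lit 7) (nat_lit 5) (nat_lit 7) (nat_lit 4) (nat_lit 302) (nat_lit 274) (nat_lit 204)) (XT.lf (nat_lit 0) (nat_lit 197537668024) (nat_lit 76) (nat_lit 150907726937) (nat_lit 76) (nat_lit 95672018492) (nat_lit 6) (nat_lit 4) (nat_lit 7) (nat_lit 5) (nat_lit 7) (nat_lit 4) (nat_lit 303) (nat_lit 274) (nat_lit 203)))) (XT.nd (nat_lit 78) (nat_lit 152) (nat_lit 0) (XT.lf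 (nat_lit 0) (nat_lit 361590399676) (nat_lit 76) (nat_lit 97198983757) (nat_lit 76) (nat_lit 41962922057) (nat_lit 6) (nat_lit 4) (nat_lit 7) (nat_lit 5) (nat_lit 7) (nat_lit 4) (nat_lit 304) (nat_lit 274) (nat_lit 202)) (XT.nd (nat_lit 78) (nat_lit 76) (nat_lit 0) (XT.lf (nat_lit 0) (nat_lit 18038748444) (nat_lit 152) (nat_lit 16453059720) (nat_lit 76) (nat_lit 531267751043) (nat_lit 5) (nat_lit 5) (nat_lit 7) (nat_lit 5) (nat_lit 6) (nat_lit 4) (nat_lit 305) (nat_lit 274) (nat_lit 201)) (XT.lf (nat_lit 0) (nat_lit 90237756681) (nat_lit 152) (nat_lit 506650516440) (nat_lit 0) (nat_lit 42205899300) (nat_lit 4) (nat_lit 5) (nat_lit 6) (nat_lit 4) (nat_lit 4) (nat_lit 4) (nat_lit 306) (nat_lit 274) (nat_lit 200))))))))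
noncomputable def xc76 : XT := (XT.nd (nat_lit 1560) (nat_lit 0) (nat_lit 0) (XT.nd (nat_lit 780) (nat_lit 152) (nat_lit 0) (XT.nd (nat_lit 390) (nat_lit 0) (nat_lit 0) (XT.nd (nat_lit 156) (nat_lit 76) (nat_lit 0) (XT.nd (nat_lit 78) (nat_lit 0) (nat_lit 0) (XT.lf (nat_lit 0) (nat_lit 175809367765) (nat_lit 152) (nat_lit 419460888921) (nat_lit 0) (nat_lit 127777308409) (nat_lit 4) (nat_lit 5) (nat_lit 6) (nat_lit 4) (nat_lit 4) (nat_lit 4) (nat_lit 307) (nat_lit 274) (nat_lit 199)) (XT.lf (nat_lit 0) (nat_lit 274216097613) (nat_lit 152) (nat_lit 319194100060) (nat_lit 0) (nat_lit 226183862627) (nat_lit 4) (nat_lit 5) (nat_lit 6) (nat_lit 4) (nat_lit 4) (nat_lit 4) (nat_lit 308) (nat_lit 274) (nat_lit 198))) (XT.nd (nat_lit 78) (nat_lit 76) (nat_lit 0) (XT.lf (nat_lit 0) (nat_lit 387383295287) (nat_lit 152) (nat_lit 203888408334) (nat_lit 0) (nat_lit 339350907579) (nat_lit 4) (nat_lit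 5) (nat_lit 6) (nat_lit 4) (nat_lit 4) (nat_lit 4) (nat_lit 309) (nat_lit 274) (nat_lit 197)) (XT.nd (nat_lit 78) (nat_lit 76) (nat_lit 0) (XT.lf (nat_lit 0) (nat_lit 517525101611) (nat_lit 152) (nat_lit 71287832819) (nat_lit 0) (nat_lit 469492581101) (nat_lit 4) (nat_lit 5) (nat_lit 6) (nat_lit 4) (nat_lit 4) (nat_lit 4) (nat_lit 310) (nat_lit 274) (nat_lit 196)) (XT.lf (nat_lit 0) (nat_lit 89137634161) (nat_lit 76) (nat_lit 581741134500) (nat_lit 76) (nat_lit 533708498511) (nat_lit 3) (nat_lit 4) (nat_lit 4) (nat_lit 5) (nat_lit 4) (nat_lit 4) (nat_lit 311) (nat_lit 274) (nat_lit 195))))) (XT.nd (nat_lit 156) (nat_lit 0) (nat_lit 0) (XT.nd (nat_lit 78) (nat_lit 0) (nat_lit 0) (XT.lf (nat_lit 0) (nat_lit 281637896378) (nat_lit 76) (nat_lit 569323609353) (nat_lit 76) (nat_lit 521290872947) (nat_lit 3) (nat_lit 4) (nat_lit 4) (nat_lit 5) (nat_lit 4) (nat_lit 4) (nat_lit 312) (nat_lit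 274) (nat_lit 194)) (XT.lf (nat_lit 0) (nat_lit 503012497828) (nat_lit 76) (nat_lit 555043816851) (nat_lit 76) (nat_lit 507010993126) (nat_lit 3) (nat_lit 4) (nat_lit 4) (nat_lit 5) (nat_lit 4) (nat_lit 4) (nat_lit 313) (nat_lit 274) (nat_lit 193))) (XT.nd (nat_lit 78) (nat_lit 0) (nat_lit 0) (XT.lf (nat_lit 0) (nat_lit 757592680716) (nat_lit 76) (nat_lit 538622369751) (nat_lit 76) (nat_lit 490589470095) (nat_lit 3) (nat_lit 4) (nat_lit 4) (nat_lit 5) (nat_lit 4) (nat_lit 4) (nat_lit 314) (nat_lit 274) (nat_lit 192)) (XT.nd (nat_lit 78) (nat_lit 0) (nat_lit 0) (XT.lf (nat_lit 0) (nat_lit 1050359361661) (nat_lit 76) (nat_lit 519737978869) (nat_lit 76) (nat_lit 471705013188) (nat_lit 3) (nat_lit 4) (nat_lit 4) (nat_lit 5) (nat_lit 4) (nat_lit 4) (nat_lit 315) (nat_lit 274) (nat_lit 191)) (XT.lf (nat_lit 0) (nat_lit 1387040584423) (nat_lit 76) (nat_lit 498021166993) (nat_lit 76) (nat_lit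 449988143898) (nat_lit 3) (nat_lit 4) (nat_lit 4) (nat_lit 5) (nat_lit 4) (nat_lit 4) (nat_lit 316) (nat_lit 274) (nat_lit 190)))))) (XT.nd (nat_lit 390) (nat_lit 152) (nat_lit 0) (XT.nd (nat_lit 156) (nat_lit 0) (nat_lit 0) (XT.nd (nat_lit 78) (nat_lit 0) (nat_lit 0) (XT.lf (nat_lit 0) (nat_lit 1774223590315) (nat_lit 76) (nat_lit 473047039978) (nat_lit 76) (nat_lit 425013966958) (nat_lit 3) (nat_lit 4) (nat_lit 4) (nat_lit 5) (nat_lit 4) (nat_lit 4) (nat_lit 317) (nat_lit 274) (nat_lit 189)) (XT.lf (nat_lit 0) (nat_lit 2219483699018) (nat_lit 76) (nat_lit 444326973599) (nat_lit 76) (nat_lit 396293857167) (nat_lit 3) (nat_lit 4) (nat_lit 4) (nat_lit 5) (nat_lit 4) (nat_lit 4) (nat_lit 318) (nat_lit 274) (nat_lit 188))) (XT.nd (nat_lit 78) (nat_lit 0) (nat_lit 0) (XT.lf (nat_lit 0) (nat_lit 2731532521355) (nat_lit 76) (nat_lit 411299053515) (nat_lit 76) (nat_lit 363265899332) (nat_lit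 3) (nat_lit 4) (nat_lit 4) (nat_lit 5) (nat_lit 4) (nat_lit 4) (nat_lit 319) (nat_lit 274) (nat_lit 187)) (XT.nd (nat_lit 78) (nat_lit 0) (nat_lit 0) (XT.lf (nat_lit 0) (nat_lit 3320388403849) (nat_lit 76) (nat_lit 373317081288) (nat_lit 76) (nat_lit 325283894278) (nat_lit 3) (nat_lit 4) (nat_lit 4) (nat_lit 5) (nat_lit 4) (nat_lit 4) (nat_lit 320) (nat_lit 274) (nat_lit 186)) (XT.lf (nat_lit 0) (nat_lit 3997572439855) (nat_lit 76) (nat_lit 329637931375) (nat_lit 76) (nat_lit 281604715821) (nat_lit 3) (nat_lit 4) (nat_lit 4) (nat_lit 5) (nat_lit 4) (nat_lit 4) (nat_lit 321) (nat_lit 274) (nat_lit 185))))) (XT.nd (nat_lit 156) (nat_lit 152) (nat_lit 0) (XT.nd (nat_lit 78) (nat_lit 0) (nat_lit 0) (XT.lf (nat_lit 0) (nat_lit 4776333882249) (nat_lit 76) (nat_lit 279407011713) (nat_lit 76) (nat_lit 231373771337) (nat_lit 3) (nat_lit 4) (nat_lit 4) (nat_lit 5) (nat_lit 4) (nat_lit 4) (nat_lit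 322) (nat_lit 274) (nat_lit 184)) (XT.lf (nat_lit 0) (nat_lit 5671909367949) (nat_lit 76) (nat_lit 221641543439) (nat_lit 76) (nat_lit 173608281479) (nat_lit 3) (nat_lit 4) (nat_lit 4) (nat_lit 5) (nat_lit 4) (nat_lit 4) (nat_lit 323) (nat_lit 274) (nat_lit 183))) (XT.nd (nat_lit 78) (nat_lit 152) (nat_lit 0) (XT.lf (nat_lit 0) (nat_lit 6701821026023) (nat_lit 76) (nat_lit 155211332608) (nat_lit 76) (nat_lit 107178051879) (nat_lit 3) (nat_lit 4) (nat_lit 4) (nat_lit 5) (nat_lit 4) (nat_lit 4) (nat_lit 324) (nat_lit 274) (nat_lit 182)) (XT.nd (nat_lit 78) (nat_lit 152) (nat_lit 0) (XT.lf (nat_lit 0) (nat_lit 7886219301955) (nat_lit 76) (nat_lit 78816657704) (nat_lit 76) (nat_lit 30783360655) (nat_lit 3) (nat_lit 4) (nat_lit 4) (nat_lit 5) (nat_lit 4) (nat_lit 4) (nat_lit 325) (nat_lit 274) (nat_lit 181)) (XT.lf (nat_lit 0) (nat_lit 55511854886) (nat_lit 152) (nat_lit 9112031158055) (nat_lit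 0) (nat_lit 13743758155) (nat_lit 1) (nat_lit 5) (nat_lit 3) (nat_lit 4) (nat_lit 1) (nat_lit 4) (nat_lit 326) (nat_lit 274) (nat_lit 180))))))) (XT.nd (nat_lit 780) (nat_lit 0) (nat_lit 0) (XT.nd (nat_lit 390) (nat_lit 0) (nat_lit 0) (XT.nd (nat_lit 156) (nat_lit 0) (nat_lit 0) (XT.nd (nat_lit 78) (nat_lit 0) (nat_lit 0) (XT.lf (nat_lit 0) (nat_lit 161354745595) (nat_lit 152) (nat_lit 10261949821239) (nat_lit 0) (nat_lit 119586638133) (nat_lit 1) (nat_lit 5) (nat_lit 3) (nat_lit 4) (nat_lit 1) (nat_lit 4) (nat_lit 327) (nat_lit 274) (nat_lit 179)) (XT.lf (nat_lit 0) (nat_lit 283074020062) (nat_lit 152) (nat_lit 11584356388076) (nat_lit 0) (nat_lit 241305903268) (nat_lit 1) (nat_lit 5) (nat_lit 3) (nat_lit 4) (nat_lit 1) (nat_lit 4) (nat_lit 328) (nat_lit 274) (nat_lit 178))) (XT.nd (nat_lit 78) (nat_lit 0) (nat_lit 0) (XT.lf (nat_lit 0) (nat_lit 423051142352) (nat_lit 152) (nat_lit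 13105124030527) (nat_lit 0) (nat_lit 381283017444) (nat_lit 1) (nat_lit 5) (nat_lit 3) (nat_lit 4) (nat_lit 1) (nat_lit 4) (nat_lit 329) (nat_lit 274) (nat_lit 177)) (XT.nd (nat_lit 78) (nat_lit 0) (nat_lit 0) (XT.lf (nat_lit 0) (nat_lit 584024795292) (nat_lit 152) (nat_lit 14854006898118) (nat_lit 0) (nat_lit 542256663328) (nat_lit 1) (nat_lit 5) (nat_lit 3) (nat_lit 4) (nat_lit 1) (nat_lit 4) (nat_lit 330) (nat_lit 274) (nat_lit 176)) (XT.lf (nat_lit 0) (nat_lit 769144463397) (nat_lit 152) (nat_lit 16865222264344) (nat_lit 0) (nat_lit 727376325298) (nat_lit 1) (nat_lit 5) (nat_lit 3) (nat_lit 4) (nat_lit 1) (nat_lit 4) (nat_lit 331) (nat_lit 274) (nat_lit 175))))) (XT.nd (nat_lit 156) (nat_lit 0) (nat_lit 0) (XT.nd (nat_lit 78) (nat_lit 0) (nat_lit 0) (XT.lf (nat_lit 0) (nat_lit 982032053217) (nat_lit 152) (nat_lit 19178119995067) (nat_lit 0) (nat_lit 940263909783) (nat_lit 1) (nat_lit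 5) (nat_lit 3) (nat_lit 4) (nat_lit 1) (nat_lit 4) (nat_lit 332) (nat_lit 274) (nat_lit 174)) (XT.lf (nat_lit 0) (nat_lit 1226852756726) (nat_lit 152) (nat_lit 21837952437192) (nat_lit 0) (nat_lit 1185084608652) (nat_lit 1) (nat_lit 5) (nat_lit 3) (nat_lit 4) (nat_lit 1) (nat_lit 4) (nat_lit 333) (nat_lit 274) (nat_lit 173))) (XT.nd (nat_lit 78) (nat_lit 0) (nat_lit 0) (XT.lf (nat_lit 0) (nat_lit 1508396544211) (nat_lit 152) (nat_lit 24896759790675) (nat_lit 0) (nat_lit 1466628392103) (nat_lit 1) (nat_lit 5) (nat_lit 3) (nat_lit 4) (nat_lit 1) (nat_lit 4) (nat_lit 334) (nat_lit 274) (nat_lit 172)) (XT.nd (nat_lit 78) (nat_lit 0) (nat_lit 0) (XT.lf (nat_lit 0) (nat_lit 1832171881078) (nat_lit 152) (nat_lit 28414388286343) (nat_lit 0) (nat_lit 1790403725462) (nat_lit 1) (nat_lit 5) (nat_lit 3) (nat_lit 4) (nat_lit 1) (nat_lit 4) (nat_lit 335) (nat_lit 274) (nat_lit 171)) (XT.lf (nat_lit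 0) (nat_lit 2204513502179) (nat_lit 152) (nat_lit 32459661090416) (nat_lit 0) (nat_lit 2162745343513) (nat_lit 1) (nat_lit 5) (nat_lit 3) (nat_lit 4) (nat_lit 1) (nat_lit 4) (nat_lit 336) (nat_lit 274) (nat_lit 170)))))) (XT.nd (nat_lit 390) (nat_lit 0) (nat_lit 0) (XT.nd (nat_lit 156) (nat_lit 0) (nat_lit 0) (XT.nd (nat_lit 78) (nat_lit 0) (nat_lit 0) (XT.lf (nat_lit 0) (nat_lit 2632706352276) (nat_lit 152) (nat_lit 37111724844714) (nat_lit 0) (nat_lit 2590938190957) (nat_lit 1) (nat_lit 5) (nat_lit 3) (nat_lit 4) (nat_lit 1) (nat_lit 4) (nat_lit 337) (nat_lit 274) (nat_lit 169)) (XT.lf (nat_lit 0) (nat_lit 3125128117565) (nat_lit 152) (nat_lit 42461598187908) (nat_lit 0) (nat_lit 3083359953940) (nat_lit 1) (nat_lit 5) (nat_lit 3) (nat_lit 4) (nat_lit 1) (nat_lit 4) (nat_lit 338) (nat_lit 274) (nat_lit 168))) (XT.nd (nat_lit 78) (nat_lit 0) (nat_lit 0) (XT.lf (nat_lit 0) (nat_lit 3691413136933)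 (nat_lit 152) (nat_lit 48613952554972) (nat_lit 0) (nat_lit 3649644971302) (nat_lit 1) (nat_lit 5) (nat_lit 3) (nat_lit 4) (nat_lit 1) (nat_lit 4) (nat_lit 339) (nat_lit 274) (nat_lit 167)) (XT.nd (nat_lit 78) (nat_lit 0) (nat_lit 0) (XT.lf (nat_lit 0) (nat_lit 4342640899889) (nat_lit 152) (nat_lit 55689160096567) (nat_lit 0) (nat_lit 4300872732514) (nat_lit 1) (nat_lit 5) (nat_lit 3) (nat_lit 4) (nat_lit 1) (nat_lit 4) (nat_lit 340) (nat_lit 274) (nat_lit 166)) (XT.lf (nat_lit 0) (nat_lit 5091552819187) (nat_lit 152) (nat_lit 63825648786332) (nat_lit 0) (nat_lit 5049784650295) (nat_lit 1) (nat_lit 5) (nat_lit 3) (nat_lit 4) (nat_lit 1) (nat_lit 4) (nat_lit 341) (nat_lit 274) (nat_lit 165))))) (XT.nd (nat_lit 35412) (nat_lit 0) (nat_lit 1824) (XT.nd (nat_lit 78) (nat_lit 0) (nat_lit 0) (XT.lf (nat_lit 0) (nat_lit 5952801519334) (nat_lit 152) (nat_lit 73182610794286) (nat_lit 0) (nat_lit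 5911033349123) (nat_lit 1) (nat_lit 5) (nat_lit 3) (nat_lit 4) (nat_lit 1) (nat_lit 4) (nat_lit 342) (nat_lit 274) (nat_lit 164)) (XT.lf (nat_lit 0) (nat_lit 6943237518377) (nat_lit 152) (nat_lit 83943117116235) (nat_lit 0) (nat_lit 6901469347020) (nat_lit 1) (nat_lit 5) (nat_lit 3) (nat_lit 4) (nat_lit 1) (nat_lit 4) (nat_lit 343) (nat_lit 274) (nat_lit 163))) (XT.nd (nat_lit 78) (nat_lit 0) (nat_lit 0) (XT.lf (nat_lit 0) (nat_lit 3254270689) (nat_lit 380) (nat_lit 6651362259) (nat_lit 380) (nat_lit 6651362259) (nat_lit 25) (nat_lit 3) (nat_lit 30) (nat_lit 3) (nat_lit 30) (nat_lit 5) (nat_lit 275) (nat_lit 275) (nat_lit 230)) (XT.nd (nat_lit 78) (nat_lit 0) (nat_lit 76) (XT.lf (nat_lit 76) (nat_lit 2734819156) (nat_lit 0) (nat_lit 4429780475) (nat_lit 380) (nat_lit 28407607847) (nat_lit 26) (nat_lit 5) (nat_lit 25) (nat_lit 3) (nat_lit 30) (nat_lit 5) (nat_lit 276) (nat_lit 275) (nat_lit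 229)) (XT.lf (nat_lit 0) (nat_lit 9186741673) (nat_lit 304) (nat_lit 16211790894) (nat_lit 380) (nat_lit 12810499013) (nat_lit 26) (nat_lit 5) (nat_lit 30) (nat_lit 5) (nat_lit 31) (nat_lit 5) (nat_lit 277) (nat_lit 275) (nat_lit 228))))))))
noncomputable def xc77 : XT := (XT.nd (nat_lit 1560) (nat_lit 532) (nat_lit 0) (XT.nd (nat_lit 780) (nat_lit 532) (nat_lit 0) (XT.nd (nat_lit 390) (nat_lit 304) (nat_lit 0) (XT.nd (nat_lit 156) (nat_lit 380) (nat_lit 0) (XT.nd (nat_lit 78) (nat_lit 0) (nat_lit 76) (XT.lf (nat_lit 76) (nat_lit 2952760506) (nat_lit 0) (nat_lit 8884104911) (nat_lit 380) (nat_lit 29355837207) (nat_lit 27) (nat_lit 5) (nat_lit 26) (nat_lit 5) (nat_lit 31) (nat_lit 5) (nat_lit 278) (nat_lit 275) (nat_lit 227)) (XT.lf (nat_lit 0) (nat_lit 16183171738) (nat_lit 304) (nat_lit 18149447179) (nat_lit 76) (nat_lit 10096525269) (nat_lit 27) (nat_lit 5) (nat_lit 31) (nat_lit 5)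 (nat_lit 28) (nat_lit 5) (nat_lit 279) (nat_lit 275) (nat_lit 226))) (XT.nd (nat_lit 78) (nat_lit 152) (nat_lit 0) (XT.lf (nat_lit 0) (nat_lit 4967045446) (nat_lit 304) (nat_lit 16836450273) (nat_lit 380) (nat_lit 26254262434) (nat_lit 23) (nat_lit 5) (nat_lit 27) (nat_lit 5) (nat_lit 28) (nat_lit 5) (nat_lit 280) (nat_lit 275) (nat_lit 225)) (XT.nd (nat_lit 78) (nat_lit 152) (nat_lit 0) (XT.lf (nat_lit 0) (nat_lit 29390687510) (nat_lit 380) (nat_lit 18686086875) (nat_lit 76) (nat_lit 3985331666) (nat_lit 23) (nat_lit 5) (nat_lit 28) (nat_lit 5) (nat_lit 24) (nat_lit 5) (nat_lit 281) (nat_lit 275) (nat_lit 224)) (XT.lf (nat_lit 0) (nat_lit 9408758949) (nat_lit 152) (nat_lit 29893254559) (nat_lit 228) (nat_lit 17187197106) (nat_lit 21) (nat_lit 5) (nat_lit 23) (nat_lit 5) (nat_lit 24) (nat_lit 5) (nat_lit 282) (nat_lit 275) (nat_lit 223))))) (XT.nd (nat_lit 156) (nat_lit 152) (nat_lit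 0) (XT.nd (nat_lit 78) (nat_lit 152) (nat_lit 0) (XT.lf (nat_lit 0) (nat_lit 43811811650) (nat_lit 152) (nat_lit 7860159027) (nat_lit 228) (nat_lit 9762631475) (nat_lit 21) (nat_lit 5) (nat_lit 23) (nat_lit 5) (nat_lit 24) (nat_lit 5) (nat_lit 283) (nat_lit 275) (nat_lit 222)) (XT.lf (nat_lit 0) (nat_lit 377576241) (nat_lit 152) (nat_lit 49884187073) (nat_lit 76) (nat_lit 16643709214) (nat_lit 19) (nat_lit 5) (nat_lit 21) (nat_lit 5) (nat_lit 20) (nat_lit 5) (nat_lit 284) (nat_lit 275) (nat_lit 221))) (XT.nd (nat_lit 78) (nat_lit 152) (nat_lit 0) (XT.lf (nat_lit 0) (nat_lit 12374532070) (nat_lit 152) (nat_lit 15105334962) (nat_lit 76) (nat_lit 45447096997) (nat_lit 19) (nat_lit 5) (nat_lit 21) (nat_lit 5) (nat_lit 20) (nat_lit 5) (nat_lit 285) (nat_lit 275) (nat_lit 220)) (XT.nd (nat_lit 78) (nat_lit 0) (nat_lit 0) (XT.lf (nat_lit 0) (nat_lit 27299349086) (nat_lit 228) (nat_lit 52366260715)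 (nat_lit 76) (nat_lit 16828144) (nat_lit 17) (nat_lit 5) (nat_lit 20) (nat_lit 5) (nat_lit 18) (nat_lit 4) (nat_lit 286) (nat_lit 275) (nat_lit 219)) (XT.lf (nat_lit 0) (nat_lit 46595253953) (nat_lit 228) (nat_lit 10885846807) (nat_lit 76) (nat_lit 29650282926) (nat_lit 17) (nat_lit 5) (nat_lit 20) (nat_lit 5) (nat_lit 18) (nat_lit 4) (nat_lit 287) (nat_lit 275) (nat_lit 218)))))) (XT.nd (nat_lit 390) (nat_lit 228) (nat_lit 0) (XT.nd (nat_lit 156) (nat_lit 228) (nat_lit 0) (XT.nd (nat_lit 78) (nat_lit 0) (nat_lit 0) (XT.lf (nat_lit 0) (nat_lit 40409426766) (nat_lit 76) (nat_lit 30046432309) (nat_lit 152) (nat_lit 24991269846) (nat_lit 16) (nat_lit 5) (nat_lit 17) (nat_lit 5) (nat_lit 18) (nat_lit 4) (nat_lit 288) (nat_lit 275) (nat_lit 217)) (XT.lf (nat_lit 0) (nat_lit 98551110623) (nat_lit 152) (nat_lit 4396678520) (nat_lit 0) (nat_lit 1964117635) (nat_lit 16) (nat_lit 5) (nat_lit 18)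 (nat_lit 4) (nat_lit 16) (nat_lit 4) (nat_lit 289) (nat_lit 275) (nat_lit 216))) (XT.nd (nat_lit 78) (nat_lit 76) (nat_lit 0) (XT.lf (nat_lit 0) (nat_lit 17714959898) (nat_lit 152) (nat_lit 58503134828) (nat_lit 76) (nat_lit 38885967754) (nat_lit 14) (nat_lit 5) (nat_lit 16) (nat_lit 5) (nat_lit 15) (nat_lit 4) (nat_lit 290) (nat_lit 275) (nat_lit 215)) (XT.nd (nat_lit 78) (nat_lit 0) (nat_lit 0) (XT.lf (nat_lit 0) (nat_lit 146681289) (nat_lit 76) (nat_lit 44848599806) (nat_lit 152) (nat_lit 81747665021) (nat_lit 13) (nat_lit 5) (nat_lit 14) (nat_lit 5) (nat_lit 15) (nat_lit 4) (nat_lit 291) (nat_lit 275) (nat_lit 214)) (XT.lf (nat_lit 0) (nat_lit 74164846586) (nat_lit 76) (nat_lit 5258650706) (nat_lit 152) (nat_lit 60245790374) (nat_lit 13) (nat_lit 5) (nat_lit 14) (nat_lit 5) (nat_lit 15) (nat_lit 4) (nat_lit 292) (nat_lit 275) (nat_lit 213))))) (XT.nd (nat_lit 156) (nat_lit 76) (nat_lit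 0) (XT.nd (nat_lit 78) (nat_lit 76) (nat_lit 0) (XT.lf (nat_lit 0) (nat_lit 3380880126) (nat_lit 76) (nat_lit 117440506655) (nat_lit 76) (nat_lit 33442379617) (nat_lit 12) (nat_lit 4) (nat_lit 13) (nat_lit 5) (nat_lit 13) (nat_lit 4) (nat_lit 293) (nat_lit 275) (nat_lit 212)) (XT.lf (nat_lit 0) (nat_lit 1450198998) (nat_lit 152) (nat_lit 80881842670) (nat_lit 76) (nat_lit 88156309095) (nat_lit 11) (nat_lit 5) (nat_lit 13) (nat_lit 5) (nat_lit 12) (nat_lit 4) (nat_lit 294) (nat_lit 275) (nat_lit 211))) (XT.nd (nat_lit 78) (nat_lit 76) (nat_lit 0) (XT.lf (nat_lit 0) (nat_lit 38151047968) (nat_lit 152) (nat_lit 1976446497) (nat_lit 76) (nat_lit 148780518609) (nat_lit 11) (nat_lit 5) (nat_lit 13) (nat_lit 5) (nat_lit 12) (nat_lit 4) (nat_lit 295) (nat_lit 275) (nat_lit 210)) (XT.nd (nat_lit 78) (nat_lit 0) (nat_lit 0) (XT.lf (nat_lit 0) (nat_lit 84930345860) (nat_lit 152) (nat_lit 112589537997)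 (nat_lit 0) (nat_lit 11884743828) (nat_lit 10) (nat_lit 5) (nat_lit 12) (nat_lit 4) (nat_lit 10) (nat_lit 4) (nat_lit 296) (nat_lit 275) (nat_lit 209)) (XT.lf (nat_lit 0) (nat_lit 140744111494) (nat_lit 152) (nat_lit 24231418270) (nat_lit 0) (nat_lit 67697569798) (nat_lit 10) (nat_lit 5) (nat_lit 12) (nat_lit 4) (nat_lit 10) (nat_lit 4) (nat_lit 297) (nat_lit 275) (nat_lit 208))))))) (XT.nd (nat_lit 780) (nat_lit 76) (nat_lit 0) (XT.nd (nat_lit 390) (nat_lit 228) (nat_lit 0) (XT.nd (nat_lit 156) (nat_lit 152) (nat_lit 0) (XT.nd (nat_lit 78) (nat_lit 0) (nat_lit 0) (XT.lf (nat_lit 0) (nat_lit 84939818980) (nat_lit 76) (nat_lit 123506000644) (nat_lit 76) (nat_lit 50458641848) (nat_lit 9) (nat_lit 4) (nat_lit 10) (nat_lit 5) (nat_lit 10) (nat_lit 4) (nat_lit 298) (nat_lit 275) (nat_lit 207)) (XT.lf (nat_lit 0) (nat_lit 213207607337) (nat_lit 76) (nat_lit 74360589268) (nat_lit 76) (nat_lit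 1312519951) (nat_lit 9) (nat_lit 4) (nat_lit 10) (nat_lit 5) (nat_lit 10) (nat_lit 4) (nat_lit 299) (nat_lit 275) (nat_lit 206))) (XT.nd (nat_lit 78) (nat_lit 0) (nat_lit 0) (XT.lf (nat_lit 0) (nat_lit 38501687071) (nat_lit 76) (nat_lit 13382207921) (nat_lit 152) (nat_lit 270887651285) (nat_lit 7) (nat_lit 5) (nat_lit 8) (nat_lit 5) (nat_lit 9) (nat_lit 4) (nat_lit 300) (nat_lit 275) (nat_lit 205)) (XT.nd (nat_lit 78) (nat_lit 0) (nat_lit 0) (XT.lf (nat_lit 0) (nat_lit 119417897081) (nat_lit 152) (nat_lit 185448021083) (nat_lit 0) (nat_lit 55896832369) (nat_lit 7) (nat_lit 5) (nat_lit 9) (nat_lit 4) (nat_lit 7) (nat_lit 4) (nat_lit 301) (nat_lit 275) (nat_lit 204)) (XT.lf (nat_lit 0) (nat_lit 197718286257) (nat_lit 152) (nat_lit 72442091300) (nat_lit 0) (nat_lit 134196815303) (nat_lit 7) (nat_lit 5) (nat_lit 9) (nat_lit 4) (nat_lit 7) (nat_lit 4) (nat_lit 302) (nat_lit 275) (nat_lit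 203))))) (XT.nd (nat_lit 156) (nat_lit 152) (nat_lit 0) (XT.nd (nat_lit 78) (nat_lit 0) (nat_lit 0) (XT.lf (nat_lit 0) (nat_lit 63133637393) (nat_lit 76) (nat_lit 227243489862) (nat_lit 76) (nat_lit 163721665652) (nat_lit 6) (nat_lit 4) (nat_lit 7) (nat_lit 5) (nat_lit 7) (nat_lit 4) (nat_lit 303) (nat_lit 275) (nat_lit 202)) (XT.lf (nat_lit 0) (nat_lit 227185621599) (nat_lit 76) (nat_lit 173535125121) (nat_lit 76) (nat_lit 110012993733) (nat_lit 6) (nat_lit 4) (nat_lit 7) (nat_lit 5) (nat_lit 7) (nat_lit 4) (nat_lit 304) (nat_lit 275) (nat_lit 201))) (XT.nd (nat_lit 78) (nat_lit 152) (nat_lit 0) (XT.lf (nat_lit 0) (nat_lit 415844006037) (nat_lit 76) (nat_lit 111771213184) (nat_lit 76) (nat_lit 48248814686) (nat_lit 6) (nat_lit 4) (nat_lit 7) (nat_lit 5) (nat_lit 7) (nat_lit 4) (nat_lit 305) (nat_lit 275) (nat_lit 200)) (XT.nd (nat_lit 78) (nat_lit 76) (nat_lit 0) (XT.lf (nat_lit 0)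 (nat_lit 20751330176) (nat_lit 152) (nat_lit 18907270889) (nat_lit 76) (nat_lit 610963874211) (nat_lit 5) (nat_lit 5) (nat_lit 7) (nat_lit 5) (nat_lit 6) (nat_lit 4) (nat_lit 306) (nat_lit 275) (nat_lit 199)) (XT.lf (nat_lit 0) (nat_lit 103780127209) (nat_lit 152) (nat_lit 582634281596) (nat_lit 0) (nat_lit 48542881344) (nat_lit 4) (nat_lit 5) (nat_lit 6) (nat_lit 4) (nat_lit 4) (nat_lit 4) (nat_lit 307) (nat_lit 275) (nat_lit 198)))))) (XT.nd (nat_lit 390) (nat_lit 0) (nat_lit 0) (XT.nd (nat_lit 156) (nat_lit 76) (nat_lit 0) (XT.nd (nat_lit 78) (nat_lit 0) (nat_lit 0) (XT.lf (nat_lit 0) (nat_lit 202186605126) (nat_lit 152) (nat_lit 482368011555) (nat_lit 0) (nat_lit 146949206540) (nat_lit 4) (nat_lit 5) (nat_lit 6) (nat_lit 4) (nat_lit 4) (nat_lit 4) (nat_lit 308) (nat_lit 275) (nat_lit 197)) (XT.lf (nat_lit 0) (nat_lit 315353583729) (nat_lit 152) (nat_lit 367062770978) (nat_lit 0)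 (nat_lit 260116052342) (nat_lit 4) (nat_lit 5) (nat_lit 6) (nat_lit 4) (nat_lit 4) (nat_lit 4) (nat_lit 309) (nat_lit 275) (nat_lit 196))) (XT.nd (nat_lit 78) (nat_lit 76) (nat_lit 0) (XT.lf (nat_lit 0) (nat_lit 445495199558) (nat_lit 152) (nat_lit 234462587766) (nat_lit 0) (nat_lit 390257552691) (nat_lit 4) (nat_lit 5) (nat_lit 6) (nat_lit 4) (nat_lit 4) (nat_lit 4) (nat_lit 310) (nat_lit 275) (nat_lit 195)) (XT.nd (nat_lit 78) (nat_lit 76) (nat_lit 0) (XT.lf (nat_lit 0) (nat_lit 595157701616) (nat_lit 152) (nat_lit 81973110509) (nat_lit 0) (nat_lit 539919954332) (nat_lit 4) (nat_lit 5) (nat_lit 6) (nat_lit 4) (nat_lit 4) (nat_lit 4) (nat_lit 311) (nat_lit 275) (nat_lit 194)) (XT.lf (nat_lit 0) (nat_lit 102515817553) (nat_lit 76) (nat_lit 668998413128) (nat_lit 76) (nat_lit 613760578525) (nat_lit 3) (nat_lit 4) (nat_lit 4) (nat_lit 5) (nat_lit 4) (nat_lit 4) (nat_lit 312) (nat_lit 275)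 (nat_lit 193))))) (XT.nd (nat_lit 234) (nat_lit 0) (nat_lit 0) (XT.nd (nat_lit 78) (nat_lit 0) (nat_lit 0) (XT.lf (nat_lit 0) (nat_lit 323890135850) (nat_lit 76) (nat_lit 654718766801) (nat_lit 76) (nat_lit 599480856268) (nat_lit 3) (nat_lit 4) (nat_lit 4) (nat_lit 5) (nat_lit 4) (nat_lit 4) (nat_lit 313) (nat_lit 275) (nat_lit 192)) (XT.nd (nat_lit 78) (nat_lit 0) (nat_lit 0) (XT.lf (nat_lit 0) (nat_lit 578470072516) (nat_lit 76) (nat_lit 638297446810) (nat_lit 76) (nat_lit 583059470251) (nat_lit 3) (nat_lit 4) (nat_lit 4) (nat_lit 5) (nat_lit 4) (nat_lit 4) (nat_lit 314) (nat_lit 275) (nat_lit 191)) (XT.lf (nat_lit 0) (nat_lit 871236539357) (nat_lit 76) (nat_lit 619413166458) (nat_lit 76) (nat_lit 564175132485) (nat_lit 3) (nat_lit 4) (nat_lit 4) (nat_lit 5) (nat_lit 4) (nat_lit 4) (nat_lit 315) (nat_lit 275) (nat_lit 190)))) (XT.nd (nat_lit 78) (nat_lit 0) (nat_lit 0) (XT.lf (nat_lit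 0) (nat_lit 1207917575940) (nat_lit 76) (nat_lit 597696450694) (nat_lit 76) (nat_lit 542458366797) (nat_lit 3) (nat_lit 4) (nat_lit 4) (nat_lit 5) (nat_lit 4) (nat_lit 4) (nat_lit 316) (nat_lit 275) (nat_lit 189)) (XT.nd (nat_lit 78) (nat_lit 0) (nat_lit 0) (XT.lf (nat_lit 0) (nat_lit 1595100419937) (nat_lit 76) (nat_lit 572722407255) (nat_lit 76) (nat_lit 517484279945) (nat_lit 3) (nat_lit 4) (nat_lit 4) (nat_lit 5) (nat_lit 4) (nat_lit 4) (nat_lit 317) (nat_lit 275) (nat_lit 188)) (XT.lf (nat_lit 0) (nat_lit 2040360387863) (nat_lit 76) (nat_lit 544002413552) (nat_lit 76) (nat_lit 488764248490) (nat_lit 3) (nat_lit 4) (nat_lit 4) (nat_lit 5) (nat_lit 4) (nat_lit 4) (nat_lit 318) (nat_lit 275) (nat_lit 187))))))))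
noncomputable def xc78 : XT := (XT.nd (nat_lit 1560) (nat_lit 0) (nat_lit 0) (XT.nd (nat_lit 780) (nat_lit 0) (nat_lit 0) (XT.nd (nat_lit 390) (nat_lit 152) (nat_lit 0) (XT.nd (nat_lit 156) (nat_lit 0) (nat_lit 0) (XT.nd (nat_lit 78) (nat_lit 0) (nat_lit 0) (XT.lf (nat_lit 0) (nat_lit 2552409087785) (nat_lit 76) (nat_lit 510974556663) (nat_lit 76) (nat_lit 455736358775) (nat_lit 3) (nat_lit 4) (nat_lit 4) (nat_lit 5) (nat_lit 4) (nat_lit 4) (nat_lit 319) (nat_lit 275) (nat_lit 186)) (XT.lf (nat_lit 0) (nat_lit 3141264863831) (nat_lit 76) (nat_lit 472992639388) (nat_lit 76) (nat_lit 417754412956) (nat_lit 3) (nat_lit 4) (nat_lit 4) (nat_lit 5) (nat_lit 4) (nat_lit 4) (nat_lit 320) (nat_lit 275) (nat_lit 185))) (XT.nd (nat_lit 78) (nat_lit 0) (nat_lit 0) (XT.lf (nat_lit 0) (nat_lit 3818448807273) (nat_lit 76) (nat_lit 429313537261) (nat_lit 76) (nat_lit 374075286007) (nat_lit 3) (nat_lit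 4) (nat_lit 4) (nat_lit 5) (nat_lit 4) (nat_lit 4) (nat_lit 321) (nat_lit 275) (nat_lit 184)) (XT.nd (nat_lit 78) (nat_lit 0) (nat_lit 0) (XT.lf (nat_lit 0) (nat_lit 4597210169178) (nat_lit 76) (nat_lit 379082659151) (nat_lit 76) (nat_lit 323844386313) (nat_lit 3) (nat_lit 4) (nat_lit 4) (nat_lit 5) (nat_lit 4) (nat_lit 4) (nat_lit 322) (nat_lit 275) (nat_lit 183)) (XT.lf (nat_lit 0) (nat_lit 5492785584886) (nat_lit 76) (nat_lit 321317227009) (nat_lit 76) (nat_lit 266078935402) (nat_lit 3) (nat_lit 4) (nat_lit 4) (nat_lit 5) (nat_lit 4) (nat_lit 4) (nat_lit 323) (nat_lit 275) (nat_lit 182))))) (XT.nd (nat_lit 156) (nat_lit 152) (nat_lit 0) (XT.nd (nat_lit 78) (nat_lit 0) (nat_lit 0) (XT.lf (nat_lit 0) (nat_lit 6522697182098) (nat_lit 76) (nat_lit 254887047597) (nat_lit 76) (nat_lit 199648739670) (nat_lit 3) (nat_lit 4) (nat_lit 4) (nat_lit 5) (nat_lit 4) (nat_lit 4) (nat_lit 324) (nat_lit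 275) (nat_lit 181)) (XT.lf (nat_lit 0) (nat_lit 7707095405106) (nat_lit 76) (nat_lit 178492400014) (nat_lit 76) (nat_lit 123254077895) (nat_lit 3) (nat_lit 4) (nat_lit 4) (nat_lit 5) (nat_lit 4) (nat_lit 4) (nat_lit 325) (nat_lit 275) (nat_lit 180))) (XT.nd (nat_lit 78) (nat_lit 152) (nat_lit 0) (XT.lf (nat_lit 0) (nat_lit 9069153262621) (nat_lit 76) (nat_lit 90638606372) (nat_lit 76) (nat_lit 35400271913) (nat_lit 3) (nat_lit 4) (nat_lit 4) (nat_lit 5) (nat_lit 4) (nat_lit 4) (nat_lit 326) (nat_lit 275) (nat_lit 179)) (XT.nd (nat_lit 78) (nat_lit 0) (nat_lit 0) (XT.lf (nat_lit 0) (nat_lit 63839169863) (nat_lit 152) (nat_lit 10478834710056) (nat_lit 0) (nat_lit 15805826219) (nat_lit 1) (nat_lit 5) (nat_lit 3) (nat_lit 4) (nat_lit 1) (nat_lit 4) (nat_lit 327) (nat_lit 275) (nat_lit 178)) (XT.lf (nat_lit 0) (nat_lit 185558424168) (nat_lit 152) (nat_lit 11801241319027) (nat_lit 0) (nat_lit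 137525072410) (nat_lit 1) (nat_lit 5) (nat_lit 3) (nat_lit 4) (nat_lit 1) (nat_lit 4) (nat_lit 328) (nat_lit 275) (nat_lit 177)))))) (XT.nd (nat_lit 390) (nat_lit 0) (nat_lit 0) (XT.nd (nat_lit 156) (nat_lit 0) (nat_lit 0) (XT.nd (nat_lit 78) (nat_lit 0) (nat_lit 0) (XT.lf (nat_lit 0) (nat_lit 325535528927) (nat_lit 152) (nat_lit 13322008998116) (nat_lit 0) (nat_lit 277502170113) (nat_lit 1) (nat_lit 5) (nat_lit 3) (nat_lit 4) (nat_lit 1) (nat_lit 4) (nat_lit 329) (nat_lit 275) (nat_lit 176)) (XT.lf (nat_lit 0) (nat_lit 486509166623) (nat_lit 152) (nat_lit 15070891897566) (nat_lit 0) (nat_lit 438475801673) (nat_lit 1) (nat_lit 5) (nat_lit 3) (nat_lit 4) (nat_lit 1) (nat_lit 4) (nat_lit 330) (nat_lit 275) (nat_lit 175))) (XT.nd (nat_lit 78) (nat_lit 0) (nat_lit 0) (XT.lf (nat_lit 0) (nat_lit 671628821471) (nat_lit 152) (nat_lit 17082107291496) (nat_lit 0) (nat_lit 623595451186) (nat_lit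 1) (nat_lit 5) (nat_lit 3) (nat_lit 4) (nat_lit 1) (nat_lit 4) (nat_lit 331) (nat_lit 275) (nat_lit 174)) (XT.nd (nat_lit 78) (nat_lit 0) (nat_lit 0) (XT.lf (nat_lit 0) (nat_lit 884516399764) (nat_lit 152) (nat_lit 19395005046309) (nat_lit 0) (nat_lit 836483024840) (nat_lit 1) (nat_lit 5) (nat_lit 3) (nat_lit 4) (nat_lit 1) (nat_lit 4) (nat_lit 332) (nat_lit 275) (nat_lit 173)) (XT.lf (nat_lit 0) (nat_lit 1129337093249) (nat_lit 152) (nat_lit 22054837509382) (nat_lit 0) (nat_lit 1081303714291) (nat_lit 1) (nat_lit 5) (nat_lit 3) (nat_lit 4) (nat_lit 1) (nat_lit 4) (nat_lit 333) (nat_lit 275) (nat_lit 172))))) (XT.nd (nat_lit 156) (nat_lit 0) (nat_lit 0) (XT.nd (nat_lit 78) (nat_lit 0) (nat_lit 0) (XT.lf (nat_lit 0) (nat_lit 1410880872017) (nat_lit 152) (nat_lit 25113644881080) (nat_lit 0) (nat_lit 1362847489551) (nat_lit 1) (nat_lit 5) (nat_lit 3) (nat_lit 4) (nat_lit 1) (nat_lit 4)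 (nat_lit 334) (nat_lit 275) (nat_lit 171)) (XT.lf (nat_lit 0) (nat_lit 1734656201305) (nat_lit 152) (nat_lit 28631273392588) (nat_lit 0) (nat_lit 1686622815788) (nat_lit 1) (nat_lit 5) (nat_lit 3) (nat_lit 4) (nat_lit 1) (nat_lit 4) (nat_lit 335) (nat_lit 275) (nat_lit 170))) (XT.nd (nat_lit 78) (nat_lit 0) (nat_lit 0) (XT.lf (nat_lit 0) (nat_lit 2106997815816) (nat_lit 152) (nat_lit 32676546210435) (nat_lit 0) (nat_lit 2058964427646) (nat_lit 1) (nat_lit 5) (nat_lit 3) (nat_lit 4) (nat_lit 1) (nat_lit 4) (nat_lit 336) (nat_lit 275) (nat_lit 169)) (XT.nd (nat_lit 78) (nat_lit 0) (nat_lit 0) (XT.lf (nat_lit 0) (nat_lit 2535190660181) (nat_lit 152) (nat_lit 37328609976710) (nat_lit 0) (nat_lit 2487157269705) (nat_lit 1) (nat_lit 5) (nat_lit 3) (nat_lit 4) (nat_lit 1) (nat_lit 4) (nat_lit 337) (nat_lit 275) (nat_lit 168)) (XT.lf (nat_lit 0) (nat_lit 3027612420487) (nat_lit 152) (nat_lit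 42678483330318) (nat_lit 0) (nat_lit 2979579028005) (nat_lit 1) (nat_lit 5) (nat_lit 3) (nat_lit 4) (nat_lit 1) (nat_lit 4) (nat_lit 338) (nat_lit 275) (nat_lit 167))))))) (XT.nd (nat_lit 36192) (nat_lit 0) (nat_lit 988) (XT.nd (nat_lit 35802) (nat_lit 0) (nat_lit 1672) (XT.nd (nat_lit 156) (nat_lit 0) (nat_lit 0) (XT.nd (nat_lit 78) (nat_lit 0) (nat_lit 0) (XT.lf (nat_lit 0) (nat_lit 3593897435521) (nat_lit 152) (nat_lit 48830837706439) (nat_lit 0) (nat_lit 3545864041296) (nat_lit 1) (nat_lit 5) (nat_lit 3) (nat_lit 4) (nat_lit 1) (nat_lit 4) (nat_lit 339) (nat_lit 275) (nat_lit 166)) (XT.lf (nat_lit 0) (nat_lit 4245125194709) (nat_lit 152) (nat_lit 55906045255909) (nat_lit 0) (nat_lit 4197091798967) (nat_lit 1) (nat_lit 5) (nat_lit 3) (nat_lit 4) (nat_lit 1) (nat_lit 4) (nat_lit 340) (nat_lit 275) (nat_lit 165))) (XT.nd (nat_lit 78) (nat_lit 0) (nat_lit 0) (XT.lf (nat_lit 0) (nat_lit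 4994037110730) (nat_lit 152) (nat_lit 64042533952522) (nat_lit 0) (nat_lit 4946003713669) (nat_lit 1) (nat_lit 5) (nat_lit 3) (nat_lit 4) (nat_lit 1) (nat_lit 4) (nat_lit 341) (nat_lit 275) (nat_lit 164)) (XT.nd (nat_lit 35490) (nat_lit 0) (nat_lit 1824) (XT.lf (nat_lit 0) (nat_lit 5855285808028) (nat_lit 152) (nat_lit 73399495966431) (nat_lit 0) (nat_lit 5807252409820) (nat_lit 1) (nat_lit 5) (nat_lit 3) (nat_lit 4) (nat_lit 1) (nat_lit 4) (nat_lit 342) (nat_lit 275) (nat_lit 163)) (XT.lf (nat_lit 0) (nat_lit 3794821953) (nat_lit 380) (nat_lit 7618861175) (nat_lit 380) (nat_lit 7618861175) (nat_lit 25) (nat_lit 3) (nat_lit 30) (nat_lit 3) (nat_lit 30) (nat_lit 5) (nat_lit 276) (nat_lit 276) (nat_lit 228))))) (XT.nd (nat_lit 156) (nat_lit 152) (nat_lit 0) (XT.nd (nat_lit 78) (nat_lit 0) (nat_lit 76) (XT.lf (nat_lit 76) (nat_lit 3202706929) (nat_lit 0) (nat_lit 5130119402) (nat_lit 380)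 (nat_lit 32560940733) (nat_lit 26) (nat_lit 5) (nat_lit 25) (nat_lit 3) (nat_lit 30) (nat_lit 5) (nat_lit 277) (nat_lit 276) (nat_lit 227)) (XT.lf (nat_lit 0) (nat_lit 10644797602) (nat_lit 304) (nat_lit 18579714475) (nat_lit 380) (nat_lit 14703657956) (nat_lit 26) (nat_lit 5) (nat_lit 30) (nat_lit 5) (nat_lit 31) (nat_lit 5) (nat_lit 278) (nat_lit 276) (nat_lit 226))) (XT.nd (nat_lit 78) (nat_lit 228) (nat_lit 0) (XT.lf (nat_lit 76) (nat_lit 3456617587) (nat_lit 0) (nat_lit 10227905230) (nat_lit 380) (nat_lit 33676083817) (nat_lit 27) (nat_lit 5) (nat_lit 26) (nat_lit 5) (nat_lit 31) (nat_lit 5) (nat_lit 279) (nat_lit 276) (nat_lit 225)) (XT.nd (nat_lit 78) (nat_lit 304) (nat_lit 0) (XT.lf (nat_lit 0) (nat_lit 18672964419) (nat_lit 304) (nat_lit 20808901196) (nat_lit 76) (nat_lit 11602144188) (nat_lit 27) (nat_lit 5) (nat_lit 31) (nat_lit 5) (nat_lit 28) (nat_lit 5) (nat_lit 280) (nat_lit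 276) (nat_lit 224)) (XT.lf (nat_lit 0) (nat_lit 5772203366) (nat_lit 304) (nat_lit 19358493995) (nat_lit 380) (nat_lit 30127085118) (nat_lit 23) (nat_lit 5) (nat_lit 27) (nat_lit 5) (nat_lit 28) (nat_lit 5) (nat_lit 281) (nat_lit 276) (nat_lit 223)))))) (XT.nd (nat_lit 390) (nat_lit 380) (nat_lit 0) (XT.nd (nat_lit 156) (nat_lit 152) (nat_lit 0) (XT.nd (nat_lit 78) (nat_lit 152) (nat_lit 0) (XT.lf (nat_lit 0) (nat_lit 33848698513) (nat_lit 380) (nat_lit 21429348838) (nat_lit 76) (nat_lit 4585843596) (nat_lit 23) (nat_lit 5) (nat_lit 28) (nat_lit 5) (nat_lit 24) (nat_lit 5) (nat_lit 282) (nat_lit 276) (nat_lit 222)) (XT.lf (nat_lit 0) (nat_lit 10877012447) (nat_lit 152) (nat_lit 34365624208) (nat_lit 228) (nat_lit 19713053184) (nat_lit 21) (nat_lit 5) (nat_lit 23) (nat_lit 5) (nat_lit 24) (nat_lit 5) (nat_lit 283) (nat_lit 276) (nat_lit 221))) (XT.nd (nat_lit 78) (nat_lit 152) (nat_lit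 0) (XT.lf (nat_lit 0) (nat_lit 50433096141) (nat_lit 152) (nat_lit 9029079807) (nat_lit 228) (nat_lit 11181614467) (nat_lit 21) (nat_lit 5) (nat_lit 23) (nat_lit 5) (nat_lit 24) (nat_lit 5) (nat_lit 284) (nat_lit 276) (nat_lit 220)) (XT.nd (nat_lit 78) (nat_lit 0) (nat_lit 0) (XT.lf (nat_lit 0) (nat_lit 472848131) (nat_lit 152) (nat_lit 57310378812) (nat_lit 76) (nat_lit 19152202634) (nat_lit 19) (nat_lit 5) (nat_lit 21) (nat_lit 5) (nat_lit 20) (nat_lit 5) (nat_lit 285) (nat_lit 276) (nat_lit 219)) (XT.lf (nat_lit 0) (nat_lit 14264307927) (nat_lit 152) (nat_lit 17322060143) (nat_lit 76) (nat_lit 52274541580) (nat_lit 19) (nat_lit 5) (nat_lit 21) (nat_lit 5) (nat_lit 20) (nat_lit 5) (nat_lit 286) (nat_lit 276) (nat_lit 218))))) (XT.nd (nat_lit 156) (nat_lit 228) (nat_lit 0) (XT.nd (nat_lit 78) (nat_lit 0) (nat_lit 0) (XT.lf (nat_lit 0) (nat_lit 31426054846) (nat_lit 228) (nat_lit 60170280305)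 (nat_lit 76) (nat_lit 33646170) (nat_lit 17) (nat_lit 5) (nat_lit 20) (nat_lit 5) (nat_lit 18) (nat_lit 4) (nat_lit 287) (nat_lit 276) (nat_lit 217)) (XT.lf (nat_lit 0) (nat_lit 53612197174) (nat_lit 228) (nat_lit 12474445987) (nat_lit 76) (nat_lit 34110254760) (nat_lit 17) (nat_lit 5) (nat_lit 20) (nat_lit 5) (nat_lit 18) (nat_lit 4) (nat_lit 288) (nat_lit 276) (nat_lit 216))) (XT.nd (nat_lit 78) (nat_lit 152) (nat_lit 0) (XT.lf (nat_lit 0) (nat_lit 46513105993) (nat_lit 76) (nat_lit 34536929994) (nat_lit 152) (nat_lit 28710253392) (nat_lit 16) (nat_lit 5) (nat_lit 17) (nat_lit 5) (nat_lit 18) (nat_lit 4) (nat_lit 289) (nat_lit 276) (nat_lit 215)) (XT.nd (nat_lit 78) (nat_lit 152) (nat_lit 0) (XT.lf (nat_lit 0) (nat_lit 113356803233) (nat_lit 152) (nat_lit 5016621844) (nat_lit 0) (nat_lit 2271779751) (nat_lit 16) (nat_lit 5) (nat_lit 18) (nat_lit 4) (nat_lit 16) (nat_lit 4) (nat_lit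 290) (nat_lit 276) (nat_lit 214)) (XT.lf (nat_lit 0) (nat_lit 20394844980) (nat_lit 152) (nat_lit 67238606300) (nat_lit 76) (nat_lit 44732798651) (nat_lit 14) (nat_lit 5) (nat_lit 16) (nat_lit 5) (nat_lit 15) (nat_lit 4) (nat_lit 291) (nat_lit 276) (nat_lit 213))))))))
noncomputable def xc79 : XT := (XT.nd (nat_lit 1560) (nat_lit 228) (nat_lit 0) (XT.nd (nat_lit 780) (nat_lit 228) (nat_lit 0) (XT.nd (nat_lit 390) (nat_lit 304) (nat_lit 0) (XT.nd (nat_lit 156) (nat_lit 152) (nat_lit 0) (XT.nd (nat_lit 78) (nat_lit 0) (nat_lit 0) (XT.lf (nat_lit 0) (nat_lit 206864109) (nat_lit 76) (nat_lit 51558978038) (nat_lit 152) (nat_lit 93985333155) (nat_lit 13) (nat_lit 5) (nat_lit 14) (nat_lit 5) (nat_lit 15) (nat_lit 4) (nat_lit 292) (nat_lit 276) (nat_lit 212)) (XT.lf (nat_lit 0) (nat_lit 85322774120) (nat_lit 76) (nat_lit 6032742452) (nat_lit 152) (nat_lit 69261370566) (nat_lit 13) (nat_lit 5)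 (nat_lit 14) (nat_lit 5) (nat_lit 15) (nat_lit 4) (nat_lit 293) (nat_lit 276) (nat_lit 211))) (XT.nd (nat_lit 78) (nat_lit 76) (nat_lit 0) (XT.lf (nat_lit 0) (nat_lit 3921789009) (nat_lit 76) (nat_lit 135040816265) (nat_lit 76) (nat_lit 38438007578) (nat_lit 12) (nat_lit 4) (nat_lit 13) (nat_lit 5) (nat_lit 13) (nat_lit 4) (nat_lit 294) (nat_lit 276) (nat_lit 210)) (XT.nd (nat_lit 78) (nat_lit 0) (nat_lit 0) (XT.lf (nat_lit 0) (nat_lit 1684149321) (nat_lit 152) (nat_lit 92983130352) (nat_lit 76) (nat_lit 101391847828) (nat_lit 11) (nat_lit 5) (nat_lit 13) (nat_lit 5) (nat_lit 12) (nat_lit 4) (nat_lit 295) (nat_lit 276) (nat_lit 209)) (XT.lf (nat_lit 0) (nat_lit 43887983836) (nat_lit 152) (nat_lit 2245966759) (nat_lit 76) (nat_lit 171108111504) (nat_lit 11) (nat_lit 5) (nat_lit 13) (nat_lit 5) (nat_lit 12) (nat_lit 4) (nat_lit 296) (nat_lit 276) (nat_lit 208))))) (XT.nd (nat_lit 156)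 (nat_lit 228) (nat_lit 0) (XT.nd (nat_lit 78) (nat_lit 0) (nat_lit 0) (XT.lf (nat_lit 0) (nat_lit 97683885918) (nat_lit 152) (nat_lit 129450721807) (nat_lit 0) (nat_lit 13678606202) (nat_lit 10) (nat_lit 5) (nat_lit 12) (nat_lit 4) (nat_lit 10) (nat_lit 4) (nat_lit 297) (nat_lit 276) (nat_lit 207)) (XT.lf (nat_lit 0) (nat_lit 161867891852) (nat_lit 152) (nat_lit 27842438064) (nat_lit 0) (nat_lit 77861901615) (nat_lit 10) (nat_lit 5) (nat_lit 12) (nat_lit 4) (nat_lit 10) (nat_lit 4) (nat_lit 298) (nat_lit 276) (nat_lit 206))) (XT.nd (nat_lit 78) (nat_lit 152) (nat_lit 0) (XT.lf (nat_lit 0) (nat_lit 97703407822) (nat_lit 76) (nat_lit 142020798299) (nat_lit 76) (nat_lit 58014190218) (nat_lit 9) (nat_lit 4) (nat_lit 10) (nat_lit 5) (nat_lit 10) (nat_lit 4) (nat_lit 299) (nat_lit 276) (nat_lit 205)) (XT.nd (nat_lit 78) (nat_lit 152) (nat_lit 0) (XT.lf (nat_lit 0) (nat_lit 245208414520) (nat_lit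 76) (nat_lit 85505023362) (nat_lit 76) (nat_lit 1497878024) (nat_lit 9) (nat_lit 4) (nat_lit 10) (nat_lit 5) (nat_lit 10) (nat_lit 4) (nat_lit 300) (nat_lit 276) (nat_lit 204)) (XT.lf (nat_lit 0) (nat_lit 44296696551) (nat_lit 76) (nat_lit 15379726271) (nat_lit 152) (nat_lit 311509359045) (nat_lit 7) (nat_lit 5) (nat_lit 8) (nat_lit 5) (nat_lit 9) (nat_lit 4) (nat_lit 301) (nat_lit 276) (nat_lit 203)))))) (XT.nd (nat_lit 390) (nat_lit 152) (nat_lit 0) (XT.nd (nat_lit 156) (nat_lit 76) (nat_lit 0) (XT.nd (nat_lit 78) (nat_lit 0) (nat_lit 0) (XT.lf (nat_lit 0) (nat_lit 137339581565) (nat_lit 152) (nat_lit 213247096904) (nat_lit 0) (nat_lit 64289130470) (nat_lit 7) (nat_lit 5) (nat_lit 9) (nat_lit 4) (nat_lit 7) (nat_lit 4) (nat_lit 302) (nat_lit 276) (nat_lit 202)) (XT.lf (nat_lit 0) (nat_lit 227383855215) (nat_lit 152) (nat_lit 83292642090) (nat_lit 0) (nat_lit 154333096941) (nat_lit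 7) (nat_lit 5) (nat_lit 9) (nat_lit 4) (nat_lit 7) (nat_lit 4) (nat_lit 303) (nat_lit 276) (nat_lit 201))) (XT.nd (nat_lit 78) (nat_lit 0) (nat_lit 0) (XT.lf (nat_lit 0) (nat_lit 72618729412) (nat_lit 76) (nat_lit 261322395205) (nat_lit 76) (nat_lit 188271369820) (nat_lit 6) (nat_lit 4) (nat_lit 7) (nat_lit 5) (nat_lit 7) (nat_lit 4) (nat_lit 304) (nat_lit 276) (nat_lit 200)) (XT.nd (nat_lit 78) (nat_lit 0) (nat_lit 0) (XT.lf (nat_lit 0) (nat_lit 261276548673) (nat_lit 76) (nat_lit 199558769423) (nat_lit 76) (nat_lit 126507511767) (nat_lit 6) (nat_lit 4) (nat_lit 7) (nat_lit 5) (nat_lit 7) (nat_lit 4) (nat_lit 305) (nat_lit 276) (nat_lit 199)) (XT.lf (nat_lit 0) (nat_lit 478231984189) (nat_lit 76) (nat_lit 128531134757) (nat_lit 76) (nat_lit 55479675127) (nat_lit 6) (nat_lit 4) (nat_lit 7) (nat_lit 5) (nat_lit 7) (nat_lit 4) (nat_lit 306) (nat_lit 276) (nat_lit 198))))) (XT.nd (nat_lit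 156) (nat_lit 0) (nat_lit 0) (XT.nd (nat_lit 78) (nat_lit 76) (nat_lit 0) (XT.lf (nat_lit 0) (nat_lit 23869148390) (nat_lit 152) (nat_lit 21732966219) (nat_lit 76) (nat_lit 702612962346) (nat_lit 5) (nat_lit 5) (nat_lit 7) (nat_lit 5) (nat_lit 6) (nat_lit 4) (nat_lit 307) (nat_lit 276) (nat_lit 197)) (XT.lf (nat_lit 0) (nat_lit 119352217765) (nat_lit 152) (nat_lit 670018979745) (nat_lit 0) (nat_lit 55828923867) (nat_lit 4) (nat_lit 5) (nat_lit 6) (nat_lit 4) (nat_lit 4) (nat_lit 4) (nat_lit 308) (nat_lit 276) (nat_lit 196))) (XT.nd (nat_lit 78) (nat_lit 0) (nat_lit 0) (XT.lf (nat_lit 0) (nat_lit 232519005873) (nat_lit 152) (nat_lit 554714131471) (nat_lit 0) (nat_lit 168995596496) (nat_lit 4) (nat_lit 5) (nat_lit 6) (nat_lit 4) (nat_lit 4) (nat_lit 4) (nat_lit 309) (nat_lit 276) (nat_lit 195)) (XT.nd (nat_lit 78) (nat_lit 0) (nat_lit 0) (XT.lf (nat_lit 0) (nat_lit 362660456052) (nat_lit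 152) (nat_lit 422114289392) (nat_lit 0) (nat_lit 299136946258) (nat_lit 4) (nat_lit 5) (nat_lit 6) (nat_lit 4) (nat_lit 4) (nat_lit 4) (nat_lit 310) (nat_lit 276) (nat_lit 194)) (XT.lf (nat_lit 0) (nat_lit 512322814068) (nat_lit 152) (nat_lit 269625108772) (nat_lit 0) (nat_lit 448799216955) (nat_lit 4) (nat_lit 5) (nat_lit 6) (nat_lit 4) (nat_lit 4) (nat_lit 4) (nat_lit 311) (nat_lit 276) (nat_lit 193))))))) (XT.nd (nat_lit 780) (nat_lit 152) (nat_lit 0) (XT.nd (nat_lit 390) (nat_lit 0) (nat_lit 0) (XT.nd (nat_lit 156) (nat_lit 0) (nat_lit 0) (XT.nd (nat_lit 78) (nat_lit 76) (nat_lit 0) (XT.lf (nat_lit 0) (nat_lit 684434256491) (nat_lit 152) (nat_lit 94263105642) (nat_lit 0) (nat_lit 620910583448) (nat_lit 4) (nat_lit 5) (nat_lit 6) (nat_lit 4) (nat_lit 4) (nat_lit 4) (nat_lit 312) (nat_lit 276) (nat_lit 192)) (XT.lf (nat_lit 0) (nat_lit 117898890200) (nat_lit 76) (nat_lit 769345232528)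 (nat_lit 76) (nat_lit 705821493460) (nat_lit 3) (nat_lit 4) (nat_lit 4) (nat_lit 5) (nat_lit 4) (nat_lit 4) (nat_lit 313) (nat_lit 276) (nat_lit 191))) (XT.nd (nat_lit 78) (nat_lit 0) (nat_lit 0) (XT.lf (nat_lit 0) (nat_lit 372478612761) (nat_lit 76) (nat_lit 752924023066) (nat_lit 76) (nat_lit 689400226584) (nat_lit 3) (nat_lit 4) (nat_lit 4) (nat_lit 5) (nat_lit 4) (nat_lit 4) (nat_lit 314) (nat_lit 276) (nat_lit 190)) (XT.nd (nat_lit 78) (nat_lit 0) (nat_lit 0) (XT.lf (nat_lit 0) (nat_lit 665244893423) (nat_lit 76) (nat_lit 734039838826) (nat_lit 76) (nat_lit 670515992419) (nat_lit 3) (nat_lit 4) (nat_lit 4) (nat_lit 5) (nat_lit 4) (nat_lit 4) (nat_lit 315) (nat_lit 276) (nat_lit 189)) (XT.lf (nat_lit 0) (nat_lit 1001925768112) (nat_lit 76) (nat_lit 712323206639) (nat_lit 76) (nat_lit 648799316819) (nat_lit 3) (nat_lit 4) (nat_lit 4) (nat_lit 5) (nat_lit 4) (nat_lit 4) (nat_lit 316)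 (nat_lit 276) (nat_lit 188))))) (XT.nd (nat_lit 156) (nat_lit 0) (nat_lit 0) (XT.nd (nat_lit 78) (nat_lit 0) (nat_lit 0) (XT.lf (nat_lit 0) (nat_lit 1389108471332) (nat_lit 76) (nat_lit 687349235875) (nat_lit 76) (nat_lit 623825308304) (nat_lit 3) (nat_lit 4) (nat_lit 4) (nat_lit 5) (nat_lit 4) (nat_lit 4) (nat_lit 317) (nat_lit 276) (nat_lit 187)) (XT.lf (nat_lit 0) (nat_lit 1834368316842) (nat_lit 76) (nat_lit 658629305367) (nat_lit 76) (nat_lit 595105344970) (nat_lit 3) (nat_lit 4) (nat_lit 4) (nat_lit 5) (nat_lit 4) (nat_lit 4) (nat_lit 318) (nat_lit 276) (nat_lit 186))) (XT.nd (nat_lit 78) (nat_lit 0) (nat_lit 0) (XT.lf (nat_lit 0) (nat_lit 2346416910316) (nat_lit 76) (nat_lit 625601503431) (nat_lit 76) (nat_lit 562077514488) (nat_lit 3) (nat_lit 4) (nat_lit 4) (nat_lit 5) (nat_lit 4) (nat_lit 4) (nat_lit 319) (nat_lit 276) (nat_lit 185)) (XT.nd (nat_lit 78) (nat_lit 0) (nat_lit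 0) (XT.lf (nat_lit 0) (nat_lit 2935272593799) (nat_lit 76) (nat_lit 587619633941) (nat_lit 76) (nat_lit 524095620178) (nat_lit 3) (nat_lit 4) (nat_lit 4) (nat_lit 5) (nat_lit 4) (nat_lit 4) (nat_lit 320) (nat_lit 276) (nat_lit 184)) (XT.lf (nat_lit 0) (nat_lit 3612456456750) (nat_lit 76) (nat_lit 543940573366) (nat_lit 76) (nat_lit 480416538018) (nat_lit 3) (nat_lit 4) (nat_lit 4) (nat_lit 5) (nat_lit 4) (nat_lit 4) (nat_lit 321) (nat_lit 276) (nat_lit 183)))))) (XT.nd (nat_lit 390) (nat_lit 152) (nat_lit 0) (XT.nd (nat_lit 156) (nat_lit 0) (nat_lit 0) (XT.nd (nat_lit 78) (nat_lit 0) (nat_lit 0) (XT.lf (nat_lit 0) (nat_lit 4391217748664) (nat_lit 76) (nat_lit 493709731388) (nat_lit 76) (nat_lit 430185677272) (nat_lit 3) (nat_lit 4) (nat_lit 4) (nat_lit 5) (nat_lit 4) (nat_lit 4) (nat_lit 322) (nat_lit 276) (nat_lit 182)) (XT.lf (nat_lit 0) (nat_lit 5286793103510) (nat_lit 76) (nat_lit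 435944330665) (nat_lit 76) (nat_lit 372420260228) (nat_lit 3) (nat_lit 4) (nat_lit 4) (nat_lit 5) (nat_lit 4) (nat_lit 4) (nat_lit 323) (nat_lit 276) (nat_lit 181))) (XT.nd (nat_lit 78) (nat_lit 0) (nat_lit 0) (XT.lf (nat_lit 0) (nat_lit 6316704647799) (nat_lit 76) (nat_lit 369514178575) (nat_lit 76) (nat_lit 305990093946) (nat_lit 3) (nat_lit 4) (nat_lit 4) (nat_lit 5) (nat_lit 4) (nat_lit 4) (nat_lit 324) (nat_lit 276) (nat_lit 180)) (XT.nd (nat_lit 78) (nat_lit 0) (nat_lit 0) (XT.lf (nat_lit 0) (nat_lit 7501102824786) (nat_lit 76) (nat_lit 293119554749) (nat_lit 76) (nat_lit 229595457780) (nat_lit 3) (nat_lit 4) (nat_lit 4) (nat_lit 5) (nat_lit 4) (nat_lit 4) (nat_lit 325) (nat_lit 276) (nat_lit 179)) (XT.lf (nat_lit 0) (nat_lit 8863160642283) (nat_lit 76) (nat_lit 205265781767) (nat_lit 76) (nat_lit 141741674066) (nat_lit 3) (nat_lit 4) (nat_lit 4) (nat_lit 5) (nat_lit 4) (nat_lit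 4) (nat_lit 326) (nat_lit 276) (nat_lit 178))))) (XT.nd (nat_lit 234) (nat_lit 0) (nat_lit 0) (XT.nd (nat_lit 78) (nat_lit 152) (nat_lit 0) (XT.lf (nat_lit 0) (nat_lit 10429527057590) (nat_lit 76) (nat_lit 104233981459) (nat_lit 76) (nat_lit 40709864427) (nat_lit 3) (nat_lit 4) (nat_lit 4) (nat_lit 5) (nat_lit 4) (nat_lit 4) (nat_lit 327) (nat_lit 276) (nat_lit 177)) (XT.nd (nat_lit 78) (nat_lit 0) (nat_lit 0) (XT.lf (nat_lit 0) (nat_lit 73415451198) (nat_lit 152) (nat_lit 12050659068393) (nat_lit 0) (nat_lit 18177081506) (nat_lit 1) (nat_lit 5) (nat_lit 3) (nat_lit 4) (nat_lit 1) (nat_lit 4) (nat_lit 328) (nat_lit 276) (nat_lit 176)) (XT.lf (nat_lit 0) (nat_lit 213392540712) (nat_lit 152) (nat_lit 13571426779341) (nat_lit 0) (nat_lit 158154164884) (nat_lit 1) (nat_lit 5) (nat_lit 3) (nat_lit 4) (nat_lit 1) (nat_lit 4) (nat_lit 329) (nat_lit 276) (nat_lit 175)))) (XT.nd (nat_lit 78)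 (nat_lit 0) (nat_lit 0) (XT.lf (nat_lit 0) (nat_lit 374366165151) (nat_lit 152) (nat_lit 15320309706494) (nat_lit 0) (nat_lit 319127783988) (nat_lit 1) (nat_lit 5) (nat_lit 3) (nat_lit 4) (nat_lit 1) (nat_lit 4) (nat_lit 330) (nat_lit 276) (nat_lit 174)) (XT.nd (nat_lit 78) (nat_lit 0) (nat_lit 0) (XT.lf (nat_lit 0) (nat_lit 559485808473) (nat_lit 152) (nat_lit 17331525124514) (nat_lit 0) (nat_lit 504247422670) (nat_lit 1) (nat_lit 5) (nat_lit 3) (nat_lit 4) (nat_lit 1) (nat_lit 4) (nat_lit 331) (nat_lit 276) (nat_lit 173)) (XT.lf (nat_lit 0) (nat_lit 772373376741) (nat_lit 152) (nat_lit 19644422900275) (nat_lit 0) (nat_lit 717134986905) (nat_lit 1) (nat_lit 5) (nat_lit 3) (nat_lit 4) (nat_lit 1) (nat_lit 4) (nat_lit 332) (nat_lit 276) (nat_lit 172))))))))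
noncomputable def xc80 : XT := (XT.nd (nat_lit 37128) (nat_lit 0) (nat_lit 380) (XT.nd (nat_lit 36348) (nat_lit 0) (nat_lit 1368) (XT.nd (nat_lit 390) (nat_lit 0) (nat_lit 0) (XT.nd (nat_lit 156) (nat_lit 0) (nat_lit 0) (XT.nd (nat_lit 78) (nat_lit 0) (nat_lit 0) (XT.lf (nat_lit 0) (nat_lit 1017194061510) (nat_lit 152) (nat_lit 22304255381564) (nat_lit 0) (nat_lit 961955668166) (nat_lit 1) (nat_lit 5) (nat_lit 3) (nat_lit 4) (nat_lit 1) (nat_lit 4) (nat_lit 333) (nat_lit 276) (nat_lit 171)) (XT.lf (nat_lit 0) (nat_lit 1298737832699) (nat_lit 152) (nat_lit 25363062769102) (nat_lit 0) (nat_lit 1243499436304) (nat_lit 1) (nat_lit 5) (nat_lit 3) (nat_lit 4) (nat_lit 1) (nat_lit 4) (nat_lit 334) (nat_lit 276) (nat_lit 170))) (XT.nd (nat_lit 78) (nat_lit 0) (nat_lit 0) (XT.lf (nat_lit 0) (nat_lit 1622513155396) (nat_lit 152) (nat_lit 28880691294383) (nat_lit 0) (nat_lit 1567274756349) (nat_lit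 1) (nat_lit 5) (nat_lit 3) (nat_lit 4) (nat_lit 1) (nat_lit 4) (nat_lit 335) (nat_lit 276) (nat_lit 169)) (XT.nd (nat_lit 78) (nat_lit 0) (nat_lit 0) (XT.lf (nat_lit 0) (nat_lit 1994854764176) (nat_lit 152) (nat_lit 32925964124207) (nat_lit 0) (nat_lit 1939616362822) (nat_lit 1) (nat_lit 5) (nat_lit 3) (nat_lit 4) (nat_lit 1) (nat_lit 4) (nat_lit 336) (nat_lit 276) (nat_lit 168)) (XT.lf (nat_lit 0) (nat_lit 2423047603558) (nat_lit 152) (nat_lit 37578027900897) (nat_lit 0) (nat_lit 2367809200198) (nat_lit 1) (nat_lit 5) (nat_lit 3) (nat_lit 4) (nat_lit 1) (nat_lit 4) (nat_lit 337) (nat_lit 276) (nat_lit 167))))) (XT.nd (nat_lit 156) (nat_lit 0) (nat_lit 0) (XT.nd (nat_lit 78) (nat_lit 0) (nat_lit 0) (XT.lf (nat_lit 0) (nat_lit 2915469359530) (nat_lit 152) (nat_lit 42927901263561) (nat_lit 0) (nat_lit 2860230954426) (nat_lit 1) (nat_lit 5) (nat_lit 3) (nat_lit 4) (nat_lit 1) (nat_lit 4)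 (nat_lit 338) (nat_lit 276) (nat_lit 166)) (XT.lf (nat_lit 0) (nat_lit 3481754370796) (nat_lit 152) (nat_lit 49080255647557) (nat_lit 0) (nat_lit 3426515964176) (nat_lit 1) (nat_lit 5) (nat_lit 3) (nat_lit 4) (nat_lit 1) (nat_lit 4) (nat_lit 339) (nat_lit 276) (nat_lit 165))) (XT.nd (nat_lit 78) (nat_lit 0) (nat_lit 0) (XT.lf (nat_lit 0) (nat_lit 4132982126707) (nat_lit 152) (nat_lit 56155463203875) (nat_lit 0) (nat_lit 4077743718768) (nat_lit 1) (nat_lit 5) (nat_lit 3) (nat_lit 4) (nat_lit 1) (nat_lit 4) (nat_lit 340) (nat_lit 276) (nat_lit 164)) (XT.nd (nat_lit 35646) (nat_lit 0) (nat_lit 1824) (XT.lf (nat_lit 0) (nat_lit 4881894039878) (nat_lit 152) (nat_lit 64291951906444) (nat_lit 0) (nat_lit 4826655630793) (nat_lit 1) (nat_lit 5) (nat_lit 3) (nat_lit 4) (nat_lit 1) (nat_lit 4) (nat_lit 341) (nat_lit 276) (nat_lit 163)) (XT.lf (nat_lit 0) (nat_lit 4403675235) (nat_lit 380) (nat_lit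 8738850711) (nat_lit 380) (nat_lit 8738850711) (nat_lit 25) (nat_lit 3) (nat_lit 30) (nat_lit 3) (nat_lit 30) (nat_lit 5) (nat_lit 277) (nat_lit 277) (nat_lit 226)))))) (XT.nd (nat_lit 390) (nat_lit 304) (nat_lit 0) (XT.nd (nat_lit 156) (nat_lit 152) (nat_lit 0) (XT.nd (nat_lit 78) (nat_lit 0) (nat_lit 76) (XT.lf (nat_lit 76) (nat_lit 3726715917) (nat_lit 0) (nat_lit 5926761590) (nat_lit 380) (nat_lit 37363563287) (nat_lit 26) (nat_lit 5) (nat_lit 25) (nat_lit 3) (nat_lit 30) (nat_lit 5) (nat_lit 278) (nat_lit 277) (nat_lit 225)) (XT.lf (nat_lit 0) (nat_lit 12302042518) (nat_lit 304) (nat_lit 21318395614) (nat_lit 380) (nat_lit 16887720139) (nat_lit 26) (nat_lit 5) (nat_lit 30) (nat_lit 5) (nat_lit 31) (nat_lit 5) (nat_lit 279) (nat_lit 277) (nat_lit 224))) (XT.nd (nat_lit 78) (nat_lit 228) (nat_lit 0) (XT.lf (nat_lit 76) (nat_lit 4021191893) (nat_lit 0) (nat_lit 11770548165) (nat_lit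 380) (nat_lit 38664638944) (nat_lit 27) (nat_lit 5) (nat_lit 26) (nat_lit 5) (nat_lit 31) (nat_lit 5) (nat_lit 280) (nat_lit 277) (nat_lit 223)) (XT.nd (nat_lit 78) (nat_lit 304) (nat_lit 0) (XT.lf (nat_lit 0) (nat_lit 21521029626) (nat_lit 304) (nat_lit 23882627256) (nat_lit 76) (nat_lit 13335766480) (nat_lit 27) (nat_lit 5) (nat_lit 31) (nat_lit 5) (nat_lit 28) (nat_lit 5) (nat_lit 281) (nat_lit 277) (nat_lit 222)) (XT.lf (nat_lit 0) (nat_lit 6683478940) (nat_lit 304) (nat_lit 22259679195) (nat_lit 380) (nat_lit 34596759090) (nat_lit 23) (nat_lit 5) (nat_lit 27) (nat_lit 5) (nat_lit 28) (nat_lit 5) (nat_lit 282) (nat_lit 277) (nat_lit 221))))) (XT.nd (nat_lit 156) (nat_lit 152) (nat_lit 0) (XT.nd (nat_lit 78) (nat_lit 152) (nat_lit 0) (XT.lf (nat_lit 0) (nat_lit 38963362742) (nat_lit 380) (nat_lit 24598646387) (nat_lit 76) (nat_lit 5275770933) (nat_lit 23) (nat_lit 5) (nat_lit 28)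 (nat_lit 5) (nat_lit 24) (nat_lit 5) (nat_lit 283) (nat_lit 277) (nat_lit 220)) (XT.lf (nat_lit 0) (nat_lit 12551618874) (nat_lit 152) (nat_lit 39511682557) (nat_lit 228) (nat_lit 22630522702) (nat_lit 21) (nat_lit 5) (nat_lit 23) (nat_lit 5) (nat_lit 24) (nat_lit 5) (nat_lit 284) (nat_lit 277) (nat_lit 219))) (XT.nd (nat_lit 78) (nat_lit 152) (nat_lit 0) (XT.lf (nat_lit 0) (nat_lit 58035499310) (nat_lit 152) (nat_lit 10375802403) (nat_lit 228) (nat_lit 12824518846) (nat_lit 21) (nat_lit 5) (nat_lit 23) (nat_lit 5) (nat_lit 24) (nat_lit 5) (nat_lit 285) (nat_lit 277) (nat_lit 218)) (XT.nd (nat_lit 78) (nat_lit 0) (nat_lit 0) (XT.lf (nat_lit 0) (nat_lit 572989304) (nat_lit 152) (nat_lit 65864261666) (nat_lit 76) (nat_lit 22034059145) (nat_lit 19) (nat_lit 5) (nat_lit 21) (nat_lit 5) (nat_lit 20) (nat_lit 5) (nat_lit 286) (nat_lit 277) (nat_lit 217)) (XT.lf (nat_lit 0) (nat_lit 16429357553)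 (nat_lit 152) (nat_lit 19883261367) (nat_lit 76) (nat_lit 60123571613) (nat_lit 19) (nat_lit 5) (nat_lit 21) (nat_lit 5) (nat_lit 20) (nat_lit 5) (nat_lit 287) (nat_lit 277) (nat_lit 216))))))) (XT.nd (nat_lit 780) (nat_lit 380) (nat_lit 0) (XT.nd (nat_lit 390) (nat_lit 228) (nat_lit 0) (XT.nd (nat_lit 156) (nat_lit 228) (nat_lit 0) (XT.nd (nat_lit 78) (nat_lit 0) (nat_lit 0) (XT.lf (nat_lit 0) (nat_lit 36164011011) (nat_lit 228) (nat_lit 69157319880) (nat_lit 76) (nat_lit 49501265) (nat_lit 17) (nat_lit 5) (nat_lit 20) (nat_lit 5) (nat_lit 18) (nat_lit 4) (nat_lit 288) (nat_lit 277) (nat_lit 215)) (XT.lf (nat_lit 0) (nat_lit 61674938001) (nat_lit 228) (nat_lit 14312132475) (nat_lit 76) (nat_lit 39236191383) (nat_lit 17) (nat_lit 5) (nat_lit 20) (nat_lit 5) (nat_lit 18) (nat_lit 4) (nat_lit 289) (nat_lit 277) (nat_lit 214))) (XT.nd (nat_lit 78) (nat_lit 152) (nat_lit 0) (XT.lf (nat_lit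 0) (nat_lit 53522030465) (nat_lit 76) (nat_lit 39705017952) (nat_lit 152) (nat_lit 32994328694) (nat_lit 16) (nat_lit 5) (nat_lit 17) (nat_lit 5) (nat_lit 18) (nat_lit 4) (nat_lit 290) (nat_lit 277) (nat_lit 213)) (XT.nd (nat_lit 78) (nat_lit 152) (nat_lit 0) (XT.lf (nat_lit 0) (nat_lit 130377734696) (nat_lit 152) (nat_lit 5739203245) (nat_lit 0) (nat_lit 2622410208) (nat_lit 16) (nat_lit 5) (nat_lit 18) (nat_lit 4) (nat_lit 16) (nat_lit 4) (nat_lit 291) (nat_lit 277) (nat_lit 212)) (XT.lf (nat_lit 0) (nat_lit 23471191649) (nat_lit 152) (nat_lit 77294152443) (nat_lit 76) (nat_lit 51453255866) (nat_lit 14) (nat_lit 5) (nat_lit 16) (nat_lit 5) (nat_lit 15) (nat_lit 4) (nat_lit 292) (nat_lit 277) (nat_lit 211))))) (XT.nd (nat_lit 156) (nat_lit 152) (nat_lit 0) (XT.nd (nat_lit 78) (nat_lit 0) (nat_lit 0) (XT.lf (nat_lit 0) (nat_lit 266763765) (nat_lit 76) (nat_lit 59280037040) (nat_lit 152)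 (nat_lit 108064621508) (nat_lit 13) (nat_lit 5) (nat_lit 14) (nat_lit 5) (nat_lit 15) (nat_lit 4) (nat_lit 293) (nat_lit 277) (nat_lit 210)) (XT.lf (nat_lit 0) (nat_lit 98146294620) (nat_lit 76) (nat_lit 6926534077) (nat_lit 152) (nat_lit 79634479089) (nat_lit 13) (nat_lit 5) (nat_lit 14) (nat_lit 5) (nat_lit 15) (nat_lit 4) (nat_lit 294) (nat_lit 277) (nat_lit 209))) (XT.nd (nat_lit 78) (nat_lit 76) (nat_lit 0) (XT.lf (nat_lit 0) (nat_lit 4535597522) (nat_lit 76) (nat_lit 155285017050) (nat_lit 76) (nat_lit 44188034627) (nat_lit 12) (nat_lit 4) (nat_lit 13) (nat_lit 5) (nat_lit 13) (nat_lit 4) (nat_lit 295) (nat_lit 277) (nat_lit 208)) (XT.nd (nat_lit 78) (nat_lit 0) (nat_lit 0) (XT.lf (nat_lit 0) (nat_lit 1949187956) (nat_lit 152) (nat_lit 106907167981) (nat_lit 76) (nat_lit 116609768571) (nat_lit 11) (nat_lit 5) (nat_lit 13) (nat_lit 5) (nat_lit 12) (nat_lit 4) (nat_lit 296) (nat_lit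 277) (nat_lit 207)) (XT.lf (nat_lit 0) (nat_lit 50481978139) (nat_lit 152) (nat_lit 2562486187) (nat_lit 76) (nat_lit 196782279159) (nat_lit 11) (nat_lit 5) (nat_lit 13) (nat_lit 5) (nat_lit 12) (nat_lit 4) (nat_lit 297) (nat_lit 277) (nat_lit 206)))))) (XT.nd (nat_lit 390) (nat_lit 76) (nat_lit 0) (XT.nd (nat_lit 156) (nat_lit 228) (nat_lit 0) (XT.nd (nat_lit 78) (nat_lit 0) (nat_lit 0) (XT.lf (nat_lit 0) (nat_lit 112347045878) (nat_lit 152) (nat_lit 148847727516) (nat_lit 0) (nat_lit 15738828740) (nat_lit 10) (nat_lit 5) (nat_lit 12) (nat_lit 4) (nat_lit 10) (nat_lit 4) (nat_lit 298) (nat_lit 277) (nat_lit 205)) (XT.lf (nat_lit 0) (nat_lit 186157273084) (nat_lit 152) (nat_lit 32000888502) (nat_lit 0) (nat_lit 89548518690) (nat_lit 10) (nat_lit 5) (nat_lit 12) (nat_lit 4) (nat_lit 10) (nat_lit 4) (nat_lit 299) (nat_lit 277) (nat_lit 204))) (XT.nd (nat_lit 78) (nat_lit 152) (nat_lit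 0) (XT.lf (nat_lit 0) (nat_lit 112376019936) (nat_lit 76) (nat_lit 163315523003) (nat_lit 76) (nat_lit 66706301429) (nat_lit 9) (nat_lit 4) (nat_lit 10) (nat_lit 5) (nat_lit 10) (nat_lit 4) (nat_lit 300) (nat_lit 277) (nat_lit 203)) (XT.nd (nat_lit 78) (nat_lit 152) (nat_lit 0) (XT.lf (nat_lit 0) (nat_lit 282004547082) (nat_lit 76) (nat_lit 98323476830) (nat_lit 76) (nat_lit 1713849013) (nat_lit 9) (nat_lit 4) (nat_lit 10) (nat_lit 5) (nat_lit 10) (nat_lit 4) (nat_lit 301) (nat_lit 277) (nat_lit 202)) (XT.lf (nat_lit 0) (nat_lit 50956139725) (nat_lit 76) (nat_lit 17679265296) (nat_lit 152) (nat_lit 358227112669) (nat_lit 7) (nat_lit 5) (nat_lit 8) (nat_lit 5) (nat_lit 9) (nat_lit 4) (nat_lit 302) (nat_lit 277) (nat_lit 201))))) (XT.nd (nat_lit 156) (nat_lit 76) (nat_lit 0) (XT.nd (nat_lit 78) (nat_lit 0) (nat_lit 0) (XT.lf (nat_lit 0) (nat_lit 157947324034) (nat_lit 152) (nat_lit 245220454566)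 (nat_lit 0) (nat_lit 73938377730) (nat_lit 7) (nat_lit 5) (nat_lit 9) (nat_lit 4) (nat_lit 7) (nat_lit 4) (nat_lit 303) (nat_lit 277) (nat_lit 200)) (XT.lf (nat_lit 0) (nat_lit 261497351092) (nat_lit 152) (nat_lit 95774619383) (nat_lit 0) (nat_lit 177488172517) (nat_lit 7) (nat_lit 5) (nat_lit 9) (nat_lit 4) (nat_lit 7) (nat_lit 4) (nat_lit 304) (nat_lit 277) (nat_lit 199))) (XT.nd (nat_lit 78) (nat_lit 0) (nat_lit 0) (XT.lf (nat_lit 0) (nat_lit 83522916071) (nat_lit 76) (nat_lit 300514994081) (nat_lit 76) (nat_lit 216505613532) (nat_lit 6) (nat_lit 4) (nat_lit 7) (nat_lit 5) (nat_lit 7) (nat_lit 4) (nat_lit 305) (nat_lit 277) (nat_lit 198)) (XT.nd (nat_lit 78) (nat_lit 0) (nat_lit 0) (XT.lf (nat_lit 0) (nat_lit 300477924233) (nat_lit 76) (nat_lit 229487575788) (nat_lit 76) (nat_lit 145478019609) (nat_lit 6) (nat_lit 4) (nat_lit 7) (nat_lit 5) (nat_lit 7) (nat_lit 4) (nat_lit 306) (nat_lit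 277) (nat_lit 197)) (XT.lf (nat_lit 0) (nat_lit 549975384651) (nat_lit 76) (nat_lit 147806449277) (nat_lit 76) (nat_lit 63796740376) (nat_lit 6) (nat_lit 4) (nat_lit 7) (nat_lit 5) (nat_lit 7) (nat_lit 4) (nat_lit 307) (nat_lit 277) (nat_lit 196))))))))
noncomputable def xc81 : XT := (XT.nd (nat_lit 1560) (nat_lit 152) (nat_lit 0) (XT.nd (nat_lit 780) (nat_lit 0) (nat_lit 0) (XT.nd (nat_lit 390) (nat_lit 76) (nat_lit 0) (XT.nd (nat_lit 156) (nat_lit 0) (nat_lit 0) (XT.nd (nat_lit 78) (nat_lit 76) (nat_lit 0) (XT.lf (nat_lit 0) (nat_lit 27453391112) (nat_lit 152) (nat_lit 24985050809) (nat_lit 76) (nat_lit 808008314639) (nat_lit 5) (nat_lit 5) (nat_lit 7) (nat_lit 5) (nat_lit 6) (nat_lit 4) (nat_lit 308) (nat_lit 277) (nat_lit 195)) (XT.lf (nat_lit 0) (nat_lit 137258885193) (nat_lit 152) (nat_lit 770513929473) (nat_lit 0) (nat_lit 64206748513) (nat_lit 4) (nat_lit 5) (nat_lit 6) (nat_lit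 4) (nat_lit 4) (nat_lit 4) (nat_lit 309) (nat_lit 277) (nat_lit 194))) (XT.nd (nat_lit 78) (nat_lit 0) (nat_lit 0) (XT.lf (nat_lit 0) (nat_lit 267400191330) (nat_lit 152) (nat_lit 637914384032) (nat_lit 0) (nat_lit 194347967331) (nat_lit 4) (nat_lit 5) (nat_lit 6) (nat_lit 4) (nat_lit 4) (nat_lit 4) (nat_lit 310) (nat_lit 277) (nat_lit 193)) (XT.nd (nat_lit 78) (nat_lit 0) (nat_lit 0) (XT.lf (nat_lit 0) (nat_lit 417062424092) (nat_lit 152) (nat_lit 485425461358) (nat_lit 0) (nat_lit 344010124163) (nat_lit 4) (nat_lit 5) (nat_lit 6) (nat_lit 4) (nat_lit 4) (nat_lit 4) (nat_lit 311) (nat_lit 277) (nat_lit 192)) (XT.lf (nat_lit 0) (nat_lit 589173757598) (nat_lit 152) (nat_lit 310063682529) (nat_lit 0) (nat_lit 516121391643) (nat_lit 4) (nat_lit 5) (nat_lit 6) (nat_lit 4) (nat_lit 4) (nat_lit 4) (nat_lit 312) (nat_lit 277) (nat_lit 191))))) (XT.nd (nat_lit 156) (nat_lit 0) (nat_lit 0) (XT.nd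 (nat_lit 78) (nat_lit 76) (nat_lit 0) (XT.lf (nat_lit 0) (nat_lit 787101587503) (nat_lit 152) (nat_lit 108398056220) (nat_lit 0) (nat_lit 714049164134) (nat_lit 4) (nat_lit 5) (nat_lit 6) (nat_lit 4) (nat_lit 4) (nat_lit 4) (nat_lit 313) (nat_lit 277) (nat_lit 190)) (XT.lf (nat_lit 0) (nat_lit 135588033759) (nat_lit 76) (nat_lit 884744792403) (nat_lit 76) (nat_lit 811692319109) (nat_lit 3) (nat_lit 4) (nat_lit 4) (nat_lit 5) (nat_lit 4) (nat_lit 4) (nat_lit 314) (nat_lit 277) (nat_lit 189))) (XT.nd (nat_lit 78) (nat_lit 0) (nat_lit 0) (XT.lf (nat_lit 0) (nat_lit 428354152527) (nat_lit 76) (nat_lit 865860691739) (nat_lit 76) (nat_lit 792808175033) (nat_lit 3) (nat_lit 4) (nat_lit 4) (nat_lit 5) (nat_lit 4) (nat_lit 4) (nat_lit 315) (nat_lit 277) (nat_lit 188)) (XT.nd (nat_lit 78) (nat_lit 0) (nat_lit 0) (XT.lf (nat_lit 0) (nat_lit 765034886438) (nat_lit 76) (nat_lit 844144132227) (nat_lit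 76) (nat_lit 771091577770) (nat_lit 3) (nat_lit 4) (nat_lit 4) (nat_lit 5) (nat_lit 4) (nat_lit 4) (nat_lit 316) (nat_lit 277) (nat_lit 187)) (XT.lf (nat_lit 0) (nat_lit 1152217467243) (nat_lit 76) (nat_lit 819170224659) (nat_lit 76) (nat_lit 746117637375) (nat_lit 3) (nat_lit 4) (nat_lit 4) (nat_lit 5) (nat_lit 4) (nat_lit 4) (nat_lit 317) (nat_lit 277) (nat_lit 186)))))) (XT.nd (nat_lit 390) (nat_lit 0) (nat_lit 0) (XT.nd (nat_lit 156) (nat_lit 0) (nat_lit 0) (XT.nd (nat_lit 78) (nat_lit 0) (nat_lit 0) (XT.lf (nat_lit 0) (nat_lit 1597477206305) (nat_lit 76) (nat_lit 790450349103) (nat_lit 76) (nat_lit 717397733274) (nat_lit 3) (nat_lit 4) (nat_lit 4) (nat_lit 5) (nat_lit 4) (nat_lit 4) (nat_lit 318) (nat_lit 277) (nat_lit 185)) (XT.lf (nat_lit 0) (nat_lit 2109525707215) (nat_lit 76) (nat_lit 757422594951) (nat_lit 76) (nat_lit 684369954301) (nat_lit 3) (nat_lit 4) (nat_lit 4) (nat_lit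 5) (nat_lit 4) (nat_lit 4) (nat_lit 319) (nat_lit 277) (nat_lit 184))) (XT.nd (nat_lit 78) (nat_lit 0) (nat_lit 0) (XT.lf (nat_lit 0) (nat_lit 2698381310208) (nat_lit 76) (nat_lit 719440767014) (nat_lit 76) (nat_lit 646388104780) (nat_lit 3) (nat_lit 4) (nat_lit 4) (nat_lit 5) (nat_lit 4) (nat_lit 4) (nat_lit 320) (nat_lit 277) (nat_lit 183)) (XT.nd (nat_lit 78) (nat_lit 0) (nat_lit 0) (XT.lf (nat_lit 0) (nat_lit 3375565103168) (nat_lit 76) (nat_lit 675761742571) (nat_lit 76) (nat_lit 602709061568) (nat_lit 3) (nat_lit 4) (nat_lit 4) (nat_lit 5) (nat_lit 4) (nat_lit 4) (nat_lit 321) (nat_lit 277) (nat_lit 182)) (XT.lf (nat_lit 0) (nat_lit 4154326334219) (nat_lit 76) (nat_lit 625530932013) (nat_lit 76) (nat_lit 552478234689) (nat_lit 3) (nat_lit 4) (nat_lit 4) (nat_lit 5) (nat_lit 4) (nat_lit 4) (nat_lit 322) (nat_lit 277) (nat_lit 181))))) (XT.nd (nat_lit 156) (nat_lit 0) (nat_lit 0)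 (XT.nd (nat_lit 78) (nat_lit 0) (nat_lit 0) (XT.lf (nat_lit 0) (nat_lit 5049901636143) (nat_lit 76) (nat_lit 567765558611) (nat_lit 76) (nat_lit 494712847096) (nat_lit 3) (nat_lit 4) (nat_lit 4) (nat_lit 5) (nat_lit 4) (nat_lit 4) (nat_lit 323) (nat_lit 277) (nat_lit 180)) (XT.lf (nat_lit 0) (nat_lit 6079813134410) (nat_lit 76) (nat_lit 501335430278) (nat_lit 76) (nat_lit 428282706422) (nat_lit 3) (nat_lit 4) (nat_lit 4) (nat_lit 5) (nat_lit 4) (nat_lit 4) (nat_lit 324) (nat_lit 277) (nat_lit 179))) (XT.nd (nat_lit 78) (nat_lit 0) (nat_lit 0) (XT.lf (nat_lit 0) (nat_lit 7264211271380) (nat_lit 76) (nat_lit 424940827111) (nat_lit 76) (nat_lit 351888092525) (nat_lit 3) (nat_lit 4) (nat_lit 4) (nat_lit 5) (nat_lit 4) (nat_lit 4) (nat_lit 325) (nat_lit 277) (nat_lit 178)) (XT.nd (nat_lit 78) (nat_lit 0) (nat_lit 0) (XT.lf (nat_lit 0) (nat_lit 8626269054079) (nat_lit 76) (nat_lit 337087072093)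 (nat_lit 76) (nat_lit 264034328175) (nat_lit 3) (nat_lit 4) (nat_lit 4) (nat_lit 5) (nat_lit 4) (nat_lit 4) (nat_lit 326) (nat_lit 277) (nat_lit 177)) (XT.lf (nat_lit 0) (nat_lit 10192635439126) (nat_lit 76) (nat_lit 236055287406) (nat_lit 76) (nat_lit 163002535374) (nat_lit 3) (nat_lit 4) (nat_lit 4) (nat_lit 5) (nat_lit 4) (nat_lit 4) (nat_lit 327) (nat_lit 277) (nat_lit 176))))))) (XT.nd (nat_lit 780) (nat_lit 0) (nat_lit 0) (XT.nd (nat_lit 390) (nat_lit 0) (nat_lit 0) (XT.nd (nat_lit 156) (nat_lit 0) (nat_lit 0) (XT.nd (nat_lit 78) (nat_lit 152) (nat_lit 0) (XT.lf (nat_lit 0) (nat_lit 11993956725359) (nat_lit 76) (nat_lit 119868764221) (nat_lit 76) (nat_lit 46816005133) (nat_lit 3) (nat_lit 4) (nat_lit 4) (nat_lit 5) (nat_lit 4) (nat_lit 4) (nat_lit 328) (nat_lit 277) (nat_lit 175)) (XT.lf (nat_lit 0) (nat_lit 84428075763) (nat_lit 152) (nat_lit 13858257287312) (nat_lit 0) (nat_lit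 20903932091) (nat_lit 1) (nat_lit 5) (nat_lit 3) (nat_lit 4) (nat_lit 1) (nat_lit 4) (nat_lit 329) (nat_lit 277) (nat_lit 174))) (XT.nd (nat_lit 78) (nat_lit 0) (nat_lit 0) (XT.lf (nat_lit 0) (nat_lit 245401688675) (nat_lit 152) (nat_lit 15607140238555) (nat_lit 0) (nat_lit 181877540363) (nat_lit 1) (nat_lit 5) (nat_lit 3) (nat_lit 4) (nat_lit 1) (nat_lit 4) (nat_lit 330) (nat_lit 277) (nat_lit 173)) (XT.nd (nat_lit 78) (nat_lit 0) (nat_lit 0) (XT.lf (nat_lit 0) (nat_lit 430521321973) (nat_lit 152) (nat_lit 17618355677523) (nat_lit 0) (nat_lit 366997169627) (nat_lit 1) (nat_lit 5) (nat_lit 3) (nat_lit 4) (nat_lit 1) (nat_lit 4) (nat_lit 331) (nat_lit 277) (nat_lit 172)) (XT.lf (nat_lit 0) (nat_lit 643408881526) (nat_lit 152) (nat_lit 19931253471500) (nat_lit 0) (nat_lit 579884725671) (nat_lit 1) (nat_lit 5) (nat_lit 3) (nat_lit 4) (nat_lit 1) (nat_lit 4) (nat_lit 332) (nat_lit 277) (nat_lit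 171))))) (XT.nd (nat_lit 156) (nat_lit 0) (nat_lit 0) (XT.nd (nat_lit 78) (nat_lit 0) (nat_lit 0) (XT.lf (nat_lit 0) (nat_lit 888229558715) (nat_lit 152) (nat_lit 22591085968628) (nat_lit 0) (nat_lit 824705399811) (nat_lit 1) (nat_lit 5) (nat_lit 3) (nat_lit 4) (nat_lit 1) (nat_lit 4) (nat_lit 333) (nat_lit 277) (nat_lit 170)) (XT.lf (nat_lit 0) (nat_lit 1169773323313) (nat_lit 152) (nat_lit 25649893369940) (nat_lit 0) (nat_lit 1106249161756) (nat_lit 1) (nat_lit 5) (nat_lit 3) (nat_lit 4) (nat_lit 1) (nat_lit 4) (nat_lit 334) (nat_lit 277) (nat_lit 169))) (XT.nd (nat_lit 78) (nat_lit 0) (nat_lit 0) (XT.lf (nat_lit 0) (nat_lit 1493548640279) (nat_lit 152) (nat_lit 29167521907198) (nat_lit 0) (nat_lit 1430024476415) (nat_lit 1) (nat_lit 5) (nat_lit 3) (nat_lit 4) (nat_lit 1) (nat_lit 4) (nat_lit 335) (nat_lit 277) (nat_lit 168)) (XT.nd (nat_lit 78) (nat_lit 0) (nat_lit 0) (XT.lf (nat_lit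 0) (nat_lit 1865890244075) (nat_lit 152) (nat_lit 33212794747437) (nat_lit 0) (nat_lit 1802366078206) (nat_lit 1) (nat_lit 5) (nat_lit 3) (nat_lit 4) (nat_lit 1) (nat_lit 4) (nat_lit 336) (nat_lit 277) (nat_lit 167)) (XT.lf (nat_lit 0) (nat_lit 2294083079124) (nat_lit 152) (nat_lit 37864858533183) (nat_lit 0) (nat_lit 2230558911510) (nat_lit 1) (nat_lit 5) (nat_lit 3) (nat_lit 4) (nat_lit 1) (nat_lit 4) (nat_lit 337) (nat_lit 277) (nat_lit 166)))))) (XT.nd (nat_lit 1716) (nat_lit 0) (nat_lit 0) (XT.nd (nat_lit 156) (nat_lit 0) (nat_lit 0) (XT.nd (nat_lit 78) (nat_lit 0) (nat_lit 0) (XT.lf (nat_lit 0) (nat_lit 2786504831327) (nat_lit 152) (nat_lit 43214731903723) (nat_lit 0) (nat_lit 2722980662197) (nat_lit 1) (nat_lit 5) (nat_lit 3) (nat_lit 4) (nat_lit 1) (nat_lit 4) (nat_lit 338) (nat_lit 277) (nat_lit 165)) (XT.lf (nat_lit 0) (nat_lit 3352789839317) (nat_lit 152) (nat_lit 49367086294566)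 (nat_lit 0) (nat_lit 3289265668868) (nat_lit 1) (nat_lit 5) (nat_lit 3) (nat_lit 4) (nat_lit 1) (nat_lit 4) (nat_lit 339) (nat_lit 277) (nat_lit 164))) (XT.nd (nat_lit 78) (nat_lit 0) (nat_lit 0) (XT.lf (nat_lit 0) (nat_lit 4004017592378) (nat_lit 152) (nat_lit 56442293856839) (nat_lit 0) (nat_lit 3940493420783) (nat_lit 1) (nat_lit 5) (nat_lit 3) (nat_lit 4) (nat_lit 1) (nat_lit 4) (nat_lit 340) (nat_lit 277) (nat_lit 163)) (XT.nd (nat_lit 1404) (nat_lit 0) (nat_lit 0) (XT.lf (nat_lit 0) (nat_lit 4752929503072) (nat_lit 152) (nat_lit 64578782564585) (nat_lit 0) (nat_lit 4689405330479) (nat_lit 1) (nat_lit 5) (nat_lit 3) (nat_lit 4) (nat_lit 1) (nat_lit 4) (nat_lit 341) (nat_lit 277) (nat_lit 162)) (XT.lf (nat_lit 0) (nat_lit 70066892155025) (nat_lit 152) (nat_lit 774176700532417) (nat_lit 0) (nat_lit 70003367976322) (nat_lit 1) (nat_lit 5) (nat_lit 3) (nat_lit 4) (nat_lit 1) (nat_lit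 4) (nat_lit 359) (nat_lit 277) (nat_lit 144))))) (XT.nd (nat_lit 34320) (nat_lit 0) (nat_lit 1824) (XT.nd (nat_lit 78) (nat_lit 0) (nat_lit 0) (XT.lf (nat_lit 0) (nat_lit 80725235217097) (nat_lit 152) (nat_lit 889973350310503) (nat_lit 0) (nat_lit 80661711038325) (nat_lit 1) (nat_lit 5) (nat_lit 3) (nat_lit 4) (nat_lit 1) (nat_lit 4) (nat_lit 360) (nat_lit 277) (nat_lit 143)) (XT.nd (nat_lit 34164) (nat_lit 0) (nat_lit 1824) (XT.lf (nat_lit 0) (nat_lit 92982329738155) (nat_lit 152) (nat_lit 1023139497555984) (nat_lit 0) (nat_lit 92918805559321) (nat_lit 1) (nat_lit 5) (nat_lit 3) (nat_lit 4) (nat_lit 1) (nat_lit 4) (nat_lit 361) (nat_lit 277) (nat_lit 142)) (XT.lf (nat_lit 0) (nat_lit 5094192486) (nat_lit 380) (nat_lit 10032408269) (nat_lit 380) (nat_lit 10032408269) (nat_lit 25) (nat_lit 3) (nat_lit 30) (nat_lit 3) (nat_lit 30) (nat_lit 5) (nat_lit 278) (nat_lit 278) (nat_lit 224))))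 (XT.nd (nat_lit 78) (nat_lit 0) (nat_lit 76) (XT.lf (nat_lit 76) (nat_lit 4318693398) (nat_lit 0) (nat_lit 6836285679) (nat_lit 380) (nat_lit 42906458040) (nat_lit 26) (nat_lit 5) (nat_lit 25) (nat_lit 3) (nat_lit 30) (nat_lit 5) (nat_lit 279) (nat_lit 278) (nat_lit 223)) (XT.nd (nat_lit 78) (nat_lit 0) (nat_lit 0) (XT.lf (nat_lit 0) (nat_lit 14193114700) (nat_lit 304) (nat_lit 24479651339) (nat_lit 380) (nat_lit 19404631272) (nat_lit 26) (nat_lit 5) (nat_lit 30) (nat_lit 5) (nat_lit 31) (nat_lit 5) (nat_lit 280) (nat_lit 278) (nat_lit 222)) (XT.lf (nat_lit 76) (nat_lit 4659215038) (nat_lit 0) (nat_lit 13542525210) (nat_lit 380) (nat_lit 44416805526) (nat_lit 27) (nat_lit 5) (nat_lit 26) (nat_lit 5) (nat_lit 31) (nat_lit 5) (nat_lit 281) (nat_lit 278) (nat_lit 221))))))))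
noncomputable def xc82 : XT := (XT.nd (nat_lit 1560) (nat_lit 456) (nat_lit 0) (XT.nd (nat_lit 780) (nat_lit 532) (nat_lit 0) (XT.nd (nat_lit 390) (nat_lit 380) (nat_lit 0) (XT.nd (nat_lit 156) (nat_lit 152) (nat_lit 0) (XT.nd (nat_lit 78) (nat_lit 304) (nat_lit 0) (XT.lf (nat_lit 0) (nat_lit 24784813971) (nat_lit 304) (nat_lit 27429022010) (nat_lit 76) (nat_lit 15331065791) (nat_lit 27) (nat_lit 5) (nat_lit 31) (nat_lit 5) (nat_lit 28) (nat_lit 5) (nat_lit 282) (nat_lit 278) (nat_lit 220)) (XT.lf (nat_lit 0) (nat_lit 7720363782) (nat_lit 304) (nat_lit 25596673495) (nat_lit 380) (nat_lit 39748927930) (nat_lit 23) (nat_lit 5) (nat_lit 27) (nat_lit 5) (nat_lit 28) (nat_lit 5) (nat_lit 283) (nat_lit 278) (nat_lit 219))) (XT.nd (nat_lit 78) (nat_lit 152) (nat_lit 0) (XT.lf (nat_lit 0) (nat_lit 44836116267) (nat_lit 380) (nat_lit 28254337654) (nat_lit 76) (nat_lit 6068687271) (nat_lit 23)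 (nat_lit 5) (nat_lit 28) (nat_lit 5) (nat_lit 24) (nat_lit 5) (nat_lit 284) (nat_lit 278) (nat_lit 218)) (XT.nd (nat_lit 78) (nat_lit 0) (nat_lit 0) (XT.lf (nat_lit 0) (nat_lit 14466917137) (nat_lit 152) (nat_lit 45431792005) (nat_lit 228) (nat_lit 25995242159) (nat_lit 21) (nat_lit 5) (nat_lit 23) (nat_lit 5) (nat_lit 24) (nat_lit 5) (nat_lit 285) (nat_lit 278) (nat_lit 217)) (XT.lf (nat_lit 0) (nat_lit 66769133279) (nat_lit 152) (nat_lit 11926396298) (nat_lit 228) (nat_lit 14722232370) (nat_lit 21) (nat_lit 5) (nat_lit 23) (nat_lit 5) (nat_lit 24) (nat_lit 5) (nat_lit 286) (nat_lit 278) (nat_lit 216))))) (XT.nd (nat_lit 156) (nat_lit 228) (nat_lit 0) (XT.nd (nat_lit 78) (nat_lit 0) (nat_lit 0) (XT.lf (nat_lit 0) (nat_lit 681027646) (nat_lit 152) (nat_lit 75711633265) (nat_lit 76) (nat_lit 25345993057) (nat_lit 19) (nat_lit 5) (nat_lit 21) (nat_lit 5) (nat_lit 20) (nat_lit 5) (nat_lit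 287) (nat_lit 278) (nat_lit 215)) (XT.lf (nat_lit 0) (nat_lit 18912969835) (nat_lit 152) (nat_lit 22837691745) (nat_lit 76) (nat_lit 69148042172) (nat_lit 19) (nat_lit 5) (nat_lit 21) (nat_lit 5) (nat_lit 20) (nat_lit 5) (nat_lit 288) (nat_lit 278) (nat_lit 214))) (XT.nd (nat_lit 78) (nat_lit 76) (nat_lit 0) (XT.lf (nat_lit 0) (nat_lit 41606796359) (nat_lit 228) (nat_lit 79501804462) (nat_lit 76) (nat_lit 65098984) (nat_lit 17) (nat_lit 5) (nat_lit 20) (nat_lit 5) (nat_lit 18) (nat_lit 4) (nat_lit 289) (nat_lit 278) (nat_lit 213)) (XT.nd (nat_lit 78) (nat_lit 76) (nat_lit 0) (XT.lf (nat_lit 0) (nat_lit 70941990610) (nat_lit 228) (nat_lit 16433636347) (nat_lit 76) (nat_lit 45128726638) (nat_lit 17) (nat_lit 5) (nat_lit 20) (nat_lit 5) (nat_lit 18) (nat_lit 4) (nat_lit 290) (nat_lit 278) (nat_lit 212)) (XT.lf (nat_lit 0) (nat_lit 61574500307) (nat_lit 76) (nat_lit 45651355492) (nat_lit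 152) (nat_lit 37926492965) (nat_lit 16) (nat_lit 5) (nat_lit 17) (nat_lit 5) (nat_lit 18) (nat_lit 4) (nat_lit 291) (nat_lit 278) (nat_lit 211)))))) (XT.nd (nat_lit 390) (nat_lit 228) (nat_lit 0) (XT.nd (nat_lit 156) (nat_lit 152) (nat_lit 0) (XT.nd (nat_lit 78) (nat_lit 152) (nat_lit 0) (XT.lf (nat_lit 0) (nat_lit 149947560101) (nat_lit 152) (nat_lit 6577466058) (nat_lit 0) (nat_lit 3023229958) (nat_lit 16) (nat_lit 5) (nat_lit 18) (nat_lit 4) (nat_lit 16) (nat_lit 4) (nat_lit 292) (nat_lit 278) (nat_lit 210)) (XT.lf (nat_lit 0) (nat_lit 27004815516) (nat_lit 152) (nat_lit 88865405893) (nat_lit 76) (nat_lit 59179212047) (nat_lit 14) (nat_lit 5) (nat_lit 16) (nat_lit 5) (nat_lit 15) (nat_lit 4) (nat_lit 293) (nat_lit 278) (nat_lit 209))) (XT.nd (nat_lit 78) (nat_lit 76) (nat_lit 0) (XT.lf (nat_lit 0) (nat_lit 328608227) (nat_lit 76) (nat_lit 68162373255) (nat_lit 152) (nat_lit 124260317289)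 (nat_lit 13) (nat_lit 5) (nat_lit 14) (nat_lit 5) (nat_lit 15) (nat_lit 4) (nat_lit 294) (nat_lit 278) (nat_lit 208)) (XT.nd (nat_lit 78) (nat_lit 76) (nat_lit 0) (XT.lf (nat_lit 0) (nat_lit 112887221332) (nat_lit 76) (nat_lit 7957106066) (nat_lit 152) (nat_lit 91567479261) (nat_lit 13) (nat_lit 5) (nat_lit 14) (nat_lit 5) (nat_lit 15) (nat_lit 4) (nat_lit 295) (nat_lit 278) (nat_lit 207)) (XT.lf (nat_lit 0) (nat_lit 5235249181) (nat_lit 76) (nat_lit 178568755124) (nat_lit 76) (nat_lit 50804387959) (nat_lit 12) (nat_lit 4) (nat_lit 13) (nat_lit 5) (nat_lit 13) (nat_lit 4) (nat_lit 296) (nat_lit 278) (nat_lit 206))))) (XT.nd (nat_lit 156) (nat_lit 152) (nat_lit 0) (XT.nd (nat_lit 78) (nat_lit 0) (nat_lit 0) (XT.lf (nat_lit 0) (nat_lit 2250954608) (nat_lit 152) (nat_lit 122925525277) (nat_lit 76) (nat_lit 134108147709) (nat_lit 11) (nat_lit 5) (nat_lit 13) (nat_lit 5) (nat_lit 12) (nat_lit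 4) (nat_lit 297) (nat_lit 278) (nat_lit 205)) (XT.lf (nat_lit 0) (nat_lit 58062438737) (nat_lit 152) (nat_lit 2931452245) (nat_lit 76) (nat_lit 226305633078) (nat_lit 11) (nat_lit 5) (nat_lit 13) (nat_lit 5) (nat_lit 12) (nat_lit 4) (nat_lit 298) (nat_lit 278) (nat_lit 204))) (XT.nd (nat_lit 78) (nat_lit 76) (nat_lit 0) (XT.lf (nat_lit 0) (nat_lit 129207100546) (nat_lit 152) (nat_lit 171159308147) (nat_lit 0) (nat_lit 18106028557) (nat_lit 10) (nat_lit 5) (nat_lit 12) (nat_lit 4) (nat_lit 10) (nat_lit 4) (nat_lit 299) (nat_lit 278) (nat_lit 203)) (XT.nd (nat_lit 78) (nat_lit 76) (nat_lit 0) (XT.lf (nat_lit 0) (nat_lit 214087818644) (nat_lit 152) (nat_lit 36787475258) (nat_lit 0) (nat_lit 102986340412) (nat_lit 10) (nat_lit 5) (nat_lit 12) (nat_lit 4) (nat_lit 10) (nat_lit 4) (nat_lit 300) (nat_lit 278) (nat_lit 202)) (XT.lf (nat_lit 0) (nat_lit 129245353695) (nat_lit 76) (nat_lit 187806503597)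 (nat_lit 76) (nat_lit 76704672110) (nat_lit 9) (nat_lit 4) (nat_lit 10) (nat_lit 5) (nat_lit 10) (nat_lit 4) (nat_lit 301) (nat_lit 278) (nat_lit 201))))))) (XT.nd (nat_lit 780) (nat_lit 76) (nat_lit 0) (XT.nd (nat_lit 390) (nat_lit 152) (nat_lit 0) (XT.nd (nat_lit 156) (nat_lit 76) (nat_lit 0) (XT.nd (nat_lit 78) (nat_lit 152) (nat_lit 0) (XT.lf (nat_lit 0) (nat_lit 324316473291) (nat_lit 76) (nat_lit 113066478479) (nat_lit 76) (nat_lit 1964339814) (nat_lit 9) (nat_lit 4) (nat_lit 10) (nat_lit 5) (nat_lit 10) (nat_lit 4) (nat_lit 302) (nat_lit 278) (nat_lit 200)) (XT.lf (nat_lit 0) (nat_lit 58610856481) (nat_lit 76) (nat_lit 20325544568) (nat_lit 152) (nat_lit 411954638751) (nat_lit 7) (nat_lit 5) (nat_lit 8) (nat_lit 5) (nat_lit 9) (nat_lit 4) (nat_lit 303) (nat_lit 278) (nat_lit 199))) (XT.nd (nat_lit 78) (nat_lit 76) (nat_lit 0) (XT.lf (nat_lit 0) (nat_lit 181644568373) (nat_lit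 152) (nat_lit 281993158385) (nat_lit 0) (nat_lit 85033578767) (nat_lit 7) (nat_lit 5) (nat_lit 9) (nat_lit 4) (nat_lit 7) (nat_lit 4) (nat_lit 304) (nat_lit 278) (nat_lit 198)) (XT.nd (nat_lit 78) (nat_lit 76) (nat_lit 0) (XT.lf (nat_lit 0) (nat_lit 300726428307) (nat_lit 152) (nat_lit 110131799798) (nat_lit 0) (nat_lit 204115263071) (nat_lit 7) (nat_lit 5) (nat_lit 9) (nat_lit 4) (nat_lit 7) (nat_lit 4) (nat_lit 305) (nat_lit 278) (nat_lit 197)) (XT.lf (nat_lit 0) (nat_lit 96059956315) (nat_lit 76) (nat_lit 345587887499) (nat_lit 76) (nat_lit 248976569541) (nat_lit 6) (nat_lit 4) (nat_lit 7) (nat_lit 5) (nat_lit 7) (nat_lit 4) (nat_lit 306) (nat_lit 278) (nat_lit 196))))) (XT.nd (nat_lit 156) (nat_lit 152) (nat_lit 0) (XT.nd (nat_lit 78) (nat_lit 0) (nat_lit 0) (XT.lf (nat_lit 0) (nat_lit 345557093592) (nat_lit 76) (nat_lit 263906924597) (nat_lit 76) (nat_lit 167295473838) (nat_lit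 6) (nat_lit 4) (nat_lit 7) (nat_lit 5) (nat_lit 7) (nat_lit 4) (nat_lit 307) (nat_lit 278) (nat_lit 195)) (XT.lf (nat_lit 0) (nat_lit 632478197327) (nat_lit 76) (nat_lit 169974123138) (nat_lit 76) (nat_lit 73362556899) (nat_lit 6) (nat_lit 4) (nat_lit 7) (nat_lit 5) (nat_lit 7) (nat_lit 4) (nat_lit 308) (nat_lit 278) (nat_lit 194))) (XT.nd (nat_lit 78) (nat_lit 76) (nat_lit 0) (XT.lf (nat_lit 0) (nat_lit 31574326406) (nat_lit 152) (nat_lit 28726864882) (nat_lit 76) (nat_lit 929212138729) (nat_lit 5) (nat_lit 5) (nat_lit 7) (nat_lit 5) (nat_lit 6) (nat_lit 4) (nat_lit 309) (nat_lit 278) (nat_lit 193)) (XT.nd (nat_lit 78) (nat_lit 0) (nat_lit 0) (XT.lf (nat_lit 0) (nat_lit 157850617604) (nat_lit 152) (nat_lit 886085047451) (nat_lit 0) (nat_lit 73840396756) (nat_lit 4) (nat_lit 5) (nat_lit 6) (nat_lit 4) (nat_lit 4) (nat_lit 4) (nat_lit 310) (nat_lit 278) (nat_lit 192)) (XT.lf (nat_lit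 0) (nat_lit 307512741449) (nat_lit 152) (nat_lit 733596349078) (nat_lit 0) (nat_lit 223502454575) (nat_lit 4) (nat_lit 5) (nat_lit 6) (nat_lit 4) (nat_lit 4) (nat_lit 4) (nat_lit 311) (nat_lit 278) (nat_lit 191)))))) (XT.nd (nat_lit 390) (nat_lit 0) (nat_lit 0) (XT.nd (nat_lit 156) (nat_lit 76) (nat_lit 0) (XT.nd (nat_lit 78) (nat_lit 0) (nat_lit 0) (XT.lf (nat_lit 0) (nat_lit 479623980245) (nat_lit 152) (nat_lit 558234765293) (nat_lit 0) (nat_lit 395613635957) (nat_lit 4) (nat_lit 5) (nat_lit 6) (nat_lit 4) (nat_lit 4) (nat_lit 4) (nat_lit 312) (nat_lit 278) (nat_lit 190)) (XT.lf (nat_lit 0) (nat_lit 677551727793) (nat_lit 152) (nat_lit 356569308587) (nat_lit 0) (nat_lit 593541333580) (nat_lit 4) (nat_lit 5) (nat_lit 6) (nat_lit 4) (nat_lit 4) (nat_lit 4) (nat_lit 313) (nat_lit 278) (nat_lit 189))) (XT.nd (nat_lit 78) (nat_lit 76) (nat_lit 0) (XT.lf (nat_lit 0) (nat_lit 905168483502)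 (nat_lit 152) (nat_lit 124654350461) (nat_lit 0) (nat_lit 821158045876) (nat_lit 4) (nat_lit 5) (nat_lit 6) (nat_lit 4) (nat_lit 4) (nat_lit 4) (nat_lit 314) (nat_lit 278) (nat_lit 188)) (XT.nd (nat_lit 78) (nat_lit 0) (nat_lit 0) (XT.lf (nat_lit 0) (nat_lit 155929497824) (nat_lit 76) (nat_lit 1017454828840) (nat_lit 76) (nat_lit 933444353464) (nat_lit 3) (nat_lit 4) (nat_lit 4) (nat_lit 5) (nat_lit 4) (nat_lit 4) (nat_lit 315) (nat_lit 278) (nat_lit 187)) (XT.lf (nat_lit 0) (nat_lit 492610109320) (nat_lit 76) (nat_lit 995738332523) (nat_lit 76) (nat_lit 911727824321) (nat_lit 3) (nat_lit 4) (nat_lit 4) (nat_lit 5) (nat_lit 4) (nat_lit 4) (nat_lit 316) (nat_lit 278) (nat_lit 186))))) (XT.nd (nat_lit 156) (nat_lit 0) (nat_lit 0) (XT.nd (nat_lit 78) (nat_lit 0) (nat_lit 0) (XT.lf (nat_lit 0) (nat_lit 879792583677) (nat_lit 76) (nat_lit 970764479907) (nat_lit 76) (nat_lit 886753943160)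 (nat_lit 3) (nat_lit 4) (nat_lit 4) (nat_lit 5) (nat_lit 4) (nat_lit 4) (nat_lit 317) (nat_lit 278) (nat_lit 185)) (XT.lf (nat_lit 0) (nat_lit 1325052230175) (nat_lit 76) (nat_lit 942044652137) (nat_lit 76) (nat_lit 858034090568) (nat_lit 3) (nat_lit 4) (nat_lit 4) (nat_lit 5) (nat_lit 4) (nat_lit 4) (nat_lit 318) (nat_lit 278) (nat_lit 184))) (XT.nd (nat_lit 78) (nat_lit 0) (nat_lit 0) (XT.lf (nat_lit 0) (nat_lit 1837100650595) (nat_lit 76) (nat_lit 909016939537) (nat_lit 76) (nat_lit 825006356384) (nat_lit 3) (nat_lit 4) (nat_lit 4) (nat_lit 5) (nat_lit 4) (nat_lit 4) (nat_lit 319) (nat_lit 278) (nat_lit 183)) (XT.nd (nat_lit 78) (nat_lit 0) (nat_lit 0) (XT.lf (nat_lit 0) (nat_lit 2425956183597) (nat_lit 76) (nat_lit 871035147732) (nat_lit 76) (nat_lit 787024545811) (nat_lit 3) (nat_lit 4) (nat_lit 4) (nat_lit 5) (nat_lit 4) (nat_lit 4) (nat_lit 320) (nat_lit 278) (nat_lit 182)) (XT.lf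 (nat_lit 0) (nat_lit 3103139915695) (nat_lit 76) (nat_lit 827356154708) (nat_lit 76) (nat_lit 743345536466) (nat_lit 3) (nat_lit 4) (nat_lit 4) (nat_lit 5) (nat_lit 4) (nat_lit 4) (nat_lit 321) (nat_lit 278) (nat_lit 181))))))))
noncomputable def xc83 : XT := (XT.nd (nat_lit 2886) (nat_lit 0) (nat_lit 0) (XT.nd (nat_lit 780) (nat_lit 0) (nat_lit 0) (XT.nd (nat_lit 390) (nat_lit 152) (nat_lit 0) (XT.nd (nat_lit 156) (nat_lit 0) (nat_lit 0) (XT.nd (nat_lit 78) (nat_lit 0) (nat_lit 0) (XT.lf (nat_lit 0) (nat_lit 3881901093823) (nat_lit 76) (nat_lit 777125371471) (nat_lit 76) (nat_lit 693114739037) (nat_lit 3) (nat_lit 4) (nat_lit 4) (nat_lit 5) (nat_lit 4) (nat_lit 4) (nat_lit 322) (nat_lit 278) (nat_lit 180)) (XT.lf (nat_lit 0) (nat_lit 4777476349726) (nat_lit 76) (nat_lit 719360021827) (nat_lit 76) (nat_lit 635349377053) (nat_lit 3) (nat_lit 4) (nat_lit 4) (nat_lit 5) (nat_lit 4) (nat_lit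 4) (nat_lit 323) (nat_lit 278) (nat_lit 179))) (XT.nd (nat_lit 78) (nat_lit 0) (nat_lit 0) (XT.lf (nat_lit 0) (nat_lit 5807387807976) (nat_lit 76) (nat_lit 652929914153) (nat_lit 76) (nat_lit 568919258647) (nat_lit 3) (nat_lit 4) (nat_lit 4) (nat_lit 5) (nat_lit 4) (nat_lit 4) (nat_lit 324) (nat_lit 278) (nat_lit 178)) (XT.nd (nat_lit 78) (nat_lit 0) (nat_lit 0) (XT.lf (nat_lit 0) (nat_lit 6991785910147) (nat_lit 76) (nat_lit 576535328951) (nat_lit 76) (nat_lit 492524664114) (nat_lit 3) (nat_lit 4) (nat_lit 4) (nat_lit 5) (nat_lit 4) (nat_lit 4) (nat_lit 325) (nat_lit 278) (nat_lit 177)) (XT.lf (nat_lit 0) (nat_lit 8353843662587) (nat_lit 76) (nat_lit 488681589553) (nat_lit 76) (nat_lit 404670916601) (nat_lit 3) (nat_lit 4) (nat_lit 4) (nat_lit 5) (nat_lit 4) (nat_lit 4) (nat_lit 326) (nat_lit 278) (nat_lit 176))))) (XT.nd (nat_lit 156) (nat_lit 152) (nat_lit 0) (XT.nd (nat_lit 78) (nat_lit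 0) (nat_lit 0) (XT.lf (nat_lit 0) (nat_lit 9920210021322) (nat_lit 76) (nat_lit 387649818450) (nat_lit 76) (nat_lit 303639138443) (nat_lit 3) (nat_lit 4) (nat_lit 4) (nat_lit 5) (nat_lit 4) (nat_lit 4) (nat_lit 327) (nat_lit 278) (nat_lit 175)) (XT.lf (nat_lit 0) (nat_lit 11721531284674) (nat_lit 76) (nat_lit 271463307076) (nat_lit 76) (nat_lit 187452620934) (nat_lit 3) (nat_lit 4) (nat_lit 4) (nat_lit 5) (nat_lit 4) (nat_lit 4) (nat_lit 328) (nat_lit 278) (nat_lit 174))) (XT.nd (nat_lit 78) (nat_lit 152) (nat_lit 0) (XT.lf (nat_lit 0) (nat_lit 13793050694753) (nat_lit 76) (nat_lit 137848841080) (nat_lit 76) (nat_lit 53838149602) (nat_lit 3) (nat_lit 4) (nat_lit 4) (nat_lit 5) (nat_lit 4) (nat_lit 4) (nat_lit 329) (nat_lit 278) (nat_lit 173)) (XT.nd (nat_lit 78) (nat_lit 0) (nat_lit 0) (XT.lf (nat_lit 0) (nat_lit 97092519177) (nat_lit 152) (nat_lit 15936995395464) (nat_lit 0) (nat_lit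 24039739945) (nat_lit 1) (nat_lit 5) (nat_lit 3) (nat_lit 4) (nat_lit 1) (nat_lit 4) (nat_lit 330) (nat_lit 278) (nat_lit 172)) (XT.lf (nat_lit 0) (nat_lit 282212143759) (nat_lit 152) (nat_lit 17948210852647) (nat_lit 0) (nat_lit 209159361018) (nat_lit 1) (nat_lit 5) (nat_lit 3) (nat_lit 4) (nat_lit 1) (nat_lit 4) (nat_lit 331) (nat_lit 278) (nat_lit 171)))))) (XT.nd (nat_lit 390) (nat_lit 0) (nat_lit 0) (XT.nd (nat_lit 156) (nat_lit 0) (nat_lit 0) (XT.nd (nat_lit 78) (nat_lit 0) (nat_lit 0) (XT.lf (nat_lit 0) (nat_lit 495099695732) (nat_lit 152) (nat_lit 20261108662464) (nat_lit 0) (nat_lit 422046909941) (nat_lit 1) (nat_lit 5) (nat_lit 3) (nat_lit 4) (nat_lit 1) (nat_lit 4) (nat_lit 332) (nat_lit 278) (nat_lit 170)) (XT.lf (nat_lit 0) (nat_lit 739920366331) (nat_lit 152) (nat_lit 22920941173366) (nat_lit 0) (nat_lit 666867577887) (nat_lit 1) (nat_lit 5) (nat_lit 3) (nat_lit 4) (nat_lit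 1) (nat_lit 4) (nat_lit 333) (nat_lit 278) (nat_lit 169))) (XT.nd (nat_lit 78) (nat_lit 0) (nat_lit 0) (XT.lf (nat_lit 0) (nat_lit 1021464125198) (nat_lit 152) (nat_lit 25979748586654) (nat_lit 0) (nat_lit 948411334448) (nat_lit 1) (nat_lit 5) (nat_lit 3) (nat_lit 4) (nat_lit 1) (nat_lit 4) (nat_lit 334) (nat_lit 278) (nat_lit 168)) (XT.nd (nat_lit 78) (nat_lit 0) (nat_lit 0) (XT.lf (nat_lit 0) (nat_lit 1345239437180) (nat_lit 152) (nat_lit 29497377134327) (nat_lit 0) (nat_lit 1272186644424) (nat_lit 1) (nat_lit 5) (nat_lit 3) (nat_lit 4) (nat_lit 1) (nat_lit 4) (nat_lit 335) (nat_lit 278) (nat_lit 167)) (XT.lf (nat_lit 0) (nat_lit 1717581036642) (nat_lit 152) (nat_lit 33542649983623) (nat_lit 0) (nat_lit 1644528242143) (nat_lit 1) (nat_lit 5) (nat_lit 3) (nat_lit 4) (nat_lit 1) (nat_lit 4) (nat_lit 336) (nat_lit 278) (nat_lit 166))))) (XT.nd (nat_lit 156) (nat_lit 0) (nat_lit 0) (XT.nd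 (nat_lit 78) (nat_lit 0) (nat_lit 0) (XT.lf (nat_lit 0) (nat_lit 2145773867923) (nat_lit 152) (nat_lit 38194713777244) (nat_lit 0) (nat_lit 2072721071906) (nat_lit 1) (nat_lit 5) (nat_lit 3) (nat_lit 4) (nat_lit 1) (nat_lit 4) (nat_lit 337) (nat_lit 278) (nat_lit 165)) (XT.lf (nat_lit 0) (nat_lit 2638195616850) (nat_lit 152) (nat_lit 43544587154631) (nat_lit 0) (nat_lit 2565142819515) (nat_lit 1) (nat_lit 5) (nat_lit 3) (nat_lit 4) (nat_lit 1) (nat_lit 4) (nat_lit 338) (nat_lit 278) (nat_lit 164))) (XT.nd (nat_lit 78) (nat_lit 0) (nat_lit 0) (XT.lf (nat_lit 0) (nat_lit 3204480621990) (nat_lit 152) (nat_lit 49696941551430) (nat_lit 0) (nat_lit 3131427823508) (nat_lit 1) (nat_lit 5) (nat_lit 3) (nat_lit 4) (nat_lit 1) (nat_lit 4) (nat_lit 339) (nat_lit 278) (nat_lit 163)) (XT.nd (nat_lit 78) (nat_lit 0) (nat_lit 0) (XT.lf (nat_lit 0) (nat_lit 3855708372573) (nat_lit 152) (nat_lit 56772149118880)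 (nat_lit 0) (nat_lit 3782655573094) (nat_lit 1) (nat_lit 5) (nat_lit 3) (nat_lit 4) (nat_lit 1) (nat_lit 4) (nat_lit 340) (nat_lit 278) (nat_lit 162)) (XT.lf (nat_lit 0) (nat_lit 4604620281113) (nat_lit 152) (nat_lit 64908637831129) (nat_lit 0) (nat_lit 4531567480767) (nat_lit 1) (nat_lit 5) (nat_lit 3) (nat_lit 4) (nat_lit 1) (nat_lit 4) (nat_lit 341) (nat_lit 278) (nat_lit 161))))))) (XT.nd (nat_lit 34944) (nat_lit 0) (nat_lit 912) (XT.nd (nat_lit 34554) (nat_lit 0) (nat_lit 1672) (XT.nd (nat_lit 156) (nat_lit 0) (nat_lit 0) (XT.nd (nat_lit 78) (nat_lit 0) (nat_lit 0) (XT.lf (nat_lit 0) (nat_lit 69918582919863) (nat_lit 152) (nat_lit 774506555826553) (nat_lit 0) (nat_lit 69845530114203) (nat_lit 1) (nat_lit 5) (nat_lit 3) (nat_lit 4) (nat_lit 1) (nat_lit 4) (nat_lit 359) (nat_lit 278) (nat_lit 143)) (XT.lf (nat_lit 0) (nat_lit 80576925981784) (nat_lit 152) (nat_lit 890303205604955)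 (nat_lit 0) (nat_lit 80503873176063) (nat_lit 1) (nat_lit 5) (nat_lit 3) (nat_lit 4) (nat_lit 1) (nat_lit 4) (nat_lit 360) (nat_lit 278) (nat_lit 142))) (XT.nd (nat_lit 34242) (nat_lit 0) (nat_lit 1824) (XT.lf (nat_lit 0) (nat_lit 92834020502711) (nat_lit 152) (nat_lit 1023469352850711) (nat_lit 0) (nat_lit 92760967696936) (nat_lit 1) (nat_lit 5) (nat_lit 3) (nat_lit 4) (nat_lit 1) (nat_lit 4) (nat_lit 361) (nat_lit 278) (nat_lit 141)) (XT.nd (nat_lit 78) (nat_lit 0) (nat_lit 0) (XT.lf (nat_lit 0) (nat_lit 5880979934) (nat_lit 380) (nat_lit 11524210871) (nat_lit 380) (nat_lit 11524210871) (nat_lit 25) (nat_lit 3) (nat_lit 30) (nat_lit 3) (nat_lit 30) (nat_lit 5) (nat_lit 279) (nat_lit 279) (nat_lit 222)) (XT.lf (nat_lit 76) (nat_lit 4991427535) (nat_lit 0) (nat_lit 7877236924) (nat_lit 380) (nat_lit 49295818247) (nat_lit 26) (nat_lit 5) (nat_lit 25) (nat_lit 3) (nat_lit 30) (nat_lit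 5) (nat_lit 280) (nat_lit 279) (nat_lit 221))))) (XT.nd (nat_lit 156) (nat_lit 228) (nat_lit 0) (XT.nd (nat_lit 78) (nat_lit 0) (nat_lit 0) (XT.lf (nat_lit 0) (nat_lit 16356687428) (nat_lit 304) (nat_lit 28123997062) (nat_lit 380) (nat_lit 22303040981) (nat_lit 26) (nat_lit 5) (nat_lit 30) (nat_lit 5) (nat_lit 31) (nat_lit 5) (nat_lit 281) (nat_lit 279) (nat_lit 220)) (XT.lf (nat_lit 76) (nat_lit 5384444637) (nat_lit 0) (nat_lit 15578739395) (nat_lit 380) (nat_lit 51043387406) (nat_lit 27) (nat_lit 5) (nat_lit 26) (nat_lit 5) (nat_lit 31) (nat_lit 5) (nat_lit 282) (nat_lit 279) (nat_lit 219))) (XT.nd (nat_lit 78) (nat_lit 304) (nat_lit 0) (XT.lf (nat_lit 0) (nat_lit 28529477390) (nat_lit 304) (nat_lit 31516154643) (nat_lit 76) (nat_lit 17626895293) (nat_lit 27) (nat_lit 5) (nat_lit 31) (nat_lit 5) (nat_lit 28) (nat_lit 5) (nat_lit 283) (nat_lit 279) (nat_lit 218)) (XT.nd (nat_lit 78)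 (nat_lit 0) (nat_lit 0) (XT.lf (nat_lit 0) (nat_lit 8904401715) (nat_lit 304) (nat_lit 29434694307) (nat_lit 380) (nat_lit 45683028915) (nat_lit 23) (nat_lit 5) (nat_lit 27) (nat_lit 5) (nat_lit 28) (nat_lit 5) (nat_lit 284) (nat_lit 279) (nat_lit 217)) (XT.lf (nat_lit 0) (nat_lit 51582894095) (nat_lit 380) (nat_lit 32466699500) (nat_lit 76) (nat_lit 6980162911) (nat_lit 23) (nat_lit 5) (nat_lit 28) (nat_lit 5) (nat_lit 24) (nat_lit 5) (nat_lit 285) (nat_lit 279) (nat_lit 216)))))) (XT.nd (nat_lit 390) (nat_lit 304) (nat_lit 0) (XT.nd (nat_lit 156) (nat_lit 304) (nat_lit 0) (XT.nd (nat_lit 78) (nat_lit 0) (nat_lit 0) (XT.lf (nat_lit 0) (nat_lit 16661571292) (nat_lit 152) (nat_lit 52241537793) (nat_lit 228) (nat_lit 29871950828) (nat_lit 21) (nat_lit 5) (nat_lit 23) (nat_lit 5) (nat_lit 24) (nat_lit 5) (nat_lit 286) (nat_lit 279) (nat_lit 215)) (XT.lf (nat_lit 0) (nat_lit 76805908996)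 (nat_lit 152) (nat_lit 13710987905) (nat_lit 228) (nat_lit 16910934482) (nat_lit 21) (nat_lit 5) (nat_lit 23) (nat_lit 5) (nat_lit 24) (nat_lit 5) (nat_lit 287) (nat_lit 279) (nat_lit 214))) (XT.nd (nat_lit 78) (nat_lit 152) (nat_lit 0) (XT.lf (nat_lit 0) (nat_lit 799884965) (nat_lit 152) (nat_lit 87043979276) (nat_lit 76) (nat_lit 29153052727) (nat_lit 19) (nat_lit 5) (nat_lit 21) (nat_lit 5) (nat_lit 20) (nat_lit 5) (nat_lit 288) (nat_lit 279) (nat_lit 213)) (XT.nd (nat_lit 78) (nat_lit 152) (nat_lit 0) (XT.lf (nat_lit 0) (nat_lit 21764439808) (nat_lit 152) (nat_lit 26242129003) (nat_lit 76) (nat_lit 79524736073) (nat_lit 19) (nat_lit 5) (nat_lit 21) (nat_lit 5) (nat_lit 20) (nat_lit 5) (nat_lit 289) (nat_lit 279) (nat_lit 212)) (XT.lf (nat_lit 0) (nat_lit 47861565299) (nat_lit 228) (nat_lit 91405061219) (nat_lit 76) (nat_lit 81043438) (nat_lit 17) (nat_lit 5) (nat_lit 20) (nat_lit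 5) (nat_lit 18) (nat_lit 4) (nat_lit 290) (nat_lit 279) (nat_lit 211))))) (XT.nd (nat_lit 234) (nat_lit 228) (nat_lit 0) (XT.nd (nat_lit 78) (nat_lit 76) (nat_lit 0) (XT.lf (nat_lit 0) (nat_lit 81595245277) (nat_lit 228) (nat_lit 18879539267) (nat_lit 76) (nat_lit 51903409204) (nat_lit 17) (nat_lit 5) (nat_lit 20) (nat_lit 5) (nat_lit 18) (nat_lit 4) (nat_lit 291) (nat_lit 279) (nat_lit 210)) (XT.nd (nat_lit 78) (nat_lit 0) (nat_lit 0) (XT.lf (nat_lit 0) (nat_lit 70828947771) (nat_lit 76) (nat_lit 52491939607) (nat_lit 152) (nat_lit 43602623784) (nat_lit 16) (nat_lit 5) (nat_lit 17) (nat_lit 5) (nat_lit 18) (nat_lit 4) (nat_lit 292) (nat_lit 279) (nat_lit 209)) (XT.lf (nat_lit 0) (nat_lit 172449648898) (nat_lit 152) (nat_lit 7546983755) (nat_lit 0) (nat_lit 3482353937) (nat_lit 16) (nat_lit 5) (nat_lit 18) (nat_lit 4) (nat_lit 16) (nat_lit 4) (nat_lit 293) (nat_lit 279) (nat_lit 208))))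 (XT.nd (nat_lit 78) (nat_lit 76) (nat_lit 0) (XT.lf (nat_lit 0) (nat_lit 31065326215) (nat_lit 152) (nat_lit 102177924213) (nat_lit 76) (nat_lit 68062118657) (nat_lit 14) (nat_lit 5) (nat_lit 16) (nat_lit 5) (nat_lit 15) (nat_lit 4) (nat_lit 294) (nat_lit 279) (nat_lit 207)) (XT.nd (nat_lit 78) (nat_lit 0) (nat_lit 0) (XT.lf (nat_lit 0) (nat_lit 394406000) (nat_lit 76) (nat_lit 78379417832) (nat_lit 152) (nat_lit 142888780803) (nat_lit 13) (nat_lit 5) (nat_lit 14) (nat_lit 5) (nat_lit 15) (nat_lit 4) (nat_lit 295) (nat_lit 279) (nat_lit 206)) (XT.lf (nat_lit 0) (nat_lit 129834658044) (nat_lit 76) (nat_lit 9144314227) (nat_lit 152) (nat_lit 105293397603) (nat_lit 13) (nat_lit 5) (nat_lit 14) (nat_lit 5) (nat_lit 15) (nat_lit 4) (nat_lit 296) (nat_lit 279) (nat_lit 205))))))))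
noncomputable def xc84 : XT := (XT.nd (nat_lit 1560) (nat_lit 152) (nat_lit 0) (XT.nd (nat_lit 780) (nat_lit 304) (nat_lit 0) (XT.nd (nat_lit 390) (nat_lit 228) (nat_lit 0) (XT.nd (nat_lit 156) (nat_lit 76) (nat_lit 0) (XT.nd (nat_lit 78) (nat_lit 76) (nat_lit 0) (XT.lf (nat_lit 0) (nat_lit 6035139229) (nat_lit 76) (nat_lit 205347252148) (nat_lit 76) (nat_lit 58416084442) (nat_lit 12) (nat_lit 4) (nat_lit 13) (nat_lit 5) (nat_lit 13) (nat_lit 4) (nat_lit 297) (nat_lit 279) (nat_lit 204)) (XT.lf (nat_lit 0) (nat_lit 2595696823) (nat_lit 152) (nat_lit 141350956790) (nat_lit 76) (nat_lit 154229597730) (nat_lit 11) (nat_lit 5) (nat_lit 13) (nat_lit 5) (nat_lit 12) (nat_lit 4) (nat_lit 298) (nat_lit 279) (nat_lit 203))) (XT.nd (nat_lit 78) (nat_lit 76) (nat_lit 0) (XT.lf (nat_lit 0) (nat_lit 66777977612) (nat_lit 152) (nat_lit 3359520275) (nat_lit 76) (nat_lit 260256024009) (nat_lit 11) (nat_lit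 5) (nat_lit 13) (nat_lit 5) (nat_lit 12) (nat_lit 4) (nat_lit 299) (nat_lit 279) (nat_lit 202)) (XT.nd (nat_lit 78) (nat_lit 0) (nat_lit 0) (XT.lf (nat_lit 0) (nat_lit 148594213104) (nat_lit 152) (nat_lit 196821424787) (nat_lit 0) (nat_lit 20826753640) (nat_lit 10) (nat_lit 5) (nat_lit 12) (nat_lit 4) (nat_lit 10) (nat_lit 4) (nat_lit 300) (nat_lit 279) (nat_lit 201)) (XT.lf (nat_lit 0) (nat_lit 246206250115) (nat_lit 152) (nat_lit 42295353432) (nat_lit 0) (nat_lit 118438483473) (nat_lit 10) (nat_lit 5) (nat_lit 12) (nat_lit 4) (nat_lit 10) (nat_lit 4) (nat_lit 301) (nat_lit 279) (nat_lit 200))))) (XT.nd (nat_lit 156) (nat_lit 152) (nat_lit 0) (XT.nd (nat_lit 78) (nat_lit 0) (nat_lit 0) (XT.lf (nat_lit 0) (nat_lit 148641934268) (nat_lit 76) (nat_lit 215972679244) (nat_lit 76) (nat_lit 88204645490) (nat_lit 9) (nat_lit 4) (nat_lit 10) (nat_lit 5) (nat_lit 10) (nat_lit 4) (nat_lit 302)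 (nat_lit 279) (nat_lit 199)) (XT.lf (nat_lit 0) (nat_lit 372972446475) (nat_lit 76) (nat_lit 130022276432) (nat_lit 76) (nat_lit 2254010407) (nat_lit 9) (nat_lit 4) (nat_lit 10) (nat_lit 5) (nat_lit 10) (nat_lit 4) (nat_lit 303) (nat_lit 279) (nat_lit 198))) (XT.nd (nat_lit 78) (nat_lit 0) (nat_lit 0) (XT.lf (nat_lit 0) (nat_lit 67411026198) (nat_lit 76) (nat_lit 23370133893) (nat_lit 152) (nat_lit 473742888765) (nat_lit 7) (nat_lit 5) (nat_lit 8) (nat_lit 5) (nat_lit 9) (nat_lit 4) (nat_lit 304) (nat_lit 279) (nat_lit 197)) (XT.nd (nat_lit 78) (nat_lit 0) (nat_lit 0) (XT.lf (nat_lit 0) (nat_lit 208895144544) (nat_lit 152) (nat_lit 324284295193) (nat_lit 0) (nat_lit 97791976171) (nat_lit 7) (nat_lit 5) (nat_lit 9) (nat_lit 4) (nat_lit 7) (nat_lit 4) (nat_lit 305) (nat_lit 279) (nat_lit 196)) (XT.lf (nat_lit 0) (nat_lit 345838775957) (nat_lit 152) (nat_lit 126644755029) (nat_lit 0) (nat_lit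 234735474783) (nat_lit 7) (nat_lit 5) (nat_lit 9) (nat_lit 4) (nat_lit 7) (nat_lit 4) (nat_lit 306) (nat_lit 279) (nat_lit 195)))))) (XT.nd (nat_lit 390) (nat_lit 76) (nat_lit 0) (XT.nd (nat_lit 156) (nat_lit 152) (nat_lit 0) (XT.nd (nat_lit 78) (nat_lit 0) (nat_lit 0) (XT.lf (nat_lit 0) (nat_lit 110475454741) (nat_lit 76) (nat_lit 397422777094) (nat_lit 76) (nat_lit 286319360439) (nat_lit 6) (nat_lit 4) (nat_lit 7) (nat_lit 5) (nat_lit 7) (nat_lit 4) (nat_lit 307) (nat_lit 279) (nat_lit 194)) (XT.lf (nat_lit 0) (nat_lit 397396314134) (nat_lit 76) (nat_lit 303490099347) (nat_lit 76) (nat_lit 192386582276) (nat_lit 6) (nat_lit 4) (nat_lit 7) (nat_lit 5) (nat_lit 7) (nat_lit 4) (nat_lit 308) (nat_lit 279) (nat_lit 193))) (XT.nd (nat_lit 78) (nat_lit 152) (nat_lit 0) (XT.lf (nat_lit 0) (nat_lit 727354845624) (nat_lit 76) (nat_lit 195467751226) (nat_lit 76) (nat_lit 84364146836) (nat_lit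 6) (nat_lit 4) (nat_lit 7) (nat_lit 5) (nat_lit 7) (nat_lit 4) (nat_lit 309) (nat_lit 279) (nat_lit 192)) (XT.nd (nat_lit 78) (nat_lit 76) (nat_lit 0) (XT.lf (nat_lit 0) (nat_lit 36312688317) (nat_lit 152) (nat_lit 33031400438) (nat_lit 76) (nat_lit 1068595908040) (nat_lit 5) (nat_lit 5) (nat_lit 7) (nat_lit 5) (nat_lit 6) (nat_lit 4) (nat_lit 310) (nat_lit 279) (nat_lit 191)) (XT.lf (nat_lit 0) (nat_lit 181530402783) (nat_lit 152) (nat_lit 1018993289301) (nat_lit 0) (nat_lit 84918449438) (nat_lit 4) (nat_lit 5) (nat_lit 6) (nat_lit 4) (nat_lit 4) (nat_lit 4) (nat_lit 311) (nat_lit 279) (nat_lit 190))))) (XT.nd (nat_lit 156) (nat_lit 76) (nat_lit 0) (XT.nd (nat_lit 78) (nat_lit 0) (nat_lit 0) (XT.lf (nat_lit 0) (nat_lit 353641559222) (nat_lit 152) (nat_lit 843631875119) (nat_lit 0) (nat_lit 257029555952) (nat_lit 4) (nat_lit 5) (nat_lit 6) (nat_lit 4) (nat_lit 4) (nat_lit 4) (nat_lit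 312) (nat_lit 279) (nat_lit 189)) (XT.lf (nat_lit 0) (nat_lit 551569235155) (nat_lit 152) (nat_lit 641966565895) (nat_lit 0) (nat_lit 454957188473) (nat_lit 4) (nat_lit 5) (nat_lit 6) (nat_lit 4) (nat_lit 4) (nat_lit 4) (nat_lit 313) (nat_lit 279) (nat_lit 188))) (XT.nd (nat_lit 78) (nat_lit 76) (nat_lit 0) (XT.lf (nat_lit 0) (nat_lit 779185928591) (nat_lit 152) (nat_lit 410051736013) (nat_lit 0) (nat_lit 682573844158) (nat_lit 4) (nat_lit 5) (nat_lit 6) (nat_lit 4) (nat_lit 4) (nat_lit 4) (nat_lit 314) (nat_lit 279) (nat_lit 187)) (XT.nd (nat_lit 78) (nat_lit 76) (nat_lit 0) (XT.lf (nat_lit 0) (nat_lit 1040945009618) (nat_lit 152) (nat_lit 143349921411) (nat_lit 0) (nat_lit 944332892359) (nat_lit 4) (nat_lit 5) (nat_lit 6) (nat_lit 4) (nat_lit 4) (nat_lit 4) (nat_lit 315) (nat_lit 279) (nat_lit 186)) (XT.lf (nat_lit 0) (nat_lit 179321386771) (nat_lit 76) (nat_lit 1170071781012) (nat_lit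 76) (nat_lit 1073459635208) (nat_lit 3) (nat_lit 4) (nat_lit 4) (nat_lit 5) (nat_lit 4) (nat_lit 4) (nat_lit 316) (nat_lit 279) (nat_lit 185))))))) (XT.nd (nat_lit 780) (nat_lit 152) (nat_lit 0) (XT.nd (nat_lit 390) (nat_lit 0) (nat_lit 0) (XT.nd (nat_lit 156) (nat_lit 0) (nat_lit 0) (XT.nd (nat_lit 78) (nat_lit 0) (nat_lit 0) (XT.lf (nat_lit 0) (nat_lit 566503768564) (nat_lit 76) (nat_lit 1145097976181) (nat_lit 76) (nat_lit 1048485805555) (nat_lit 3) (nat_lit 4) (nat_lit 4) (nat_lit 5) (nat_lit 4) (nat_lit 4) (nat_lit 317) (nat_lit 279) (nat_lit 184)) (XT.lf (nat_lit 0) (nat_lit 1011763334573) (nat_lit 76) (nat_lit 1116378189963) (nat_lit 76) (nat_lit 1019765997753) (nat_lit 3) (nat_lit 4) (nat_lit 4) (nat_lit 5) (nat_lit 4) (nat_lit 4) (nat_lit 318) (nat_lit 279) (nat_lit 183))) (XT.nd (nat_lit 78) (nat_lit 0) (nat_lit 0) (XT.lf (nat_lit 0) (nat_lit 1523811685001) (nat_lit 76) (nat_lit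 1083350513496) (nat_lit 76) (nat_lit 986738302517) (nat_lit 3) (nat_lit 4) (nat_lit 4) (nat_lit 5) (nat_lit 4) (nat_lit 4) (nat_lit 319) (nat_lit 279) (nat_lit 182)) (XT.nd (nat_lit 78) (nat_lit 0) (nat_lit 0) (XT.lf (nat_lit 0) (nat_lit 2112667157141) (nat_lit 76) (nat_lit 1045368753110) (nat_lit 76) (nat_lit 948756525811) (nat_lit 3) (nat_lit 4) (nat_lit 4) (nat_lit 5) (nat_lit 4) (nat_lit 4) (nat_lit 320) (nat_lit 279) (nat_lit 181)) (XT.lf (nat_lit 0) (nat_lit 2789850836316) (nat_lit 76) (nat_lit 1001689787407) (nat_lit 76) (nat_lit 905077545916) (nat_lit 3) (nat_lit 4) (nat_lit 4) (nat_lit 5) (nat_lit 4) (nat_lit 4) (nat_lit 321) (nat_lit 279) (nat_lit 180))))) (XT.nd (nat_lit 156) (nat_lit 0) (nat_lit 0) (XT.nd (nat_lit 78) (nat_lit 0) (nat_lit 0) (XT.lf (nat_lit 0) (nat_lit 3568611968423) (nat_lit 76) (nat_lit 951459027928) (nat_lit 76) (nat_lit 854846774096) (nat_lit 3) (nat_lit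 4) (nat_lit 4) (nat_lit 5) (nat_lit 4) (nat_lit 4) (nat_lit 322) (nat_lit 279) (nat_lit 179)) (XT.lf (nat_lit 0) (nat_lit 4464187184308) (nat_lit 76) (nat_lit 893693698942) (nat_lit 76) (nat_lit 797081434380) (nat_lit 3) (nat_lit 4) (nat_lit 4) (nat_lit 5) (nat_lit 4) (nat_lit 4) (nat_lit 323) (nat_lit 279) (nat_lit 178))) (XT.nd (nat_lit 78) (nat_lit 0) (nat_lit 0) (XT.lf (nat_lit 0) (nat_lit 5494098607760) (nat_lit 76) (nat_lit 827263609232) (nat_lit 76) (nat_lit 730651335338) (nat_lit 3) (nat_lit 4) (nat_lit 4) (nat_lit 5) (nat_lit 4) (nat_lit 4) (nat_lit 324) (nat_lit 279) (nat_lit 177)) (XT.nd (nat_lit 78) (nat_lit 0) (nat_lit 0) (XT.lf (nat_lit 0) (nat_lit 6678496679672) (nat_lit 76) (nat_lit 750869039651) (nat_lit 76) (nat_lit 654256757642) (nat_lit 3) (nat_lit 4) (nat_lit 4) (nat_lit 5) (nat_lit 4) (nat_lit 4) (nat_lit 325) (nat_lit 279) (nat_lit 176)) (XT.lf (nat_lit 0) (nat_lit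 8040554405800) (nat_lit 76) (nat_lit 663015313836) (nat_lit 76) (nat_lit 566403024772) (nat_lit 3) (nat_lit 4) (nat_lit 4) (nat_lit 5) (nat_lit 4) (nat_lit 4) (nat_lit 326) (nat_lit 279) (nat_lit 175)))))) (XT.nd (nat_lit 390) (nat_lit 0) (nat_lit 0) (XT.nd (nat_lit 156) (nat_lit 152) (nat_lit 0) (XT.nd (nat_lit 78) (nat_lit 0) (nat_lit 0) (XT.lf (nat_lit 0) (nat_lit 9606920741654) (nat_lit 76) (nat_lit 561983554545) (nat_lit 76) (nat_lit 465371259345) (nat_lit 3) (nat_lit 4) (nat_lit 4) (nat_lit 5) (nat_lit 4) (nat_lit 4) (nat_lit 327) (nat_lit 279) (nat_lit 174)) (XT.lf (nat_lit 0) (nat_lit 11408241985111) (nat_lit 76) (nat_lit 445797053443) (nat_lit 76) (nat_lit 349184752908) (nat_lit 3) (nat_lit 4) (nat_lit 4) (nat_lit 5) (nat_lit 4) (nat_lit 4) (nat_lit 328) (nat_lit 279) (nat_lit 173))) (XT.nd (nat_lit 78) (nat_lit 152) (nat_lit 0) (XT.lf (nat_lit 0) (nat_lit 13479761377889) (nat_lit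 76) (nat_lit 312182596377) (nat_lit 76) (nat_lit 215570291203) (nat_lit 3) (nat_lit 4) (nat_lit 4) (nat_lit 5) (nat_lit 4) (nat_lit 4) (nat_lit 329) (nat_lit 279) (nat_lit 172)) (XT.nd (nat_lit 78) (nat_lit 152) (nat_lit 0) (XT.lf (nat_lit 0) (nat_lit 15862008647238) (nat_lit 76) (nat_lit 158525987450) (nat_lit 76) (nat_lit 61913678242) (nat_lit 3) (nat_lit 4) (nat_lit 4) (nat_lit 5) (nat_lit 4) (nat_lit 4) (nat_lit 330) (nat_lit 279) (nat_lit 171)) (XT.lf (nat_lit 0) (nat_lit 111656572516) (nat_lit 152) (nat_lit 18327544338095) (nat_lit 0) (nat_lit 27645865806) (nat_lit 1) (nat_lit 5) (nat_lit 3) (nat_lit 4) (nat_lit 1) (nat_lit 4) (nat_lit 331) (nat_lit 279) (nat_lit 170))))) (XT.nd (nat_lit 156) (nat_lit 0) (nat_lit 0) (XT.nd (nat_lit 78) (nat_lit 0) (nat_lit 0) (XT.lf (nat_lit 0) (nat_lit 324544117899) (nat_lit 152) (nat_lit 20640442161685) (nat_lit 0) (nat_lit 240533408536) (nat_lit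 1) (nat_lit 5) (nat_lit 3) (nat_lit 4) (nat_lit 1) (nat_lit 4) (nat_lit 332) (nat_lit 279) (nat_lit 169)) (XT.lf (nat_lit 0) (nat_lit 569364782766) (nat_lit 152) (nat_lit 23300274684564) (nat_lit 0) (nat_lit 485354071098) (nat_lit 1) (nat_lit 5) (nat_lit 3) (nat_lit 4) (nat_lit 1) (nat_lit 4) (nat_lit 333) (nat_lit 279) (nat_lit 168))) (XT.nd (nat_lit 78) (nat_lit 0) (nat_lit 0) (XT.lf (nat_lit 0) (nat_lit 850908536650) (nat_lit 152) (nat_lit 26359082108267) (nat_lit 0) (nat_lit 766897822975) (nat_lit 1) (nat_lit 5) (nat_lit 3) (nat_lit 4) (nat_lit 1) (nat_lit 4) (nat_lit 334) (nat_lit 279) (nat_lit 167)) (XT.nd (nat_lit 78) (nat_lit 0) (nat_lit 0) (XT.lf (nat_lit 0) (nat_lit 1174683844299) (nat_lit 152) (nat_lit 29876710664997) (nat_lit 0) (nat_lit 1090673128880) (nat_lit 1) (nat_lit 5) (nat_lit 3) (nat_lit 4) (nat_lit 1) (nat_lit 4) (nat_lit 335) (nat_lit 279) (nat_lit 166)) (XT.lf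 (nat_lit 0) (nat_lit 1547025439993) (nat_lit 152) (nat_lit 33921983522168) (nat_lit 0) (nat_lit 1463014723058) (nat_lit 1) (nat_lit 5) (nat_lit 3) (nat_lit 4) (nat_lit 1) (nat_lit 4) (nat_lit 336) (nat_lit 279) (nat_lit 165))))))))
noncomputable def xc85 : XT := (XT.nd (nat_lit 37128) (nat_lit 0) (nat_lit 228) (XT.nd (nat_lit 36348) (nat_lit 0) (nat_lit 1216) (XT.nd (nat_lit 1716) (nat_lit 0) (nat_lit 0) (XT.nd (nat_lit 156) (nat_lit 0) (nat_lit 0) (XT.nd (nat_lit 78) (nat_lit 0) (nat_lit 0) (XT.lf (nat_lit 0) (nat_lit 1975218267996) (nat_lit 152) (nat_lit 38574047322637) (nat_lit 0) (nat_lit 1891207549742) (nat_lit 1) (nat_lit 5) (nat_lit 3) (nat_lit 4) (nat_lit 1) (nat_lit 4) (nat_lit 337) (nat_lit 279) (nat_lit 164)) (XT.lf (nat_lit 0) (nat_lit 2467640014074) (nat_lit 152) (nat_lit 43923920705979) (nat_lit 0) (nat_lit 2383629294673) (nat_lit 1) (nat_lit 5) (nat_lit 3) (nat_lit 4)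 (nat_lit 1) (nat_lit 4) (nat_lit 338) (nat_lit 279) (nat_lit 163))) (XT.nd (nat_lit 78) (nat_lit 0) (nat_lit 0) (XT.lf (nat_lit 0) (nat_lit 3033925016736) (nat_lit 152) (nat_lit 50076275107955) (nat_lit 0) (nat_lit 2949914296338) (nat_lit 1) (nat_lit 5) (nat_lit 3) (nat_lit 4) (nat_lit 1) (nat_lit 4) (nat_lit 339) (nat_lit 279) (nat_lit 162)) (XT.nd (nat_lit 78) (nat_lit 0) (nat_lit 0) (XT.lf (nat_lit 0) (nat_lit 3685152765165) (nat_lit 152) (nat_lit 57151482679909) (nat_lit 0) (nat_lit 3601142043900) (nat_lit 1) (nat_lit 5) (nat_lit 3) (nat_lit 4) (nat_lit 1) (nat_lit 4) (nat_lit 340) (nat_lit 279) (nat_lit 161)) (XT.lf (nat_lit 0) (nat_lit 4434064671831) (nat_lit 152) (nat_lit 65287971396073) (nat_lit 0) (nat_lit 4350053949812) (nat_lit 1) (nat_lit 5) (nat_lit 3) (nat_lit 4) (nat_lit 1) (nat_lit 4) (nat_lit 341) (nat_lit 279) (nat_lit 160))))) (XT.nd (nat_lit 156) (nat_lit 0) (nat_lit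 0) (XT.nd (nat_lit 78) (nat_lit 0) (nat_lit 0) (XT.lf (nat_lit 0) (nat_lit 69748027299101) (nat_lit 152) (nat_lit 774885889415489) (nat_lit 0) (nat_lit 69664016572461) (nat_lit 1) (nat_lit 5) (nat_lit 3) (nat_lit 4) (nat_lit 1) (nat_lit 4) (nat_lit 359) (nat_lit 279) (nat_lit 142)) (XT.lf (nat_lit 0) (nat_lit 80406370360890) (nat_lit 152) (nat_lit 890682539194167) (nat_lit 0) (nat_lit 80322359634198) (nat_lit 1) (nat_lit 5) (nat_lit 3) (nat_lit 4) (nat_lit 1) (nat_lit 4) (nat_lit 360) (nat_lit 279) (nat_lit 141))) (XT.nd (nat_lit 34320) (nat_lit 0) (nat_lit 1824) (XT.lf (nat_lit 0) (nat_lit 92663464881702) (nat_lit 152) (nat_lit 1023848686440162) (nat_lit 0) (nat_lit 92579454154962) (nat_lit 1) (nat_lit 5) (nat_lit 3) (nat_lit 4) (nat_lit 1) (nat_lit 4) (nat_lit 361) (nat_lit 279) (nat_lit 140)) (XT.nd (nat_lit 78) (nat_lit 0) (nat_lit 0) (XT.lf (nat_lit 0) (nat_lit 6780260062) (nat_lit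 380) (nat_lit 13242968296) (nat_lit 380) (nat_lit 13242968296) (nat_lit 25) (nat_lit 3) (nat_lit 30) (nat_lit 3) (nat_lit 30) (nat_lit 5) (nat_lit 280) (nat_lit 280) (nat_lit 220)) (XT.lf (nat_lit 76) (nat_lit 5758992423) (nat_lit 0) (nat_lit 9070549036) (nat_lit 380) (nat_lit 56654948263) (nat_lit 26) (nat_lit 5) (nat_lit 25) (nat_lit 3) (nat_lit 30) (nat_lit 5) (nat_lit 281) (nat_lit 280) (nat_lit 219)))))) (XT.nd (nat_lit 390) (nat_lit 456) (nat_lit 0) (XT.nd (nat_lit 156) (nat_lit 228) (nat_lit 0) (XT.nd (nat_lit 78) (nat_lit 0) (nat_lit 0) (XT.lf (nat_lit 0) (nat_lit 18836357289) (nat_lit 304) (nat_lit 32321725560) (nat_lit 380) (nat_lit 25639207917) (nat_lit 26) (nat_lit 5) (nat_lit 30) (nat_lit 5) (nat_lit 31) (nat_lit 5) (nat_lit 282) (nat_lit 280) (nat_lit 218)) (XT.lf (nat_lit 76) (nat_lit 6212033709) (nat_lit 0) (nat_lit 17919206565) (nat_lit 380) (nat_lit 58672720509) (nat_lit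 27) (nat_lit 5) (nat_lit 26) (nat_lit 5) (nat_lit 31) (nat_lit 5) (nat_lit 283) (nat_lit 280) (nat_lit 217))) (XT.nd (nat_lit 78) (nat_lit 304) (nat_lit 0) (XT.lf (nat_lit 0) (nat_lit 32829270510) (nat_lit 304) (nat_lit 36222995103) (nat_lit 76) (nat_lit 20268033279) (nat_lit 27) (nat_lit 5) (nat_lit 31) (nat_lit 5) (nat_lit 28) (nat_lit 5) (nat_lit 284) (nat_lit 280) (nat_lit 216)) (XT.nd (nat_lit 78) (nat_lit 0) (nat_lit 0) (XT.lf (nat_lit 0) (nat_lit 10259709130) (nat_lit 304) (nat_lit 33848779201) (nat_lit 380) (nat_lit 52514131114) (nat_lit 23) (nat_lit 5) (nat_lit 27) (nat_lit 5) (nat_lit 28) (nat_lit 5) (nat_lit 285) (nat_lit 280) (nat_lit 215)) (XT.lf (nat_lit 0) (nat_lit 59336479732) (nat_lit 380) (nat_lit 37317204385) (nat_lit 76) (nat_lit 8028073965) (nat_lit 23) (nat_lit 5) (nat_lit 28) (nat_lit 5) (nat_lit 24) (nat_lit 5) (nat_lit 286) (nat_lit 280) (nat_lit 214))))) (XT.nd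 (nat_lit 156) (nat_lit 304) (nat_lit 0) (XT.nd (nat_lit 78) (nat_lit 0) (nat_lit 0) (XT.lf (nat_lit 0) (nat_lit 19179420661) (nat_lit 152) (nat_lit 60073970342) (nat_lit 228) (nat_lit 34335671501) (nat_lit 21) (nat_lit 5) (nat_lit 23) (nat_lit 5) (nat_lit 24) (nat_lit 5) (nat_lit 287) (nat_lit 280) (nat_lit 213)) (XT.lf (nat_lit 0) (nat_lit 88342981149) (nat_lit 152) (nat_lit 15764333378) (nat_lit 228) (nat_lit 19432729479) (nat_lit 21) (nat_lit 5) (nat_lit 23) (nat_lit 5) (nat_lit 24) (nat_lit 5) (nat_lit 288) (nat_lit 280) (nat_lit 212))) (XT.nd (nat_lit 78) (nat_lit 152) (nat_lit 0) (XT.lf (nat_lit 0) (nat_lit 932497708) (nat_lit 152) (nat_lit 100082127033) (nat_lit 76) (nat_lit 33529912874) (nat_lit 19) (nat_lit 5) (nat_lit 21) (nat_lit 5) (nat_lit 20) (nat_lit 5) (nat_lit 289) (nat_lit 280) (nat_lit 211)) (XT.nd (nat_lit 78) (nat_lit 152) (nat_lit 0) (XT.lf (nat_lit 0) (nat_lit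 25040088387) (nat_lit 152) (nat_lit 30162405629) (nat_lit 76) (nat_lit 91456839735) (nat_lit 19) (nat_lit 5) (nat_lit 21) (nat_lit 5) (nat_lit 20) (nat_lit 5) (nat_lit 290) (nat_lit 280) (nat_lit 210)) (XT.lf (nat_lit 0) (nat_lit 55051196681) (nat_lit 228) (nat_lit 105099174721) (nat_lit 76) (nat_lit 97872624) (nat_lit 17) (nat_lit 5) (nat_lit 20) (nat_lit 5) (nat_lit 18) (nat_lit 4) (nat_lit 291) (nat_lit 280) (nat_lit 209))))))) (XT.nd (nat_lit 780) (nat_lit 456) (nat_lit 0) (XT.nd (nat_lit 390) (nat_lit 228) (nat_lit 0) (XT.nd (nat_lit 156) (nat_lit 228) (nat_lit 0) (XT.nd (nat_lit 78) (nat_lit 76) (nat_lit 0) (XT.lf (nat_lit 0) (nat_lit 93843572579) (nat_lit 228) (nat_lit 21696995652) (nat_lit 76) (nat_lit 59692983776) (nat_lit 17) (nat_lit 5) (nat_lit 20) (nat_lit 5) (nat_lit 18) (nat_lit 4) (nat_lit 292) (nat_lit 280) (nat_lit 208)) (XT.lf (nat_lit 0) (nat_lit 81467106510) (nat_lit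 76) (nat_lit 60360347404) (nat_lit 152) (nat_lit 50133306103) (nat_lit 16) (nat_lit 5) (nat_lit 17) (nat_lit 5) (nat_lit 18) (nat_lit 4) (nat_lit 293) (nat_lit 280) (nat_lit 207))) (XT.nd (nat_lit 78) (nat_lit 228) (nat_lit 0) (XT.lf (nat_lit 0) (nat_lit 198324623479) (nat_lit 152) (nat_lit 8666099589) (nat_lit 0) (nat_lit 4008971288) (nat_lit 16) (nat_lit 5) (nat_lit 18) (nat_lit 4) (nat_lit 16) (nat_lit 4) (nat_lit 294) (nat_lit 280) (nat_lit 206)) (XT.nd (nat_lit 78) (nat_lit 76) (nat_lit 0) (XT.lf (nat_lit 0) (nat_lit 35732526562) (nat_lit 152) (nat_lit 117491537181) (nat_lit 76) (nat_lit 78275992072) (nat_lit 14) (nat_lit 5) (nat_lit 16) (nat_lit 5) (nat_lit 15) (nat_lit 4) (nat_lit 295) (nat_lit 280) (nat_lit 205)) (XT.lf (nat_lit 0) (nat_lit 466048214) (nat_lit 76) (nat_lit 90130802030) (nat_lit 152) (nat_lit 164314094839) (nat_lit 13) (nat_lit 5) (nat_lit 14) (nat_lit 5) (nat_lit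 15) (nat_lit 4) (nat_lit 296) (nat_lit 280) (nat_lit 204))))) (XT.nd (nat_lit 156) (nat_lit 152) (nat_lit 0) (XT.nd (nat_lit 78) (nat_lit 76) (nat_lit 0) (XT.lf (nat_lit 0) (nat_lit 149320710068) (nat_lit 76) (nat_lit 10511153990) (nat_lit 152) (nat_lit 121080448039) (nat_lit 13) (nat_lit 5) (nat_lit 14) (nat_lit 5) (nat_lit 15) (nat_lit 4) (nat_lit 297) (nat_lit 280) (nat_lit 203)) (XT.lf (nat_lit 0) (nat_lit 6951451830) (nat_lit 76) (nat_lit 236144185909) (nat_lit 76) (nat_lit 67171720767) (nat_lit 12) (nat_lit 4) (nat_lit 13) (nat_lit 5) (nat_lit 13) (nat_lit 4) (nat_lit 298) (nat_lit 280) (nat_lit 202))) (XT.nd (nat_lit 78) (nat_lit 76) (nat_lit 0) (XT.lf (nat_lit 0) (nat_lit 2990419229) (nat_lit 152) (nat_lit 162543470042) (nat_lit 76) (nat_lit 177367990407) (nat_lit 11) (nat_lit 5) (nat_lit 13) (nat_lit 5) (nat_lit 12) (nat_lit 4) (nat_lit 299) (nat_lit 280) (nat_lit 201)) (XT.nd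 (nat_lit 78) (nat_lit 76) (nat_lit 0) (XT.lf (nat_lit 0) (nat_lit 76799341977) (nat_lit 152) (nat_lit 3854639388) (nat_lit 76) (nat_lit 299297865016) (nat_lit 11) (nat_lit 5) (nat_lit 13) (nat_lit 5) (nat_lit 12) (nat_lit 4) (nat_lit 300) (nat_lit 280) (nat_lit 200)) (XT.lf (nat_lit 0) (nat_lit 170887917830) (nat_lit 152) (nat_lit 226335731449) (nat_lit 0) (nat_lit 23954411902) (nat_lit 10) (nat_lit 5) (nat_lit 12) (nat_lit 4) (nat_lit 10) (nat_lit 4) (nat_lit 301) (nat_lit 280) (nat_lit 199)))))) (XT.nd (nat_lit 390) (nat_lit 228) (nat_lit 0) (XT.nd (nat_lit 156) (nat_lit 152) (nat_lit 0) (XT.nd (nat_lit 78) (nat_lit 76) (nat_lit 0) (XT.lf (nat_lit 0) (nat_lit 283141163946) (nat_lit 152) (nat_lit 48631911181) (nat_lit 0) (nat_lit 136207425747) (nat_lit 10) (nat_lit 5) (nat_lit 12) (nat_lit 4) (nat_lit 10) (nat_lit 4) (nat_lit 302) (nat_lit 280) (nat_lit 198)) (XT.lf (nat_lit 0) (nat_lit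 170945617617) (nat_lit 76) (nat_lit 248364951723) (nat_lit 76) (nat_lit 101431011549) (nat_lit 9) (nat_lit 4) (nat_lit 10) (nat_lit 5) (nat_lit 10) (nat_lit 4) (nat_lit 303) (nat_lit 280) (nat_lit 197))) (XT.nd (nat_lit 78) (nat_lit 152) (nat_lit 0) (XT.lf (nat_lit 0) (nat_lit 428924742323) (nat_lit 76) (nat_lit 149522461890) (nat_lit 76) (nat_lit 2588346086) (nat_lit 9) (nat_lit 4) (nat_lit 10) (nat_lit 5) (nat_lit 10) (nat_lit 4) (nat_lit 304) (nat_lit 280) (nat_lit 196)) (XT.nd (nat_lit 78) (nat_lit 0) (nat_lit 0) (XT.lf (nat_lit 0) (nat_lit 77529138537) (nat_lit 76) (nat_lit 26872446142) (nat_lit 152) (nat_lit 544800582346) (nat_lit 7) (nat_lit 5) (nat_lit 8) (nat_lit 5) (nat_lit 9) (nat_lit 4) (nat_lit 305) (nat_lit 280) (nat_lit 195)) (XT.lf (nat_lit 0) (nat_lit 240232358316) (nat_lit 152) (nat_lit 372921013612) (nat_lit 0) (nat_lit 112463313684) (nat_lit 7) (nat_lit 5) (nat_lit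 9) (nat_lit 4) (nat_lit 7) (nat_lit 4) (nat_lit 306) (nat_lit 280) (nat_lit 194))))) (XT.nd (nat_lit 234) (nat_lit 152) (nat_lit 0) (XT.nd (nat_lit 78) (nat_lit 76) (nat_lit 0) (XT.lf (nat_lit 0) (nat_lit 397717150691) (nat_lit 152) (nat_lit 145636315362) (nat_lit 0) (nat_lit 269948005641) (nat_lit 7) (nat_lit 5) (nat_lit 9) (nat_lit 4) (nat_lit 7) (nat_lit 4) (nat_lit 307) (nat_lit 280) (nat_lit 193)) (XT.nd (nat_lit 78) (nat_lit 0) (nat_lit 0) (XT.lf (nat_lit 0) (nat_lit 127051691650) (nat_lit 76) (nat_lit 457033703276) (nat_lit 76) (nat_lit 329264470907) (nat_lit 6) (nat_lit 4) (nat_lit 7) (nat_lit 5) (nat_lit 7) (nat_lit 4) (nat_lit 308) (nat_lit 280) (nat_lit 192)) (XT.lf (nat_lit 0) (nat_lit 457010038383) (nat_lit 76) (nat_lit 349011448699) (nat_lit 76) (nat_lit 221242140401) (nat_lit 6) (nat_lit 4) (nat_lit 7) (nat_lit 5) (nat_lit 7) (nat_lit 4) (nat_lit 309) (nat_lit 280) (nat_lit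 191)))) (XT.nd (nat_lit 78) (nat_lit 152) (nat_lit 0) (XT.lf (nat_lit 0) (nat_lit 836461791710) (nat_lit 76) (nat_lit 224786030824) (nat_lit 76) (nat_lit 97016656500) (nat_lit 6) (nat_lit 4) (nat_lit 7) (nat_lit 5) (nat_lit 7) (nat_lit 4) (nat_lit 310) (nat_lit 280) (nat_lit 190)) (XT.nd (nat_lit 78) (nat_lit 76) (nat_lit 0) (XT.lf (nat_lit 0) (nat_lit 41761264872) (nat_lit 152) (nat_lit 37982712260) (nat_lit 76) (nat_lit 1228886767593) (nat_lit 5) (nat_lit 5) (nat_lit 7) (nat_lit 5) (nat_lit 6) (nat_lit 4) (nat_lit 311) (nat_lit 280) (nat_lit 189)) (XT.lf (nat_lit 0) (nat_lit 208761621074) (nat_lit 152) (nat_lit 1171838868504) (nat_lit 0) (nat_lit 97657723976) (nat_lit 4) (nat_lit 5) (nat_lit 6) (nat_lit 4) (nat_lit 4) (nat_lit 4) (nat_lit 312) (nat_lit 280) (nat_lit 188))))))))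
noncomputable def xc86 : XT := (XT.nd (nat_lit 1560) (nat_lit 0) (nat_lit 0) (XT.nd (nat_lit 780) (nat_lit 152) (nat_lit 0) (XT.nd (nat_lit 390) (nat_lit 0) (nat_lit 0) (XT.nd (nat_lit 156) (nat_lit 76) (nat_lit 0) (XT.nd (nat_lit 78) (nat_lit 0) (nat_lit 0) (XT.lf (nat_lit 0) (nat_lit 406689234735) (nat_lit 152) (nat_lit 970173687525) (nat_lit 0) (nat_lit 295585299886) (nat_lit 4) (nat_lit 5) (nat_lit 6) (nat_lit 4) (nat_lit 4) (nat_lit 4) (nat_lit 313) (nat_lit 280) (nat_lit 187)) (XT.lf (nat_lit 0) (nat_lit 634305874020) (nat_lit 152) (nat_lit 738258969160) (nat_lit 0) (nat_lit 523201906345) (nat_lit 4) (nat_lit 5) (nat_lit 6) (nat_lit 4) (nat_lit 4) (nat_lit 4) (nat_lit 314) (nat_lit 280) (nat_lit 186))) (XT.nd (nat_lit 78) (nat_lit 76) (nat_lit 0) (XT.lf (nat_lit 0) (nat_lit 896064907959) (nat_lit 152) (nat_lit 471557251529) (nat_lit 0) (nat_lit 784960911739) (nat_lit 4) (nat_lit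 5) (nat_lit 6) (nat_lit 4) (nat_lit 4) (nat_lit 4) (nat_lit 315) (nat_lit 280) (nat_lit 185)) (XT.nd (nat_lit 78) (nat_lit 76) (nat_lit 0) (XT.lf (nat_lit 0) (nat_lit 1197087708956) (nat_lit 152) (nat_lit 164850457547) (nat_lit 0) (nat_lit 1085983687915) (nat_lit 4) (nat_lit 5) (nat_lit 6) (nat_lit 4) (nat_lit 4) (nat_lit 4) (nat_lit 316) (nat_lit 280) (nat_lit 184)) (XT.lf (nat_lit 0) (nat_lit 206221458131) (nat_lit 76) (nat_lit 1345581586233) (nat_lit 76) (nat_lit 1234477543608) (nat_lit 3) (nat_lit 4) (nat_lit 4) (nat_lit 5) (nat_lit 4) (nat_lit 4) (nat_lit 317) (nat_lit 280) (nat_lit 183))))) (XT.nd (nat_lit 156) (nat_lit 0) (nat_lit 0) (XT.nd (nat_lit 78) (nat_lit 0) (nat_lit 0) (XT.lf (nat_lit 0) (nat_lit 651480954148) (nat_lit 76) (nat_lit 1316861836147) (nat_lit 76) (nat_lit 1205757774753) (nat_lit 3) (nat_lit 4) (nat_lit 4) (nat_lit 5) (nat_lit 4) (nat_lit 4) (nat_lit 318) (nat_lit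 280) (nat_lit 182)) (XT.lf (nat_lit 0) (nat_lit 1163529243715) (nat_lit 76) (nat_lit 1283834191099) (nat_lit 76) (nat_lit 1172730113385) (nat_lit 3) (nat_lit 4) (nat_lit 4) (nat_lit 5) (nat_lit 4) (nat_lit 4) (nat_lit 319) (nat_lit 280) (nat_lit 181))) (XT.nd (nat_lit 78) (nat_lit 0) (nat_lit 0) (XT.lf (nat_lit 0) (nat_lit 1752384662931) (nat_lit 76) (nat_lit 1245852458035) (nat_lit 76) (nat_lit 1134748366128) (nat_lit 3) (nat_lit 4) (nat_lit 4) (nat_lit 5) (nat_lit 4) (nat_lit 4) (nat_lit 320) (nat_lit 280) (nat_lit 180)) (XT.nd (nat_lit 78) (nat_lit 0) (nat_lit 0) (XT.lf (nat_lit 0) (nat_lit 2429568296085) (nat_lit 76) (nat_lit 1202173516089) (nat_lit 76) (nat_lit 1091069411842) (nat_lit 3) (nat_lit 4) (nat_lit 4) (nat_lit 5) (nat_lit 4) (nat_lit 4) (nat_lit 321) (nat_lit 280) (nat_lit 179)) (XT.lf (nat_lit 0) (nat_lit 3208329388175) (nat_lit 76) (nat_lit 1151942777269) (nat_lit 76)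 (nat_lit 1040838662290) (nat_lit 3) (nat_lit 4) (nat_lit 4) (nat_lit 5) (nat_lit 4) (nat_lit 4) (nat_lit 322) (nat_lit 280) (nat_lit 178)))))) (XT.nd (nat_lit 390) (nat_lit 152) (nat_lit 0) (XT.nd (nat_lit 156) (nat_lit 0) (nat_lit 0) (XT.nd (nat_lit 78) (nat_lit 0) (nat_lit 0) (XT.lf (nat_lit 0) (nat_lit 4103904569262) (nat_lit 76) (nat_lit 1094177466247) (nat_lit 76) (nat_lit 983073341938) (nat_lit 3) (nat_lit 4) (nat_lit 4) (nat_lit 5) (nat_lit 4) (nat_lit 4) (nat_lit 323) (nat_lit 280) (nat_lit 177)) (XT.lf (nat_lit 0) (nat_lit 5133815962454) (nat_lit 76) (nat_lit 1027747392158) (nat_lit 76) (nat_lit 916643259735) (nat_lit 3) (nat_lit 4) (nat_lit 4) (nat_lit 5) (nat_lit 4) (nat_lit 4) (nat_lit 324) (nat_lit 280) (nat_lit 176))) (XT.nd (nat_lit 78) (nat_lit 0) (nat_lit 0) (XT.lf (nat_lit 0) (nat_lit 6318214008054) (nat_lit 76) (nat_lit 951352836160) (nat_lit 76) (nat_lit 840248696681)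 (nat_lit 3) (nat_lit 4) (nat_lit 4) (nat_lit 5) (nat_lit 4) (nat_lit 4) (nat_lit 325) (nat_lit 280) (nat_lit 175)) (XT.nd (nat_lit 78) (nat_lit 0) (nat_lit 0) (XT.lf (nat_lit 0) (nat_lit 7680271711302) (nat_lit 76) (nat_lit 863499122157) (nat_lit 76) (nat_lit 752394976543) (nat_lit 3) (nat_lit 4) (nat_lit 4) (nat_lit 5) (nat_lit 4) (nat_lit 4) (nat_lit 326) (nat_lit 280) (nat_lit 174)) (XT.lf (nat_lit 0) (nat_lit 9246638027260) (nat_lit 76) (nat_lit 762467373137) (nat_lit 76) (nat_lit 651363222187) (nat_lit 3) (nat_lit 4) (nat_lit 4) (nat_lit 5) (nat_lit 4) (nat_lit 4) (nat_lit 327) (nat_lit 280) (nat_lit 173))))) (XT.nd (nat_lit 156) (nat_lit 152) (nat_lit 0) (XT.nd (nat_lit 78) (nat_lit 0) (nat_lit 0) (XT.lf (nat_lit 0) (nat_lit 11047959253416) (nat_lit 76) (nat_lit 646280880966) (nat_lit 76) (nat_lit 535176725377) (nat_lit 3) (nat_lit 4) (nat_lit 4) (nat_lit 5) (nat_lit 4) (nat_lit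 4) (nat_lit 328) (nat_lit 280) (nat_lit 172)) (XT.lf (nat_lit 0) (nat_lit 13119478631150) (nat_lit 76) (nat_lit 512666431667) (nat_lit 76) (nat_lit 401562272044) (nat_lit 3) (nat_lit 4) (nat_lit 4) (nat_lit 5) (nat_lit 4) (nat_lit 4) (nat_lit 329) (nat_lit 280) (nat_lit 171))) (XT.nd (nat_lit 78) (nat_lit 152) (nat_lit 0) (XT.lf (nat_lit 0) (nat_lit 15501725887418) (nat_lit 76) (nat_lit 359009829493) (nat_lit 76) (nat_lit 247905666362) (nat_lit 3) (nat_lit 4) (nat_lit 4) (nat_lit 5) (nat_lit 4) (nat_lit 4) (nat_lit 330) (nat_lit 280) (nat_lit 170)) (XT.nd (nat_lit 78) (nat_lit 152) (nat_lit 0) (XT.lf (nat_lit 0) (nat_lit 18241310207668) (nat_lit 76) (nat_lit 182304749619) (nat_lit 76) (nat_lit 71200583437) (nat_lit 3) (nat_lit 4) (nat_lit 4) (nat_lit 5) (nat_lit 4) (nat_lit 4) (nat_lit 331) (nat_lit 280) (nat_lit 169)) (XT.lf (nat_lit 0) (nat_lit 128405191069) (nat_lit 152) (nat_lit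 21076675711541) (nat_lit 0) (nat_lit 31792870343) (nat_lit 1) (nat_lit 5) (nat_lit 3) (nat_lit 4) (nat_lit 1) (nat_lit 4) (nat_lit 332) (nat_lit 280) (nat_lit 168))))))) (XT.nd (nat_lit 2106) (nat_lit 0) (nat_lit 0) (XT.nd (nat_lit 390) (nat_lit 0) (nat_lit 0) (XT.nd (nat_lit 156) (nat_lit 0) (nat_lit 0) (XT.nd (nat_lit 78) (nat_lit 0) (nat_lit 0) (XT.lf (nat_lit 0) (nat_lit 373225850953) (nat_lit 152) (nat_lit 23736508244835) (nat_lit 0) (nat_lit 276613528221) (nat_lit 1) (nat_lit 5) (nat_lit 3) (nat_lit 4) (nat_lit 1) (nat_lit 4) (nat_lit 333) (nat_lit 280) (nat_lit 167)) (XT.lf (nat_lit 0) (nat_lit 654769600503) (nat_lit 152) (nat_lit 26795315677594) (nat_lit 0) (nat_lit 558157276027) (nat_lit 1) (nat_lit 5) (nat_lit 3) (nat_lit 4) (nat_lit 1) (nat_lit 4) (nat_lit 334) (nat_lit 280) (nat_lit 166))) (XT.nd (nat_lit 78) (nat_lit 0) (nat_lit 0) (XT.lf (nat_lit 0) (nat_lit 978544904383)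 (nat_lit 152) (nat_lit 30312944242199) (nat_lit 0) (nat_lit 881932578391) (nat_lit 1) (nat_lit 5) (nat_lit 3) (nat_lit 4) (nat_lit 1) (nat_lit 4) (nat_lit 335) (nat_lit 280) (nat_lit 165)) (XT.nd (nat_lit 78) (nat_lit 0) (nat_lit 0) (XT.lf (nat_lit 0) (nat_lit 1350886496801) (nat_lit 152) (nat_lit 34358217106217) (nat_lit 0) (nat_lit 1254274169490) (nat_lit 1) (nat_lit 5) (nat_lit 3) (nat_lit 4) (nat_lit 1) (nat_lit 4) (nat_lit 336) (nat_lit 280) (nat_lit 164)) (XT.lf (nat_lit 0) (nat_lit 1779079321955) (nat_lit 152) (nat_lit 39010280912641) (nat_lit 0) (nat_lit 1682466993497) (nat_lit 1) (nat_lit 5) (nat_lit 3) (nat_lit 4) (nat_lit 1) (nat_lit 4) (nat_lit 337) (nat_lit 280) (nat_lit 163))))) (XT.nd (nat_lit 156) (nat_lit 0) (nat_lit 0) (XT.nd (nat_lit 78) (nat_lit 0) (nat_lit 0) (XT.lf (nat_lit 0) (nat_lit 2271501065555) (nat_lit 152) (nat_lit 44360154301161) (nat_lit 0) (nat_lit 2174888736100)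 (nat_lit 1) (nat_lit 5) (nat_lit 3) (nat_lit 4) (nat_lit 1) (nat_lit 4) (nat_lit 338) (nat_lit 280) (nat_lit 162)) (XT.lf (nat_lit 0) (nat_lit 2837786066062) (nat_lit 152) (nat_lit 50512508707640) (nat_lit 0) (nat_lit 2741173735740) (nat_lit 1) (nat_lit 5) (nat_lit 3) (nat_lit 4) (nat_lit 1) (nat_lit 4) (nat_lit 339) (nat_lit 280) (nat_lit 161))) (XT.nd (nat_lit 78) (nat_lit 0) (nat_lit 0) (XT.lf (nat_lit 0) (nat_lit 3489013812618) (nat_lit 152) (nat_lit 57587716283509) (nat_lit 0) (nat_lit 3392401481542) (nat_lit 1) (nat_lit 5) (nat_lit 3) (nat_lit 4) (nat_lit 1) (nat_lit 4) (nat_lit 340) (nat_lit 280) (nat_lit 160)) (XT.nd (nat_lit 1404) (nat_lit 0) (nat_lit 0) (XT.lf (nat_lit 0) (nat_lit 4237925717655) (nat_lit 152) (nat_lit 65724205003078) (nat_lit 0) (nat_lit 4141313385923) (nat_lit 1) (nat_lit 5) (nat_lit 3) (nat_lit 4) (nat_lit 1) (nat_lit 4) (nat_lit 341) (nat_lit 280) (nat_lit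 159)) (XT.lf (nat_lit 0) (nat_lit 69551888334941) (nat_lit 152) (nat_lit 775322123043357) (nat_lit 0) (nat_lit 69455275999191) (nat_lit 1) (nat_lit 5) (nat_lit 3) (nat_lit 4) (nat_lit 1) (nat_lit 4) (nat_lit 359) (nat_lit 280) (nat_lit 141)))))) (XT.nd (nat_lit 34788) (nat_lit 0) (nat_lit 1520) (XT.nd (nat_lit 34554) (nat_lit 0) (nat_lit 1824) (XT.nd (nat_lit 34476) (nat_lit 0) (nat_lit 1824) (XT.lf (nat_lit 0) (nat_lit 80210231396615) (nat_lit 152) (nat_lit 891118772822276) (nat_lit 0) (nat_lit 80113619060820) (nat_lit 1) (nat_lit 5) (nat_lit 3) (nat_lit 4) (nat_lit 1) (nat_lit 4) (nat_lit 360) (nat_lit 280) (nat_lit 140)) (XT.lf (nat_lit 0) (nat_lit 7810254186) (nat_lit 380) (nat_lit 15221947221) (nat_lit 380) (nat_lit 15221947221) (nat_lit 25) (nat_lit 3) (nat_lit 30) (nat_lit 3) (nat_lit 30) (nat_lit 5) (nat_lit 281) (nat_lit 281) (nat_lit 218))) (XT.nd (nat_lit 78) (nat_lit 0) (nat_lit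 76) (XT.lf (nat_lit 76) (nat_lit 6637095168) (nat_lit 0) (nat_lit 10439998366) (nat_lit 380) (nat_lit 65126541942) (nat_lit 26) (nat_lit 5) (nat_lit 25) (nat_lit 3) (nat_lit 30) (nat_lit 5) (nat_lit 282) (nat_lit 281) (nat_lit 217)) (XT.nd (nat_lit 78) (nat_lit 0) (nat_lit 0) (XT.lf (nat_lit 0) (nat_lit 21681596702) (nat_lit 304) (nat_lit 37154202874) (nat_lit 380) (nat_lit 29478065126) (nat_lit 26) (nat_lit 5) (nat_lit 30) (nat_lit 5) (nat_lit 31) (nat_lit 5) (nat_lit 283) (nat_lit 281) (nat_lit 216)) (XT.lf (nat_lit 76) (nat_lit 7158902944) (nat_lit 0) (nat_lit 20609852207) (nat_lit 380) (nat_lit 67453080375) (nat_lit 27) (nat_lit 5) (nat_lit 26) (nat_lit 5) (nat_lit 31) (nat_lit 5) (nat_lit 284) (nat_lit 281) (nat_lit 215))))) (XT.nd (nat_lit 156) (nat_lit 152) (nat_lit 0) (XT.nd (nat_lit 78) (nat_lit 304) (nat_lit 0) (XT.lf (nat_lit 0) (nat_lit 37769064876) (nat_lit 304) (nat_lit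 41640880863) (nat_lit 76) (nat_lit 23306048245) (nat_lit 27) (nat_lit 5) (nat_lit 31) (nat_lit 5) (nat_lit 28) (nat_lit 5) (nat_lit 285) (nat_lit 281) (nat_lit 214)) (XT.lf (nat_lit 0) (nat_lit 11813521573) (nat_lit 304) (nat_lit 38925249766) (nat_lit 380) (nat_lit 60375105496) (nat_lit 23) (nat_lit 5) (nat_lit 27) (nat_lit 5) (nat_lit 28) (nat_lit 5) (nat_lit 286) (nat_lit 281) (nat_lit 213))) (XT.nd (nat_lit 78) (nat_lit 152) (nat_lit 0) (XT.lf (nat_lit 0) (nat_lit 68249164563) (nat_lit 380) (nat_lit 42900040212) (nat_lit 76) (nat_lit 9232955469) (nat_lit 23) (nat_lit 5) (nat_lit 28) (nat_lit 5) (nat_lit 24) (nat_lit 5) (nat_lit 287) (nat_lit 281) (nat_lit 212)) (XT.nd (nat_lit 78) (nat_lit 0) (nat_lit 0) (XT.lf (nat_lit 0) (nat_lit 22070408372) (nat_lit 152) (nat_lit 69082193969) (nat_lit 228) (nat_lit 39473113379) (nat_lit 21) (nat_lit 5) (nat_lit 23) (nat_lit 5) (nat_lit 24) (nat_lit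 5) (nat_lit 288) (nat_lit 281) (nat_lit 211)) (XT.lf (nat_lit 0) (nat_lit 101606667115) (nat_lit 152) (nat_lit 18126486059) (nat_lit 228) (nat_lit 22336413817) (nat_lit 21) (nat_lit 5) (nat_lit 23) (nat_lit 5) (nat_lit 24) (nat_lit 5) (nat_lit 289) (nat_lit 281) (nat_lit 210))))))))
noncomputable def xc87 : XT := (XT.nd (nat_lit 1560) (nat_lit 228) (nat_lit 0) (XT.nd (nat_lit 780) (nat_lit 456) (nat_lit 0) (XT.nd (nat_lit 390) (nat_lit 304) (nat_lit 0) (XT.nd (nat_lit 156) (nat_lit 228) (nat_lit 0) (XT.nd (nat_lit 78) (nat_lit 0) (nat_lit 0) (XT.lf (nat_lit 0) (nat_lit 1081922458) (nat_lit 152) (nat_lit 115080495892) (nat_lit 76) (nat_lit 38562350459) (nat_lit 19) (nat_lit 5) (nat_lit 21) (nat_lit 5) (nat_lit 20) (nat_lit 5) (nat_lit 290) (nat_lit 281) (nat_lit 209)) (XT.lf (nat_lit 0) (nat_lit 28804406074) (nat_lit 152) (nat_lit 34674635868) (nat_lit 76) (nat_lit 105177931481) (nat_lit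 19) (nat_lit 5) (nat_lit 21) (nat_lit 5) (nat_lit 20) (nat_lit 5) (nat_lit 291) (nat_lit 281) (nat_lit 208))) (XT.nd (nat_lit 78) (nat_lit 76) (nat_lit 0) (XT.lf (nat_lit 0) (nat_lit 63316737497) (nat_lit 228) (nat_lit 120851464403) (nat_lit 76) (nat_lit 116086728) (nat_lit 17) (nat_lit 5) (nat_lit 20) (nat_lit 5) (nat_lit 18) (nat_lit 4) (nat_lit 292) (nat_lit 281) (nat_lit 207)) (XT.nd (nat_lit 78) (nat_lit 76) (nat_lit 0) (XT.lf (nat_lit 0) (nat_lit 107926944391) (nat_lit 228) (nat_lit 24940600194) (nat_lit 76) (nat_lit 68650003699) (nat_lit 17) (nat_lit 5) (nat_lit 20) (nat_lit 5) (nat_lit 18) (nat_lit 4) (nat_lit 293) (nat_lit 281) (nat_lit 206)) (XT.lf (nat_lit 0) (nat_lit 93697619800) (nat_lit 76) (nat_lit 69410329084) (nat_lit 152) (nat_lit 57645958920) (nat_lit 16) (nat_lit 5) (nat_lit 17) (nat_lit 5) (nat_lit 18) (nat_lit 4) (nat_lit 294) (nat_lit 281) (nat_lit 205))))) (XT.nd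 (nat_lit 156) (nat_lit 152) (nat_lit 0) (XT.nd (nat_lit 78) (nat_lit 152) (nat_lit 0) (XT.lf (nat_lit 0) (nat_lit 228079008681) (nat_lit 152) (nat_lit 9956236283) (nat_lit 0) (nat_lit 4613541375) (nat_lit 16) (nat_lit 5) (nat_lit 18) (nat_lit 4) (nat_lit 16) (nat_lit 4) (nat_lit 295) (nat_lit 281) (nat_lit 204)) (XT.lf (nat_lit 0) (nat_lit 41098002079) (nat_lit 152) (nat_lit 135105380679) (nat_lit 76) (nat_lit 90020835583) (nat_lit 14) (nat_lit 5) (nat_lit 16) (nat_lit 5) (nat_lit 15) (nat_lit 4) (nat_lit 296) (nat_lit 281) (nat_lit 203))) (XT.nd (nat_lit 78) (nat_lit 76) (nat_lit 0) (XT.lf (nat_lit 0) (nat_lit 545393114) (nat_lit 76) (nat_lit 103646242011) (nat_lit 152) (nat_lit 188955157583) (nat_lit 13) (nat_lit 5) (nat_lit 14) (nat_lit 5) (nat_lit 15) (nat_lit 4) (nat_lit 297) (nat_lit 281) (nat_lit 202)) (XT.nd (nat_lit 78) (nat_lit 76) (nat_lit 0) (XT.lf (nat_lit 0) (nat_lit 171727023245)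 (nat_lit 76) (nat_lit 12084192025) (nat_lit 152) (nat_lit 139237253087) (nat_lit 13) (nat_lit 5) (nat_lit 14) (nat_lit 5) (nat_lit 15) (nat_lit 4) (nat_lit 298) (nat_lit 281) (nat_lit 201)) (XT.lf (nat_lit 0) (nat_lit 8002518728) (nat_lit 76) (nat_lit 271561916586) (nat_lit 76) (nat_lit 77242354995) (nat_lit 12) (nat_lit 4) (nat_lit 13) (nat_lit 5) (nat_lit 13) (nat_lit 4) (nat_lit 299) (nat_lit 281) (nat_lit 200)))))) (XT.nd (nat_lit 390) (nat_lit 228) (nat_lit 0) (XT.nd (nat_lit 156) (nat_lit 152) (nat_lit 0) (XT.nd (nat_lit 78) (nat_lit 0) (nat_lit 0) (XT.lf (nat_lit 0) (nat_lit 3443041003) (nat_lit 152) (nat_lit 186917330610) (nat_lit 76) (nat_lit 203976178017) (nat_lit 11) (nat_lit 5) (nat_lit 13) (nat_lit 5) (nat_lit 12) (nat_lit 4) (nat_lit 300) (nat_lit 281) (nat_lit 199)) (XT.lf (nat_lit 0) (nat_lit 88322772743) (nat_lit 152) (nat_lit 4426174481) (nat_lit 76) (nat_lit 344195143942)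 (nat_lit 11) (nat_lit 5) (nat_lit 13) (nat_lit 5) (nat_lit 12) (nat_lit 4) (nat_lit 301) (nat_lit 281) (nat_lit 198))) (XT.nd (nat_lit 78) (nat_lit 76) (nat_lit 0) (XT.lf (nat_lit 0) (nat_lit 196524563169) (nat_lit 152) (nat_lit 260279356152) (nat_lit 0) (nat_lit 27550329995) (nat_lit 10) (nat_lit 5) (nat_lit 12) (nat_lit 4) (nat_lit 10) (nat_lit 4) (nat_lit 302) (nat_lit 281) (nat_lit 197)) (XT.nd (nat_lit 78) (nat_lit 76) (nat_lit 0) (XT.lf (nat_lit 0) (nat_lit 325615345202) (nat_lit 152) (nat_lit 55920841324) (nat_lit 0) (nat_lit 156640936398) (nat_lit 10) (nat_lit 5) (nat_lit 12) (nat_lit 4) (nat_lit 10) (nat_lit 4) (nat_lit 303) (nat_lit 281) (nat_lit 196)) (XT.lf (nat_lit 0) (nat_lit 196593050587) (nat_lit 76) (nat_lit 285616950128) (nat_lit 76) (nat_lit 116642388602) (nat_lit 9) (nat_lit 4) (nat_lit 10) (nat_lit 5) (nat_lit 10) (nat_lit 4) (nat_lit 304) (nat_lit 281) (nat_lit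 195))))) (XT.nd (nat_lit 156) (nat_lit 76) (nat_lit 0) (XT.nd (nat_lit 78) (nat_lit 152) (nat_lit 0) (XT.lf (nat_lit 0) (nat_lit 493268314826) (nat_lit 76) (nat_lit 171948444779) (nat_lit 76) (nat_lit 2973750451) (nat_lit 9) (nat_lit 4) (nat_lit 10) (nat_lit 5) (nat_lit 10) (nat_lit 4) (nat_lit 305) (nat_lit 281) (nat_lit 194)) (XT.lf (nat_lit 0) (nat_lit 89163392802) (nat_lit 76) (nat_lit 30900887480) (nat_lit 152) (nat_lit 626517841921) (nat_lit 7) (nat_lit 5) (nat_lit 8) (nat_lit 5) (nat_lit 9) (nat_lit 4) (nat_lit 306) (nat_lit 281) (nat_lit 193))) (XT.nd (nat_lit 78) (nat_lit 76) (nat_lit 0) (XT.lf (nat_lit 0) (nat_lit 276269436707) (nat_lit 152) (nat_lit 428854684853) (nat_lit 0) (nat_lit 129334732164) (nat_lit 7) (nat_lit 5) (nat_lit 9) (nat_lit 4) (nat_lit 7) (nat_lit 4) (nat_lit 307) (nat_lit 281) (nat_lit 192)) (XT.nd (nat_lit 78) (nat_lit 76) (nat_lit 0) (XT.lf (nat_lit 0)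 (nat_lit 457376657767) (nat_lit 152) (nat_lit 167477866317) (nat_lit 0) (nat_lit 310441877294) (nat_lit 7) (nat_lit 5) (nat_lit 9) (nat_lit 4) (nat_lit 7) (nat_lit 4) (nat_lit 308) (nat_lit 281) (nat_lit 191)) (XT.lf (nat_lit 0) (nat_lit 146113164640) (nat_lit 76) (nat_lit 525586875681) (nat_lit 76) (nat_lit 378652029182) (nat_lit 6) (nat_lit 4) (nat_lit 7) (nat_lit 5) (nat_lit 7) (nat_lit 4) (nat_lit 309) (nat_lit 281) (nat_lit 190))))))) (XT.nd (nat_lit 780) (nat_lit 0) (nat_lit 0) (XT.nd (nat_lit 390) (nat_lit 76) (nat_lit 0) (XT.nd (nat_lit 156) (nat_lit 152) (nat_lit 0) (XT.nd (nat_lit 78) (nat_lit 0) (nat_lit 0) (XT.lf (nat_lit 0) (nat_lit 525564778264) (nat_lit 76) (nat_lit 401361528538) (nat_lit 76) (nat_lit 254426624626) (nat_lit 6) (nat_lit 4) (nat_lit 7) (nat_lit 5) (nat_lit 7) (nat_lit 4) (nat_lit 310) (nat_lit 281) (nat_lit 189)) (XT.lf (nat_lit 0) (nat_lit 961933872748)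 (nat_lit 76) (nat_lit 258502511563) (nat_lit 76) (nat_lit 111567557726) (nat_lit 6) (nat_lit 4) (nat_lit 7) (nat_lit 5) (nat_lit 7) (nat_lit 4) (nat_lit 311) (nat_lit 281) (nat_lit 188))) (XT.nd (nat_lit 78) (nat_lit 76) (nat_lit 0) (XT.lf (nat_lit 0) (nat_lit 48026719865) (nat_lit 152) (nat_lit 43677549539) (nat_lit 76) (nat_lit 1413220896794) (nat_lit 5) (nat_lit 5) (nat_lit 7) (nat_lit 5) (nat_lit 6) (nat_lit 4) (nat_lit 312) (nat_lit 281) (nat_lit 187)) (XT.nd (nat_lit 78) (nat_lit 0) (nat_lit 0) (XT.lf (nat_lit 0) (nat_lit 240077117827) (nat_lit 152) (nat_lit 1347612117160) (nat_lit 0) (nat_lit 112307522174) (nat_lit 4) (nat_lit 5) (nat_lit 6) (nat_lit 4) (nat_lit 4) (nat_lit 4) (nat_lit 313) (nat_lit 281) (nat_lit 186)) (XT.lf (nat_lit 0) (nat_lit 467693710024) (nat_lit 152) (nat_lit 1115697495767) (nat_lit 0) (nat_lit 339924085827) (nat_lit 4) (nat_lit 5) (nat_lit 6) (nat_lit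 4) (nat_lit 4) (nat_lit 4) (nat_lit 314) (nat_lit 281) (nat_lit 185))))) (XT.nd (nat_lit 156) (nat_lit 76) (nat_lit 0) (XT.nd (nat_lit 78) (nat_lit 0) (nat_lit 0) (XT.lf (nat_lit 0) (nat_lit 729452703018) (nat_lit 152) (nat_lit 848995862459) (nat_lit 0) (nat_lit 601683053999) (nat_lit 4) (nat_lit 5) (nat_lit 6) (nat_lit 4) (nat_lit 4) (nat_lit 4) (nat_lit 315) (nat_lit 281) (nat_lit 184)) (XT.lf (nat_lit 0) (nat_lit 1030475468410) (nat_lit 152) (nat_lit 542289141801) (nat_lit 0) (nat_lit 902705797807) (nat_lit 4) (nat_lit 5) (nat_lit 6) (nat_lit 4) (nat_lit 4) (nat_lit 4) (nat_lit 316) (nat_lit 281) (nat_lit 183))) (XT.nd (nat_lit 78) (nat_lit 76) (nat_lit 0) (XT.lf (nat_lit 0) (nat_lit 1376651582044) (nat_lit 152) (nat_lit 189576550130) (nat_lit 0) (nat_lit 1248881892673) (nat_lit 4) (nat_lit 5) (nat_lit 6) (nat_lit 4) (nat_lit 4) (nat_lit 4) (nat_lit 317) (nat_lit 281) (nat_lit 182))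 (XT.nd (nat_lit 78) (nat_lit 0) (nat_lit 0) (XT.lf (nat_lit 0) (nat_lit 237156085807) (nat_lit 76) (nat_lit 1547418096810) (nat_lit 76) (nat_lit 1419648391118) (nat_lit 3) (nat_lit 4) (nat_lit 4) (nat_lit 5) (nat_lit 4) (nat_lit 4) (nat_lit 318) (nat_lit 281) (nat_lit 181)) (XT.lf (nat_lit 0) (nat_lit 749204322450) (nat_lit 76) (nat_lit 1514390479084) (nat_lit 76) (nat_lit 1386620759200) (nat_lit 3) (nat_lit 4) (nat_lit 4) (nat_lit 5) (nat_lit 4) (nat_lit 4) (nat_lit 319) (nat_lit 281) (nat_lit 180)))))) (XT.nd (nat_lit 390) (nat_lit 0) (nat_lit 0) (XT.nd (nat_lit 156) (nat_lit 0) (nat_lit 0) (XT.nd (nat_lit 78) (nat_lit 0) (nat_lit 0) (XT.lf (nat_lit 0) (nat_lit 1338059695645) (nat_lit 76) (nat_lit 1476408769777) (nat_lit 76) (nat_lit 1348639037552) (nat_lit 3) (nat_lit 4) (nat_lit 4) (nat_lit 5) (nat_lit 4) (nat_lit 4) (nat_lit 320) (nat_lit 281) (nat_lit 179)) (XT.lf (nat_lit 0) (nat_lit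 2015243288782) (nat_lit 76) (nat_lit 1432729848490) (nat_lit 76) (nat_lit 1304960105534) (nat_lit 3) (nat_lit 4) (nat_lit 4) (nat_lit 5) (nat_lit 4) (nat_lit 4) (nat_lit 321) (nat_lit 281) (nat_lit 178))) (XT.nd (nat_lit 78) (nat_lit 0) (nat_lit 0) (XT.lf (nat_lit 0) (nat_lit 2794004346073) (nat_lit 76) (nat_lit 1382499127634) (nat_lit 76) (nat_lit 1254729375346) (nat_lit 3) (nat_lit 4) (nat_lit 4) (nat_lit 5) (nat_lit 4) (nat_lit 4) (nat_lit 322) (nat_lit 281) (nat_lit 177)) (XT.nd (nat_lit 78) (nat_lit 0) (nat_lit 0) (XT.lf (nat_lit 0) (nat_lit 3689579496901) (nat_lit 76) (nat_lit 1324733832233) (nat_lit 76) (nat_lit 1196964071832) (nat_lit 3) (nat_lit 4) (nat_lit 4) (nat_lit 5) (nat_lit 4) (nat_lit 4) (nat_lit 323) (nat_lit 281) (nat_lit 176)) (XT.lf (nat_lit 0) (nat_lit 4719490863782) (nat_lit 76) (nat_lit 1258303771728) (nat_lit 76) (nat_lit 1130534004270) (nat_lit 3) (nat_lit 4)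 (nat_lit 4) (nat_lit 5) (nat_lit 4) (nat_lit 4) (nat_lit 324) (nat_lit 281) (nat_lit 175))))) (XT.nd (nat_lit 234) (nat_lit 0) (nat_lit 0) (XT.nd (nat_lit 78) (nat_lit 0) (nat_lit 0) (XT.lf (nat_lit 0) (nat_lit 5903888886501) (nat_lit 76) (nat_lit 1181909227541) (nat_lit 76) (nat_lit 1054139453949) (nat_lit 3) (nat_lit 4) (nat_lit 4) (nat_lit 5) (nat_lit 4) (nat_lit 4) (nat_lit 325) (nat_lit 281) (nat_lit 174)) (XT.nd (nat_lit 78) (nat_lit 0) (nat_lit 0) (XT.lf (nat_lit 0) (nat_lit 7265946569853) (nat_lit 76) (nat_lit 1094055523810) (nat_lit 76) (nat_lit 966285744882) (nat_lit 3) (nat_lit 4) (nat_lit 4) (nat_lit 5) (nat_lit 4) (nat_lit 4) (nat_lit 326) (nat_lit 281) (nat_lit 173)) (XT.lf (nat_lit 0) (nat_lit 8832312868511) (nat_lit 76) (nat_lit 993023783721) (nat_lit 76) (nat_lit 865254000153) (nat_lit 3) (nat_lit 4) (nat_lit 4) (nat_lit 5) (nat_lit 4) (nat_lit 4) (nat_lit 327) (nat_lit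 281) (nat_lit 172)))) (XT.nd (nat_lit 78) (nat_lit 0) (nat_lit 0) (XT.lf (nat_lit 0) (nat_lit 10633634079622) (nat_lit 76) (nat_lit 876837299316) (nat_lit 76) (nat_lit 749067511715) (nat_lit 3) (nat_lit 4) (nat_lit 4) (nat_lit 5) (nat_lit 4) (nat_lit 4) (nat_lit 328) (nat_lit 281) (nat_lit 171)) (XT.nd (nat_lit 78) (nat_lit 0) (nat_lit 0) (XT.lf (nat_lit 0) (nat_lit 12705153444274) (nat_lit 76) (nat_lit 743222856770) (nat_lit 76) (nat_lit 615453065661) (nat_lit 3) (nat_lit 4) (nat_lit 4) (nat_lit 5) (nat_lit 4) (nat_lit 4) (nat_lit 329) (nat_lit 281) (nat_lit 170)) (XT.lf (nat_lit 0) (nat_lit 15087400689166) (nat_lit 76) (nat_lit 589566260469) (nat_lit 76) (nat_lit 461796466309) (nat_lit 3) (nat_lit 4) (nat_lit 4) (nat_lit 5) (nat_lit 4) (nat_lit 4) (nat_lit 330) (nat_lit 281) (nat_lit 169))))))))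
noncomputable def xc88 : XT := (XT.nd (nat_lit 37518) (nat_lit 0) (nat_lit 380) (XT.nd (nat_lit 780) (nat_lit 0) (nat_lit 0) (XT.nd (nat_lit 390) (nat_lit 0) (nat_lit 0) (XT.nd (nat_lit 156) (nat_lit 152) (nat_lit 0) (XT.nd (nat_lit 78) (nat_lit 0) (nat_lit 0) (XT.lf (nat_lit 0) (nat_lit 17826984999525) (nat_lit 76) (nat_lit 412861185701) (nat_lit 76) (nat_lit 285091388889) (nat_lit 3) (nat_lit 4) (nat_lit 4) (nat_lit 5) (nat_lit 4) (nat_lit 4) (nat_lit 331) (nat_lit 281) (nat_lit 168)) (XT.lf (nat_lit 0) (nat_lit 20977506937944) (nat_lit 76) (nat_lit 209650359265) (nat_lit 76) (nat_lit 81880560146) (nat_lit 3) (nat_lit 4) (nat_lit 4) (nat_lit 5) (nat_lit 4) (nat_lit 4) (nat_lit 332) (nat_lit 281) (nat_lit 167))) (XT.nd (nat_lit 78) (nat_lit 0) (nat_lit 0) (XT.lf (nat_lit 0) (nat_lit 147666070050) (nat_lit 152) (nat_lit 24238176858617) (nat_lit 0) (nat_lit 36561895159) (nat_lit 1) (nat_lit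 5) (nat_lit 3) (nat_lit 4) (nat_lit 1) (nat_lit 4) (nat_lit 333) (nat_lit 281) (nat_lit 166)) (XT.nd (nat_lit 78) (nat_lit 0) (nat_lit 0) (XT.lf (nat_lit 0) (nat_lit 429209815832) (nat_lit 152) (nat_lit 27296984299251) (nat_lit 0) (nat_lit 318105639424) (nat_lit 1) (nat_lit 5) (nat_lit 3) (nat_lit 4) (nat_lit 1) (nat_lit 4) (nat_lit 334) (nat_lit 281) (nat_lit 165)) (XT.lf (nat_lit 0) (nat_lit 752985116436) (nat_lit 152) (nat_lit 30814612870704) (nat_lit 0) (nat_lit 641880938709) (nat_lit 1) (nat_lit 5) (nat_lit 3) (nat_lit 4) (nat_lit 1) (nat_lit 4) (nat_lit 335) (nat_lit 281) (nat_lit 164))))) (XT.nd (nat_lit 156) (nat_lit 0) (nat_lit 0) (XT.nd (nat_lit 78) (nat_lit 0) (nat_lit 0) (XT.lf (nat_lit 0) (nat_lit 1125326706004) (nat_lit 152) (nat_lit 34859885740677) (nat_lit 0) (nat_lit 1014222527131) (nat_lit 1) (nat_lit 5) (nat_lit 3) (nat_lit 4) (nat_lit 1) (nat_lit 4) (nat_lit 336)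 (nat_lit 281) (nat_lit 163)) (XT.lf (nat_lit 0) (nat_lit 1553519528680) (nat_lit 152) (nat_lit 39511949552279) (nat_lit 0) (nat_lit 1442415348810) (nat_lit 1) (nat_lit 5) (nat_lit 3) (nat_lit 4) (nat_lit 1) (nat_lit 4) (nat_lit 337) (nat_lit 281) (nat_lit 162))) (XT.nd (nat_lit 78) (nat_lit 0) (nat_lit 0) (XT.lf (nat_lit 0) (nat_lit 2045941270125) (nat_lit 152) (nat_lit 44861822945302) (nat_lit 0) (nat_lit 1934837089388) (nat_lit 1) (nat_lit 5) (nat_lit 3) (nat_lit 4) (nat_lit 1) (nat_lit 4) (nat_lit 338) (nat_lit 281) (nat_lit 161)) (XT.nd (nat_lit 78) (nat_lit 0) (nat_lit 0) (XT.lf (nat_lit 0) (nat_lit 2612226268760) (nat_lit 152) (nat_lit 51014177355696) (nat_lit 0) (nat_lit 2501122087268) (nat_lit 1) (nat_lit 5) (nat_lit 3) (nat_lit 4) (nat_lit 1) (nat_lit 4) (nat_lit 339) (nat_lit 281) (nat_lit 160)) (XT.lf (nat_lit 0) (nat_lit 3263454013686) (nat_lit 152) (nat_lit 58089384934969)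 (nat_lit 0) (nat_lit 3152349831539) (nat_lit 1) (nat_lit 5) (nat_lit 3) (nat_lit 4) (nat_lit 1) (nat_lit 4) (nat_lit 340) (nat_lit 281) (nat_lit 159)))))) (XT.nd (nat_lit 36348) (nat_lit 0) (nat_lit 1520) (XT.nd (nat_lit 36114) (nat_lit 0) (nat_lit 1824) (XT.nd (nat_lit 36036) (nat_lit 0) (nat_lit 1824) (XT.lf (nat_lit 0) (nat_lit 4012365917306) (nat_lit 152) (nat_lit 66225873657499) (nat_lit 0) (nat_lit 3901261734589) (nat_lit 1) (nat_lit 5) (nat_lit 3) (nat_lit 4) (nat_lit 1) (nat_lit 4) (nat_lit 341) (nat_lit 281) (nat_lit 158)) (XT.lf (nat_lit 0) (nat_lit 8991588241) (nat_lit 380) (nat_lit 17499593695) (nat_lit 380) (nat_lit 17499593695) (nat_lit 25) (nat_lit 3) (nat_lit 30) (nat_lit 3) (nat_lit 30) (nat_lit 5) (nat_lit 282) (nat_lit 282) (nat_lit 216))) (XT.nd (nat_lit 78) (nat_lit 0) (nat_lit 76) (XT.lf (nat_lit 76) (nat_lit 7643437425) (nat_lit 0) (nat_lit 12012702827) (nat_lit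 380) (nat_lit 74875373092) (nat_lit 26) (nat_lit 5) (nat_lit 25) (nat_lit 3) (nat_lit 30) (nat_lit 5) (nat_lit 283) (nat_lit 282) (nat_lit 215)) (XT.nd (nat_lit 78) (nat_lit 0) (nat_lit 0) (XT.lf (nat_lit 0) (nat_lit 24948797130) (nat_lit 304) (nat_lit 42715400208) (nat_lit 380) (nat_lit 33894463758) (nat_lit 26) (nat_lit 5) (nat_lit 30) (nat_lit 5) (nat_lit 31) (nat_lit 5) (nat_lit 284) (nat_lit 282) (nat_lit 214)) (XT.lf (nat_lit 76) (nat_lit 8244129069) (nat_lit 0) (nat_lit 23703420516) (nat_lit 380) (nat_lit 77555505032) (nat_lit 27) (nat_lit 5) (nat_lit 26) (nat_lit 5) (nat_lit 31) (nat_lit 5) (nat_lit 285) (nat_lit 282) (nat_lit 213))))) (XT.nd (nat_lit 156) (nat_lit 152) (nat_lit 0) (XT.nd (nat_lit 78) (nat_lit 304) (nat_lit 0) (XT.lf (nat_lit 0) (nat_lit 43446072086) (nat_lit 304) (nat_lit 47875244746) (nat_lit 76) (nat_lit 26800299509) (nat_lit 27) (nat_lit 5) (nat_lit 31) (nat_lit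 5) (nat_lit 28) (nat_lit 5) (nat_lit 286) (nat_lit 282) (nat_lit 212)) (XT.lf (nat_lit 0) (nat_lit 13596783135) (nat_lit 304) (nat_lit 44763397294) (nat_lit 380) (nat_lit 69419163166) (nat_lit 23) (nat_lit 5) (nat_lit 27) (nat_lit 5) (nat_lit 28) (nat_lit 5) (nat_lit 287) (nat_lit 282) (nat_lit 211))) (XT.nd (nat_lit 78) (nat_lit 152) (nat_lit 0) (XT.lf (nat_lit 0) (nat_lit 78495773933) (nat_lit 380) (nat_lit 49323897032) (nat_lit 76) (nat_lit 10618405715) (nat_lit 23) (nat_lit 5) (nat_lit 28) (nat_lit 5) (nat_lit 24) (nat_lit 5) (nat_lit 288) (nat_lit 282) (nat_lit 210)) (XT.nd (nat_lit 78) (nat_lit 0) (nat_lit 0) (XT.lf (nat_lit 0) (nat_lit 25391612056) (nat_lit 152) (nat_lit 79442351478) (nat_lit 228) (nat_lit 45384319442) (nat_lit 21) (nat_lit 5) (nat_lit 23) (nat_lit 5) (nat_lit 24) (nat_lit 5) (nat_lit 289) (nat_lit 282) (nat_lit 209)) (XT.lf (nat_lit 0) (nat_lit 116856921468)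 (nat_lit 152) (nat_lit 20843570631) (nat_lit 228) (nat_lit 25678388112) (nat_lit 21) (nat_lit 5) (nat_lit 23) (nat_lit 5) (nat_lit 24) (nat_lit 5) (nat_lit 290) (nat_lit 282) (nat_lit 208))))))) (XT.nd (nat_lit 780) (nat_lit 456) (nat_lit 0) (XT.nd (nat_lit 390) (nat_lit 304) (nat_lit 0) (XT.nd (nat_lit 156) (nat_lit 228) (nat_lit 0) (XT.nd (nat_lit 78) (nat_lit 0) (nat_lit 0) (XT.lf (nat_lit 0) (nat_lit 1251432069) (nat_lit 152) (nat_lit 132332021924) (nat_lit 76) (nat_lit 44348934145) (nat_lit 19) (nat_lit 5) (nat_lit 21) (nat_lit 5) (nat_lit 20) (nat_lit 5) (nat_lit 291) (nat_lit 282) (nat_lit 207)) (XT.lf (nat_lit 0) (nat_lit 33131346326) (nat_lit 152) (nat_lit 39866658768) (nat_lit 76) (nat_lit 120956561306) (nat_lit 19) (nat_lit 5) (nat_lit 21) (nat_lit 5) (nat_lit 20) (nat_lit 5) (nat_lit 292) (nat_lit 282) (nat_lit 206))) (XT.nd (nat_lit 78) (nat_lit 76) (nat_lit 0) (XT.lf (nat_lit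 0) (nat_lit 72820192404) (nat_lit 228) (nat_lit 138969666842) (nat_lit 76) (nat_lit 136171351) (nat_lit 17) (nat_lit 5) (nat_lit 20) (nat_lit 5) (nat_lit 18) (nat_lit 4) (nat_lit 293) (nat_lit 282) (nat_lit 205)) (XT.nd (nat_lit 78) (nat_lit 76) (nat_lit 0) (XT.lf (nat_lit 0) (nat_lit 124121154991) (nat_lit 228) (nat_lit 28673414379) (nat_lit 76) (nat_lit 78949827396) (nat_lit 17) (nat_lit 5) (nat_lit 20) (nat_lit 5) (nat_lit 18) (nat_lit 4) (nat_lit 294) (nat_lit 282) (nat_lit 204)) (XT.lf (nat_lit 0) (nat_lit 107760162441) (nat_lit 76) (nat_lit 79818800616) (nat_lit 152) (nat_lit 66287300320) (nat_lit 16) (nat_lit 5) (nat_lit 17) (nat_lit 5) (nat_lit 18) (nat_lit 4) (nat_lit 295) (nat_lit 282) (nat_lit 203))))) (XT.nd (nat_lit 156) (nat_lit 152) (nat_lit 0) (XT.nd (nat_lit 78) (nat_lit 152) (nat_lit 0) (XT.lf (nat_lit 0) (nat_lit 262295163710) (nat_lit 152) (nat_lit 11442277968) (nat_lit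 0) (nat_lit 5308010686) (nat_lit 16) (nat_lit 5) (nat_lit 18) (nat_lit 4) (nat_lit 16) (nat_lit 4) (nat_lit 296) (nat_lit 282) (nat_lit 202)) (XT.lf (nat_lit 0) (nat_lit 47266934174) (nat_lit 152) (nat_lit 155363711728) (nat_lit 76) (nat_lit 103526565609) (nat_lit 14) (nat_lit 5) (nat_lit 16) (nat_lit 5) (nat_lit 15) (nat_lit 4) (nat_lit 297) (nat_lit 282) (nat_lit 201))) (XT.nd (nat_lit 78) (nat_lit 76) (nat_lit 0) (XT.lf (nat_lit 0) (nat_lit 634338313) (nat_lit 76) (nat_lit 119190017388) (nat_lit 152) (nat_lit 217293855431) (nat_lit 13) (nat_lit 5) (nat_lit 14) (nat_lit 5) (nat_lit 15) (nat_lit 4) (nat_lit 298) (nat_lit 282) (nat_lit 200)) (XT.nd (nat_lit 78) (nat_lit 76) (nat_lit 0) (XT.lf (nat_lit 0) (nat_lit 197492282151) (nat_lit 76) (nat_lit 13894072198) (nat_lit 152) (nat_lit 160118862103) (nat_lit 13) (nat_lit 5) (nat_lit 14) (nat_lit 5) (nat_lit 15) (nat_lit 4) (nat_lit 299)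 (nat_lit 282) (nat_lit 199)) (XT.lf (nat_lit 0) (nat_lit 9209209675) (nat_lit 76) (nat_lit 312293257223) (nat_lit 76) (nat_lit 88824833850) (nat_lit 12) (nat_lit 4) (nat_lit 13) (nat_lit 5) (nat_lit 13) (nat_lit 4) (nat_lit 300) (nat_lit 282) (nat_lit 198)))))) (XT.nd (nat_lit 390) (nat_lit 228) (nat_lit 0) (XT.nd (nat_lit 156) (nat_lit 152) (nat_lit 0) (XT.nd (nat_lit 78) (nat_lit 0) (nat_lit 0) (XT.lf (nat_lit 0) (nat_lit 3962566257) (nat_lit 152) (nat_lit 214949138189) (nat_lit 76) (nat_lit 234574864869) (nat_lit 11) (nat_lit 5) (nat_lit 13) (nat_lit 5) (nat_lit 12) (nat_lit 4) (nat_lit 301) (nat_lit 282) (nat_lit 197)) (XT.lf (nat_lit 0) (nat_lit 101573857440) (nat_lit 152) (nat_lit 5085064120) (nat_lit 76) (nat_lit 395826380881) (nat_lit 11) (nat_lit 5) (nat_lit 13) (nat_lit 5) (nat_lit 12) (nat_lit 4) (nat_lit 302) (nat_lit 282) (nat_lit 196))) (XT.nd (nat_lit 78) (nat_lit 76)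 (nat_lit 0) (XT.lf (nat_lit 0) (nat_lit 226005862135) (nat_lit 152) (nat_lit 299316166936) (nat_lit 0) (nat_lit 31684963658) (nat_lit 10) (nat_lit 5) (nat_lit 12) (nat_lit 4) (nat_lit 10) (nat_lit 4) (nat_lit 303) (nat_lit 282) (nat_lit 195)) (XT.nd (nat_lit 78) (nat_lit 76) (nat_lit 0) (XT.lf (nat_lit 0) (nat_lit 374459920453) (nat_lit 152) (nat_lit 64304539142) (nat_lit 0) (nat_lit 180138889175) (nat_lit 10) (nat_lit 5) (nat_lit 12) (nat_lit 4) (nat_lit 10) (nat_lit 4) (nat_lit 304) (nat_lit 282) (nat_lit 194)) (XT.lf (nat_lit 0) (nat_lit 226086235266) (nat_lit 76) (nat_lit 328457417521) (nat_lit 76) (nat_lit 134136270764) (nat_lit 9) (nat_lit 4) (nat_lit 10) (nat_lit 5) (nat_lit 10) (nat_lit 4) (nat_lit 305) (nat_lit 282) (nat_lit 193))))) (XT.nd (nat_lit 156) (nat_lit 76) (nat_lit 0) (XT.nd (nat_lit 78) (nat_lit 152) (nat_lit 0) (XT.lf (nat_lit 0) (nat_lit 567262237782) (nat_lit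 76) (nat_lit 197738907039) (nat_lit 76) (nat_lit 3417659864) (nat_lit 9) (nat_lit 4) (nat_lit 10) (nat_lit 5) (nat_lit 10) (nat_lit 4) (nat_lit 306) (nat_lit 282) (nat_lit 192)) (XT.lf (nat_lit 0) (nat_lit 102541594339) (nat_lit 76) (nat_lit 35534186513) (nat_lit 152) (nat_lit 720493380004) (nat_lit 7) (nat_lit 5) (nat_lit 8) (nat_lit 5) (nat_lit 9) (nat_lit 4) (nat_lit 307) (nat_lit 282) (nat_lit 191))) (XT.nd (nat_lit 78) (nat_lit 76) (nat_lit 0) (XT.lf (nat_lit 0) (nat_lit 317711534362) (nat_lit 152) (nat_lit 493179499451) (nat_lit 0) (nat_lit 148736394863) (nat_lit 7) (nat_lit 5) (nat_lit 9) (nat_lit 4) (nat_lit 7) (nat_lit 4) (nat_lit 308) (nat_lit 282) (nat_lit 190)) (XT.nd (nat_lit 78) (nat_lit 76) (nat_lit 0) (XT.lf (nat_lit 0) (nat_lit 525984619170) (nat_lit 152) (nat_lit 192596600065) (nat_lit 0) (nat_lit 357009422258) (nat_lit 7) (nat_lit 5) (nat_lit 9) (nat_lit 4) (nat_lit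 7) (nat_lit 4) (nat_lit 309) (nat_lit 282) (nat_lit 189)) (XT.lf (nat_lit 0) (nat_lit 168032951617) (nat_lit 76) (nat_lit 604423483149) (nat_lit 76) (nat_lit 435448236311) (nat_lit 6) (nat_lit 4) (nat_lit 7) (nat_lit 5) (nat_lit 7) (nat_lit 4) (nat_lit 310) (nat_lit 282) (nat_lit 188))))))))
noncomputable def xc89 : XT := (XT.nd (nat_lit 1560) (nat_lit 152) (nat_lit 0) (XT.nd (nat_lit 780) (nat_lit 0) (nat_lit 0) (XT.nd (nat_lit 390) (nat_lit 76) (nat_lit 0) (XT.nd (nat_lit 156) (nat_lit 152) (nat_lit 0) (XT.nd (nat_lit 78) (nat_lit 0) (nat_lit 0) (XT.lf (nat_lit 0) (nat_lit 604401940466) (nat_lit 76) (nat_lit 461564519658) (nat_lit 76) (nat_lit 292589229408) (nat_lit 6) (nat_lit 4) (nat_lit 7) (nat_lit 5) (nat_lit 7) (nat_lit 4) (nat_lit 311) (nat_lit 282) (nat_lit 187)) (XT.lf (nat_lit 0) (nat_lit 1106226080150) (nat_lit 76) (nat_lit 297276811637) (nat_lit 76) (nat_lit 128301483636)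 (nat_lit 6) (nat_lit 4) (nat_lit 7) (nat_lit 5) (nat_lit 7) (nat_lit 4) (nat_lit 312) (nat_lit 282) (nat_lit 186))) (XT.nd (nat_lit 78) (nat_lit 76) (nat_lit 0) (XT.lf (nat_lit 0) (nat_lit 55231684564) (nat_lit 152) (nat_lit 50227239014) (nat_lit 76) (nat_lit 1625204873705) (nat_lit 5) (nat_lit 5) (nat_lit 7) (nat_lit 5) (nat_lit 6) (nat_lit 4) (nat_lit 313) (nat_lit 282) (nat_lit 185)) (XT.nd (nat_lit 78) (nat_lit 0) (nat_lit 0) (XT.lf (nat_lit 0) (nat_lit 276089633395) (nat_lit 152) (nat_lit 1549751982659) (nat_lit 0) (nat_lit 129154512202) (nat_lit 4) (nat_lit 5) (nat_lit 6) (nat_lit 4) (nat_lit 4) (nat_lit 4) (nat_lit 314) (nat_lit 282) (nat_lit 184)) (XT.lf (nat_lit 0) (nat_lit 537848590784) (nat_lit 152) (nat_lit 1283050422675) (nat_lit 0) (nat_lit 390913448007) (nat_lit 4) (nat_lit 5) (nat_lit 6) (nat_lit 4) (nat_lit 4) (nat_lit 4) (nat_lit 315) (nat_lit 282) (nat_lit 183)))))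 (XT.nd (nat_lit 156) (nat_lit 76) (nat_lit 0) (XT.nd (nat_lit 78) (nat_lit 0) (nat_lit 0) (XT.lf (nat_lit 0) (nat_lit 838871325215) (nat_lit 152) (nat_lit 976343765778) (nat_lit 0) (nat_lit 691936163669) (nat_lit 4) (nat_lit 5) (nat_lit 6) (nat_lit 4) (nat_lit 4) (nat_lit 4) (nat_lit 316) (nat_lit 282) (nat_lit 182)) (XT.lf (nat_lit 0) (nat_lit 1185047411927) (nat_lit 152) (nat_lit 623631229551) (nat_lit 0) (nat_lit 1038112234061) (nat_lit 4) (nat_lit 5) (nat_lit 6) (nat_lit 4) (nat_lit 4) (nat_lit 4) (nat_lit 317) (nat_lit 282) (nat_lit 181))) (XT.nd (nat_lit 78) (nat_lit 76) (nat_lit 0) (XT.lf (nat_lit 0) (nat_lit 1583149861313) (nat_lit 152) (nat_lit 218011916544) (nat_lit 0) (nat_lit 1436214669254) (nat_lit 4) (nat_lit 5) (nat_lit 6) (nat_lit 4) (nat_lit 4) (nat_lit 4) (nat_lit 318) (nat_lit 282) (nat_lit 180)) (XT.nd (nat_lit 78) (nat_lit 0) (nat_lit 0) (XT.lf (nat_lit 0) (nat_lit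 272730564051) (nat_lit 76) (nat_lit 1779530261345) (nat_lit 76) (nat_lit 1632595056945) (nat_lit 3) (nat_lit 4) (nat_lit 4) (nat_lit 5) (nat_lit 4) (nat_lit 4) (nat_lit 319) (nat_lit 282) (nat_lit 179)) (XT.lf (nat_lit 0) (nat_lit 861585897229) (nat_lit 76) (nat_lit 1741548572696) (nat_lit 76) (nat_lit 1594613357566) (nat_lit 3) (nat_lit 4) (nat_lit 4) (nat_lit 5) (nat_lit 4) (nat_lit 4) (nat_lit 320) (nat_lit 282) (nat_lit 178)))))) (XT.nd (nat_lit 390) (nat_lit 0) (nat_lit 0) (XT.nd (nat_lit 156) (nat_lit 0) (nat_lit 0) (XT.nd (nat_lit 78) (nat_lit 0) (nat_lit 0) (XT.lf (nat_lit 0) (nat_lit 1538769455568) (nat_lit 76) (nat_lit 1697869669374) (nat_lit 76) (nat_lit 1550934444912) (nat_lit 3) (nat_lit 4) (nat_lit 4) (nat_lit 5) (nat_lit 4) (nat_lit 4) (nat_lit 321) (nat_lit 282) (nat_lit 177)) (XT.lf (nat_lit 0) (nat_lit 2317530482600) (nat_lit 76) (nat_lit 1647638964138) (nat_lit 76)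 (nat_lit 1500703731563) (nat_lit 3) (nat_lit 4) (nat_lit 4) (nat_lit 5) (nat_lit 4) (nat_lit 4) (nat_lit 322) (nat_lit 282) (nat_lit 176))) (XT.nd (nat_lit 78) (nat_lit 0) (nat_lit 0) (XT.lf (nat_lit 0) (nat_lit 3213105607115) (nat_lit 76) (nat_lit 1589873682322) (nat_lit 76) (nat_lit 1442938442690) (nat_lit 3) (nat_lit 4) (nat_lit 4) (nat_lit 5) (nat_lit 4) (nat_lit 4) (nat_lit 323) (nat_lit 282) (nat_lit 175)) (XT.nd (nat_lit 78) (nat_lit 0) (nat_lit 0) (XT.lf (nat_lit 0) (nat_lit 4243016951115) (nat_lit 76) (nat_lit 1523443633628) (nat_lit 76) (nat_lit 1376508387861) (nat_lit 3) (nat_lit 4) (nat_lit 4) (nat_lit 5) (nat_lit 4) (nat_lit 4) (nat_lit 324) (nat_lit 282) (nat_lit 174)) (XT.lf (nat_lit 0) (nat_lit 5427414953939) (nat_lit 76) (nat_lit 1447049099712) (nat_lit 76) (nat_lit 1300113848610) (nat_lit 3) (nat_lit 4) (nat_lit 4) (nat_lit 5) (nat_lit 4) (nat_lit 4) (nat_lit 325) (nat_lit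 282) (nat_lit 173))))) (XT.nd (nat_lit 156) (nat_lit 0) (nat_lit 0) (XT.nd (nat_lit 78) (nat_lit 0) (nat_lit 0) (XT.lf (nat_lit 0) (nat_lit 6789472619990) (nat_lit 76) (nat_lit 1359195404912) (nat_lit 76) (nat_lit 1212260149170) (nat_lit 3) (nat_lit 4) (nat_lit 4) (nat_lit 5) (nat_lit 4) (nat_lit 4) (nat_lit 326) (nat_lit 282) (nat_lit 172)) (XT.lf (nat_lit 0) (nat_lit 8355838903603) (nat_lit 76) (nat_lit 1258163672589) (nat_lit 76) (nat_lit 1111228412813) (nat_lit 3) (nat_lit 4) (nat_lit 4) (nat_lit 5) (nat_lit 4) (nat_lit 4) (nat_lit 327) (nat_lit 282) (nat_lit 171))) (XT.nd (nat_lit 78) (nat_lit 0) (nat_lit 0) (XT.lf (nat_lit 0) (nat_lit 10157160101633) (nat_lit 76) (nat_lit 1141977194938) (nat_lit 76) (nat_lit 995041931654) (nat_lit 3) (nat_lit 4) (nat_lit 4) (nat_lit 5) (nat_lit 4) (nat_lit 4) (nat_lit 328) (nat_lit 282) (nat_lit 170)) (XT.nd (nat_lit 78) (nat_lit 0) (nat_lit 0)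 (XT.lf (nat_lit 0) (nat_lit 12228679454909) (nat_lit 76) (nat_lit 1008362758265) (nat_lit 76) (nat_lit 861427491931) (nat_lit 3) (nat_lit 4) (nat_lit 4) (nat_lit 5) (nat_lit 4) (nat_lit 4) (nat_lit 329) (nat_lit 282) (nat_lit 169)) (XT.lf (nat_lit 0) (nat_lit 14610926689910) (nat_lit 76) (nat_lit 854706167070) (nat_lit 76) (nat_lit 707770898083) (nat_lit 3) (nat_lit 4) (nat_lit 4) (nat_lit 5) (nat_lit 4) (nat_lit 4) (nat_lit 330) (nat_lit 282) (nat_lit 168))))))) (XT.nd (nat_lit 780) (nat_lit 0) (nat_lit 0) (XT.nd (nat_lit 390) (nat_lit 0) (nat_lit 0) (XT.nd (nat_lit 156) (nat_lit 152) (nat_lit 0) (XT.nd (nat_lit 78) (nat_lit 0) (nat_lit 0) (XT.lf (nat_lit 0) (nat_lit 17350510991667) (nat_lit 76) (nat_lit 678001096743) (nat_lit 76) (nat_lit 531065825449) (nat_lit 3) (nat_lit 4) (nat_lit 4) (nat_lit 5) (nat_lit 4) (nat_lit 4) (nat_lit 331) (nat_lit 282) (nat_lit 167)) (XT.lf (nat_lit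 0) (nat_lit 20501032922607) (nat_lit 76) (nat_lit 474790274168) (nat_lit 76) (nat_lit 327855000869) (nat_lit 3) (nat_lit 4) (nat_lit 4) (nat_lit 5) (nat_lit 4) (nat_lit 4) (nat_lit 332) (nat_lit 282) (nat_lit 166))) (XT.nd (nat_lit 78) (nat_lit 152) (nat_lit 0) (XT.lf (nat_lit 0) (nat_lit 24124133129204) (nat_lit 76) (nat_lit 241097835426) (nat_lit 76) (nat_lit 94162560383) (nat_lit 3) (nat_lit 4) (nat_lit 4) (nat_lit 5) (nat_lit 4) (nat_lit 4) (nat_lit 333) (nat_lit 282) (nat_lit 165)) (XT.nd (nat_lit 78) (nat_lit 0) (nat_lit 0) (XT.lf (nat_lit 0) (nat_lit 169816056415) (nat_lit 152) (nat_lit 27873903228880) (nat_lit 0) (nat_lit 42046250711) (nat_lit 1) (nat_lit 5) (nat_lit 3) (nat_lit 4) (nat_lit 1) (nat_lit 4) (nat_lit 334) (nat_lit 282) (nat_lit 164)) (XT.lf (nat_lit 0) (nat_lit 493591354170) (nat_lit 152) (nat_lit 31391531806287) (nat_lit 0) (nat_lit 365821547319) (nat_lit 1) (nat_lit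 5) (nat_lit 3) (nat_lit 4) (nat_lit 1) (nat_lit 4) (nat_lit 335) (nat_lit 282) (nat_lit 163))))) (XT.nd (nat_lit 156) (nat_lit 0) (nat_lit 0) (XT.nd (nat_lit 78) (nat_lit 0) (nat_lit 0) (XT.lf (nat_lit 0) (nat_lit 865932941260) (nat_lit 152) (nat_lit 35436804681438) (nat_lit 0) (nat_lit 738163133412) (nat_lit 1) (nat_lit 5) (nat_lit 3) (nat_lit 4) (nat_lit 1) (nat_lit 4) (nat_lit 336) (nat_lit 282) (nat_lit 162)) (XT.lf (nat_lit 0) (nat_lit 1294125761782) (nat_lit 152) (nat_lit 40088868497543) (nat_lit 0) (nat_lit 1166355953067) (nat_lit 1) (nat_lit 5) (nat_lit 3) (nat_lit 4) (nat_lit 1) (nat_lit 4) (nat_lit 337) (nat_lit 282) (nat_lit 161))) (XT.nd (nat_lit 78) (nat_lit 0) (nat_lit 0) (XT.lf (nat_lit 0) (nat_lit 1786547501354) (nat_lit 152) (nat_lit 45438741894481) (nat_lit 0) (nat_lit 1658777691884) (nat_lit 1) (nat_lit 5) (nat_lit 3) (nat_lit 4) (nat_lit 1) (nat_lit 4) (nat_lit 338)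 (nat_lit 282) (nat_lit 160)) (XT.nd (nat_lit 78) (nat_lit 0) (nat_lit 0) (XT.lf (nat_lit 0) (nat_lit 2352832498359) (nat_lit 152) (nat_lit 51591096308280) (nat_lit 0) (nat_lit 2225062688234) (nat_lit 1) (nat_lit 5) (nat_lit 3) (nat_lit 4) (nat_lit 1) (nat_lit 4) (nat_lit 339) (nat_lit 282) (nat_lit 159)) (XT.lf (nat_lit 0) (nat_lit 3004060241869) (nat_lit 152) (nat_lit 58666303890514) (nat_lit 0) (nat_lit 2876290431174) (nat_lit 1) (nat_lit 5) (nat_lit 3) (nat_lit 4) (nat_lit 1) (nat_lit 4) (nat_lit 340) (nat_lit 282) (nat_lit 158)))))) (XT.nd (nat_lit 36348) (nat_lit 0) (nat_lit 1520) (XT.nd (nat_lit 36114) (nat_lit 0) (nat_lit 1824) (XT.nd (nat_lit 78) (nat_lit 0) (nat_lit 0) (XT.lf (nat_lit 0) (nat_lit 3752972144257) (nat_lit 152) (nat_lit 66802792615618) (nat_lit 0) (nat_lit 3625202333066) (nat_lit 1) (nat_lit 5) (nat_lit 3) (nat_lit 4) (nat_lit 1) (nat_lit 4) (nat_lit 341) (nat_lit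 282) (nat_lit 157)) (XT.lf (nat_lit 0) (nat_lit 4614220829700) (nat_lit 152) (nat_lit 76159754654300) (nat_lit 0) (nat_lit 4486451018078) (nat_lit 1) (nat_lit 5) (nat_lit 3) (nat_lit 4) (nat_lit 1) (nat_lit 4) (nat_lit 342) (nat_lit 282) (nat_lit 156))) (XT.nd (nat_lit 78) (nat_lit 0) (nat_lit 0) (XT.lf (nat_lit 0) (nat_lit 10347733605) (nat_lit 380) (nat_lit 20120263857) (nat_lit 380) (nat_lit 20120263857) (nat_lit 25) (nat_lit 3) (nat_lit 30) (nat_lit 3) (nat_lit 30) (nat_lit 5) (nat_lit 283) (nat_lit 283) (nat_lit 214)) (XT.nd (nat_lit 78) (nat_lit 0) (nat_lit 76) (XT.lf (nat_lit 76) (nat_lit 8798102742) (nat_lit 0) (nat_lit 13819677973) (nat_lit 380) (nat_lit 86091442655) (nat_lit 26) (nat_lit 5) (nat_lit 25) (nat_lit 3) (nat_lit 30) (nat_lit 5) (nat_lit 284) (nat_lit 283) (nat_lit 213)) (XT.lf (nat_lit 0) (nat_lit 28702429307) (nat_lit 304) (nat_lit 49113687103) (nat_lit 380) (nat_lit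 38974617340) (nat_lit 26) (nat_lit 5) (nat_lit 30) (nat_lit 5) (nat_lit 31) (nat_lit 5) (nat_lit 285) (nat_lit 283) (nat_lit 212))))) (XT.nd (nat_lit 234) (nat_lit 152) (nat_lit 0) (XT.nd (nat_lit 78) (nat_lit 228) (nat_lit 0) (XT.lf (nat_lit 76) (nat_lit 9489361423) (nat_lit 0) (nat_lit 27260514296) (nat_lit 380) (nat_lit 89177082281) (nat_lit 27) (nat_lit 5) (nat_lit 26) (nat_lit 5) (nat_lit 31) (nat_lit 5) (nat_lit 286) (nat_lit 283) (nat_lit 211)) (XT.nd (nat_lit 78) (nat_lit 304) (nat_lit 0) (XT.lf (nat_lit 0) (nat_lit 49971790065) (nat_lit 304) (nat_lit 55047632973) (nat_lit 76) (nat_lit 30819092281) (nat_lit 27) (nat_lit 5) (nat_lit 31) (nat_lit 5) (nat_lit 28) (nat_lit 5) (nat_lit 287) (nat_lit 283) (nat_lit 210)) (XT.lf (nat_lit 0) (nat_lit 15644794613) (nat_lit 304) (nat_lit 51477423005) (nat_lit 380) (nat_lit 79822806522) (nat_lit 23) (nat_lit 5) (nat_lit 27) (nat_lit 5) (nat_lit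 28) (nat_lit 5) (nat_lit 288) (nat_lit 283) (nat_lit 209)))) (XT.nd (nat_lit 78) (nat_lit 152) (nat_lit 0) (XT.lf (nat_lit 0) (nat_lit 90277122771) (nat_lit 380) (nat_lit 56714051182) (nat_lit 76) (nat_lit 12211549881) (nat_lit 23) (nat_lit 5) (nat_lit 28) (nat_lit 5) (nat_lit 24) (nat_lit 5) (nat_lit 289) (nat_lit 283) (nat_lit 208)) (XT.nd (nat_lit 78) (nat_lit 0) (nat_lit 0) (XT.lf (nat_lit 0) (nat_lit 29208401070) (nat_lit 152) (nat_lit 91357062167) (nat_lit 228) (nat_lit 52184586683) (nat_lit 21) (nat_lit 5) (nat_lit 23) (nat_lit 5) (nat_lit 24) (nat_lit 5) (nat_lit 290) (nat_lit 283) (nat_lit 207)) (XT.lf (nat_lit 0) (nat_lit 134392457258) (nat_lit 152) (nat_lit 23968678372) (nat_lit 228) (nat_lit 29523728351) (nat_lit 21) (nat_lit 5) (nat_lit 23) (nat_lit 5) (nat_lit 24) (nat_lit 5) (nat_lit 291) (nat_lit 283) (nat_lit 206))))))))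
noncomputable def xc90 : XT := (XT.nd (nat_lit 1560) (nat_lit 228) (nat_lit 0) (XT.nd (nat_lit 780) (nat_lit 456) (nat_lit 0) (XT.nd (nat_lit 390) (nat_lit 304) (nat_lit 0) (XT.nd (nat_lit 156) (nat_lit 228) (nat_lit 0) (XT.nd (nat_lit 78) (nat_lit 0) (nat_lit 0) (XT.lf (nat_lit 0) (nat_lit 1444607176) (nat_lit 152) (nat_lit 152173849143) (nat_lit 76) (nat_lit 51002961313) (nat_lit 19) (nat_lit 5) (nat_lit 21) (nat_lit 5) (nat_lit 20) (nat_lit 5) (nat_lit 292) (nat_lit 283) (nat_lit 205)) (XT.lf (nat_lit 0) (nat_lit 38105796359) (nat_lit 152) (nat_lit 45839721870) (nat_lit 76) (nat_lit 139101512498) (nat_lit 19) (nat_lit 5) (nat_lit 21) (nat_lit 5) (nat_lit 20) (nat_lit 5) (nat_lit 293) (nat_lit 283) (nat_lit 204))) (XT.nd (nat_lit 78) (nat_lit 76) (nat_lit 0) (XT.lf (nat_lit 0) (nat_lit 83747715996) (nat_lit 228) (nat_lit 159807920481) (nat_lit 76) (nat_lit 158617178) (nat_lit 17) (nat_lit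 5) (nat_lit 20) (nat_lit 5) (nat_lit 18) (nat_lit 4) (nat_lit 294) (nat_lit 283) (nat_lit 203)) (XT.nd (nat_lit 78) (nat_lit 76) (nat_lit 0) (XT.lf (nat_lit 0) (nat_lit 142743236702) (nat_lit 228) (nat_lit 32968168807) (nat_lit 76) (nat_lit 90794058136) (nat_lit 17) (nat_lit 5) (nat_lit 20) (nat_lit 5) (nat_lit 18) (nat_lit 4) (nat_lit 295) (nat_lit 283) (nat_lit 202)) (XT.lf (nat_lit 0) (nat_lit 123930160093) (nat_lit 76) (nat_lit 91789293426) (nat_lit 152) (nat_lit 76226196928) (nat_lit 16) (nat_lit 5) (nat_lit 17) (nat_lit 5) (nat_lit 18) (nat_lit 4) (nat_lit 296) (nat_lit 283) (nat_lit 201))))) (XT.nd (nat_lit 156) (nat_lit 152) (nat_lit 0) (XT.nd (nat_lit 78) (nat_lit 152) (nat_lit 0) (XT.lf (nat_lit 0) (nat_lit 301642692503) (nat_lit 152) (nat_lit 13153028920) (nat_lit 0) (nat_lit 6106055847) (nat_lit 16) (nat_lit 5) (nat_lit 18) (nat_lit 4) (nat_lit 16) (nat_lit 4) (nat_lit 297)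 (nat_lit 283) (nat_lit 200)) (XT.lf (nat_lit 0) (nat_lit 54360174136) (nat_lit 152) (nat_lit 178662615518) (nat_lit 76) (nat_lit 119057519969) (nat_lit 14) (nat_lit 5) (nat_lit 16) (nat_lit 5) (nat_lit 15) (nat_lit 4) (nat_lit 298) (nat_lit 283) (nat_lit 199))) (XT.nd (nat_lit 78) (nat_lit 76) (nat_lit 0) (XT.lf (nat_lit 0) (nat_lit 734885077) (nat_lit 76) (nat_lit 137066129883) (nat_lit 152) (nat_lit 249884473792) (nat_lit 13) (nat_lit 5) (nat_lit 14) (nat_lit 5) (nat_lit 15) (nat_lit 4) (nat_lit 299) (nat_lit 283) (nat_lit 198)) (XT.nd (nat_lit 78) (nat_lit 76) (nat_lit 0) (XT.lf (nat_lit 0) (nat_lit 227120816662) (nat_lit 76) (nat_lit 15976104668) (nat_lit 152) (nat_lit 184133682763) (nat_lit 13) (nat_lit 5) (nat_lit 14) (nat_lit 5) (nat_lit 15) (nat_lit 4) (nat_lit 300) (nat_lit 283) (nat_lit 197)) (XT.lf (nat_lit 0) (nat_lit 10595364765) (nat_lit 76) (nat_lit 359135017564) (nat_lit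 76) (nat_lit 102145629328) (nat_lit 12) (nat_lit 4) (nat_lit 13) (nat_lit 5) (nat_lit 13) (nat_lit 4) (nat_lit 301) (nat_lit 283) (nat_lit 196)))))) (XT.nd (nat_lit 390) (nat_lit 228) (nat_lit 0) (XT.nd (nat_lit 156) (nat_lit 152) (nat_lit 0) (XT.nd (nat_lit 78) (nat_lit 0) (nat_lit 0) (XT.lf (nat_lit 0) (nat_lit 4559271879) (nat_lit 152) (nat_lit 247187129323) (nat_lit 76) (nat_lit 269762803598) (nat_lit 11) (nat_lit 5) (nat_lit 13) (nat_lit 5) (nat_lit 12) (nat_lit 4) (nat_lit 302) (nat_lit 283) (nat_lit 195)) (XT.lf (nat_lit 0) (nat_lit 116811954042) (nat_lit 152) (nat_lit 5844015396) (nat_lit 76) (nat_lit 455201824099) (nat_lit 11) (nat_lit 5) (nat_lit 13) (nat_lit 5) (nat_lit 12) (nat_lit 4) (nat_lit 303) (nat_lit 283) (nat_lit 194))) (XT.nd (nat_lit 78) (nat_lit 76) (nat_lit 0) (XT.lf (nat_lit 0) (nat_lit 259908718386) (nat_lit 152) (nat_lit 344209741211) (nat_lit 0) (nat_lit 36439284135)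 (nat_lit 10) (nat_lit 5) (nat_lit 12) (nat_lit 4) (nat_lit 10) (nat_lit 4) (nat_lit 304) (nat_lit 283) (nat_lit 193)) (XT.nd (nat_lit 78) (nat_lit 76) (nat_lit 0) (XT.lf (nat_lit 0) (nat_lit 430630627591) (nat_lit 152) (nat_lit 73946871521) (nat_lit 0) (nat_lit 207161092923) (nat_lit 10) (nat_lit 5) (nat_lit 12) (nat_lit 4) (nat_lit 10) (nat_lit 4) (nat_lit 305) (nat_lit 283) (nat_lit 192)) (XT.lf (nat_lit 0) (nat_lit 260002366845) (nat_lit 76) (nat_lit 377724461056) (nat_lit 76) (nat_lit 154254839069) (nat_lit 9) (nat_lit 4) (nat_lit 10) (nat_lit 5) (nat_lit 10) (nat_lit 4) (nat_lit 306) (nat_lit 283) (nat_lit 191))))) (XT.nd (nat_lit 156) (nat_lit 76) (nat_lit 0) (XT.nd (nat_lit 78) (nat_lit 152) (nat_lit 0) (XT.lf (nat_lit 0) (nat_lit 652354352830) (nat_lit 76) (nat_lit 227398378666) (nat_lit 76) (nat_lit 3928680749) (nat_lit 9) (nat_lit 4) (nat_lit 10) (nat_lit 5) (nat_lit 10) (nat_lit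 4) (nat_lit 307) (nat_lit 283) (nat_lit 190)) (XT.lf (nat_lit 0) (nat_lit 117925625638) (nat_lit 76) (nat_lit 40862927655) (nat_lit 152) (nat_lit 828565770215) (nat_lit 7) (nat_lit 5) (nat_lit 8) (nat_lit 5) (nat_lit 9) (nat_lit 4) (nat_lit 308) (nat_lit 283) (nat_lit 189))) (XT.nd (nat_lit 78) (nat_lit 76) (nat_lit 0) (XT.lf (nat_lit 0) (nat_lit 365369536464) (nat_lit 152) (nat_lit 567153862456) (nat_lit 0) (nat_lit 171047952675) (nat_lit 7) (nat_lit 5) (nat_lit 9) (nat_lit 4) (nat_lit 7) (nat_lit 4) (nat_lit 309) (nat_lit 283) (nat_lit 188)) (XT.nd (nat_lit 78) (nat_lit 76) (nat_lit 0) (XT.lf (nat_lit 0) (nat_lit 604883418087) (nat_lit 152) (nat_lit 221483862324) (nat_lit 0) (nat_lit 410561790885) (nat_lit 7) (nat_lit 5) (nat_lit 9) (nat_lit 4) (nat_lit 7) (nat_lit 4) (nat_lit 310) (nat_lit 283) (nat_lit 187)) (XT.lf (nat_lit 0) (nat_lit 193240020849) (nat_lit 76) (nat_lit 695085928960)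 (nat_lit 76) (nat_lit 500764264008) (nat_lit 6) (nat_lit 4) (nat_lit 7) (nat_lit 5) (nat_lit 7) (nat_lit 4) (nat_lit 311) (nat_lit 283) (nat_lit 186))))))) (XT.nd (nat_lit 780) (nat_lit 0) (nat_lit 0) (XT.nd (nat_lit 390) (nat_lit 76) (nat_lit 0) (XT.nd (nat_lit 156) (nat_lit 152) (nat_lit 0) (XT.nd (nat_lit 78) (nat_lit 0) (nat_lit 0) (XT.lf (nat_lit 0) (nat_lit 695064080657) (nat_lit 76) (nat_lit 530798261380) (nat_lit 76) (nat_lit 336476563602) (nat_lit 6) (nat_lit 4) (nat_lit 7) (nat_lit 5) (nat_lit 7) (nat_lit 4) (nat_lit 312) (nat_lit 283) (nat_lit 185)) (XT.lf (nat_lit 0) (nat_lit 1272161600103) (nat_lit 76) (nat_lit 341867519272) (nat_lit 76) (nat_lit 147545792949) (nat_lit 6) (nat_lit 4) (nat_lit 7) (nat_lit 5) (nat_lit 7) (nat_lit 4) (nat_lit 313) (nat_lit 283) (nat_lit 184))) (XT.nd (nat_lit 78) (nat_lit 76) (nat_lit 0) (XT.lf (nat_lit 0) (nat_lit 63517160666) (nat_lit 152)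 (nat_lit 57759855712) (nat_lit 76) (nat_lit 1868986241729) (nat_lit 5) (nat_lit 5) (nat_lit 7) (nat_lit 5) (nat_lit 6) (nat_lit 4) (nat_lit 314) (nat_lit 283) (nat_lit 183)) (XT.nd (nat_lit 78) (nat_lit 0) (nat_lit 0) (XT.lf (nat_lit 0) (nat_lit 317503795150) (nat_lit 152) (nat_lit 1782213304009) (nat_lit 0) (nat_lit 148528340603) (nat_lit 4) (nat_lit 5) (nat_lit 6) (nat_lit 4) (nat_lit 4) (nat_lit 4) (nat_lit 315) (nat_lit 283) (nat_lit 182)) (XT.lf (nat_lit 0) (nat_lit 618526502658) (nat_lit 152) (nat_lit 1475506702555) (nat_lit 0) (nat_lit 449551031791) (nat_lit 4) (nat_lit 5) (nat_lit 6) (nat_lit 4) (nat_lit 4) (nat_lit 4) (nat_lit 316) (nat_lit 283) (nat_lit 181))))) (XT.nd (nat_lit 156) (nat_lit 76) (nat_lit 0) (XT.nd (nat_lit 78) (nat_lit 0) (nat_lit 0) (XT.lf (nat_lit 0) (nat_lit 964702565959) (nat_lit 152) (nat_lit 1122794214540) (nat_lit 0) (nat_lit 795727080900) (nat_lit 4)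 (nat_lit 5) (nat_lit 6) (nat_lit 4) (nat_lit 4) (nat_lit 4) (nat_lit 317) (nat_lit 283) (nat_lit 180)) (XT.lf (nat_lit 0) (nat_lit 1362804994988) (nat_lit 152) (nat_lit 717174943457) (nat_lit 0) (nat_lit 1193829497588) (nat_lit 4) (nat_lit 5) (nat_lit 6) (nat_lit 4) (nat_lit 4) (nat_lit 4) (nat_lit 318) (nat_lit 283) (nat_lit 179))) (XT.nd (nat_lit 78) (nat_lit 76) (nat_lit 0) (XT.lf (nat_lit 0) (nat_lit 1820622750311) (nat_lit 152) (nat_lit 250712860090) (nat_lit 0) (nat_lit 1651647242180) (nat_lit 4) (nat_lit 5) (nat_lit 6) (nat_lit 4) (nat_lit 4) (nat_lit 4) (nat_lit 319) (nat_lit 283) (nat_lit 178)) (XT.nd (nat_lit 78) (nat_lit 0) (nat_lit 0) (XT.lf (nat_lit 0) (nat_lit 313640954234) (nat_lit 76) (nat_lit 2046459384677) (nat_lit 76) (nat_lit 1877483867215) (nat_lit 3) (nat_lit 4) (nat_lit 4) (nat_lit 5) (nat_lit 4) (nat_lit 4) (nat_lit 320) (nat_lit 283) (nat_lit 177)) (XT.lf (nat_lit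 0) (nat_lit 990824482314) (nat_lit 76) (nat_lit 2002780496976) (nat_lit 76) (nat_lit 1833804971399) (nat_lit 3) (nat_lit 4) (nat_lit 4) (nat_lit 5) (nat_lit 4) (nat_lit 4) (nat_lit 321) (nat_lit 283) (nat_lit 176)))))) (XT.nd (nat_lit 390) (nat_lit 0) (nat_lit 0) (XT.nd (nat_lit 156) (nat_lit 0) (nat_lit 0) (XT.nd (nat_lit 78) (nat_lit 0) (nat_lit 0) (XT.lf (nat_lit 0) (nat_lit 1769585483033) (nat_lit 76) (nat_lit 1952549805323) (nat_lit 76) (nat_lit 1783574272691) (nat_lit 3) (nat_lit 4) (nat_lit 4) (nat_lit 5) (nat_lit 4) (nat_lit 4) (nat_lit 322) (nat_lit 283) (nat_lit 175)) (XT.lf (nat_lit 0) (nat_lit 2665160584669) (nat_lit 76) (nat_lit 1894784535318) (nat_lit 76) (nat_lit 1725808996551) (nat_lit 3) (nat_lit 4) (nat_lit 4) (nat_lit 5) (nat_lit 4) (nat_lit 4) (nat_lit 323) (nat_lit 283) (nat_lit 174))) (XT.nd (nat_lit 78) (nat_lit 0) (nat_lit 0) (XT.lf (nat_lit 0) (nat_lit 3695071908773)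 (nat_lit 76) (nat_lit 1828354496895) (nat_lit 76) (nat_lit 1659378952792) (nat_lit 3) (nat_lit 4) (nat_lit 4) (nat_lit 5) (nat_lit 4) (nat_lit 4) (nat_lit 324) (nat_lit 283) (nat_lit 173)) (XT.nd (nat_lit 78) (nat_lit 0) (nat_lit 0) (XT.lf (nat_lit 0) (nat_lit 4879469894296) (nat_lit 76) (nat_lit 1751959971911) (nat_lit 76) (nat_lit 1582984423169) (nat_lit 3) (nat_lit 4) (nat_lit 4) (nat_lit 5) (nat_lit 4) (nat_lit 4) (nat_lit 325) (nat_lit 283) (nat_lit 172)) (XT.lf (nat_lit 0) (nat_lit 6241527545302) (nat_lit 76) (nat_lit 1664106284877) (nat_lit 76) (nat_lit 1495130732101) (nat_lit 3) (nat_lit 4) (nat_lit 4) (nat_lit 5) (nat_lit 4) (nat_lit 4) (nat_lit 326) (nat_lit 283) (nat_lit 171))))) (XT.nd (nat_lit 156) (nat_lit 0) (nat_lit 0) (XT.nd (nat_lit 78) (nat_lit 0) (nat_lit 0) (XT.lf (nat_lit 0) (nat_lit 7807893815834) (nat_lit 76) (nat_lit 1563074559308) (nat_lit 76) (nat_lit 1394099003024)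 (nat_lit 3) (nat_lit 4) (nat_lit 4) (nat_lit 5) (nat_lit 4) (nat_lit 4) (nat_lit 327) (nat_lit 283) (nat_lit 170)) (XT.lf (nat_lit 0) (nat_lit 9609215002488) (nat_lit 76) (nat_lit 1446888087529) (nat_lit 76) (nat_lit 1277912528195) (nat_lit 3) (nat_lit 4) (nat_lit 4) (nat_lit 5) (nat_lit 4) (nat_lit 4) (nat_lit 328) (nat_lit 283) (nat_lit 169))) (XT.nd (nat_lit 78) (nat_lit 0) (nat_lit 0) (XT.lf (nat_lit 0) (nat_lit 11680734345873) (nat_lit 76) (nat_lit 1313273655963) (nat_lit 76) (nat_lit 1144298093975) (nat_lit 3) (nat_lit 4) (nat_lit 4) (nat_lit 5) (nat_lit 4) (nat_lit 4) (nat_lit 329) (nat_lit 283) (nat_lit 168)) (XT.nd (nat_lit 78) (nat_lit 0) (nat_lit 0) (XT.lf (nat_lit 0) (nat_lit 14062981572272) (nat_lit 76) (nat_lit 1159617069208) (nat_lit 76) (nat_lit 990641504914) (nat_lit 3) (nat_lit 4) (nat_lit 4) (nat_lit 5) (nat_lit 4) (nat_lit 4) (nat_lit 330) (nat_lit 283) (nat_lit 167))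 (XT.lf (nat_lit 0) (nat_lit 16802565866549) (nat_lit 76) (nat_lit 982912002742) (nat_lit 76) (nat_lit 813936436443) (nat_lit 3) (nat_lit 4) (nat_lit 4) (nat_lit 5) (nat_lit 4) (nat_lit 4) (nat_lit 331) (nat_lit 283) (nat_lit 166))))))))
noncomputable def xc91 : XT := (XT.nd (nat_lit 37674) (nat_lit 0) (nat_lit 380) (XT.nd (nat_lit 36894) (nat_lit 0) (nat_lit 1368) (XT.nd (nat_lit 390) (nat_lit 0) (nat_lit 0) (XT.nd (nat_lit 156) (nat_lit 152) (nat_lit 0) (XT.nd (nat_lit 78) (nat_lit 0) (nat_lit 0) (XT.lf (nat_lit 0) (nat_lit 19953087790985) (nat_lit 76) (nat_lit 779701183525) (nat_lit 76) (nat_lit 610725615482) (nat_lit 3) (nat_lit 4) (nat_lit 4) (nat_lit 5) (nat_lit 4) (nat_lit 4) (nat_lit 332) (nat_lit 283) (nat_lit 165)) (XT.lf (nat_lit 0) (nat_lit 23576187991926) (nat_lit 76) (nat_lit 546008747703) (nat_lit 76) (nat_lit 377033178143) (nat_lit 3) (nat_lit 4) (nat_lit 4) (nat_lit 5)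 (nat_lit 4) (nat_lit 4) (nat_lit 333) (nat_lit 283) (nat_lit 164))) (XT.nd (nat_lit 78) (nat_lit 152) (nat_lit 0) (XT.lf (nat_lit 0) (nat_lit 27742753212435) (nat_lit 76) (nat_lit 277262451966) (nat_lit 76) (nat_lit 108286881087) (nat_lit 3) (nat_lit 4) (nat_lit 4) (nat_lit 5) (nat_lit 4) (nat_lit 4) (nat_lit 334) (nat_lit 283) (nat_lit 163)) (XT.nd (nat_lit 78) (nat_lit 0) (nat_lit 0) (XT.lf (nat_lit 0) (nat_lit 195288522237) (nat_lit 152) (nat_lit 32054988593341) (nat_lit 0) (nat_lit 48353242214) (nat_lit 1) (nat_lit 5) (nat_lit 3) (nat_lit 4) (nat_lit 1) (nat_lit 4) (nat_lit 335) (nat_lit 283) (nat_lit 162)) (XT.lf (nat_lit 0) (nat_lit 567630107173) (nat_lit 152) (nat_lit 36100261472995) (nat_lit 0) (nat_lit 420694826283) (nat_lit 1) (nat_lit 5) (nat_lit 3) (nat_lit 4) (nat_lit 1) (nat_lit 4) (nat_lit 336) (nat_lit 283) (nat_lit 161))))) (XT.nd (nat_lit 156) (nat_lit 0) (nat_lit 0)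 (XT.nd (nat_lit 78) (nat_lit 0) (nat_lit 0) (XT.lf (nat_lit 0) (nat_lit 995822925821) (nat_lit 152) (nat_lit 40752325293015) (nat_lit 0) (nat_lit 848887644177) (nat_lit 1) (nat_lit 5) (nat_lit 3) (nat_lit 4) (nat_lit 1) (nat_lit 4) (nat_lit 337) (nat_lit 283) (nat_lit 160)) (XT.lf (nat_lit 0) (nat_lit 1488244663764) (nat_lit 152) (nat_lit 46102198693357) (nat_lit 0) (nat_lit 1341309381464) (nat_lit 1) (nat_lit 5) (nat_lit 3) (nat_lit 4) (nat_lit 1) (nat_lit 4) (nat_lit 338) (nat_lit 283) (nat_lit 159))) (XT.nd (nat_lit 78) (nat_lit 0) (nat_lit 0) (XT.lf (nat_lit 0) (nat_lit 2054529659352) (nat_lit 152) (nat_lit 52254553110117) (nat_lit 0) (nat_lit 1907594376483) (nat_lit 1) (nat_lit 5) (nat_lit 3) (nat_lit 4) (nat_lit 1) (nat_lit 4) (nat_lit 339) (nat_lit 283) (nat_lit 158)) (XT.nd (nat_lit 78) (nat_lit 0) (nat_lit 0) (XT.lf (nat_lit 0) (nat_lit 2705757401630) (nat_lit 152) (nat_lit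 59329760694925) (nat_lit 0) (nat_lit 2558822118265) (nat_lit 1) (nat_lit 5) (nat_lit 3) (nat_lit 4) (nat_lit 1) (nat_lit 4) (nat_lit 340) (nat_lit 283) (nat_lit 157)) (XT.lf (nat_lit 0) (nat_lit 3454669302947) (nat_lit 152) (nat_lit 67466249422267) (nat_lit 0) (nat_lit 3307734019151) (nat_lit 1) (nat_lit 5) (nat_lit 3) (nat_lit 4) (nat_lit 1) (nat_lit 4) (nat_lit 341) (nat_lit 283) (nat_lit 156)))))) (XT.nd (nat_lit 390) (nat_lit 456) (nat_lit 0) (XT.nd (nat_lit 156) (nat_lit 0) (nat_lit 76) (XT.nd (nat_lit 78) (nat_lit 0) (nat_lit 0) (XT.lf (nat_lit 0) (nat_lit 11905494499) (nat_lit 380) (nat_lit 23135075540) (nat_lit 380) (nat_lit 23135075540) (nat_lit 25) (nat_lit 3) (nat_lit 30) (nat_lit 3) (nat_lit 30) (nat_lit 5) (nat_lit 284) (nat_lit 284) (nat_lit 212)) (XT.lf (nat_lit 76) (nat_lit 10123980500) (nat_lit 0) (nat_lit 15896463106) (nat_lit 380) (nat_lit 98993638146) (nat_lit 26)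 (nat_lit 5) (nat_lit 25) (nat_lit 3) (nat_lit 30) (nat_lit 5) (nat_lit 285) (nat_lit 284) (nat_lit 211))) (XT.nd (nat_lit 78) (nat_lit 0) (nat_lit 0) (XT.lf (nat_lit 0) (nat_lit 33016347659) (nat_lit 304) (nat_lit 56473917382) (nat_lit 380) (nat_lit 44817773281) (nat_lit 26) (nat_lit 5) (nat_lit 30) (nat_lit 5) (nat_lit 31) (nat_lit 5) (nat_lit 286) (nat_lit 284) (nat_lit 210)) (XT.nd (nat_lit 78) (nat_lit 0) (nat_lit 76) (XT.lf (nat_lit 76) (nat_lit 10919278297) (nat_lit 0) (nat_lit 31350786678) (nat_lit 380) (nat_lit 102544761064) (nat_lit 27) (nat_lit 5) (nat_lit 26) (nat_lit 5) (nat_lit 31) (nat_lit 5) (nat_lit 287) (nat_lit 284) (nat_lit 209)) (XT.lf (nat_lit 0) (nat_lit 57474218058) (nat_lit 304) (nat_lit 63298049386) (nat_lit 76) (nat_lit 35441009316) (nat_lit 27) (nat_lit 5) (nat_lit 31) (nat_lit 5) (nat_lit 28) (nat_lit 5) (nat_lit 288) (nat_lit 284) (nat_lit 208))))) (XT.nd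 (nat_lit 156) (nat_lit 304) (nat_lit 0) (XT.nd (nat_lit 78) (nat_lit 0) (nat_lit 0) (XT.lf (nat_lit 0) (nat_lit 17997936496) (nat_lit 304) (nat_lit 59198670570) (nat_lit 380) (nat_lit 91789247448) (nat_lit 23) (nat_lit 5) (nat_lit 27) (nat_lit 5) (nat_lit 28) (nat_lit 5) (nat_lit 289) (nat_lit 284) (nat_lit 207)) (XT.lf (nat_lit 0) (nat_lit 103823971148) (nat_lit 380) (nat_lit 65214784262) (nat_lit 76) (nat_lit 14043572200) (nat_lit 23) (nat_lit 5) (nat_lit 28) (nat_lit 5) (nat_lit 24) (nat_lit 5) (nat_lit 290) (nat_lit 284) (nat_lit 206))) (XT.nd (nat_lit 78) (nat_lit 152) (nat_lit 0) (XT.lf (nat_lit 0) (nat_lit 33595746074) (nat_lit 152) (nat_lit 105059379880) (nat_lit 228) (nat_lit 60006693835) (nat_lit 21) (nat_lit 5) (nat_lit 23) (nat_lit 5) (nat_lit 24) (nat_lit 5) (nat_lit 291) (nat_lit 284) (nat_lit 205)) (XT.nd (nat_lit 78) (nat_lit 152) (nat_lit 0) (XT.lf (nat_lit 0) (nat_lit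 154556617015) (nat_lit 152) (nat_lit 27562900465) (nat_lit 228) (nat_lit 33947434689) (nat_lit 21) (nat_lit 5) (nat_lit 23) (nat_lit 5) (nat_lit 24) (nat_lit 5) (nat_lit 292) (nat_lit 284) (nat_lit 204)) (XT.lf (nat_lit 0) (nat_lit 1665427022) (nat_lit 152) (nat_lit 174993895460) (nat_lit 76) (nat_lit 58654681159) (nat_lit 19) (nat_lit 5) (nat_lit 21) (nat_lit 5) (nat_lit 20) (nat_lit 5) (nat_lit 293) (nat_lit 284) (nat_lit 203))))))) (XT.nd (nat_lit 780) (nat_lit 380) (nat_lit 0) (XT.nd (nat_lit 390) (nat_lit 380) (nat_lit 0) (XT.nd (nat_lit 156) (nat_lit 76) (nat_lit 0) (XT.nd (nat_lit 78) (nat_lit 152) (nat_lit 0) (XT.lf (nat_lit 0) (nat_lit 43825256047) (nat_lit 152) (nat_lit 52710435756) (nat_lit 76) (nat_lit 159967848632) (nat_lit 19) (nat_lit 5) (nat_lit 21) (nat_lit 5) (nat_lit 20) (nat_lit 5) (nat_lit 294) (nat_lit 284) (nat_lit 202)) (XT.lf (nat_lit 0) (nat_lit 96313272058)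 (nat_lit 228) (nat_lit 183773667051) (nat_lit 76) (nat_lit 183937259) (nat_lit 17) (nat_lit 5) (nat_lit 20) (nat_lit 5) (nat_lit 18) (nat_lit 4) (nat_lit 295) (nat_lit 284) (nat_lit 201))) (XT.nd (nat_lit 78) (nat_lit 76) (nat_lit 0) (XT.lf (nat_lit 0) (nat_lit 164157677566) (nat_lit 228) (nat_lit 37908662387) (nat_lit 76) (nat_lit 104414495121) (nat_lit 17) (nat_lit 5) (nat_lit 20) (nat_lit 5) (nat_lit 18) (nat_lit 4) (nat_lit 296) (nat_lit 284) (nat_lit 200)) (XT.nd (nat_lit 78) (nat_lit 0) (nat_lit 0) (XT.lf (nat_lit 0) (nat_lit 142524200769) (nat_lit 76) (nat_lit 105555927681) (nat_lit 152) (nat_lit 87656951843) (nat_lit 16) (nat_lit 5) (nat_lit 17) (nat_lit 5) (nat_lit 18) (nat_lit 4) (nat_lit 297) (nat_lit 284) (nat_lit 199)) (XT.lf (nat_lit 0) (nat_lit 346891557048) (nat_lit 152) (nat_lit 15121755853) (nat_lit 0) (nat_lit 7023358218) (nat_lit 16) (nat_lit 5) (nat_lit 18) (nat_lit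 4) (nat_lit 16) (nat_lit 4) (nat_lit 298) (nat_lit 284) (nat_lit 198))))) (XT.nd (nat_lit 156) (nat_lit 152) (nat_lit 0) (XT.nd (nat_lit 78) (nat_lit 76) (nat_lit 0) (XT.lf (nat_lit 0) (nat_lit 62516619792) (nat_lit 152) (nat_lit 205457733388) (nat_lit 76) (nat_lit 136917637203) (nat_lit 14) (nat_lit 5) (nat_lit 16) (nat_lit 5) (nat_lit 15) (nat_lit 4) (nat_lit 299) (nat_lit 284) (nat_lit 197)) (XT.lf (nat_lit 0) (nat_lit 849198002) (nat_lit 76) (nat_lit 157624242097) (nat_lit 152) (nat_lit 287364528638) (nat_lit 13) (nat_lit 5) (nat_lit 14) (nat_lit 5) (nat_lit 15) (nat_lit 4) (nat_lit 300) (nat_lit 284) (nat_lit 196))) (XT.nd (nat_lit 78) (nat_lit 152) (nat_lit 0) (XT.lf (nat_lit 0) (nat_lit 261192487130) (nat_lit 76) (nat_lit 18370948830) (nat_lit 152) (nat_lit 211751460201) (nat_lit 13) (nat_lit 5) (nat_lit 14) (nat_lit 5) (nat_lit 15) (nat_lit 4) (nat_lit 301) (nat_lit 284) (nat_lit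 195)) (XT.nd (nat_lit 78) (nat_lit 76) (nat_lit 0) (XT.lf (nat_lit 0) (nat_lit 12188279036) (nat_lit 76) (nat_lit 413003585327) (nat_lit 76) (nat_lit 117465258530) (nat_lit 12) (nat_lit 4) (nat_lit 13) (nat_lit 5) (nat_lit 13) (nat_lit 4) (nat_lit 302) (nat_lit 284) (nat_lit 194)) (XT.lf (nat_lit 0) (nat_lit 5244917431) (nat_lit 152) (nat_lit 284261887119) (nat_lit 76) (nat_lit 310228516386) (nat_lit 11) (nat_lit 5) (nat_lit 13) (nat_lit 5) (nat_lit 12) (nat_lit 4) (nat_lit 303) (nat_lit 284) (nat_lit 193)))))) (XT.nd (nat_lit 390) (nat_lit 228) (nat_lit 0) (XT.nd (nat_lit 156) (nat_lit 76) (nat_lit 0) (XT.nd (nat_lit 78) (nat_lit 76) (nat_lit 0) (XT.lf (nat_lit 0) (nat_lit 134335273035) (nat_lit 152) (nat_lit 6717738051) (nat_lit 76) (nat_lit 523483221408) (nat_lit 11) (nat_lit 5) (nat_lit 13) (nat_lit 5) (nat_lit 12) (nat_lit 4) (nat_lit 304) (nat_lit 284) (nat_lit 192)) (XT.lf (nat_lit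 0) (nat_lit 298896520987) (nat_lit 152) (nat_lit 395838290660) (nat_lit 0) (nat_lit 41906368383) (nat_lit 10) (nat_lit 5) (nat_lit 12) (nat_lit 4) (nat_lit 10) (nat_lit 4) (nat_lit 305) (nat_lit 284) (nat_lit 191))) (XT.nd (nat_lit 78) (nat_lit 76) (nat_lit 0) (XT.lf (nat_lit 0) (nat_lit 495226521594) (nat_lit 152) (nat_lit 85036370307) (nat_lit 0) (nat_lit 238236293059) (nat_lit 10) (nat_lit 5) (nat_lit 12) (nat_lit 4) (nat_lit 10) (nat_lit 4) (nat_lit 306) (nat_lit 284) (nat_lit 190)) (XT.nd (nat_lit 78) (nat_lit 0) (nat_lit 0) (XT.lf (nat_lit 0) (nat_lit 299005138724) (nat_lit 76) (nat_lit 434381943755) (nat_lit 76) (nat_lit 177391649195) (nat_lit 9) (nat_lit 4) (nat_lit 10) (nat_lit 5) (nat_lit 10) (nat_lit 4) (nat_lit 307) (nat_lit 284) (nat_lit 189)) (XT.lf (nat_lit 0) (nat_lit 750209607366) (nat_lit 76) (nat_lit 261507103761) (nat_lit 76) (nat_lit 4516751788) (nat_lit 9) (nat_lit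 4) (nat_lit 10) (nat_lit 5) (nat_lit 10) (nat_lit 4) (nat_lit 308) (nat_lit 284) (nat_lit 188))))) (XT.nd (nat_lit 234) (nat_lit 76) (nat_lit 0) (XT.nd (nat_lit 78) (nat_lit 0) (nat_lit 0) (XT.lf (nat_lit 0) (nat_lit 135616580749) (nat_lit 76) (nat_lit 46991318156) (nat_lit 152) (nat_lit 952849413221) (nat_lit 7) (nat_lit 5) (nat_lit 8) (nat_lit 5) (nat_lit 9) (nat_lit 4) (nat_lit 309) (nat_lit 284) (nat_lit 187)) (XT.nd (nat_lit 78) (nat_lit 0) (nat_lit 0) (XT.lf (nat_lit 0) (nat_lit 420175928708) (nat_lit 152) (nat_lit 652225004650) (nat_lit 0) (nat_lit 196705976263) (nat_lit 7) (nat_lit 5) (nat_lit 9) (nat_lit 4) (nat_lit 7) (nat_lit 4) (nat_lit 310) (nat_lit 284) (nat_lit 186)) (XT.lf (nat_lit 0) (nat_lit 695616767126) (nat_lit 152) (nat_lit 254704757174) (nat_lit 0) (nat_lit 472146781854) (nat_lit 7) (nat_lit 5) (nat_lit 9) (nat_lit 4) (nat_lit 7) (nat_lit 4) (nat_lit 311) (nat_lit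 284) (nat_lit 185)))) (XT.nd (nat_lit 78) (nat_lit 0) (nat_lit 0) (XT.lf (nat_lit 0) (nat_lit 222227631907) (nat_lit 76) (nat_lit 799348004194) (nat_lit 76) (nat_lit 575877990377) (nat_lit 6) (nat_lit 4) (nat_lit 7) (nat_lit 5) (nat_lit 7) (nat_lit 4) (nat_lit 312) (nat_lit 284) (nat_lit 184)) (XT.nd (nat_lit 78) (nat_lit 0) (nat_lit 0) (XT.lf (nat_lit 0) (nat_lit 799325090956) (nat_lit 76) (nat_lit 610417292666) (nat_lit 76) (nat_lit 386947254028) (nat_lit 6) (nat_lit 4) (nat_lit 7) (nat_lit 5) (nat_lit 7) (nat_lit 4) (nat_lit 313) (nat_lit 284) (nat_lit 183)) (XT.lf (nat_lit 0) (nat_lit 1462987055946) (nat_lit 76) (nat_lit 393147031579) (nat_lit 76) (nat_lit 169676971357) (nat_lit 6) (nat_lit 4) (nat_lit 7) (nat_lit 5) (nat_lit 7) (nat_lit 4) (nat_lit 314) (nat_lit 284) (nat_lit 182))))))))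
noncomputable def xc92 : XT := (XT.nd (nat_lit 1560) (nat_lit 152) (nat_lit 0) (XT.nd (nat_lit 780) (nat_lit 0) (nat_lit 0) (XT.nd (nat_lit 390) (nat_lit 76) (nat_lit 0) (XT.nd (nat_lit 156) (nat_lit 0) (nat_lit 0) (XT.nd (nat_lit 78) (nat_lit 76) (nat_lit 0) (XT.lf (nat_lit 0) (nat_lit 73045281773) (nat_lit 152) (nat_lit 66422723177) (nat_lit 76) (nat_lit 2149334659628) (nat_lit 5) (nat_lit 5) (nat_lit 7) (nat_lit 5) (nat_lit 6) (nat_lit 4) (nat_lit 315) (nat_lit 284) (nat_lit 181)) (XT.lf (nat_lit 0) (nat_lit 365129906384) (nat_lit 152) (nat_lit 2049544183505) (nat_lit 0) (nat_lit 170808084374) (nat_lit 4) (nat_lit 5) (nat_lit 6) (nat_lit 4) (nat_lit 4) (nat_lit 4) (nat_lit 316) (nat_lit 284) (nat_lit 180))) (XT.nd (nat_lit 78) (nat_lit 0) (nat_lit 0) (XT.lf (nat_lit 0) (nat_lit 711305949328) (nat_lit 152) (nat_lit 1696831737412) (nat_lit 0) (nat_lit 516984114978) (nat_lit 4) (nat_lit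 5) (nat_lit 6) (nat_lit 4) (nat_lit 4) (nat_lit 4) (nat_lit 317) (nat_lit 284) (nat_lit 179)) (XT.nd (nat_lit 78) (nat_lit 0) (nat_lit 0) (XT.lf (nat_lit 0) (nat_lit 1109408360654) (nat_lit 152) (nat_lit 1291212502785) (nat_lit 0) (nat_lit 915086515573) (nat_lit 4) (nat_lit 5) (nat_lit 6) (nat_lit 4) (nat_lit 4) (nat_lit 4) (nat_lit 318) (nat_lit 284) (nat_lit 178)) (XT.lf (nat_lit 0) (nat_lit 1567226100585) (nat_lit 152) (nat_lit 824750451118) (nat_lit 0) (nat_lit 1372904246172) (nat_lit 4) (nat_lit 5) (nat_lit 6) (nat_lit 4) (nat_lit 4) (nat_lit 4) (nat_lit 319) (nat_lit 284) (nat_lit 177))))) (XT.nd (nat_lit 156) (nat_lit 0) (nat_lit 0) (XT.nd (nat_lit 78) (nat_lit 76) (nat_lit 0) (XT.lf (nat_lit 0) (nat_lit 2093716472726) (nat_lit 152) (nat_lit 288319150967) (nat_lit 0) (nat_lit 1899394610199) (nat_lit 4) (nat_lit 5) (nat_lit 6) (nat_lit 4) (nat_lit 4) (nat_lit 4) (nat_lit 320) (nat_lit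 284) (nat_lit 176)) (XT.lf (nat_lit 0) (nat_lit 360687706500) (nat_lit 76) (nat_lit 2353427977922) (nat_lit 76) (nat_lit 2159106108339) (nat_lit 3) (nat_lit 4) (nat_lit 4) (nat_lit 5) (nat_lit 4) (nat_lit 4) (nat_lit 321) (nat_lit 284) (nat_lit 175))) (XT.nd (nat_lit 78) (nat_lit 0) (nat_lit 0) (XT.lf (nat_lit 0) (nat_lit 1139448684340) (nat_lit 76) (nat_lit 2303197298081) (nat_lit 76) (nat_lit 2108875422363) (nat_lit 3) (nat_lit 4) (nat_lit 4) (nat_lit 5) (nat_lit 4) (nat_lit 4) (nat_lit 322) (nat_lit 284) (nat_lit 174)) (XT.nd (nat_lit 78) (nat_lit 0) (nat_lit 0) (XT.lf (nat_lit 0) (nat_lit 2035023766079) (nat_lit 76) (nat_lit 2245432038347) (nat_lit 76) (nat_lit 2051110157294) (nat_lit 3) (nat_lit 4) (nat_lit 4) (nat_lit 5) (nat_lit 4) (nat_lit 4) (nat_lit 323) (nat_lit 284) (nat_lit 173)) (XT.lf (nat_lit 0) (nat_lit 3064935072882) (nat_lit 76) (nat_lit 2179002008856) (nat_lit 76)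 (nat_lit 1984680123163) (nat_lit 3) (nat_lit 4) (nat_lit 4) (nat_lit 5) (nat_lit 4) (nat_lit 4) (nat_lit 324) (nat_lit 284) (nat_lit 172)))))) (XT.nd (nat_lit 390) (nat_lit 0) (nat_lit 0) (XT.nd (nat_lit 156) (nat_lit 0) (nat_lit 0) (XT.nd (nat_lit 78) (nat_lit 0) (nat_lit 0) (XT.lf (nat_lit 0) (nat_lit 4249333043361) (nat_lit 76) (nat_lit 2102607491638) (nat_lit 76) (nat_lit 1908285601911) (nat_lit 3) (nat_lit 4) (nat_lit 4) (nat_lit 5) (nat_lit 4) (nat_lit 4) (nat_lit 325) (nat_lit 284) (nat_lit 171)) (XT.lf (nat_lit 0) (nat_lit 5611390681286) (nat_lit 76) (nat_lit 2014753811357) (nat_lit 76) (nat_lit 1820431918122) (nat_lit 3) (nat_lit 4) (nat_lit 4) (nat_lit 5) (nat_lit 4) (nat_lit 4) (nat_lit 326) (nat_lit 284) (nat_lit 170))) (XT.nd (nat_lit 78) (nat_lit 0) (nat_lit 0) (XT.lf (nat_lit 0) (nat_lit 7177756940442) (nat_lit 76) (nat_lit 1913722091661) (nat_lit 76) (nat_lit 1719400195375)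 (nat_lit 3) (nat_lit 4) (nat_lit 4) (nat_lit 5) (nat_lit 4) (nat_lit 4) (nat_lit 327) (nat_lit 284) (nat_lit 169)) (XT.nd (nat_lit 78) (nat_lit 0) (nat_lit 0) (XT.lf (nat_lit 0) (nat_lit 8979078117204) (nat_lit 76) (nat_lit 1797535624988) (nat_lit 76) (nat_lit 1603213726050) (nat_lit 3) (nat_lit 4) (nat_lit 4) (nat_lit 5) (nat_lit 4) (nat_lit 4) (nat_lit 328) (nat_lit 284) (nat_lit 168)) (XT.lf (nat_lit 0) (nat_lit 11050597451987) (nat_lit 76) (nat_lit 1663921197862) (nat_lit 76) (nat_lit 1469599296618) (nat_lit 3) (nat_lit 4) (nat_lit 4) (nat_lit 5) (nat_lit 4) (nat_lit 4) (nat_lit 329) (nat_lit 284) (nat_lit 167))))) (XT.nd (nat_lit 156) (nat_lit 0) (nat_lit 0) (XT.nd (nat_lit 78) (nat_lit 0) (nat_lit 0) (XT.lf (nat_lit 0) (nat_lit 13432844670907) (nat_lit 76) (nat_lit 1510264614969) (nat_lit 76) (nat_lit 1315942711719) (nat_lit 3) (nat_lit 4) (nat_lit 4) (nat_lit 5) (nat_lit 4) (nat_lit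 4) (nat_lit 330) (nat_lit 284) (nat_lit 166)) (XT.lf (nat_lit 0) (nat_lit 16172428958680) (nat_lit 76) (nat_lit 1333559551861) (nat_lit 76) (nat_lit 1139237646866) (nat_lit 3) (nat_lit 4) (nat_lit 4) (nat_lit 5) (nat_lit 4) (nat_lit 4) (nat_lit 331) (nat_lit 284) (nat_lit 165))) (XT.nd (nat_lit 78) (nat_lit 0) (nat_lit 0) (XT.lf (nat_lit 0) (nat_lit 19322950877460) (nat_lit 76) (nat_lit 1130348735563) (nat_lit 76) (nat_lit 936026829052) (nat_lit 3) (nat_lit 4) (nat_lit 4) (nat_lit 5) (nat_lit 4) (nat_lit 4) (nat_lit 332) (nat_lit 284) (nat_lit 164)) (XT.nd (nat_lit 78) (nat_lit 0) (nat_lit 0) (XT.lf (nat_lit 0) (nat_lit 22946051073484) (nat_lit 76) (nat_lit 896656302280) (nat_lit 76) (nat_lit 702334394450) (nat_lit 3) (nat_lit 4) (nat_lit 4) (nat_lit 5) (nat_lit 4) (nat_lit 4) (nat_lit 333) (nat_lit 284) (nat_lit 163)) (XT.lf (nat_lit 0) (nat_lit 27112616289716) (nat_lit 76) (nat_lit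 627910008751) (nat_lit 76) (nat_lit 433588099774) (nat_lit 3) (nat_lit 4) (nat_lit 4) (nat_lit 5) (nat_lit 4) (nat_lit 4) (nat_lit 334) (nat_lit 284) (nat_lit 162))))))) (XT.nd (nat_lit 36972) (nat_lit 0) (nat_lit 1216) (XT.nd (nat_lit 390) (nat_lit 0) (nat_lit 0) (XT.nd (nat_lit 156) (nat_lit 0) (nat_lit 0) (XT.nd (nat_lit 78) (nat_lit 152) (nat_lit 0) (XT.lf (nat_lit 0) (nat_lit 31904166280388) (nat_lit 76) (nat_lit 318851775319) (nat_lit 76) (nat_lit 124529865345) (nat_lit 3) (nat_lit 4) (nat_lit 4) (nat_lit 5) (nat_lit 4) (nat_lit 4) (nat_lit 335) (nat_lit 284) (nat_lit 161)) (XT.lf (nat_lit 0) (nat_lit 224581843944) (nat_lit 152) (nat_lit 36863236791702) (nat_lit 0) (nat_lit 55606269300) (nat_lit 1) (nat_lit 5) (nat_lit 3) (nat_lit 4) (nat_lit 1) (nat_lit 4) (nat_lit 336) (nat_lit 284) (nat_lit 160))) (XT.nd (nat_lit 78) (nat_lit 0) (nat_lit 0) (XT.lf (nat_lit 0) (nat_lit 652774660963)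 (nat_lit 152) (nat_lit 41515300615127) (nat_lit 0) (nat_lit 483799085663) (nat_lit 1) (nat_lit 5) (nat_lit 3) (nat_lit 4) (nat_lit 1) (nat_lit 4) (nat_lit 337) (nat_lit 284) (nat_lit 159)) (XT.nd (nat_lit 78) (nat_lit 0) (nat_lit 0) (XT.lf (nat_lit 0) (nat_lit 1145196397489) (nat_lit 152) (nat_lit 46865174018430) (nat_lit 0) (nat_lit 976220821619) (nat_lit 1) (nat_lit 5) (nat_lit 3) (nat_lit 4) (nat_lit 1) (nat_lit 4) (nat_lit 338) (nat_lit 284) (nat_lit 158)) (XT.lf (nat_lit 0) (nat_lit 1711481391846) (nat_lit 152) (nat_lit 53017528437764) (nat_lit 0) (nat_lit 1542505815480) (nat_lit 1) (nat_lit 5) (nat_lit 3) (nat_lit 4) (nat_lit 1) (nat_lit 4) (nat_lit 339) (nat_lit 284) (nat_lit 157))))) (XT.nd (nat_lit 36348) (nat_lit 0) (nat_lit 1824) (XT.nd (nat_lit 78) (nat_lit 0) (nat_lit 0) (XT.lf (nat_lit 0) (nat_lit 2362709133053) (nat_lit 152) (nat_lit 60092736024811) (nat_lit 0) (nat_lit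 2193733556256) (nat_lit 1) (nat_lit 5) (nat_lit 3) (nat_lit 4) (nat_lit 1) (nat_lit 4) (nat_lit 340) (nat_lit 284) (nat_lit 156)) (XT.lf (nat_lit 0) (nat_lit 3111621033438) (nat_lit 152) (nat_lit 68229224754100) (nat_lit 0) (nat_lit 2942645456266) (nat_lit 1) (nat_lit 5) (nat_lit 3) (nat_lit 4) (nat_lit 1) (nat_lit 4) (nat_lit 341) (nat_lit 284) (nat_lit 155))) (XT.nd (nat_lit 78) (nat_lit 0) (nat_lit 0) (XT.lf (nat_lit 0) (nat_lit 13695553724) (nat_lit 380) (nat_lit 26602896119) (nat_lit 380) (nat_lit 26602896119) (nat_lit 25) (nat_lit 3) (nat_lit 30) (nat_lit 3) (nat_lit 30) (nat_lit 5) (nat_lit 285) (nat_lit 285) (nat_lit 210)) (XT.nd (nat_lit 78) (nat_lit 0) (nat_lit 76) (XT.lf (nat_lit 76) (nat_lit 11647237194) (nat_lit 0) (nat_lit 18283831202) (nat_lit 380) (nat_lit 113833972406) (nat_lit 26) (nat_lit 5) (nat_lit 25) (nat_lit 3) (nat_lit 30) (nat_lit 5) (nat_lit 286) (nat_lit 285)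 (nat_lit 209)) (XT.lf (nat_lit 0) (nat_lit 37975267828) (nat_lit 304) (nat_lit 64939845982) (nat_lit 380) (nat_lit 51538143123) (nat_lit 26) (nat_lit 5) (nat_lit 30) (nat_lit 5) (nat_lit 31) (nat_lit 5) (nat_lit 287) (nat_lit 285) (nat_lit 208)))))) (XT.nd (nat_lit 390) (nat_lit 304) (nat_lit 0) (XT.nd (nat_lit 156) (nat_lit 380) (nat_lit 0) (XT.nd (nat_lit 78) (nat_lit 0) (nat_lit 76) (XT.lf (nat_lit 76) (nat_lit 12562094548) (nat_lit 0) (nat_lit 36054308451) (nat_lit 380) (nat_lit 117919757978) (nat_lit 27) (nat_lit 5) (nat_lit 26) (nat_lit 5) (nat_lit 31) (nat_lit 5) (nat_lit 288) (nat_lit 285) (nat_lit 207)) (XT.lf (nat_lit 0) (nat_lit 66100386293) (nat_lit 304) (nat_lit 72787669057) (nat_lit 76) (nat_lit 40756444790) (nat_lit 27) (nat_lit 5) (nat_lit 31) (nat_lit 5) (nat_lit 28) (nat_lit 5) (nat_lit 289) (nat_lit 285) (nat_lit 206))) (XT.nd (nat_lit 78) (nat_lit 152) (nat_lit 0)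 (XT.lf (nat_lit 0) (nat_lit 20702483447) (nat_lit 304) (nat_lit 68078194493) (nat_lit 380) (nat_lit 105552356643) (nat_lit 23) (nat_lit 5) (nat_lit 27) (nat_lit 5) (nat_lit 28) (nat_lit 5) (nat_lit 290) (nat_lit 285) (nat_lit 205)) (XT.nd (nat_lit 78) (nat_lit 152) (nat_lit 0) (XT.lf (nat_lit 0) (nat_lit 119401559230) (nat_lit 380) (nat_lit 74992181790) (nat_lit 76) (nat_lit 16150327188) (nat_lit 23) (nat_lit 5) (nat_lit 28) (nat_lit 5) (nat_lit 24) (nat_lit 5) (nat_lit 291) (nat_lit 285) (nat_lit 204)) (XT.lf (nat_lit 0) (nat_lit 38639709000) (nat_lit 152) (nat_lit 120817348025) (nat_lit 228) (nat_lit 69003477985) (nat_lit 21) (nat_lit 5) (nat_lit 23) (nat_lit 5) (nat_lit 24) (nat_lit 5) (nat_lit 292) (nat_lit 285) (nat_lit 203))))) (XT.nd (nat_lit 156) (nat_lit 152) (nat_lit 0) (XT.nd (nat_lit 78) (nat_lit 152) (nat_lit 0) (XT.lf (nat_lit 0) (nat_lit 177744110450) (nat_lit 152) (nat_lit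 31696519155) (nat_lit 228) (nat_lit 39035880393) (nat_lit 21) (nat_lit 5) (nat_lit 23) (nat_lit 5) (nat_lit 24) (nat_lit 5) (nat_lit 293) (nat_lit 285) (nat_lit 202)) (XT.lf (nat_lit 0) (nat_lit 1918363017) (nat_lit 152) (nat_lit 201238419435) (nat_lit 76) (nat_lit 67453847906) (nat_lit 19) (nat_lit 5) (nat_lit 21) (nat_lit 5) (nat_lit 20) (nat_lit 5) (nat_lit 294) (nat_lit 285) (nat_lit 201))) (XT.nd (nat_lit 78) (nat_lit 152) (nat_lit 0) (XT.lf (nat_lit 0) (nat_lit 50401759187) (nat_lit 152) (nat_lit 60613035603) (nat_lit 76) (nat_lit 183963864687) (nat_lit 19) (nat_lit 5) (nat_lit 21) (nat_lit 5) (nat_lit 20) (nat_lit 5) (nat_lit 295) (nat_lit 285) (nat_lit 200)) (XT.nd (nat_lit 78) (nat_lit 0) (nat_lit 0) (XT.lf (nat_lit 0) (nat_lit 110762832744) (nat_lit 228) (nat_lit 211335602551) (nat_lit 76) (nat_lit 212682861) (nat_lit 17) (nat_lit 5) (nat_lit 20) (nat_lit 5) (nat_lit 18) (nat_lit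 4) (nat_lit 296) (nat_lit 285) (nat_lit 199)) (XT.lf (nat_lit 0) (nat_lit 188783563877) (nat_lit 228) (nat_lit 43591383869) (nat_lit 76) (nat_lit 120077673747) (nat_lit 17) (nat_lit 5) (nat_lit 20) (nat_lit 5) (nat_lit 18) (nat_lit 4) (nat_lit 297) (nat_lit 285) (nat_lit 198))))))))
noncomputable def xc93 : XT := (XT.nd (nat_lit 1560) (nat_lit 228) (nat_lit 0) (XT.nd (nat_lit 780) (nat_lit 456) (nat_lit 0) (XT.nd (nat_lit 390) (nat_lit 228) (nat_lit 0) (XT.nd (nat_lit 156) (nat_lit 228) (nat_lit 0) (XT.nd (nat_lit 78) (nat_lit 0) (nat_lit 0) (XT.lf (nat_lit 0) (nat_lit 163906246130) (nat_lit 76) (nat_lit 121387986202) (nat_lit 152) (nat_lit 100803094147) (nat_lit 16) (nat_lit 5) (nat_lit 17) (nat_lit 5) (nat_lit 18) (nat_lit 4) (nat_lit 298) (nat_lit 285) (nat_lit 197)) (XT.lf (nat_lit 0) (nat_lit 398927151226) (nat_lit 152) (nat_lit 17386822705) (nat_lit 0) (nat_lit 8077916011) (nat_lit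 16) (nat_lit 5) (nat_lit 18) (nat_lit 4) (nat_lit 16) (nat_lit 4) (nat_lit 299) (nat_lit 285) (nat_lit 196))) (XT.nd (nat_lit 78) (nat_lit 76) (nat_lit 0) (XT.lf (nat_lit 0) (nat_lit 71895942277) (nat_lit 152) (nat_lit 236273161292) (nat_lit 76) (nat_lit 157456408863) (nat_lit 14) (nat_lit 5) (nat_lit 16) (nat_lit 5) (nat_lit 15) (nat_lit 4) (nat_lit 300) (nat_lit 285) (nat_lit 195)) (XT.nd (nat_lit 78) (nat_lit 0) (nat_lit 0) (XT.lf (nat_lit 0) (nat_lit 979662893) (nat_lit 76) (nat_lit 181266511856) (nat_lit 152) (nat_lit 330467229694) (nat_lit 13) (nat_lit 5) (nat_lit 14) (nat_lit 5) (nat_lit 15) (nat_lit 4) (nat_lit 301) (nat_lit 285) (nat_lit 194)) (XT.lf (nat_lit 0) (nat_lit 300374042973) (nat_lit 76) (nat_lit 21125402846) (nat_lit 152) (nat_lit 243512459022) (nat_lit 13) (nat_lit 5) (nat_lit 14) (nat_lit 5) (nat_lit 15) (nat_lit 4) (nat_lit 302) (nat_lit 285) (nat_lit 193)))))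 (XT.nd (nat_lit 156) (nat_lit 76) (nat_lit 0) (XT.nd (nat_lit 78) (nat_lit 76) (nat_lit 0) (XT.lf (nat_lit 0) (nat_lit 14019250235) (nat_lit 76) (nat_lit 474952849121) (nat_lit 76) (nat_lit 135083372302) (nat_lit 12) (nat_lit 4) (nat_lit 13) (nat_lit 5) (nat_lit 13) (nat_lit 4) (nat_lit 303) (nat_lit 285) (nat_lit 192)) (XT.lf (nat_lit 0) (nat_lit 6032981905) (nat_lit 152) (nat_lit 326898666140) (nat_lit 76) (nat_lit 356763770970) (nat_lit 11) (nat_lit 5) (nat_lit 13) (nat_lit 5) (nat_lit 12) (nat_lit 4) (nat_lit 304) (nat_lit 285) (nat_lit 191))) (XT.nd (nat_lit 78) (nat_lit 76) (nat_lit 0) (XT.lf (nat_lit 0) (nat_lit 154486717780) (nat_lit 152) (nat_lit 7723221326) (nat_lit 76) (nat_lit 602006554294) (nat_lit 11) (nat_lit 5) (nat_lit 13) (nat_lit 5) (nat_lit 12) (nat_lit 4) (nat_lit 305) (nat_lit 285) (nat_lit 190)) (XT.nd (nat_lit 78) (nat_lit 0) (nat_lit 0) (XT.lf (nat_lit 0) (nat_lit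 343732129452) (nat_lit 152) (nat_lit 455211832571) (nat_lit 0) (nat_lit 48193224682) (nat_lit 10) (nat_lit 5) (nat_lit 12) (nat_lit 4) (nat_lit 10) (nat_lit 4) (nat_lit 306) (nat_lit 285) (nat_lit 189)) (XT.lf (nat_lit 0) (nat_lit 569511482717) (nat_lit 152) (nat_lit 97789911342) (nat_lit 0) (nat_lit 273972520533) (nat_lit 10) (nat_lit 5) (nat_lit 12) (nat_lit 4) (nat_lit 10) (nat_lit 4) (nat_lit 307) (nat_lit 285) (nat_lit 188)))))) (XT.nd (nat_lit 390) (nat_lit 228) (nat_lit 0) (XT.nd (nat_lit 156) (nat_lit 152) (nat_lit 0) (XT.nd (nat_lit 78) (nat_lit 0) (nat_lit 0) (XT.lf (nat_lit 0) (nat_lit 343857737021) (nat_lit 76) (nat_lit 499538338184) (nat_lit 76) (nat_lit 203999326076) (nat_lit 9) (nat_lit 4) (nat_lit 10) (nat_lit 5) (nat_lit 10) (nat_lit 4) (nat_lit 308) (nat_lit 285) (nat_lit 187)) (XT.lf (nat_lit 0) (nat_lit 862742637591) (nat_lit 76) (nat_lit 300732389209) (nat_lit 76)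 (nat_lit 5193333687) (nat_lit 9) (nat_lit 4) (nat_lit 10) (nat_lit 5) (nat_lit 10) (nat_lit 4) (nat_lit 309) (nat_lit 285) (nat_lit 186))) (XT.nd (nat_lit 78) (nat_lit 0) (nat_lit 0) (XT.lf (nat_lit 0) (nat_lit 155960664281) (nat_lit 76) (nat_lit 54039222952) (nat_lit 152) (nat_lit 1095775900800) (nat_lit 7) (nat_lit 5) (nat_lit 8) (nat_lit 5) (nat_lit 9) (nat_lit 4) (nat_lit 310) (nat_lit 285) (nat_lit 185)) (XT.nd (nat_lit 78) (nat_lit 0) (nat_lit 0) (XT.lf (nat_lit 0) (nat_lit 483203045254) (nat_lit 152) (nat_lit 750057290566) (nat_lit 0) (nat_lit 226212500820) (nat_lit 7) (nat_lit 5) (nat_lit 9) (nat_lit 4) (nat_lit 7) (nat_lit 4) (nat_lit 311) (nat_lit 285) (nat_lit 184)) (XT.lf (nat_lit 0) (nat_lit 799959914577) (nat_lit 152) (nat_lit 292909197026) (nat_lit 0) (nat_lit 542969345322) (nat_lit 7) (nat_lit 5) (nat_lit 9) (nat_lit 4) (nat_lit 7) (nat_lit 4) (nat_lit 312) (nat_lit 285)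 (nat_lit 183))))) (XT.nd (nat_lit 156) (nat_lit 152) (nat_lit 0) (XT.nd (nat_lit 78) (nat_lit 0) (nat_lit 0) (XT.lf (nat_lit 0) (nat_lit 255562992520) (nat_lit 76) (nat_lit 919249589239) (nat_lit 76) (nat_lit 662258998399) (nat_lit 6) (nat_lit 4) (nat_lit 7) (nat_lit 5) (nat_lit 7) (nat_lit 4) (nat_lit 313) (nat_lit 285) (nat_lit 182)) (XT.lf (nat_lit 0) (nat_lit 919224911840) (nat_lit 76) (nat_lit 701979351275) (nat_lit 76) (nat_lit 444988741667) (nat_lit 6) (nat_lit 4) (nat_lit 7) (nat_lit 5) (nat_lit 7) (nat_lit 4) (nat_lit 314) (nat_lit 285) (nat_lit 181))) (XT.nd (nat_lit 78) (nat_lit 152) (nat_lit 0) (XT.lf (nat_lit 0) (nat_lit 1682436033677) (nat_lit 76) (nat_lit 452118620846) (nat_lit 76) (nat_lit 195127994917) (nat_lit 6) (nat_lit 4) (nat_lit 7) (nat_lit 5) (nat_lit 7) (nat_lit 4) (nat_lit 315) (nat_lit 285) (nat_lit 180)) (XT.nd (nat_lit 78) (nat_lit 76) (nat_lit 0) (XT.lf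 (nat_lit 0) (nat_lit 84002487655) (nat_lit 152) (nat_lit 76385291659) (nat_lit 76) (nat_lit 2471735222762) (nat_lit 5) (nat_lit 5) (nat_lit 7) (nat_lit 5) (nat_lit 6) (nat_lit 4) (nat_lit 316) (nat_lit 285) (nat_lit 179)) (XT.lf (nat_lit 0) (nat_lit 419899802143) (nat_lit 152) (nat_lit 2356974967094) (nat_lit 0) (nat_lit 196429669568) (nat_lit 4) (nat_lit 5) (nat_lit 6) (nat_lit 4) (nat_lit 4) (nat_lit 4) (nat_lit 317) (nat_lit 285) (nat_lit 178))))))) (XT.nd (nat_lit 780) (nat_lit 152) (nat_lit 0) (XT.nd (nat_lit 390) (nat_lit 0) (nat_lit 0) (XT.nd (nat_lit 156) (nat_lit 76) (nat_lit 0) (XT.nd (nat_lit 78) (nat_lit 0) (nat_lit 0) (XT.lf (nat_lit 0) (nat_lit 818002198076) (nat_lit 152) (nat_lit 1951355764167) (nat_lit 0) (nat_lit 594532056170) (nat_lit 4) (nat_lit 5) (nat_lit 6) (nat_lit 4) (nat_lit 4) (nat_lit 4) (nat_lit 318) (nat_lit 285) (nat_lit 177)) (XT.lf (nat_lit 0) (nat_lit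 1275819924621) (nat_lit 152) (nat_lit 1484893740066) (nat_lit 0) (nat_lit 1052349774601) (nat_lit 4) (nat_lit 5) (nat_lit 6) (nat_lit 4) (nat_lit 4) (nat_lit 4) (nat_lit 319) (nat_lit 285) (nat_lit 176))) (XT.nd (nat_lit 78) (nat_lit 76) (nat_lit 0) (XT.lf (nat_lit 0) (nat_lit 1802310285123) (nat_lit 152) (nat_lit 948462463884) (nat_lit 0) (nat_lit 1578840128047) (nat_lit 4) (nat_lit 5) (nat_lit 6) (nat_lit 4) (nat_lit 4) (nat_lit 4) (nat_lit 320) (nat_lit 285) (nat_lit 175)) (XT.nd (nat_lit 78) (nat_lit 76) (nat_lit 0) (XT.lf (nat_lit 0) (nat_lit 2407774177940) (nat_lit 152) (nat_lit 331566541089) (nat_lit 0) (nat_lit 2184304014729) (nat_lit 4) (nat_lit 5) (nat_lit 6) (nat_lit 4) (nat_lit 4) (nat_lit 4) (nat_lit 321) (nat_lit 285) (nat_lit 174)) (XT.lf (nat_lit 0) (nat_lit 414791323065) (nat_lit 76) (nat_lit 2706441936835) (nat_lit 76) (nat_lit 2482971768289) (nat_lit 3) (nat_lit 4)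 (nat_lit 4) (nat_lit 5) (nat_lit 4) (nat_lit 4) (nat_lit 322) (nat_lit 285) (nat_lit 173))))) (XT.nd (nat_lit 156) (nat_lit 0) (nat_lit 0) (XT.nd (nat_lit 78) (nat_lit 0) (nat_lit 0) (XT.lf (nat_lit 0) (nat_lit 1310366387504) (nat_lit 76) (nat_lit 2648676686033) (nat_lit 76) (nat_lit 2425206512847) (nat_lit 3) (nat_lit 4) (nat_lit 4) (nat_lit 5) (nat_lit 4) (nat_lit 4) (nat_lit 323) (nat_lit 285) (nat_lit 172)) (XT.lf (nat_lit 0) (nat_lit 2340277679263) (nat_lit 76) (nat_lit 2582246664308) (nat_lit 76) (nat_lit 2358776487087) (nat_lit 3) (nat_lit 4) (nat_lit 4) (nat_lit 5) (nat_lit 4) (nat_lit 4) (nat_lit 324) (nat_lit 285) (nat_lit 171))) (XT.nd (nat_lit 78) (nat_lit 0) (nat_lit 0) (XT.lf (nat_lit 0) (nat_lit 3524675636660) (nat_lit 76) (nat_lit 2505852153843) (nat_lit 76) (nat_lit 2282381973115) (nat_lit 3) (nat_lit 4) (nat_lit 4) (nat_lit 5) (nat_lit 4) (nat_lit 4) (nat_lit 325) (nat_lit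 285) (nat_lit 170)) (XT.nd (nat_lit 78) (nat_lit 0) (nat_lit 0) (XT.lf (nat_lit 0) (nat_lit 4886733263209) (nat_lit 76) (nat_lit 2417998479435) (nat_lit 76) (nat_lit 2194528295656) (nat_lit 3) (nat_lit 4) (nat_lit 4) (nat_lit 5) (nat_lit 4) (nat_lit 4) (nat_lit 326) (nat_lit 285) (nat_lit 169)) (XT.lf (nat_lit 0) (nat_lit 6453099512474) (nat_lit 76) (nat_lit 2316966764845) (nat_lit 76) (nat_lit 2093496578414) (nat_lit 3) (nat_lit 4) (nat_lit 4) (nat_lit 5) (nat_lit 4) (nat_lit 4) (nat_lit 327) (nat_lit 285) (nat_lit 168)))))) (XT.nd (nat_lit 390) (nat_lit 152) (nat_lit 0) (XT.nd (nat_lit 156) (nat_lit 0) (nat_lit 0) (XT.nd (nat_lit 78) (nat_lit 0) (nat_lit 0) (XT.lf (nat_lit 0) (nat_lit 8254420680634) (nat_lit 76) (nat_lit 2200780302613) (nat_lit 76) (nat_lit 1977310113875) (nat_lit 3) (nat_lit 4) (nat_lit 4) (nat_lit 5) (nat_lit 4) (nat_lit 4) (nat_lit 328) (nat_lit 285) (nat_lit 167))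 (XT.lf (nat_lit 0) (nat_lit 10325940007938) (nat_lit 76) (nat_lit 2067165879348) (nat_lit 76) (nat_lit 1843695688605) (nat_lit 3) (nat_lit 4) (nat_lit 4) (nat_lit 5) (nat_lit 4) (nat_lit 4) (nat_lit 329) (nat_lit 285) (nat_lit 166))) (XT.nd (nat_lit 78) (nat_lit 0) (nat_lit 0) (XT.lf (nat_lit 0) (nat_lit 12708187220353) (nat_lit 76) (nat_lit 1913509299813) (nat_lit 76) (nat_lit 1690039107325) (nat_lit 3) (nat_lit 4) (nat_lit 4) (nat_lit 5) (nat_lit 4) (nat_lit 4) (nat_lit 330) (nat_lit 285) (nat_lit 165)) (XT.nd (nat_lit 78) (nat_lit 0) (nat_lit 0) (XT.lf (nat_lit 0) (nat_lit 15447771502471) (nat_lit 76) (nat_lit 1736804239624) (nat_lit 76) (nat_lit 1513334045620) (nat_lit 3) (nat_lit 4) (nat_lit 4) (nat_lit 5) (nat_lit 4) (nat_lit 4) (nat_lit 331) (nat_lit 285) (nat_lit 164)) (XT.lf (nat_lit 0) (nat_lit 18598293416333) (nat_lit 76) (nat_lit 1533593425866) (nat_lit 76) (nat_lit 1310123230543)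 (nat_lit 3) (nat_lit 4) (nat_lit 4) (nat_lit 5) (nat_lit 4) (nat_lit 4) (nat_lit 332) (nat_lit 285) (nat_lit 163))))) (XT.nd (nat_lit 234) (nat_lit 152) (nat_lit 0) (XT.nd (nat_lit 78) (nat_lit 0) (nat_lit 0) (XT.lf (nat_lit 0) (nat_lit 22221393608080) (nat_lit 76) (nat_lit 1299900994790) (nat_lit 76) (nat_lit 1076430798320) (nat_lit 3) (nat_lit 4) (nat_lit 4) (nat_lit 5) (nat_lit 4) (nat_lit 4) (nat_lit 333) (nat_lit 285) (nat_lit 162)) (XT.nd (nat_lit 78) (nat_lit 0) (nat_lit 0) (XT.lf (nat_lit 0) (nat_lit 26387958820594) (nat_lit 76) (nat_lit 1031154703180) (nat_lit 76) (nat_lit 807684505713) (nat_lit 3) (nat_lit 4) (nat_lit 4) (nat_lit 5) (nat_lit 4) (nat_lit 4) (nat_lit 334) (nat_lit 285) (nat_lit 161)) (XT.lf (nat_lit 0) (nat_lit 31179508808033) (nat_lit 76) (nat_lit 722096471418) (nat_lit 76) (nat_lit 498626273084) (nat_lit 3) (nat_lit 4) (nat_lit 4) (nat_lit 5) (nat_lit 4) (nat_lit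 4) (nat_lit 335) (nat_lit 285) (nat_lit 160)))) (XT.nd (nat_lit 78) (nat_lit 152) (nat_lit 0) (XT.lf (nat_lit 0) (nat_lit 36689791287541) (nat_lit 76) (nat_lit 366679508013) (nat_lit 76) (nat_lit 143209308925) (nat_lit 3) (nat_lit 4) (nat_lit 4) (nat_lit 5) (nat_lit 4) (nat_lit 4) (nat_lit 336) (nat_lit 285) (nat_lit 159)) (XT.nd (nat_lit 78) (nat_lit 0) (nat_lit 0) (XT.lf (nat_lit 0) (nat_lit 258269153331) (nat_lit 152) (nat_lit 42392722241921) (nat_lit 0) (nat_lit 63947240510) (nat_lit 1) (nat_lit 5) (nat_lit 3) (nat_lit 4) (nat_lit 1) (nat_lit 4) (nat_lit 337) (nat_lit 285) (nat_lit 158)) (XT.lf (nat_lit 0) (nat_lit 750690888625) (nat_lit 152) (nat_lit 47742595647799) (nat_lit 0) (nat_lit 556368975309) (nat_lit 1) (nat_lit 5) (nat_lit 3) (nat_lit 4) (nat_lit 1) (nat_lit 4) (nat_lit 338) (nat_lit 285) (nat_lit 157))))))))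
noncomputable def xc94 : XT := (XT.nd (nat_lit 37518) (nat_lit 0) (nat_lit 228) (XT.nd (nat_lit 36738) (nat_lit 0) (nat_lit 1216) (XT.nd (nat_lit 390) (nat_lit 0) (nat_lit 0) (XT.nd (nat_lit 156) (nat_lit 0) (nat_lit 0) (XT.nd (nat_lit 78) (nat_lit 0) (nat_lit 0) (XT.lf (nat_lit 0) (nat_lit 1316975881911) (nat_lit 152) (nat_lit 53894950069371) (nat_lit 0) (nat_lit 1122653968163) (nat_lit 1) (nat_lit 5) (nat_lit 3) (nat_lit 4) (nat_lit 1) (nat_lit 4) (nat_lit 339) (nat_lit 285) (nat_lit 156)) (XT.lf (nat_lit 0) (nat_lit 1968203622186) (nat_lit 152) (nat_lit 60970157658365) (nat_lit 0) (nat_lit 1773881708064) (nat_lit 1) (nat_lit 5) (nat_lit 3) (nat_lit 4) (nat_lit 1) (nat_lit 4) (nat_lit 340) (nat_lit 285) (nat_lit 155))) (XT.nd (nat_lit 78) (nat_lit 0) (nat_lit 0) (XT.lf (nat_lit 0) (nat_lit 2717115521762) (nat_lit 152) (nat_lit 69106646389346) (nat_lit 0) (nat_lit 2522793607313) (nat_lit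 1) (nat_lit 5) (nat_lit 3) (nat_lit 4) (nat_lit 1) (nat_lit 4) (nat_lit 341) (nat_lit 285) (nat_lit 154)) (XT.nd (nat_lit 78) (nat_lit 0) (nat_lit 0) (XT.lf (nat_lit 0) (nat_lit 3578364204759) (nat_lit 152) (nat_lit 78463608433140) (nat_lit 0) (nat_lit 3384042290027) (nat_lit 1) (nat_lit 5) (nat_lit 3) (nat_lit 4) (nat_lit 1) (nat_lit 4) (nat_lit 342) (nat_lit 285) (nat_lit 153)) (XT.lf (nat_lit 0) (nat_lit 4568800188890) (nat_lit 152) (nat_lit 89224114786255) (nat_lit 0) (nat_lit 4374478273911) (nat_lit 1) (nat_lit 5) (nat_lit 3) (nat_lit 4) (nat_lit 1) (nat_lit 4) (nat_lit 343) (nat_lit 285) (nat_lit 152))))) (XT.nd (nat_lit 36114) (nat_lit 0) (nat_lit 1824) (XT.nd (nat_lit 78) (nat_lit 0) (nat_lit 0) (XT.lf (nat_lit 0) (nat_lit 5707801569494) (nat_lit 152) (nat_lit 101598697094729) (nat_lit 0) (nat_lit 5513479654302) (nat_lit 1) (nat_lit 5) (nat_lit 3) (nat_lit 4) (nat_lit 1) (nat_lit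 4) (nat_lit 344) (nat_lit 285) (nat_lit 151)) (XT.lf (nat_lit 0) (nat_lit 7017653156194) (nat_lit 152) (nat_lit 115829466751556) (nat_lit 0) (nat_lit 6823331240815) (nat_lit 1) (nat_lit 5) (nat_lit 3) (nat_lit 4) (nat_lit 1) (nat_lit 4) (nat_lit 345) (nat_lit 285) (nat_lit 150))) (XT.nd (nat_lit 78) (nat_lit 0) (nat_lit 0) (XT.lf (nat_lit 0) (nat_lit 15753089089) (nat_lit 380) (nat_lit 30591484977) (nat_lit 380) (nat_lit 30591484977) (nat_lit 25) (nat_lit 3) (nat_lit 30) (nat_lit 3) (nat_lit 30) (nat_lit 5) (nat_lit 286) (nat_lit 286) (nat_lit 208)) (XT.nd (nat_lit 78) (nat_lit 0) (nat_lit 76) (XT.lf (nat_lit 76) (nat_lit 13397846115) (nat_lit 0) (nat_lit 21028597663) (nat_lit 380) (nat_lit 130902481150) (nat_lit 26) (nat_lit 5) (nat_lit 25) (nat_lit 3) (nat_lit 30) (nat_lit 5) (nat_lit 287) (nat_lit 286) (nat_lit 207)) (XT.lf (nat_lit 0) (nat_lit 43676448754) (nat_lit 304) (nat_lit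 74676921929) (nat_lit 380) (nat_lit 59267128371) (nat_lit 26) (nat_lit 5) (nat_lit 30) (nat_lit 5) (nat_lit 31) (nat_lit 5) (nat_lit 288) (nat_lit 286) (nat_lit 206)))))) (XT.nd (nat_lit 390) (nat_lit 304) (nat_lit 0) (XT.nd (nat_lit 156) (nat_lit 380) (nat_lit 0) (XT.nd (nat_lit 78) (nat_lit 0) (nat_lit 76) (XT.lf (nat_lit 76) (nat_lit 14450132365) (nat_lit 0) (nat_lit 41463138100) (nat_lit 380) (nat_lit 135602642471) (nat_lit 27) (nat_lit 5) (nat_lit 26) (nat_lit 5) (nat_lit 31) (nat_lit 5) (nat_lit 289) (nat_lit 286) (nat_lit 205)) (XT.lf (nat_lit 0) (nat_lit 76019251819) (nat_lit 304) (nat_lit 83701972355) (nat_lit 76) (nat_lit 46869370168) (nat_lit 27) (nat_lit 5) (nat_lit 31) (nat_lit 5) (nat_lit 28) (nat_lit 5) (nat_lit 290) (nat_lit 286) (nat_lit 204))) (XT.nd (nat_lit 78) (nat_lit 152) (nat_lit 0) (XT.lf (nat_lit 0) (nat_lit 23811528158) (nat_lit 304) (nat_lit 78289714471) (nat_lit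 380) (nat_lit 121381219272) (nat_lit 23) (nat_lit 5) (nat_lit 27) (nat_lit 5) (nat_lit 28) (nat_lit 5) (nat_lit 291) (nat_lit 286) (nat_lit 203)) (XT.nd (nat_lit 78) (nat_lit 152) (nat_lit 0) (XT.lf (nat_lit 0) (nat_lit 137314811949) (nat_lit 380) (nat_lit 86237364361) (nat_lit 76) (nat_lit 18573041981) (nat_lit 23) (nat_lit 5) (nat_lit 28) (nat_lit 5) (nat_lit 24) (nat_lit 5) (nat_lit 292) (nat_lit 286) (nat_lit 202)) (XT.lf (nat_lit 0) (nat_lit 44439144379) (nat_lit 152) (nat_lit 138939240334) (nat_lit 228) (nat_lit 79350808813) (nat_lit 21) (nat_lit 5) (nat_lit 23) (nat_lit 5) (nat_lit 24) (nat_lit 5) (nat_lit 293) (nat_lit 286) (nat_lit 201))))) (XT.nd (nat_lit 156) (nat_lit 152) (nat_lit 0) (XT.nd (nat_lit 78) (nat_lit 152) (nat_lit 0) (XT.lf (nat_lit 0) (nat_lit 204408752260) (nat_lit 152) (nat_lit 36450379727) (nat_lit 228) (nat_lit 44888487782) (nat_lit 21) (nat_lit 5) (nat_lit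 23) (nat_lit 5) (nat_lit 24) (nat_lit 5) (nat_lit 294) (nat_lit 286) (nat_lit 200)) (XT.lf (nat_lit 0) (nat_lit 2208478107) (nat_lit 152) (nat_lit 231420734076) (nat_lit 76) (nat_lit 77572654449) (nat_lit 19) (nat_lit 5) (nat_lit 21) (nat_lit 5) (nat_lit 20) (nat_lit 5) (nat_lit 295) (nat_lit 286) (nat_lit 199))) (XT.nd (nat_lit 78) (nat_lit 152) (nat_lit 0) (XT.lf (nat_lit 0) (nat_lit 57964075793) (nat_lit 152) (nat_lit 69701992443) (nat_lit 76) (nat_lit 211559078613) (nat_lit 19) (nat_lit 5) (nat_lit 21) (nat_lit 5) (nat_lit 20) (nat_lit 5) (nat_lit 296) (nat_lit 286) (nat_lit 198)) (XT.nd (nat_lit 78) (nat_lit 0) (nat_lit 0) (XT.lf (nat_lit 0) (nat_lit 127379200852) (nat_lit 228) (nat_lit 243032831737) (nat_lit 76) (nat_lit 245458645) (nat_lit 17) (nat_lit 5) (nat_lit 20) (nat_lit 5) (nat_lit 18) (nat_lit 4) (nat_lit 297) (nat_lit 286) (nat_lit 197)) (XT.lf (nat_lit 0) (nat_lit 217102788195)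 (nat_lit 228) (nat_lit 50127386061) (nat_lit 76) (nat_lit 138090084249) (nat_lit 17) (nat_lit 5) (nat_lit 20) (nat_lit 5) (nat_lit 18) (nat_lit 4) (nat_lit 298) (nat_lit 286) (nat_lit 196))))))) (XT.nd (nat_lit 780) (nat_lit 456) (nat_lit 0) (XT.nd (nat_lit 390) (nat_lit 228) (nat_lit 0) (XT.nd (nat_lit 156) (nat_lit 228) (nat_lit 0) (XT.nd (nat_lit 78) (nat_lit 0) (nat_lit 0) (XT.lf (nat_lit 0) (nat_lit 188494765466) (nat_lit 76) (nat_lit 139595177984) (nat_lit 152) (nat_lit 115921743168) (nat_lit 16) (nat_lit 5) (nat_lit 17) (nat_lit 5) (nat_lit 18) (nat_lit 4) (nat_lit 299) (nat_lit 286) (nat_lit 195)) (XT.lf (nat_lit 0) (nat_lit 458767630806) (nat_lit 152) (nat_lit 19992429078) (nat_lit 0) (nat_lit 9290400434) (nat_lit 16) (nat_lit 5) (nat_lit 18) (nat_lit 4) (nat_lit 16) (nat_lit 4) (nat_lit 300) (nat_lit 286) (nat_lit 194))) (XT.nd (nat_lit 78) (nat_lit 76) (nat_lit 0) (XT.lf (nat_lit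 0) (nat_lit 82681716996) (nat_lit 152) (nat_lit 271711691551) (nat_lit 76) (nat_lit 181075721669) (nat_lit 14) (nat_lit 5) (nat_lit 16) (nat_lit 5) (nat_lit 15) (nat_lit 4) (nat_lit 301) (nat_lit 286) (nat_lit 193)) (XT.nd (nat_lit 78) (nat_lit 0) (nat_lit 0) (XT.lf (nat_lit 0) (nat_lit 1128945174) (nat_lit 76) (nat_lit 208455455323) (nat_lit 152) (nat_lit 380035818314) (nat_lit 13) (nat_lit 5) (nat_lit 14) (nat_lit 5) (nat_lit 15) (nat_lit 4) (nat_lit 302) (nat_lit 286) (nat_lit 192)) (XT.lf (nat_lit 0) (nat_lit 345432177982) (nat_lit 76) (nat_lit 24293314741) (nat_lit 152) (nat_lit 280038027151) (nat_lit 13) (nat_lit 5) (nat_lit 14) (nat_lit 5) (nat_lit 15) (nat_lit 4) (nat_lit 303) (nat_lit 286) (nat_lit 191))))) (XT.nd (nat_lit 156) (nat_lit 76) (nat_lit 0) (XT.nd (nat_lit 78) (nat_lit 76) (nat_lit 0) (XT.lf (nat_lit 0) (nat_lit 16124201546) (nat_lit 76) (nat_lit 546194813159) (nat_lit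 76) (nat_lit 155344611601) (nat_lit 12) (nat_lit 4) (nat_lit 13) (nat_lit 5) (nat_lit 13) (nat_lit 4) (nat_lit 304) (nat_lit 286) (nat_lit 190)) (XT.lf (nat_lit 0) (nat_lit 6938932486) (nat_lit 152) (nat_lit 375931572642) (nat_lit 76) (nat_lit 410279075462) (nat_lit 11) (nat_lit 5) (nat_lit 13) (nat_lit 5) (nat_lit 12) (nat_lit 4) (nat_lit 305) (nat_lit 286) (nat_lit 189))) (XT.nd (nat_lit 78) (nat_lit 76) (nat_lit 0) (XT.lf (nat_lit 0) (nat_lit 177660597878) (nat_lit 152) (nat_lit 8880058074) (nat_lit 76) (nat_lit 692308179914) (nat_lit 11) (nat_lit 5) (nat_lit 13) (nat_lit 5) (nat_lit 12) (nat_lit 4) (nat_lit 306) (nat_lit 286) (nat_lit 188)) (XT.nd (nat_lit 78) (nat_lit 0) (nat_lit 0) (XT.lf (nat_lit 0) (nat_lit 395292803551) (nat_lit 152) (nat_lit 523491942664) (nat_lit 0) (nat_lit 55422889701) (nat_lit 10) (nat_lit 5) (nat_lit 12) (nat_lit 4) (nat_lit 10) (nat_lit 4) (nat_lit 307)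 (nat_lit 286) (nat_lit 187)) (XT.lf (nat_lit 0) (nat_lit 654938948325) (nat_lit 152) (nat_lit 112456950398) (nat_lit 0) (nat_lit 315068991062) (nat_lit 10) (nat_lit 5) (nat_lit 12) (nat_lit 4) (nat_lit 10) (nat_lit 4) (nat_lit 308) (nat_lit 286) (nat_lit 186)))))) (XT.nd (nat_lit 390) (nat_lit 228) (nat_lit 0) (XT.nd (nat_lit 156) (nat_lit 152) (nat_lit 0) (XT.nd (nat_lit 78) (nat_lit 0) (nat_lit 0) (XT.lf (nat_lit 0) (nat_lit 395437779418) (nat_lit 76) (nat_lit 574468410550) (nat_lit 76) (nat_lit 234598415536) (nat_lit 9) (nat_lit 4) (nat_lit 10) (nat_lit 5) (nat_lit 10) (nat_lit 4) (nat_lit 309) (nat_lit 286) (nat_lit 185)) (XT.lf (nat_lit 0) (nat_lit 992155234833) (nat_lit 76) (nat_lit 345841657710) (nat_lit 76) (nat_lit 5971629870) (nat_lit 9) (nat_lit 4) (nat_lit 10) (nat_lit 5) (nat_lit 10) (nat_lit 4) (nat_lit 310) (nat_lit 286) (nat_lit 184))) (XT.nd (nat_lit 78) (nat_lit 0)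 (nat_lit 0) (XT.lf (nat_lit 0) (nat_lit 179355971046) (nat_lit 76) (nat_lit 62144506828) (nat_lit 152) (nat_lit 1260141586937) (nat_lit 7) (nat_lit 5) (nat_lit 8) (nat_lit 5) (nat_lit 9) (nat_lit 4) (nat_lit 311) (nat_lit 286) (nat_lit 183)) (XT.nd (nat_lit 78) (nat_lit 0) (nat_lit 0) (XT.lf (nat_lit 0) (nat_lit 555684051940) (nat_lit 152) (nat_lit 862564776565) (nat_lit 0) (nat_lit 260144850891) (nat_lit 7) (nat_lit 5) (nat_lit 9) (nat_lit 4) (nat_lit 7) (nat_lit 4) (nat_lit 312) (nat_lit 286) (nat_lit 182)) (XT.lf (nat_lit 0) (nat_lit 919954379936) (nat_lit 152) (nat_lit 336844613463) (nat_lit 0) (nat_lit 624415160118) (nat_lit 7) (nat_lit 5) (nat_lit 9) (nat_lit 4) (nat_lit 7) (nat_lit 4) (nat_lit 313) (nat_lit 286) (nat_lit 181))))) (XT.nd (nat_lit 156) (nat_lit 152) (nat_lit 0) (XT.nd (nat_lit 78) (nat_lit 0) (nat_lit 0) (XT.lf (nat_lit 0) (nat_lit 293898360738) (nat_lit 76) (nat_lit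 1057136562154) (nat_lit 76) (nat_lit 761597326016) (nat_lit 6) (nat_lit 4) (nat_lit 7) (nat_lit 5) (nat_lit 7) (nat_lit 4) (nat_lit 314) (nat_lit 286) (nat_lit 180)) (XT.lf (nat_lit 0) (nat_lit 1057109448042) (nat_lit 76) (nat_lit 807275849209) (nat_lit 76) (nat_lit 511736598879) (nat_lit 6) (nat_lit 4) (nat_lit 7) (nat_lit 5) (nat_lit 7) (nat_lit 4) (nat_lit 315) (nat_lit 286) (nat_lit 179))) (XT.nd (nat_lit 78) (nat_lit 152) (nat_lit 0) (XT.lf (nat_lit 0) (nat_lit 1934802133882) (nat_lit 76) (nat_lit 519936062010) (nat_lit 76) (nat_lit 224396799339) (nat_lit 6) (nat_lit 4) (nat_lit 7) (nat_lit 5) (nat_lit 7) (nat_lit 4) (nat_lit 316) (nat_lit 286) (nat_lit 178)) (XT.nd (nat_lit 78) (nat_lit 76) (nat_lit 0) (XT.lf (nat_lit 0) (nat_lit 96603173557) (nat_lit 152) (nat_lit 87842450252) (nat_lit 76) (nat_lit 2842495781555) (nat_lit 5) (nat_lit 5) (nat_lit 7) (nat_lit 5) (nat_lit 6) (nat_lit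 4) (nat_lit 317) (nat_lit 286) (nat_lit 177)) (XT.lf (nat_lit 0) (nat_lit 482885082333) (nat_lit 152) (nat_lit 2710520574022) (nat_lit 0) (nat_lit 225894401695) (nat_lit 4) (nat_lit 5) (nat_lit 6) (nat_lit 4) (nat_lit 4) (nat_lit 4) (nat_lit 318) (nat_lit 286) (nat_lit 176))))))))
noncomputable def xc95 : XT := (XT.nd (nat_lit 1560) (nat_lit 0) (nat_lit 0) (XT.nd (nat_lit 780) (nat_lit 152) (nat_lit 0) (XT.nd (nat_lit 390) (nat_lit 0) (nat_lit 0) (XT.nd (nat_lit 156) (nat_lit 76) (nat_lit 0) (XT.nd (nat_lit 78) (nat_lit 0) (nat_lit 0) (XT.lf (nat_lit 0) (nat_lit 940702797239) (nat_lit 152) (nat_lit 2244058573890) (nat_lit 0) (nat_lit 683712109545) (nat_lit 4) (nat_lit 5) (nat_lit 6) (nat_lit 4) (nat_lit 4) (nat_lit 4) (nat_lit 319) (nat_lit 286) (nat_lit 175)) (XT.lf (nat_lit 0) (nat_lit 1467193147620) (nat_lit 152) (nat_lit 1707627318552) (nat_lit 0) (nat_lit 1210202453791) (nat_lit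 4) (nat_lit 5) (nat_lit 6) (nat_lit 4) (nat_lit 4) (nat_lit 4) (nat_lit 320) (nat_lit 286) (nat_lit 174))) (XT.nd (nat_lit 78) (nat_lit 76) (nat_lit 0) (XT.lf (nat_lit 0) (nat_lit 2072657031636) (nat_lit 152) (nat_lit 1090731413882) (nat_lit 0) (nat_lit 1815666332471) (nat_lit 4) (nat_lit 5) (nat_lit 6) (nat_lit 4) (nat_lit 4) (nat_lit 4) (nat_lit 321) (nat_lit 286) (nat_lit 173)) (XT.nd (nat_lit 78) (nat_lit 76) (nat_lit 0) (XT.lf (nat_lit 0) (nat_lit 2768940481800) (nat_lit 152) (nat_lit 381301157395) (nat_lit 0) (nat_lit 2511949777996) (nat_lit 4) (nat_lit 5) (nat_lit 6) (nat_lit 4) (nat_lit 4) (nat_lit 4) (nat_lit 322) (nat_lit 286) (nat_lit 172)) (XT.lf (nat_lit 0) (nat_lit 477010369798) (nat_lit 76) (nat_lit 3112408047569) (nat_lit 76) (nat_lit 2855417339731) (nat_lit 3) (nat_lit 4) (nat_lit 4) (nat_lit 5) (nat_lit 4) (nat_lit 4) (nat_lit 323) (nat_lit 286) (nat_lit 171))))) (XT.nd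 (nat_lit 156) (nat_lit 0) (nat_lit 0) (XT.nd (nat_lit 78) (nat_lit 0) (nat_lit 0) (XT.lf (nat_lit 0) (nat_lit 1506921648475) (nat_lit 76) (nat_lit 3045978032597) (nat_lit 76) (nat_lit 2788987321251) (nat_lit 3) (nat_lit 4) (nat_lit 4) (nat_lit 5) (nat_lit 4) (nat_lit 4) (nat_lit 324) (nat_lit 286) (nat_lit 170)) (XT.lf (nat_lit 0) (nat_lit 2691319594497) (nat_lit 76) (nat_lit 2969583528005) (nat_lit 76) (nat_lit 2712592813609) (nat_lit 3) (nat_lit 4) (nat_lit 4) (nat_lit 5) (nat_lit 4) (nat_lit 4) (nat_lit 325) (nat_lit 286) (nat_lit 169))) (XT.nd (nat_lit 78) (nat_lit 0) (nat_lit 0) (XT.lf (nat_lit 0) (nat_lit 4053377211154) (nat_lit 76) (nat_lit 2881729858704) (nat_lit 76) (nat_lit 2624739141655) (nat_lit 3) (nat_lit 4) (nat_lit 4) (nat_lit 5) (nat_lit 4) (nat_lit 4) (nat_lit 326) (nat_lit 286) (nat_lit 168)) (XT.nd (nat_lit 78) (nat_lit 0) (nat_lit 0) (XT.lf (nat_lit 0) (nat_lit 5619743451817)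 (nat_lit 76) (nat_lit 2780698148554) (nat_lit 76) (nat_lit 2523707429199) (nat_lit 3) (nat_lit 4) (nat_lit 4) (nat_lit 5) (nat_lit 4) (nat_lit 4) (nat_lit 327) (nat_lit 286) (nat_lit 167)) (XT.lf (nat_lit 0) (nat_lit 7421064612498) (nat_lit 76) (nat_lit 2664511690184) (nat_lit 76) (nat_lit 2407520968823) (nat_lit 3) (nat_lit 4) (nat_lit 4) (nat_lit 5) (nat_lit 4) (nat_lit 4) (nat_lit 328) (nat_lit 286) (nat_lit 166)))))) (XT.nd (nat_lit 390) (nat_lit 152) (nat_lit 0) (XT.nd (nat_lit 156) (nat_lit 0) (nat_lit 0) (XT.nd (nat_lit 78) (nat_lit 0) (nat_lit 0) (XT.lf (nat_lit 0) (nat_lit 9492583933297) (nat_lit 76) (nat_lit 2530897270276) (nat_lit 76) (nat_lit 2273906547171) (nat_lit 3) (nat_lit 4) (nat_lit 4) (nat_lit 5) (nat_lit 4) (nat_lit 4) (nat_lit 329) (nat_lit 286) (nat_lit 165)) (XT.lf (nat_lit 0) (nat_lit 11874831140057) (nat_lit 76) (nat_lit 2377240693660) (nat_lit 76) (nat_lit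 2120249969039) (nat_lit 3) (nat_lit 4) (nat_lit 4) (nat_lit 5) (nat_lit 4) (nat_lit 4) (nat_lit 330) (nat_lit 286) (nat_lit 164))) (XT.nd (nat_lit 78) (nat_lit 0) (nat_lit 0) (XT.lf (nat_lit 0) (nat_lit 14614415417257) (nat_lit 76) (nat_lit 2200535636011) (nat_lit 76) (nat_lit 1943544910070) (nat_lit 3) (nat_lit 4) (nat_lit 4) (nat_lit 5) (nat_lit 4) (nat_lit 4) (nat_lit 331) (nat_lit 286) (nat_lit 163)) (XT.nd (nat_lit 78) (nat_lit 0) (nat_lit 0) (XT.lf (nat_lit 0) (nat_lit 17764937326843) (nat_lit 76) (nat_lit 1997324824460) (nat_lit 76) (nat_lit 1740334097373) (nat_lit 3) (nat_lit 4) (nat_lit 4) (nat_lit 5) (nat_lit 4) (nat_lit 4) (nat_lit 332) (nat_lit 286) (nat_lit 162)) (XT.lf (nat_lit 0) (nat_lit 21388037514871) (nat_lit 76) (nat_lit 1763632395304) (nat_lit 76) (nat_lit 1506641667220) (nat_lit 3) (nat_lit 4) (nat_lit 4) (nat_lit 5) (nat_lit 4) (nat_lit 4) (nat_lit 333) (nat_lit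 286) (nat_lit 161))))) (XT.nd (nat_lit 156) (nat_lit 152) (nat_lit 0) (XT.nd (nat_lit 78) (nat_lit 0) (nat_lit 0) (XT.lf (nat_lit 0) (nat_lit 25554602724151) (nat_lit 76) (nat_lit 1494886105364) (nat_lit 76) (nat_lit 1237895376412) (nat_lit 3) (nat_lit 4) (nat_lit 4) (nat_lit 5) (nat_lit 4) (nat_lit 4) (nat_lit 334) (nat_lit 286) (nat_lit 160)) (XT.lf (nat_lit 0) (nat_lit 30346152708778) (nat_lit 76) (nat_lit 1185827875053) (nat_lit 76) (nat_lit 928837145348) (nat_lit 3) (nat_lit 4) (nat_lit 4) (nat_lit 5) (nat_lit 4) (nat_lit 4) (nat_lit 335) (nat_lit 286) (nat_lit 159))) (XT.nd (nat_lit 78) (nat_lit 152) (nat_lit 0) (XT.lf (nat_lit 0) (nat_lit 35856435185841) (nat_lit 76) (nat_lit 830410912910) (nat_lit 76) (nat_lit 573420182549) (nat_lit 3) (nat_lit 4) (nat_lit 4) (nat_lit 5) (nat_lit 4) (nat_lit 4) (nat_lit 336) (nat_lit 286) (nat_lit 158)) (XT.nd (nat_lit 78) (nat_lit 152) (nat_lit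 0) (XT.lf (nat_lit 0) (nat_lit 42193260029893) (nat_lit 76) (nat_lit 421681408805) (nat_lit 76) (nat_lit 164690677874) (nat_lit 3) (nat_lit 4) (nat_lit 4) (nat_lit 5) (nat_lit 4) (nat_lit 4) (nat_lit 337) (nat_lit 286) (nat_lit 157)) (XT.lf (nat_lit 0) (nat_lit 297009551128) (nat_lit 152) (nat_lit 48751630526386) (nat_lit 0) (nat_lit 73539349888) (nat_lit 1) (nat_lit 5) (nat_lit 3) (nat_lit 4) (nat_lit 1) (nat_lit 4) (nat_lit 338) (nat_lit 286) (nat_lit 156))))))) (XT.nd (nat_lit 36816) (nat_lit 0) (nat_lit 1140) (XT.nd (nat_lit 390) (nat_lit 0) (nat_lit 0) (XT.nd (nat_lit 156) (nat_lit 0) (nat_lit 0) (XT.nd (nat_lit 78) (nat_lit 0) (nat_lit 0) (XT.lf (nat_lit 0) (nat_lit 863294543482) (nat_lit 152) (nat_lit 54903984949905) (nat_lit 0) (nat_lit 639824341867) (nat_lit 1) (nat_lit 5) (nat_lit 3) (nat_lit 4) (nat_lit 1) (nat_lit 4) (nat_lit 339) (nat_lit 286) (nat_lit 155)) (XT.lf (nat_lit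 0) (nat_lit 1514522282948) (nat_lit 152) (nat_lit 61979192540591) (nat_lit 0) (nat_lit 1291052081006) (nat_lit 1) (nat_lit 5) (nat_lit 3) (nat_lit 4) (nat_lit 1) (nat_lit 4) (nat_lit 340) (nat_lit 286) (nat_lit 154))) (XT.nd (nat_lit 78) (nat_lit 0) (nat_lit 0) (XT.lf (nat_lit 0) (nat_lit 2263434181819) (nat_lit 152) (nat_lit 70115681273045) (nat_lit 0) (nat_lit 2039963979594) (nat_lit 1) (nat_lit 5) (nat_lit 3) (nat_lit 4) (nat_lit 1) (nat_lit 4) (nat_lit 341) (nat_lit 286) (nat_lit 153)) (XT.nd (nat_lit 78) (nat_lit 0) (nat_lit 0) (XT.lf (nat_lit 0) (nat_lit 3124682864204) (nat_lit 152) (nat_lit 79472643318118) (nat_lit 0) (nat_lit 2901212661733) (nat_lit 1) (nat_lit 5) (nat_lit 3) (nat_lit 4) (nat_lit 1) (nat_lit 4) (nat_lit 342) (nat_lit 286) (nat_lit 152)) (XT.lf (nat_lit 0) (nat_lit 4115118847802) (nat_lit 152) (nat_lit 90233149672346) (nat_lit 0) (nat_lit 3891648645116) (nat_lit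 1) (nat_lit 5) (nat_lit 3) (nat_lit 4) (nat_lit 1) (nat_lit 4) (nat_lit 343) (nat_lit 286) (nat_lit 151))))) (XT.nd (nat_lit 36192) (nat_lit 0) (nat_lit 1824) (XT.nd (nat_lit 78) (nat_lit 0) (nat_lit 0) (XT.lf (nat_lit 0) (nat_lit 5254120227944) (nat_lit 152) (nat_lit 102607731981788) (nat_lit 0) (nat_lit 5030650025071) (nat_lit 1) (nat_lit 5) (nat_lit 3) (nat_lit 4) (nat_lit 1) (nat_lit 4) (nat_lit 344) (nat_lit 286) (nat_lit 150)) (XT.lf (nat_lit 0) (nat_lit 6563971814241) (nat_lit 152) (nat_lit 116838501639456) (nat_lit 0) (nat_lit 6340501611206) (nat_lit 1) (nat_lit 5) (nat_lit 3) (nat_lit 4) (nat_lit 1) (nat_lit 4) (nat_lit 345) (nat_lit 286) (nat_lit 149))) (XT.nd (nat_lit 78) (nat_lit 0) (nat_lit 0) (XT.lf (nat_lit 0) (nat_lit 18118473856) (nat_lit 380) (nat_lit 35178812215) (nat_lit 380) (nat_lit 35178812215) (nat_lit 25) (nat_lit 3) (nat_lit 30) (nat_lit 3) (nat_lit 30) (nat_lit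 5) (nat_lit 287) (nat_lit 287) (nat_lit 206)) (XT.nd (nat_lit 78) (nat_lit 0) (nat_lit 76) (XT.lf (nat_lit 76) (nat_lit 15410187184) (nat_lit 0) (nat_lit 24184544613) (nat_lit 380) (nat_lit 150532872516) (nat_lit 26) (nat_lit 5) (nat_lit 25) (nat_lit 3) (nat_lit 30) (nat_lit 5) (nat_lit 288) (nat_lit 287) (nat_lit 205)) (XT.lf (nat_lit 0) (nat_lit 50231614178) (nat_lit 304) (nat_lit 85875510540) (nat_lit 380) (nat_lit 68155884795) (nat_lit 26) (nat_lit 5) (nat_lit 30) (nat_lit 5) (nat_lit 31) (nat_lit 5) (nat_lit 289) (nat_lit 287) (nat_lit 204)))))) (XT.nd (nat_lit 390) (nat_lit 380) (nat_lit 0) (XT.nd (nat_lit 156) (nat_lit 380) (nat_lit 0) (XT.nd (nat_lit 78) (nat_lit 0) (nat_lit 76) (XT.lf (nat_lit 76) (nat_lit 16620467822) (nat_lit 0) (nat_lit 47683125549) (nat_lit 380) (nat_lit 155939198234) (nat_lit 27) (nat_lit 5) (nat_lit 26) (nat_lit 5) (nat_lit 31) (nat_lit 5) (nat_lit 290)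 (nat_lit 287) (nat_lit 203)) (XT.lf (nat_lit 0) (nat_lit 87425018670) (nat_lit 304) (nat_lit 96254359278) (nat_lit 76) (nat_lit 53899366362) (nat_lit 27) (nat_lit 5) (nat_lit 31) (nat_lit 5) (nat_lit 28) (nat_lit 5) (nat_lit 291) (nat_lit 287) (nat_lit 202))) (XT.nd (nat_lit 78) (nat_lit 152) (nat_lit 0) (XT.lf (nat_lit 0) (nat_lit 27386034088) (nat_lit 304) (nat_lit 90033013460) (nat_lit 380) (nat_lit 139585384494) (nat_lit 23) (nat_lit 5) (nat_lit 27) (nat_lit 5) (nat_lit 28) (nat_lit 5) (nat_lit 292) (nat_lit 287) (nat_lit 201)) (XT.nd (nat_lit 78) (nat_lit 152) (nat_lit 0) (XT.lf (nat_lit 0) (nat_lit 157914316415) (nat_lit 380) (nat_lit 99170213101) (nat_lit 76) (nat_lit 21359123583) (nat_lit 23) (nat_lit 5) (nat_lit 28) (nat_lit 5) (nat_lit 24) (nat_lit 5) (nat_lit 293) (nat_lit 287) (nat_lit 200)) (XT.lf (nat_lit 0) (nat_lit 51107646682) (nat_lit 152) (nat_lit 159779589601) (nat_lit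 228) (nat_lit 91251017379) (nat_lit 21) (nat_lit 5) (nat_lit 23) (nat_lit 5) (nat_lit 24) (nat_lit 5) (nat_lit 294) (nat_lit 287) (nat_lit 199))))) (XT.nd (nat_lit 234) (nat_lit 228) (nat_lit 0) (XT.nd (nat_lit 78) (nat_lit 152) (nat_lit 0) (XT.lf (nat_lit 0) (nat_lit 235072352617) (nat_lit 152) (nat_lit 41917469919) (nat_lit 228) (nat_lit 51619662901) (nat_lit 21) (nat_lit 5) (nat_lit 23) (nat_lit 5) (nat_lit 24) (nat_lit 5) (nat_lit 295) (nat_lit 287) (nat_lit 198)) (XT.nd (nat_lit 78) (nat_lit 0) (nat_lit 0) (XT.lf (nat_lit 0) (nat_lit 2541534804) (nat_lit 152) (nat_lit 266131236796) (nat_lit 76) (nat_lit 89209104114) (nat_lit 19) (nat_lit 5) (nat_lit 21) (nat_lit 5) (nat_lit 20) (nat_lit 5) (nat_lit 296) (nat_lit 287) (nat_lit 197)) (XT.lf (nat_lit 0) (nat_lit 66660239319) (nat_lit 152) (nat_lit 80155024013) (nat_lit 76) (nat_lit 243293419968) (nat_lit 19) (nat_lit 5) (nat_lit 21)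 (nat_lit 5) (nat_lit 20) (nat_lit 5) (nat_lit 297) (nat_lit 287) (nat_lit 196)))) (XT.nd (nat_lit 78) (nat_lit 76) (nat_lit 0) (XT.lf (nat_lit 0) (nat_lit 146487550316) (nat_lit 228) (nat_lit 279485403986) (nat_lit 76) (nat_lit 282937825) (nat_lit 17) (nat_lit 5) (nat_lit 20) (nat_lit 5) (nat_lit 18) (nat_lit 4) (nat_lit 298) (nat_lit 287) (nat_lit 195)) (XT.nd (nat_lit 78) (nat_lit 76) (nat_lit 0) (XT.lf (nat_lit 0) (nat_lit 249669484108) (nat_lit 228) (nat_lit 57644448308) (nat_lit 76) (nat_lit 158804171132) (nat_lit 17) (nat_lit 5) (nat_lit 20) (nat_lit 5) (nat_lit 18) (nat_lit 4) (nat_lit 299) (nat_lit 287) (nat_lit 194)) (XT.lf (nat_lit 0) (nat_lit 216770932963) (nat_lit 76) (nat_lit 160533693889) (nat_lit 152) (nat_lit 133308632165) (nat_lit 16) (nat_lit 5) (nat_lit 17) (nat_lit 5) (nat_lit 18) (nat_lit 4) (nat_lit 300) (nat_lit 287) (nat_lit 193))))))))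
noncomputable def xc96 : XT := (XT.nd (nat_lit 1560) (nat_lit 228) (nat_lit 0) (XT.nd (nat_lit 780) (nat_lit 380) (nat_lit 0) (XT.nd (nat_lit 390) (nat_lit 228) (nat_lit 0) (XT.nd (nat_lit 156) (nat_lit 152) (nat_lit 0) (XT.nd (nat_lit 78) (nat_lit 152) (nat_lit 0) (XT.lf (nat_lit 0) (nat_lit 527583839242) (nat_lit 152) (nat_lit 22989465816) (nat_lit 0) (nat_lit 10684563161) (nat_lit 16) (nat_lit 5) (nat_lit 18) (nat_lit 4) (nat_lit 16) (nat_lit 4) (nat_lit 301) (nat_lit 287) (nat_lit 192)) (XT.lf (nat_lit 0) (nat_lit 95085020577) (nat_lit 152) (nat_lit 312466597318) (nat_lit 76) (nat_lit 208237723759) (nat_lit 14) (nat_lit 5) (nat_lit 16) (nat_lit 5) (nat_lit 15) (nat_lit 4) (nat_lit 302) (nat_lit 287) (nat_lit 191))) (XT.nd (nat_lit 78) (nat_lit 76) (nat_lit 0) (XT.lf (nat_lit 0) (nat_lit 1300050918) (nat_lit 76) (nat_lit 239722992289) (nat_lit 152) (nat_lit 437040059996) (nat_lit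 13) (nat_lit 5) (nat_lit 14) (nat_lit 5) (nat_lit 15) (nat_lit 4) (nat_lit 303) (nat_lit 287) (nat_lit 190)) (XT.nd (nat_lit 78) (nat_lit 76) (nat_lit 0) (XT.lf (nat_lit 0) (nat_lit 397248538564) (nat_lit 76) (nat_lit 27936632533) (nat_lit 152) (nat_lit 322042747689) (nat_lit 13) (nat_lit 5) (nat_lit 14) (nat_lit 5) (nat_lit 15) (nat_lit 4) (nat_lit 304) (nat_lit 287) (nat_lit 189)) (XT.lf (nat_lit 0) (nat_lit 18544392289) (nat_lit 76) (nat_lit 628123306716) (nat_lit 76) (nat_lit 178645345650) (nat_lit 12) (nat_lit 4) (nat_lit 13) (nat_lit 5) (nat_lit 13) (nat_lit 4) (nat_lit 305) (nat_lit 287) (nat_lit 188))))) (XT.nd (nat_lit 156) (nat_lit 152) (nat_lit 0) (XT.nd (nat_lit 78) (nat_lit 0) (nat_lit 0) (XT.lf (nat_lit 0) (nat_lit 7980530994) (nat_lit 152) (nat_lit 432319876841) (nat_lit 76) (nat_lit 471821495456) (nat_lit 11) (nat_lit 5) (nat_lit 13) (nat_lit 5) (nat_lit 12) (nat_lit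 4) (nat_lit 306) (nat_lit 287) (nat_lit 187)) (XT.lf (nat_lit 0) (nat_lit 204310347243) (nat_lit 152) (nat_lit 10210821831) (nat_lit 76) (nat_lit 796154892705) (nat_lit 11) (nat_lit 5) (nat_lit 13) (nat_lit 5) (nat_lit 12) (nat_lit 4) (nat_lit 307) (nat_lit 287) (nat_lit 186))) (XT.nd (nat_lit 78) (nat_lit 76) (nat_lit 0) (XT.lf (nat_lit 0) (nat_lit 454587370346) (nat_lit 152) (nat_lit 602014475242) (nat_lit 0) (nat_lit 63736838330) (nat_lit 10) (nat_lit 5) (nat_lit 12) (nat_lit 4) (nat_lit 10) (nat_lit 4) (nat_lit 308) (nat_lit 287) (nat_lit 185)) (XT.nd (nat_lit 78) (nat_lit 76) (nat_lit 0) (XT.lf (nat_lit 0) (nat_lit 753180352541) (nat_lit 152) (nat_lit 129324398330) (nat_lit 0) (nat_lit 362329787699) (nat_lit 10) (nat_lit 5) (nat_lit 12) (nat_lit 4) (nat_lit 10) (nat_lit 4) (nat_lit 309) (nat_lit 287) (nat_lit 184)) (XT.lf (nat_lit 0) (nat_lit 454754491203) (nat_lit 76) (nat_lit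 660638159193) (nat_lit 76) (nat_lit 269787565806) (nat_lit 9) (nat_lit 4) (nat_lit 10) (nat_lit 5) (nat_lit 10) (nat_lit 4) (nat_lit 310) (nat_lit 287) (nat_lit 183)))))) (XT.nd (nat_lit 390) (nat_lit 152) (nat_lit 0) (XT.nd (nat_lit 156) (nat_lit 76) (nat_lit 0) (XT.nd (nat_lit 78) (nat_lit 152) (nat_lit 0) (XT.lf (nat_lit 0) (nat_lit 1140979428642) (nat_lit 76) (nat_lit 397717460333) (nat_lit 76) (nat_lit 6866842124) (nat_lit 9) (nat_lit 4) (nat_lit 10) (nat_lit 5) (nat_lit 10) (nat_lit 4) (nat_lit 311) (nat_lit 287) (nat_lit 182)) (XT.lf (nat_lit 0) (nat_lit 206260279461) (nat_lit 76) (nat_lit 71465729493) (nat_lit 152) (nat_lit 1449162296445) (nat_lit 7) (nat_lit 5) (nat_lit 8) (nat_lit 5) (nat_lit 9) (nat_lit 4) (nat_lit 312) (nat_lit 287) (nat_lit 181))) (XT.nd (nat_lit 78) (nat_lit 76) (nat_lit 0) (XT.lf (nat_lit 0) (nat_lit 639037075532) (nat_lit 152) (nat_lit 991948655556) (nat_lit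 0) (nat_lit 299166937653) (nat_lit 7) (nat_lit 5) (nat_lit 9) (nat_lit 4) (nat_lit 7) (nat_lit 4) (nat_lit 313) (nat_lit 287) (nat_lit 180)) (XT.nd (nat_lit 78) (nat_lit 76) (nat_lit 0) (XT.lf (nat_lit 0) (nat_lit 1057947898493) (nat_lit 152) (nat_lit 387370577226) (nat_lit 0) (nat_lit 718077746421) (nat_lit 7) (nat_lit 5) (nat_lit 9) (nat_lit 4) (nat_lit 7) (nat_lit 4) (nat_lit 314) (nat_lit 287) (nat_lit 179)) (XT.lf (nat_lit 0) (nat_lit 337983810002) (nat_lit 76) (nat_lit 1215706694515) (nat_lit 76) (nat_lit 875836530103) (nat_lit 6) (nat_lit 4) (nat_lit 7) (nat_lit 5) (nat_lit 7) (nat_lit 4) (nat_lit 315) (nat_lit 287) (nat_lit 178))))) (XT.nd (nat_lit 156) (nat_lit 152) (nat_lit 0) (XT.nd (nat_lit 78) (nat_lit 0) (nat_lit 0) (XT.lf (nat_lit 0) (nat_lit 1215676469730) (nat_lit 76) (nat_lit 928366920536) (nat_lit 76) (nat_lit 588496745393) (nat_lit 6) (nat_lit 4) (nat_lit 7) (nat_lit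 5) (nat_lit 7) (nat_lit 4) (nat_lit 316) (nat_lit 287) (nat_lit 177)) (XT.lf (nat_lit 0) (nat_lit 2225022979600) (nat_lit 76) (nat_lit 597926205178) (nat_lit 76) (nat_lit 258056020703) (nat_lit 6) (nat_lit 4) (nat_lit 7) (nat_lit 5) (nat_lit 7) (nat_lit 4) (nat_lit 317) (nat_lit 287) (nat_lit 176))) (XT.nd (nat_lit 78) (nat_lit 76) (nat_lit 0) (XT.lf (nat_lit 0) (nat_lit 111093886077) (nat_lit 152) (nat_lit 101018337521) (nat_lit 76) (nat_lit 3268870357015) (nat_lit 5) (nat_lit 5) (nat_lit 7) (nat_lit 5) (nat_lit 6) (nat_lit 4) (nat_lit 318) (nat_lit 287) (nat_lit 175)) (XT.nd (nat_lit 78) (nat_lit 0) (nat_lit 0) (XT.lf (nat_lit 0) (nat_lit 555318078988) (nat_lit 152) (nat_lit 3117098177602) (nat_lit 0) (nat_lit 259778774949) (nat_lit 4) (nat_lit 5) (nat_lit 6) (nat_lit 4) (nat_lit 4) (nat_lit 4) (nat_lit 319) (nat_lit 287) (nat_lit 174)) (XT.lf (nat_lit 0) (nat_lit 1081808420568) (nat_lit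 152) (nat_lit 2580666940389) (nat_lit 0) (nat_lit 786269111194) (nat_lit 4) (nat_lit 5) (nat_lit 6) (nat_lit 4) (nat_lit 4) (nat_lit 4) (nat_lit 320) (nat_lit 287) (nat_lit 173))))))) (XT.nd (nat_lit 780) (nat_lit 152) (nat_lit 0) (XT.nd (nat_lit 390) (nat_lit 0) (nat_lit 0) (XT.nd (nat_lit 156) (nat_lit 76) (nat_lit 0) (XT.nd (nat_lit 78) (nat_lit 0) (nat_lit 0) (XT.lf (nat_lit 0) (nat_lit 1687272296931) (nat_lit 152) (nat_lit 1963771051478) (nat_lit 0) (nat_lit 1391732982918) (nat_lit 4) (nat_lit 5) (nat_lit 6) (nat_lit 4) (nat_lit 4) (nat_lit 4) (nat_lit 321) (nat_lit 287) (nat_lit 172)) (XT.lf (nat_lit 0) (nat_lit 2383555740440) (nat_lit 152) (nat_lit 1254340808697) (nat_lit 0) (nat_lit 2088016422393) (nat_lit 4) (nat_lit 5) (nat_lit 6) (nat_lit 4) (nat_lit 4) (nat_lit 4) (nat_lit 322) (nat_lit 287) (nat_lit 171))) (XT.nd (nat_lit 78) (nat_lit 76) (nat_lit 0) (XT.lf (nat_lit 0) (nat_lit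 3184281688035) (nat_lit 152) (nat_lit 438496055121) (nat_lit 0) (nat_lit 2888742366479) (nat_lit 4) (nat_lit 5) (nat_lit 6) (nat_lit 4) (nat_lit 4) (nat_lit 4) (nat_lit 323) (nat_lit 287) (nat_lit 170)) (XT.nd (nat_lit 78) (nat_lit 0) (nat_lit 0) (XT.lf (nat_lit 0) (nat_lit 548562188611) (nat_lit 76) (nat_lit 3579269118756) (nat_lit 76) (nat_lit 3283729794150) (nat_lit 3) (nat_lit 4) (nat_lit 4) (nat_lit 5) (nat_lit 4) (nat_lit 4) (nat_lit 324) (nat_lit 287) (nat_lit 169)) (XT.lf (nat_lit 0) (nat_lit 1732960124741) (nat_lit 76) (nat_lit 3502874619271) (nat_lit 76) (nat_lit 3207335292012) (nat_lit 3) (nat_lit 4) (nat_lit 4) (nat_lit 5) (nat_lit 4) (nat_lit 4) (nat_lit 325) (nat_lit 287) (nat_lit 168))))) (XT.nd (nat_lit 156) (nat_lit 0) (nat_lit 0) (XT.nd (nat_lit 78) (nat_lit 0) (nat_lit 0) (XT.lf (nat_lit 0) (nat_lit 3095017732797) (nat_lit 76) (nat_lit 3415020954410) (nat_lit 76) (nat_lit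 3119481624845) (nat_lit 3) (nat_lit 4) (nat_lit 4) (nat_lit 5) (nat_lit 4) (nat_lit 4) (nat_lit 326) (nat_lit 287) (nat_lit 167)) (XT.lf (nat_lit 0) (nat_lit 4661383965980) (nat_lit 76) (nat_lit 3313989248121) (nat_lit 76) (nat_lit 3018449916550) (nat_lit 3) (nat_lit 4) (nat_lit 4) (nat_lit 5) (nat_lit 4) (nat_lit 4) (nat_lit 327) (nat_lit 287) (nat_lit 166))) (XT.nd (nat_lit 78) (nat_lit 0) (nat_lit 0) (XT.lf (nat_lit 0) (nat_lit 6462705120157) (nat_lit 76) (nat_lit 3197802793108) (nat_lit 76) (nat_lit 2902263459794) (nat_lit 3) (nat_lit 4) (nat_lit 4) (nat_lit 5) (nat_lit 4) (nat_lit 4) (nat_lit 328) (nat_lit 287) (nat_lit 165)) (XT.nd (nat_lit 78) (nat_lit 0) (nat_lit 0) (XT.lf (nat_lit 0) (nat_lit 8534224435301) (nat_lit 76) (nat_lit 3064188376121) (nat_lit 76) (nat_lit 2768649041289) (nat_lit 3) (nat_lit 4) (nat_lit 4) (nat_lit 5) (nat_lit 4) (nat_lit 4) (nat_lit 329) (nat_lit 287)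 (nat_lit 164)) (XT.lf (nat_lit 0) (nat_lit 10916471637143) (nat_lit 76) (nat_lit 2910531802044) (nat_lit 76) (nat_lit 2614992465893) (nat_lit 3) (nat_lit 4) (nat_lit 4) (nat_lit 5) (nat_lit 4) (nat_lit 4) (nat_lit 330) (nat_lit 287) (nat_lit 163)))))) (XT.nd (nat_lit 390) (nat_lit 152) (nat_lit 0) (XT.nd (nat_lit 156) (nat_lit 0) (nat_lit 0) (XT.nd (nat_lit 78) (nat_lit 0) (nat_lit 0) (XT.lf (nat_lit 0) (nat_lit 13656055910066) (nat_lit 76) (nat_lit 2733826746602) (nat_lit 76) (nat_lit 2438287409305) (nat_lit 3) (nat_lit 4) (nat_lit 4) (nat_lit 5) (nat_lit 4) (nat_lit 4) (nat_lit 331) (nat_lit 287) (nat_lit 162)) (XT.lf (nat_lit 0) (nat_lit 16806577815933) (nat_lit 76) (nat_lit 2530615936970) (nat_lit 76) (nat_lit 2235076598676) (nat_lit 3) (nat_lit 4) (nat_lit 4) (nat_lit 5) (nat_lit 4) (nat_lit 4) (nat_lit 332) (nat_lit 287) (nat_lit 161))) (XT.nd (nat_lit 78) (nat_lit 0) (nat_lit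 0) (XT.lf (nat_lit 0) (nat_lit 20429678000728) (nat_lit 76) (nat_lit 2296923509484) (nat_lit 76) (nat_lit 2001384170323) (nat_lit 3) (nat_lit 4) (nat_lit 4) (nat_lit 5) (nat_lit 4) (nat_lit 4) (nat_lit 333) (nat_lit 287) (nat_lit 160)) (XT.nd (nat_lit 78) (nat_lit 0) (nat_lit 0) (XT.lf (nat_lit 0) (nat_lit 24596243207196) (nat_lit 76) (nat_lit 2028177220995) (nat_lit 76) (nat_lit 1732637881080) (nat_lit 3) (nat_lit 4) (nat_lit 4) (nat_lit 5) (nat_lit 4) (nat_lit 4) (nat_lit 334) (nat_lit 287) (nat_lit 159)) (XT.lf (nat_lit 0) (nat_lit 29387793189378) (nat_lit 76) (nat_lit 1719118991947) (nat_lit 76) (nat_lit 1423579651376) (nat_lit 3) (nat_lit 4) (nat_lit 4) (nat_lit 5) (nat_lit 4) (nat_lit 4) (nat_lit 335) (nat_lit 287) (nat_lit 158))))) (XT.nd (nat_lit 156) (nat_lit 152) (nat_lit 0) (XT.nd (nat_lit 78) (nat_lit 0) (nat_lit 0) (XT.lf (nat_lit 0) (nat_lit 34898075664315) (nat_lit 76)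 (nat_lit 1363702030901) (nat_lit 76) (nat_lit 1068162689760) (nat_lit 3) (nat_lit 4) (nat_lit 4) (nat_lit 5) (nat_lit 4) (nat_lit 4) (nat_lit 336) (nat_lit 287) (nat_lit 157)) (XT.lf (nat_lit 0) (nat_lit 41234900506518) (nat_lit 76) (nat_lit 954972527751) (nat_lit 76) (nat_lit 659433186114) (nat_lit 3) (nat_lit 4) (nat_lit 4) (nat_lit 5) (nat_lit 4) (nat_lit 4) (nat_lit 337) (nat_lit 287) (nat_lit 156))) (XT.nd (nat_lit 78) (nat_lit 152) (nat_lit 0) (XT.lf (nat_lit 0) (nat_lit 48522249071596) (nat_lit 76) (nat_lit 484933600913) (nat_lit 76) (nat_lit 189394258845) (nat_lit 3) (nat_lit 4) (nat_lit 4) (nat_lit 5) (nat_lit 4) (nat_lit 4) (nat_lit 338) (nat_lit 287) (nat_lit 155)) (XT.nd (nat_lit 78) (nat_lit 0) (nat_lit 0) (XT.lf (nat_lit 0) (nat_lit 341561002549) (nat_lit 152) (nat_lit 56064375066158) (nat_lit 0) (nat_lit 84570269990) (nat_lit 1) (nat_lit 5) (nat_lit 3) (nat_lit 4) (nat_lit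 1) (nat_lit 4) (nat_lit 339) (nat_lit 287) (nat_lit 154)) (XT.lf (nat_lit 0) (nat_lit 992788741310) (nat_lit 152) (nat_lit 63139582658316) (nat_lit 0) (nat_lit 735798008467) (nat_lit 1) (nat_lit 5) (nat_lit 3) (nat_lit 4) (nat_lit 1) (nat_lit 4) (nat_lit 340) (nat_lit 287) (nat_lit 153))))))))
noncomputable def xc97 : XT := (XT.nd (nat_lit 37674) (nat_lit 0) (nat_lit 228) (XT.nd (nat_lit 36894) (nat_lit 0) (nat_lit 1140) (XT.nd (nat_lit 36504) (nat_lit 0) (nat_lit 1824) (XT.nd (nat_lit 156) (nat_lit 0) (nat_lit 0) (XT.nd (nat_lit 78) (nat_lit 0) (nat_lit 0) (XT.lf (nat_lit 0) (nat_lit 1741700639569) (nat_lit 152) (nat_lit 71276071392049) (nat_lit 0) (nat_lit 1484709906480) (nat_lit 1) (nat_lit 5) (nat_lit 3) (nat_lit 4) (nat_lit 1) (nat_lit 4) (nat_lit 341) (nat_lit 287) (nat_lit 152)) (XT.lf (nat_lit 0) (nat_lit 2602949321421) (nat_lit 152) (nat_lit 80633033438236) (nat_lit 0) (nat_lit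 2345958588118) (nat_lit 1) (nat_lit 5) (nat_lit 3) (nat_lit 4) (nat_lit 1) (nat_lit 4) (nat_lit 342) (nat_lit 287) (nat_lit 151))) (XT.nd (nat_lit 78) (nat_lit 0) (nat_lit 0) (XT.lf (nat_lit 0) (nat_lit 3593385304556) (nat_lit 152) (nat_lit 91393539793431) (nat_lit 0) (nat_lit 3336394571066) (nat_lit 1) (nat_lit 5) (nat_lit 3) (nat_lit 4) (nat_lit 1) (nat_lit 4) (nat_lit 343) (nat_lit 287) (nat_lit 150)) (XT.nd (nat_lit 78) (nat_lit 0) (nat_lit 0) (XT.lf (nat_lit 0) (nat_lit 4732386684295) (nat_lit 152) (nat_lit 103768122103715) (nat_lit 0) (nat_lit 4475395950643) (nat_lit 1) (nat_lit 5) (nat_lit 3) (nat_lit 4) (nat_lit 1) (nat_lit 4) (nat_lit 344) (nat_lit 287) (nat_lit 149)) (XT.lf (nat_lit 0) (nat_lit 6042238270242) (nat_lit 152) (nat_lit 117998891762115) (nat_lit 0) (nat_lit 5785247536449) (nat_lit 1) (nat_lit 5) (nat_lit 3) (nat_lit 4) (nat_lit 1) (nat_lit 4) (nat_lit 345) (nat_lit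 287) (nat_lit 148))))) (XT.nd (nat_lit 156) (nat_lit 0) (nat_lit 76) (XT.nd (nat_lit 78) (nat_lit 0) (nat_lit 0) (XT.lf (nat_lit 0) (nat_lit 20838075863) (nat_lit 380) (nat_lit 40454578842) (nat_lit 380) (nat_lit 40454578842) (nat_lit 25) (nat_lit 3) (nat_lit 30) (nat_lit 3) (nat_lit 30) (nat_lit 5) (nat_lit 288) (nat_lit 288) (nat_lit 204)) (XT.lf (nat_lit 76) (nat_lit 17723729744) (nat_lit 0) (nat_lit 27813479463) (nat_lit 380) (nat_lit 173109037188) (nat_lit 26) (nat_lit 5) (nat_lit 25) (nat_lit 3) (nat_lit 30) (nat_lit 5) (nat_lit 289) (nat_lit 288) (nat_lit 203))) (XT.nd (nat_lit 78) (nat_lit 0) (nat_lit 0) (XT.lf (nat_lit 0) (nat_lit 57769152609) (nat_lit 304) (nat_lit 98754606739) (nat_lit 380) (nat_lit 78378274825) (nat_lit 26) (nat_lit 5) (nat_lit 30) (nat_lit 5) (nat_lit 31) (nat_lit 5) (nat_lit 290) (nat_lit 288) (nat_lit 202)) (XT.nd (nat_lit 78) (nat_lit 0) (nat_lit 76)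 (XT.lf (nat_lit 76) (nat_lit 19115666996) (nat_lit 0) (nat_lit 54835985107) (nat_lit 380) (nat_lit 179327173918) (nat_lit 27) (nat_lit 5) (nat_lit 26) (nat_lit 5) (nat_lit 31) (nat_lit 5) (nat_lit 291) (nat_lit 288) (nat_lit 201)) (XT.lf (nat_lit 0) (nat_lit 100540948467) (nat_lit 304) (nat_lit 110690313600) (nat_lit 76) (nat_lit 61983961803) (nat_lit 27) (nat_lit 5) (nat_lit 31) (nat_lit 5) (nat_lit 28) (nat_lit 5) (nat_lit 292) (nat_lit 288) (nat_lit 200)))))) (XT.nd (nat_lit 390) (nat_lit 228) (nat_lit 0) (XT.nd (nat_lit 156) (nat_lit 304) (nat_lit 0) (XT.nd (nat_lit 78) (nat_lit 0) (nat_lit 0) (XT.lf (nat_lit 0) (nat_lit 31496038791) (nat_lit 304) (nat_lit 103537845870) (nat_lit 380) (nat_lit 160520910376) (nat_lit 23) (nat_lit 5) (nat_lit 27) (nat_lit 5) (nat_lit 28) (nat_lit 5) (nat_lit 293) (nat_lit 288) (nat_lit 199)) (XT.lf (nat_lit 0) (nat_lit 181603189906) (nat_lit 380) (nat_lit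 114043661199) (nat_lit 76) (nat_lit 24563086869) (nat_lit 23) (nat_lit 5) (nat_lit 28) (nat_lit 5) (nat_lit 24) (nat_lit 5) (nat_lit 294) (nat_lit 288) (nat_lit 198))) (XT.nd (nat_lit 78) (nat_lit 152) (nat_lit 0) (XT.lf (nat_lit 0) (nat_lit 58775782830) (nat_lit 152) (nat_lit 183746122155) (nat_lit 228) (nat_lit 104936845596) (nat_lit 21) (nat_lit 5) (nat_lit 23) (nat_lit 5) (nat_lit 24) (nat_lit 5) (nat_lit 295) (nat_lit 288) (nat_lit 197)) (XT.nd (nat_lit 78) (nat_lit 152) (nat_lit 0) (XT.lf (nat_lit 0) (nat_lit 270334935202) (nat_lit 152) (nat_lit 48204737463) (nat_lit 228) (nat_lit 59361025910) (nat_lit 21) (nat_lit 5) (nat_lit 23) (nat_lit 5) (nat_lit 24) (nat_lit 5) (nat_lit 296) (nat_lit 288) (nat_lit 196)) (XT.lf (nat_lit 0) (nat_lit 2924114726) (nat_lit 152) (nat_lit 306048950753) (nat_lit 76) (nat_lit 102590886743) (nat_lit 19) (nat_lit 5) (nat_lit 21) (nat_lit 5) (nat_lit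 20) (nat_lit 5) (nat_lit 297) (nat_lit 288) (nat_lit 195))))) (XT.nd (nat_lit 156) (nat_lit 76) (nat_lit 0) (XT.nd (nat_lit 78) (nat_lit 152) (nat_lit 0) (XT.lf (nat_lit 0) (nat_lit 76660448871) (nat_lit 152) (nat_lit 92176563213) (nat_lit 76) (nat_lit 279787795583) (nat_lit 19) (nat_lit 5) (nat_lit 21) (nat_lit 5) (nat_lit 20) (nat_lit 5) (nat_lit 298) (nat_lit 288) (nat_lit 194)) (XT.lf (nat_lit 0) (nat_lit 168461793892) (nat_lit 228) (nat_lit 321406435747) (nat_lit 76) (nat_lit 325877842) (nat_lit 17) (nat_lit 5) (nat_lit 20) (nat_lit 5) (nat_lit 18) (nat_lit 4) (nat_lit 299) (nat_lit 288) (nat_lit 193))) (XT.nd (nat_lit 78) (nat_lit 76) (nat_lit 0) (XT.lf (nat_lit 0) (nat_lit 287120872836) (nat_lit 228) (nat_lit 66289568740) (nat_lit 76) (nat_lit 182625231014) (nat_lit 17) (nat_lit 5) (nat_lit 20) (nat_lit 5) (nat_lit 18) (nat_lit 4) (nat_lit 300) (nat_lit 288) (nat_lit 192)) (XT.nd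 (nat_lit 78) (nat_lit 0) (nat_lit 0) (XT.lf (nat_lit 0) (nat_lit 249288049413) (nat_lit 76) (nat_lit 184613172704) (nat_lit 152) (nat_lit 153303889200) (nat_lit 16) (nat_lit 5) (nat_lit 17) (nat_lit 5) (nat_lit 18) (nat_lit 4) (nat_lit 301) (nat_lit 288) (nat_lit 191)) (XT.lf (nat_lit 0) (nat_lit 606722219526) (nat_lit 152) (nat_lit 26436503742) (nat_lit 0) (nat_lit 12287703335) (nat_lit 16) (nat_lit 5) (nat_lit 18) (nat_lit 4) (nat_lit 16) (nat_lit 4) (nat_lit 302) (nat_lit 288) (nat_lit 190))))))) (XT.nd (nat_lit 780) (nat_lit 380) (nat_lit 0) (XT.nd (nat_lit 390) (nat_lit 152) (nat_lit 0) (XT.nd (nat_lit 156) (nat_lit 152) (nat_lit 0) (XT.nd (nat_lit 78) (nat_lit 76) (nat_lit 0) (XT.lf (nat_lit 0) (nat_lit 109348564614) (nat_lit 152) (nat_lit 359335189588) (nat_lit 76) (nat_lit 239473869158) (nat_lit 14) (nat_lit 5) (nat_lit 16) (nat_lit 5) (nat_lit 15) (nat_lit 4) (nat_lit 303) (nat_lit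 288) (nat_lit 189)) (XT.lf (nat_lit 0) (nat_lit 1496392368) (nat_lit 76) (nat_lit 275680850333) (nat_lit 152) (nat_lit 502595213748) (nat_lit 13) (nat_lit 5) (nat_lit 14) (nat_lit 5) (nat_lit 15) (nat_lit 4) (nat_lit 304) (nat_lit 288) (nat_lit 188))) (XT.nd (nat_lit 78) (nat_lit 152) (nat_lit 0) (XT.lf (nat_lit 0) (nat_lit 456836979186) (nat_lit 76) (nat_lit 32126613675) (nat_lit 152) (nat_lit 370348416148) (nat_lit 13) (nat_lit 5) (nat_lit 14) (nat_lit 5) (nat_lit 15) (nat_lit 4) (nat_lit 305) (nat_lit 288) (nat_lit 187)) (XT.nd (nat_lit 78) (nat_lit 76) (nat_lit 0) (XT.lf (nat_lit 0) (nat_lit 21327231103) (nat_lit 76) (nat_lit 722341251936) (nat_lit 76) (nat_lit 205441423345) (nat_lit 12) (nat_lit 4) (nat_lit 13) (nat_lit 5) (nat_lit 13) (nat_lit 4) (nat_lit 306) (nat_lit 288) (nat_lit 186)) (XT.lf (nat_lit 0) (nat_lit 9178184281) (nat_lit 152) (nat_lit 497166775799) (nat_lit 76)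 (nat_lit 542595142213) (nat_lit 11) (nat_lit 5) (nat_lit 13) (nat_lit 5) (nat_lit 12) (nat_lit 4) (nat_lit 307) (nat_lit 288) (nat_lit 185))))) (XT.nd (nat_lit 156) (nat_lit 76) (nat_lit 0) (XT.nd (nat_lit 78) (nat_lit 76) (nat_lit 0) (XT.lf (nat_lit 0) (nat_lit 234957398145) (nat_lit 152) (nat_lit 11741503742) (nat_lit 76) (nat_lit 915578493948) (nat_lit 11) (nat_lit 5) (nat_lit 13) (nat_lit 5) (nat_lit 12) (nat_lit 4) (nat_lit 308) (nat_lit 288) (nat_lit 184)) (XT.lf (nat_lit 0) (nat_lit 522775964565) (nat_lit 152) (nat_lit 692315694677) (nat_lit 0) (nat_lit 73297753625) (nat_lit 10) (nat_lit 5) (nat_lit 12) (nat_lit 4) (nat_lit 10) (nat_lit 4) (nat_lit 309) (nat_lit 288) (nat_lit 183))) (XT.nd (nat_lit 78) (nat_lit 76) (nat_lit 0) (XT.lf (nat_lit 0) (nat_lit 866157830351) (nat_lit 152) (nat_lit 148722230383) (nat_lit 0) (nat_lit 416679594589) (nat_lit 10) (nat_lit 5) (nat_lit 12)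 (nat_lit 4) (nat_lit 10) (nat_lit 4) (nat_lit 310) (nat_lit 288) (nat_lit 182)) (XT.nd (nat_lit 78) (nat_lit 0) (nat_lit 0) (XT.lf (nat_lit 0) (nat_lit 522968454957) (nat_lit 76) (nat_lit 759733495216) (nat_lit 76) (nat_lit 310255237870) (nat_lit 9) (nat_lit 4) (nat_lit 10) (nat_lit 5) (nat_lit 10) (nat_lit 4) (nat_lit 311) (nat_lit 288) (nat_lit 181)) (XT.lf (nat_lit 0) (nat_lit 1312127029959) (nat_lit 76) (nat_lit 457374742117) (nat_lit 76) (nat_lit 7896466002) (nat_lit 9) (nat_lit 4) (nat_lit 10) (nat_lit 5) (nat_lit 10) (nat_lit 4) (nat_lit 312) (nat_lit 288) (nat_lit 180)))))) (XT.nd (nat_lit 390) (nat_lit 152) (nat_lit 0) (XT.nd (nat_lit 156) (nat_lit 76) (nat_lit 0) (XT.nd (nat_lit 78) (nat_lit 0) (nat_lit 0) (XT.lf (nat_lit 0) (nat_lit 237200011557) (nat_lit 76) (nat_lit 82185246113) (nat_lit 152) (nat_lit 1666536241266) (nat_lit 7) (nat_lit 5) (nat_lit 8) (nat_lit 5) (nat_lit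 9) (nat_lit 4) (nat_lit 313) (nat_lit 288) (nat_lit 179)) (XT.lf (nat_lit 0) (nat_lit 734892951268) (nat_lit 152) (nat_lit 1140740320624) (nat_lit 0) (nat_lit 344042249854) (nat_lit 7) (nat_lit 5) (nat_lit 9) (nat_lit 4) (nat_lit 7) (nat_lit 4) (nat_lit 314) (nat_lit 288) (nat_lit 178))) (XT.nd (nat_lit 78) (nat_lit 76) (nat_lit 0) (XT.lf (nat_lit 0) (nat_lit 1216640356663) (nat_lit 152) (nat_lit 445475613145) (nat_lit 0) (nat_lit 825789644517) (nat_lit 7) (nat_lit 5) (nat_lit 9) (nat_lit 4) (nat_lit 7) (nat_lit 4) (nat_lit 315) (nat_lit 288) (nat_lit 177)) (XT.nd (nat_lit 78) (nat_lit 0) (nat_lit 0) (XT.lf (nat_lit 0) (nat_lit 388681907137) (nat_lit 76) (nat_lit 1398062432558) (nat_lit 76) (nat_lit 1007211711081) (nat_lit 6) (nat_lit 4) (nat_lit 7) (nat_lit 5) (nat_lit 7) (nat_lit 4) (nat_lit 316) (nat_lit 288) (nat_lit 176)) (XT.lf (nat_lit 0) (nat_lit 1398028397264) (nat_lit 76) (nat_lit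 1067621727196) (nat_lit 76) (nat_lit 676770997605) (nat_lit 6) (nat_lit 4) (nat_lit 7) (nat_lit 5) (nat_lit 7) (nat_lit 4) (nat_lit 317) (nat_lit 288) (nat_lit 175))))) (XT.nd (nat_lit 234) (nat_lit 0) (nat_lit 0) (XT.nd (nat_lit 78) (nat_lit 152) (nat_lit 0) (XT.lf (nat_lit 0) (nat_lit 2558776823996) (nat_lit 76) (nat_lit 687614934719) (nat_lit 76) (nat_lit 296764198072) (nat_lit 6) (nat_lit 4) (nat_lit 7) (nat_lit 5) (nat_lit 7) (nat_lit 4) (nat_lit 318) (nat_lit 288) (nat_lit 174)) (XT.nd (nat_lit 78) (nat_lit 76) (nat_lit 0) (XT.lf (nat_lit 0) (nat_lit 127758147806) (nat_lit 152) (nat_lit 116170724997) (nat_lit 76) (nat_lit 3759201068016) (nat_lit 5) (nat_lit 5) (nat_lit 7) (nat_lit 5) (nat_lit 6) (nat_lit 4) (nat_lit 319) (nat_lit 288) (nat_lit 173)) (XT.lf (nat_lit 0) (nat_lit 638615968005) (nat_lit 152) (nat_lit 3584662539386) (nat_lit 0) (nat_lit 298745752250) (nat_lit 4) (nat_lit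 5) (nat_lit 6) (nat_lit 4) (nat_lit 4) (nat_lit 4) (nat_lit 320) (nat_lit 288) (nat_lit 172)))) (XT.nd (nat_lit 78) (nat_lit 0) (nat_lit 0) (XT.lf (nat_lit 0) (nat_lit 1244079837713) (nat_lit 152) (nat_lit 2967766664180) (nat_lit 0) (nat_lit 904209617924) (nat_lit 4) (nat_lit 5) (nat_lit 6) (nat_lit 4) (nat_lit 4) (nat_lit 4) (nat_lit 321) (nat_lit 288) (nat_lit 171)) (XT.nd (nat_lit 78) (nat_lit 0) (nat_lit 0) (XT.lf (nat_lit 0) (nat_lit 1940363275435) (nat_lit 152) (nat_lit 2258336433316) (nat_lit 0) (nat_lit 1600493052139) (nat_lit 4) (nat_lit 5) (nat_lit 6) (nat_lit 4) (nat_lit 4) (nat_lit 4) (nat_lit 322) (nat_lit 288) (nat_lit 170)) (XT.lf (nat_lit 0) (nat_lit 2741089217998) (nat_lit 152) (nat_lit 1442491690103) (nat_lit 0) (nat_lit 2401218991650) (nat_lit 4) (nat_lit 5) (nat_lit 6) (nat_lit 4) (nat_lit 4) (nat_lit 4) (nat_lit 323) (nat_lit 288) (nat_lit 169))))))))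
noncomputable def xc98 : XT := (XT.nd (nat_lit 1560) (nat_lit 0) (nat_lit 0) (XT.nd (nat_lit 780) (nat_lit 152) (nat_lit 0) (XT.nd (nat_lit 390) (nat_lit 0) (nat_lit 0) (XT.nd (nat_lit 156) (nat_lit 0) (nat_lit 0) (XT.nd (nat_lit 78) (nat_lit 76) (nat_lit 0) (XT.lf (nat_lit 0) (nat_lit 3661924042537) (nat_lit 152) (nat_lit 504270254781) (nat_lit 0) (nat_lit 3322053813537) (nat_lit 4) (nat_lit 5) (nat_lit 6) (nat_lit 4) (nat_lit 4) (nat_lit 4) (nat_lit 324) (nat_lit 288) (nat_lit 168)) (XT.lf (nat_lit 0) (nat_lit 630846716029) (nat_lit 76) (nat_lit 4116159383773) (nat_lit 76) (nat_lit 3776289152467) (nat_lit 3) (nat_lit 4) (nat_lit 4) (nat_lit 5) (nat_lit 4) (nat_lit 4) (nat_lit 325) (nat_lit 288) (nat_lit 167))) (XT.nd (nat_lit 78) (nat_lit 0) (nat_lit 0) (XT.lf (nat_lit 0) (nat_lit 1992904316605) (nat_lit 76) (nat_lit 4028305722773) (nat_lit 76) (nat_lit 3688435489461) (nat_lit 3) (nat_lit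 4) (nat_lit 4) (nat_lit 5) (nat_lit 4) (nat_lit 4) (nat_lit 326) (nat_lit 288) (nat_lit 166)) (XT.nd (nat_lit 78) (nat_lit 0) (nat_lit 0) (XT.lf (nat_lit 0) (nat_lit 3559270543285) (nat_lit 76) (nat_lit 3927274019842) (nat_lit 76) (nat_lit 3587403784786) (nat_lit 3) (nat_lit 4) (nat_lit 4) (nat_lit 5) (nat_lit 4) (nat_lit 4) (nat_lit 327) (nat_lit 288) (nat_lit 165)) (XT.lf (nat_lit 0) (nat_lit 5360591691806) (nat_lit 76) (nat_lit 3811087567749) (nat_lit 76) (nat_lit 3471217331176) (nat_lit 3) (nat_lit 4) (nat_lit 4) (nat_lit 5) (nat_lit 4) (nat_lit 4) (nat_lit 328) (nat_lit 288) (nat_lit 164))))) (XT.nd (nat_lit 156) (nat_lit 0) (nat_lit 0) (XT.nd (nat_lit 78) (nat_lit 0) (nat_lit 0) (XT.lf (nat_lit 0) (nat_lit 7432111002032) (nat_lit 76) (nat_lit 3677473153300) (nat_lit 76) (nat_lit 3337602915409) (nat_lit 3) (nat_lit 4) (nat_lit 4) (nat_lit 5) (nat_lit 4) (nat_lit 4) (nat_lit 329)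 (nat_lit 288) (nat_lit 163)) (XT.lf (nat_lit 0) (nat_lit 9814358199597) (nat_lit 76) (nat_lit 3523816581431) (nat_lit 76) (nat_lit 3183946342393) (nat_lit 3) (nat_lit 4) (nat_lit 4) (nat_lit 5) (nat_lit 4) (nat_lit 4) (nat_lit 330) (nat_lit 288) (nat_lit 162))) (XT.nd (nat_lit 78) (nat_lit 0) (nat_lit 0) (XT.lf (nat_lit 0) (nat_lit 12553942468802) (nat_lit 76) (nat_lit 3347111527909) (nat_lit 76) (nat_lit 3007241287873) (nat_lit 3) (nat_lit 4) (nat_lit 4) (nat_lit 5) (nat_lit 4) (nat_lit 4) (nat_lit 331) (nat_lit 288) (nat_lit 161)) (XT.nd (nat_lit 78) (nat_lit 0) (nat_lit 0) (XT.lf (nat_lit 0) (nat_lit 15704464371435) (nat_lit 76) (nat_lit 3143900719947) (nat_lit 76) (nat_lit 2804030479044) (nat_lit 3) (nat_lit 4) (nat_lit 4) (nat_lit 5) (nat_lit 4) (nat_lit 4) (nat_lit 332) (nat_lit 288) (nat_lit 160)) (XT.lf (nat_lit 0) (nat_lit 19327564553418) (nat_lit 76) (nat_lit 2910208293912)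 (nat_lit 76) (nat_lit 2570338052255) (nat_lit 3) (nat_lit 4) (nat_lit 4) (nat_lit 5) (nat_lit 4) (nat_lit 4) (nat_lit 333) (nat_lit 288) (nat_lit 159)))))) (XT.nd (nat_lit 390) (nat_lit 152) (nat_lit 0) (XT.nd (nat_lit 156) (nat_lit 0) (nat_lit 0) (XT.nd (nat_lit 78) (nat_lit 0) (nat_lit 0) (XT.lf (nat_lit 0) (nat_lit 23494129757441) (nat_lit 76) (nat_lit 2641462006685) (nat_lit 76) (nat_lit 2301591764373) (nat_lit 3) (nat_lit 4) (nat_lit 4) (nat_lit 5) (nat_lit 4) (nat_lit 4) (nat_lit 334) (nat_lit 288) (nat_lit 158)) (XT.lf (nat_lit 0) (nat_lit 28285679737496) (nat_lit 76) (nat_lit 2332403778735) (nat_lit 76) (nat_lit 1992533535852) (nat_lit 3) (nat_lit 4) (nat_lit 4) (nat_lit 5) (nat_lit 4) (nat_lit 4) (nat_lit 335) (nat_lit 288) (nat_lit 157))) (XT.nd (nat_lit 78) (nat_lit 0) (nat_lit 0) (XT.lf (nat_lit 0) (nat_lit 33795962210585) (nat_lit 76) (nat_lit 1976986818644) (nat_lit 76)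 (nat_lit 1637116575265) (nat_lit 3) (nat_lit 4) (nat_lit 4) (nat_lit 5) (nat_lit 4) (nat_lit 4) (nat_lit 336) (nat_lit 288) (nat_lit 156)) (XT.nd (nat_lit 78) (nat_lit 0) (nat_lit 0) (XT.lf (nat_lit 0) (nat_lit 40132787051181) (nat_lit 76) (nat_lit 1568257316323) (nat_lit 76) (nat_lit 1228387072514) (nat_lit 3) (nat_lit 4) (nat_lit 4) (nat_lit 5) (nat_lit 4) (nat_lit 4) (nat_lit 337) (nat_lit 288) (nat_lit 155)) (XT.lf (nat_lit 0) (nat_lit 47420135614860) (nat_lit 76) (nat_lit 1098218390206) (nat_lit 76) (nat_lit 758348146022) (nat_lit 3) (nat_lit 4) (nat_lit 4) (nat_lit 5) (nat_lit 4) (nat_lit 4) (nat_lit 338) (nat_lit 288) (nat_lit 154))))) (XT.nd (nat_lit 156) (nat_lit 0) (nat_lit 0) (XT.nd (nat_lit 78) (nat_lit 152) (nat_lit 0) (XT.lf (nat_lit 0) (nat_lit 55800586460477) (nat_lit 76) (nat_lit 557673626521) (nat_lit 76) (nat_lit 217803382011) (nat_lit 3) (nat_lit 4) (nat_lit 4) (nat_lit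 5) (nat_lit 4) (nat_lit 4) (nat_lit 339) (nat_lit 288) (nat_lit 153)) (XT.lf (nat_lit 0) (nat_lit 392795167109) (nat_lit 152) (nat_lit 64474031296451) (nat_lit 0) (nat_lit 97255823810) (nat_lit 1) (nat_lit 5) (nat_lit 3) (nat_lit 4) (nat_lit 1) (nat_lit 4) (nat_lit 340) (nat_lit 288) (nat_lit 152))) (XT.nd (nat_lit 78) (nat_lit 0) (nat_lit 0) (XT.lf (nat_lit 0) (nat_lit 1141707064835) (nat_lit 152) (nat_lit 72610520031298) (nat_lit 0) (nat_lit 846167721322) (nat_lit 1) (nat_lit 5) (nat_lit 3) (nat_lit 4) (nat_lit 1) (nat_lit 4) (nat_lit 341) (nat_lit 288) (nat_lit 151)) (XT.nd (nat_lit 78) (nat_lit 0) (nat_lit 0) (XT.lf (nat_lit 0) (nat_lit 2002955746225) (nat_lit 152) (nat_lit 81967482078452) (nat_lit 0) (nat_lit 1707416402525) (nat_lit 1) (nat_lit 5) (nat_lit 3) (nat_lit 4) (nat_lit 1) (nat_lit 4) (nat_lit 342) (nat_lit 288) (nat_lit 150)) (XT.lf (nat_lit 0) (nat_lit 2993391728957)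 (nat_lit 152) (nat_lit 92727988434489) (nat_lit 0) (nat_lit 2697852385095) (nat_lit 1) (nat_lit 5) (nat_lit 3) (nat_lit 4) (nat_lit 1) (nat_lit 4) (nat_lit 343) (nat_lit 288) (nat_lit 149))))))) (XT.nd (nat_lit 37050) (nat_lit 0) (nat_lit 836) (XT.nd (nat_lit 36660) (nat_lit 0) (nat_lit 1520) (XT.nd (nat_lit 36426) (nat_lit 0) (nat_lit 1824) (XT.nd (nat_lit 36348) (nat_lit 0) (nat_lit 1824) (XT.lf (nat_lit 0) (nat_lit 4132393108346) (nat_lit 152) (nat_lit 105102570745505) (nat_lit 0) (nat_lit 3836853764343) (nat_lit 1) (nat_lit 5) (nat_lit 3) (nat_lit 4) (nat_lit 1) (nat_lit 4) (nat_lit 344) (nat_lit 288) (nat_lit 148)) (XT.lf (nat_lit 0) (nat_lit 23965171688) (nat_lit 380) (nat_lit 46521967782) (nat_lit 380) (nat_lit 46521967782) (nat_lit 25) (nat_lit 3) (nat_lit 30) (nat_lit 3) (nat_lit 30) (nat_lit 5) (nat_lit 289) (nat_lit 289) (nat_lit 202))) (XT.nd (nat_lit 78) (nat_lit 0) (nat_lit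 76) (XT.lf (nat_lit 76) (nat_lit 20383812443) (nat_lit 0) (nat_lit 31986448950) (nat_lit 380) (nat_lit 199072544974) (nat_lit 26) (nat_lit 5) (nat_lit 25) (nat_lit 3) (nat_lit 30) (nat_lit 5) (nat_lit 290) (nat_lit 289) (nat_lit 201)) (XT.nd (nat_lit 78) (nat_lit 0) (nat_lit 0) (XT.lf (nat_lit 0) (nat_lit 66436639907) (nat_lit 304) (nat_lit 113566111262) (nat_lit 380) (nat_lit 90134265433) (nat_lit 26) (nat_lit 5) (nat_lit 30) (nat_lit 5) (nat_lit 31) (nat_lit 5) (nat_lit 291) (nat_lit 289) (nat_lit 200)) (XT.lf (nat_lit 76) (nat_lit 21984626876) (nat_lit 0) (nat_lit 63061678318) (nat_lit 380) (nat_lit 206224054127) (nat_lit 27) (nat_lit 5) (nat_lit 26) (nat_lit 5) (nat_lit 31) (nat_lit 5) (nat_lit 292) (nat_lit 289) (nat_lit 199))))) (XT.nd (nat_lit 156) (nat_lit 152) (nat_lit 0) (XT.nd (nat_lit 78) (nat_lit 304) (nat_lit 0) (XT.lf (nat_lit 0) (nat_lit 115623736860) (nat_lit 304) (nat_lit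 127292197449) (nat_lit 76) (nat_lit 71281322037) (nat_lit 27) (nat_lit 5) (nat_lit 31) (nat_lit 5) (nat_lit 28) (nat_lit 5) (nat_lit 293) (nat_lit 289) (nat_lit 198)) (XT.lf (nat_lit 0) (nat_lit 36222032200) (nat_lit 304) (nat_lit 119068432309) (nat_lit 380) (nat_lit 184597321571) (nat_lit 23) (nat_lit 5) (nat_lit 27) (nat_lit 5) (nat_lit 28) (nat_lit 5) (nat_lit 294) (nat_lit 289) (nat_lit 197))) (XT.nd (nat_lit 78) (nat_lit 152) (nat_lit 0) (XT.lf (nat_lit 0) (nat_lit 208844973518) (nat_lit 380) (nat_lit 131148634676) (nat_lit 76) (nat_lit 28247621542) (nat_lit 23) (nat_lit 5) (nat_lit 28) (nat_lit 5) (nat_lit 24) (nat_lit 5) (nat_lit 295) (nat_lit 289) (nat_lit 196)) (XT.nd (nat_lit 78) (nat_lit 0) (nat_lit 0) (XT.lf (nat_lit 0) (nat_lit 67593654335) (nat_lit 152) (nat_lit 211307733571) (nat_lit 228) (nat_lit 120675992935) (nat_lit 21) (nat_lit 5) (nat_lit 23) (nat_lit 5) (nat_lit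 24) (nat_lit 5) (nat_lit 296) (nat_lit 289) (nat_lit 195)) (XT.lf (nat_lit 0) (nat_lit 310886483378) (nat_lit 152) (nat_lit 55435181206) (nat_lit 228) (nat_lit 68263980231) (nat_lit 21) (nat_lit 5) (nat_lit 23) (nat_lit 5) (nat_lit 24) (nat_lit 5) (nat_lit 297) (nat_lit 289) (nat_lit 194)))))) (XT.nd (nat_lit 390) (nat_lit 304) (nat_lit 0) (XT.nd (nat_lit 156) (nat_lit 228) (nat_lit 0) (XT.nd (nat_lit 78) (nat_lit 0) (nat_lit 0) (XT.lf (nat_lit 0) (nat_lit 3363752504) (nat_lit 152) (nat_lit 351954802581) (nat_lit 76) (nat_lit 117979835076) (nat_lit 19) (nat_lit 5) (nat_lit 21) (nat_lit 5) (nat_lit 20) (nat_lit 5) (nat_lit 298) (nat_lit 289) (nat_lit 193)) (XT.lf (nat_lit 0) (nat_lit 88160403652) (nat_lit 152) (nat_lit 106001751361) (nat_lit 76) (nat_lit 321756239112) (nat_lit 19) (nat_lit 5) (nat_lit 21) (nat_lit 5) (nat_lit 20) (nat_lit 5) (nat_lit 299) (nat_lit 289) (nat_lit 192)))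 (XT.nd (nat_lit 78) (nat_lit 76) (nat_lit 0) (XT.lf (nat_lit 0) (nat_lit 193731903074) (nat_lit 228) (nat_lit 369616056053) (nat_lit 76) (nat_lit 375137094) (nat_lit 17) (nat_lit 5) (nat_lit 20) (nat_lit 5) (nat_lit 18) (nat_lit 4) (nat_lit 300) (nat_lit 289) (nat_lit 191)) (XT.nd (nat_lit 78) (nat_lit 76) (nat_lit 0) (XT.lf (nat_lit 0) (nat_lit 330189734281) (nat_lit 228) (nat_lit 76231834437) (nat_lit 76) (nat_lit 210019343993) (nat_lit 17) (nat_lit 5) (nat_lit 20) (nat_lit 5) (nat_lit 18) (nat_lit 4) (nat_lit 301) (nat_lit 289) (nat_lit 190)) (XT.lf (nat_lit 0) (nat_lit 286682373275) (nat_lit 76) (nat_lit 212304713624) (nat_lit 152) (nat_lit 176298687861) (nat_lit 16) (nat_lit 5) (nat_lit 17) (nat_lit 5) (nat_lit 18) (nat_lit 4) (nat_lit 302) (nat_lit 289) (nat_lit 189))))) (XT.nd (nat_lit 156) (nat_lit 152) (nat_lit 0) (XT.nd (nat_lit 78) (nat_lit 152) (nat_lit 0) (XT.lf (nat_lit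 0) (nat_lit 697731160695) (nat_lit 152) (nat_lit 30400934354) (nat_lit 0) (nat_lit 14131203409) (nat_lit 16) (nat_lit 5) (nat_lit 18) (nat_lit 4) (nat_lit 16) (nat_lit 4) (nat_lit 303) (nat_lit 289) (nat_lit 188)) (XT.lf (nat_lit 0) (nat_lit 125751447379) (nat_lit 152) (nat_lit 413234411446) (nat_lit 76) (nat_lit 275395317649) (nat_lit 14) (nat_lit 5) (nat_lit 16) (nat_lit 5) (nat_lit 15) (nat_lit 4) (nat_lit 304) (nat_lit 289) (nat_lit 187))) (XT.nd (nat_lit 78) (nat_lit 76) (nat_lit 0) (XT.lf (nat_lit 0) (nat_lit 1721859777) (nat_lit 76) (nat_lit 317032531153) (nat_lit 152) (nat_lit 577983849120) (nat_lit 13) (nat_lit 5) (nat_lit 14) (nat_lit 5) (nat_lit 15) (nat_lit 4) (nat_lit 305) (nat_lit 289) (nat_lit 186)) (XT.nd (nat_lit 78) (nat_lit 76) (nat_lit 0) (XT.lf (nat_lit 0) (nat_lit 525363403068) (nat_lit 76) (nat_lit 36945217266) (nat_lit 152) (nat_lit 425900116231) (nat_lit 13)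 (nat_lit 5) (nat_lit 14) (nat_lit 5) (nat_lit 15) (nat_lit 4) (nat_lit 306) (nat_lit 289) (nat_lit 185)) (XT.lf (nat_lit 0) (nat_lit 24527207996) (nat_lit 76) (nat_lit 830692023252) (nat_lit 76) (nat_lit 236257089284) (nat_lit 12) (nat_lit 4) (nat_lit 13) (nat_lit 5) (nat_lit 13) (nat_lit 4) (nat_lit 307) (nat_lit 289) (nat_lit 184))))))))
noncomputable def xc99 : XT := (XT.nd (nat_lit 1560) (nat_lit 152) (nat_lit 0) (XT.nd (nat_lit 780) (nat_lit 228) (nat_lit 0) (XT.nd (nat_lit 390) (nat_lit 228) (nat_lit 0) (XT.nd (nat_lit 156) (nat_lit 152) (nat_lit 0) (XT.nd (nat_lit 78) (nat_lit 0) (nat_lit 0) (XT.lf (nat_lit 0) (nat_lit 10555345675) (nat_lit 152) (nat_lit 571740973591) (nat_lit 76) (nat_lit 623984732969) (nat_lit 11) (nat_lit 5) (nat_lit 13) (nat_lit 5) (nat_lit 12) (nat_lit 4) (nat_lit 308) (nat_lit 289) (nat_lit 183)) (XT.lf (nat_lit 0) (nat_lit 270201385043) (nat_lit 152) (nat_lit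 13502017496) (nat_lit 76) (nat_lit 1052915545800) (nat_lit 11) (nat_lit 5) (nat_lit 13) (nat_lit 5) (nat_lit 12) (nat_lit 4) (nat_lit 309) (nat_lit 289) (nat_lit 182))) (XT.nd (nat_lit 78) (nat_lit 76) (nat_lit 0) (XT.lf (nat_lit 0) (nat_lit 601192728752) (nat_lit 152) (nat_lit 796162329143) (nat_lit 0) (nat_lit 84292711221) (nat_lit 10) (nat_lit 5) (nat_lit 12) (nat_lit 4) (nat_lit 10) (nat_lit 4) (nat_lit 310) (nat_lit 289) (nat_lit 181)) (XT.nd (nat_lit 78) (nat_lit 76) (nat_lit 0) (XT.lf (nat_lit 0) (nat_lit 996081826210) (nat_lit 152) (nat_lit 171029939084) (nat_lit 0) (nat_lit 479181789909) (nat_lit 10) (nat_lit 5) (nat_lit 12) (nat_lit 4) (nat_lit 10) (nat_lit 4) (nat_lit 311) (nat_lit 289) (nat_lit 180)) (XT.lf (nat_lit 0) (nat_lit 601414320610) (nat_lit 76) (nat_lit 873693226224) (nat_lit 76) (nat_lit 356793173603) (nat_lit 9) (nat_lit 4) (nat_lit 10) (nat_lit 5) (nat_lit 10)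 (nat_lit 4) (nat_lit 312) (nat_lit 289) (nat_lit 179))))) (XT.nd (nat_lit 156) (nat_lit 76) (nat_lit 0) (XT.nd (nat_lit 78) (nat_lit 152) (nat_lit 0) (XT.lf (nat_lit 0) (nat_lit 1508946603939) (nat_lit 76) (nat_lit 525980698413) (nat_lit 76) (nat_lit 9080631600) (nat_lit 9) (nat_lit 4) (nat_lit 10) (nat_lit 5) (nat_lit 10) (nat_lit 4) (nat_lit 313) (nat_lit 289) (nat_lit 178)) (XT.lf (nat_lit 0) (nat_lit 272780535163) (nat_lit 76) (nat_lit 94512773821) (nat_lit 152) (nat_lit 1916516375267) (nat_lit 7) (nat_lit 5) (nat_lit 8) (nat_lit 5) (nat_lit 9) (nat_lit 4) (nat_lit 314) (nat_lit 289) (nat_lit 177))) (XT.nd (nat_lit 78) (nat_lit 76) (nat_lit 0) (XT.lf (nat_lit 0) (nat_lit 845127131694) (nat_lit 152) (nat_lit 1311850889878) (nat_lit 0) (nat_lit 395648792665) (nat_lit 7) (nat_lit 5) (nat_lit 9) (nat_lit 4) (nat_lit 7) (nat_lit 4) (nat_lit 315) (nat_lit 289) (nat_lit 176)) (XT.nd (nat_lit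 78) (nat_lit 76) (nat_lit 0) (XT.lf (nat_lit 0) (nat_lit 1399136616889) (nat_lit 152) (nat_lit 512296538734) (nat_lit 0) (nat_lit 949658269745) (nat_lit 7) (nat_lit 5) (nat_lit 9) (nat_lit 4) (nat_lit 7) (nat_lit 4) (nat_lit 316) (nat_lit 289) (nat_lit 175)) (XT.lf (nat_lit 0) (nat_lit 446984590664) (nat_lit 76) (nat_lit 1607771596206) (nat_lit 76) (nat_lit 1158293242007) (nat_lit 6) (nat_lit 4) (nat_lit 7) (nat_lit 5) (nat_lit 7) (nat_lit 4) (nat_lit 317) (nat_lit 289) (nat_lit 174)))))) (XT.nd (nat_lit 390) (nat_lit 76) (nat_lit 0) (XT.nd (nat_lit 156) (nat_lit 152) (nat_lit 0) (XT.nd (nat_lit 78) (nat_lit 0) (nat_lit 0) (XT.lf (nat_lit 0) (nat_lit 1607733002467) (nat_lit 76) (nat_lit 1227764811288) (nat_lit 76) (nat_lit 778286450952) (nat_lit 6) (nat_lit 4) (nat_lit 7) (nat_lit 5) (nat_lit 7) (nat_lit 4) (nat_lit 318) (nat_lit 289) (nat_lit 173)) (XT.lf (nat_lit 0) (nat_lit 2942593648129)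 (nat_lit 76) (nat_lit 790757022763) (nat_lit 76) (nat_lit 341278657093) (nat_lit 6) (nat_lit 4) (nat_lit 7) (nat_lit 5) (nat_lit 7) (nat_lit 4) (nat_lit 319) (nat_lit 289) (nat_lit 172))) (XT.nd (nat_lit 78) (nat_lit 76) (nat_lit 0) (XT.lf (nat_lit 0) (nat_lit 146922005189) (nat_lit 152) (nat_lit 133596059151) (nat_lit 76) (nat_lit 4323081347272) (nat_lit 5) (nat_lit 5) (nat_lit 7) (nat_lit 5) (nat_lit 6) (nat_lit 4) (nat_lit 320) (nat_lit 289) (nat_lit 171)) (XT.nd (nat_lit 78) (nat_lit 0) (nat_lit 0) (XT.lf (nat_lit 0) (nat_lit 734408497170) (nat_lit 152) (nat_lit 4122361644409) (nat_lit 0) (nat_lit 343557736871) (nat_lit 4) (nat_lit 5) (nat_lit 6) (nat_lit 4) (nat_lit 4) (nat_lit 4) (nat_lit 321) (nat_lit 289) (nat_lit 170)) (XT.lf (nat_lit 0) (nat_lit 1430691929861) (nat_lit 152) (nat_lit 3412931423908) (nat_lit 0) (nat_lit 1039841166511) (nat_lit 4) (nat_lit 5) (nat_lit 6) (nat_lit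 4) (nat_lit 4) (nat_lit 4) (nat_lit 322) (nat_lit 289) (nat_lit 169))))) (XT.nd (nat_lit 156) (nat_lit 76) (nat_lit 0) (XT.nd (nat_lit 78) (nat_lit 0) (nat_lit 0) (XT.lf (nat_lit 0) (nat_lit 2231417868047) (nat_lit 152) (nat_lit 2597086689706) (nat_lit 0) (nat_lit 1840567102045) (nat_lit 4) (nat_lit 5) (nat_lit 6) (nat_lit 4) (nat_lit 4) (nat_lit 4) (nat_lit 323) (nat_lit 289) (nat_lit 168)) (XT.lf (nat_lit 0) (nat_lit 3152252688781) (nat_lit 152) (nat_lit 1658865262220) (nat_lit 0) (nat_lit 2761401920472) (nat_lit 4) (nat_lit 5) (nat_lit 6) (nat_lit 4) (nat_lit 4) (nat_lit 4) (nat_lit 324) (nat_lit 289) (nat_lit 167))) (XT.nd (nat_lit 78) (nat_lit 76) (nat_lit 0) (XT.lf (nat_lit 0) (nat_lit 4211212725512) (nat_lit 152) (nat_lit 579910635260) (nat_lit 0) (nat_lit 3820361955197) (nat_lit 4) (nat_lit 5) (nat_lit 6) (nat_lit 4) (nat_lit 4) (nat_lit 4) (nat_lit 325) (nat_lit 289) (nat_lit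 166)) (XT.nd (nat_lit 78) (nat_lit 0) (nat_lit 0) (XT.lf (nat_lit 0) (nat_lit 725473874001) (nat_lit 76) (nat_lit 4733583213610) (nat_lit 76) (nat_lit 4342732441551) (nat_lit 3) (nat_lit 4) (nat_lit 4) (nat_lit 5) (nat_lit 4) (nat_lit 4) (nat_lit 326) (nat_lit 289) (nat_lit 165)) (XT.lf (nat_lit 0) (nat_lit 2291840095025) (nat_lit 76) (nat_lit 4632551513599) (nat_lit 76) (nat_lit 4241700740024) (nat_lit 3) (nat_lit 4) (nat_lit 4) (nat_lit 5) (nat_lit 4) (nat_lit 4) (nat_lit 327) (nat_lit 289) (nat_lit 164))))))) (XT.nd (nat_lit 780) (nat_lit 152) (nat_lit 0) (XT.nd (nat_lit 390) (nat_lit 0) (nat_lit 0) (XT.nd (nat_lit 156) (nat_lit 0) (nat_lit 0) (XT.nd (nat_lit 78) (nat_lit 0) (nat_lit 0) (XT.lf (nat_lit 0) (nat_lit 4093161238628) (nat_lit 76) (nat_lit 4516365064044) (nat_lit 76) (nat_lit 4125514289150) (nat_lit 3) (nat_lit 4) (nat_lit 4) (nat_lit 5) (nat_lit 4) (nat_lit 4) (nat_lit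 328) (nat_lit 289) (nat_lit 163)) (XT.lf (nat_lit 0) (nat_lit 6164680544577) (nat_lit 76) (nat_lit 4382750651803) (nat_lit 76) (nat_lit 3991899875763) (nat_lit 3) (nat_lit 4) (nat_lit 4) (nat_lit 5) (nat_lit 4) (nat_lit 4) (nat_lit 329) (nat_lit 289) (nat_lit 162))) (XT.nd (nat_lit 78) (nat_lit 0) (nat_lit 0) (XT.lf (nat_lit 0) (nat_lit 8546927738424) (nat_lit 76) (nat_lit 4229094081854) (nat_lit 76) (nat_lit 3838243304816) (nat_lit 3) (nat_lit 4) (nat_lit 4) (nat_lit 5) (nat_lit 4) (nat_lit 4) (nat_lit 330) (nat_lit 289) (nat_lit 161)) (XT.nd (nat_lit 78) (nat_lit 0) (nat_lit 0) (XT.lf (nat_lit 0) (nat_lit 11286512004395) (nat_lit 76) (nat_lit 4052389030001) (nat_lit 76) (nat_lit 3661538252096) (nat_lit 3) (nat_lit 4) (nat_lit 4) (nat_lit 5) (nat_lit 4) (nat_lit 4) (nat_lit 331) (nat_lit 289) (nat_lit 160)) (XT.lf (nat_lit 0) (nat_lit 14437033904217) (nat_lit 76) (nat_lit 3849178223491)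 (nat_lit 76) (nat_lit 3458327444831) (nat_lit 3) (nat_lit 4) (nat_lit 4) (nat_lit 5) (nat_lit 4) (nat_lit 4) (nat_lit 332) (nat_lit 289) (nat_lit 159))))) (XT.nd (nat_lit 156) (nat_lit 0) (nat_lit 0) (XT.nd (nat_lit 78) (nat_lit 0) (nat_lit 0) (XT.lf (nat_lit 0) (nat_lit 18060134083754) (nat_lit 76) (nat_lit 3615485798718) (nat_lit 76) (nat_lit 3224635019403) (nat_lit 3) (nat_lit 4) (nat_lit 4) (nat_lit 5) (nat_lit 4) (nat_lit 4) (nat_lit 333) (nat_lit 289) (nat_lit 158)) (XT.lf (nat_lit 0) (nat_lit 22226699285651) (nat_lit 76) (nat_lit 3346739512589) (nat_lit 76) (nat_lit 2955888732704) (nat_lit 3) (nat_lit 4) (nat_lit 4) (nat_lit 5) (nat_lit 4) (nat_lit 4) (nat_lit 334) (nat_lit 289) (nat_lit 157))) (XT.nd (nat_lit 78) (nat_lit 0) (nat_lit 0) (XT.lf (nat_lit 0) (nat_lit 27018249263858) (nat_lit 76) (nat_lit 3037681285593) (nat_lit 76) (nat_lit 2646830505212) (nat_lit 3) (nat_lit 4)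 (nat_lit 4) (nat_lit 5) (nat_lit 4) (nat_lit 4) (nat_lit 335) (nat_lit 289) (nat_lit 156)) (XT.nd (nat_lit 78) (nat_lit 0) (nat_lit 0) (XT.lf (nat_lit 0) (nat_lit 32528531735339) (nat_lit 76) (nat_lit 2682264326332) (nat_lit 76) (nat_lit 2291413545520) (nat_lit 3) (nat_lit 4) (nat_lit 4) (nat_lit 5) (nat_lit 4) (nat_lit 4) (nat_lit 336) (nat_lit 289) (nat_lit 155)) (XT.lf (nat_lit 0) (nat_lit 38865356574537) (nat_lit 76) (nat_lit 2273534824733) (nat_lit 76) (nat_lit 1882684043546) (nat_lit 3) (nat_lit 4) (nat_lit 4) (nat_lit 5) (nat_lit 4) (nat_lit 4) (nat_lit 337) (nat_lit 289) (nat_lit 154)))))) (XT.nd (nat_lit 390) (nat_lit 0) (nat_lit 0) (XT.nd (nat_lit 156) (nat_lit 152) (nat_lit 0) (XT.nd (nat_lit 78) (nat_lit 0) (nat_lit 0) (XT.lf (nat_lit 0) (nat_lit 46152705137000) (nat_lit 76) (nat_lit 1803495899244) (nat_lit 76) (nat_lit 1412645117731) (nat_lit 3) (nat_lit 4) (nat_lit 4) (nat_lit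 5) (nat_lit 4) (nat_lit 4) (nat_lit 338) (nat_lit 289) (nat_lit 153)) (XT.lf (nat_lit 0) (nat_lit 54533155981560) (nat_lit 76) (nat_lit 1262951136104) (nat_lit 76) (nat_lit 872100354308) (nat_lit 3) (nat_lit 4) (nat_lit 4) (nat_lit 5) (nat_lit 4) (nat_lit 4) (nat_lit 339) (nat_lit 289) (nat_lit 152))) (XT.nd (nat_lit 78) (nat_lit 152) (nat_lit 0) (XT.lf (nat_lit 0) (nat_lit 64170674450828) (nat_lit 76) (nat_lit 641324659514) (nat_lit 76) (nat_lit 250473877472) (nat_lit 3) (nat_lit 4) (nat_lit 4) (nat_lit 5) (nat_lit 4) (nat_lit 4) (nat_lit 340) (nat_lit 289) (nat_lit 151)) (XT.nd (nat_lit 78) (nat_lit 0) (nat_lit 0) (XT.lf (nat_lit 0) (nat_lit 451714452897) (nat_lit 152) (nat_lit 74145135968514) (nat_lit 0) (nat_lit 111844207456) (nat_lit 1) (nat_lit 5) (nat_lit 3) (nat_lit 4) (nat_lit 1) (nat_lit 4) (nat_lit 341) (nat_lit 289) (nat_lit 150)) (XT.lf (nat_lit 0) (nat_lit 1312963133883)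 (nat_lit 152) (nat_lit 83502098016510) (nat_lit 0) (nat_lit 973092888280) (nat_lit 1) (nat_lit 5) (nat_lit 3) (nat_lit 4) (nat_lit 1) (nat_lit 4) (nat_lit 342) (nat_lit 289) (nat_lit 149))))) (XT.nd (nat_lit 36582) (nat_lit 0) (nat_lit 1824) (XT.nd (nat_lit 78) (nat_lit 0) (nat_lit 0) (XT.lf (nat_lit 0) (nat_lit 2303399116265) (nat_lit 152) (nat_lit 94262604373279) (nat_lit 0) (nat_lit 1963528870521) (nat_lit 1) (nat_lit 5) (nat_lit 3) (nat_lit 4) (nat_lit 1) (nat_lit 4) (nat_lit 343) (nat_lit 289) (nat_lit 148)) (XT.nd (nat_lit 36426) (nat_lit 0) (nat_lit 1824) (XT.lf (nat_lit 0) (nat_lit 3442400495349) (nat_lit 152) (nat_lit 106637186684931) (nat_lit 0) (nat_lit 3102530249483) (nat_lit 1) (nat_lit 5) (nat_lit 3) (nat_lit 4) (nat_lit 1) (nat_lit 4) (nat_lit 344) (nat_lit 289) (nat_lit 147)) (XT.lf (nat_lit 0) (nat_lit 27560994280) (nat_lit 380) (nat_lit 53499659633) (nat_lit 380) (nat_lit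 53499659633) (nat_lit 25) (nat_lit 3) (nat_lit 30) (nat_lit 3) (nat_lit 30) (nat_lit 5) (nat_lit 290) (nat_lit 290) (nat_lit 200)))) (XT.nd (nat_lit 78) (nat_lit 0) (nat_lit 76) (XT.lf (nat_lit 76) (nat_lit 23442536096) (nat_lit 0) (nat_lit 36785132789) (nat_lit 380) (nat_lit 228931273381) (nat_lit 26) (nat_lit 5) (nat_lit 25) (nat_lit 3) (nat_lit 30) (nat_lit 5) (nat_lit 291) (nat_lit 290) (nat_lit 199)) (XT.nd (nat_lit 78) (nat_lit 0) (nat_lit 0) (XT.lf (nat_lit 0) (nat_lit 76403734689) (nat_lit 304) (nat_lit 130599752723) (nat_lit 380) (nat_lit 103653837675) (nat_lit 26) (nat_lit 5) (nat_lit 30) (nat_lit 5) (nat_lit 31) (nat_lit 5) (nat_lit 292) (nat_lit 290) (nat_lit 198)) (XT.lf (nat_lit 76) (nat_lit 25283538170) (nat_lit 0) (nat_lit 72521153464) (nat_lit 380) (nat_lit 237156001845) (nat_lit 27) (nat_lit 5) (nat_lit 26) (nat_lit 5) (nat_lit 31) (nat_lit 5) (nat_lit 293) (nat_lit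 290) (nat_lit 197))))))))
noncomputable def xc100 : XT := (XT.nd (nat_lit 1560) (nat_lit 456) (nat_lit 0) (XT.nd (nat_lit 780) (nat_lit 532) (nat_lit 0) (XT.nd (nat_lit 390) (nat_lit 380) (nat_lit 0) (XT.nd (nat_lit 156) (nat_lit 152) (nat_lit 0) (XT.nd (nat_lit 78) (nat_lit 304) (nat_lit 0) (XT.lf (nat_lit 0) (nat_lit 132968542094) (nat_lit 304) (nat_lit 146384769456) (nat_lit 76) (nat_lit 81973343377) (nat_lit 27) (nat_lit 5) (nat_lit 31) (nat_lit 5) (nat_lit 28) (nat_lit 5) (nat_lit 294) (nat_lit 290) (nat_lit 196)) (XT.lf (nat_lit 0) (nat_lit 41656537477) (nat_lit 304) (nat_lit 136928628769) (nat_lit 380) (nat_lit 212285615185) (nat_lit 23) (nat_lit 5) (nat_lit 27) (nat_lit 5) (nat_lit 28) (nat_lit 5) (nat_lit 295) (nat_lit 290) (nat_lit 195))) (XT.nd (nat_lit 78) (nat_lit 152) (nat_lit 0) (XT.lf (nat_lit 0) (nat_lit 240172706408) (nat_lit 380) (nat_lit 150819738419) (nat_lit 76)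 (nat_lit 32484818946) (nat_lit 23) (nat_lit 5) (nat_lit 28) (nat_lit 5) (nat_lit 24) (nat_lit 5) (nat_lit 296) (nat_lit 290) (nat_lit 194)) (XT.nd (nat_lit 78) (nat_lit 0) (nat_lit 0) (XT.lf (nat_lit 0) (nat_lit 77733839786) (nat_lit 152) (nat_lit 243003661541) (nat_lit 228) (nat_lit 138776348774) (nat_lit 21) (nat_lit 5) (nat_lit 23) (nat_lit 5) (nat_lit 24) (nat_lit 5) (nat_lit 297) (nat_lit 290) (nat_lit 193)) (XT.lf (nat_lit 0) (nat_lit 357520444842) (nat_lit 152) (nat_lit 63750256591) (nat_lit 228) (nat_lit 78502670221) (nat_lit 21) (nat_lit 5) (nat_lit 23) (nat_lit 5) (nat_lit 24) (nat_lit 5) (nat_lit 298) (nat_lit 290) (nat_lit 192))))) (XT.nd (nat_lit 156) (nat_lit 228) (nat_lit 0) (XT.nd (nat_lit 78) (nat_lit 0) (nat_lit 0) (XT.lf (nat_lit 0) (nat_lit 3869087076) (nat_lit 152) (nat_lit 404746895722) (nat_lit 76) (nat_lit 135677048765) (nat_lit 19) (nat_lit 5) (nat_lit 21) (nat_lit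 5) (nat_lit 20) (nat_lit 5) (nat_lit 299) (nat_lit 290) (nat_lit 191)) (XT.lf (nat_lit 0) (nat_lit 101385135241) (nat_lit 152) (nat_lit 121901033850) (nat_lit 76) (nat_lit 370019882308) (nat_lit 19) (nat_lit 5) (nat_lit 21) (nat_lit 5) (nat_lit 20) (nat_lit 5) (nat_lit 300) (nat_lit 290) (nat_lit 190))) (XT.nd (nat_lit 78) (nat_lit 76) (nat_lit 0) (XT.lf (nat_lit 0) (nat_lit 222792323769) (nat_lit 228) (nat_lit 425057447406) (nat_lit 76) (nat_lit 431693160) (nat_lit 17) (nat_lit 5) (nat_lit 20) (nat_lit 5) (nat_lit 18) (nat_lit 4) (nat_lit 301) (nat_lit 290) (nat_lit 189)) (XT.nd (nat_lit 78) (nat_lit 76) (nat_lit 0) (XT.lf (nat_lit 0) (nat_lit 379718746801) (nat_lit 228) (nat_lit 87665725206) (nat_lit 76) (nat_lit 241522493854) (nat_lit 17) (nat_lit 5) (nat_lit 20) (nat_lit 5) (nat_lit 18) (nat_lit 4) (nat_lit 302) (nat_lit 290) (nat_lit 188)) (XT.lf (nat_lit 0) (nat_lit 329685573463)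 (nat_lit 76) (nat_lit 244150091756) (nat_lit 152) (nat_lit 202742897680) (nat_lit 16) (nat_lit 5) (nat_lit 17) (nat_lit 5) (nat_lit 18) (nat_lit 4) (nat_lit 303) (nat_lit 290) (nat_lit 187)))))) (XT.nd (nat_lit 390) (nat_lit 228) (nat_lit 0) (XT.nd (nat_lit 156) (nat_lit 152) (nat_lit 0) (XT.nd (nat_lit 78) (nat_lit 152) (nat_lit 0) (XT.lf (nat_lit 0) (nat_lit 802391294716) (nat_lit 152) (nat_lit 34960284375) (nat_lit 0) (nat_lit 16251144468) (nat_lit 16) (nat_lit 5) (nat_lit 18) (nat_lit 4) (nat_lit 16) (nat_lit 4) (nat_lit 304) (nat_lit 290) (nat_lit 186)) (XT.lf (nat_lit 0) (nat_lit 144614616714) (nat_lit 152) (nat_lit 475218774236) (nat_lit 76) (nat_lit 316704893646) (nat_lit 14) (nat_lit 5) (nat_lit 16) (nat_lit 5) (nat_lit 15) (nat_lit 4) (nat_lit 305) (nat_lit 290) (nat_lit 185))) (XT.nd (nat_lit 78) (nat_lit 76) (nat_lit 0) (XT.lf (nat_lit 0) (nat_lit 1980901356) (nat_lit 76)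 (nat_lit 364587073035) (nat_lit 152) (nat_lit 664680937497) (nat_lit 13) (nat_lit 5) (nat_lit 14) (nat_lit 5) (nat_lit 15) (nat_lit 4) (nat_lit 306) (nat_lit 290) (nat_lit 184)) (XT.nd (nat_lit 78) (nat_lit 76) (nat_lit 0) (XT.lf (nat_lit 0) (nat_lit 604168576669) (nat_lit 76) (nat_lit 42486706124) (nat_lit 152) (nat_lit 489784708457) (nat_lit 13) (nat_lit 5) (nat_lit 14) (nat_lit 5) (nat_lit 15) (nat_lit 4) (nat_lit 307) (nat_lit 290) (nat_lit 183)) (XT.lf (nat_lit 0) (nat_lit 28206963847) (nat_lit 76) (nat_lit 955295511826) (nat_lit 76) (nat_lit 271695238640) (nat_lit 12) (nat_lit 4) (nat_lit 13) (nat_lit 5) (nat_lit 13) (nat_lit 4) (nat_lit 308) (nat_lit 290) (nat_lit 182))))) (XT.nd (nat_lit 156) (nat_lit 152) (nat_lit 0) (XT.nd (nat_lit 78) (nat_lit 0) (nat_lit 0) (XT.lf (nat_lit 0) (nat_lit 12138975506) (nat_lit 152) (nat_lit 657501500668) (nat_lit 76) (nat_lit 717582684445) (nat_lit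 11) (nat_lit 5) (nat_lit 13) (nat_lit 5) (nat_lit 12) (nat_lit 4) (nat_lit 309) (nat_lit 290) (nat_lit 181)) (XT.lf (nat_lit 0) (nat_lit 310731877998) (nat_lit 152) (nat_lit 15526781893) (nat_lit 76) (nat_lit 1210853087697) (nat_lit 11) (nat_lit 5) (nat_lit 13) (nat_lit 5) (nat_lit 12) (nat_lit 4) (nat_lit 310) (nat_lit 290) (nat_lit 180))) (XT.nd (nat_lit 78) (nat_lit 76) (nat_lit 0) (XT.lf (nat_lit 0) (nat_lit 691371917462) (nat_lit 152) (nat_lit 915586134291) (nat_lit 0) (nat_lit 96936840628) (nat_lit 10) (nat_lit 5) (nat_lit 12) (nat_lit 4) (nat_lit 10) (nat_lit 4) (nat_lit 311) (nat_lit 290) (nat_lit 179)) (XT.nd (nat_lit 78) (nat_lit 76) (nat_lit 0) (XT.lf (nat_lit 0) (nat_lit 1145494343095) (nat_lit 152) (nat_lit 196683956708) (nat_lit 0) (nat_lit 551059252069) (nat_lit 10) (nat_lit 5) (nat_lit 12) (nat_lit 4) (nat_lit 10) (nat_lit 4) (nat_lit 312) (nat_lit 290) (nat_lit 178))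 (XT.lf (nat_lit 0) (nat_lit 691626920429) (nat_lit 76) (nat_lit 1004746988400) (nat_lit 76) (nat_lit 410311885033) (nat_lit 9) (nat_lit 4) (nat_lit 10) (nat_lit 5) (nat_lit 10) (nat_lit 4) (nat_lit 313) (nat_lit 290) (nat_lit 177))))))) (XT.nd (nat_lit 780) (nat_lit 76) (nat_lit 0) (XT.nd (nat_lit 390) (nat_lit 152) (nat_lit 0) (XT.nd (nat_lit 156) (nat_lit 76) (nat_lit 0) (XT.nd (nat_lit 78) (nat_lit 152) (nat_lit 0) (XT.lf (nat_lit 0) (nat_lit 1735288987337) (nat_lit 76) (nat_lit 604877610342) (nat_lit 76) (nat_lit 10442496244) (nat_lit 9) (nat_lit 4) (nat_lit 10) (nat_lit 5) (nat_lit 10) (nat_lit 4) (nat_lit 314) (nat_lit 290) (nat_lit 176)) (XT.lf (nat_lit 0) (nat_lit 313698010048) (nat_lit 76) (nat_lit 108689493894) (nat_lit 152) (nat_lit 2203993603058) (nat_lit 7) (nat_lit 5) (nat_lit 8) (nat_lit 5) (nat_lit 9) (nat_lit 4) (nat_lit 315) (nat_lit 290) (nat_lit 175))) (XT.nd (nat_lit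 78) (nat_lit 76) (nat_lit 0) (XT.lf (nat_lit 0) (nat_lit 971896381211) (nat_lit 152) (nat_lit 1508628161288) (nat_lit 0) (nat_lit 454996266825) (nat_lit 7) (nat_lit 5) (nat_lit 9) (nat_lit 4) (nat_lit 7) (nat_lit 4) (nat_lit 316) (nat_lit 290) (nat_lit 174)) (XT.nd (nat_lit 78) (nat_lit 76) (nat_lit 0) (XT.lf (nat_lit 0) (nat_lit 1609007265738) (nat_lit 152) (nat_lit 589140704699) (nat_lit 0) (nat_lit 1092107145217) (nat_lit 7) (nat_lit 5) (nat_lit 9) (nat_lit 4) (nat_lit 7) (nat_lit 4) (nat_lit 317) (nat_lit 290) (nat_lit 173)) (XT.lf (nat_lit 0) (nat_lit 514032579798) (nat_lit 76) (nat_lit 1848937183474) (nat_lit 76) (nat_lit 1332037057618) (nat_lit 6) (nat_lit 4) (nat_lit 7) (nat_lit 5) (nat_lit 7) (nat_lit 4) (nat_lit 318) (nat_lit 290) (nat_lit 172))))) (XT.nd (nat_lit 156) (nat_lit 152) (nat_lit 0) (XT.nd (nat_lit 78) (nat_lit 0) (nat_lit 0) (XT.lf (nat_lit 0) (nat_lit 1848893214171)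 (nat_lit 76) (nat_lit 1411929400666) (nat_lit 76) (nat_lit 895029270170) (nat_lit 6) (nat_lit 4) (nat_lit 7) (nat_lit 5) (nat_lit 7) (nat_lit 4) (nat_lit 319) (nat_lit 290) (nat_lit 171)) (XT.lf (nat_lit 0) (nat_lit 3383982922595) (nat_lit 76) (nat_lit 909370461121) (nat_lit 76) (nat_lit 392470326591) (nat_lit 6) (nat_lit 4) (nat_lit 7) (nat_lit 5) (nat_lit 7) (nat_lit 4) (nat_lit 320) (nat_lit 290) (nat_lit 170))) (XT.nd (nat_lit 78) (nat_lit 76) (nat_lit 0) (XT.lf (nat_lit 0) (nat_lit 168960408207) (nat_lit 152) (nat_lit 153635260390) (nat_lit 76) (nat_lit 4971543639385) (nat_lit 5) (nat_lit 5) (nat_lit 7) (nat_lit 5) (nat_lit 6) (nat_lit 4) (nat_lit 321) (nat_lit 290) (nat_lit 169)) (XT.nd (nat_lit 78) (nat_lit 0) (nat_lit 0) (XT.lf (nat_lit 0) (nat_lit 844569873042) (nat_lit 152) (nat_lit 4740715682463) (nat_lit 0) (nat_lit 395091489487) (nat_lit 4) (nat_lit 5) (nat_lit 6) (nat_lit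 4) (nat_lit 4) (nat_lit 4) (nat_lit 322) (nat_lit 290) (nat_lit 168)) (XT.lf (nat_lit 0) (nat_lit 1645295807424) (nat_lit 152) (nat_lit 3924870956096) (nat_lit 0) (nat_lit 1195817421562) (nat_lit 4) (nat_lit 5) (nat_lit 6) (nat_lit 4) (nat_lit 4) (nat_lit 4) (nat_lit 323) (nat_lit 290) (nat_lit 167)))))) (XT.nd (nat_lit 390) (nat_lit 0) (nat_lit 0) (XT.nd (nat_lit 156) (nat_lit 76) (nat_lit 0) (XT.nd (nat_lit 78) (nat_lit 0) (nat_lit 0) (XT.lf (nat_lit 0) (nat_lit 2566130624849) (nat_lit 152) (nat_lit 2986649535424) (nat_lit 0) (nat_lit 2116652236982) (nat_lit 4) (nat_lit 5) (nat_lit 6) (nat_lit 4) (nat_lit 4) (nat_lit 4) (nat_lit 324) (nat_lit 290) (nat_lit 166)) (XT.lf (nat_lit 0) (nat_lit 3625090658703) (nat_lit 152) (nat_lit 1907694914389) (nat_lit 0) (nat_lit 3175612269091) (nat_lit 4) (nat_lit 5) (nat_lit 6) (nat_lit 4) (nat_lit 4) (nat_lit 4) (nat_lit 325) (nat_lit 290) (nat_lit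 165))) (XT.nd (nat_lit 78) (nat_lit 76) (nat_lit 0) (XT.lf (nat_lit 0) (nat_lit 4842894692255) (nat_lit 152) (nat_lit 666897111277) (nat_lit 0) (nat_lit 4393416301127) (nat_lit 4) (nat_lit 5) (nat_lit 6) (nat_lit 4) (nat_lit 4) (nat_lit 4) (nat_lit 326) (nat_lit 290) (nat_lit 164)) (XT.nd (nat_lit 78) (nat_lit 0) (nat_lit 0) (XT.lf (nat_lit 0) (nat_lit 834295068953) (nat_lit 76) (nat_lit 5443620636877) (nat_lit 76) (nat_lit 4994142244430) (nat_lit 3) (nat_lit 4) (nat_lit 4) (nat_lit 5) (nat_lit 4) (nat_lit 4) (nat_lit 327) (nat_lit 290) (nat_lit 163)) (XT.lf (nat_lit 0) (nat_lit 2635616208279) (nat_lit 76) (nat_lit 5327434189531) (nat_lit 76) (nat_lit 4877955795937) (nat_lit 3) (nat_lit 4) (nat_lit 4) (nat_lit 5) (nat_lit 4) (nat_lit 4) (nat_lit 328) (nat_lit 290) (nat_lit 162))))) (XT.nd (nat_lit 156) (nat_lit 0) (nat_lit 0) (XT.nd (nat_lit 78) (nat_lit 0) (nat_lit 0) (XT.lf (nat_lit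 0) (nat_lit 4707135510510) (nat_lit 76) (nat_lit 5193819779209) (nat_lit 76) (nat_lit 4744341384618) (nat_lit 3) (nat_lit 4) (nat_lit 4) (nat_lit 5) (nat_lit 4) (nat_lit 4) (nat_lit 329) (nat_lit 290) (nat_lit 161)) (XT.lf (nat_lit 0) (nat_lit 7089382701123) (nat_lit 76) (nat_lit 5040163210929) (nat_lit 76) (nat_lit 4590684815471) (nat_lit 3) (nat_lit 4) (nat_lit 4) (nat_lit 5) (nat_lit 4) (nat_lit 4) (nat_lit 330) (nat_lit 290) (nat_lit 160))) (XT.nd (nat_lit 78) (nat_lit 0) (nat_lit 0) (XT.lf (nat_lit 0) (nat_lit 9828966964282) (nat_lit 76) (nat_lit 4863458160528) (nat_lit 76) (nat_lit 4413979764315) (nat_lit 3) (nat_lit 4) (nat_lit 4) (nat_lit 5) (nat_lit 4) (nat_lit 4) (nat_lit 331) (nat_lit 290) (nat_lit 159)) (XT.nd (nat_lit 78) (nat_lit 0) (nat_lit 0) (XT.lf (nat_lit 0) (nat_lit 12979488861659) (nat_lit 76) (nat_lit 4660247355280) (nat_lit 76) (nat_lit 4210768958412) (nat_lit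 3) (nat_lit 4) (nat_lit 4) (nat_lit 5) (nat_lit 4) (nat_lit 4) (nat_lit 332) (nat_lit 290) (nat_lit 158)) (XT.lf (nat_lit 0) (nat_lit 16602589039070) (nat_lit 76) (nat_lit 4426554931604) (nat_lit 76) (nat_lit 3977076534167) (nat_lit 3) (nat_lit 4) (nat_lit 4) (nat_lit 5) (nat_lit 4) (nat_lit 4) (nat_lit 333) (nat_lit 290) (nat_lit 157))))))))
noncomputable def xc101 : XT := (XT.nd (nat_lit 38064) (nat_lit 0) (nat_lit 380) (XT.nd (nat_lit 37284) (nat_lit 0) (nat_lit 1368) (XT.nd (nat_lit 390) (nat_lit 152) (nat_lit 0) (XT.nd (nat_lit 156) (nat_lit 0) (nat_lit 0) (XT.nd (nat_lit 78) (nat_lit 0) (nat_lit 0) (XT.lf (nat_lit 0) (nat_lit 20769154239118) (nat_lit 76) (nat_lit 4157808646430) (nat_lit 76) (nat_lit 3708330248496) (nat_lit 3) (nat_lit 4) (nat_lit 4) (nat_lit 5) (nat_lit 4) (nat_lit 4) (nat_lit 334) (nat_lit 290) (nat_lit 156)) (XT.lf (nat_lit 0) (nat_lit 25560704215717) (nat_lit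 76) (nat_lit 3848750420264) (nat_lit 76) (nat_lit 3399272021899) (nat_lit 3) (nat_lit 4) (nat_lit 4) (nat_lit 5) (nat_lit 4) (nat_lit 4) (nat_lit 335) (nat_lit 290) (nat_lit 155))) (XT.nd (nat_lit 78) (nat_lit 0) (nat_lit 0) (XT.lf (nat_lit 0) (nat_lit 31070986685800) (nat_lit 76) (nat_lit 3493333461724) (nat_lit 76) (nat_lit 3043855062985) (nat_lit 3) (nat_lit 4) (nat_lit 4) (nat_lit 5) (nat_lit 4) (nat_lit 4) (nat_lit 336) (nat_lit 290) (nat_lit 154)) (XT.nd (nat_lit 78) (nat_lit 0) (nat_lit 0) (XT.lf (nat_lit 0) (nat_lit 37407811523782) (nat_lit 76) (nat_lit 3084603960753) (nat_lit 76) (nat_lit 2635125561688) (nat_lit 3) (nat_lit 4) (nat_lit 4) (nat_lit 5) (nat_lit 4) (nat_lit 4) (nat_lit 337) (nat_lit 290) (nat_lit 153)) (XT.lf (nat_lit 0) (nat_lit 44695160085189) (nat_lit 76) (nat_lit 2614565035810) (nat_lit 76) (nat_lit 2165086636461) (nat_lit 3) (nat_lit 4) (nat_lit 4) (nat_lit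 5) (nat_lit 4) (nat_lit 4) (nat_lit 338) (nat_lit 290) (nat_lit 152))))) (XT.nd (nat_lit 156) (nat_lit 152) (nat_lit 0) (XT.nd (nat_lit 78) (nat_lit 0) (nat_lit 0) (XT.lf (nat_lit 0) (nat_lit 53075610928830) (nat_lit 76) (nat_lit 2074020273145) (nat_lit 76) (nat_lit 1624541873549) (nat_lit 3) (nat_lit 4) (nat_lit 4) (nat_lit 5) (nat_lit 4) (nat_lit 4) (nat_lit 339) (nat_lit 290) (nat_lit 151)) (XT.lf (nat_lit 0) (nat_lit 62713129397298) (nat_lit 76) (nat_lit 1452393796968) (nat_lit 76) (nat_lit 1002915397158) (nat_lit 3) (nat_lit 4) (nat_lit 4) (nat_lit 5) (nat_lit 4) (nat_lit 4) (nat_lit 340) (nat_lit 290) (nat_lit 150))) (XT.nd (nat_lit 78) (nat_lit 152) (nat_lit 0) (XT.lf (nat_lit 0) (nat_lit 73796275634543) (nat_lit 76) (nat_lit 737523350135) (nat_lit 76) (nat_lit 288044950139) (nat_lit 3) (nat_lit 4) (nat_lit 4) (nat_lit 5) (nat_lit 4) (nat_lit 4) (nat_lit 341) (nat_lit 290) (nat_lit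 149)) (XT.nd (nat_lit 78) (nat_lit 0) (nat_lit 0) (XT.lf (nat_lit 0) (nat_lit 519471628938) (nat_lit 152) (nat_lit 85266906346850) (nat_lit 0) (nat_lit 128620846191) (nat_lit 1) (nat_lit 5) (nat_lit 3) (nat_lit 4) (nat_lit 1) (nat_lit 4) (nat_lit 342) (nat_lit 290) (nat_lit 148)) (XT.lf (nat_lit 0) (nat_lit 1509907611015) (nat_lit 152) (nat_lit 96027412704255) (nat_lit 0) (nat_lit 1119056828146) (nat_lit 1) (nat_lit 5) (nat_lit 3) (nat_lit 4) (nat_lit 1) (nat_lit 4) (nat_lit 343) (nat_lit 290) (nat_lit 147)))))) (XT.nd (nat_lit 390) (nat_lit 456) (nat_lit 0) (XT.nd (nat_lit 156) (nat_lit 0) (nat_lit 76) (XT.nd (nat_lit 78) (nat_lit 0) (nat_lit 0) (XT.lf (nat_lit 0) (nat_lit 31695934984) (nat_lit 380) (nat_lit 61524152384) (nat_lit 380) (nat_lit 61524152384) (nat_lit 25) (nat_lit 3) (nat_lit 30) (nat_lit 3) (nat_lit 30) (nat_lit 5) (nat_lit 291) (nat_lit 291) (nat_lit 198)) (XT.lf (nat_lit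 76) (nat_lit 26959787427) (nat_lit 0) (nat_lit 42303444482) (nat_lit 380) (nat_lit 263269336153) (nat_lit 26) (nat_lit 5) (nat_lit 25) (nat_lit 3) (nat_lit 30) (nat_lit 5) (nat_lit 292) (nat_lit 291) (nat_lit 197))) (XT.nd (nat_lit 78) (nat_lit 0) (nat_lit 0) (XT.lf (nat_lit 0) (nat_lit 87865503811) (nat_lit 304) (nat_lit 150188751377) (nat_lit 380) (nat_lit 119201484159) (nat_lit 26) (nat_lit 5) (nat_lit 30) (nat_lit 5) (nat_lit 31) (nat_lit 5) (nat_lit 293) (nat_lit 291) (nat_lit 196)) (XT.nd (nat_lit 78) (nat_lit 0) (nat_lit 76) (XT.lf (nat_lit 76) (nat_lit 29076989321) (nat_lit 0) (nat_lit 83399495405) (nat_lit 380) (nat_lit 272728146620) (nat_lit 27) (nat_lit 5) (nat_lit 26) (nat_lit 5) (nat_lit 31) (nat_lit 5) (nat_lit 294) (nat_lit 291) (nat_lit 195)) (XT.lf (nat_lit 0) (nat_lit 152914764584) (nat_lit 304) (nat_lit 168341533940) (nat_lit 76) (nat_lit 94269211073) (nat_lit 27)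 (nat_lit 5) (nat_lit 31) (nat_lit 5) (nat_lit 28) (nat_lit 5) (nat_lit 295) (nat_lit 291) (nat_lit 194))))) (XT.nd (nat_lit 156) (nat_lit 304) (nat_lit 0) (XT.nd (nat_lit 78) (nat_lit 0) (nat_lit 0) (XT.lf (nat_lit 0) (nat_lit 47905925809) (nat_lit 304) (nat_lit 157467871374) (nat_lit 380) (nat_lit 244127470981) (nat_lit 23) (nat_lit 5) (nat_lit 27) (nat_lit 5) (nat_lit 28) (nat_lit 5) (nat_lit 296) (nat_lit 291) (nat_lit 193)) (XT.lf (nat_lit 0) (nat_lit 276199358579) (nat_lit 380) (nat_lit 173441798269) (nat_lit 76) (nat_lit 37357582750) (nat_lit 23) (nat_lit 5) (nat_lit 28) (nat_lit 5) (nat_lit 24) (nat_lit 5) (nat_lit 297) (nat_lit 291) (nat_lit 192))) (XT.nd (nat_lit 78) (nat_lit 152) (nat_lit 0) (XT.lf (nat_lit 0) (nat_lit 89394775717) (nat_lit 152) (nat_lit 279454035297) (nat_lit 228) (nat_lit 159592012356) (nat_lit 21) (nat_lit 5) (nat_lit 23) (nat_lit 5) (nat_lit 24) (nat_lit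 5) (nat_lit 298) (nat_lit 291) (nat_lit 191)) (XT.nd (nat_lit 78) (nat_lit 152) (nat_lit 0) (XT.lf (nat_lit 0) (nat_lit 411149259362) (nat_lit 152) (nat_lit 73312642492) (nat_lit 228) (nat_lit 90277384898) (nat_lit 21) (nat_lit 5) (nat_lit 23) (nat_lit 5) (nat_lit 24) (nat_lit 5) (nat_lit 299) (nat_lit 291) (nat_lit 190)) (XT.lf (nat_lit 0) (nat_lit 4450033651) (nat_lit 152) (nat_lit 465458077719) (nat_lit 76) (nat_lit 156028786366) (nat_lit 19) (nat_lit 5) (nat_lit 21) (nat_lit 5) (nat_lit 20) (nat_lit 5) (nat_lit 300) (nat_lit 291) (nat_lit 189))))))) (XT.nd (nat_lit 780) (nat_lit 380) (nat_lit 0) (XT.nd (nat_lit 390) (nat_lit 380) (nat_lit 0) (XT.nd (nat_lit 156) (nat_lit 76) (nat_lit 0) (XT.nd (nat_lit 78) (nat_lit 152) (nat_lit 0) (XT.lf (nat_lit 0) (nat_lit 116593412930) (nat_lit 152) (nat_lit 140185447744) (nat_lit 76) (nat_lit 425523021424) (nat_lit 19) (nat_lit 5) (nat_lit 21)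 (nat_lit 5) (nat_lit 20) (nat_lit 5) (nat_lit 301) (nat_lit 291) (nat_lit 188)) (XT.lf (nat_lit 0) (nat_lit 256211652663) (nat_lit 228) (nat_lit 488815295476) (nat_lit 76) (nat_lit 496663014) (nat_lit 17) (nat_lit 5) (nat_lit 20) (nat_lit 5) (nat_lit 18) (nat_lit 4) (nat_lit 302) (nat_lit 291) (nat_lit 187))) (XT.nd (nat_lit 78) (nat_lit 76) (nat_lit 0) (XT.lf (nat_lit 0) (nat_lit 436676976498) (nat_lit 228) (nat_lit 100814915256) (nat_lit 76) (nat_lit 277751055654) (nat_lit 17) (nat_lit 5) (nat_lit 20) (nat_lit 5) (nat_lit 18) (nat_lit 4) (nat_lit 303) (nat_lit 291) (nat_lit 186)) (XT.nd (nat_lit 78) (nat_lit 0) (nat_lit 0) (XT.lf (nat_lit 0) (nat_lit 379139047816) (nat_lit 76) (nat_lit 280772356815) (nat_lit 152) (nat_lit 233153883667) (nat_lit 16) (nat_lit 5) (nat_lit 17) (nat_lit 5) (nat_lit 18) (nat_lit 4) (nat_lit 304) (nat_lit 291) (nat_lit 185)) (XT.lf (nat_lit 0) (nat_lit 922750336687)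 (nat_lit 152) (nat_lit 40203729577) (nat_lit 0) (nat_lit 18689013150) (nat_lit 16) (nat_lit 5) (nat_lit 18) (nat_lit 4) (nat_lit 16) (nat_lit 4) (nat_lit 305) (nat_lit 291) (nat_lit 184))))) (XT.nd (nat_lit 156) (nat_lit 152) (nat_lit 0) (XT.nd (nat_lit 78) (nat_lit 76) (nat_lit 0) (XT.lf (nat_lit 0) (nat_lit 166307151171) (nat_lit 152) (nat_lit 546500986268) (nat_lit 76) (nat_lit 364210838165) (nat_lit 14) (nat_lit 5) (nat_lit 16) (nat_lit 5) (nat_lit 15) (nat_lit 4) (nat_lit 306) (nat_lit 291) (nat_lit 183)) (XT.lf (nat_lit 0) (nat_lit 2278613203) (nat_lit 76) (nat_lit 419274878571) (nat_lit 152) (nat_lit 764382708375) (nat_lit 13) (nat_lit 5) (nat_lit 14) (nat_lit 5) (nat_lit 15) (nat_lit 4) (nat_lit 307) (nat_lit 291) (nat_lit 182))) (XT.nd (nat_lit 78) (nat_lit 152) (nat_lit 0) (XT.lf (nat_lit 0) (nat_lit 694794364599) (nat_lit 76) (nat_lit 48859489939) (nat_lit 152) (nat_lit 563252093206)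 (nat_lit 13) (nat_lit 5) (nat_lit 14) (nat_lit 5) (nat_lit 15) (nat_lit 4) (nat_lit 308) (nat_lit 291) (nat_lit 181)) (XT.nd (nat_lit 78) (nat_lit 76) (nat_lit 0) (XT.lf (nat_lit 0) (nat_lit 32438518558) (nat_lit 76) (nat_lit 1098589600479) (nat_lit 76) (nat_lit 312449211365) (nat_lit 12) (nat_lit 4) (nat_lit 13) (nat_lit 5) (nat_lit 13) (nat_lit 4) (nat_lit 309) (nat_lit 291) (nat_lit 180)) (XT.lf (nat_lit 0) (nat_lit 13960069831) (nat_lit 152) (nat_lit 756126257744) (nat_lit 76) (nat_lit 825220269744) (nat_lit 11) (nat_lit 5) (nat_lit 13) (nat_lit 5) (nat_lit 12) (nat_lit 4) (nat_lit 310) (nat_lit 291) (nat_lit 179)))))) (XT.nd (nat_lit 390) (nat_lit 228) (nat_lit 0) (XT.nd (nat_lit 156) (nat_lit 76) (nat_lit 0) (XT.nd (nat_lit 78) (nat_lit 76) (nat_lit 0) (XT.lf (nat_lit 0) (nat_lit 357341875350) (nat_lit 152) (nat_lit 17855392199) (nat_lit 76) (nat_lit 1392481209662) (nat_lit 11)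 (nat_lit 5) (nat_lit 13) (nat_lit 5) (nat_lit 12) (nat_lit 4) (nat_lit 311) (nat_lit 291) (nat_lit 178)) (XT.lf (nat_lit 0) (nat_lit 795077916346) (nat_lit 152) (nat_lit 1052923642924) (nat_lit 0) (nat_lit 111477535133) (nat_lit 10) (nat_lit 5) (nat_lit 12) (nat_lit 4) (nat_lit 10) (nat_lit 4) (nat_lit 312) (nat_lit 291) (nat_lit 177))) (XT.nd (nat_lit 78) (nat_lit 76) (nat_lit 0) (XT.lf (nat_lit 0) (nat_lit 1317318678267) (nat_lit 152) (nat_lit 226186192379) (nat_lit 0) (nat_lit 633718286324) (nat_lit 10) (nat_lit 5) (nat_lit 12) (nat_lit 4) (nat_lit 10) (nat_lit 4) (nat_lit 313) (nat_lit 291) (nat_lit 176)) (XT.nd (nat_lit 78) (nat_lit 0) (nat_lit 0) (XT.lf (nat_lit 0) (nat_lit 795371300064) (nat_lit 76) (nat_lit 1155458868979) (nat_lit 76) (nat_lit 471858467704) (nat_lit 9) (nat_lit 4) (nat_lit 10) (nat_lit 5) (nat_lit 10) (nat_lit 4) (nat_lit 314) (nat_lit 291) (nat_lit 175)) (XT.lf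 (nat_lit 0) (nat_lit 1995582632455) (nat_lit 76) (nat_lit 695609106084) (nat_lit 76) (nat_lit 12008696694) (nat_lit 9) (nat_lit 4) (nat_lit 10) (nat_lit 5) (nat_lit 10) (nat_lit 4) (nat_lit 315) (nat_lit 291) (nat_lit 174))))) (XT.nd (nat_lit 234) (nat_lit 76) (nat_lit 0) (XT.nd (nat_lit 78) (nat_lit 0) (nat_lit 0) (XT.lf (nat_lit 0) (nat_lit 360753009938) (nat_lit 76) (nat_lit 124992769775) (nat_lit 152) (nat_lit 2534592470739) (nat_lit 7) (nat_lit 5) (nat_lit 8) (nat_lit 5) (nat_lit 9) (nat_lit 4) (nat_lit 316) (nat_lit 291) (nat_lit 173)) (XT.nd (nat_lit 78) (nat_lit 0) (nat_lit 0) (XT.lf (nat_lit 0) (nat_lit 1117680974319) (nat_lit 152) (nat_lit 1734922111703) (nat_lit 0) (nat_lit 523245824249) (nat_lit 7) (nat_lit 5) (nat_lit 9) (nat_lit 4) (nat_lit 7) (nat_lit 4) (nat_lit 317) (nat_lit 291) (nat_lit 172)) (XT.lf (nat_lit 0) (nat_lit 1850358473796) (nat_lit 152) (nat_lit 677511572336)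 (nat_lit 0) (nat_lit 1255923319086) (nat_lit 7) (nat_lit 5) (nat_lit 9) (nat_lit 4) (nat_lit 7) (nat_lit 4) (nat_lit 318) (nat_lit 291) (nat_lit 171)))) (XT.nd (nat_lit 78) (nat_lit 0) (nat_lit 0) (XT.lf (nat_lit 0) (nat_lit 591137694014) (nat_lit 76) (nat_lit 2126277645939) (nat_lit 76) (nat_lit 1531842487195) (nat_lit 6) (nat_lit 4) (nat_lit 7) (nat_lit 5) (nat_lit 7) (nat_lit 4) (nat_lit 319) (nat_lit 291) (nat_lit 170)) (XT.nd (nat_lit 78) (nat_lit 0) (nat_lit 0) (XT.lf (nat_lit 0) (nat_lit 2126227393903) (nat_lit 76) (nat_lit 1623718710716) (nat_lit 76) (nat_lit 1029283548464) (nat_lit 6) (nat_lit 4) (nat_lit 7) (nat_lit 5) (nat_lit 7) (nat_lit 4) (nat_lit 320) (nat_lit 291) (nat_lit 169)) (XT.lf (nat_lit 0) (nat_lit 3891580532816) (nat_lit 76) (nat_lit 1045775943289) (nat_lit 76) (nat_lit 451340777987) (nat_lit 6) (nat_lit 4) (nat_lit 7) (nat_lit 5) (nat_lit 7) (nat_lit 4) (nat_lit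 321) (nat_lit 291) (nat_lit 168))))))))
noncomputable def xc102 : XT := (XT.nd (nat_lit 1560) (nat_lit 0) (nat_lit 0) (XT.nd (nat_lit 780) (nat_lit 0) (nat_lit 0) (XT.nd (nat_lit 390) (nat_lit 76) (nat_lit 0) (XT.nd (nat_lit 156) (nat_lit 0) (nat_lit 0) (XT.nd (nat_lit 78) (nat_lit 76) (nat_lit 0) (XT.lf (nat_lit 0) (nat_lit 194304546746) (nat_lit 152) (nat_lit 176680392448) (nat_lit 76) (nat_lit 5717275253362) (nat_lit 5) (nat_lit 5) (nat_lit 7) (nat_lit 5) (nat_lit 6) (nat_lit 4) (nat_lit 322) (nat_lit 291) (nat_lit 167)) (XT.lf (nat_lit 0) (nat_lit 971255430593) (nat_lit 152) (nat_lit 5451822877095) (nat_lit 0) (nat_lit 454355282540) (nat_lit 4) (nat_lit 5) (nat_lit 6) (nat_lit 4) (nat_lit 4) (nat_lit 4) (nat_lit 323) (nat_lit 291) (nat_lit 166))) (XT.nd (nat_lit 78) (nat_lit 0) (nat_lit 0) (XT.lf (nat_lit 0) (nat_lit 1892090245142) (nat_lit 152) (nat_lit 4513601462347) (nat_lit 0)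 (nat_lit 1375190095344) (nat_lit 4) (nat_lit 5) (nat_lit 6) (nat_lit 4) (nat_lit 4) (nat_lit 4) (nat_lit 324) (nat_lit 291) (nat_lit 165)) (XT.nd (nat_lit 78) (nat_lit 0) (nat_lit 0) (XT.lf (nat_lit 0) (nat_lit 2951050276493) (nat_lit 152) (nat_lit 3434646846465) (nat_lit 0) (nat_lit 2434150125179) (nat_lit 4) (nat_lit 5) (nat_lit 6) (nat_lit 4) (nat_lit 4) (nat_lit 4) (nat_lit 325) (nat_lit 291) (nat_lit 164)) (XT.lf (nat_lit 0) (nat_lit 4168854307870) (nat_lit 152) (nat_lit 2193849047833) (nat_lit 0) (nat_lit 3651954155238) (nat_lit 4) (nat_lit 5) (nat_lit 6) (nat_lit 4) (nat_lit 4) (nat_lit 4) (nat_lit 326) (nat_lit 291) (nat_lit 163))))) (XT.nd (nat_lit 156) (nat_lit 0) (nat_lit 0) (XT.nd (nat_lit 78) (nat_lit 76) (nat_lit 0) (XT.lf (nat_lit 0) (nat_lit 5569328939887) (nat_lit 152) (nat_lit 766931587782) (nat_lit 0) (nat_lit 5052428786107) (nat_lit 4) (nat_lit 5) (nat_lit 6) (nat_lit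 4) (nat_lit 4) (nat_lit 4) (nat_lit 327) (nat_lit 291) (nat_lit 162)) (XT.lf (nat_lit 0) (nat_lit 959439415383) (nat_lit 76) (nat_lit 6260163687967) (nat_lit 76) (nat_lit 5743263533190) (nat_lit 3) (nat_lit 4) (nat_lit 4) (nat_lit 5) (nat_lit 4) (nat_lit 4) (nat_lit 328) (nat_lit 291) (nat_lit 161))) (XT.nd (nat_lit 78) (nat_lit 0) (nat_lit 0) (XT.lf (nat_lit 0) (nat_lit 3030958714380) (nat_lit 76) (nat_lit 6126549279315) (nat_lit 76) (nat_lit 5609649123671) (nat_lit 3) (nat_lit 4) (nat_lit 4) (nat_lit 5) (nat_lit 4) (nat_lit 4) (nat_lit 329) (nat_lit 291) (nat_lit 160)) (XT.nd (nat_lit 78) (nat_lit 0) (nat_lit 0) (XT.lf (nat_lit 0) (nat_lit 5413205902181) (nat_lit 76) (nat_lit 5972892712487) (nat_lit 76) (nat_lit 5455992556089) (nat_lit 3) (nat_lit 4) (nat_lit 4) (nat_lit 5) (nat_lit 4) (nat_lit 4) (nat_lit 330) (nat_lit 291) (nat_lit 159)) (XT.lf (nat_lit 0) (nat_lit 8152790162895)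 (nat_lit 76) (nat_lit 5796187663347) (nat_lit 76) (nat_lit 5279287506294) (nat_lit 3) (nat_lit 4) (nat_lit 4) (nat_lit 5) (nat_lit 4) (nat_lit 4) (nat_lit 331) (nat_lit 291) (nat_lit 158)))))) (XT.nd (nat_lit 390) (nat_lit 0) (nat_lit 0) (XT.nd (nat_lit 156) (nat_lit 0) (nat_lit 0) (XT.nd (nat_lit 78) (nat_lit 0) (nat_lit 0) (XT.lf (nat_lit 0) (nat_lit 11303312058146) (nat_lit 76) (nat_lit 5592976859197) (nat_lit 76) (nat_lit 5076076701573) (nat_lit 3) (nat_lit 4) (nat_lit 4) (nat_lit 5) (nat_lit 4) (nat_lit 4) (nat_lit 332) (nat_lit 291) (nat_lit 157)) (XT.lf (nat_lit 0) (nat_lit 14926412233708) (nat_lit 76) (nat_lit 5359284436476) (nat_lit 76) (nat_lit 4842384278357) (nat_lit 3) (nat_lit 4) (nat_lit 4) (nat_lit 5) (nat_lit 4) (nat_lit 4) (nat_lit 333) (nat_lit 291) (nat_lit 156))) (XT.nd (nat_lit 78) (nat_lit 0) (nat_lit 0) (XT.lf (nat_lit 0) (nat_lit 19092977432149) (nat_lit 76) (nat_lit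 5090538152132) (nat_lit 76) (nat_lit 4573637993581) (nat_lit 3) (nat_lit 4) (nat_lit 4) (nat_lit 5) (nat_lit 4) (nat_lit 4) (nat_lit 334) (nat_lit 291) (nat_lit 155)) (XT.nd (nat_lit 78) (nat_lit 0) (nat_lit 0) (XT.lf (nat_lit 0) (nat_lit 23884527407350) (nat_lit 76) (nat_lit 4781479926687) (nat_lit 76) (nat_lit 4264579767762) (nat_lit 3) (nat_lit 4) (nat_lit 4) (nat_lit 5) (nat_lit 4) (nat_lit 4) (nat_lit 335) (nat_lit 291) (nat_lit 154)) (XT.lf (nat_lit 0) (nat_lit 29394809876217) (nat_lit 76) (nat_lit 4426062968775) (nat_lit 76) (nat_lit 3909162809524) (nat_lit 3) (nat_lit 4) (nat_lit 4) (nat_lit 5) (nat_lit 4) (nat_lit 4) (nat_lit 336) (nat_lit 291) (nat_lit 153))))) (XT.nd (nat_lit 156) (nat_lit 0) (nat_lit 0) (XT.nd (nat_lit 78) (nat_lit 0) (nat_lit 0) (XT.lf (nat_lit 0) (nat_lit 35731634713142) (nat_lit 76) (nat_lit 4017333468350) (nat_lit 76) (nat_lit 3500433308815) (nat_lit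 3) (nat_lit 4) (nat_lit 4) (nat_lit 5) (nat_lit 4) (nat_lit 4) (nat_lit 337) (nat_lit 291) (nat_lit 152)) (XT.lf (nat_lit 0) (nat_lit 43018983273629) (nat_lit 76) (nat_lit 3547294543881) (nat_lit 76) (nat_lit 3030394384100) (nat_lit 3) (nat_lit 4) (nat_lit 4) (nat_lit 5) (nat_lit 4) (nat_lit 4) (nat_lit 338) (nat_lit 291) (nat_lit 151))) (XT.nd (nat_lit 78) (nat_lit 0) (nat_lit 0) (XT.lf (nat_lit 0) (nat_lit 51399434116471) (nat_lit 76) (nat_lit 3006749781629) (nat_lit 76) (nat_lit 2489849621633) (nat_lit 3) (nat_lit 4) (nat_lit 4) (nat_lit 5) (nat_lit 4) (nat_lit 4) (nat_lit 339) (nat_lit 291) (nat_lit 150)) (XT.nd (nat_lit 78) (nat_lit 0) (nat_lit 0) (XT.lf (nat_lit 0) (nat_lit 61036952584245) (nat_lit 76) (nat_lit 2385123305810) (nat_lit 76) (nat_lit 1868223145628) (nat_lit 3) (nat_lit 4) (nat_lit 4) (nat_lit 5) (nat_lit 4) (nat_lit 4) (nat_lit 340) (nat_lit 291) (nat_lit 149)) (XT.lf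 (nat_lit 0) (nat_lit 72120098820885) (nat_lit 76) (nat_lit 1670252859290) (nat_lit 76) (nat_lit 1153352698946) (nat_lit 3) (nat_lit 4) (nat_lit 4) (nat_lit 5) (nat_lit 4) (nat_lit 4) (nat_lit 341) (nat_lit 291) (nat_lit 148))))))) (XT.nd (nat_lit 37440) (nat_lit 0) (nat_lit 684) (XT.nd (nat_lit 37050) (nat_lit 0) (nat_lit 1368) (XT.nd (nat_lit 36816) (nat_lit 0) (nat_lit 1672) (XT.nd (nat_lit 36738) (nat_lit 0) (nat_lit 1672) (XT.lf (nat_lit 0) (nat_lit 84865716991892) (nat_lit 76) (nat_lit 848151846375) (nat_lit 76) (nat_lit 331251685889) (nat_lit 3) (nat_lit 4) (nat_lit 4) (nat_lit 5) (nat_lit 4) (nat_lit 4) (nat_lit 342) (nat_lit 291) (nat_lit 147)) (XT.lf (nat_lit 0) (nat_lit 36450923765) (nat_lit 380) (nat_lit 70752430293) (nat_lit 380) (nat_lit 70752430293) (nat_lit 25) (nat_lit 3) (nat_lit 30) (nat_lit 3) (nat_lit 30) (nat_lit 5) (nat_lit 292) (nat_lit 292) (nat_lit 196))) (XT.nd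 (nat_lit 78) (nat_lit 0) (nat_lit 76) (XT.lf (nat_lit 76) (nat_lit 31004414079) (nat_lit 0) (nat_lit 48649370814) (nat_lit 380) (nat_lit 302758505397) (nat_lit 26) (nat_lit 5) (nat_lit 25) (nat_lit 3) (nat_lit 30) (nat_lit 5) (nat_lit 293) (nat_lit 292) (nat_lit 195)) (XT.nd (nat_lit 78) (nat_lit 0) (nat_lit 0) (XT.lf (nat_lit 0) (nat_lit 101046243500) (nat_lit 304) (nat_lit 172716334968) (nat_lit 380) (nat_lit 137081382271) (nat_lit 26) (nat_lit 5) (nat_lit 30) (nat_lit 5) (nat_lit 31) (nat_lit 5) (nat_lit 294) (nat_lit 292) (nat_lit 194)) (XT.lf (nat_lit 76) (nat_lit 33439233693) (nat_lit 0) (nat_lit 95909547445) (nat_lit 380) (nat_lit 313636419274) (nat_lit 27) (nat_lit 5) (nat_lit 26) (nat_lit 5) (nat_lit 31) (nat_lit 5) (nat_lit 295) (nat_lit 292) (nat_lit 193))))) (XT.nd (nat_lit 156) (nat_lit 152) (nat_lit 0) (XT.nd (nat_lit 78) (nat_lit 304) (nat_lit 0) (XT.lf (nat_lit 0) (nat_lit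 175852690936) (nat_lit 304) (nat_lit 193592044988) (nat_lit 76) (nat_lit 108409491553) (nat_lit 27) (nat_lit 5) (nat_lit 31) (nat_lit 5) (nat_lit 28) (nat_lit 5) (nat_lit 296) (nat_lit 292) (nat_lit 192)) (XT.lf (nat_lit 0) (nat_lit 55092501040) (nat_lit 304) (nat_lit 181088012980) (nat_lit 380) (nat_lit 280745845706) (nat_lit 23) (nat_lit 5) (nat_lit 27) (nat_lit 5) (nat_lit 28) (nat_lit 5) (nat_lit 297) (nat_lit 292) (nat_lit 191))) (XT.nd (nat_lit 78) (nat_lit 152) (nat_lit 0) (XT.lf (nat_lit 0) (nat_lit 317629826608) (nat_lit 380) (nat_lit 199457386790) (nat_lit 76) (nat_lit 42961251136) (nat_lit 23) (nat_lit 5) (nat_lit 28) (nat_lit 5) (nat_lit 24) (nat_lit 5) (nat_lit 298) (nat_lit 292) (nat_lit 190)) (XT.nd (nat_lit 78) (nat_lit 0) (nat_lit 0) (XT.lf (nat_lit 0) (nat_lit 102804642329) (nat_lit 152) (nat_lit 321372007907) (nat_lit 228) (nat_lit 183530217813) (nat_lit 21) (nat_lit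 5) (nat_lit 23) (nat_lit 5) (nat_lit 24) (nat_lit 5) (nat_lit 299) (nat_lit 292) (nat_lit 189)) (XT.lf (nat_lit 0) (nat_lit 472822213705) (nat_lit 152) (nat_lit 84309423488) (nat_lit 228) (nat_lit 103818474028) (nat_lit 21) (nat_lit 5) (nat_lit 23) (nat_lit 5) (nat_lit 24) (nat_lit 5) (nat_lit 300) (nat_lit 292) (nat_lit 188)))))) (XT.nd (nat_lit 390) (nat_lit 304) (nat_lit 0) (XT.nd (nat_lit 156) (nat_lit 228) (nat_lit 0) (XT.nd (nat_lit 78) (nat_lit 0) (nat_lit 0) (XT.lf (nat_lit 0) (nat_lit 5117979919) (nat_lit 152) (nat_lit 535276144870) (nat_lit 76) (nat_lit 179433240643) (nat_lit 19) (nat_lit 5) (nat_lit 21) (nat_lit 5) (nat_lit 20) (nat_lit 5) (nat_lit 301) (nat_lit 292) (nat_lit 187)) (XT.lf (nat_lit 0) (nat_lit 134082808539) (nat_lit 152) (nat_lit 161212704465) (nat_lit 76) (nat_lit 489351593179) (nat_lit 19) (nat_lit 5) (nat_lit 21) (nat_lit 5) (nat_lit 20) (nat_lit 5) (nat_lit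 302) (nat_lit 292) (nat_lit 186))) (XT.nd (nat_lit 78) (nat_lit 76) (nat_lit 0) (XT.lf (nat_lit 0) (nat_lit 294643763760) (nat_lit 228) (nat_lit 562137008293) (nat_lit 76) (nat_lit 571325702) (nat_lit 17) (nat_lit 5) (nat_lit 20) (nat_lit 5) (nat_lit 18) (nat_lit 4) (nat_lit 303) (nat_lit 292) (nat_lit 185)) (XT.nd (nat_lit 78) (nat_lit 76) (nat_lit 0) (XT.lf (nat_lit 0) (nat_lit 502178838797) (nat_lit 228) (nat_lit 115936646889) (nat_lit 76) (nat_lit 319413855947) (nat_lit 17) (nat_lit 5) (nat_lit 20) (nat_lit 5) (nat_lit 18) (nat_lit 4) (nat_lit 304) (nat_lit 292) (nat_lit 184)) (XT.lf (nat_lit 0) (nat_lit 436010387660) (nat_lit 76) (nat_lit 322888022282) (nat_lit 152) (nat_lit 268126626962) (nat_lit 16) (nat_lit 5) (nat_lit 17) (nat_lit 5) (nat_lit 18) (nat_lit 4) (nat_lit 305) (nat_lit 292) (nat_lit 183))))) (XT.nd (nat_lit 156) (nat_lit 152) (nat_lit 0) (XT.nd (nat_lit 78) (nat_lit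 152) (nat_lit 0) (XT.lf (nat_lit 0) (nat_lit 1061163150149) (nat_lit 152) (nat_lit 46233837253) (nat_lit 0) (nat_lit 21492514091) (nat_lit 16) (nat_lit 5) (nat_lit 18) (nat_lit 4) (nat_lit 16) (nat_lit 4) (nat_lit 306) (nat_lit 292) (nat_lit 182)) (XT.lf (nat_lit 0) (nat_lit 191253482410) (nat_lit 152) (nat_lit 628475677420) (nat_lit 76) (nat_lit 418842623037) (nat_lit 14) (nat_lit 5) (nat_lit 16) (nat_lit 5) (nat_lit 15) (nat_lit 4) (nat_lit 307) (nat_lit 292) (nat_lit 181))) (XT.nd (nat_lit 78) (nat_lit 76) (nat_lit 0) (XT.lf (nat_lit 0) (nat_lit 2620841210) (nat_lit 76) (nat_lit 482165917224) (nat_lit 152) (nat_lit 879039835049) (nat_lit 13) (nat_lit 5) (nat_lit 14) (nat_lit 5) (nat_lit 15) (nat_lit 4) (nat_lit 308) (nat_lit 292) (nat_lit 180)) (XT.nd (nat_lit 78) (nat_lit 76) (nat_lit 0) (XT.lf (nat_lit 0) (nat_lit 799013898441) (nat_lit 76) (nat_lit 56188245488) (nat_lit 152) (nat_lit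 647739664072) (nat_lit 13) (nat_lit 5) (nat_lit 14) (nat_lit 5) (nat_lit 15) (nat_lit 4) (nat_lit 309) (nat_lit 292) (nat_lit 179)) (XT.lf (nat_lit 0) (nat_lit 37304682077) (nat_lit 76) (nat_lit 1263377860497) (nat_lit 76) (nat_lit 359316356343) (nat_lit 12) (nat_lit 4) (nat_lit 13) (nat_lit 5) (nat_lit 13) (nat_lit 4) (nat_lit 310) (nat_lit 292) (nat_lit 178))))))))
noncomputable def xc103 : XT := (XT.nd (nat_lit 1560) (nat_lit 0) (nat_lit 0) (XT.nd (nat_lit 780) (nat_lit 228) (nat_lit 0) (XT.nd (nat_lit 390) (nat_lit 228) (nat_lit 0) (XT.nd (nat_lit 156) (nat_lit 152) (nat_lit 0) (XT.nd (nat_lit 78) (nat_lit 0) (nat_lit 0) (XT.lf (nat_lit 0) (nat_lit 16054267829) (nat_lit 152) (nat_lit 869544842512) (nat_lit 76) (nat_lit 949003448301) (nat_lit 11) (nat_lit 5) (nat_lit 13) (nat_lit 5) (nat_lit 12) (nat_lit 4) (nat_lit 311) (nat_lit 292) (nat_lit 177)) (XT.lf (nat_lit 0) (nat_lit 410943319716)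 (nat_lit 152) (nat_lit 20533393296) (nat_lit 76) (nat_lit 1601353511195) (nat_lit 11) (nat_lit 5) (nat_lit 13) (nat_lit 5) (nat_lit 12) (nat_lit 4) (nat_lit 312) (nat_lit 292) (nat_lit 176))) (XT.nd (nat_lit 78) (nat_lit 76) (nat_lit 0) (XT.lf (nat_lit 0) (nat_lit 914339763544) (nat_lit 152) (nat_lit 1210861878201) (nat_lit 0) (nat_lit 128199292746) (nat_lit 10) (nat_lit 5) (nat_lit 12) (nat_lit 4) (nat_lit 10) (nat_lit 4) (nat_lit 313) (nat_lit 292) (nat_lit 175)) (XT.nd (nat_lit 78) (nat_lit 76) (nat_lit 0) (XT.lf (nat_lit 0) (nat_lit 1514916618917) (nat_lit 152) (nat_lit 260113850660) (nat_lit 0) (nat_lit 728776140005) (nat_lit 10) (nat_lit 5) (nat_lit 12) (nat_lit 4) (nat_lit 10) (nat_lit 4) (nat_lit 314) (nat_lit 292) (nat_lit 174)) (XT.lf (nat_lit 0) (nat_lit 914677253350) (nat_lit 76) (nat_lit 1328777572535) (nat_lit 76) (nat_lit 542637086567) (nat_lit 9) (nat_lit 4) (nat_lit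 10) (nat_lit 5) (nat_lit 10) (nat_lit 4) (nat_lit 315) (nat_lit 292) (nat_lit 173))))) (XT.nd (nat_lit 156) (nat_lit 76) (nat_lit 0) (XT.nd (nat_lit 78) (nat_lit 152) (nat_lit 0) (XT.lf (nat_lit 0) (nat_lit 2294920251912) (nat_lit 76) (nat_lit 799950361743) (nat_lit 76) (nat_lit 13809869640) (nat_lit 9) (nat_lit 4) (nat_lit 10) (nat_lit 5) (nat_lit 10) (nat_lit 4) (nat_lit 316) (nat_lit 292) (nat_lit 172)) (XT.lf (nat_lit 0) (nat_lit 414866187048) (nat_lit 76) (nat_lit 143741573177) (nat_lit 152) (nat_lit 2914781210705) (nat_lit 7) (nat_lit 5) (nat_lit 8) (nat_lit 5) (nat_lit 9) (nat_lit 4) (nat_lit 317) (nat_lit 292) (nat_lit 171))) (XT.nd (nat_lit 78) (nat_lit 76) (nat_lit 0) (XT.lf (nat_lit 0) (nat_lit 1285333223247) (nat_lit 152) (nat_lit 1995160221443) (nat_lit 0) (nat_lit 601732786658) (nat_lit 7) (nat_lit 5) (nat_lit 9) (nat_lit 4) (nat_lit 7) (nat_lit 4) (nat_lit 318) (nat_lit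 292) (nat_lit 170)) (XT.nd (nat_lit 78) (nat_lit 76) (nat_lit 0) (XT.lf (nat_lit 0) (nat_lit 2127912334239) (nat_lit 152) (nat_lit 779138128173) (nat_lit 0) (nat_lit 1444311894141) (nat_lit 7) (nat_lit 5) (nat_lit 9) (nat_lit 4) (nat_lit 7) (nat_lit 4) (nat_lit 319) (nat_lit 292) (nat_lit 169)) (XT.lf (nat_lit 0) (nat_lit 679808519947) (nat_lit 76) (nat_lit 2445219205830) (nat_lit 76) (nat_lit 1761618762682) (nat_lit 6) (nat_lit 4) (nat_lit 7) (nat_lit 5) (nat_lit 7) (nat_lit 4) (nat_lit 320) (nat_lit 292) (nat_lit 168)))))) (XT.nd (nat_lit 390) (nat_lit 76) (nat_lit 0) (XT.nd (nat_lit 156) (nat_lit 152) (nat_lit 0) (XT.nd (nat_lit 78) (nat_lit 0) (nat_lit 0) (XT.lf (nat_lit 0) (nat_lit 2445161652406) (nat_lit 76) (nat_lit 1867276441671) (nat_lit 76) (nat_lit 1183675995871) (nat_lit 6) (nat_lit 4) (nat_lit 7) (nat_lit 5) (nat_lit 7) (nat_lit 4) (nat_lit 321) (nat_lit 292) (nat_lit 167))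 (XT.lf (nat_lit 0) (nat_lit 4475317742667) (nat_lit 76) (nat_lit 1202642268999) (nat_lit 76) (nat_lit 519041820892) (nat_lit 6) (nat_lit 4) (nat_lit 7) (nat_lit 5) (nat_lit 7) (nat_lit 4) (nat_lit 322) (nat_lit 292) (nat_lit 166))) (XT.nd (nat_lit 78) (nat_lit 76) (nat_lit 0) (XT.lf (nat_lit 0) (nat_lit 223450287214) (nat_lit 152) (nat_lit 203182332600) (nat_lit 76) (nat_lit 6574866592837) (nat_lit 5) (nat_lit 5) (nat_lit 7) (nat_lit 5) (nat_lit 6) (nat_lit 4) (nat_lit 323) (nat_lit 292) (nat_lit 165)) (XT.nd (nat_lit 78) (nat_lit 0) (nat_lit 0) (XT.lf (nat_lit 0) (nat_lit 1116943803099) (nat_lit 152) (nat_lit 6269596189387) (nat_lit 0) (nat_lit 522508627571) (nat_lit 4) (nat_lit 5) (nat_lit 6) (nat_lit 4) (nat_lit 4) (nat_lit 4) (nat_lit 324) (nat_lit 292) (nat_lit 164)) (XT.lf (nat_lit 0) (nat_lit 2175903832275) (nat_lit 152) (nat_lit 5190641577984) (nat_lit 0) (nat_lit 1581468655429)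 (nat_lit 4) (nat_lit 5) (nat_lit 6) (nat_lit 4) (nat_lit 4) (nat_lit 4) (nat_lit 325) (nat_lit 292) (nat_lit 163))))) (XT.nd (nat_lit 156) (nat_lit 76) (nat_lit 0) (XT.nd (nat_lit 78) (nat_lit 0) (nat_lit 0) (XT.lf (nat_lit 0) (nat_lit 3393707861761) (nat_lit 152) (nat_lit 3949843783248) (nat_lit 0) (nat_lit 2799272683767) (nat_lit 4) (nat_lit 5) (nat_lit 6) (nat_lit 4) (nat_lit 4) (nat_lit 4) (nat_lit 326) (nat_lit 292) (nat_lit 162)) (XT.lf (nat_lit 0) (nat_lit 4794182492132) (nat_lit 152) (nat_lit 2522926326584) (nat_lit 0) (nat_lit 4199747313142) (nat_lit 4) (nat_lit 5) (nat_lit 6) (nat_lit 4) (nat_lit 4) (nat_lit 4) (nat_lit 327) (nat_lit 292) (nat_lit 161))) (XT.nd (nat_lit 78) (nat_lit 76) (nat_lit 0) (XT.lf (nat_lit 0) (nat_lit 6404728313984) (nat_lit 152) (nat_lit 881971257755) (nat_lit 0) (nat_lit 5810293134127) (nat_lit 4) (nat_lit 5) (nat_lit 6) (nat_lit 4) (nat_lit 4) (nat_lit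 4) (nat_lit 328) (nat_lit 292) (nat_lit 160)) (XT.nd (nat_lit 78) (nat_lit 0) (nat_lit 0) (XT.lf (nat_lit 0) (nat_lit 1103355392785) (nat_lit 76) (nat_lit 7199188207558) (nat_lit 76) (nat_lit 6604753026946) (nat_lit 3) (nat_lit 4) (nat_lit 4) (nat_lit 5) (nat_lit 4) (nat_lit 4) (nat_lit 329) (nat_lit 292) (nat_lit 159)) (XT.lf (nat_lit 0) (nat_lit 3485602578141) (nat_lit 76) (nat_lit 7045531641991) (nat_lit 76) (nat_lit 6451096460724) (nat_lit 3) (nat_lit 4) (nat_lit 4) (nat_lit 5) (nat_lit 4) (nat_lit 4) (nat_lit 330) (nat_lit 292) (nat_lit 158))))))) (XT.nd (nat_lit 780) (nat_lit 0) (nat_lit 0) (XT.nd (nat_lit 390) (nat_lit 0) (nat_lit 0) (XT.nd (nat_lit 156) (nat_lit 0) (nat_lit 0) (XT.nd (nat_lit 78) (nat_lit 0) (nat_lit 0) (XT.lf (nat_lit 0) (nat_lit 6225186836729) (nat_lit 76) (nat_lit 6868826593950) (nat_lit 76) (nat_lit 6274391412112) (nat_lit 3) (nat_lit 4) (nat_lit 4) (nat_lit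 5) (nat_lit 4) (nat_lit 4) (nat_lit 331) (nat_lit 292) (nat_lit 157)) (XT.lf (nat_lit 0) (nat_lit 9375708730131) (nat_lit 76) (nat_lit 6665615790754) (nat_lit 76) (nat_lit 6071180608421) (nat_lit 3) (nat_lit 4) (nat_lit 4) (nat_lit 5) (nat_lit 4) (nat_lit 4) (nat_lit 332) (nat_lit 292) (nat_lit 156))) (XT.nd (nat_lit 78) (nat_lit 0) (nat_lit 0) (XT.lf (nat_lit 0) (nat_lit 12998808904086) (nat_lit 76) (nat_lit 6431923368863) (nat_lit 76) (nat_lit 5837488186099) (nat_lit 3) (nat_lit 4) (nat_lit 4) (nat_lit 5) (nat_lit 4) (nat_lit 4) (nat_lit 333) (nat_lit 292) (nat_lit 155)) (XT.nd (nat_lit 78) (nat_lit 0) (nat_lit 0) (XT.lf (nat_lit 0) (nat_lit 17165374101128) (nat_lit 76) (nat_lit 6163177085240) (nat_lit 76) (nat_lit 5568741902101) (nat_lit 3) (nat_lit 4) (nat_lit 4) (nat_lit 5) (nat_lit 4) (nat_lit 4) (nat_lit 334) (nat_lit 292) (nat_lit 154)) (XT.lf (nat_lit 0) (nat_lit 21956924075113)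 (nat_lit 76) (nat_lit 5854118860424) (nat_lit 76) (nat_lit 5259683676958) (nat_lit 3) (nat_lit 4) (nat_lit 4) (nat_lit 5) (nat_lit 4) (nat_lit 4) (nat_lit 335) (nat_lit 292) (nat_lit 153))))) (XT.nd (nat_lit 156) (nat_lit 0) (nat_lit 0) (XT.nd (nat_lit 78) (nat_lit 0) (nat_lit 0) (XT.lf (nat_lit 0) (nat_lit 27467206542924) (nat_lit 76) (nat_lit 5498701903057) (nat_lit 76) (nat_lit 4904266719309) (nat_lit 3) (nat_lit 4) (nat_lit 4) (nat_lit 5) (nat_lit 4) (nat_lit 4) (nat_lit 336) (nat_lit 292) (nat_lit 152)) (XT.lf (nat_lit 0) (nat_lit 33804031378929) (nat_lit 76) (nat_lit 5089972403106) (nat_lit 76) (nat_lit 4495537219111) (nat_lit 3) (nat_lit 4) (nat_lit 4) (nat_lit 5) (nat_lit 4) (nat_lit 4) (nat_lit 337) (nat_lit 292) (nat_lit 151))) (XT.nd (nat_lit 78) (nat_lit 0) (nat_lit 0) (XT.lf (nat_lit 0) (nat_lit 41091379938617) (nat_lit 76) (nat_lit 4619933479050) (nat_lit 76) (nat_lit 4025498294841)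 (nat_lit 3) (nat_lit 4) (nat_lit 4) (nat_lit 5) (nat_lit 4) (nat_lit 4) (nat_lit 338) (nat_lit 292) (nat_lit 150)) (XT.nd (nat_lit 78) (nat_lit 0) (nat_lit 0) (XT.lf (nat_lit 0) (nat_lit 49471830780764) (nat_lit 76) (nat_lit 4079388717157) (nat_lit 76) (nat_lit 3484953532761) (nat_lit 3) (nat_lit 4) (nat_lit 4) (nat_lit 5) (nat_lit 4) (nat_lit 4) (nat_lit 339) (nat_lit 292) (nat_lit 149)) (XT.lf (nat_lit 0) (nat_lit 59109349247933) (nat_lit 76) (nat_lit 3457762241650) (nat_lit 76) (nat_lit 2863327057092) (nat_lit 3) (nat_lit 4) (nat_lit 4) (nat_lit 5) (nat_lit 4) (nat_lit 4) (nat_lit 340) (nat_lit 292) (nat_lit 148)))))) (XT.nd (nat_lit 37128) (nat_lit 0) (nat_lit 1368) (XT.nd (nat_lit 36894) (nat_lit 0) (nat_lit 1672) (XT.nd (nat_lit 78) (nat_lit 0) (nat_lit 0) (XT.lf (nat_lit 0) (nat_lit 70192495484048) (nat_lit 76) (nat_lit 2742891795401) (nat_lit 76) (nat_lit 2148456610702) (nat_lit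 3) (nat_lit 4) (nat_lit 4) (nat_lit 5) (nat_lit 4) (nat_lit 4) (nat_lit 341) (nat_lit 292) (nat_lit 147)) (XT.lf (nat_lit 0) (nat_lit 82938113654597) (nat_lit 76) (nat_lit 1920790782722) (nat_lit 76) (nat_lit 1326355597900) (nat_lit 3) (nat_lit 4) (nat_lit 4) (nat_lit 5) (nat_lit 4) (nat_lit 4) (nat_lit 342) (nat_lit 292) (nat_lit 146))) (XT.nd (nat_lit 78) (nat_lit 0) (nat_lit 0) (XT.lf (nat_lit 0) (nat_lit 41919014908) (nat_lit 380) (nat_lit 81365034007) (nat_lit 380) (nat_lit 81365034007) (nat_lit 25) (nat_lit 3) (nat_lit 30) (nat_lit 3) (nat_lit 30) (nat_lit 5) (nat_lit 293) (nat_lit 293) (nat_lit 194)) (XT.nd (nat_lit 78) (nat_lit 0) (nat_lit 76) (XT.lf (nat_lit 76) (nat_lit 35655574140) (nat_lit 0) (nat_lit 55947086197) (nat_lit 380) (nat_lit 348171350258) (nat_lit 26) (nat_lit 5) (nat_lit 25) (nat_lit 3) (nat_lit 30) (nat_lit 5) (nat_lit 294) (nat_lit 293) (nat_lit 193)) (XT.lf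 (nat_lit 0) (nat_lit 116203871228) (nat_lit 304) (nat_lit 198623233897) (nat_lit 380) (nat_lit 157643344234) (nat_lit 26) (nat_lit 5) (nat_lit 30) (nat_lit 5) (nat_lit 31) (nat_lit 5) (nat_lit 295) (nat_lit 293) (nat_lit 192))))) (XT.nd (nat_lit 234) (nat_lit 152) (nat_lit 0) (XT.nd (nat_lit 78) (nat_lit 228) (nat_lit 0) (XT.lf (nat_lit 76) (nat_lit 38455645003) (nat_lit 0) (nat_lit 110296076143) (nat_lit 380) (nat_lit 360681164328) (nat_lit 27) (nat_lit 5) (nat_lit 26) (nat_lit 5) (nat_lit 31) (nat_lit 5) (nat_lit 296) (nat_lit 293) (nat_lit 191)) (XT.nd (nat_lit 78) (nat_lit 304) (nat_lit 0) (XT.lf (nat_lit 0) (nat_lit 202231132697) (nat_lit 304) (nat_lit 222630308036) (nat_lit 76) (nat_lit 124670838780) (nat_lit 27) (nat_lit 5) (nat_lit 31) (nat_lit 5) (nat_lit 28) (nat_lit 5) (nat_lit 297) (nat_lit 293) (nat_lit 190)) (XT.lf (nat_lit 0) (nat_lit 63356895182) (nat_lit 304) (nat_lit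 208251185362) (nat_lit 380) (nat_lit 322857158539) (nat_lit 23) (nat_lit 5) (nat_lit 27) (nat_lit 5) (nat_lit 28) (nat_lit 5) (nat_lit 298) (nat_lit 293) (nat_lit 189)))) (XT.nd (nat_lit 78) (nat_lit 152) (nat_lit 0) (XT.lf (nat_lit 0) (nat_lit 365274727247) (nat_lit 380) (nat_lit 229375479708) (nat_lit 76) (nat_lit 49405462227) (nat_lit 23) (nat_lit 5) (nat_lit 28) (nat_lit 5) (nat_lit 24) (nat_lit 5) (nat_lit 299) (nat_lit 293) (nat_lit 188)) (XT.nd (nat_lit 78) (nat_lit 0) (nat_lit 0) (XT.lf (nat_lit 0) (nat_lit 118225830365) (nat_lit 152) (nat_lit 369577708764) (nat_lit 228) (nat_lit 211059299524) (nat_lit 21) (nat_lit 5) (nat_lit 23) (nat_lit 5) (nat_lit 24) (nat_lit 5) (nat_lit 300) (nat_lit 293) (nat_lit 187)) (XT.lf (nat_lit 0) (nat_lit 543745973315) (nat_lit 152) (nat_lit 96955749769) (nat_lit 228) (nat_lit 119390852992) (nat_lit 21) (nat_lit 5) (nat_lit 23) (nat_lit 5) (nat_lit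 24) (nat_lit 5) (nat_lit 301) (nat_lit 293) (nat_lit 186))))))))
noncomputable def xc104 : XT := (XT.nd (nat_lit 1560) (nat_lit 228) (nat_lit 0) (XT.nd (nat_lit 780) (nat_lit 456) (nat_lit 0) (XT.nd (nat_lit 390) (nat_lit 304) (nat_lit 0) (XT.nd (nat_lit 156) (nat_lit 228) (nat_lit 0) (XT.nd (nat_lit 78) (nat_lit 0) (nat_lit 0) (XT.lf (nat_lit 0) (nat_lit 5886010532) (nat_lit 152) (nat_lit 615567079260) (nat_lit 76) (nat_lit 206348329818) (nat_lit 19) (nat_lit 5) (nat_lit 21) (nat_lit 5) (nat_lit 20) (nat_lit 5) (nat_lit 302) (nat_lit 293) (nat_lit 185)) (XT.lf (nat_lit 0) (nat_lit 154195519929) (nat_lit 152) (nat_lit 185394186361) (nat_lit 76) (nat_lit 562754421789) (nat_lit 19) (nat_lit 5) (nat_lit 21) (nat_lit 5) (nat_lit 20) (nat_lit 5) (nat_lit 303) (nat_lit 293) (nat_lit 184))) (XT.nd (nat_lit 78) (nat_lit 76) (nat_lit 0) (XT.lf (nat_lit 0) (nat_lit 338840602953) (nat_lit 228)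 (nat_lit 646457119836) (nat_lit 76) (nat_lit 657147988) (nat_lit 17) (nat_lit 5) (nat_lit 20) (nat_lit 5) (nat_lit 18) (nat_lit 4) (nat_lit 304) (nat_lit 293) (nat_lit 183)) (XT.nd (nat_lit 78) (nat_lit 76) (nat_lit 0) (XT.lf (nat_lit 0) (nat_lit 577505903425) (nat_lit 228) (nat_lit 133326761573) (nat_lit 76) (nat_lit 367326041669) (nat_lit 17) (nat_lit 5) (nat_lit 20) (nat_lit 5) (nat_lit 18) (nat_lit 4) (nat_lit 305) (nat_lit 293) (nat_lit 182)) (XT.lf (nat_lit 0) (nat_lit 501412310779) (nat_lit 76) (nat_lit 371321083426) (nat_lit 152) (nat_lit 308345364480) (nat_lit 16) (nat_lit 5) (nat_lit 17) (nat_lit 5) (nat_lit 18) (nat_lit 4) (nat_lit 306) (nat_lit 293) (nat_lit 181))))) (XT.nd (nat_lit 156) (nat_lit 152) (nat_lit 0) (XT.nd (nat_lit 78) (nat_lit 152) (nat_lit 0) (XT.lf (nat_lit 0) (nat_lit 1220337821506) (nat_lit 152) (nat_lit 53168571246) (nat_lit 0) (nat_lit 24716503847) (nat_lit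 16) (nat_lit 5) (nat_lit 18) (nat_lit 4) (nat_lit 16) (nat_lit 4) (nat_lit 307) (nat_lit 293) (nat_lit 180)) (XT.lf (nat_lit 0) (nat_lit 219941700282) (nat_lit 152) (nat_lit 722746683635) (nat_lit 76) (nat_lit 481669136830) (nat_lit 14) (nat_lit 5) (nat_lit 16) (nat_lit 5) (nat_lit 15) (nat_lit 4) (nat_lit 308) (nat_lit 293) (nat_lit 179))) (XT.nd (nat_lit 78) (nat_lit 76) (nat_lit 0) (XT.lf (nat_lit 0) (nat_lit 3014297090) (nat_lit 76) (nat_lit 554490658771) (nat_lit 152) (nat_lit 1010895598902) (nat_lit 13) (nat_lit 5) (nat_lit 14) (nat_lit 5) (nat_lit 15) (nat_lit 4) (nat_lit 309) (nat_lit 293) (nat_lit 178)) (XT.nd (nat_lit 78) (nat_lit 76) (nat_lit 0) (XT.lf (nat_lit 0) (nat_lit 918866269902) (nat_lit 76) (nat_lit 64616355323) (nat_lit 152) (nat_lit 744900429853) (nat_lit 13) (nat_lit 5) (nat_lit 14) (nat_lit 5) (nat_lit 15) (nat_lit 4) (nat_lit 310) (nat_lit 293) (nat_lit 177))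 (XT.lf (nat_lit 0) (nat_lit 42900676059) (nat_lit 76) (nat_lit 1452884403426) (nat_lit 76) (nat_lit 413213630796) (nat_lit 12) (nat_lit 4) (nat_lit 13) (nat_lit 5) (nat_lit 13) (nat_lit 4) (nat_lit 311) (nat_lit 293) (nat_lit 176)))))) (XT.nd (nat_lit 390) (nat_lit 228) (nat_lit 0) (XT.nd (nat_lit 156) (nat_lit 152) (nat_lit 0) (XT.nd (nat_lit 78) (nat_lit 0) (nat_lit 0) (XT.lf (nat_lit 0) (nat_lit 18462549798) (nat_lit 152) (nat_lit 999976301294) (nat_lit 76) (nat_lit 1091354069967) (nat_lit 11) (nat_lit 5) (nat_lit 13) (nat_lit 5) (nat_lit 12) (nat_lit 4) (nat_lit 312) (nat_lit 293) (nat_lit 175)) (XT.lf (nat_lit 0) (nat_lit 472584940973) (nat_lit 152) (nat_lit 23613169599) (nat_lit 76) (nat_lit 1841556628674) (nat_lit 11) (nat_lit 5) (nat_lit 13) (nat_lit 5) (nat_lit 12) (nat_lit 4) (nat_lit 313) (nat_lit 293) (nat_lit 174))) (XT.nd (nat_lit 78) (nat_lit 76) (nat_lit 0) (XT.lf (nat_lit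 0) (nat_lit 1051490848867) (nat_lit 152) (nat_lit 1392490924648) (nat_lit 0) (nat_lit 147429282948) (nat_lit 10) (nat_lit 5) (nat_lit 12) (nat_lit 4) (nat_lit 10) (nat_lit 4) (nat_lit 314) (nat_lit 293) (nat_lit 173)) (XT.nd (nat_lit 78) (nat_lit 76) (nat_lit 0) (XT.lf (nat_lit 0) (nat_lit 1742154216791) (nat_lit 152) (nat_lit 299130723666) (nat_lit 0) (nat_lit 838092644736) (nat_lit 10) (nat_lit 5) (nat_lit 12) (nat_lit 4) (nat_lit 10) (nat_lit 4) (nat_lit 315) (nat_lit 293) (nat_lit 172)) (XT.lf (nat_lit 0) (nat_lit 1051879036646) (nat_lit 76) (nat_lit 1528094112543) (nat_lit 76) (nat_lit 624032535154) (nat_lit 9) (nat_lit 4) (nat_lit 10) (nat_lit 5) (nat_lit 10) (nat_lit 4) (nat_lit 316) (nat_lit 293) (nat_lit 171))))) (XT.nd (nat_lit 156) (nat_lit 76) (nat_lit 0) (XT.nd (nat_lit 78) (nat_lit 152) (nat_lit 0) (XT.lf (nat_lit 0) (nat_lit 2639158459519) (nat_lit 76) (nat_lit 919942832638)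 (nat_lit 76) (nat_lit 15881250609) (nat_lit 9) (nat_lit 4) (nat_lit 10) (nat_lit 5) (nat_lit 10) (nat_lit 4) (nat_lit 317) (nat_lit 293) (nat_lit 170)) (XT.lf (nat_lit 0) (nat_lit 477096285706) (nat_lit 76) (nat_lit 165302724418) (nat_lit 152) (nat_lit 3351998293525) (nat_lit 7) (nat_lit 5) (nat_lit 8) (nat_lit 5) (nat_lit 9) (nat_lit 4) (nat_lit 318) (nat_lit 293) (nat_lit 169))) (XT.nd (nat_lit 78) (nat_lit 76) (nat_lit 0) (XT.lf (nat_lit 0) (nat_lit 1478133284451) (nat_lit 152) (nat_lit 2294434098126) (nat_lit 0) (nat_lit 691992771780) (nat_lit 7) (nat_lit 5) (nat_lit 9) (nat_lit 4) (nat_lit 7) (nat_lit 4) (nat_lit 319) (nat_lit 293) (nat_lit 168)) (XT.nd (nat_lit 78) (nat_lit 76) (nat_lit 0) (XT.lf (nat_lit 0) (nat_lit 2447099251954) (nat_lit 152) (nat_lit 896008711283) (nat_lit 0) (nat_lit 1660958736631) (nat_lit 7) (nat_lit 5) (nat_lit 9) (nat_lit 4) (nat_lit 7) (nat_lit 4) (nat_lit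 320) (nat_lit 293) (nat_lit 167)) (XT.lf (nat_lit 0) (nat_lit 781779927869) (nat_lit 76) (nat_lit 2812002020920) (nat_lit 76) (nat_lit 2025861503290) (nat_lit 6) (nat_lit 4) (nat_lit 7) (nat_lit 5) (nat_lit 7) (nat_lit 4) (nat_lit 321) (nat_lit 293) (nat_lit 166))))))) (XT.nd (nat_lit 780) (nat_lit 0) (nat_lit 0) (XT.nd (nat_lit 390) (nat_lit 76) (nat_lit 0) (XT.nd (nat_lit 156) (nat_lit 152) (nat_lit 0) (XT.nd (nat_lit 78) (nat_lit 0) (nat_lit 0) (XT.lf (nat_lit 0) (nat_lit 2811936013249) (nat_lit 76) (nat_lit 2147367850718) (nat_lit 76) (nat_lit 1361227331083) (nat_lit 6) (nat_lit 4) (nat_lit 7) (nat_lit 5) (nat_lit 7) (nat_lit 4) (nat_lit 322) (nat_lit 293) (nat_lit 165)) (XT.lf (nat_lit 0) (nat_lit 5146615502312) (nat_lit 76) (nat_lit 1383038559606) (nat_lit 76) (nat_lit 596898038227) (nat_lit 6) (nat_lit 4) (nat_lit 7) (nat_lit 5) (nat_lit 7) (nat_lit 4) (nat_lit 323) (nat_lit 293)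 (nat_lit 164))) (XT.nd (nat_lit 78) (nat_lit 76) (nat_lit 0) (XT.lf (nat_lit 0) (nat_lit 256967874498) (nat_lit 152) (nat_lit 233659592725) (nat_lit 76) (nat_lit 7561096620682) (nat_lit 5) (nat_lit 5) (nat_lit 7) (nat_lit 5) (nat_lit 6) (nat_lit 4) (nat_lit 324) (nat_lit 293) (nat_lit 163)) (XT.nd (nat_lit 78) (nat_lit 0) (nat_lit 0) (XT.lf (nat_lit 0) (nat_lit 1284485417357) (nat_lit 152) (nat_lit 7210035527608) (nat_lit 0) (nat_lit 600884961518) (nat_lit 4) (nat_lit 5) (nat_lit 6) (nat_lit 4) (nat_lit 4) (nat_lit 4) (nat_lit 325) (nat_lit 293) (nat_lit 162)) (XT.lf (nat_lit 0) (nat_lit 2502289445198) (nat_lit 152) (nat_lit 5969237736259) (nat_lit 0) (nat_lit 1818688988362) (nat_lit 4) (nat_lit 5) (nat_lit 6) (nat_lit 4) (nat_lit 4) (nat_lit 4) (nat_lit 326) (nat_lit 293) (nat_lit 161))))) (XT.nd (nat_lit 156) (nat_lit 76) (nat_lit 0) (XT.nd (nat_lit 78) (nat_lit 0) (nat_lit 0) (XT.lf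 (nat_lit 0) (nat_lit 3902764074139) (nat_lit 152) (nat_lit 4542320282541) (nat_lit 0) (nat_lit 3219163616436) (nat_lit 4) (nat_lit 5) (nat_lit 6) (nat_lit 4) (nat_lit 4) (nat_lit 4) (nat_lit 327) (nat_lit 293) (nat_lit 160)) (XT.lf (nat_lit 0) (nat_lit 5513309894747) (nat_lit 152) (nat_lit 2901365216273) (nat_lit 0) (nat_lit 4829709436290) (nat_lit 4) (nat_lit 5) (nat_lit 6) (nat_lit 4) (nat_lit 4) (nat_lit 4) (nat_lit 328) (nat_lit 293) (nat_lit 159))) (XT.nd (nat_lit 78) (nat_lit 76) (nat_lit 0) (XT.lf (nat_lit 0) (nat_lit 7365437586121) (nat_lit 152) (nat_lit 1014266894853) (nat_lit 0) (nat_lit 6681837127008) (nat_lit 4) (nat_lit 5) (nat_lit 6) (nat_lit 4) (nat_lit 4) (nat_lit 4) (nat_lit 329) (nat_lit 293) (nat_lit 158)) (XT.nd (nat_lit 78) (nat_lit 0) (nat_lit 0) (XT.lf (nat_lit 0) (nat_lit 1268858750924) (nat_lit 76) (nat_lit 8279066413282) (nat_lit 76) (nat_lit 7595465953599)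 (nat_lit 3) (nat_lit 4) (nat_lit 4) (nat_lit 5) (nat_lit 4) (nat_lit 4) (nat_lit 330) (nat_lit 293) (nat_lit 157)) (XT.lf (nat_lit 0) (nat_lit 4008443007663) (nat_lit 76) (nat_lit 8102361366195) (nat_lit 76) (nat_lit 7418760906016) (nat_lit 3) (nat_lit 4) (nat_lit 4) (nat_lit 5) (nat_lit 4) (nat_lit 4) (nat_lit 331) (nat_lit 293) (nat_lit 156)))))) (XT.nd (nat_lit 390) (nat_lit 0) (nat_lit 0) (XT.nd (nat_lit 156) (nat_lit 0) (nat_lit 0) (XT.nd (nat_lit 78) (nat_lit 0) (nat_lit 0) (XT.lf (nat_lit 0) (nat_lit 7158964899457) (nat_lit 76) (nat_lit 7899150563829) (nat_lit 76) (nat_lit 7215550103219) (nat_lit 3) (nat_lit 4) (nat_lit 4) (nat_lit 5) (nat_lit 4) (nat_lit 4) (nat_lit 332) (nat_lit 293) (nat_lit 155)) (XT.lf (nat_lit 0) (nat_lit 10782065072014) (nat_lit 76) (nat_lit 7665458142660) (nat_lit 76) (nat_lit 6981857681675) (nat_lit 3) (nat_lit 4) (nat_lit 4) (nat_lit 5) (nat_lit 4) (nat_lit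 4) (nat_lit 333) (nat_lit 293) (nat_lit 154))) (XT.nd (nat_lit 78) (nat_lit 0) (nat_lit 0) (XT.lf (nat_lit 0) (nat_lit 14948630267841) (nat_lit 76) (nat_lit 7396711859665) (nat_lit 76) (nat_lit 6713111398354) (nat_lit 3) (nat_lit 4) (nat_lit 4) (nat_lit 5) (nat_lit 4) (nat_lit 4) (nat_lit 334) (nat_lit 293) (nat_lit 153)) (XT.nd (nat_lit 78) (nat_lit 0) (nat_lit 0) (XT.lf (nat_lit 0) (nat_lit 19740180240769) (nat_lit 76) (nat_lit 7087653635393) (nat_lit 76) (nat_lit 6404053173799) (nat_lit 3) (nat_lit 4) (nat_lit 4) (nat_lit 5) (nat_lit 4) (nat_lit 4) (nat_lit 335) (nat_lit 293) (nat_lit 152)) (XT.lf (nat_lit 0) (nat_lit 25250462707660) (nat_lit 76) (nat_lit 6732236678502) (nat_lit 76) (nat_lit 6048636216661) (nat_lit 3) (nat_lit 4) (nat_lit 4) (nat_lit 5) (nat_lit 4) (nat_lit 4) (nat_lit 336) (nat_lit 293) (nat_lit 151))))) (XT.nd (nat_lit 156) (nat_lit 0) (nat_lit 0) (XT.nd (nat_lit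 78) (nat_lit 0) (nat_lit 0) (XT.lf (nat_lit 0) (nat_lit 31587287542866) (nat_lit 76) (nat_lit 6323507178964) (nat_lit 76) (nat_lit 5639906716908) (nat_lit 3) (nat_lit 4) (nat_lit 4) (nat_lit 5) (nat_lit 4) (nat_lit 4) (nat_lit 337) (nat_lit 293) (nat_lit 150)) (XT.lf (nat_lit 0) (nat_lit 38874636101859) (nat_lit 76) (nat_lit 5853468255266) (nat_lit 76) (nat_lit 5169867793024) (nat_lit 3) (nat_lit 4) (nat_lit 4) (nat_lit 5) (nat_lit 4) (nat_lit 4) (nat_lit 338) (nat_lit 293) (nat_lit 149))) (XT.nd (nat_lit 78) (nat_lit 0) (nat_lit 0) (XT.lf (nat_lit 0) (nat_lit 47255086943402) (nat_lit 76) (nat_lit 5312923493685) (nat_lit 76) (nat_lit 4629323031281) (nat_lit 3) (nat_lit 4) (nat_lit 4) (nat_lit 5) (nat_lit 4) (nat_lit 4) (nat_lit 339) (nat_lit 293) (nat_lit 148)) (XT.nd (nat_lit 78) (nat_lit 0) (nat_lit 0) (XT.lf (nat_lit 0) (nat_lit 56892605410045) (nat_lit 76) (nat_lit 4691297018449)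 (nat_lit 76) (nat_lit 4007696555905) (nat_lit 3) (nat_lit 4) (nat_lit 4) (nat_lit 5) (nat_lit 4) (nat_lit 4) (nat_lit 340) (nat_lit 293) (nat_lit 147)) (XT.lf (nat_lit 0) (nat_lit 67975751645703) (nat_lit 76) (nat_lit 3976426572436) (nat_lit 76) (nat_lit 3292826109769) (nat_lit 3) (nat_lit 4) (nat_lit 4) (nat_lit 5) (nat_lit 4) (nat_lit 4) (nat_lit 341) (nat_lit 293) (nat_lit 146))))))))
noncomputable def xc105 : XT := (XT.nd (nat_lit 38298) (nat_lit 0) (nat_lit 0) (XT.nd (nat_lit 37518) (nat_lit 0) (nat_lit 760) (XT.nd (nat_lit 37128) (nat_lit 0) (nat_lit 1368) (XT.nd (nat_lit 36894) (nat_lit 0) (nat_lit 1672) (XT.nd (nat_lit 78) (nat_lit 0) (nat_lit 0) (XT.lf (nat_lit 0) (nat_lit 80721369815855) (nat_lit 76) (nat_lit 3154325559962) (nat_lit 76) (nat_lit 2470725097188) (nat_lit 3) (nat_lit 4) (nat_lit 4) (nat_lit 5) (nat_lit 4) (nat_lit 4) (nat_lit 342) (nat_lit 293) (nat_lit 145))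 (XT.lf (nat_lit 0) (nat_lit 95378830710787) (nat_lit 76) (nat_lit 2208909396000) (nat_lit 76) (nat_lit 1525308933134) (nat_lit 3) (nat_lit 4) (nat_lit 4) (nat_lit 5) (nat_lit 4) (nat_lit 4) (nat_lit 343) (nat_lit 293) (nat_lit 144))) (XT.nd (nat_lit 78) (nat_lit 0) (nat_lit 0) (XT.lf (nat_lit 0) (nat_lit 48207209357) (nat_lit 380) (nat_lit 93569591883) (nat_lit 380) (nat_lit 93569591883) (nat_lit 25) (nat_lit 3) (nat_lit 30) (nat_lit 3) (nat_lit 30) (nat_lit 5) (nat_lit 294) (nat_lit 294) (nat_lit 192)) (XT.nd (nat_lit 78) (nat_lit 0) (nat_lit 76) (XT.lf (nat_lit 76) (nat_lit 41004286782) (nat_lit 0) (nat_lit 64339383351) (nat_lit 380) (nat_lit 400396348866) (nat_lit 26) (nat_lit 5) (nat_lit 25) (nat_lit 3) (nat_lit 30) (nat_lit 5) (nat_lit 295) (nat_lit 294) (nat_lit 191)) (XT.lf (nat_lit 0) (nat_lit 133634974562) (nat_lit 304) (nat_lit 228416302107) (nat_lit 380) (nat_lit 181289660328)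 (nat_lit 26) (nat_lit 5) (nat_lit 30) (nat_lit 5) (nat_lit 31) (nat_lit 5) (nat_lit 296) (nat_lit 294) (nat_lit 190))))) (XT.nd (nat_lit 156) (nat_lit 380) (nat_lit 0) (XT.nd (nat_lit 78) (nat_lit 0) (nat_lit 76) (XT.lf (nat_lit 76) (nat_lit 44224389679) (nat_lit 0) (nat_lit 126840560594) (nat_lit 380) (nat_lit 414782796190) (nat_lit 27) (nat_lit 5) (nat_lit 26) (nat_lit 5) (nat_lit 31) (nat_lit 5) (nat_lit 297) (nat_lit 294) (nat_lit 189)) (XT.lf (nat_lit 0) (nat_lit 232566209498) (nat_lit 304) (nat_lit 256024443127) (nat_lit 76) (nat_lit 143371406746) (nat_lit 27) (nat_lit 5) (nat_lit 31) (nat_lit 5) (nat_lit 28) (nat_lit 5) (nat_lit 298) (nat_lit 294) (nat_lit 188))) (XT.nd (nat_lit 78) (nat_lit 152) (nat_lit 0) (XT.lf (nat_lit 0) (nat_lit 72860821888) (nat_lit 304) (nat_lit 239488840810) (nat_lit 380) (nat_lit 371285305836) (nat_lit 23) (nat_lit 5) (nat_lit 27) (nat_lit 5) (nat_lit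 28) (nat_lit 5) (nat_lit 299) (nat_lit 294) (nat_lit 187)) (XT.nd (nat_lit 78) (nat_lit 152) (nat_lit 0) (XT.lf (nat_lit 0) (nat_lit 420066258941) (nat_lit 380) (nat_lit 263781412175) (nat_lit 76) (nat_lit 56816299270) (nat_lit 23) (nat_lit 5) (nat_lit 28) (nat_lit 5) (nat_lit 24) (nat_lit 5) (nat_lit 300) (nat_lit 294) (nat_lit 186)) (XT.lf (nat_lit 0) (nat_lit 135960076706) (nat_lit 152) (nat_lit 425014289216) (nat_lit 228) (nat_lit 242717853461) (nat_lit 21) (nat_lit 5) (nat_lit 23) (nat_lit 5) (nat_lit 24) (nat_lit 5) (nat_lit 301) (nat_lit 294) (nat_lit 185)))))) (XT.nd (nat_lit 390) (nat_lit 304) (nat_lit 0) (XT.nd (nat_lit 156) (nat_lit 152) (nat_lit 0) (XT.nd (nat_lit 78) (nat_lit 152) (nat_lit 0) (XT.lf (nat_lit 0) (nat_lit 625308192604) (nat_lit 152) (nat_lit 111499046267) (nat_lit 228) (nat_lit 137299184426) (nat_lit 21) (nat_lit 5) (nat_lit 23) (nat_lit 5) (nat_lit 24) (nat_lit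 5) (nat_lit 302) (nat_lit 294) (nat_lit 184)) (XT.lf (nat_lit 0) (nat_lit 6769164381) (nat_lit 152) (nat_lit 707901772650) (nat_lit 76) (nat_lit 237300657233) (nat_lit 19) (nat_lit 5) (nat_lit 21) (nat_lit 5) (nat_lit 20) (nat_lit 5) (nat_lit 303) (nat_lit 294) (nat_lit 183))) (XT.nd (nat_lit 78) (nat_lit 152) (nat_lit 0) (XT.lf (nat_lit 0) (nat_lit 177325067282) (nat_lit 152) (nat_lit 213202993881) (nat_lit 76) (nat_lit 647167652834) (nat_lit 19) (nat_lit 5) (nat_lit 21) (nat_lit 5) (nat_lit 20) (nat_lit 5) (nat_lit 304) (nat_lit 294) (nat_lit 182)) (XT.nd (nat_lit 78) (nat_lit 0) (nat_lit 0) (XT.lf (nat_lit 0) (nat_lit 389666901056) (nat_lit 228) (nat_lit 743425355334) (nat_lit 76) (nat_lit 755813517) (nat_lit 17) (nat_lit 5) (nat_lit 20) (nat_lit 5) (nat_lit 18) (nat_lit 4) (nat_lit 305) (nat_lit 294) (nat_lit 181)) (XT.lf (nat_lit 0) (nat_lit 664131969512) (nat_lit 228) (nat_lit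 153325486698) (nat_lit 76) (nat_lit 422425029077) (nat_lit 17) (nat_lit 5) (nat_lit 20) (nat_lit 5) (nat_lit 18) (nat_lit 4) (nat_lit 306) (nat_lit 294) (nat_lit 180))))) (XT.nd (nat_lit 156) (nat_lit 228) (nat_lit 0) (XT.nd (nat_lit 78) (nat_lit 0) (nat_lit 0) (XT.lf (nat_lit 0) (nat_lit 576624433365) (nat_lit 76) (nat_lit 427019138418) (nat_lit 152) (nat_lit 354596975182) (nat_lit 16) (nat_lit 5) (nat_lit 17) (nat_lit 5) (nat_lit 18) (nat_lit 4) (nat_lit 307) (nat_lit 294) (nat_lit 179)) (XT.lf (nat_lit 0) (nat_lit 1403388645080) (nat_lit 152) (nat_lit 61143598637) (nat_lit 0) (nat_lit 28424064597) (nat_lit 16) (nat_lit 5) (nat_lit 18) (nat_lit 4) (nat_lit 16) (nat_lit 4) (nat_lit 308) (nat_lit 294) (nat_lit 178))) (XT.nd (nat_lit 78) (nat_lit 76) (nat_lit 0) (XT.lf (nat_lit 0) (nat_lit 252933103159) (nat_lit 152) (nat_lit 831158425010) (nat_lit 76) (nat_lit 553919598348) (nat_lit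 14) (nat_lit 5) (nat_lit 16) (nat_lit 5) (nat_lit 15) (nat_lit 4) (nat_lit 309) (nat_lit 294) (nat_lit 177)) (XT.nd (nat_lit 78) (nat_lit 0) (nat_lit 0) (XT.lf (nat_lit 0) (nat_lit 3466690952) (nat_lit 76) (nat_lit 637664147162) (nat_lit 152) (nat_lit 1162529778885) (nat_lit 13) (nat_lit 5) (nat_lit 14) (nat_lit 5) (nat_lit 15) (nat_lit 4) (nat_lit 310) (nat_lit 294) (nat_lit 176)) (XT.lf (nat_lit 0) (nat_lit 1056696427169) (nat_lit 76) (nat_lit 74308712600) (nat_lit 152) (nat_lit 856635355330) (nat_lit 13) (nat_lit 5) (nat_lit 14) (nat_lit 5) (nat_lit 15) (nat_lit 4) (nat_lit 311) (nat_lit 294) (nat_lit 175))))))) (XT.nd (nat_lit 780) (nat_lit 304) (nat_lit 0) (XT.nd (nat_lit 390) (nat_lit 228) (nat_lit 0) (XT.nd (nat_lit 156) (nat_lit 76) (nat_lit 0) (XT.nd (nat_lit 78) (nat_lit 76) (nat_lit 0) (XT.lf (nat_lit 0) (nat_lit 49335998013) (nat_lit 76) (nat_lit 1670816960994) (nat_lit 76)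 (nat_lit 475195540066) (nat_lit 12) (nat_lit 4) (nat_lit 13) (nat_lit 5) (nat_lit 13) (nat_lit 4) (nat_lit 312) (nat_lit 294) (nat_lit 174)) (XT.lf (nat_lit 0) (nat_lit 21232039485) (nat_lit 152) (nat_lit 1149972544148) (nat_lit 76) (nat_lit 1255057259419) (nat_lit 11) (nat_lit 5) (nat_lit 13) (nat_lit 5) (nat_lit 12) (nat_lit 4) (nat_lit 313) (nat_lit 294) (nat_lit 173))) (XT.nd (nat_lit 78) (nat_lit 76) (nat_lit 0) (XT.lf (nat_lit 0) (nat_lit 543472775351) (nat_lit 152) (nat_lit 27154969092) (nat_lit 76) (nat_lit 2117790191633) (nat_lit 11) (nat_lit 5) (nat_lit 13) (nat_lit 5) (nat_lit 12) (nat_lit 4) (nat_lit 314) (nat_lit 294) (nat_lit 172)) (XT.nd (nat_lit 78) (nat_lit 0) (nat_lit 0) (XT.lf (nat_lit 0) (nat_lit 1209214567532) (nat_lit 152) (nat_lit 1601364385438) (nat_lit 0) (nat_lit 169543748199) (nat_lit 10) (nat_lit 5) (nat_lit 12) (nat_lit 4) (nat_lit 10) (nat_lit 4) (nat_lit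 315) (nat_lit 294) (nat_lit 171)) (XT.lf (nat_lit 0) (nat_lit 2003477428731) (nat_lit 152) (nat_lit 344000177513) (nat_lit 0) (nat_lit 963806604759) (nat_lit 10) (nat_lit 5) (nat_lit 12) (nat_lit 4) (nat_lit 10) (nat_lit 4) (nat_lit 316) (nat_lit 294) (nat_lit 170))))) (XT.nd (nat_lit 156) (nat_lit 152) (nat_lit 0) (XT.nd (nat_lit 78) (nat_lit 0) (nat_lit 0) (XT.lf (nat_lit 0) (nat_lit 1209661039814) (nat_lit 76) (nat_lit 1757308156932) (nat_lit 76) (nat_lit 717637328925) (nat_lit 9) (nat_lit 4) (nat_lit 10) (nat_lit 5) (nat_lit 10) (nat_lit 4) (nat_lit 317) (nat_lit 294) (nat_lit 169)) (XT.lf (nat_lit 0) (nat_lit 3035032356856) (nat_lit 76) (nat_lit 1057934194496) (nat_lit 76) (nat_lit 18263362982) (nat_lit 9) (nat_lit 4) (nat_lit 10) (nat_lit 5) (nat_lit 10) (nat_lit 4) (nat_lit 318) (nat_lit 294) (nat_lit 168))) (XT.nd (nat_lit 78) (nat_lit 0) (nat_lit 0) (XT.lf (nat_lit 0) (nat_lit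 548660857561) (nat_lit 76) (nat_lit 190098069008) (nat_lit 152) (nat_lit 3854797962857) (nat_lit 7) (nat_lit 5) (nat_lit 8) (nat_lit 5) (nat_lit 9) (nat_lit 4) (nat_lit 319) (nat_lit 294) (nat_lit 167)) (XT.nd (nat_lit 78) (nat_lit 0) (nat_lit 0) (XT.lf (nat_lit 0) (nat_lit 1699853335883) (nat_lit 152) (nat_lit 2638599094483) (nat_lit 0) (nat_lit 795791738302) (nat_lit 7) (nat_lit 5) (nat_lit 9) (nat_lit 4) (nat_lit 7) (nat_lit 4) (nat_lit 320) (nat_lit 294) (nat_lit 166)) (XT.lf (nat_lit 0) (nat_lit 2814164190847) (nat_lit 152) (nat_lit 1030409915052) (nat_lit 0) (nat_lit 1910102591261) (nat_lit 7) (nat_lit 5) (nat_lit 9) (nat_lit 4) (nat_lit 7) (nat_lit 4) (nat_lit 321) (nat_lit 294) (nat_lit 165)))))) (XT.nd (nat_lit 390) (nat_lit 76) (nat_lit 0) (XT.nd (nat_lit 156) (nat_lit 152) (nat_lit 0) (XT.nd (nat_lit 78) (nat_lit 0) (nat_lit 0) (XT.lf (nat_lit 0) (nat_lit 899047015294) (nat_lit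 76) (nat_lit 3233802274316) (nat_lit 76) (nat_lit 2329740672985) (nat_lit 6) (nat_lit 4) (nat_lit 7) (nat_lit 5) (nat_lit 7) (nat_lit 4) (nat_lit 322) (nat_lit 294) (nat_lit 164)) (XT.lf (nat_lit 0) (nat_lit 3233726500667) (nat_lit 76) (nat_lit 2469472985072) (nat_lit 76) (nat_lit 1565411382225) (nat_lit 6) (nat_lit 4) (nat_lit 7) (nat_lit 5) (nat_lit 7) (nat_lit 4) (nat_lit 323) (nat_lit 294) (nat_lit 163))) (XT.nd (nat_lit 78) (nat_lit 152) (nat_lit 0) (XT.lf (nat_lit 0) (nat_lit 5918607901947) (nat_lit 76) (nat_lit 1590494305935) (nat_lit 76) (nat_lit 686432701769) (nat_lit 6) (nat_lit 4) (nat_lit 7) (nat_lit 5) (nat_lit 7) (nat_lit 4) (nat_lit 324) (nat_lit 294) (nat_lit 162)) (XT.nd (nat_lit 78) (nat_lit 76) (nat_lit 0) (XT.lf (nat_lit 0) (nat_lit 295513089095) (nat_lit 152) (nat_lit 268708463758) (nat_lit 76) (nat_lit 8695261143212) (nat_lit 5) (nat_lit 5) (nat_lit 7) (nat_lit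 5) (nat_lit 6) (nat_lit 4) (nat_lit 325) (nat_lit 294) (nat_lit 161)) (XT.lf (nat_lit 0) (nat_lit 1477158263075) (nat_lit 152) (nat_lit 8291540788555) (nat_lit 0) (nat_lit 691017735849) (nat_lit 4) (nat_lit 5) (nat_lit 6) (nat_lit 4) (nat_lit 4) (nat_lit 4) (nat_lit 326) (nat_lit 294) (nat_lit 160))))) (XT.nd (nat_lit 234) (nat_lit 76) (nat_lit 0) (XT.nd (nat_lit 78) (nat_lit 0) (nat_lit 0) (XT.lf (nat_lit 0) (nat_lit 2877632890772) (nat_lit 152) (nat_lit 6864623337398) (nat_lit 0) (nat_lit 2091492362792) (nat_lit 4) (nat_lit 5) (nat_lit 6) (nat_lit 4) (nat_lit 4) (nat_lit 4) (nat_lit 327) (nat_lit 294) (nat_lit 159)) (XT.nd (nat_lit 78) (nat_lit 0) (nat_lit 0) (XT.lf (nat_lit 0) (nat_lit 4488178710299) (nat_lit 152) (nat_lit 5223668273357) (nat_lit 0) (nat_lit 3702038181663) (nat_lit 4) (nat_lit 5) (nat_lit 6) (nat_lit 4) (nat_lit 4) (nat_lit 4) (nat_lit 328) (nat_lit 294) (nat_lit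 158)) (XT.lf (nat_lit 0) (nat_lit 6340306400732) (nat_lit 152) (nat_lit 3336569953875) (nat_lit 0) (nat_lit 5554165871526) (nat_lit 4) (nat_lit 5) (nat_lit 6) (nat_lit 4) (nat_lit 4) (nat_lit 4) (nat_lit 329) (nat_lit 294) (nat_lit 157)))) (XT.nd (nat_lit 78) (nat_lit 76) (nat_lit 0) (XT.lf (nat_lit 0) (nat_lit 8470253242972) (nat_lit 152) (nat_lit 1166406890091) (nat_lit 0) (nat_lit 7684112713271) (nat_lit 4) (nat_lit 5) (nat_lit 6) (nat_lit 4) (nat_lit 4) (nat_lit 4) (nat_lit 330) (nat_lit 294) (nat_lit 156)) (XT.nd (nat_lit 78) (nat_lit 0) (nat_lit 0) (XT.lf (nat_lit 0) (nat_lit 1459187600781) (nat_lit 76) (nat_lit 9520926356061) (nat_lit 76) (nat_lit 8734785825928) (nat_lit 3) (nat_lit 4) (nat_lit 4) (nat_lit 5) (nat_lit 4) (nat_lit 4) (nat_lit 331) (nat_lit 294) (nat_lit 155)) (XT.lf (nat_lit 0) (nat_lit 4609709491176) (nat_lit 76) (nat_lit 9317715554417) (nat_lit 76) (nat_lit 8531575023909)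 (nat_lit 3) (nat_lit 4) (nat_lit 4) (nat_lit 5) (nat_lit 4) (nat_lit 4) (nat_lit 332) (nat_lit 294) (nat_lit 154))))))))
noncomputable def xc106 : XT := (XT.nd (nat_lit 38454) (nat_lit 0) (nat_lit 228) (XT.nd (nat_lit 37674) (nat_lit 0) (nat_lit 1216) (XT.nd (nat_lit 390) (nat_lit 0) (nat_lit 0) (XT.nd (nat_lit 156) (nat_lit 0) (nat_lit 0) (XT.nd (nat_lit 78) (nat_lit 0) (nat_lit 0) (XT.lf (nat_lit 0) (nat_lit 8232809662518) (nat_lit 76) (nat_lit 9084023133875) (nat_lit 76) (nat_lit 8297882603042) (nat_lit 3) (nat_lit 4) (nat_lit 4) (nat_lit 5) (nat_lit 4) (nat_lit 4) (nat_lit 333) (nat_lit 294) (nat_lit 153)) (XT.lf (nat_lit 0) (nat_lit 12399374857287) (nat_lit 76) (nat_lit 8815276851426) (nat_lit 76) (nat_lit 8029136320309) (nat_lit 3) (nat_lit 4) (nat_lit 4) (nat_lit 5) (nat_lit 4) (nat_lit 4) (nat_lit 334) (nat_lit 294) (nat_lit 152))) (XT.nd (nat_lit 78) (nat_lit 0) (nat_lit 0)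 (XT.lf (nat_lit 0) (nat_lit 17190924829296) (nat_lit 76) (nat_lit 8506218627629) (nat_lit 76) (nat_lit 7720078096266) (nat_lit 3) (nat_lit 4) (nat_lit 4) (nat_lit 5) (nat_lit 4) (nat_lit 4) (nat_lit 335) (nat_lit 294) (nat_lit 151)) (XT.nd (nat_lit 78) (nat_lit 0) (nat_lit 0) (XT.lf (nat_lit 0) (nat_lit 22701207295388) (nat_lit 76) (nat_lit 8150801671150) (nat_lit 76) (nat_lit 7364661139572) (nat_lit 3) (nat_lit 4) (nat_lit 4) (nat_lit 5) (nat_lit 4) (nat_lit 4) (nat_lit 336) (nat_lit 294) (nat_lit 150)) (XT.lf (nat_lit 0) (nat_lit 29038032129899) (nat_lit 76) (nat_lit 7742072171971) (nat_lit 76) (nat_lit 6955931640206) (nat_lit 3) (nat_lit 4) (nat_lit 4) (nat_lit 5) (nat_lit 4) (nat_lit 4) (nat_lit 337) (nat_lit 294) (nat_lit 149))))) (XT.nd (nat_lit 156) (nat_lit 0) (nat_lit 0) (XT.nd (nat_lit 78) (nat_lit 0) (nat_lit 0) (XT.lf (nat_lit 0) (nat_lit 36325380688288) (nat_lit 76) (nat_lit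 7272033248585) (nat_lit 76) (nat_lit 6485892716659) (nat_lit 3) (nat_lit 4) (nat_lit 4) (nat_lit 5) (nat_lit 4) (nat_lit 4) (nat_lit 338) (nat_lit 294) (nat_lit 148)) (XT.lf (nat_lit 0) (nat_lit 44705831529305) (nat_lit 76) (nat_lit 6731488487275) (nat_lit 76) (nat_lit 5945347955208) (nat_lit 3) (nat_lit 4) (nat_lit 4) (nat_lit 5) (nat_lit 4) (nat_lit 4) (nat_lit 339) (nat_lit 294) (nat_lit 147))) (XT.nd (nat_lit 78) (nat_lit 0) (nat_lit 0) (XT.lf (nat_lit 0) (nat_lit 54343349995492) (nat_lit 76) (nat_lit 6109862012276) (nat_lit 76) (nat_lit 5323721480086) (nat_lit 3) (nat_lit 4) (nat_lit 4) (nat_lit 5) (nat_lit 4) (nat_lit 4) (nat_lit 340) (nat_lit 294) (nat_lit 146)) (XT.nd (nat_lit 78) (nat_lit 0) (nat_lit 0) (XT.lf (nat_lit 0) (nat_lit 65426496230752) (nat_lit 76) (nat_lit 5394991566468) (nat_lit 76) (nat_lit 4608851034171) (nat_lit 3) (nat_lit 4) (nat_lit 4) (nat_lit 5) (nat_lit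 4) (nat_lit 4) (nat_lit 341) (nat_lit 294) (nat_lit 145)) (XT.lf (nat_lit 0) (nat_lit 78172114400558) (nat_lit 76) (nat_lit 4572890554172) (nat_lit 76) (nat_lit 3786750021783) (nat_lit 3) (nat_lit 4) (nat_lit 4) (nat_lit 5) (nat_lit 4) (nat_lit 4) (nat_lit 342) (nat_lit 294) (nat_lit 144)))))) (XT.nd (nat_lit 390) (nat_lit 456) (nat_lit 0) (XT.nd (nat_lit 156) (nat_lit 0) (nat_lit 76) (XT.nd (nat_lit 78) (nat_lit 0) (nat_lit 0) (XT.lf (nat_lit 0) (nat_lit 55438549524) (nat_lit 380) (nat_lit 107604881534) (nat_lit 380) (nat_lit 107604881534) (nat_lit 25) (nat_lit 3) (nat_lit 30) (nat_lit 3) (nat_lit 30) (nat_lit 5) (nat_lit 295) (nat_lit 295) (nat_lit 190)) (XT.lf (nat_lit 76) (nat_lit 47155214503) (nat_lit 0) (nat_lit 73990467961) (nat_lit 380) (nat_lit 460455268924) (nat_lit 26) (nat_lit 5) (nat_lit 25) (nat_lit 3) (nat_lit 30) (nat_lit 5) (nat_lit 296) (nat_lit 295) (nat_lit 189)))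 (XT.nd (nat_lit 78) (nat_lit 0) (nat_lit 0) (XT.lf (nat_lit 0) (nat_lit 153680615944) (nat_lit 304) (nat_lit 262678432207) (nat_lit 380) (nat_lit 208482969082) (nat_lit 26) (nat_lit 5) (nat_lit 30) (nat_lit 5) (nat_lit 31) (nat_lit 5) (nat_lit 297) (nat_lit 295) (nat_lit 188)) (XT.nd (nat_lit 78) (nat_lit 0) (nat_lit 76) (XT.lf (nat_lit 76) (nat_lit 50858349020) (nat_lit 0) (nat_lit 145866699903) (nat_lit 380) (nat_lit 476999805193) (nat_lit 27) (nat_lit 5) (nat_lit 26) (nat_lit 5) (nat_lit 31) (nat_lit 5) (nat_lit 298) (nat_lit 295) (nat_lit 187)) (XT.lf (nat_lit 0) (nat_lit 267451448594) (nat_lit 304) (nat_lit 294427798733) (nat_lit 76) (nat_lit 164877074015) (nat_lit 27) (nat_lit 5) (nat_lit 31) (nat_lit 5) (nat_lit 28) (nat_lit 5) (nat_lit 299) (nat_lit 295) (nat_lit 186))))) (XT.nd (nat_lit 156) (nat_lit 304) (nat_lit 0) (XT.nd (nat_lit 78) (nat_lit 0) (nat_lit 0) (XT.lf (nat_lit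 0) (nat_lit 83790241903) (nat_lit 304) (nat_lit 275412150028) (nat_lit 380) (nat_lit 426977779229) (nat_lit 23) (nat_lit 5) (nat_lit 27) (nat_lit 5) (nat_lit 28) (nat_lit 5) (nat_lit 300) (nat_lit 295) (nat_lit 185)) (XT.lf (nat_lit 0) (nat_lit 483076441720) (nat_lit 380) (nat_lit 303348329491) (nat_lit 76) (nat_lit 65338757551) (nat_lit 23) (nat_lit 5) (nat_lit 28) (nat_lit 5) (nat_lit 24) (nat_lit 5) (nat_lit 301) (nat_lit 295) (nat_lit 184))) (XT.nd (nat_lit 78) (nat_lit 152) (nat_lit 0) (XT.lf (nat_lit 0) (nat_lit 156354369335) (nat_lit 152) (nat_lit 488766375235) (nat_lit 228) (nat_lit 279125273642) (nat_lit 21) (nat_lit 5) (nat_lit 23) (nat_lit 5) (nat_lit 24) (nat_lit 5) (nat_lit 302) (nat_lit 295) (nat_lit 183)) (XT.nd (nat_lit 78) (nat_lit 152) (nat_lit 0) (XT.lf (nat_lit 0) (nat_lit 719104665950) (nat_lit 152) (nat_lit 128223853326) (nat_lit 228) (nat_lit 157893837883) (nat_lit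 21) (nat_lit 5) (nat_lit 23) (nat_lit 5) (nat_lit 24) (nat_lit 5) (nat_lit 303) (nat_lit 295) (nat_lit 182)) (XT.lf (nat_lit 0) (nat_lit 7784729790) (nat_lit 152) (nat_lit 814086759909) (nat_lit 76) (nat_lit 272895814754) (nat_lit 19) (nat_lit 5) (nat_lit 21) (nat_lit 5) (nat_lit 20) (nat_lit 5) (nat_lit 304) (nat_lit 295) (nat_lit 181))))))) (XT.nd (nat_lit 780) (nat_lit 380) (nat_lit 0) (XT.nd (nat_lit 390) (nat_lit 380) (nat_lit 0) (XT.nd (nat_lit 156) (nat_lit 76) (nat_lit 0) (XT.nd (nat_lit 78) (nat_lit 152) (nat_lit 0) (XT.lf (nat_lit 0) (nat_lit 203923993246) (nat_lit 152) (nat_lit 245183200669) (nat_lit 76) (nat_lit 744242852007) (nat_lit 19) (nat_lit 5) (nat_lit 21) (nat_lit 5) (nat_lit 20) (nat_lit 5) (nat_lit 305) (nat_lit 295) (nat_lit 180)) (XT.lf (nat_lit 0) (nat_lit 448117093234) (nat_lit 228) (nat_lit 854938907233) (nat_lit 76) (nat_lit 869256117) (nat_lit 17) (nat_lit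 5) (nat_lit 20) (nat_lit 5) (nat_lit 18) (nat_lit 4) (nat_lit 306) (nat_lit 295) (nat_lit 179))) (XT.nd (nat_lit 78) (nat_lit 76) (nat_lit 0) (XT.lf (nat_lit 0) (nat_lit 763751901478) (nat_lit 228) (nat_lit 176324091094) (nat_lit 76) (nat_lit 485788844805) (nat_lit 17) (nat_lit 5) (nat_lit 20) (nat_lit 5) (nat_lit 18) (nat_lit 4) (nat_lit 307) (nat_lit 295) (nat_lit 178)) (XT.nd (nat_lit 78) (nat_lit 0) (nat_lit 0) (XT.lf (nat_lit 0) (nat_lit 663118307042) (nat_lit 76) (nat_lit 491071927879) (nat_lit 152) (nat_lit 407786374790) (nat_lit 16) (nat_lit 5) (nat_lit 17) (nat_lit 5) (nat_lit 18) (nat_lit 4) (nat_lit 308) (nat_lit 295) (nat_lit 177)) (XT.lf (nat_lit 0) (nat_lit 1613897055527) (nat_lit 152) (nat_lit 70314943124) (nat_lit 0) (nat_lit 32687738691) (nat_lit 16) (nat_lit 5) (nat_lit 18) (nat_lit 4) (nat_lit 16) (nat_lit 4) (nat_lit 309) (nat_lit 295) (nat_lit 176))))) (XT.nd (nat_lit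 156) (nat_lit 152) (nat_lit 0) (XT.nd (nat_lit 78) (nat_lit 76) (nat_lit 0) (XT.lf (nat_lit 0) (nat_lit 290873180417) (nat_lit 152) (nat_lit 955831991279) (nat_lit 76) (nat_lit 637007606904) (nat_lit 14) (nat_lit 5) (nat_lit 16) (nat_lit 5) (nat_lit 15) (nat_lit 4) (nat_lit 310) (nat_lit 295) (nat_lit 175)) (XT.lf (nat_lit 0) (nat_lit 3986883101) (nat_lit 76) (nat_lit 733313685740) (nat_lit 152) (nat_lit 1336909124847) (nat_lit 13) (nat_lit 5) (nat_lit 14) (nat_lit 5) (nat_lit 15) (nat_lit 4) (nat_lit 311) (nat_lit 295) (nat_lit 174))) (XT.nd (nat_lit 78) (nat_lit 152) (nat_lit 0) (XT.lf (nat_lit 0) (nat_lit 1215201055163) (nat_lit 76) (nat_lit 85454946884) (nat_lit 152) (nat_lit 985130553524) (nat_lit 13) (nat_lit 5) (nat_lit 14) (nat_lit 5) (nat_lit 15) (nat_lit 4) (nat_lit 312) (nat_lit 295) (nat_lit 173)) (XT.nd (nat_lit 78) (nat_lit 76) (nat_lit 0) (XT.lf (nat_lit 0) (nat_lit 56736564478)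 (nat_lit 76) (nat_lit 1921439427301) (nat_lit 76) (nat_lit 546474768732) (nat_lit 12) (nat_lit 4) (nat_lit 13) (nat_lit 5) (nat_lit 13) (nat_lit 4) (nat_lit 313) (nat_lit 295) (nat_lit 172)) (XT.lf (nat_lit 0) (nat_lit 24416926479) (nat_lit 152) (nat_lit 1322468272773) (nat_lit 76) (nat_lit 1443315908034) (nat_lit 11) (nat_lit 5) (nat_lit 13) (nat_lit 5) (nat_lit 12) (nat_lit 4) (nat_lit 314) (nat_lit 295) (nat_lit 171)))))) (XT.nd (nat_lit 390) (nat_lit 228) (nat_lit 0) (XT.nd (nat_lit 156) (nat_lit 76) (nat_lit 0) (XT.nd (nat_lit 78) (nat_lit 76) (nat_lit 0) (XT.lf (nat_lit 0) (nat_lit 624993762151) (nat_lit 152) (nat_lit 31228081414) (nat_lit 76) (nat_lit 2435458772294) (nat_lit 11) (nat_lit 5) (nat_lit 13) (nat_lit 5) (nat_lit 12) (nat_lit 4) (nat_lit 315) (nat_lit 295) (nat_lit 170)) (XT.lf (nat_lit 0) (nat_lit 1390596821725) (nat_lit 152) (nat_lit 1841568908730) (nat_lit 0) (nat_lit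 194975365483) (nat_lit 10) (nat_lit 5) (nat_lit 12) (nat_lit 4) (nat_lit 10) (nat_lit 4) (nat_lit 316) (nat_lit 295) (nat_lit 169))) (XT.nd (nat_lit 78) (nat_lit 76) (nat_lit 0) (XT.lf (nat_lit 0) (nat_lit 2303999103096) (nat_lit 152) (nat_lit 395600087163) (nat_lit 0) (nat_lit 1108377643346) (nat_lit 10) (nat_lit 5) (nat_lit 12) (nat_lit 4) (nat_lit 10) (nat_lit 4) (nat_lit 317) (nat_lit 295) (nat_lit 168)) (XT.nd (nat_lit 78) (nat_lit 0) (nat_lit 0) (XT.lf (nat_lit 0) (nat_lit 1391110307446) (nat_lit 76) (nat_lit 2020904325657) (nat_lit 76) (nat_lit 825282862856) (nat_lit 9) (nat_lit 4) (nat_lit 10) (nat_lit 5) (nat_lit 10) (nat_lit 4) (nat_lit 318) (nat_lit 295) (nat_lit 167)) (XT.lf (nat_lit 0) (nat_lit 3490287307481) (nat_lit 76) (nat_lit 1216624276006) (nat_lit 76) (nat_lit 21002810553) (nat_lit 9) (nat_lit 4) (nat_lit 10) (nat_lit 5) (nat_lit 10) (nat_lit 4) (nat_lit 319) (nat_lit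 295) (nat_lit 166))))) (XT.nd (nat_lit 156) (nat_lit 76) (nat_lit 0) (XT.nd (nat_lit 78) (nat_lit 0) (nat_lit 0) (XT.lf (nat_lit 0) (nat_lit 630960083737) (nat_lit 76) (nat_lit 218612730912) (nat_lit 152) (nat_lit 4433017600804) (nat_lit 7) (nat_lit 5) (nat_lit 8) (nat_lit 5) (nat_lit 9) (nat_lit 4) (nat_lit 320) (nat_lit 295) (nat_lit 165)) (XT.lf (nat_lit 0) (nat_lit 1954831380700) (nat_lit 152) (nat_lit 3034388869157) (nat_lit 0) (nat_lit 915160537426) (nat_lit 7) (nat_lit 5) (nat_lit 9) (nat_lit 4) (nat_lit 7) (nat_lit 4) (nat_lit 321) (nat_lit 295) (nat_lit 164))) (XT.nd (nat_lit 78) (nat_lit 76) (nat_lit 0) (XT.lf (nat_lit 0) (nat_lit 3236288858113) (nat_lit 152) (nat_lit 1184971324485) (nat_lit 0) (nat_lit 2196618013322) (nat_lit 7) (nat_lit 5) (nat_lit 9) (nat_lit 4) (nat_lit 7) (nat_lit 4) (nat_lit 322) (nat_lit 295) (nat_lit 163)) (XT.nd (nat_lit 78) (nat_lit 0) (nat_lit 0)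 (XT.lf (nat_lit 0) (nat_lit 1033904141876) (nat_lit 76) (nat_lit 3718872577851) (nat_lit 76) (nat_lit 2679201731741) (nat_lit 6) (nat_lit 4) (nat_lit 7) (nat_lit 5) (nat_lit 7) (nat_lit 4) (nat_lit 323) (nat_lit 295) (nat_lit 162)) (XT.lf (nat_lit 0) (nat_lit 3718785540365) (nat_lit 76) (nat_lit 2839893900126) (nat_lit 76) (nat_lit 1800223052870) (nat_lit 6) (nat_lit 4) (nat_lit 7) (nat_lit 5) (nat_lit 7) (nat_lit 4) (nat_lit 324) (nat_lit 295) (nat_lit 161))))))))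
noncomputable def xc107 : XT := (XT.nd (nat_lit 2184) (nat_lit 0) (nat_lit 0) (XT.nd (nat_lit 780) (nat_lit 152) (nat_lit 0) (XT.nd (nat_lit 390) (nat_lit 76) (nat_lit 0) (XT.nd (nat_lit 156) (nat_lit 76) (nat_lit 0) (XT.nd (nat_lit 78) (nat_lit 76) (nat_lit 0) (XT.lf (nat_lit 0) (nat_lit 6806399143411) (nat_lit 76) (nat_lit 1829068423385) (nat_lit 76) (nat_lit 789397575131) (nat_lit 6) (nat_lit 4) (nat_lit 7) (nat_lit 5) (nat_lit 7) (nat_lit 4) (nat_lit 325) (nat_lit 295) (nat_lit 160)) (XT.lf (nat_lit 0) (nat_lit 339840077731) (nat_lit 152) (nat_lit 309014681997) (nat_lit 76) (nat_lit 9999550336946) (nat_lit 5) (nat_lit 5) (nat_lit 7) (nat_lit 5) (nat_lit 6) (nat_lit 4) (nat_lit 326) (nat_lit 295) (nat_lit 159))) (XT.nd (nat_lit 78) (nat_lit 0) (nat_lit 0) (XT.lf (nat_lit 0) (nat_lit 1698732027575) (nat_lit 152) (nat_lit 9535271855273) (nat_lit 0) (nat_lit 794670418989) (nat_lit 4)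 (nat_lit 5) (nat_lit 6) (nat_lit 4) (nat_lit 4) (nat_lit 4) (nat_lit 327) (nat_lit 295) (nat_lit 158)) (XT.nd (nat_lit 78) (nat_lit 0) (nat_lit 0) (XT.lf (nat_lit 0) (nat_lit 3309277846161) (nat_lit 152) (nat_lit 7894316793169) (nat_lit 0) (nat_lit 2405216237005) (nat_lit 4) (nat_lit 5) (nat_lit 6) (nat_lit 4) (nat_lit 4) (nat_lit 4) (nat_lit 328) (nat_lit 295) (nat_lit 157)) (XT.lf (nat_lit 0) (nat_lit 5161405535777) (nat_lit 152) (nat_lit 6007218475371) (nat_lit 0) (nat_lit 4257343926124) (nat_lit 4) (nat_lit 5) (nat_lit 6) (nat_lit 4) (nat_lit 4) (nat_lit 4) (nat_lit 329) (nat_lit 295) (nat_lit 156))))) (XT.nd (nat_lit 156) (nat_lit 76) (nat_lit 0) (XT.nd (nat_lit 78) (nat_lit 0) (nat_lit 0) (XT.lf (nat_lit 0) (nat_lit 7291352377306) (nat_lit 152) (nat_lit 3837055413051) (nat_lit 0) (nat_lit 6387290767222) (nat_lit 4) (nat_lit 5) (nat_lit 6) (nat_lit 4) (nat_lit 4) (nat_lit 4) (nat_lit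 330) (nat_lit 295) (nat_lit 155)) (XT.lf (nat_lit 0) (nat_lit 9740791243734) (nat_lit 152) (nat_lit 1341367894122) (nat_lit 0) (nat_lit 8836729633276) (nat_lit 4) (nat_lit 5) (nat_lit 6) (nat_lit 4) (nat_lit 4) (nat_lit 4) (nat_lit 331) (nat_lit 295) (nat_lit 154))) (XT.nd (nat_lit 78) (nat_lit 0) (nat_lit 0) (XT.lf (nat_lit 0) (nat_lit 1678065769040) (nat_lit 76) (nat_lit 10949065294942) (nat_lit 76) (nat_lit 10045003684158) (nat_lit 3) (nat_lit 4) (nat_lit 4) (nat_lit 5) (nat_lit 4) (nat_lit 4) (nat_lit 332) (nat_lit 295) (nat_lit 153)) (XT.nd (nat_lit 78) (nat_lit 0) (nat_lit 0) (XT.lf (nat_lit 0) (nat_lit 5301165939324) (nat_lit 76) (nat_lit 10715372874946) (nat_lit 76) (nat_lit 9811311263878) (nat_lit 3) (nat_lit 4) (nat_lit 4) (nat_lit 5) (nat_lit 4) (nat_lit 4) (nat_lit 333) (nat_lit 295) (nat_lit 152)) (XT.lf (nat_lit 0) (nat_lit 9467731133175) (nat_lit 76) (nat_lit 10446626592971)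 (nat_lit 76) (nat_lit 9542564981657) (nat_lit 3) (nat_lit 4) (nat_lit 4) (nat_lit 5) (nat_lit 4) (nat_lit 4) (nat_lit 334) (nat_lit 295) (nat_lit 151)))))) (XT.nd (nat_lit 390) (nat_lit 152) (nat_lit 0) (XT.nd (nat_lit 156) (nat_lit 0) (nat_lit 0) (XT.nd (nat_lit 78) (nat_lit 0) (nat_lit 0) (XT.lf (nat_lit 0) (nat_lit 14259281104385) (nat_lit 76) (nat_lit 10137568369587) (nat_lit 76) (nat_lit 9233506758058) (nat_lit 3) (nat_lit 4) (nat_lit 4) (nat_lit 5) (nat_lit 4) (nat_lit 4) (nat_lit 335) (nat_lit 295) (nat_lit 150)) (XT.lf (nat_lit 0) (nat_lit 19769563569781) (nat_lit 76) (nat_lit 9782151413467) (nat_lit 76) (nat_lit 8878089801752) (nat_lit 3) (nat_lit 4) (nat_lit 4) (nat_lit 5) (nat_lit 4) (nat_lit 4) (nat_lit 336) (nat_lit 295) (nat_lit 149))) (XT.nd (nat_lit 78) (nat_lit 0) (nat_lit 0) (XT.lf (nat_lit 0) (nat_lit 26106388403688) (nat_lit 76) (nat_lit 9373421914600) (nat_lit 76)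 (nat_lit 8469360302722) (nat_lit 3) (nat_lit 4) (nat_lit 4) (nat_lit 5) (nat_lit 4) (nat_lit 4) (nat_lit 337) (nat_lit 295) (nat_lit 148)) (XT.nd (nat_lit 78) (nat_lit 0) (nat_lit 0) (XT.lf (nat_lit 0) (nat_lit 33393736961551) (nat_lit 76) (nat_lit 8903382991485) (nat_lit 76) (nat_lit 7999321379467) (nat_lit 3) (nat_lit 4) (nat_lit 4) (nat_lit 5) (nat_lit 4) (nat_lit 4) (nat_lit 338) (nat_lit 295) (nat_lit 147)) (XT.lf (nat_lit 0) (nat_lit 41774187802111) (nat_lit 76) (nat_lit 8362838230411) (nat_lit 76) (nat_lit 7458776618271) (nat_lit 3) (nat_lit 4) (nat_lit 4) (nat_lit 5) (nat_lit 4) (nat_lit 4) (nat_lit 339) (nat_lit 295) (nat_lit 146))))) (XT.nd (nat_lit 780) (nat_lit 152) (nat_lit 0) (XT.nd (nat_lit 78) (nat_lit 0) (nat_lit 0) (XT.lf (nat_lit 0) (nat_lit 51411706267900) (nat_lit 76) (nat_lit 7741211755617) (nat_lit 76) (nat_lit 6837150143370) (nat_lit 3) (nat_lit 4) (nat_lit 4)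 (nat_lit 5) (nat_lit 4) (nat_lit 4) (nat_lit 340) (nat_lit 295) (nat_lit 145)) (XT.lf (nat_lit 0) (nat_lit 62494852502815) (nat_lit 76) (nat_lit 7026341309988) (nat_lit 76) (nat_lit 6122279697647) (nat_lit 3) (nat_lit 4) (nat_lit 4) (nat_lit 5) (nat_lit 4) (nat_lit 4) (nat_lit 341) (nat_lit 295) (nat_lit 144))) (XT.nd (nat_lit 78) (nat_lit 0) (nat_lit 0) (XT.lf (nat_lit 0) (nat_lit 7962481554135) (nat_lit 152) (nat_lit 246658292617411) (nat_lit 0) (nat_lit 7176341021281) (nat_lit 1) (nat_lit 5) (nat_lit 3) (nat_lit 4) (nat_lit 1) (nat_lit 4) (nat_lit 350) (nat_lit 295) (nat_lit 135)) (XT.nd (nat_lit 78) (nat_lit 0) (nat_lit 0) (XT.lf (nat_lit 0) (nat_lit 10992247861311) (nat_lit 152) (nat_lit 279574927589498) (nat_lit 0) (nat_lit 10206107328437) (nat_lit 1) (nat_lit 5) (nat_lit 3) (nat_lit 4) (nat_lit 1) (nat_lit 4) (nat_lit 351) (nat_lit 295) (nat_lit 134)) (XT.lf (nat_lit 0) (nat_lit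 14476479114471) (nat_lit 152) (nat_lit 317429057807591) (nat_lit 0) (nat_lit 13690338581580) (nat_lit 1) (nat_lit 5) (nat_lit 3) (nat_lit 4) (nat_lit 1) (nat_lit 4) (nat_lit 352) (nat_lit 295) (nat_lit 133))))))) (XT.nd (nat_lit 36894) (nat_lit 0) (nat_lit 760) (XT.nd (nat_lit 36504) (nat_lit 0) (nat_lit 1520) (XT.nd (nat_lit 36270) (nat_lit 0) (nat_lit 1824) (XT.nd (nat_lit 36192) (nat_lit 0) (nat_lit 1824) (XT.lf (nat_lit 0) (nat_lit 18483345055524) (nat_lit 152) (nat_lit 360961307558567) (nat_lit 0) (nat_lit 17697204522618) (nat_lit 1) (nat_lit 5) (nat_lit 3) (nat_lit 4) (nat_lit 1) (nat_lit 4) (nat_lit 353) (nat_lit 295) (nat_lit 132)) (XT.lf (nat_lit 0) (nat_lit 63754527614) (nat_lit 380) (nat_lit 123745501000) (nat_lit 380) (nat_lit 123745501000) (nat_lit 25) (nat_lit 3) (nat_lit 30) (nat_lit 3) (nat_lit 30) (nat_lit 5) (nat_lit 296) (nat_lit 296) (nat_lit 188))) (XT.nd (nat_lit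 78) (nat_lit 0) (nat_lit 76) (XT.lf (nat_lit 76) (nat_lit 54228711956) (nat_lit 0) (nat_lit 85089172073) (nat_lit 380) (nat_lit 529523156788) (nat_lit 26) (nat_lit 5) (nat_lit 25) (nat_lit 3) (nat_lit 30) (nat_lit 5) (nat_lit 297) (nat_lit 296) (nat_lit 187)) (XT.nd (nat_lit 78) (nat_lit 0) (nat_lit 0) (XT.lf (nat_lit 0) (nat_lit 176733007162) (nat_lit 304) (nat_lit 302079958689) (nat_lit 380) (nat_lit 239755308361) (nat_lit 26) (nat_lit 5) (nat_lit 30) (nat_lit 5) (nat_lit 31) (nat_lit 5) (nat_lit 298) (nat_lit 296) (nat_lit 186)) (XT.lf (nat_lit 76) (nat_lit 58487328888) (nat_lit 0) (nat_lit 167746746644) (nat_lit 380) (nat_lit 548549465631) (nat_lit 27) (nat_lit 5) (nat_lit 26) (nat_lit 5) (nat_lit 31) (nat_lit 5) (nat_lit 299) (nat_lit 296) (nat_lit 185))))) (XT.nd (nat_lit 156) (nat_lit 152) (nat_lit 0) (XT.nd (nat_lit 78) (nat_lit 304) (nat_lit 0) (XT.lf (nat_lit 0) (nat_lit 307569398528)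 (nat_lit 304) (nat_lit 338591733487) (nat_lit 76) (nat_lit 189608602041) (nat_lit 27) (nat_lit 5) (nat_lit 31) (nat_lit 5) (nat_lit 28) (nat_lit 5) (nat_lit 300) (nat_lit 296) (nat_lit 184)) (XT.lf (nat_lit 0) (nat_lit 96359002560) (nat_lit 304) (nat_lit 316723959750) (nat_lit 380) (nat_lit 491024202271) (nat_lit 23) (nat_lit 5) (nat_lit 27) (nat_lit 5) (nat_lit 28) (nat_lit 5) (nat_lit 301) (nat_lit 296) (nat_lit 183))) (XT.nd (nat_lit 78) (nat_lit 152) (nat_lit 0) (XT.lf (nat_lit 0) (nat_lit 555538092429) (nat_lit 380) (nat_lit 348850356223) (nat_lit 76) (nat_lit 75139581309) (nat_lit 23) (nat_lit 5) (nat_lit 28) (nat_lit 5) (nat_lit 24) (nat_lit 5) (nat_lit 302) (nat_lit 296) (nat_lit 182)) (XT.nd (nat_lit 78) (nat_lit 0) (nat_lit 0) (XT.lf (nat_lit 0) (nat_lit 179807737305) (nat_lit 152) (nat_lit 562081288146) (nat_lit 228) (nat_lit 320993869725) (nat_lit 21) (nat_lit 5) (nat_lit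 23) (nat_lit 5) (nat_lit 24) (nat_lit 5) (nat_lit 303) (nat_lit 296) (nat_lit 181)) (XT.lf (nat_lit 0) (nat_lit 826970550685) (nat_lit 152) (nat_lit 147457393607) (nat_lit 228) (nat_lit 181577744032) (nat_lit 21) (nat_lit 5) (nat_lit 23) (nat_lit 5) (nat_lit 24) (nat_lit 5) (nat_lit 304) (nat_lit 296) (nat_lit 180)))))) (XT.nd (nat_lit 390) (nat_lit 380) (nat_lit 0) (XT.nd (nat_lit 156) (nat_lit 228) (nat_lit 0) (XT.nd (nat_lit 78) (nat_lit 0) (nat_lit 0) (XT.lf (nat_lit 0) (nat_lit 8952583494) (nat_lit 152) (nat_lit 936199563205) (nat_lit 76) (nat_lit 313830231531) (nat_lit 19) (nat_lit 5) (nat_lit 21) (nat_lit 5) (nat_lit 20) (nat_lit 5) (nat_lit 305) (nat_lit 296) (nat_lit 179)) (XT.lf (nat_lit 0) (nat_lit 234512717655) (nat_lit 152) (nat_lit 281960497560) (nat_lit 76) (nat_lit 855879318560) (nat_lit 19) (nat_lit 5) (nat_lit 21) (nat_lit 5) (nat_lit 20) (nat_lit 5) (nat_lit 306) (nat_lit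 296) (nat_lit 178))) (XT.nd (nat_lit 78) (nat_lit 76) (nat_lit 0) (XT.lf (nat_lit 0) (nat_lit 515334775949) (nat_lit 228) (nat_lit 983179553223) (nat_lit 76) (nat_lit 999697896) (nat_lit 17) (nat_lit 5) (nat_lit 20) (nat_lit 5) (nat_lit 18) (nat_lit 4) (nat_lit 307) (nat_lit 296) (nat_lit 177)) (XT.nd (nat_lit 78) (nat_lit 76) (nat_lit 0) (XT.lf (nat_lit 0) (nat_lit 878314789943) (nat_lit 228) (nat_lit 202772539458) (nat_lit 76) (nat_lit 558657217928) (nat_lit 17) (nat_lit 5) (nat_lit 20) (nat_lit 5) (nat_lit 18) (nat_lit 4) (nat_lit 308) (nat_lit 296) (nat_lit 176)) (XT.lf (nat_lit 0) (nat_lit 762586210885) (nat_lit 76) (nat_lit 564732655585) (nat_lit 152) (nat_lit 468954220105) (nat_lit 16) (nat_lit 5) (nat_lit 17) (nat_lit 5) (nat_lit 18) (nat_lit 4) (nat_lit 309) (nat_lit 296) (nat_lit 175))))) (XT.nd (nat_lit 234) (nat_lit 152) (nat_lit 0) (XT.nd (nat_lit 78) (nat_lit 228) (nat_lit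 0) (XT.lf (nat_lit 0) (nat_lit 1855981699817) (nat_lit 152) (nat_lit 80862036911) (nat_lit 0) (nat_lit 37590948192) (nat_lit 16) (nat_lit 5) (nat_lit 18) (nat_lit 4) (nat_lit 16) (nat_lit 4) (nat_lit 310) (nat_lit 296) (nat_lit 174)) (XT.nd (nat_lit 78) (nat_lit 76) (nat_lit 0) (XT.lf (nat_lit 0) (nat_lit 334504242004) (nat_lit 152) (nat_lit 1099206640646) (nat_lit 76) (nat_lit 732558799965) (nat_lit 14) (nat_lit 5) (nat_lit 16) (nat_lit 5) (nat_lit 15) (nat_lit 4) (nat_lit 311) (nat_lit 296) (nat_lit 173)) (XT.lf (nat_lit 0) (nat_lit 4585058104) (nat_lit 76) (nat_lit 843310675465) (nat_lit 152) (nat_lit 1537445402179) (nat_lit 13) (nat_lit 5) (nat_lit 14) (nat_lit 5) (nat_lit 15) (nat_lit 4) (nat_lit 312) (nat_lit 296) (nat_lit 172)))) (XT.nd (nat_lit 78) (nat_lit 152) (nat_lit 0) (XT.lf (nat_lit 0) (nat_lit 1397481337383) (nat_lit 76) (nat_lit 98273134016) (nat_lit 152) (nat_lit 1132900057078)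 (nat_lit 13) (nat_lit 5) (nat_lit 14) (nat_lit 5) (nat_lit 15) (nat_lit 4) (nat_lit 313) (nat_lit 296) (nat_lit 171)) (XT.nd (nat_lit 78) (nat_lit 76) (nat_lit 0) (XT.lf (nat_lit 0) (nat_lit 65247175248) (nat_lit 76) (nat_lit 2209655282536) (nat_lit 76) (nat_lit 628445906656) (nat_lit 12) (nat_lit 4) (nat_lit 13) (nat_lit 5) (nat_lit 13) (nat_lit 4) (nat_lit 314) (nat_lit 296) (nat_lit 170)) (XT.lf (nat_lit 0) (nat_lit 28079526752) (nat_lit 152) (nat_lit 1520838398000) (nat_lit 76) (nat_lit 1659813339383) (nat_lit 11) (nat_lit 5) (nat_lit 13) (nat_lit 5) (nat_lit 12) (nat_lit 4) (nat_lit 315) (nat_lit 296) (nat_lit 169))))))))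
noncomputable def xc108 : XT := (XT.nd (nat_lit 1560) (nat_lit 152) (nat_lit 0) (XT.nd (nat_lit 780) (nat_lit 228) (nat_lit 0) (XT.nd (nat_lit 390) (nat_lit 228) (nat_lit 0) (XT.nd (nat_lit 156) (nat_lit 76) (nat_lit 0) (XT.nd (nat_lit 78) (nat_lit 76) (nat_lit 0) (XT.lf (nat_lit 0) (nat_lit 718742879779) (nat_lit 152) (nat_lit 35912193027) (nat_lit 76) (nat_lit 2800777627393) (nat_lit 11) (nat_lit 5) (nat_lit 13) (nat_lit 5) (nat_lit 12) (nat_lit 4) (nat_lit 316) (nat_lit 296) (nat_lit 168)) (XT.lf (nat_lit 0) (nat_lit 1599186397205) (nat_lit 152) (nat_lit 2117804143320) (nat_lit 0) (nat_lit 224221711934) (nat_lit 10) (nat_lit 5) (nat_lit 12) (nat_lit 4) (nat_lit 10) (nat_lit 4) (nat_lit 317) (nat_lit 296) (nat_lit 167))) (XT.nd (nat_lit 78) (nat_lit 76) (nat_lit 0) (XT.lf (nat_lit 0) (nat_lit 2649599013970) (nat_lit 152) (nat_lit 454940011786) (nat_lit 0) (nat_lit 1274634326046) (nat_lit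 10) (nat_lit 5) (nat_lit 12) (nat_lit 4) (nat_lit 10) (nat_lit 4) (nat_lit 318) (nat_lit 296) (nat_lit 166)) (XT.nd (nat_lit 78) (nat_lit 0) (nat_lit 0) (XT.lf (nat_lit 0) (nat_lit 1599776937994) (nat_lit 76) (nat_lit 2324039933057) (nat_lit 76) (nat_lit 949075242827) (nat_lit 9) (nat_lit 4) (nat_lit 10) (nat_lit 5) (nat_lit 10) (nat_lit 4) (nat_lit 319) (nat_lit 296) (nat_lit 165)) (XT.lf (nat_lit 0) (nat_lit 4013830477021) (nat_lit 76) (nat_lit 1399117881365) (nat_lit 76) (nat_lit 24153189129) (nat_lit 9) (nat_lit 4) (nat_lit 10) (nat_lit 5) (nat_lit 10) (nat_lit 4) (nat_lit 320) (nat_lit 296) (nat_lit 164))))) (XT.nd (nat_lit 156) (nat_lit 76) (nat_lit 0) (XT.nd (nat_lit 78) (nat_lit 0) (nat_lit 0) (XT.lf (nat_lit 0) (nat_lit 725604170054) (nat_lit 76) (nat_lit 251404603915) (nat_lit 152) (nat_lit 5097970198216) (nat_lit 7) (nat_lit 5) (nat_lit 8) (nat_lit 5) (nat_lit 9) (nat_lit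 4) (nat_lit 321) (nat_lit 296) (nat_lit 163)) (XT.lf (nat_lit 0) (nat_lit 2248056121404) (nat_lit 152) (nat_lit 3489547131857) (nat_lit 0) (nat_lit 1052434647059) (nat_lit 7) (nat_lit 5) (nat_lit 9) (nat_lit 4) (nat_lit 7) (nat_lit 4) (nat_lit 322) (nat_lit 296) (nat_lit 162))) (XT.nd (nat_lit 78) (nat_lit 76) (nat_lit 0) (XT.lf (nat_lit 0) (nat_lit 3721732216047) (nat_lit 152) (nat_lit 1362716964311) (nat_lit 0) (nat_lit 2526110740555) (nat_lit 7) (nat_lit 5) (nat_lit 9) (nat_lit 4) (nat_lit 7) (nat_lit 4) (nat_lit 323) (nat_lit 296) (nat_lit 161)) (XT.nd (nat_lit 78) (nat_lit 0) (nat_lit 0) (XT.lf (nat_lit 0) (nat_lit 1188989819329) (nat_lit 76) (nat_lit 4276703436088) (nat_lit 76) (nat_lit 3081081959599) (nat_lit 6) (nat_lit 4) (nat_lit 7) (nat_lit 5) (nat_lit 7) (nat_lit 4) (nat_lit 324) (nat_lit 296) (nat_lit 160)) (XT.lf (nat_lit 0) (nat_lit 4276603420265) (nat_lit 76) (nat_lit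 3265877960415) (nat_lit 76) (nat_lit 2070256483059) (nat_lit 6) (nat_lit 4) (nat_lit 7) (nat_lit 5) (nat_lit 7) (nat_lit 4) (nat_lit 325) (nat_lit 296) (nat_lit 159)))))) (XT.nd (nat_lit 390) (nat_lit 76) (nat_lit 0) (XT.nd (nat_lit 156) (nat_lit 76) (nat_lit 0) (XT.nd (nat_lit 78) (nat_lit 76) (nat_lit 0) (XT.lf (nat_lit 0) (nat_lit 7827359057397) (nat_lit 76) (nat_lit 2103428665387) (nat_lit 76) (nat_lit 907807187278) (nat_lit 6) (nat_lit 4) (nat_lit 7) (nat_lit 5) (nat_lit 7) (nat_lit 4) (nat_lit 326) (nat_lit 296) (nat_lit 158)) (XT.lf (nat_lit 0) (nat_lit 390816108500) (nat_lit 152) (nat_lit 355366845489) (nat_lit 76) (nat_lit 11499482904314) (nat_lit 5) (nat_lit 5) (nat_lit 7) (nat_lit 5) (nat_lit 6) (nat_lit 4) (nat_lit 327) (nat_lit 296) (nat_lit 157))) (XT.nd (nat_lit 78) (nat_lit 0) (nat_lit 0) (XT.lf (nat_lit 0) (nat_lit 1953541850645) (nat_lit 152) (nat_lit 10965562594574)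 (nat_lit 0) (nat_lit 913870999049) (nat_lit 4) (nat_lit 5) (nat_lit 6) (nat_lit 4) (nat_lit 4) (nat_lit 4) (nat_lit 328) (nat_lit 296) (nat_lit 156)) (XT.nd (nat_lit 78) (nat_lit 0) (nat_lit 0) (XT.lf (nat_lit 0) (nat_lit 3805669539549) (nat_lit 152) (nat_lit 9078464278240) (nat_lit 0) (nat_lit 2765998687522) (nat_lit 4) (nat_lit 5) (nat_lit 6) (nat_lit 4) (nat_lit 4) (nat_lit 4) (nat_lit 329) (nat_lit 296) (nat_lit 155)) (XT.lf (nat_lit 0) (nat_lit 5935616380459) (nat_lit 152) (nat_lit 6908301217194) (nat_lit 0) (nat_lit 4895945528057) (nat_lit 4) (nat_lit 5) (nat_lit 6) (nat_lit 4) (nat_lit 4) (nat_lit 4) (nat_lit 330) (nat_lit 296) (nat_lit 154))))) (XT.nd (nat_lit 156) (nat_lit 76) (nat_lit 0) (XT.nd (nat_lit 78) (nat_lit 0) (nat_lit 0) (XT.lf (nat_lit 0) (nat_lit 8385055246350) (nat_lit 152) (nat_lit 4412613699372) (nat_lit 0) (nat_lit 7345384393622) (nat_lit 4) (nat_lit 5) (nat_lit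 6) (nat_lit 4) (nat_lit 4) (nat_lit 4) (nat_lit 331) (nat_lit 296) (nat_lit 153)) (XT.lf (nat_lit 0) (nat_lit 11201909941119) (nat_lit 152) (nat_lit 1542573055948) (nat_lit 0) (nat_lit 10162239088108) (nat_lit 4) (nat_lit 5) (nat_lit 6) (nat_lit 4) (nat_lit 4) (nat_lit 4) (nat_lit 332) (nat_lit 296) (nat_lit 152))) (XT.nd (nat_lit 78) (nat_lit 0) (nat_lit 0) (XT.lf (nat_lit 0) (nat_lit 1929775655676) (nat_lit 76) (nat_lit 12591425078198) (nat_lit 76) (nat_lit 11551754224940) (nat_lit 3) (nat_lit 4) (nat_lit 4) (nat_lit 5) (nat_lit 4) (nat_lit 4) (nat_lit 333) (nat_lit 296) (nat_lit 151)) (XT.nd (nat_lit 78) (nat_lit 0) (nat_lit 0) (XT.lf (nat_lit 0) (nat_lit 6096340848727) (nat_lit 76) (nat_lit 12322678796636) (nat_lit 76) (nat_lit 11283007943163) (nat_lit 3) (nat_lit 4) (nat_lit 4) (nat_lit 5) (nat_lit 4) (nat_lit 4) (nat_lit 334) (nat_lit 296) (nat_lit 150)) (XT.lf (nat_lit 0) (nat_lit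 10887890819242) (nat_lit 76) (nat_lit 12013620573611) (nat_lit 76) (nat_lit 10973949719952) (nat_lit 3) (nat_lit 4) (nat_lit 4) (nat_lit 5) (nat_lit 4) (nat_lit 4) (nat_lit 335) (nat_lit 296) (nat_lit 149))))))) (XT.nd (nat_lit 37986) (nat_lit 0) (nat_lit 1140) (XT.nd (nat_lit 37596) (nat_lit 0) (nat_lit 1824) (XT.nd (nat_lit 1170) (nat_lit 0) (nat_lit 0) (XT.nd (nat_lit 1092) (nat_lit 152) (nat_lit 0) (XT.lf (nat_lit 0) (nat_lit 16398173284034) (nat_lit 76) (nat_lit 11658203617802) (nat_lit 76) (nat_lit 10618532763981) (nat_lit 3) (nat_lit 4) (nat_lit 4) (nat_lit 5) (nat_lit 4) (nat_lit 4) (nat_lit 336) (nat_lit 296) (nat_lit 148)) (XT.lf (nat_lit 0) (nat_lit 6127087481119) (nat_lit 152) (nat_lit 250740401535764) (nat_lit 0) (nat_lit 5223025868294) (nat_lit 1) (nat_lit 5) (nat_lit 3) (nat_lit 4) (nat_lit 1) (nat_lit 4) (nat_lit 350) (nat_lit 296) (nat_lit 134))) (XT.nd (nat_lit 78)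 (nat_lit 0) (nat_lit 0) (XT.lf (nat_lit 0) (nat_lit 9156853788252) (nat_lit 152) (nat_lit 283657036507940) (nat_lit 0) (nat_lit 8252792175409) (nat_lit 1) (nat_lit 5) (nat_lit 3) (nat_lit 4) (nat_lit 1) (nat_lit 4) (nat_lit 351) (nat_lit 296) (nat_lit 133)) (XT.nd (nat_lit 78) (nat_lit 0) (nat_lit 0) (XT.lf (nat_lit 0) (nat_lit 12641085041374) (nat_lit 152) (nat_lit 321511166726112) (nat_lit 0) (nat_lit 11737023428517) (nat_lit 1) (nat_lit 5) (nat_lit 3) (nat_lit 4) (nat_lit 1) (nat_lit 4) (nat_lit 352) (nat_lit 296) (nat_lit 132)) (XT.lf (nat_lit 0) (nat_lit 16647950982395) (nat_lit 152) (nat_lit 365043416477155) (nat_lit 0) (nat_lit 15743889369525) (nat_lit 1) (nat_lit 5) (nat_lit 3) (nat_lit 4) (nat_lit 1) (nat_lit 4) (nat_lit 353) (nat_lit 296) (nat_lit 131))))) (XT.nd (nat_lit 156) (nat_lit 0) (nat_lit 76) (XT.nd (nat_lit 78) (nat_lit 0) (nat_lit 0) (XT.lf (nat_lit 0) (nat_lit 73317854705)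 (nat_lit 380) (nat_lit 142307240884) (nat_lit 380) (nat_lit 142307240884) (nat_lit 25) (nat_lit 3) (nat_lit 30) (nat_lit 3) (nat_lit 30) (nat_lit 5) (nat_lit 297) (nat_lit 297) (nat_lit 186)) (XT.lf (nat_lit 76) (nat_lit 62363181530) (nat_lit 0) (nat_lit 97852649146) (nat_lit 380) (nat_lit 608951325977) (nat_lit 26) (nat_lit 5) (nat_lit 25) (nat_lit 3) (nat_lit 30) (nat_lit 5) (nat_lit 298) (nat_lit 297) (nat_lit 185))) (XT.nd (nat_lit 78) (nat_lit 0) (nat_lit 0) (XT.lf (nat_lit 0) (nat_lit 203243184192) (nat_lit 304) (nat_lit 347391772266) (nat_lit 380) (nat_lit 275718524401) (nat_lit 26) (nat_lit 5) (nat_lit 30) (nat_lit 5) (nat_lit 31) (nat_lit 5) (nat_lit 299) (nat_lit 297) (nat_lit 184)) (XT.nd (nat_lit 78) (nat_lit 0) (nat_lit 76) (XT.lf (nat_lit 76) (nat_lit 67260600255) (nat_lit 0) (nat_lit 192908790213) (nat_lit 380) (nat_lit 630831650813) (nat_lit 27) (nat_lit 5) (nat_lit 26)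 (nat_lit 5) (nat_lit 31) (nat_lit 5) (nat_lit 300) (nat_lit 297) (nat_lit 183)) (XT.lf (nat_lit 0) (nat_lit 353704984220) (nat_lit 304) (nat_lit 389380315774) (nat_lit 76) (nat_lit 218049867338) (nat_lit 27) (nat_lit 5) (nat_lit 31) (nat_lit 5) (nat_lit 28) (nat_lit 5) (nat_lit 301) (nat_lit 297) (nat_lit 182)))))) (XT.nd (nat_lit 390) (nat_lit 228) (nat_lit 0) (XT.nd (nat_lit 156) (nat_lit 304) (nat_lit 0) (XT.nd (nat_lit 78) (nat_lit 0) (nat_lit 0) (XT.lf (nat_lit 0) (nat_lit 110813022602) (nat_lit 304) (nat_lit 364232544048) (nat_lit 380) (nat_lit 564677648231) (nat_lit 23) (nat_lit 5) (nat_lit 27) (nat_lit 5) (nat_lit 28) (nat_lit 5) (nat_lit 302) (nat_lit 297) (nat_lit 181)) (XT.lf (nat_lit 0) (nat_lit 638868945766) (nat_lit 380) (nat_lit 401177741269) (nat_lit 76) (nat_lit 86410526162) (nat_lit 23) (nat_lit 5) (nat_lit 28) (nat_lit 5) (nat_lit 24) (nat_lit 5) (nat_lit 303) (nat_lit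 297) (nat_lit 180))) (XT.nd (nat_lit 78) (nat_lit 152) (nat_lit 0) (XT.lf (nat_lit 0) (nat_lit 206779058634) (nat_lit 152) (nat_lit 646393448570) (nat_lit 228) (nat_lit 369142802764) (nat_lit 21) (nat_lit 5) (nat_lit 23) (nat_lit 5) (nat_lit 24) (nat_lit 5) (nat_lit 304) (nat_lit 297) (nat_lit 179)) (XT.nd (nat_lit 78) (nat_lit 152) (nat_lit 0) (XT.lf (nat_lit 0) (nat_lit 951016273056) (nat_lit 152) (nat_lit 169575974129) (nat_lit 228) (nat_lit 208814277446) (nat_lit 21) (nat_lit 5) (nat_lit 23) (nat_lit 5) (nat_lit 24) (nat_lit 5) (nat_lit 305) (nat_lit 297) (nat_lit 178)) (XT.lf (nat_lit 0) (nat_lit 10295580081) (nat_lit 152) (nat_lit 1076629338374) (nat_lit 76) (nat_lit 360904799958) (nat_lit 19) (nat_lit 5) (nat_lit 21) (nat_lit 5) (nat_lit 20) (nat_lit 5) (nat_lit 306) (nat_lit 297) (nat_lit 177))))) (XT.nd (nat_lit 156) (nat_lit 76) (nat_lit 0) (XT.nd (nat_lit 78) (nat_lit 152)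 (nat_lit 0) (XT.lf (nat_lit 0) (nat_lit 269689720141) (nat_lit 152) (nat_lit 324254433662) (nat_lit 76) (nat_lit 984261245645) (nat_lit 19) (nat_lit 5) (nat_lit 21) (nat_lit 5) (nat_lit 20) (nat_lit 5) (nat_lit 307) (nat_lit 297) (nat_lit 176)) (XT.lf (nat_lit 0) (nat_lit 592635082119) (nat_lit 228) (nat_lit 1130656342468) (nat_lit 76) (nat_lit 1149692930) (nat_lit 17) (nat_lit 5) (nat_lit 20) (nat_lit 5) (nat_lit 18) (nat_lit 4) (nat_lit 308) (nat_lit 297) (nat_lit 175))) (XT.nd (nat_lit 78) (nat_lit 76) (nat_lit 0) (XT.lf (nat_lit 0) (nat_lit 1010062086501) (nat_lit 228) (nat_lit 233188295386) (nat_lit 76) (nat_lit 642455835704) (nat_lit 17) (nat_lit 5) (nat_lit 20) (nat_lit 5) (nat_lit 18) (nat_lit 4) (nat_lit 309) (nat_lit 297) (nat_lit 174)) (XT.nd (nat_lit 78) (nat_lit 0) (nat_lit 0) (XT.lf (nat_lit 0) (nat_lit 876974261827) (nat_lit 76) (nat_lit 649442507439) (nat_lit 152) (nat_lit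 539297269262) (nat_lit 16) (nat_lit 5) (nat_lit 17) (nat_lit 5) (nat_lit 18) (nat_lit 4) (nat_lit 310) (nat_lit 297) (nat_lit 173)) (XT.lf (nat_lit 0) (nat_lit 2134379019790) (nat_lit 152) (nat_lit 92991230780) (nat_lit 0) (nat_lit 43229627244) (nat_lit 16) (nat_lit 5) (nat_lit 18) (nat_lit 4) (nat_lit 16) (nat_lit 4) (nat_lit 311) (nat_lit 297) (nat_lit 172))))))))
noncomputable def xc109 : XT := (XT.nd (nat_lit 1560) (nat_lit 228) (nat_lit 0) (XT.nd (nat_lit 780) (nat_lit 380) (nat_lit 0) (XT.nd (nat_lit 390) (nat_lit 152) (nat_lit 0) (XT.nd (nat_lit 156) (nat_lit 152) (nat_lit 0) (XT.nd (nat_lit 78) (nat_lit 76) (nat_lit 0) (XT.lf (nat_lit 0) (nat_lit 384679942218) (nat_lit 152) (nat_lit 1264087523831) (nat_lit 76) (nat_lit 842442659299) (nat_lit 14) (nat_lit 5) (nat_lit 16) (nat_lit 5) (nat_lit 15) (nat_lit 4) (nat_lit 312) (nat_lit 297) (nat_lit 171)) (XT.lf (nat_lit 0) (nat_lit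 5272924598) (nat_lit 76) (nat_lit 969807229045) (nat_lit 152) (nat_lit 1768062143397) (nat_lit 13) (nat_lit 5) (nat_lit 14) (nat_lit 5) (nat_lit 15) (nat_lit 4) (nat_lit 313) (nat_lit 297) (nat_lit 170))) (XT.nd (nat_lit 78) (nat_lit 152) (nat_lit 0) (XT.lf (nat_lit 0) (nat_lit 1607103631711) (nat_lit 76) (nat_lit 113014062606) (nat_lit 152) (nat_lit 1302835005546) (nat_lit 13) (nat_lit 5) (nat_lit 14) (nat_lit 5) (nat_lit 15) (nat_lit 4) (nat_lit 314) (nat_lit 297) (nat_lit 169)) (XT.nd (nat_lit 78) (nat_lit 76) (nat_lit 0) (XT.lf (nat_lit 0) (nat_lit 75034346882) (nat_lit 76) (nat_lit 2541103530410) (nat_lit 76) (nat_lit 722712734139) (nat_lit 12) (nat_lit 4) (nat_lit 13) (nat_lit 5) (nat_lit 13) (nat_lit 4) (nat_lit 315) (nat_lit 297) (nat_lit 168)) (XT.lf (nat_lit 0) (nat_lit 32291502118) (nat_lit 152) (nat_lit 1748964070223) (nat_lit 76) (nat_lit 1908785374426) (nat_lit 11) (nat_lit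 5) (nat_lit 13) (nat_lit 5) (nat_lit 12) (nat_lit 4) (nat_lit 316) (nat_lit 297) (nat_lit 167))))) (XT.nd (nat_lit 156) (nat_lit 76) (nat_lit 0) (XT.nd (nat_lit 78) (nat_lit 76) (nat_lit 0) (XT.lf (nat_lit 0) (nat_lit 826554352053) (nat_lit 152) (nat_lit 41298945914) (nat_lit 76) (nat_lit 3220894301185) (nat_lit 11) (nat_lit 5) (nat_lit 13) (nat_lit 5) (nat_lit 12) (nat_lit 4) (nat_lit 317) (nat_lit 297) (nat_lit 166)) (XT.lf (nat_lit 0) (nat_lit 1839064396273) (nat_lit 152) (nat_lit 2435474687904) (nat_lit 0) (nat_lit 257855000201) (nat_lit 10) (nat_lit 5) (nat_lit 12) (nat_lit 4) (nat_lit 10) (nat_lit 4) (nat_lit 318) (nat_lit 297) (nat_lit 165))) (XT.nd (nat_lit 78) (nat_lit 76) (nat_lit 0) (XT.lf (nat_lit 0) (nat_lit 3047038900402) (nat_lit 152) (nat_lit 523180946672) (nat_lit 0) (nat_lit 1465829502325) (nat_lit 10) (nat_lit 5) (nat_lit 12) (nat_lit 4) (nat_lit 10) (nat_lit 4) (nat_lit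 319) (nat_lit 297) (nat_lit 164)) (XT.nd (nat_lit 78) (nat_lit 0) (nat_lit 0) (XT.lf (nat_lit 0) (nat_lit 1839743542535) (nat_lit 76) (nat_lit 2672645891675) (nat_lit 76) (nat_lit 1091436491854) (nat_lit 9) (nat_lit 4) (nat_lit 10) (nat_lit 5) (nat_lit 10) (nat_lit 4) (nat_lit 320) (nat_lit 297) (nat_lit 163)) (XT.lf (nat_lit 0) (nat_lit 4615905104089) (nat_lit 76) (nat_lit 1608985536317) (nat_lit 76) (nat_lit 27776134979) (nat_lit 9) (nat_lit 4) (nat_lit 10) (nat_lit 5) (nat_lit 10) (nat_lit 4) (nat_lit 321) (nat_lit 297) (nat_lit 162)))))) (XT.nd (nat_lit 390) (nat_lit 152) (nat_lit 0) (XT.nd (nat_lit 156) (nat_lit 76) (nat_lit 0) (XT.nd (nat_lit 78) (nat_lit 0) (nat_lit 0) (XT.lf (nat_lit 0) (nat_lit 834444851331) (nat_lit 76) (nat_lit 289115266802) (nat_lit 152) (nat_lit 5862665695655) (nat_lit 7) (nat_lit 5) (nat_lit 8) (nat_lit 5) (nat_lit 9) (nat_lit 4) (nat_lit 322) (nat_lit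 297) (nat_lit 161)) (XT.lf (nat_lit 0) (nat_lit 2585264565020) (nat_lit 152) (nat_lit 4012979150464) (nat_lit 0) (nat_lit 1210299866061) (nat_lit 7) (nat_lit 5) (nat_lit 9) (nat_lit 4) (nat_lit 7) (nat_lit 4) (nat_lit 323) (nat_lit 297) (nat_lit 160))) (XT.nd (nat_lit 78) (nat_lit 76) (nat_lit 0) (XT.lf (nat_lit 0) (nat_lit 4279992070545) (nat_lit 152) (nat_lit 1567124464462) (nat_lit 0) (nat_lit 2905027370719) (nat_lit 7) (nat_lit 5) (nat_lit 9) (nat_lit 4) (nat_lit 7) (nat_lit 4) (nat_lit 324) (nat_lit 297) (nat_lit 159)) (XT.nd (nat_lit 78) (nat_lit 0) (nat_lit 0) (XT.lf (nat_lit 0) (nat_lit 1367338334703) (nat_lit 76) (nat_lit 4918208929996) (nat_lit 76) (nat_lit 3543244229416) (nat_lit 6) (nat_lit 4) (nat_lit 7) (nat_lit 5) (nat_lit 7) (nat_lit 4) (nat_lit 325) (nat_lit 297) (nat_lit 158)) (XT.lf (nat_lit 0) (nat_lit 4918093970239) (nat_lit 76) (nat_lit 3755759635777) (nat_lit 76)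 (nat_lit 2380794934541) (nat_lit 6) (nat_lit 4) (nat_lit 7) (nat_lit 5) (nat_lit 7) (nat_lit 4) (nat_lit 326) (nat_lit 297) (nat_lit 157))))) (XT.nd (nat_lit 156) (nat_lit 76) (nat_lit 0) (XT.nd (nat_lit 78) (nat_lit 76) (nat_lit 0) (XT.lf (nat_lit 0) (nat_lit 9001462948123) (nat_lit 76) (nat_lit 2418942948935) (nat_lit 76) (nat_lit 1043978247129) (nat_lit 6) (nat_lit 4) (nat_lit 7) (nat_lit 5) (nat_lit 7) (nat_lit 4) (nat_lit 327) (nat_lit 297) (nat_lit 156)) (XT.lf (nat_lit 0) (nat_lit 449438539224) (nat_lit 152) (nat_lit 408671842968) (nat_lit 76) (nat_lit 13224405352684) (nat_lit 5) (nat_lit 5) (nat_lit 7) (nat_lit 5) (nat_lit 6) (nat_lit 4) (nat_lit 328) (nat_lit 297) (nat_lit 155))) (XT.nd (nat_lit 78) (nat_lit 0) (nat_lit 0) (XT.lf (nat_lit 0) (nat_lit 2246573142558) (nat_lit 152) (nat_lit 12610396954278) (nat_lit 0) (nat_lit 1050951661920) (nat_lit 4) (nat_lit 5) (nat_lit 6)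 (nat_lit 4) (nat_lit 4) (nat_lit 4) (nat_lit 329) (nat_lit 297) (nat_lit 154)) (XT.nd (nat_lit 78) (nat_lit 0) (nat_lit 0) (XT.lf (nat_lit 0) (nat_lit 4376519982930) (nat_lit 152) (nat_lit 10440233894339) (nat_lit 0) (nat_lit 3180898501967) (nat_lit 4) (nat_lit 5) (nat_lit 6) (nat_lit 4) (nat_lit 4) (nat_lit 4) (nat_lit 330) (nat_lit 297) (nat_lit 153)) (XT.lf (nat_lit 0) (nat_lit 6825958848353) (nat_lit 152) (nat_lit 7944546377480) (nat_lit 0) (nat_lit 5630337367107) (nat_lit 4) (nat_lit 5) (nat_lit 6) (nat_lit 4) (nat_lit 4) (nat_lit 4) (nat_lit 331) (nat_lit 297) (nat_lit 152))))))) (XT.nd (nat_lit 38142) (nat_lit 0) (nat_lit 1216) (XT.nd (nat_lit 1404) (nat_lit 152) (nat_lit 0) (XT.nd (nat_lit 156) (nat_lit 76) (nat_lit 0) (XT.nd (nat_lit 78) (nat_lit 0) (nat_lit 0) (XT.lf (nat_lit 0) (nat_lit 9642813542716) (nat_lit 152) (nat_lit 5074505734893) (nat_lit 0) (nat_lit 8447192061223)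 (nat_lit 4) (nat_lit 5) (nat_lit 6) (nat_lit 4) (nat_lit 4) (nat_lit 4) (nat_lit 332) (nat_lit 297) (nat_lit 151)) (XT.lf (nat_lit 0) (nat_lit 12882196440473) (nat_lit 152) (nat_lit 1773958997483) (nat_lit 0) (nat_lit 11686574958765) (nat_lit 4) (nat_lit 5) (nat_lit 6) (nat_lit 4) (nat_lit 4) (nat_lit 4) (nat_lit 333) (nat_lit 297) (nat_lit 150))) (XT.nd (nat_lit 78) (nat_lit 0) (nat_lit 0) (XT.lf (nat_lit 0) (nat_lit 2219242020118) (nat_lit 76) (nat_lit 14480138831621) (nat_lit 76) (nat_lit 13284517349727) (nat_lit 3) (nat_lit 4) (nat_lit 4) (nat_lit 5) (nat_lit 4) (nat_lit 4) (nat_lit 334) (nat_lit 297) (nat_lit 149)) (XT.nd (nat_lit 78) (nat_lit 0) (nat_lit 0) (XT.lf (nat_lit 0) (nat_lit 7010791990028) (nat_lit 76) (nat_lit 14171080608908) (nat_lit 76) (nat_lit 12975459126852) (nat_lit 3) (nat_lit 4) (nat_lit 4) (nat_lit 5) (nat_lit 4) (nat_lit 4) (nat_lit 335) (nat_lit 297) (nat_lit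 148)) (XT.lf (nat_lit 0) (nat_lit 12521074454295) (nat_lit 76) (nat_lit 13815663653371) (nat_lit 76) (nat_lit 12620042171174) (nat_lit 3) (nat_lit 4) (nat_lit 4) (nat_lit 5) (nat_lit 4) (nat_lit 4) (nat_lit 336) (nat_lit 297) (nat_lit 147))))) (XT.nd (nat_lit 156) (nat_lit 0) (nat_lit 0) (XT.nd (nat_lit 78) (nat_lit 0) (nat_lit 0) (XT.lf (nat_lit 0) (nat_lit 4016384297057) (nat_lit 152) (nat_lit 255434826792063) (nat_lit 0) (nat_lit 2976713442272) (nat_lit 1) (nat_lit 5) (nat_lit 3) (nat_lit 4) (nat_lit 1) (nat_lit 4) (nat_lit 350) (nat_lit 297) (nat_lit 133)) (XT.lf (nat_lit 0) (nat_lit 7046150604153) (nat_lit 152) (nat_lit 288351461764318) (nat_lit 0) (nat_lit 6006479749352) (nat_lit 1) (nat_lit 5) (nat_lit 3) (nat_lit 4) (nat_lit 1) (nat_lit 4) (nat_lit 351) (nat_lit 297) (nat_lit 132))) (XT.nd (nat_lit 36426) (nat_lit 0) (nat_lit 1824) (XT.lf (nat_lit 0) (nat_lit 10530381857243)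 (nat_lit 152) (nat_lit 326205591982557) (nat_lit 0) (nat_lit 9490711002429) (nat_lit 1) (nat_lit 5) (nat_lit 3) (nat_lit 4) (nat_lit 1) (nat_lit 4) (nat_lit 352) (nat_lit 297) (nat_lit 131)) (XT.nd (nat_lit 78) (nat_lit 0) (nat_lit 0) (XT.lf (nat_lit 0) (nat_lit 84315644781) (nat_lit 380) (nat_lit 163653262544) (nat_lit 380) (nat_lit 163653262544) (nat_lit 25) (nat_lit 3) (nat_lit 30) (nat_lit 3) (nat_lit 30) (nat_lit 5) (nat_lit 298) (nat_lit 298) (nat_lit 184)) (XT.lf (nat_lit 76) (nat_lit 71717781844) (nat_lit 0) (nat_lit 112530623086) (nat_lit 380) (nat_lit 700293794758) (nat_lit 26) (nat_lit 5) (nat_lit 25) (nat_lit 3) (nat_lit 30) (nat_lit 5) (nat_lit 299) (nat_lit 298) (nat_lit 183)))))) (XT.nd (nat_lit 390) (nat_lit 456) (nat_lit 0) (XT.nd (nat_lit 156) (nat_lit 228) (nat_lit 0) (XT.nd (nat_lit 78) (nat_lit 0) (nat_lit 0) (XT.lf (nat_lit 0) (nat_lit 233729832675) (nat_lit 304)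 (nat_lit 399500401829) (nat_lit 380) (nat_lit 317076242407) (nat_lit 26) (nat_lit 5) (nat_lit 30) (nat_lit 5) (nat_lit 31) (nat_lit 5) (nat_lit 300) (nat_lit 298) (nat_lit 182)) (XT.lf (nat_lit 76) (nat_lit 77349820376) (nat_lit 0) (nat_lit 221845132619) (nat_lit 380) (nat_lit 725456220997) (nat_lit 27) (nat_lit 5) (nat_lit 26) (nat_lit 5) (nat_lit 31) (nat_lit 5) (nat_lit 301) (nat_lit 298) (nat_lit 181))) (XT.nd (nat_lit 78) (nat_lit 304) (nat_lit 0) (XT.lf (nat_lit 0) (nat_lit 406760864868) (nat_lit 304) (nat_lit 447787228746) (nat_lit 76) (nat_lit 250757328527) (nat_lit 27) (nat_lit 5) (nat_lit 31) (nat_lit 5) (nat_lit 28) (nat_lit 5) (nat_lit 302) (nat_lit 298) (nat_lit 180)) (XT.nd (nat_lit 78) (nat_lit 0) (nat_lit 0) (XT.lf (nat_lit 0) (nat_lit 127435104278) (nat_lit 304) (nat_lit 418867418347) (nat_lit 380) (nat_lit 649379156048) (nat_lit 23) (nat_lit 5) (nat_lit 27) (nat_lit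 5) (nat_lit 28) (nat_lit 5) (nat_lit 303) (nat_lit 298) (nat_lit 179)) (XT.lf (nat_lit 0) (nat_lit 734699393092) (nat_lit 380) (nat_lit 461354275134) (nat_lit 76) (nat_lit 99372110875) (nat_lit 23) (nat_lit 5) (nat_lit 28) (nat_lit 5) (nat_lit 24) (nat_lit 5) (nat_lit 304) (nat_lit 298) (nat_lit 178))))) (XT.nd (nat_lit 234) (nat_lit 152) (nat_lit 0) (XT.nd (nat_lit 78) (nat_lit 152) (nat_lit 0) (XT.lf (nat_lit 0) (nat_lit 237796038967) (nat_lit 152) (nat_lit 743352441056) (nat_lit 228) (nat_lit 424514111708) (nat_lit 21) (nat_lit 5) (nat_lit 23) (nat_lit 5) (nat_lit 24) (nat_lit 5) (nat_lit 305) (nat_lit 298) (nat_lit 177)) (XT.nd (nat_lit 78) (nat_lit 152) (nat_lit 0) (XT.lf (nat_lit 0) (nat_lit 1093668819699) (nat_lit 152) (nat_lit 195012348683) (nat_lit 228) (nat_lit 240136322132) (nat_lit 21) (nat_lit 5) (nat_lit 23) (nat_lit 5) (nat_lit 24) (nat_lit 5) (nat_lit 306) (nat_lit 298)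 (nat_lit 176)) (XT.lf (nat_lit 0) (nat_lit 11839999560) (nat_lit 152) (nat_lit 1238123618667) (nat_lit 76) (nat_lit 415040545431) (nat_lit 19) (nat_lit 5) (nat_lit 21) (nat_lit 5) (nat_lit 20) (nat_lit 5) (nat_lit 307) (nat_lit 298) (nat_lit 175)))) (XT.nd (nat_lit 78) (nat_lit 152) (nat_lit 0) (XT.lf (nat_lit 0) (nat_lit 310143249872) (nat_lit 152) (nat_lit 372892493961) (nat_lit 76) (nat_lit 1131900454648) (nat_lit 19) (nat_lit 5) (nat_lit 21) (nat_lit 5) (nat_lit 20) (nat_lit 5) (nat_lit 308) (nat_lit 298) (nat_lit 174)) (XT.nd (nat_lit 78) (nat_lit 0) (nat_lit 0) (XT.lf (nat_lit 0) (nat_lit 681530412321) (nat_lit 228) (nat_lit 1300254685150) (nat_lit 76) (nat_lit 1322177380) (nat_lit 17) (nat_lit 5) (nat_lit 20) (nat_lit 5) (nat_lit 18) (nat_lit 4) (nat_lit 309) (nat_lit 298) (nat_lit 173)) (XT.lf (nat_lit 0) (nat_lit 1161571458506) (nat_lit 228) (nat_lit 268166445183) (nat_lit 76)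 (nat_lit 738824237590) (nat_lit 17) (nat_lit 5) (nat_lit 20) (nat_lit 5) (nat_lit 18) (nat_lit 4) (nat_lit 310) (nat_lit 298) (nat_lit 172))))))))
noncomputable def xc110 : XT := (XT.nd (nat_lit 1560) (nat_lit 228) (nat_lit 0) (XT.nd (nat_lit 780) (nat_lit 456) (nat_lit 0) (XT.nd (nat_lit 390) (nat_lit 228) (nat_lit 0) (XT.nd (nat_lit 156) (nat_lit 228) (nat_lit 0) (XT.nd (nat_lit 78) (nat_lit 0) (nat_lit 0) (XT.lf (nat_lit 0) (nat_lit 1008520491316) (nat_lit 76) (nat_lit 746858848405) (nat_lit 152) (nat_lit 620191796243) (nat_lit 16) (nat_lit 5) (nat_lit 17) (nat_lit 5) (nat_lit 18) (nat_lit 4) (nat_lit 311) (nat_lit 298) (nat_lit 171)) (XT.lf (nat_lit 0) (nat_lit 2454535921907) (nat_lit 152) (nat_lit 106939830959) (nat_lit 0) (nat_lit 49714099174) (nat_lit 16) (nat_lit 5) (nat_lit 18) (nat_lit 4) (nat_lit 16) (nat_lit 4) (nat_lit 312) (nat_lit 298) (nat_lit 170))) (XT.nd (nat_lit 78)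 (nat_lit 76) (nat_lit 0) (XT.lf (nat_lit 0) (nat_lit 442381981878) (nat_lit 152) (nat_lit 1453700567029) (nat_lit 76) (nat_lit 968809087939) (nat_lit 14) (nat_lit 5) (nat_lit 16) (nat_lit 5) (nat_lit 15) (nat_lit 4) (nat_lit 313) (nat_lit 298) (nat_lit 169)) (XT.nd (nat_lit 78) (nat_lit 0) (nat_lit 0) (XT.lf (nat_lit 0) (nat_lit 6063944785) (nat_lit 76) (nat_lit 1115278277304) (nat_lit 152) (nat_lit 2033271412651) (nat_lit 13) (nat_lit 5) (nat_lit 14) (nat_lit 5) (nat_lit 15) (nat_lit 4) (nat_lit 314) (nat_lit 298) (nat_lit 168)) (XT.lf (nat_lit 0) (nat_lit 1848169247334) (nat_lit 76) (nat_lit 129966140607) (nat_lit 152) (nat_lit 1498260210938) (nat_lit 13) (nat_lit 5) (nat_lit 14) (nat_lit 5) (nat_lit 15) (nat_lit 4) (nat_lit 315) (nat_lit 298) (nat_lit 167))))) (XT.nd (nat_lit 156) (nat_lit 76) (nat_lit 0) (XT.nd (nat_lit 78) (nat_lit 76) (nat_lit 0) (XT.lf (nat_lit 0) (nat_lit 86289571011)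 (nat_lit 76) (nat_lit 2922269026318) (nat_lit 76) (nat_lit 831119600014) (nat_lit 12) (nat_lit 4) (nat_lit 13) (nat_lit 5) (nat_lit 13) (nat_lit 4) (nat_lit 316) (nat_lit 298) (nat_lit 166)) (XT.lf (nat_lit 0) (nat_lit 37135262485) (nat_lit 152) (nat_lit 2011308614612) (nat_lit 76) (nat_lit 2195103206401) (nat_lit 11) (nat_lit 5) (nat_lit 13) (nat_lit 5) (nat_lit 12) (nat_lit 4) (nat_lit 317) (nat_lit 298) (nat_lit 165))) (XT.nd (nat_lit 78) (nat_lit 76) (nat_lit 0) (XT.lf (nat_lit 0) (nat_lit 950537535339) (nat_lit 152) (nat_lit 47493730284) (nat_lit 76) (nat_lit 3704028468807) (nat_lit 11) (nat_lit 5) (nat_lit 13) (nat_lit 5) (nat_lit 12) (nat_lit 4) (nat_lit 318) (nat_lit 298) (nat_lit 164)) (XT.nd (nat_lit 78) (nat_lit 0) (nat_lit 0) (XT.lf (nat_lit 0) (nat_lit 2114924085571) (nat_lit 152) (nat_lit 2800795832931) (nat_lit 0) (nat_lit 296533274033) (nat_lit 10) (nat_lit 5) (nat_lit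 12) (nat_lit 4) (nat_lit 10) (nat_lit 4) (nat_lit 319) (nat_lit 298) (nat_lit 163)) (XT.lf (nat_lit 0) (nat_lit 3504094761425) (nat_lit 152) (nat_lit 601658038100) (nat_lit 0) (nat_lit 1685703948370) (nat_lit 10) (nat_lit 5) (nat_lit 12) (nat_lit 4) (nat_lit 10) (nat_lit 4) (nat_lit 320) (nat_lit 298) (nat_lit 162)))))) (XT.nd (nat_lit 390) (nat_lit 228) (nat_lit 0) (XT.nd (nat_lit 156) (nat_lit 152) (nat_lit 0) (XT.nd (nat_lit 78) (nat_lit 0) (nat_lit 0) (XT.lf (nat_lit 0) (nat_lit 2115705122189) (nat_lit 76) (nat_lit 3073542751728) (nat_lit 76) (nat_lit 1255151937355) (nat_lit 9) (nat_lit 4) (nat_lit 10) (nat_lit 5) (nat_lit 10) (nat_lit 4) (nat_lit 321) (nat_lit 298) (nat_lit 161)) (XT.lf (nat_lit 0) (nat_lit 5308290911680) (nat_lit 76) (nat_lit 1850333346157) (nat_lit 76) (nat_lit 31942530637) (nat_lit 9) (nat_lit 4) (nat_lit 10) (nat_lit 5) (nat_lit 10) (nat_lit 4) (nat_lit 322)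 (nat_lit 298) (nat_lit 160))) (XT.nd (nat_lit 78) (nat_lit 0) (nat_lit 0) (XT.lf (nat_lit 0) (nat_lit 959611621201) (nat_lit 76) (nat_lit 332482535876) (nat_lit 152) (nat_lit 6742065525585) (nat_lit 7) (nat_lit 5) (nat_lit 8) (nat_lit 5) (nat_lit 9) (nat_lit 4) (nat_lit 323) (nat_lit 298) (nat_lit 159)) (XT.nd (nat_lit 78) (nat_lit 0) (nat_lit 0) (XT.lf (nat_lit 0) (nat_lit 2973054268984) (nat_lit 152) (nat_lit 4614925984341) (nat_lit 0) (nat_lit 1391844862562) (nat_lit 7) (nat_lit 5) (nat_lit 9) (nat_lit 4) (nat_lit 7) (nat_lit 4) (nat_lit 324) (nat_lit 298) (nat_lit 158)) (XT.lf (nat_lit 0) (nat_lit 4921990897832) (nat_lit 152) (nat_lit 1802193100485) (nat_lit 0) (nat_lit 3340781490755) (nat_lit 7) (nat_lit 5) (nat_lit 9) (nat_lit 4) (nat_lit 7) (nat_lit 4) (nat_lit 325) (nat_lit 298) (nat_lit 157))))) (XT.nd (nat_lit 156) (nat_lit 152) (nat_lit 0) (XT.nd (nat_lit 78) (nat_lit 0) (nat_lit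 0) (XT.lf (nat_lit 0) (nat_lit 1572439117024) (nat_lit 76) (nat_lit 5655940253235) (nat_lit 76) (nat_lit 4074730845588) (nat_lit 6) (nat_lit 4) (nat_lit 7) (nat_lit 5) (nat_lit 7) (nat_lit 4) (nat_lit 326) (nat_lit 298) (nat_lit 156)) (XT.lf (nat_lit 0) (nat_lit 5655808093702) (nat_lit 76) (nat_lit 4319123567004) (nat_lit 76) (nat_lit 2737914158861) (nat_lit 6) (nat_lit 4) (nat_lit 7) (nat_lit 5) (nat_lit 7) (nat_lit 4) (nat_lit 327) (nat_lit 298) (nat_lit 155))) (XT.nd (nat_lit 78) (nat_lit 152) (nat_lit 0) (XT.lf (nat_lit 0) (nat_lit 10351682414626) (nat_lit 76) (nat_lit 2781784378979) (nat_lit 76) (nat_lit 1200574970405) (nat_lit 6) (nat_lit 4) (nat_lit 7) (nat_lit 5) (nat_lit 7) (nat_lit 4) (nat_lit 328) (nat_lit 298) (nat_lit 154)) (XT.nd (nat_lit 78) (nat_lit 76) (nat_lit 0) (XT.lf (nat_lit 0) (nat_lit 516854331034) (nat_lit 152) (nat_lit 469972597224) (nat_lit 76) (nat_lit 15208066165206)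 (nat_lit 5) (nat_lit 5) (nat_lit 7) (nat_lit 5) (nat_lit 6) (nat_lit 4) (nat_lit 329) (nat_lit 298) (nat_lit 153)) (XT.lf (nat_lit 0) (nat_lit 2583559124766) (nat_lit 152) (nat_lit 14501956475126) (nat_lit 0) (nat_lit 1208594421049) (nat_lit 4) (nat_lit 5) (nat_lit 6) (nat_lit 4) (nat_lit 4) (nat_lit 4) (nat_lit 330) (nat_lit 298) (nat_lit 152))))))) (XT.nd (nat_lit 38220) (nat_lit 0) (nat_lit 1368) (XT.nd (nat_lit 390) (nat_lit 152) (nat_lit 0) (XT.nd (nat_lit 156) (nat_lit 76) (nat_lit 0) (XT.nd (nat_lit 78) (nat_lit 0) (nat_lit 0) (XT.lf (nat_lit 0) (nat_lit 5032997989783) (nat_lit 152) (nat_lit 12006268959105) (nat_lit 0) (nat_lit 3658033285819) (nat_lit 4) (nat_lit 5) (nat_lit 6) (nat_lit 4) (nat_lit 4) (nat_lit 4) (nat_lit 331) (nat_lit 298) (nat_lit 151)) (XT.lf (nat_lit 0) (nat_lit 7849852683792) (nat_lit 152) (nat_lit 9136228317246) (nat_lit 0) (nat_lit 6474887979614) (nat_lit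 4) (nat_lit 5) (nat_lit 6) (nat_lit 4) (nat_lit 4) (nat_lit 4) (nat_lit 332) (nat_lit 298) (nat_lit 150))) (XT.nd (nat_lit 78) (nat_lit 76) (nat_lit 0) (XT.lf (nat_lit 0) (nat_lit 11089235581241) (nat_lit 152) (nat_lit 5835681580469) (nat_lit 0) (nat_lit 9714270876876) (nat_lit 4) (nat_lit 5) (nat_lit 6) (nat_lit 4) (nat_lit 4) (nat_lit 4) (nat_lit 333) (nat_lit 298) (nat_lit 149)) (XT.nd (nat_lit 78) (nat_lit 76) (nat_lit 0) (XT.lf (nat_lit 0) (nat_lit 14814525912733) (nat_lit 152) (nat_lit 2040052834360) (nat_lit 0) (nat_lit 13439561208206) (nat_lit 4) (nat_lit 5) (nat_lit 6) (nat_lit 4) (nat_lit 4) (nat_lit 4) (nat_lit 334) (nat_lit 298) (nat_lit 148)) (XT.lf (nat_lit 0) (nat_lit 2552128335302) (nat_lit 76) (nat_lit 16652159650084) (nat_lit 76) (nat_lit 15277194945416) (nat_lit 3) (nat_lit 4) (nat_lit 4) (nat_lit 5) (nat_lit 4) (nat_lit 4) (nat_lit 335) (nat_lit 298) (nat_lit 147)))))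 (XT.nd (nat_lit 1170) (nat_lit 0) (nat_lit 0) (XT.nd (nat_lit 1092) (nat_lit 152) (nat_lit 0) (XT.lf (nat_lit 0) (nat_lit 8062410799112) (nat_lit 76) (nat_lit 16296742694783) (nat_lit 76) (nat_lit 14921777989993) (nat_lit 3) (nat_lit 4) (nat_lit 4) (nat_lit 5) (nat_lit 4) (nat_lit 4) (nat_lit 336) (nat_lit 298) (nat_lit 146)) (XT.lf (nat_lit 0) (nat_lit 1589075635306) (nat_lit 152) (nat_lit 260833415836975) (nat_lit 0) (nat_lit 393454152270) (nat_lit 1) (nat_lit 5) (nat_lit 3) (nat_lit 4) (nat_lit 1) (nat_lit 4) (nat_lit 350) (nat_lit 298) (nat_lit 132))) (XT.nd (nat_lit 78) (nat_lit 0) (nat_lit 0) (XT.lf (nat_lit 0) (nat_lit 4618841942369) (nat_lit 152) (nat_lit 293750050809298) (nat_lit 0) (nat_lit 3423220459320) (nat_lit 1) (nat_lit 5) (nat_lit 3) (nat_lit 4) (nat_lit 1) (nat_lit 4) (nat_lit 351) (nat_lit 298) (nat_lit 131)) (XT.nd (nat_lit 36504) (nat_lit 0) (nat_lit 1824) (XT.lf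 (nat_lit 0) (nat_lit 8103073195431) (nat_lit 152) (nat_lit 331604181027597) (nat_lit 0) (nat_lit 6907451712371) (nat_lit 1) (nat_lit 5) (nat_lit 3) (nat_lit 4) (nat_lit 1) (nat_lit 4) (nat_lit 352) (nat_lit 298) (nat_lit 130)) (XT.lf (nat_lit 0) (nat_lit 96963076088) (nat_lit 380) (nat_lit 188201203175) (nat_lit 380) (nat_lit 188201203175) (nat_lit 25) (nat_lit 3) (nat_lit 30) (nat_lit 3) (nat_lit 30) (nat_lit 5) (nat_lit 299) (nat_lit 299) (nat_lit 182)))))) (XT.nd (nat_lit 390) (nat_lit 304) (nat_lit 0) (XT.nd (nat_lit 156) (nat_lit 152) (nat_lit 0) (XT.nd (nat_lit 78) (nat_lit 0) (nat_lit 76) (XT.lf (nat_lit 76) (nat_lit 82475542191) (nat_lit 0) (nat_lit 129410274446) (nat_lit 380) (nat_lit 805337689971) (nat_lit 26) (nat_lit 5) (nat_lit 25) (nat_lit 3) (nat_lit 30) (nat_lit 5) (nat_lit 300) (nat_lit 299) (nat_lit 181)) (XT.lf (nat_lit 0) (nat_lit 268789436768) (nat_lit 304) (nat_lit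 459425359058) (nat_lit 380) (nat_lit 364637632906) (nat_lit 26) (nat_lit 5) (nat_lit 30) (nat_lit 5) (nat_lit 31) (nat_lit 5) (nat_lit 301) (nat_lit 299) (nat_lit 180))) (XT.nd (nat_lit 78) (nat_lit 228) (nat_lit 0) (XT.lf (nat_lit 76) (nat_lit 88952391794) (nat_lit 0) (nat_lit 255121920563) (nat_lit 380) (nat_lit 834274519978) (nat_lit 27) (nat_lit 5) (nat_lit 26) (nat_lit 5) (nat_lit 31) (nat_lit 5) (nat_lit 302) (nat_lit 299) (nat_lit 179)) (XT.nd (nat_lit 78) (nat_lit 304) (nat_lit 0) (XT.lf (nat_lit 0) (nat_lit 467775095176) (nat_lit 304) (nat_lit 514955211436) (nat_lit 76) (nat_lit 288370913506) (nat_lit 27) (nat_lit 5) (nat_lit 31) (nat_lit 5) (nat_lit 28) (nat_lit 5) (nat_lit 303) (nat_lit 299) (nat_lit 178)) (XT.lf (nat_lit 0) (nat_lit 146550466922) (nat_lit 304) (nat_lit 481697525573) (nat_lit 380) (nat_lit 746785924035) (nat_lit 23) (nat_lit 5) (nat_lit 27) (nat_lit 5) (nat_lit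 28) (nat_lit 5) (nat_lit 304) (nat_lit 299) (nat_lit 177))))) (XT.nd (nat_lit 156) (nat_lit 152) (nat_lit 0) (XT.nd (nat_lit 78) (nat_lit 152) (nat_lit 0) (XT.lf (nat_lit 0) (nat_lit 844904381799) (nat_lit 380) (nat_lit 530557320129) (nat_lit 76) (nat_lit 114277931884) (nat_lit 23) (nat_lit 5) (nat_lit 28) (nat_lit 5) (nat_lit 24) (nat_lit 5) (nat_lit 305) (nat_lit 299) (nat_lit 176)) (XT.lf (nat_lit 0) (nat_lit 273465536712) (nat_lit 152) (nat_lit 854855288463) (nat_lit 228) (nat_lit 488191144176) (nat_lit 21) (nat_lit 5) (nat_lit 23) (nat_lit 5) (nat_lit 24) (nat_lit 5) (nat_lit 306) (nat_lit 299) (nat_lit 175))) (XT.nd (nat_lit 78) (nat_lit 152) (nat_lit 0) (XT.lf (nat_lit 0) (nat_lit 1257719222567) (nat_lit 152) (nat_lit 224264184680) (nat_lit 228) (nat_lit 276156697158) (nat_lit 21) (nat_lit 5) (nat_lit 23) (nat_lit 5) (nat_lit 24) (nat_lit 5) (nat_lit 307) (nat_lit 299) (nat_lit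 174)) (XT.nd (nat_lit 78) (nat_lit 0) (nat_lit 0) (XT.lf (nat_lit 0) (nat_lit 13616061851) (nat_lit 152) (nat_lit 1423842070380) (nat_lit 76) (nat_lit 477296646512) (nat_lit 19) (nat_lit 5) (nat_lit 21) (nat_lit 5) (nat_lit 20) (nat_lit 5) (nat_lit 308) (nat_lit 299) (nat_lit 173)) (XT.lf (nat_lit 0) (nat_lit 356664791577) (nat_lit 152) (nat_lit 428826288849) (nat_lit 76) (nat_lit 1301685539599) (nat_lit 19) (nat_lit 5) (nat_lit 21) (nat_lit 5) (nat_lit 20) (nat_lit 5) (nat_lit 309) (nat_lit 299) (nat_lit 172))))))))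
noncomputable def xc111 : XT := (XT.nd (nat_lit 1560) (nat_lit 228) (nat_lit 0) (XT.nd (nat_lit 780) (nat_lit 380) (nat_lit 0) (XT.nd (nat_lit 390) (nat_lit 228) (nat_lit 0) (XT.nd (nat_lit 156) (nat_lit 228) (nat_lit 0) (XT.nd (nat_lit 78) (nat_lit 0) (nat_lit 0) (XT.lf (nat_lit 0) (nat_lit 783760025499) (nat_lit 228) (nat_lit 1495292805740) (nat_lit 76) (nat_lit 1520527057) (nat_lit 17) (nat_lit 5) (nat_lit 20) (nat_lit 5) (nat_lit 18) (nat_lit 4) (nat_lit 310) (nat_lit 299) (nat_lit 171)) (XT.lf (nat_lit 0) (nat_lit 1335807221917) (nat_lit 228) (nat_lit 308391340497) (nat_lit 76) (nat_lit 849647893289) (nat_lit 17) (nat_lit 5) (nat_lit 20) (nat_lit 5) (nat_lit 18) (nat_lit 4) (nat_lit 311) (nat_lit 299) (nat_lit 170))) (XT.nd (nat_lit 78) (nat_lit 152) (nat_lit 0) (XT.lf (nat_lit 0) (nat_lit 1159798633229) (nat_lit 76) (nat_lit 858887649089) (nat_lit 152) (nat_lit 713220517733) (nat_lit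 16) (nat_lit 5) (nat_lit 17) (nat_lit 5) (nat_lit 18) (nat_lit 4) (nat_lit 312) (nat_lit 299) (nat_lit 169)) (XT.nd (nat_lit 78) (nat_lit 152) (nat_lit 0) (XT.lf (nat_lit 0) (nat_lit 2822716347357) (nat_lit 152) (nat_lit 122980741757) (nat_lit 0) (nat_lit 57171235104) (nat_lit 16) (nat_lit 5) (nat_lit 18) (nat_lit 4) (nat_lit 16) (nat_lit 4) (nat_lit 313) (nat_lit 299) (nat_lit 168)) (XT.lf (nat_lit 0) (nat_lit 508739315702) (nat_lit 152) (nat_lit 1671755587526) (nat_lit 76) (nat_lit 1114130473622) (nat_lit 14) (nat_lit 5) (nat_lit 16) (nat_lit 5) (nat_lit 15) (nat_lit 4) (nat_lit 314) (nat_lit 299) (nat_lit 167))))) (XT.nd (nat_lit 156) (nat_lit 152) (nat_lit 0) (XT.nd (nat_lit 78) (nat_lit 0) (nat_lit 0) (XT.lf (nat_lit 0) (nat_lit 6973598125) (nat_lit 76) (nat_lit 1282569991604) (nat_lit 152) (nat_lit 2338262085036) (nat_lit 13) (nat_lit 5) (nat_lit 14) (nat_lit 5) (nat_lit 15) (nat_lit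 4) (nat_lit 315) (nat_lit 299) (nat_lit 166)) (XT.lf (nat_lit 0) (nat_lit 2125394688020) (nat_lit 76) (nat_lit 149461037963) (nat_lit 152) (nat_lit 1722999208219) (nat_lit 13) (nat_lit 5) (nat_lit 14) (nat_lit 5) (nat_lit 15) (nat_lit 4) (nat_lit 316) (nat_lit 299) (nat_lit 165))) (XT.nd (nat_lit 78) (nat_lit 76) (nat_lit 0) (XT.lf (nat_lit 0) (nat_lit 99233061179) (nat_lit 76) (nat_lit 3360609354820) (nat_lit 76) (nat_lit 955787506560) (nat_lit 12) (nat_lit 4) (nat_lit 13) (nat_lit 5) (nat_lit 13) (nat_lit 4) (nat_lit 317) (nat_lit 299) (nat_lit 164)) (XT.nd (nat_lit 78) (nat_lit 0) (nat_lit 0) (XT.lf (nat_lit 0) (nat_lit 42705578360) (nat_lit 152) (nat_lit 2313004856788) (nat_lit 76) (nat_lit 2524368706878) (nat_lit 11) (nat_lit 5) (nat_lit 13) (nat_lit 5) (nat_lit 12) (nat_lit 4) (nat_lit 318) (nat_lit 299) (nat_lit 163)) (XT.lf (nat_lit 0) (nat_lit 1093118188685) (nat_lit 152) (nat_lit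 54617746335) (nat_lit 76) (nat_lit 4259632756100) (nat_lit 11) (nat_lit 5) (nat_lit 13) (nat_lit 5) (nat_lit 12) (nat_lit 4) (nat_lit 319) (nat_lit 299) (nat_lit 162)))))) (XT.nd (nat_lit 390) (nat_lit 76) (nat_lit 0) (XT.nd (nat_lit 156) (nat_lit 228) (nat_lit 0) (XT.nd (nat_lit 78) (nat_lit 0) (nat_lit 0) (XT.lf (nat_lit 0) (nat_lit 2432162720984) (nat_lit 152) (nat_lit 3220915163895) (nat_lit 0) (nat_lit 341013283135) (nat_lit 10) (nat_lit 5) (nat_lit 12) (nat_lit 4) (nat_lit 10) (nat_lit 4) (nat_lit 320) (nat_lit 299) (nat_lit 161)) (XT.lf (nat_lit 0) (nat_lit 4029708995271) (nat_lit 152) (nat_lit 691906705575) (nat_lit 0) (nat_lit 1938559556276) (nat_lit 10) (nat_lit 5) (nat_lit 12) (nat_lit 4) (nat_lit 10) (nat_lit 4) (nat_lit 321) (nat_lit 299) (nat_lit 160))) (XT.nd (nat_lit 78) (nat_lit 152) (nat_lit 0) (XT.lf (nat_lit 0) (nat_lit 2433060927020) (nat_lit 76) (nat_lit 3534574146568)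 (nat_lit 76) (nat_lit 1443424706576) (nat_lit 9) (nat_lit 4) (nat_lit 10) (nat_lit 5) (nat_lit 10) (nat_lit 4) (nat_lit 322) (nat_lit 299) (nat_lit 159)) (XT.nd (nat_lit 78) (nat_lit 152) (nat_lit 0) (XT.lf (nat_lit 0) (nat_lit 6104534580173) (nat_lit 76) (nat_lit 2127883332499) (nat_lit 76) (nat_lit 36733891640) (nat_lit 9) (nat_lit 4) (nat_lit 10) (nat_lit 5) (nat_lit 10) (nat_lit 4) (nat_lit 323) (nat_lit 299) (nat_lit 158)) (XT.lf (nat_lit 0) (nat_lit 1103553396268) (nat_lit 76) (nat_lit 382354900420) (nat_lit 152) (nat_lit 7753375335959) (nat_lit 7) (nat_lit 5) (nat_lit 8) (nat_lit 5) (nat_lit 9) (nat_lit 4) (nat_lit 324) (nat_lit 299) (nat_lit 157))))) (XT.nd (nat_lit 156) (nat_lit 76) (nat_lit 0) (XT.nd (nat_lit 78) (nat_lit 0) (nat_lit 0) (XT.lf (nat_lit 0) (nat_lit 3419012423857) (nat_lit 152) (nat_lit 5307164852735) (nat_lit 0) (nat_lit 1600621604493) (nat_lit 7) (nat_lit 5)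 (nat_lit 9) (nat_lit 4) (nat_lit 7) (nat_lit 4) (nat_lit 325) (nat_lit 299) (nat_lit 156)) (XT.lf (nat_lit 0) (nat_lit 5660289545138) (nat_lit 152) (nat_lit 2072522040117) (nat_lit 0) (nat_lit 3841898725278) (nat_lit 7) (nat_lit 5) (nat_lit 9) (nat_lit 4) (nat_lit 7) (nat_lit 4) (nat_lit 326) (nat_lit 299) (nat_lit 155))) (XT.nd (nat_lit 78) (nat_lit 0) (nat_lit 0) (XT.lf (nat_lit 0) (nat_lit 1808305008863) (nat_lit 76) (nat_lit 6504331278925) (nat_lit 76) (nat_lit 4685940458633) (nat_lit 6) (nat_lit 4) (nat_lit 7) (nat_lit 5) (nat_lit 7) (nat_lit 4) (nat_lit 327) (nat_lit 299) (nat_lit 154)) (XT.nd (nat_lit 78) (nat_lit 0) (nat_lit 0) (XT.lf (nat_lit 0) (nat_lit 6504179328874) (nat_lit 76) (nat_lit 4966992091362) (nat_lit 76) (nat_lit 3148601270696) (nat_lit 6) (nat_lit 4) (nat_lit 7) (nat_lit 5) (nat_lit 7) (nat_lit 4) (nat_lit 328) (nat_lit 299) (nat_lit 153)) (XT.lf (nat_lit 0) (nat_lit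 11904434795182) (nat_lit 76) (nat_lit 3199052026529) (nat_lit 76) (nat_lit 1380661205537) (nat_lit 6) (nat_lit 4) (nat_lit 7) (nat_lit 5) (nat_lit 7) (nat_lit 4) (nat_lit 329) (nat_lit 299) (nat_lit 152))))))) (XT.nd (nat_lit 38454) (nat_lit 0) (nat_lit 1064) (XT.nd (nat_lit 390) (nat_lit 76) (nat_lit 0) (XT.nd (nat_lit 156) (nat_lit 0) (nat_lit 0) (XT.nd (nat_lit 78) (nat_lit 76) (nat_lit 0) (XT.lf (nat_lit 0) (nat_lit 594382488951) (nat_lit 152) (nat_lit 540468470030) (nat_lit 76) (nat_lit 17489276097262) (nat_lit 5) (nat_lit 5) (nat_lit 7) (nat_lit 5) (nat_lit 6) (nat_lit 4) (nat_lit 330) (nat_lit 299) (nat_lit 151)) (XT.lf (nat_lit 0) (nat_lit 2971093001667) (nat_lit 152) (nat_lit 16677249929539) (nat_lit 0) (nat_lit 1389883591647) (nat_lit 4) (nat_lit 5) (nat_lit 6) (nat_lit 4) (nat_lit 4) (nat_lit 4) (nat_lit 331) (nat_lit 299) (nat_lit 150))) (XT.nd (nat_lit 78) (nat_lit 0) (nat_lit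 0) (XT.lf (nat_lit 0) (nat_lit 5787947695368) (nat_lit 152) (nat_lit 13807209288313) (nat_lit 0) (nat_lit 4206738285163) (nat_lit 4) (nat_lit 5) (nat_lit 6) (nat_lit 4) (nat_lit 4) (nat_lit 4) (nat_lit 332) (nat_lit 299) (nat_lit 149)) (XT.nd (nat_lit 78) (nat_lit 0) (nat_lit 0) (XT.lf (nat_lit 0) (nat_lit 9027330592550) (nat_lit 152) (nat_lit 10506662552087) (nat_lit 0) (nat_lit 7446121182182) (nat_lit 4) (nat_lit 5) (nat_lit 6) (nat_lit 4) (nat_lit 4) (nat_lit 4) (nat_lit 333) (nat_lit 299) (nat_lit 148)) (XT.lf (nat_lit 0) (nat_lit 12752620923809) (nat_lit 152) (nat_lit 6711033806456) (nat_lit 0) (nat_lit 11171411513301) (nat_lit 4) (nat_lit 5) (nat_lit 6) (nat_lit 4) (nat_lit 4) (nat_lit 4) (nat_lit 334) (nat_lit 299) (nat_lit 147))))) (XT.nd (nat_lit 1170) (nat_lit 0) (nat_lit 0) (XT.nd (nat_lit 78) (nat_lit 76) (nat_lit 0) (XT.lf (nat_lit 0) (nat_lit 17036704804323) (nat_lit 152)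 (nat_lit 2346060749876) (nat_lit 0) (nat_lit 15455495393692) (nat_lit 4) (nat_lit 5) (nat_lit 6) (nat_lit 4) (nat_lit 4) (nat_lit 4) (nat_lit 335) (nat_lit 299) (nat_lit 146)) (XT.lf (nat_lit 0) (nat_lit 2934947594797) (nat_lit 76) (nat_lit 19149983592847) (nat_lit 76) (nat_lit 17568774182110) (nat_lit 3) (nat_lit 4) (nat_lit 4) (nat_lit 5) (nat_lit 4) (nat_lit 4) (nat_lit 336) (nat_lit 299) (nat_lit 145))) (XT.nd (nat_lit 36738) (nat_lit 0) (nat_lit 1672) (XT.lf (nat_lit 0) (nat_lit 259606168592923) (nat_lit 76) (nat_lit 2594515853368) (nat_lit 76) (nat_lit 1013306442020) (nat_lit 3) (nat_lit 4) (nat_lit 4) (nat_lit 5) (nat_lit 4) (nat_lit 4) (nat_lit 350) (nat_lit 299) (nat_lit 131)) (XT.nd (nat_lit 78) (nat_lit 0) (nat_lit 0) (XT.lf (nat_lit 0) (nat_lit 111507601464) (nat_lit 380) (nat_lit 216431346788) (nat_lit 380) (nat_lit 216431346788) (nat_lit 25) (nat_lit 3) (nat_lit 30) (nat_lit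 3) (nat_lit 30) (nat_lit 5) (nat_lit 300) (nat_lit 300) (nat_lit 180)) (XT.lf (nat_lit 76) (nat_lit 94846943895) (nat_lit 0) (nat_lit 148821859391) (nat_lit 380) (nat_lit 926138211897) (nat_lit 26) (nat_lit 5) (nat_lit 25) (nat_lit 3) (nat_lit 30) (nat_lit 5) (nat_lit 301) (nat_lit 300) (nat_lit 179)))))) (XT.nd (nat_lit 390) (nat_lit 456) (nat_lit 0) (XT.nd (nat_lit 156) (nat_lit 228) (nat_lit 0) (XT.nd (nat_lit 78) (nat_lit 0) (nat_lit 0) (XT.lf (nat_lit 0) (nat_lit 309107949970) (nat_lit 304) (nat_lit 528339085000) (nat_lit 380) (nat_lit 419333243163) (nat_lit 26) (nat_lit 5) (nat_lit 30) (nat_lit 5) (nat_lit 31) (nat_lit 5) (nat_lit 302) (nat_lit 300) (nat_lit 178)) (XT.lf (nat_lit 76) (nat_lit 102295324938) (nat_lit 0) (nat_lit 293390222297) (nat_lit 380) (nat_lit 959415596524) (nat_lit 27) (nat_lit 5) (nat_lit 26) (nat_lit 5) (nat_lit 31) (nat_lit 5) (nat_lit 303) (nat_lit 300)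 (nat_lit 177))) (XT.nd (nat_lit 78) (nat_lit 304) (nat_lit 0) (XT.lf (nat_lit 0) (nat_lit 537941435505) (nat_lit 304) (nat_lit 592198416311) (nat_lit 76) (nat_lit 331626539720) (nat_lit 27) (nat_lit 5) (nat_lit 31) (nat_lit 5) (nat_lit 28) (nat_lit 5) (nat_lit 304) (nat_lit 300) (nat_lit 176)) (XT.nd (nat_lit 78) (nat_lit 0) (nat_lit 0) (XT.lf (nat_lit 0) (nat_lit 168533110308) (nat_lit 304) (nat_lit 553952150230) (nat_lit 380) (nat_lit 858803732927) (nat_lit 23) (nat_lit 5) (nat_lit 27) (nat_lit 5) (nat_lit 28) (nat_lit 5) (nat_lit 305) (nat_lit 300) (nat_lit 175)) (XT.lf (nat_lit 0) (nat_lit 971640099366) (nat_lit 380) (nat_lit 610140845350) (nat_lit 76) (nat_lit 131419624977) (nat_lit 23) (nat_lit 5) (nat_lit 28) (nat_lit 5) (nat_lit 24) (nat_lit 5) (nat_lit 306) (nat_lit 300) (nat_lit 174))))) (XT.nd (nat_lit 234) (nat_lit 152) (nat_lit 0) (XT.nd (nat_lit 78) (nat_lit 152) (nat_lit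 0) (XT.lf (nat_lit 0) (nat_lit 314485436708) (nat_lit 152) (nat_lit 983083567553) (nat_lit 228) (nat_lit 561419752069) (nat_lit 21) (nat_lit 5) (nat_lit 23) (nat_lit 5) (nat_lit 24) (nat_lit 5) (nat_lit 307) (nat_lit 300) (nat_lit 173)) (XT.nd (nat_lit 78) (nat_lit 152) (nat_lit 0) (XT.lf (nat_lit 0) (nat_lit 1446377166378) (nat_lit 152) (nat_lit 257903800052) (nat_lit 228) (nat_lit 317580146311) (nat_lit 21) (nat_lit 5) (nat_lit 23) (nat_lit 5) (nat_lit 24) (nat_lit 5) (nat_lit 308) (nat_lit 300) (nat_lit 172)) (XT.lf (nat_lit 0) (nat_lit 15658518280) (nat_lit 152) (nat_lit 1637418312062) (nat_lit 76) (nat_lit 548891158057) (nat_lit 19) (nat_lit 5) (nat_lit 21) (nat_lit 5) (nat_lit 20) (nat_lit 5) (nat_lit 309) (nat_lit 300) (nat_lit 171)))) (XT.nd (nat_lit 78) (nat_lit 152) (nat_lit 0) (XT.lf (nat_lit 0) (nat_lit 410164551314) (nat_lit 152) (nat_lit 493150172285) (nat_lit 76) (nat_lit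 1496938383207) (nat_lit 19) (nat_lit 5) (nat_lit 21) (nat_lit 5) (nat_lit 20) (nat_lit 5) (nat_lit 310) (nat_lit 300) (nat_lit 170)) (XT.nd (nat_lit 78) (nat_lit 0) (nat_lit 0) (XT.lf (nat_lit 0) (nat_lit 901324068137) (nat_lit 228) (nat_lit 1719586664458) (nat_lit 76) (nat_lit 1748623560) (nat_lit 17) (nat_lit 5) (nat_lit 20) (nat_lit 5) (nat_lit 18) (nat_lit 4) (nat_lit 311) (nat_lit 300) (nat_lit 169)) (XT.lf (nat_lit 0) (nat_lit 1536178338955) (nat_lit 228) (nat_lit 354649987535) (nat_lit 76) (nat_lit 977095092452) (nat_lit 17) (nat_lit 5) (nat_lit 20) (nat_lit 5) (nat_lit 18) (nat_lit 4) (nat_lit 312) (nat_lit 300) (nat_lit 168))))))))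
noncomputable def xc112 : XT := (XT.nd (nat_lit 1560) (nat_lit 0) (nat_lit 0) (XT.nd (nat_lit 780) (nat_lit 456) (nat_lit 0) (XT.nd (nat_lit 390) (nat_lit 228) (nat_lit 0) (XT.nd (nat_lit 156) (nat_lit 228) (nat_lit 0) (XT.nd (nat_lit 78) (nat_lit 0) (nat_lit 0) (XT.lf (nat_lit 0) (nat_lit 1333768479794) (nat_lit 76) (nat_lit 987720776355) (nat_lit 152) (nat_lit 820203559138) (nat_lit 16) (nat_lit 5) (nat_lit 17) (nat_lit 5) (nat_lit 18) (nat_lit 4) (nat_lit 313) (nat_lit 300) (nat_lit 167)) (XT.lf (nat_lit 0) (nat_lit 3246123827561) (nat_lit 152) (nat_lit 141427804743) (nat_lit 0) (nat_lit 65746936289) (nat_lit 16) (nat_lit 5) (nat_lit 18) (nat_lit 4) (nat_lit 16) (nat_lit 4) (nat_lit 314) (nat_lit 300) (nat_lit 166))) (XT.nd (nat_lit 78) (nat_lit 76) (nat_lit 0) (XT.lf (nat_lit 0) (nat_lit 585050240689) (nat_lit 152) (nat_lit 1922518876840) (nat_lit 76) (nat_lit 1281250061673) (nat_lit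 14) (nat_lit 5) (nat_lit 16) (nat_lit 5) (nat_lit 15) (nat_lit 4) (nat_lit 315) (nat_lit 300) (nat_lit 165)) (XT.nd (nat_lit 78) (nat_lit 0) (nat_lit 0) (XT.lf (nat_lit 0) (nat_lit 8019684440) (nat_lit 76) (nat_lit 1474955469706) (nat_lit 152) (nat_lit 2689001367914) (nat_lit 13) (nat_lit 5) (nat_lit 14) (nat_lit 5) (nat_lit 15) (nat_lit 4) (nat_lit 316) (nat_lit 300) (nat_lit 164)) (XT.lf (nat_lit 0) (nat_lit 2444203931741) (nat_lit 76) (nat_lit 171880175711) (nat_lit 152) (nat_lit 1981449063472) (nat_lit 13) (nat_lit 5) (nat_lit 14) (nat_lit 5) (nat_lit 15) (nat_lit 4) (nat_lit 317) (nat_lit 300) (nat_lit 163))))) (XT.nd (nat_lit 156) (nat_lit 76) (nat_lit 0) (XT.nd (nat_lit 78) (nat_lit 76) (nat_lit 0) (XT.lf (nat_lit 0) (nat_lit 114118061577) (nat_lit 76) (nat_lit 3864700738801) (nat_lit 76) (nat_lit 1099155607247) (nat_lit 12) (nat_lit 4) (nat_lit 13) (nat_lit 5) (nat_lit 13) (nat_lit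 4) (nat_lit 318) (nat_lit 300) (nat_lit 162)) (XT.lf (nat_lit 0) (nat_lit 49111435154) (nat_lit 152) (nat_lit 2659955547488) (nat_lit 76) (nat_lit 2903024027667) (nat_lit 11) (nat_lit 5) (nat_lit 13) (nat_lit 5) (nat_lit 12) (nat_lit 4) (nat_lit 319) (nat_lit 300) (nat_lit 161))) (XT.nd (nat_lit 78) (nat_lit 76) (nat_lit 0) (XT.lf (nat_lit 0) (nat_lit 1257085934413) (nat_lit 152) (nat_lit 62810375399) (nat_lit 76) (nat_lit 4898577682348) (nat_lit 11) (nat_lit 5) (nat_lit 13) (nat_lit 5) (nat_lit 12) (nat_lit 4) (nat_lit 320) (nat_lit 300) (nat_lit 160)) (XT.nd (nat_lit 78) (nat_lit 0) (nat_lit 0) (XT.lf (nat_lit 0) (nat_lit 2796987146203) (nat_lit 152) (nat_lit 3704052405227) (nat_lit 0) (nat_lit 392165289214) (nat_lit 10) (nat_lit 5) (nat_lit 12) (nat_lit 4) (nat_lit 10) (nat_lit 4) (nat_lit 321) (nat_lit 300) (nat_lit 159)) (XT.lf (nat_lit 0) (nat_lit 4634165359406) (nat_lit 152) (nat_lit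 795692682497) (nat_lit 0) (nat_lit 2229343501551) (nat_lit 10) (nat_lit 5) (nat_lit 12) (nat_lit 4) (nat_lit 10) (nat_lit 4) (nat_lit 322) (nat_lit 300) (nat_lit 158)))))) (XT.nd (nat_lit 390) (nat_lit 228) (nat_lit 0) (XT.nd (nat_lit 156) (nat_lit 152) (nat_lit 0) (XT.nd (nat_lit 78) (nat_lit 0) (nat_lit 0) (XT.lf (nat_lit 0) (nat_lit 2798020093673) (nat_lit 76) (nat_lit 4064760255004) (nat_lit 76) (nat_lit 1659938396395) (nat_lit 9) (nat_lit 4) (nat_lit 10) (nat_lit 5) (nat_lit 10) (nat_lit 4) (nat_lit 323) (nat_lit 300) (nat_lit 157)) (XT.lf (nat_lit 0) (nat_lit 7020214791199) (nat_lit 76) (nat_lit 2447065820592) (nat_lit 76) (nat_lit 42243961327) (nat_lit 9) (nat_lit 4) (nat_lit 10) (nat_lit 5) (nat_lit 10) (nat_lit 4) (nat_lit 324) (nat_lit 300) (nat_lit 156))) (XT.nd (nat_lit 78) (nat_lit 0) (nat_lit 0) (XT.lf (nat_lit 0) (nat_lit 1269086429819) (nat_lit 76) (nat_lit 439708123508)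 (nat_lit 152) (nat_lit 8916381622392) (nat_lit 7) (nat_lit 5) (nat_lit 8) (nat_lit 5) (nat_lit 9) (nat_lit 4) (nat_lit 325) (nat_lit 300) (nat_lit 155)) (XT.nd (nat_lit 78) (nat_lit 0) (nat_lit 0) (XT.lf (nat_lit 0) (nat_lit 3931864298419) (nat_lit 152) (nat_lit 6103239558523) (nat_lit 0) (nat_lit 1840714854653) (nat_lit 7) (nat_lit 5) (nat_lit 9) (nat_lit 4) (nat_lit 7) (nat_lit 4) (nat_lit 326) (nat_lit 300) (nat_lit 154)) (XT.lf (nat_lit 0) (nat_lit 6509332986460) (nat_lit 152) (nat_lit 2383400326897) (nat_lit 0) (nat_lit 4418183542319) (nat_lit 7) (nat_lit 5) (nat_lit 9) (nat_lit 4) (nat_lit 7) (nat_lit 4) (nat_lit 327) (nat_lit 300) (nat_lit 153))))) (XT.nd (nat_lit 156) (nat_lit 152) (nat_lit 0) (XT.nd (nat_lit 78) (nat_lit 0) (nat_lit 0) (XT.lf (nat_lit 0) (nat_lit 2079550778555) (nat_lit 76) (nat_lit 7479980961466) (nat_lit 76) (nat_lit 5388831516999) (nat_lit 6) (nat_lit 4)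 (nat_lit 7) (nat_lit 5) (nat_lit 7) (nat_lit 4) (nat_lit 328) (nat_lit 300) (nat_lit 152)) (XT.lf (nat_lit 0) (nat_lit 7479806244173) (nat_lit 76) (nat_lit 5712040896982) (nat_lit 76) (nat_lit 3620891452232) (nat_lit 6) (nat_lit 4) (nat_lit 7) (nat_lit 5) (nat_lit 7) (nat_lit 4) (nat_lit 329) (nat_lit 300) (nat_lit 151))) (XT.nd (nat_lit 78) (nat_lit 152) (nat_lit 0) (XT.lf (nat_lit 0) (nat_lit 13690100028345) (nat_lit 76) (nat_lit 3678909823479) (nat_lit 76) (nat_lit 1587760378482) (nat_lit 6) (nat_lit 4) (nat_lit 7) (nat_lit 5) (nat_lit 7) (nat_lit 4) (nat_lit 330) (nat_lit 300) (nat_lit 150)) (XT.nd (nat_lit 78) (nat_lit 76) (nat_lit 0) (XT.lf (nat_lit 0) (nat_lit 683539868540) (nat_lit 152) (nat_lit 621538727848) (nat_lit 76) (nat_lit 20112667517351) (nat_lit 5) (nat_lit 5) (nat_lit 7) (nat_lit 5) (nat_lit 6) (nat_lit 4) (nat_lit 331) (nat_lit 300) (nat_lit 149)) (XT.lf (nat_lit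 0) (nat_lit 3416756958106) (nat_lit 152) (nat_lit 19178837406224) (nat_lit 0) (nat_lit 1598366136021) (nat_lit 4) (nat_lit 5) (nat_lit 6) (nat_lit 4) (nat_lit 4) (nat_lit 4) (nat_lit 332) (nat_lit 300) (nat_lit 148))))))) (XT.nd (nat_lit 38610) (nat_lit 0) (nat_lit 760) (XT.nd (nat_lit 38220) (nat_lit 0) (nat_lit 1444) (XT.nd (nat_lit 156) (nat_lit 0) (nat_lit 0) (XT.nd (nat_lit 78) (nat_lit 0) (nat_lit 0) (XT.lf (nat_lit 0) (nat_lit 6656139855055) (nat_lit 152) (nat_lit 15878290670476) (nat_lit 0) (nat_lit 4837749032830) (nat_lit 4) (nat_lit 5) (nat_lit 6) (nat_lit 4) (nat_lit 4) (nat_lit 4) (nat_lit 333) (nat_lit 300) (nat_lit 147)) (XT.lf (nat_lit 0) (nat_lit 10381430186112) (nat_lit 152) (nat_lit 12082661925262) (nat_lit 0) (nat_lit 8563039363764) (nat_lit 4) (nat_lit 5) (nat_lit 6) (nat_lit 4) (nat_lit 4) (nat_lit 4) (nat_lit 334) (nat_lit 300) (nat_lit 146))) (XT.nd (nat_lit 78)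 (nat_lit 0) (nat_lit 0) (XT.lf (nat_lit 0) (nat_lit 14665514066450) (nat_lit 152) (nat_lit 7717688869044) (nat_lit 0) (nat_lit 12847123243995) (nat_lit 4) (nat_lit 5) (nat_lit 6) (nat_lit 4) (nat_lit 4) (nat_lit 4) (nat_lit 335) (nat_lit 300) (nat_lit 145)) (XT.nd (nat_lit 37908) (nat_lit 0) (nat_lit 1596) (XT.lf (nat_lit 0) (nat_lit 19592210528510) (nat_lit 152) (nat_lit 2697969855070) (nat_lit 0) (nat_lit 17773819705962) (nat_lit 4) (nat_lit 5) (nat_lit 6) (nat_lit 4) (nat_lit 4) (nat_lit 4) (nat_lit 336) (nat_lit 300) (nat_lit 144)) (XT.lf (nat_lit 0) (nat_lit 128233790048) (nat_lit 380) (nat_lit 248896020933) (nat_lit 380) (nat_lit 248896020933) (nat_lit 25) (nat_lit 3) (nat_lit 30) (nat_lit 3) (nat_lit 30) (nat_lit 5) (nat_lit 301) (nat_lit 301) (nat_lit 178))))) (XT.nd (nat_lit 156) (nat_lit 152) (nat_lit 0) (XT.nd (nat_lit 78) (nat_lit 0) (nat_lit 76) (XT.lf (nat_lit 76) (nat_lit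 109074038692) (nat_lit 0) (nat_lit 171145171402) (nat_lit 380) (nat_lit 1065058844196) (nat_lit 26) (nat_lit 5) (nat_lit 25) (nat_lit 3) (nat_lit 30) (nat_lit 5) (nat_lit 302) (nat_lit 301) (nat_lit 177)) (XT.lf (nat_lit 0) (nat_lit 355474216331) (nat_lit 304) (nat_lit 607589888834) (nat_lit 380) (nat_lit 482233203415) (nat_lit 26) (nat_lit 5) (nat_lit 30) (nat_lit 5) (nat_lit 31) (nat_lit 5) (nat_lit 303) (nat_lit 301) (nat_lit 176))) (XT.nd (nat_lit 78) (nat_lit 228) (nat_lit 0) (XT.lf (nat_lit 76) (nat_lit 117639679917) (nat_lit 0) (nat_lit 337398765963) (nat_lit 380) (nat_lit 1103327859291) (nat_lit 27) (nat_lit 5) (nat_lit 26) (nat_lit 5) (nat_lit 31) (nat_lit 5) (nat_lit 304) (nat_lit 301) (nat_lit 175)) (XT.nd (nat_lit 78) (nat_lit 304) (nat_lit 0) (XT.lf (nat_lit 0) (nat_lit 618632708337) (nat_lit 304) (nat_lit 681028120656) (nat_lit 76) (nat_lit 381370512502) (nat_lit 27) (nat_lit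 5) (nat_lit 31) (nat_lit 5) (nat_lit 28) (nat_lit 5) (nat_lit 305) (nat_lit 301) (nat_lit 174)) (XT.lf (nat_lit 0) (nat_lit 193813132316) (nat_lit 304) (nat_lit 637044969606) (nat_lit 380) (nat_lit 987624232592) (nat_lit 23) (nat_lit 5) (nat_lit 27) (nat_lit 5) (nat_lit 28) (nat_lit 5) (nat_lit 306) (nat_lit 301) (nat_lit 173)))))) (XT.nd (nat_lit 390) (nat_lit 380) (nat_lit 0) (XT.nd (nat_lit 156) (nat_lit 152) (nat_lit 0) (XT.nd (nat_lit 78) (nat_lit 152) (nat_lit 0) (XT.lf (nat_lit 0) (nat_lit 1117386159865) (nat_lit 380) (nat_lit 701661917106) (nat_lit 76) (nat_lit 151132571226) (nat_lit 23) (nat_lit 5) (nat_lit 28) (nat_lit 5) (nat_lit 24) (nat_lit 5) (nat_lit 307) (nat_lit 301) (nat_lit 172)) (XT.lf (nat_lit 0) (nat_lit 361658304758) (nat_lit 152) (nat_lit 1130546091964) (nat_lit 228) (nat_lit 645632666687) (nat_lit 21) (nat_lit 5) (nat_lit 23) (nat_lit 5) (nat_lit 24) (nat_lit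 5) (nat_lit 308) (nat_lit 301) (nat_lit 171))) (XT.nd (nat_lit 78) (nat_lit 152) (nat_lit 0) (XT.lf (nat_lit 0) (nat_lit 1663333787025) (nat_lit 152) (nat_lit 296589360737) (nat_lit 228) (nat_lit 365217126351) (nat_lit 21) (nat_lit 5) (nat_lit 23) (nat_lit 5) (nat_lit 24) (nat_lit 5) (nat_lit 309) (nat_lit 301) (nat_lit 170)) (XT.nd (nat_lit 78) (nat_lit 0) (nat_lit 0) (XT.lf (nat_lit 0) (nat_lit 18007331675) (nat_lit 152) (nat_lit 1883031006791) (nat_lit 76) (nat_lit 631224842781) (nat_lit 19) (nat_lit 5) (nat_lit 21) (nat_lit 5) (nat_lit 20) (nat_lit 5) (nat_lit 310) (nat_lit 301) (nat_lit 169)) (XT.lf (nat_lit 0) (nat_lit 471689265014) (nat_lit 152) (nat_lit 567122652841) (nat_lit 76) (nat_lit 1721479150266) (nat_lit 19) (nat_lit 5) (nat_lit 21) (nat_lit 5) (nat_lit 20) (nat_lit 5) (nat_lit 311) (nat_lit 301) (nat_lit 168))))) (XT.nd (nat_lit 156) (nat_lit 228) (nat_lit 0) (XT.nd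 (nat_lit 78) (nat_lit 0) (nat_lit 0) (XT.lf (nat_lit 0) (nat_lit 1036522707706) (nat_lit 228) (nat_lit 1977524617139) (nat_lit 76) (nat_lit 2010930284) (nat_lit 17) (nat_lit 5) (nat_lit 20) (nat_lit 5) (nat_lit 18) (nat_lit 4) (nat_lit 312) (nat_lit 301) (nat_lit 167)) (XT.lf (nat_lit 0) (nat_lit 1766605115318) (nat_lit 228) (nat_lit 407847444806) (nat_lit 76) (nat_lit 1123659367790) (nat_lit 17) (nat_lit 5) (nat_lit 20) (nat_lit 5) (nat_lit 18) (nat_lit 4) (nat_lit 313) (nat_lit 301) (nat_lit 166))) (XT.nd (nat_lit 78) (nat_lit 152) (nat_lit 0) (XT.lf (nat_lit 0) (nat_lit 1533833790766) (nat_lit 76) (nat_lit 1135878877613) (nat_lit 152) (nat_lit 943234065595) (nat_lit 16) (nat_lit 5) (nat_lit 17) (nat_lit 5) (nat_lit 18) (nat_lit 4) (nat_lit 314) (nat_lit 301) (nat_lit 165)) (XT.nd (nat_lit 78) (nat_lit 152) (nat_lit 0) (XT.lf (nat_lit 0) (nat_lit 3733042422944) (nat_lit 152) (nat_lit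 162641938950) (nat_lit 0) (nat_lit 75608988770) (nat_lit 16) (nat_lit 5) (nat_lit 18) (nat_lit 4) (nat_lit 16) (nat_lit 4) (nat_lit 315) (nat_lit 301) (nat_lit 164)) (XT.lf (nat_lit 0) (nat_lit 672807797685) (nat_lit 152) (nat_lit 2210896671455) (nat_lit 76) (nat_lit 1473437583784) (nat_lit 14) (nat_lit 5) (nat_lit 16) (nat_lit 5) (nat_lit 15) (nat_lit 4) (nat_lit 316) (nat_lit 301) (nat_lit 163))))))))
noncomputable def xc113 : XT := (XT.nd (nat_lit 39468) (nat_lit 0) (nat_lit 532) (XT.nd (nat_lit 780) (nat_lit 228) (nat_lit 0) (XT.nd (nat_lit 390) (nat_lit 304) (nat_lit 0) (XT.nd (nat_lit 156) (nat_lit 152) (nat_lit 0) (XT.nd (nat_lit 78) (nat_lit 0) (nat_lit 0) (XT.lf (nat_lit 0) (nat_lit 9222672339) (nat_lit 76) (nat_lit 1696198774556) (nat_lit 152) (nat_lit 3092351550509) (nat_lit 13) (nat_lit 5) (nat_lit 14) (nat_lit 5) (nat_lit 15) (nat_lit 4) (nat_lit 317) (nat_lit 301) (nat_lit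 162)) (XT.lf (nat_lit 0) (nat_lit 2810834552140) (nat_lit 76) (nat_lit 197662188497) (nat_lit 152) (nat_lit 2278666403348) (nat_lit 13) (nat_lit 5) (nat_lit 14) (nat_lit 5) (nat_lit 15) (nat_lit 4) (nat_lit 318) (nat_lit 301) (nat_lit 161))) (XT.nd (nat_lit 78) (nat_lit 76) (nat_lit 0) (XT.lf (nat_lit 0) (nat_lit 131235801983) (nat_lit 76) (nat_lit 4444405835072) (nat_lit 76) (nat_lit 1264028929205) (nat_lit 12) (nat_lit 4) (nat_lit 13) (nat_lit 5) (nat_lit 13) (nat_lit 4) (nat_lit 319) (nat_lit 301) (nat_lit 160)) (XT.nd (nat_lit 78) (nat_lit 0) (nat_lit 0) (XT.lf (nat_lit 0) (nat_lit 56478165580) (nat_lit 152) (nat_lit 3058948851015) (nat_lit 76) (nat_lit 3338477642976) (nat_lit 11) (nat_lit 5) (nat_lit 13) (nat_lit 5) (nat_lit 12) (nat_lit 4) (nat_lit 320) (nat_lit 301) (nat_lit 159)) (XT.lf (nat_lit 0) (nat_lit 1445648837752) (nat_lit 152) (nat_lit 72231906843) (nat_lit 76) (nat_lit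 5633364344403) (nat_lit 11) (nat_lit 5) (nat_lit 13) (nat_lit 5) (nat_lit 12) (nat_lit 4) (nat_lit 321) (nat_lit 301) (nat_lit 158))))) (XT.nd (nat_lit 156) (nat_lit 228) (nat_lit 0) (XT.nd (nat_lit 78) (nat_lit 0) (nat_lit 0) (XT.lf (nat_lit 0) (nat_lit 3216535231041) (nat_lit 152) (nat_lit 4259660240868) (nat_lit 0) (nat_lit 450990092886) (nat_lit 10) (nat_lit 5) (nat_lit 12) (nat_lit 4) (nat_lit 10) (nat_lit 4) (nat_lit 322) (nat_lit 301) (nat_lit 157)) (XT.lf (nat_lit 0) (nat_lit 5329290174542) (nat_lit 152) (nat_lit 915046563007) (nat_lit 0) (nat_lit 2563745035731) (nat_lit 10) (nat_lit 5) (nat_lit 12) (nat_lit 4) (nat_lit 10) (nat_lit 4) (nat_lit 323) (nat_lit 301) (nat_lit 156))) (XT.nd (nat_lit 78) (nat_lit 152) (nat_lit 0) (XT.lf (nat_lit 0) (nat_lit 3217723128595) (nat_lit 76) (nat_lit 4674474283010) (nat_lit 76) (nat_lit 1908929143629) (nat_lit 9) (nat_lit 4) (nat_lit 10)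 (nat_lit 5) (nat_lit 10) (nat_lit 4) (nat_lit 324) (nat_lit 301) (nat_lit 155)) (XT.nd (nat_lit 78) (nat_lit 152) (nat_lit 0) (XT.lf (nat_lit 0) (nat_lit 8073247028027) (nat_lit 76) (nat_lit 2814125684772) (nat_lit 76) (nat_lit 48580544895) (nat_lit 9) (nat_lit 4) (nat_lit 10) (nat_lit 5) (nat_lit 10) (nat_lit 4) (nat_lit 325) (nat_lit 301) (nat_lit 154)) (XT.lf (nat_lit 0) (nat_lit 1459449412523) (nat_lit 76) (nat_lit 505664332979) (nat_lit 152) (nat_lit 10253838855194) (nat_lit 7) (nat_lit 5) (nat_lit 8) (nat_lit 5) (nat_lit 9) (nat_lit 4) (nat_lit 326) (nat_lit 301) (nat_lit 153)))))) (XT.nd (nat_lit 390) (nat_lit 152) (nat_lit 0) (XT.nd (nat_lit 156) (nat_lit 76) (nat_lit 0) (XT.nd (nat_lit 78) (nat_lit 0) (nat_lit 0) (XT.lf (nat_lit 0) (nat_lit 4521643951487) (nat_lit 152) (nat_lit 7018725475573) (nat_lit 0) (nat_lit 2116822090024) (nat_lit 7) (nat_lit 5) (nat_lit 9) (nat_lit 4)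 (nat_lit 7) (nat_lit 4) (nat_lit 327) (nat_lit 301) (nat_lit 152)) (XT.lf (nat_lit 0) (nat_lit 7485732941650) (nat_lit 152) (nat_lit 2740910361386) (nat_lit 0) (nat_lit 5080911079904) (nat_lit 7) (nat_lit 5) (nat_lit 9) (nat_lit 4) (nat_lit 7) (nat_lit 4) (nat_lit 328) (nat_lit 301) (nat_lit 151))) (XT.nd (nat_lit 78) (nat_lit 0) (nat_lit 0) (XT.lf (nat_lit 0) (nat_lit 2391483409223) (nat_lit 76) (nat_lit 8601978098656) (nat_lit 76) (nat_lit 6197156236663) (nat_lit 6) (nat_lit 4) (nat_lit 7) (nat_lit 5) (nat_lit 7) (nat_lit 4) (nat_lit 329) (nat_lit 301) (nat_lit 150)) (XT.nd (nat_lit 78) (nat_lit 0) (nat_lit 0) (XT.lf (nat_lit 0) (nat_lit 8601777192873) (nat_lit 76) (nat_lit 6568847025417) (nat_lit 76) (nat_lit 4164025163209) (nat_lit 6) (nat_lit 4) (nat_lit 7) (nat_lit 5) (nat_lit 7) (nat_lit 4) (nat_lit 330) (nat_lit 301) (nat_lit 149)) (XT.lf (nat_lit 0) (nat_lit 15743615043095)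 (nat_lit 76) (nat_lit 4230746291685) (nat_lit 76) (nat_lit 1825924429291) (nat_lit 6) (nat_lit 4) (nat_lit 7) (nat_lit 5) (nat_lit 7) (nat_lit 4) (nat_lit 331) (nat_lit 301) (nat_lit 148))))) (XT.nd (nat_lit 156) (nat_lit 0) (nat_lit 0) (XT.nd (nat_lit 78) (nat_lit 76) (nat_lit 0) (XT.lf (nat_lit 0) (nat_lit 786070853545) (nat_lit 152) (nat_lit 714769527433) (nat_lit 76) (nat_lit 23129567649113) (nat_lit 5) (nat_lit 5) (nat_lit 7) (nat_lit 5) (nat_lit 6) (nat_lit 4) (nat_lit 332) (nat_lit 301) (nat_lit 147)) (XT.lf (nat_lit 0) (nat_lit 3929270506502) (nat_lit 152) (nat_lit 22055663007520) (nat_lit 0) (nat_lit 1838121060679) (nat_lit 4) (nat_lit 5) (nat_lit 6) (nat_lit 4) (nat_lit 4) (nat_lit 4) (nat_lit 333) (nat_lit 301) (nat_lit 146))) (XT.nd (nat_lit 78) (nat_lit 0) (nat_lit 0) (XT.lf (nat_lit 0) (nat_lit 7654560837383) (nat_lit 152) (nat_lit 18260034262667) (nat_lit 0) (nat_lit 5563411391453)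 (nat_lit 4) (nat_lit 5) (nat_lit 6) (nat_lit 4) (nat_lit 4) (nat_lit 4) (nat_lit 334) (nat_lit 301) (nat_lit 145)) (XT.nd (nat_lit 78) (nat_lit 0) (nat_lit 0) (XT.lf (nat_lit 0) (nat_lit 11938644717568) (nat_lit 152) (nat_lit 13895061206764) (nat_lit 0) (nat_lit 9847495271546) (nat_lit 4) (nat_lit 5) (nat_lit 6) (nat_lit 4) (nat_lit 4) (nat_lit 4) (nat_lit 335) (nat_lit 301) (nat_lit 144)) (XT.lf (nat_lit 0) (nat_lit 16865341179495) (nat_lit 152) (nat_lit 8875342193064) (nat_lit 0) (nat_lit 14774191733392) (nat_lit 4) (nat_lit 5) (nat_lit 6) (nat_lit 4) (nat_lit 4) (nat_lit 4) (nat_lit 336) (nat_lit 301) (nat_lit 143))))))) (XT.nd (nat_lit 780) (nat_lit 608) (nat_lit 0) (XT.nd (nat_lit 390) (nat_lit 456) (nat_lit 0) (XT.nd (nat_lit 156) (nat_lit 0) (nat_lit 76) (XT.nd (nat_lit 78) (nat_lit 0) (nat_lit 0) (XT.lf (nat_lit 0) (nat_lit 147468895126) (nat_lit 380) (nat_lit 286230402996) (nat_lit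 380) (nat_lit 286230402996) (nat_lit 25) (nat_lit 3) (nat_lit 30) (nat_lit 3) (nat_lit 30) (nat_lit 5) (nat_lit 302) (nat_lit 302) (nat_lit 176)) (XT.lf (nat_lit 76) (nat_lit 125435184733) (nat_lit 0) (nat_lit 196816972143) (nat_lit 380) (nat_lit 1224817595600) (nat_lit 26) (nat_lit 5) (nat_lit 25) (nat_lit 3) (nat_lit 30) (nat_lit 5) (nat_lit 303) (nat_lit 302) (nat_lit 175))) (XT.nd (nat_lit 78) (nat_lit 0) (nat_lit 0) (XT.lf (nat_lit 0) (nat_lit 408795404633) (nat_lit 304) (nat_lit 698728327610) (nat_lit 380) (nat_lit 554568164100) (nat_lit 26) (nat_lit 5) (nat_lit 30) (nat_lit 5) (nat_lit 31) (nat_lit 5) (nat_lit 304) (nat_lit 302) (nat_lit 174)) (XT.nd (nat_lit 78) (nat_lit 0) (nat_lit 76) (XT.lf (nat_lit 76) (nat_lit 135285674429) (nat_lit 0) (nat_lit 388008588662) (nat_lit 380) (nat_lit 1268826980180) (nat_lit 27) (nat_lit 5) (nat_lit 26) (nat_lit 5) (nat_lit 31) (nat_lit 5) (nat_lit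 305) (nat_lit 302) (nat_lit 173)) (XT.lf (nat_lit 0) (nat_lit 711427658070) (nat_lit 304) (nat_lit 783182294820) (nat_lit 76) (nat_lit 438576083195) (nat_lit 27) (nat_lit 5) (nat_lit 31) (nat_lit 5) (nat_lit 28) (nat_lit 5) (nat_lit 306) (nat_lit 302) (nat_lit 172))))) (XT.nd (nat_lit 156) (nat_lit 304) (nat_lit 0) (XT.nd (nat_lit 78) (nat_lit 0) (nat_lit 0) (XT.lf (nat_lit 0) (nat_lit 222885144100) (nat_lit 304) (nat_lit 732601712657) (nat_lit 380) (nat_lit 1135767821905) (nat_lit 23) (nat_lit 5) (nat_lit 27) (nat_lit 5) (nat_lit 28) (nat_lit 5) (nat_lit 307) (nat_lit 302) (nat_lit 171)) (XT.lf (nat_lit 0) (nat_lit 1284994118320) (nat_lit 380) (nat_lit 806911163049) (nat_lit 76) (nat_lit 173802458803) (nat_lit 23) (nat_lit 5) (nat_lit 28) (nat_lit 5) (nat_lit 24) (nat_lit 5) (nat_lit 308) (nat_lit 302) (nat_lit 170))) (XT.nd (nat_lit 78) (nat_lit 152) (nat_lit 0) (XT.lf (nat_lit 0)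 (nat_lit 415907090203) (nat_lit 152) (nat_lit 1300127997652) (nat_lit 228) (nat_lit 742477530250) (nat_lit 21) (nat_lit 5) (nat_lit 23) (nat_lit 5) (nat_lit 24) (nat_lit 5) (nat_lit 309) (nat_lit 302) (nat_lit 169)) (XT.nd (nat_lit 78) (nat_lit 152) (nat_lit 0) (XT.lf (nat_lit 0) (nat_lit 1912833889628) (nat_lit 152) (nat_lit 341077757798) (nat_lit 228) (nat_lit 419999663617) (nat_lit 21) (nat_lit 5) (nat_lit 23) (nat_lit 5) (nat_lit 24) (nat_lit 5) (nat_lit 310) (nat_lit 302) (nat_lit 168)) (XT.lf (nat_lit 0) (nat_lit 20708458385) (nat_lit 152) (nat_lit 2165485618431) (nat_lit 76) (nat_lit 725908577527) (nat_lit 19) (nat_lit 5) (nat_lit 21) (nat_lit 5) (nat_lit 20) (nat_lit 5) (nat_lit 311) (nat_lit 302) (nat_lit 167)))))) (XT.nd (nat_lit 390) (nat_lit 380) (nat_lit 0) (XT.nd (nat_lit 156) (nat_lit 76) (nat_lit 0) (XT.nd (nat_lit 78) (nat_lit 152) (nat_lit 0) (XT.lf (nat_lit 0) (nat_lit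 542442678208) (nat_lit 152) (nat_lit 652191016524) (nat_lit 76) (nat_lit 1979701030049) (nat_lit 19) (nat_lit 5) (nat_lit 21) (nat_lit 5) (nat_lit 20) (nat_lit 5) (nat_lit 312) (nat_lit 302) (nat_lit 166)) (XT.lf (nat_lit 0) (nat_lit 1192001136053) (nat_lit 228) (nat_lit 2274153274179) (nat_lit 76) (nat_lit 2312579801) (nat_lit 17) (nat_lit 5) (nat_lit 20) (nat_lit 5) (nat_lit 18) (nat_lit 4) (nat_lit 313) (nat_lit 302) (nat_lit 165))) (XT.nd (nat_lit 78) (nat_lit 76) (nat_lit 0) (XT.lf (nat_lit 0) (nat_lit 2031595901913) (nat_lit 228) (nat_lit 469024530631) (nat_lit 76) (nat_lit 1292208281631) (nat_lit 17) (nat_lit 5) (nat_lit 20) (nat_lit 5) (nat_lit 18) (nat_lit 4) (nat_lit 314) (nat_lit 302) (nat_lit 164)) (XT.nd (nat_lit 78) (nat_lit 0) (nat_lit 0) (XT.lf (nat_lit 0) (nat_lit 1763908888872) (nat_lit 76) (nat_lit 1306260697765) (nat_lit 152) (nat_lit 1084719154706) (nat_lit 16) (nat_lit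 5) (nat_lit 17) (nat_lit 5) (nat_lit 18) (nat_lit 4) (nat_lit 315) (nat_lit 302) (nat_lit 163)) (XT.lf (nat_lit 0) (nat_lit 4292998802453) (nat_lit 152) (nat_lit 187038202190) (nat_lit 0) (nat_lit 86950346188) (nat_lit 16) (nat_lit 5) (nat_lit 18) (nat_lit 4) (nat_lit 16) (nat_lit 4) (nat_lit 316) (nat_lit 302) (nat_lit 162))))) (XT.nd (nat_lit 234) (nat_lit 152) (nat_lit 0) (XT.nd (nat_lit 78) (nat_lit 76) (nat_lit 0) (XT.lf (nat_lit 0) (nat_lit 773728983137) (nat_lit 152) (nat_lit 2542531144264) (nat_lit 76) (nat_lit 1694453231075) (nat_lit 14) (nat_lit 5) (nat_lit 16) (nat_lit 5) (nat_lit 15) (nat_lit 4) (nat_lit 317) (nat_lit 302) (nat_lit 161)) (XT.nd (nat_lit 78) (nat_lit 0) (nat_lit 0) (XT.lf (nat_lit 0) (nat_lit 10606099831) (nat_lit 76) (nat_lit 1950628578939) (nat_lit 152) (nat_lit 3556204266003) (nat_lit 13) (nat_lit 5) (nat_lit 14) (nat_lit 5) (nat_lit 15) (nat_lit 4) (nat_lit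 318) (nat_lit 302) (nat_lit 160)) (XT.lf (nat_lit 0) (nat_lit 3232459758127) (nat_lit 76) (nat_lit 227311506510) (nat_lit 152) (nat_lit 2620466348995) (nat_lit 13) (nat_lit 5) (nat_lit 14) (nat_lit 5) (nat_lit 15) (nat_lit 4) (nat_lit 319) (nat_lit 302) (nat_lit 159)))) (XT.nd (nat_lit 78) (nat_lit 76) (nat_lit 0) (XT.lf (nat_lit 0) (nat_lit 150921195849) (nat_lit 76) (nat_lit 5111066699332) (nat_lit 76) (nat_lit 1453633254122) (nat_lit 12) (nat_lit 4) (nat_lit 13) (nat_lit 5) (nat_lit 13) (nat_lit 4) (nat_lit 320) (nat_lit 302) (nat_lit 158)) (XT.nd (nat_lit 78) (nat_lit 0) (nat_lit 0) (XT.lf (nat_lit 0) (nat_lit 64949901875) (nat_lit 152) (nat_lit 3517791157044) (nat_lit 76) (nat_lit 3839249297861) (nat_lit 11) (nat_lit 5) (nat_lit 13) (nat_lit 5) (nat_lit 12) (nat_lit 4) (nat_lit 321) (nat_lit 302) (nat_lit 157)) (XT.lf (nat_lit 0) (nat_lit 1662496173378) (nat_lit 152) (nat_lit 83066674067)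 (nat_lit 76) (nat_lit 6478369003401) (nat_lit 11) (nat_lit 5) (nat_lit 13) (nat_lit 5) (nat_lit 12) (nat_lit 4) (nat_lit 322) (nat_lit 302) (nat_lit 156))))))))
noncomputable def xc114 : XT := (XT.nd (nat_lit 39546) (nat_lit 0) (nat_lit 228) (XT.nd (nat_lit 780) (nat_lit 152) (nat_lit 0) (XT.nd (nat_lit 390) (nat_lit 76) (nat_lit 0) (XT.nd (nat_lit 156) (nat_lit 228) (nat_lit 0) (XT.nd (nat_lit 78) (nat_lit 0) (nat_lit 0) (XT.lf (nat_lit 0) (nat_lit 3699015525458) (nat_lit 152) (nat_lit 4898609257986) (nat_lit 0) (nat_lit 518638614600) (nat_lit 10) (nat_lit 5) (nat_lit 12) (nat_lit 4) (nat_lit 10) (nat_lit 4) (nat_lit 323) (nat_lit 302) (nat_lit 155)) (XT.lf (nat_lit 0) (nat_lit 6128683709211) (nat_lit 152) (nat_lit 1052303530926) (nat_lit 0) (nat_lit 2948306797857) (nat_lit 10) (nat_lit 5) (nat_lit 12) (nat_lit 4) (nat_lit 10) (nat_lit 4) (nat_lit 324) (nat_lit 302) (nat_lit 154)))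 (XT.nd (nat_lit 78) (nat_lit 152) (nat_lit 0) (XT.lf (nat_lit 0) (nat_lit 3700381613665) (nat_lit 76) (nat_lit 5375645417714) (nat_lit 76) (nat_lit 2195268505929) (nat_lit 9) (nat_lit 4) (nat_lit 10) (nat_lit 5) (nat_lit 10) (nat_lit 4) (nat_lit 325) (nat_lit 302) (nat_lit 153)) (XT.nd (nat_lit 78) (nat_lit 152) (nat_lit 0) (XT.lf (nat_lit 0) (nat_lit 9284234095953) (nat_lit 76) (nat_lit 3236244530751) (nat_lit 76) (nat_lit 55867618591) (nat_lit 9) (nat_lit 4) (nat_lit 10) (nat_lit 5) (nat_lit 10) (nat_lit 4) (nat_lit 326) (nat_lit 302) (nat_lit 152)) (XT.lf (nat_lit 0) (nat_lit 1678366838187) (nat_lit 76) (nat_lit 581513976078) (nat_lit 152) (nat_lit 11791914675491) (nat_lit 7) (nat_lit 5) (nat_lit 8) (nat_lit 5) (nat_lit 9) (nat_lit 4) (nat_lit 327) (nat_lit 302) (nat_lit 151))))) (XT.nd (nat_lit 156) (nat_lit 76) (nat_lit 0) (XT.nd (nat_lit 78) (nat_lit 0) (nat_lit 0) (XT.lf (nat_lit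 0) (nat_lit 5199890550490) (nat_lit 152) (nat_lit 8071534284261) (nat_lit 0) (nat_lit 2434345408952) (nat_lit 7) (nat_lit 5) (nat_lit 9) (nat_lit 4) (nat_lit 7) (nat_lit 4) (nat_lit 328) (nat_lit 302) (nat_lit 150)) (XT.lf (nat_lit 0) (nat_lit 8608592888359) (nat_lit 152) (nat_lit 3152046904595) (nat_lit 0) (nat_lit 5843047746606) (nat_lit 7) (nat_lit 5) (nat_lit 9) (nat_lit 4) (nat_lit 7) (nat_lit 4) (nat_lit 329) (nat_lit 302) (nat_lit 149))) (XT.nd (nat_lit 78) (nat_lit 0) (nat_lit 0) (XT.lf (nat_lit 0) (nat_lit 2750205931106) (nat_lit 76) (nat_lit 9892274808139) (nat_lit 76) (nat_lit 7126729666200) (nat_lit 6) (nat_lit 4) (nat_lit 7) (nat_lit 5) (nat_lit 7) (nat_lit 4) (nat_lit 330) (nat_lit 302) (nat_lit 148)) (XT.nd (nat_lit 78) (nat_lit 0) (nat_lit 0) (XT.lf (nat_lit 0) (nat_lit 9892043780934) (nat_lit 76) (nat_lit 7554174074607) (nat_lit 76) (nat_lit 4788628932506) (nat_lit 6)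 (nat_lit 4) (nat_lit 7) (nat_lit 5) (nat_lit 7) (nat_lit 4) (nat_lit 331) (nat_lit 302) (nat_lit 147)) (XT.lf (nat_lit 0) (nat_lit 18105157307498) (nat_lit 76) (nat_lit 4865358231418) (nat_lit 76) (nat_lit 2099813089176) (nat_lit 6) (nat_lit 4) (nat_lit 7) (nat_lit 5) (nat_lit 7) (nat_lit 4) (nat_lit 332) (nat_lit 302) (nat_lit 146)))))) (XT.nd (nat_lit 38376) (nat_lit 0) (nat_lit 1444) (XT.nd (nat_lit 156) (nat_lit 0) (nat_lit 0) (XT.nd (nat_lit 78) (nat_lit 76) (nat_lit 0) (XT.lf (nat_lit 0) (nat_lit 903981485148) (nat_lit 152) (nat_lit 821984949294) (nat_lit 76) (nat_lit 26599002799625) (nat_lit 5) (nat_lit 5) (nat_lit 7) (nat_lit 5) (nat_lit 6) (nat_lit 4) (nat_lit 333) (nat_lit 302) (nat_lit 145)) (XT.lf (nat_lit 0) (nat_lit 4518661086016) (nat_lit 152) (nat_lit 25364012451360) (nat_lit 0) (nat_lit 2113839222998) (nat_lit 4) (nat_lit 5) (nat_lit 6) (nat_lit 4) (nat_lit 4) (nat_lit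 4) (nat_lit 334) (nat_lit 302) (nat_lit 144))) (XT.nd (nat_lit 78) (nat_lit 0) (nat_lit 0) (XT.lf (nat_lit 0) (nat_lit 8802744966068) (nat_lit 152) (nat_lit 20999039395730) (nat_lit 0) (nat_lit 6397923102969) (nat_lit 4) (nat_lit 5) (nat_lit 6) (nat_lit 4) (nat_lit 4) (nat_lit 4) (nat_lit 335) (nat_lit 302) (nat_lit 143)) (XT.nd (nat_lit 38064) (nat_lit 0) (nat_lit 1596) (XT.lf (nat_lit 0) (nat_lit 13729441427879) (nat_lit 152) (nat_lit 15979320382268) (nat_lit 0) (nat_lit 11324619564710) (nat_lit 4) (nat_lit 5) (nat_lit 6) (nat_lit 4) (nat_lit 4) (nat_lit 4) (nat_lit 336) (nat_lit 302) (nat_lit 142)) (XT.lf (nat_lit 0) (nat_lit 169589257047) (nat_lit 380) (nat_lit 329164947509) (nat_lit 380) (nat_lit 329164947509) (nat_lit 25) (nat_lit 3) (nat_lit 30) (nat_lit 3) (nat_lit 30) (nat_lit 5) (nat_lit 303) (nat_lit 303) (nat_lit 174))))) (XT.nd (nat_lit 156) (nat_lit 152) (nat_lit 0) (XT.nd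 (nat_lit 78) (nat_lit 0) (nat_lit 76) (XT.lf (nat_lit 76) (nat_lit 144250492868) (nat_lit 0) (nat_lit 226339536891) (nat_lit 380) (nat_lit 1408540178059) (nat_lit 26) (nat_lit 5) (nat_lit 25) (nat_lit 3) (nat_lit 30) (nat_lit 5) (nat_lit 304) (nat_lit 303) (nat_lit 173)) (XT.lf (nat_lit 0) (nat_lit 470114757561) (nat_lit 304) (nat_lit 803537543066) (nat_lit 380) (nat_lit 637753373722) (nat_lit 26) (nat_lit 5) (nat_lit 30) (nat_lit 5) (nat_lit 31) (nat_lit 5) (nat_lit 305) (nat_lit 303) (nat_lit 172))) (XT.nd (nat_lit 78) (nat_lit 228) (nat_lit 0) (XT.lf (nat_lit 76) (nat_lit 155578557748) (nat_lit 0) (nat_lit 446209882863) (nat_lit 380) (nat_lit 1459150983347) (nat_lit 27) (nat_lit 5) (nat_lit 26) (nat_lit 5) (nat_lit 31) (nat_lit 5) (nat_lit 306) (nat_lit 303) (nat_lit 171)) (XT.nd (nat_lit 78) (nat_lit 304) (nat_lit 0) (XT.lf (nat_lit 0) (nat_lit 818141839660) (nat_lit 304) (nat_lit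 900659605823) (nat_lit 76) (nat_lit 504362491000) (nat_lit 27) (nat_lit 5) (nat_lit 31) (nat_lit 5) (nat_lit 28) (nat_lit 5) (nat_lit 307) (nat_lit 303) (nat_lit 170)) (XT.lf (nat_lit 0) (nat_lit 256317947425) (nat_lit 304) (nat_lit 842491967750) (nat_lit 380) (nat_lit 1306132960729) (nat_lit 23) (nat_lit 5) (nat_lit 27) (nat_lit 5) (nat_lit 28) (nat_lit 5) (nat_lit 308) (nat_lit 303) (nat_lit 169))))))) (XT.nd (nat_lit 780) (nat_lit 532) (nat_lit 0) (XT.nd (nat_lit 390) (nat_lit 380) (nat_lit 0) (XT.nd (nat_lit 156) (nat_lit 152) (nat_lit 0) (XT.nd (nat_lit 78) (nat_lit 152) (nat_lit 0) (XT.lf (nat_lit 0) (nat_lit 1477743262137) (nat_lit 380) (nat_lit 927947806034) (nat_lit 76) (nat_lit 199872829054) (nat_lit 23) (nat_lit 5) (nat_lit 28) (nat_lit 5) (nat_lit 24) (nat_lit 5) (nat_lit 309) (nat_lit 303) (nat_lit 168)) (XT.lf (nat_lit 0) (nat_lit 478293183775) (nat_lit 152) (nat_lit 1495147191170)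 (nat_lit 228) (nat_lit 853849132234) (nat_lit 21) (nat_lit 5) (nat_lit 23) (nat_lit 5) (nat_lit 24) (nat_lit 5) (nat_lit 310) (nat_lit 303) (nat_lit 167))) (XT.nd (nat_lit 78) (nat_lit 152) (nat_lit 0) (XT.lf (nat_lit 0) (nat_lit 2199758999195) (nat_lit 152) (nat_lit 392239416137) (nat_lit 228) (nat_lit 482999589200) (nat_lit 21) (nat_lit 5) (nat_lit 23) (nat_lit 5) (nat_lit 24) (nat_lit 5) (nat_lit 311) (nat_lit 303) (nat_lit 166)) (XT.nd (nat_lit 78) (nat_lit 0) (nat_lit 0) (XT.lf (nat_lit 0) (nat_lit 23814747527) (nat_lit 152) (nat_lit 2490308431419) (nat_lit 76) (nat_lit 834794870454) (nat_lit 19) (nat_lit 5) (nat_lit 21) (nat_lit 5) (nat_lit 20) (nat_lit 5) (nat_lit 312) (nat_lit 303) (nat_lit 165)) (XT.lf (nat_lit 0) (nat_lit 623809097665) (nat_lit 152) (nat_lit 750019643110) (nat_lit 76) (nat_lit 2276656190033) (nat_lit 19) (nat_lit 5) (nat_lit 21) (nat_lit 5) (nat_lit 20) (nat_lit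 5) (nat_lit 313) (nat_lit 303) (nat_lit 164))))) (XT.nd (nat_lit 156) (nat_lit 228) (nat_lit 0) (XT.nd (nat_lit 78) (nat_lit 0) (nat_lit 0) (XT.lf (nat_lit 0) (nat_lit 1370801323241) (nat_lit 228) (nat_lit 2615276238440) (nat_lit 76) (nat_lit 2659474313) (nat_lit 17) (nat_lit 5) (nat_lit 20) (nat_lit 5) (nat_lit 18) (nat_lit 4) (nat_lit 314) (nat_lit 303) (nat_lit 163)) (XT.lf (nat_lit 0) (nat_lit 2336335301791) (nat_lit 228) (nat_lit 539378186864) (nat_lit 76) (nat_lit 1486039530434) (nat_lit 17) (nat_lit 5) (nat_lit 20) (nat_lit 5) (nat_lit 18) (nat_lit 4) (nat_lit 315) (nat_lit 303) (nat_lit 162))) (XT.nd (nat_lit 78) (nat_lit 152) (nat_lit 0) (XT.lf (nat_lit 0) (nat_lit 2028495244502) (nat_lit 76) (nat_lit 1502199793741) (nat_lit 152) (nat_lit 1247427012238) (nat_lit 16) (nat_lit 5) (nat_lit 17) (nat_lit 5) (nat_lit 18) (nat_lit 4) (nat_lit 316) (nat_lit 303) (nat_lit 161)) (XT.nd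 (nat_lit 78) (nat_lit 152) (nat_lit 0) (XT.lf (nat_lit 0) (nat_lit 4936948634970) (nat_lit 152) (nat_lit 215093911646) (nat_lit 0) (nat_lit 99992904998) (nat_lit 16) (nat_lit 5) (nat_lit 18) (nat_lit 4) (nat_lit 16) (nat_lit 4) (nat_lit 317) (nat_lit 303) (nat_lit 160)) (XT.lf (nat_lit 0) (nat_lit 889788342553) (nat_lit 152) (nat_lit 2923910794800) (nat_lit 76) (nat_lit 1948621223089) (nat_lit 14) (nat_lit 5) (nat_lit 16) (nat_lit 5) (nat_lit 15) (nat_lit 4) (nat_lit 318) (nat_lit 303) (nat_lit 159)))))) (XT.nd (nat_lit 390) (nat_lit 304) (nat_lit 0) (XT.nd (nat_lit 156) (nat_lit 152) (nat_lit 0) (XT.nd (nat_lit 78) (nat_lit 0) (nat_lit 0) (XT.lf (nat_lit 0) (nat_lit 12197034951) (nat_lit 76) (nat_lit 2243222856857) (nat_lit 152) (nat_lit 4089634892986) (nat_lit 13) (nat_lit 5) (nat_lit 14) (nat_lit 5) (nat_lit 15) (nat_lit 4) (nat_lit 319) (nat_lit 303) (nat_lit 158)) (XT.lf (nat_lit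 0) (nat_lit 3717328739363) (nat_lit 76) (nat_lit 261408224728) (nat_lit 152) (nat_lit 3013536290113) (nat_lit 13) (nat_lit 5) (nat_lit 14) (nat_lit 5) (nat_lit 15) (nat_lit 4) (nat_lit 320) (nat_lit 303) (nat_lit 157))) (XT.nd (nat_lit 78) (nat_lit 76) (nat_lit 0) (XT.lf (nat_lit 0) (nat_lit 173559393047) (nat_lit 76) (nat_lit 5877726695913) (nat_lit 76) (nat_lit 1671678231304) (nat_lit 12) (nat_lit 4) (nat_lit 13) (nat_lit 5) (nat_lit 13) (nat_lit 4) (nat_lit 321) (nat_lit 303) (nat_lit 156)) (XT.nd (nat_lit 78) (nat_lit 0) (nat_lit 0) (XT.lf (nat_lit 0) (nat_lit 74692395820) (nat_lit 152) (nat_lit 4045459814250) (nat_lit 76) (nat_lit 4415136698920) (nat_lit 11) (nat_lit 5) (nat_lit 13) (nat_lit 5) (nat_lit 12) (nat_lit 4) (nat_lit 322) (nat_lit 303) (nat_lit 155)) (XT.lf (nat_lit 0) (nat_lit 1911870606918) (nat_lit 152) (nat_lit 95526660959) (nat_lit 76) (nat_lit 7450124359459) (nat_lit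 11) (nat_lit 5) (nat_lit 13) (nat_lit 5) (nat_lit 12) (nat_lit 4) (nat_lit 323) (nat_lit 303) (nat_lit 154))))) (XT.nd (nat_lit 156) (nat_lit 228) (nat_lit 0) (XT.nd (nat_lit 78) (nat_lit 0) (nat_lit 0) (XT.lf (nat_lit 0) (nat_lit 4253867861657) (nat_lit 152) (nat_lit 5633400632308) (nat_lit 0) (nat_lit 596434412673) (nat_lit 10) (nat_lit 5) (nat_lit 12) (nat_lit 4) (nat_lit 10) (nat_lit 4) (nat_lit 324) (nat_lit 303) (nat_lit 153)) (XT.lf (nat_lit 0) (nat_lit 7047986272010) (nat_lit 152) (nat_lit 1210149048065) (nat_lit 0) (nat_lit 3390552822651) (nat_lit 10) (nat_lit 5) (nat_lit 12) (nat_lit 4) (nat_lit 10) (nat_lit 4) (nat_lit 325) (nat_lit 303) (nat_lit 152))) (XT.nd (nat_lit 78) (nat_lit 152) (nat_lit 0) (XT.lf (nat_lit 0) (nat_lit 4255438867647) (nat_lit 76) (nat_lit 6181992224514) (nat_lit 76) (nat_lit 2524558774829) (nat_lit 9) (nat_lit 4) (nat_lit 10) (nat_lit 5) (nat_lit 10)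 (nat_lit 4) (nat_lit 326) (nat_lit 303) (nat_lit 151)) (XT.nd (nat_lit 78) (nat_lit 152) (nat_lit 0) (XT.lf (nat_lit 0) (nat_lit 10676869220723) (nat_lit 76) (nat_lit 3721681205270) (nat_lit 76) (nat_lit 64247755302) (nat_lit 9) (nat_lit 4) (nat_lit 10) (nat_lit 5) (nat_lit 10) (nat_lit 4) (nat_lit 327) (nat_lit 303) (nat_lit 150)) (XT.lf (nat_lit 0) (nat_lit 1930121874339) (nat_lit 76) (nat_lit 668741067313) (nat_lit 152) (nat_lit 13560701870779) (nat_lit 7) (nat_lit 5) (nat_lit 8) (nat_lit 5) (nat_lit 9) (nat_lit 4) (nat_lit 328) (nat_lit 303) (nat_lit 149))))))))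
noncomputable def xc115 : XT := (XT.nd (nat_lit 39546) (nat_lit 0) (nat_lit 76) (XT.nd (nat_lit 38766) (nat_lit 0) (nat_lit 1140) (XT.nd (nat_lit 390) (nat_lit 152) (nat_lit 0) (XT.nd (nat_lit 156) (nat_lit 76) (nat_lit 0) (XT.nd (nat_lit 78) (nat_lit 0) (nat_lit 0) (XT.lf (nat_lit 0) (nat_lit 5979874137812) (nat_lit 152) (nat_lit 9282264417336) (nat_lit 0) (nat_lit 2799497224396) (nat_lit 7) (nat_lit 5) (nat_lit 9) (nat_lit 4) (nat_lit 7) (nat_lit 4) (nat_lit 329) (nat_lit 303) (nat_lit 148)) (XT.lf (nat_lit 0) (nat_lit 9899881825742) (nat_lit 152) (nat_lit 3624853931967) (nat_lit 0) (nat_lit 6719504912163) (nat_lit 7) (nat_lit 5) (nat_lit 9) (nat_lit 4) (nat_lit 7) (nat_lit 4) (nat_lit 330) (nat_lit 303) (nat_lit 147))) (XT.nd (nat_lit 78) (nat_lit 0) (nat_lit 0) (XT.lf (nat_lit 0) (nat_lit 3162736828710) (nat_lit 76) (nat_lit 11376116025341) (nat_lit 76) (nat_lit 8195739111621) (nat_lit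 6) (nat_lit 4) (nat_lit 7) (nat_lit 5) (nat_lit 7) (nat_lit 4) (nat_lit 331) (nat_lit 303) (nat_lit 146)) (XT.nd (nat_lit 78) (nat_lit 0) (nat_lit 0) (XT.lf (nat_lit 0) (nat_lit 11375850354977) (nat_lit 76) (nat_lit 8687300182303) (nat_lit 76) (nat_lit 5506923268461) (nat_lit 6) (nat_lit 4) (nat_lit 7) (nat_lit 5) (nat_lit 7) (nat_lit 4) (nat_lit 332) (nat_lit 303) (nat_lit 145)) (XT.lf (nat_lit 0) (nat_lit 20820930909626) (nat_lit 76) (nat_lit 5595161963092) (nat_lit 76) (nat_lit 2414785049143) (nat_lit 6) (nat_lit 4) (nat_lit 7) (nat_lit 5) (nat_lit 7) (nat_lit 4) (nat_lit 333) (nat_lit 303) (nat_lit 144))))) (XT.nd (nat_lit 156) (nat_lit 0) (nat_lit 0) (XT.nd (nat_lit 78) (nat_lit 76) (nat_lit 0) (XT.lf (nat_lit 0) (nat_lit 1039578710621) (nat_lit 152) (nat_lit 945282686204) (nat_lit 76) (nat_lit 30588853221947) (nat_lit 5) (nat_lit 5) (nat_lit 7) (nat_lit 5) (nat_lit 6) (nat_lit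 4) (nat_lit 334) (nat_lit 303) (nat_lit 143)) (XT.lf (nat_lit 0) (nat_lit 5196460251594) (nat_lit 152) (nat_lit 29168614313554) (nat_lit 0) (nat_lit 2430915108880) (nat_lit 4) (nat_lit 5) (nat_lit 6) (nat_lit 4) (nat_lit 4) (nat_lit 4) (nat_lit 335) (nat_lit 303) (nat_lit 142))) (XT.nd (nat_lit 78) (nat_lit 0) (nat_lit 0) (XT.lf (nat_lit 0) (nat_lit 10123156713305) (nat_lit 152) (nat_lit 24148895300298) (nat_lit 0) (nat_lit 7357611570530) (nat_lit 4) (nat_lit 5) (nat_lit 6) (nat_lit 4) (nat_lit 4) (nat_lit 4) (nat_lit 336) (nat_lit 303) (nat_lit 141)) (XT.nd (nat_lit 38064) (nat_lit 0) (nat_lit 1596) (XT.lf (nat_lit 0) (nat_lit 15788857644084) (nat_lit 152) (nat_lit 18376218435442) (nat_lit 0) (nat_lit 13023312501256) (nat_lit 4) (nat_lit 5) (nat_lit 6) (nat_lit 4) (nat_lit 4) (nat_lit 4) (nat_lit 337) (nat_lit 303) (nat_lit 140)) (XT.lf (nat_lit 0) (nat_lit 195027666514) (nat_lit 380)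 (nat_lit 378539677585) (nat_lit 380) (nat_lit 378539677585) (nat_lit 25) (nat_lit 3) (nat_lit 30) (nat_lit 3) (nat_lit 30) (nat_lit 5) (nat_lit 304) (nat_lit 304) (nat_lit 172)))))) (XT.nd (nat_lit 390) (nat_lit 304) (nat_lit 0) (XT.nd (nat_lit 156) (nat_lit 152) (nat_lit 0) (XT.nd (nat_lit 78) (nat_lit 0) (nat_lit 76) (XT.lf (nat_lit 76) (nat_lit 165888089804) (nat_lit 0) (nat_lit 260290481736) (nat_lit 380) (nat_lit 1619821161757) (nat_lit 26) (nat_lit 5) (nat_lit 25) (nat_lit 3) (nat_lit 30) (nat_lit 5) (nat_lit 305) (nat_lit 304) (nat_lit 171)) (XT.lf (nat_lit 0) (nat_lit 540632003129) (nat_lit 304) (nat_lit 924068149055) (nat_lit 380) (nat_lit 733416368444) (nat_lit 26) (nat_lit 5) (nat_lit 30) (nat_lit 5) (nat_lit 31) (nat_lit 5) (nat_lit 306) (nat_lit 304) (nat_lit 170))) (XT.nd (nat_lit 78) (nat_lit 228) (nat_lit 0) (XT.lf (nat_lit 76) (nat_lit 178915365723) (nat_lit 0) (nat_lit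 513141369754) (nat_lit 380) (nat_lit 1678023597684) (nat_lit 27) (nat_lit 5) (nat_lit 26) (nat_lit 5) (nat_lit 31) (nat_lit 5) (nat_lit 307) (nat_lit 304) (nat_lit 169)) (XT.nd (nat_lit 78) (nat_lit 304) (nat_lit 0) (XT.lf (nat_lit 0) (nat_lit 940863140471) (nat_lit 304) (nat_lit 1035758521578) (nat_lit 76) (nat_lit 580016861115) (nat_lit 27) (nat_lit 5) (nat_lit 31) (nat_lit 5) (nat_lit 28) (nat_lit 5) (nat_lit 308) (nat_lit 304) (nat_lit 168)) (XT.lf (nat_lit 0) (nat_lit 294765663516) (nat_lit 304) (nat_lit 968865761546) (nat_lit 380) (nat_lit 1502052878780) (nat_lit 23) (nat_lit 5) (nat_lit 27) (nat_lit 5) (nat_lit 28) (nat_lit 5) (nat_lit 309) (nat_lit 304) (nat_lit 167))))) (XT.nd (nat_lit 156) (nat_lit 152) (nat_lit 0) (XT.nd (nat_lit 78) (nat_lit 152) (nat_lit 0) (XT.lf (nat_lit 0) (nat_lit 1699404771169) (nat_lit 380) (nat_lit 1067139953141) (nat_lit 76) (nat_lit 229853754494)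 (nat_lit 23) (nat_lit 5) (nat_lit 28) (nat_lit 5) (nat_lit 24) (nat_lit 5) (nat_lit 310) (nat_lit 304) (nat_lit 166)) (XT.lf (nat_lit 0) (nat_lit 550037184058) (nat_lit 152) (nat_lit 1719419265210) (nat_lit 228) (nat_lit 981926481234) (nat_lit 21) (nat_lit 5) (nat_lit 23) (nat_lit 5) (nat_lit 24) (nat_lit 5) (nat_lit 311) (nat_lit 304) (nat_lit 165))) (XT.nd (nat_lit 78) (nat_lit 152) (nat_lit 0) (XT.lf (nat_lit 0) (nat_lit 2529722868828) (nat_lit 152) (nat_lit 451075324527) (nat_lit 228) (nat_lit 555449509463) (nat_lit 21) (nat_lit 5) (nat_lit 23) (nat_lit 5) (nat_lit 24) (nat_lit 5) (nat_lit 312) (nat_lit 304) (nat_lit 164)) (XT.nd (nat_lit 78) (nat_lit 0) (nat_lit 0) (XT.lf (nat_lit 0) (nat_lit 27386975070) (nat_lit 152) (nat_lit 2863854673616) (nat_lit 76) (nat_lit 960014105785) (nat_lit 19) (nat_lit 5) (nat_lit 21) (nat_lit 5) (nat_lit 20) (nat_lit 5) (nat_lit 313) (nat_lit 304)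 (nat_lit 163)) (XT.lf (nat_lit 0) (nat_lit 717380475718) (nat_lit 152) (nat_lit 862522569998) (nat_lit 76) (nat_lit 2618154622680) (nat_lit 19) (nat_lit 5) (nat_lit 21) (nat_lit 5) (nat_lit 20) (nat_lit 5) (nat_lit 314) (nat_lit 304) (nat_lit 162))))))) (XT.nd (nat_lit 780) (nat_lit 456) (nat_lit 0) (XT.nd (nat_lit 390) (nat_lit 228) (nat_lit 0) (XT.nd (nat_lit 156) (nat_lit 228) (nat_lit 0) (XT.nd (nat_lit 78) (nat_lit 0) (nat_lit 0) (XT.lf (nat_lit 0) (nat_lit 1576421534415) (nat_lit 228) (nat_lit 3007567653892) (nat_lit 76) (nat_lit 3058401162) (nat_lit 17) (nat_lit 5) (nat_lit 20) (nat_lit 5) (nat_lit 18) (nat_lit 4) (nat_lit 315) (nat_lit 304) (nat_lit 161)) (XT.lf (nat_lit 0) (nat_lit 2686785608093) (nat_lit 228) (nat_lit 620284897229) (nat_lit 76) (nat_lit 1708945464957) (nat_lit 17) (nat_lit 5) (nat_lit 20) (nat_lit 5) (nat_lit 18) (nat_lit 4) (nat_lit 316) (nat_lit 304) (nat_lit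 160))) (XT.nd (nat_lit 78) (nat_lit 152) (nat_lit 0) (XT.lf (nat_lit 0) (nat_lit 2332769548040) (nat_lit 76) (nat_lit 1727529756233) (nat_lit 152) (nat_lit 1434541052222) (nat_lit 16) (nat_lit 5) (nat_lit 17) (nat_lit 5) (nat_lit 18) (nat_lit 4) (nat_lit 317) (nat_lit 304) (nat_lit 159)) (XT.nd (nat_lit 78) (nat_lit 152) (nat_lit 0) (XT.lf (nat_lit 0) (nat_lit 5677490939401) (nat_lit 152) (nat_lit 247357982612) (nat_lit 0) (nat_lit 114991845952) (nat_lit 16) (nat_lit 5) (nat_lit 18) (nat_lit 4) (nat_lit 16) (nat_lit 4) (nat_lit 318) (nat_lit 304) (nat_lit 158)) (XT.lf (nat_lit 0) (nat_lit 1023256602969) (nat_lit 152) (nat_lit 3362497398062) (nat_lit 76) (nat_lit 2240914412113) (nat_lit 14) (nat_lit 5) (nat_lit 16) (nat_lit 5) (nat_lit 15) (nat_lit 4) (nat_lit 319) (nat_lit 304) (nat_lit 157))))) (XT.nd (nat_lit 156) (nat_lit 152) (nat_lit 0) (XT.nd (nat_lit 78) (nat_lit 0) (nat_lit 0)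 (XT.lf (nat_lit 0) (nat_lit 14026605426) (nat_lit 76) (nat_lit 2579706278638) (nat_lit 152) (nat_lit 4703080117168) (nat_lit 13) (nat_lit 5) (nat_lit 14) (nat_lit 5) (nat_lit 15) (nat_lit 4) (nat_lit 320) (nat_lit 304) (nat_lit 156)) (XT.lf (nat_lit 0) (nat_lit 4274928063513) (nat_lit 76) (nat_lit 300619452570) (nat_lit 152) (nat_lit 3465566725137) (nat_lit 13) (nat_lit 5) (nat_lit 14) (nat_lit 5) (nat_lit 15) (nat_lit 4) (nat_lit 321) (nat_lit 304) (nat_lit 155))) (XT.nd (nat_lit 78) (nat_lit 76) (nat_lit 0) (XT.lf (nat_lit 0) (nat_lit 199593315480) (nat_lit 76) (nat_lit 6759385694010) (nat_lit 76) (nat_lit 1922429957729) (nat_lit 12) (nat_lit 4) (nat_lit 13) (nat_lit 5) (nat_lit 13) (nat_lit 4) (nat_lit 322) (nat_lit 304) (nat_lit 154)) (XT.nd (nat_lit 78) (nat_lit 0) (nat_lit 0) (XT.lf (nat_lit 0) (nat_lit 85896261744) (nat_lit 152) (nat_lit 4652278774025) (nat_lit 76) (nat_lit 5077407208582)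 (nat_lit 11) (nat_lit 5) (nat_lit 13) (nat_lit 5) (nat_lit 12) (nat_lit 4) (nat_lit 323) (nat_lit 304) (nat_lit 153)) (XT.lf (nat_lit 0) (nat_lit 2198651203653) (nat_lit 152) (nat_lit 109855649353) (nat_lit 76) (nat_lit 8567643017573) (nat_lit 11) (nat_lit 5) (nat_lit 13) (nat_lit 5) (nat_lit 12) (nat_lit 4) (nat_lit 324) (nat_lit 304) (nat_lit 152)))))) (XT.nd (nat_lit 390) (nat_lit 152) (nat_lit 0) (XT.nd (nat_lit 156) (nat_lit 228) (nat_lit 0) (XT.nd (nat_lit 78) (nat_lit 0) (nat_lit 0) (XT.lf (nat_lit 0) (nat_lit 4891948046486) (nat_lit 152) (nat_lit 6478410716284) (nat_lit 0) (nat_lit 685899579023) (nat_lit 10) (nat_lit 5) (nat_lit 12) (nat_lit 4) (nat_lit 10) (nat_lit 4) (nat_lit 325) (nat_lit 304) (nat_lit 151)) (XT.lf (nat_lit 0) (nat_lit 8105184217664) (nat_lit 152) (nat_lit 1391671395822) (nat_lit 0) (nat_lit 3899135749917) (nat_lit 10) (nat_lit 5) (nat_lit 12) (nat_lit 4)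 (nat_lit 10) (nat_lit 4) (nat_lit 326) (nat_lit 304) (nat_lit 150))) (XT.nd (nat_lit 78) (nat_lit 152) (nat_lit 0) (XT.lf (nat_lit 0) (nat_lit 4893754706817) (nat_lit 76) (nat_lit 7109291053761) (nat_lit 76) (nat_lit 2903242585768) (nat_lit 9) (nat_lit 4) (nat_lit 10) (nat_lit 5) (nat_lit 10) (nat_lit 4) (nat_lit 327) (nat_lit 304) (nat_lit 149)) (XT.nd (nat_lit 78) (nat_lit 152) (nat_lit 0) (XT.lf (nat_lit 0) (nat_lit 12278399611677) (nat_lit 76) (nat_lit 4279933382209) (nat_lit 76) (nat_lit 73884914001) (nat_lit 9) (nat_lit 4) (nat_lit 10) (nat_lit 5) (nat_lit 10) (nat_lit 4) (nat_lit 328) (nat_lit 304) (nat_lit 148)) (XT.lf (nat_lit 0) (nat_lit 2219640163372) (nat_lit 76) (nat_lit 769052223495) (nat_lit 152) (nat_lit 15594807146832) (nat_lit 7) (nat_lit 5) (nat_lit 8) (nat_lit 5) (nat_lit 9) (nat_lit 4) (nat_lit 329) (nat_lit 304) (nat_lit 147))))) (XT.nd (nat_lit 234) (nat_lit 76)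 (nat_lit 0) (XT.nd (nat_lit 78) (nat_lit 76) (nat_lit 0) (XT.lf (nat_lit 0) (nat_lit 6876855262075) (nat_lit 152) (nat_lit 10674604072704) (nat_lit 0) (nat_lit 3219421811157) (nat_lit 7) (nat_lit 5) (nat_lit 9) (nat_lit 4) (nat_lit 7) (nat_lit 4) (nat_lit 330) (nat_lit 304) (nat_lit 146)) (XT.nd (nat_lit 78) (nat_lit 76) (nat_lit 0) (XT.lf (nat_lit 0) (nat_lit 11384864102725) (nat_lit 152) (nat_lit 4168582015474) (nat_lit 0) (nat_lit 7727430651685) (nat_lit 7) (nat_lit 5) (nat_lit 9) (nat_lit 4) (nat_lit 7) (nat_lit 4) (nat_lit 331) (nat_lit 304) (nat_lit 145)) (XT.lf (nat_lit 0) (nat_lit 3637147359020) (nat_lit 76) (nat_lit 13082533426102) (nat_lit 76) (nat_lit 9425099974955) (nat_lit 6) (nat_lit 4) (nat_lit 7) (nat_lit 5) (nat_lit 7) (nat_lit 4) (nat_lit 332) (nat_lit 304) (nat_lit 144)))) (XT.nd (nat_lit 78) (nat_lit 76) (nat_lit 0) (XT.lf (nat_lit 0) (nat_lit 13082227913444) (nat_lit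 76) (nat_lit 9990395207006) (nat_lit 76) (nat_lit 6332961755766) (nat_lit 6) (nat_lit 4) (nat_lit 7) (nat_lit 5) (nat_lit 7) (nat_lit 4) (nat_lit 333) (nat_lit 304) (nat_lit 143)) (XT.nd (nat_lit 78) (nat_lit 76) (nat_lit 0) (XT.lf (nat_lit 0) (nat_lit 23944070550609) (nat_lit 76) (nat_lit 6434436255258) (nat_lit 76) (nat_lit 2777002803937) (nat_lit 6) (nat_lit 4) (nat_lit 7) (nat_lit 5) (nat_lit 7) (nat_lit 4) (nat_lit 334) (nat_lit 304) (nat_lit 142)) (XT.lf (nat_lit 0) (nat_lit 1195515519257) (nat_lit 152) (nat_lit 1087075084987) (nat_lit 76) (nat_lit 35177181207037) (nat_lit 5) (nat_lit 5) (nat_lit 7) (nat_lit 5) (nat_lit 6) (nat_lit 4) (nat_lit 335) (nat_lit 304) (nat_lit 141))))))))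
noncomputable def xc116 : XT := (XT.nd (nat_lit 39624) (nat_lit 228) (nat_lit 0) (XT.nd (nat_lit 38844) (nat_lit 0) (nat_lit 684) (XT.nd (nat_lit 38454) (nat_lit 0) (nat_lit 1292) (XT.nd (nat_lit 38220) (nat_lit 0) (nat_lit 1596) (XT.nd (nat_lit 78) (nat_lit 0) (nat_lit 0) (XT.lf (nat_lit 0) (nat_lit 5975929291357) (nat_lit 152) (nat_lit 33543906456420) (nat_lit 0) (nat_lit 2795552377051) (nat_lit 4) (nat_lit 5) (nat_lit 6) (nat_lit 4) (nat_lit 4) (nat_lit 4) (nat_lit 336) (nat_lit 304) (nat_lit 140)) (XT.lf (nat_lit 0) (nat_lit 11641630222060) (nat_lit 152) (nat_lit 27771229591720) (nat_lit 0) (nat_lit 8461253307708) (nat_lit 4) (nat_lit 5) (nat_lit 6) (nat_lit 4) (nat_lit 4) (nat_lit 4) (nat_lit 337) (nat_lit 304) (nat_lit 139))) (XT.nd (nat_lit 78) (nat_lit 0) (nat_lit 0) (XT.lf (nat_lit 0) (nat_lit 224281832301) (nat_lit 380) (nat_lit 435320620111) (nat_lit 380) (nat_lit 435320620111)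 (nat_lit 25) (nat_lit 3) (nat_lit 30) (nat_lit 3) (nat_lit 30) (nat_lit 5) (nat_lit 305) (nat_lit 305) (nat_lit 170)) (XT.nd (nat_lit 78) (nat_lit 0) (nat_lit 76) (XT.lf (nat_lit 76) (nat_lit 190771320670) (nat_lit 0) (nat_lit 299334064818) (nat_lit 380) (nat_lit 1862794303499) (nat_lit 26) (nat_lit 5) (nat_lit 25) (nat_lit 3) (nat_lit 30) (nat_lit 5) (nat_lit 306) (nat_lit 305) (nat_lit 169)) (XT.lf (nat_lit 0) (nat_lit 621726827745) (nat_lit 304) (nat_lit 1062678352154) (nat_lit 380) (nat_lit 843428815138) (nat_lit 26) (nat_lit 5) (nat_lit 30) (nat_lit 5) (nat_lit 31) (nat_lit 5) (nat_lit 307) (nat_lit 305) (nat_lit 168))))) (XT.nd (nat_lit 156) (nat_lit 380) (nat_lit 0) (XT.nd (nat_lit 78) (nat_lit 0) (nat_lit 76) (XT.lf (nat_lit 76) (nat_lit 205752688966) (nat_lit 0) (nat_lit 590112578591) (nat_lit 380) (nat_lit 1929727112260) (nat_lit 27) (nat_lit 5) (nat_lit 26) (nat_lit 5) (nat_lit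 31) (nat_lit 5) (nat_lit 308) (nat_lit 305) (nat_lit 167)) (XT.lf (nat_lit 0) (nat_lit 1081992630340) (nat_lit 304) (nat_lit 1191122280821) (nat_lit 76) (nat_lit 667019387610) (nat_lit 27) (nat_lit 5) (nat_lit 31) (nat_lit 5) (nat_lit 28) (nat_lit 5) (nat_lit 309) (nat_lit 305) (nat_lit 166))) (XT.nd (nat_lit 78) (nat_lit 152) (nat_lit 0) (XT.lf (nat_lit 0) (nat_lit 338980531174) (nat_lit 304) (nat_lit 1114195624745) (nat_lit 380) (nat_lit 1727360790893) (nat_lit 23) (nat_lit 5) (nat_lit 27) (nat_lit 5) (nat_lit 28) (nat_lit 5) (nat_lit 310) (nat_lit 305) (nat_lit 165)) (XT.nd (nat_lit 78) (nat_lit 152) (nat_lit 0) (XT.lf (nat_lit 0) (nat_lit 1954315501749) (nat_lit 380) (nat_lit 1227210928118) (nat_lit 76) (nat_lit 264331818486) (nat_lit 23) (nat_lit 5) (nat_lit 28) (nat_lit 5) (nat_lit 24) (nat_lit 5) (nat_lit 311) (nat_lit 305) (nat_lit 164)) (XT.lf (nat_lit 0) (nat_lit 632542778843)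 (nat_lit 152) (nat_lit 1977332151487) (nat_lit 228) (nat_lit 1129215437666) (nat_lit 21) (nat_lit 5) (nat_lit 23) (nat_lit 5) (nat_lit 24) (nat_lit 5) (nat_lit 312) (nat_lit 305) (nat_lit 163)))))) (XT.nd (nat_lit 390) (nat_lit 304) (nat_lit 0) (XT.nd (nat_lit 156) (nat_lit 152) (nat_lit 0) (XT.nd (nat_lit 78) (nat_lit 152) (nat_lit 0) (XT.lf (nat_lit 0) (nat_lit 2909181314089) (nat_lit 152) (nat_lit 518736620158) (nat_lit 228) (nat_lit 638766922183) (nat_lit 21) (nat_lit 5) (nat_lit 23) (nat_lit 5) (nat_lit 24) (nat_lit 5) (nat_lit 313) (nat_lit 305) (nat_lit 162)) (XT.lf (nat_lit 0) (nat_lit 31495032985) (nat_lit 152) (nat_lit 3293432857634) (nat_lit 76) (nat_lit 1104016225254) (nat_lit 19) (nat_lit 5) (nat_lit 21) (nat_lit 5) (nat_lit 20) (nat_lit 5) (nat_lit 314) (nat_lit 305) (nat_lit 161))) (XT.nd (nat_lit 78) (nat_lit 152) (nat_lit 0) (XT.lf (nat_lit 0) (nat_lit 824987557211)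 (nat_lit 152) (nat_lit 991900940694) (nat_lit 76) (nat_lit 3010877819213) (nat_lit 19) (nat_lit 5) (nat_lit 21) (nat_lit 5) (nat_lit 20) (nat_lit 5) (nat_lit 315) (nat_lit 305) (nat_lit 160)) (XT.nd (nat_lit 78) (nat_lit 0) (nat_lit 0) (XT.lf (nat_lit 0) (nat_lit 1812884774172) (nat_lit 228) (nat_lit 3458702786615) (nat_lit 76) (nat_lit 3517165649) (nat_lit 17) (nat_lit 5) (nat_lit 20) (nat_lit 5) (nat_lit 18) (nat_lit 4) (nat_lit 316) (nat_lit 305) (nat_lit 159)) (XT.lf (nat_lit 0) (nat_lit 3089803457650) (nat_lit 228) (nat_lit 713327618456) (nat_lit 76) (nat_lit 1965287288451) (nat_lit 17) (nat_lit 5) (nat_lit 20) (nat_lit 5) (nat_lit 18) (nat_lit 4) (nat_lit 317) (nat_lit 305) (nat_lit 158))))) (XT.nd (nat_lit 156) (nat_lit 228) (nat_lit 0) (XT.nd (nat_lit 78) (nat_lit 0) (nat_lit 0) (XT.lf (nat_lit 0) (nat_lit 2682684992996) (nat_lit 76) (nat_lit 1986659214700) (nat_lit 152) (nat_lit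 1649722201094) (nat_lit 16) (nat_lit 5) (nat_lit 17) (nat_lit 5) (nat_lit 18) (nat_lit 4) (nat_lit 318) (nat_lit 305) (nat_lit 157)) (XT.lf (nat_lit 0) (nat_lit 6529114587258) (nat_lit 152) (nat_lit 284461668070) (nat_lit 0) (nat_lit 132240626780) (nat_lit 16) (nat_lit 5) (nat_lit 18) (nat_lit 4) (nat_lit 16) (nat_lit 4) (nat_lit 319) (nat_lit 305) (nat_lit 156))) (XT.nd (nat_lit 78) (nat_lit 76) (nat_lit 0) (XT.lf (nat_lit 0) (nat_lit 1176745100244) (nat_lit 152) (nat_lit 3866871995705) (nat_lit 76) (nat_lit 2577051578133) (nat_lit 14) (nat_lit 5) (nat_lit 16) (nat_lit 5) (nat_lit 15) (nat_lit 4) (nat_lit 320) (nat_lit 305) (nat_lit 155)) (XT.nd (nat_lit 78) (nat_lit 0) (nat_lit 0) (XT.lf (nat_lit 0) (nat_lit 16130607758) (nat_lit 76) (nat_lit 2966662215332) (nat_lit 152) (nat_lit 5408542127357) (nat_lit 13) (nat_lit 5) (nat_lit 14) (nat_lit 5) (nat_lit 15) (nat_lit 4) (nat_lit 321)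 (nat_lit 305) (nat_lit 154)) (XT.lf (nat_lit 0) (nat_lit 4916167283056) (nat_lit 76) (nat_lit 345712366019) (nat_lit 152) (nat_lit 3985401727485) (nat_lit 13) (nat_lit 5) (nat_lit 14) (nat_lit 5) (nat_lit 15) (nat_lit 4) (nat_lit 322) (nat_lit 305) (nat_lit 153))))))) (XT.nd (nat_lit 780) (nat_lit 456) (nat_lit 0) (XT.nd (nat_lit 390) (nat_lit 228) (nat_lit 0) (XT.nd (nat_lit 156) (nat_lit 76) (nat_lit 0) (XT.nd (nat_lit 78) (nat_lit 76) (nat_lit 0) (XT.lf (nat_lit 0) (nat_lit 229532322991) (nat_lit 76) (nat_lit 7773293543356) (nat_lit 76) (nat_lit 2210794445135) (nat_lit 12) (nat_lit 4) (nat_lit 13) (nat_lit 5) (nat_lit 13) (nat_lit 4) (nat_lit 323) (nat_lit 305) (nat_lit 152)) (XT.lf (nat_lit 0) (nat_lit 98780705959) (nat_lit 152) (nat_lit 5350120580781) (nat_lit 76) (nat_lit 5839018293518) (nat_lit 11) (nat_lit 5) (nat_lit 13) (nat_lit 5) (nat_lit 12) (nat_lit 4) (nat_lit 324) (nat_lit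 305) (nat_lit 151))) (XT.nd (nat_lit 78) (nat_lit 76) (nat_lit 0) (XT.lf (nat_lit 0) (nat_lit 2528448888508) (nat_lit 152) (nat_lit 126333988627) (nat_lit 76) (nat_lit 9852789473381) (nat_lit 11) (nat_lit 5) (nat_lit 13) (nat_lit 5) (nat_lit 12) (nat_lit 4) (nat_lit 325) (nat_lit 305) (nat_lit 150)) (XT.nd (nat_lit 78) (nat_lit 0) (nat_lit 0) (XT.lf (nat_lit 0) (nat_lit 5625740257679) (nat_lit 152) (nat_lit 7450172315507) (nat_lit 0) (nat_lit 788784519241) (nat_lit 10) (nat_lit 5) (nat_lit 12) (nat_lit 4) (nat_lit 10) (nat_lit 4) (nat_lit 326) (nat_lit 305) (nat_lit 149)) (XT.lf (nat_lit 0) (nat_lit 9320961853983) (nat_lit 152) (nat_lit 1600422098048) (nat_lit 0) (nat_lit 4484006115330) (nat_lit 10) (nat_lit 5) (nat_lit 12) (nat_lit 4) (nat_lit 10) (nat_lit 4) (nat_lit 327) (nat_lit 305) (nat_lit 148))))) (XT.nd (nat_lit 156) (nat_lit 152) (nat_lit 0) (XT.nd (nat_lit 78) (nat_lit 0)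 (nat_lit 0) (XT.lf (nat_lit 0) (nat_lit 5627817919662) (nat_lit 76) (nat_lit 8175684708476) (nat_lit 76) (nat_lit 3338728969637) (nat_lit 9) (nat_lit 4) (nat_lit 10) (nat_lit 5) (nat_lit 10) (nat_lit 4) (nat_lit 328) (nat_lit 305) (nat_lit 147)) (XT.lf (nat_lit 0) (nat_lit 14120159559361) (nat_lit 76) (nat_lit 4921923386628) (nat_lit 76) (nat_lit 84967647627) (nat_lit 9) (nat_lit 4) (nat_lit 10) (nat_lit 5) (nat_lit 10) (nat_lit 4) (nat_lit 329) (nat_lit 305) (nat_lit 146))) (XT.nd (nat_lit 78) (nat_lit 0) (nat_lit 0) (XT.lf (nat_lit 0) (nat_lit 2552586193838) (nat_lit 76) (nat_lit 884410054059) (nat_lit 152) (nat_lit 17934028215405) (nat_lit 7) (nat_lit 5) (nat_lit 8) (nat_lit 5) (nat_lit 9) (nat_lit 4) (nat_lit 330) (nat_lit 305) (nat_lit 145)) (XT.nd (nat_lit 78) (nat_lit 0) (nat_lit 0) (XT.lf (nat_lit 0) (nat_lit 7908383554101) (nat_lit 152) (nat_lit 12275794678142) (nat_lit 0) (nat_lit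 3702335085175) (nat_lit 7) (nat_lit 5) (nat_lit 9) (nat_lit 4) (nat_lit 7) (nat_lit 4) (nat_lit 331) (nat_lit 305) (nat_lit 144)) (XT.lf (nat_lit 0) (nat_lit 13092593720495) (nat_lit 152) (nat_lit 4793869313040) (nat_lit 0) (nat_lit 8886545251476) (nat_lit 7) (nat_lit 5) (nat_lit 9) (nat_lit 4) (nat_lit 7) (nat_lit 4) (nat_lit 332) (nat_lit 305) (nat_lit 143)))))) (XT.nd (nat_lit 390) (nat_lit 228) (nat_lit 0) (XT.nd (nat_lit 156) (nat_lit 152) (nat_lit 0) (XT.nd (nat_lit 78) (nat_lit 0) (nat_lit 0) (XT.lf (nat_lit 0) (nat_lit 4182719467412) (nat_lit 76) (nat_lit 15044913437720) (nat_lit 76) (nat_lit 10838864968621) (nat_lit 6) (nat_lit 4) (nat_lit 7) (nat_lit 5) (nat_lit 7) (nat_lit 4) (nat_lit 333) (nat_lit 305) (nat_lit 142)) (XT.lf (nat_lit 0) (nat_lit 15044562104407) (nat_lit 76) (nat_lit 11488954486058) (nat_lit 76) (nat_lit 7282906016889) (nat_lit 6) (nat_lit 4) (nat_lit 7) (nat_lit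 5) (nat_lit 7) (nat_lit 4) (nat_lit 334) (nat_lit 305) (nat_lit 141))) (XT.nd (nat_lit 78) (nat_lit 152) (nat_lit 0) (XT.lf (nat_lit 0) (nat_lit 27535681136632) (nat_lit 76) (nat_lit 7399601691809) (nat_lit 76) (nat_lit 3193553222578) (nat_lit 6) (nat_lit 4) (nat_lit 7) (nat_lit 5) (nat_lit 7) (nat_lit 4) (nat_lit 335) (nat_lit 305) (nat_lit 140)) (XT.nd (nat_lit 78) (nat_lit 76) (nat_lit 0) (XT.lf (nat_lit 0) (nat_lit 1374842848689) (nat_lit 152) (nat_lit 1250136344600) (nat_lit 76) (nat_lit 40453758389452) (nat_lit 5) (nat_lit 5) (nat_lit 7) (nat_lit 5) (nat_lit 6) (nat_lit 4) (nat_lit 336) (nat_lit 305) (nat_lit 139)) (XT.lf (nat_lit 0) (nat_lit 6872318686590) (nat_lit 152) (nat_lit 38575492421733) (nat_lit 0) (nat_lit 3214885235000) (nat_lit 4) (nat_lit 5) (nat_lit 6) (nat_lit 4) (nat_lit 4) (nat_lit 4) (nat_lit 337) (nat_lit 305) (nat_lit 138))))) (XT.nd (nat_lit 1716) (nat_lit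 0) (nat_lit 0) (XT.nd (nat_lit 1638) (nat_lit 228) (nat_lit 0) (XT.lf (nat_lit 0) (nat_lit 13387874756700) (nat_lit 152) (nat_lit 31936914027738) (nat_lit 0) (nat_lit 9730441305074) (nat_lit 4) (nat_lit 5) (nat_lit 6) (nat_lit 4) (nat_lit 4) (nat_lit 4) (nat_lit 338) (nat_lit 305) (nat_lit 137)) (XT.lf (nat_lit 0) (nat_lit 21554335795908) (nat_lit 152) (nat_lit 882073713973346) (nat_lit 0) (nat_lit 18373958881260) (nat_lit 1) (nat_lit 5) (nat_lit 3) (nat_lit 4) (nat_lit 1) (nat_lit 4) (nat_lit 359) (nat_lit 305) (nat_lit 116))) (XT.nd (nat_lit 36426) (nat_lit 0) (nat_lit 1824) (XT.lf (nat_lit 0) (nat_lit 32212678856843) (nat_lit 152) (nat_lit 997870363753810) (nat_lit 0) (nat_lit 29032301942194) (nat_lit 1) (nat_lit 5) (nat_lit 3) (nat_lit 4) (nat_lit 1) (nat_lit 4) (nat_lit 360) (nat_lit 305) (nat_lit 115)) (XT.nd (nat_lit 78) (nat_lit 0) (nat_lit 0) (XT.lf (nat_lit 0) (nat_lit 257924119102)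 (nat_lit 380) (nat_lit 500618706237) (nat_lit 380) (nat_lit 500618706237) (nat_lit 25) (nat_lit 3) (nat_lit 30) (nat_lit 3) (nat_lit 30) (nat_lit 5) (nat_lit 306) (nat_lit 306) (nat_lit 168)) (XT.lf (nat_lit 76) (nat_lit 219387031924) (nat_lit 0) (nat_lit 344234182723) (nat_lit 380) (nat_lit 2142213424432) (nat_lit 26) (nat_lit 5) (nat_lit 25) (nat_lit 3) (nat_lit 30) (nat_lit 5) (nat_lit 307) (nat_lit 306) (nat_lit 167))))))))
noncomputable def xc117 : XT := (XT.nd (nat_lit 1560) (nat_lit 684) (nat_lit 0) (XT.nd (nat_lit 780) (nat_lit 532) (nat_lit 0) (XT.nd (nat_lit 390) (nat_lit 456) (nat_lit 0) (XT.nd (nat_lit 156) (nat_lit 228) (nat_lit 0) (XT.nd (nat_lit 78) (nat_lit 0) (nat_lit 0) (XT.lf (nat_lit 0) (nat_lit 714985870165) (nat_lit 304) (nat_lit 1222080090414) (nat_lit 380) (nat_lit 969943130927) (nat_lit 26) (nat_lit 5) (nat_lit 30) (nat_lit 5) (nat_lit 31) (nat_lit 5) (nat_lit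 308) (nat_lit 306) (nat_lit 166)) (XT.lf (nat_lit 76) (nat_lit 236615606213) (nat_lit 0) (nat_lit 678629467931) (nat_lit 380) (nat_lit 2219186160137) (nat_lit 27) (nat_lit 5) (nat_lit 26) (nat_lit 5) (nat_lit 31) (nat_lit 5) (nat_lit 309) (nat_lit 306) (nat_lit 165))) (XT.nd (nat_lit 78) (nat_lit 304) (nat_lit 0) (XT.lf (nat_lit 0) (nat_lit 1244291539106) (nat_lit 304) (nat_lit 1369790608582) (nat_lit 76) (nat_lit 767072293730) (nat_lit 27) (nat_lit 5) (nat_lit 31) (nat_lit 5) (nat_lit 28) (nat_lit 5) (nat_lit 310) (nat_lit 306) (nat_lit 164)) (XT.nd (nat_lit 78) (nat_lit 0) (nat_lit 0) (XT.lf (nat_lit 0) (nat_lit 389827624560) (nat_lit 304) (nat_lit 1281324967676) (nat_lit 380) (nat_lit 1986464894628) (nat_lit 23) (nat_lit 5) (nat_lit 27) (nat_lit 5) (nat_lit 28) (nat_lit 5) (nat_lit 311) (nat_lit 306) (nat_lit 163)) (XT.lf (nat_lit 0) (nat_lit 2247462838281) (nat_lit 380) (nat_lit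 1411292553729) (nat_lit 76) (nat_lit 303981591878) (nat_lit 23) (nat_lit 5) (nat_lit 28) (nat_lit 5) (nat_lit 24) (nat_lit 5) (nat_lit 312) (nat_lit 306) (nat_lit 162))))) (XT.nd (nat_lit 156) (nat_lit 304) (nat_lit 0) (XT.nd (nat_lit 78) (nat_lit 0) (nat_lit 0) (XT.lf (nat_lit 0) (nat_lit 727424208658) (nat_lit 152) (nat_lit 2273931971560) (nat_lit 228) (nat_lit 1298597741403) (nat_lit 21) (nat_lit 5) (nat_lit 23) (nat_lit 5) (nat_lit 24) (nat_lit 5) (nat_lit 313) (nat_lit 306) (nat_lit 161)) (XT.lf (nat_lit 0) (nat_lit 3345558522496) (nat_lit 152) (nat_lit 596547110877) (nat_lit 228) (nat_lit 734581950152) (nat_lit 21) (nat_lit 5) (nat_lit 23) (nat_lit 5) (nat_lit 24) (nat_lit 5) (nat_lit 314) (nat_lit 306) (nat_lit 160))) (XT.nd (nat_lit 78) (nat_lit 152) (nat_lit 0) (XT.lf (nat_lit 0) (nat_lit 36219296746) (nat_lit 152) (nat_lit 3787447773406) (nat_lit 76) (nat_lit 1269618661765)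 (nat_lit 19) (nat_lit 5) (nat_lit 21) (nat_lit 5) (nat_lit 20) (nat_lit 5) (nat_lit 315) (nat_lit 306) (nat_lit 159)) (XT.nd (nat_lit 78) (nat_lit 152) (nat_lit 0) (XT.lf (nat_lit 0) (nat_lit 948735698456) (nat_lit 152) (nat_lit 1140686070604) (nat_lit 76) (nat_lit 3462509494463) (nat_lit 19) (nat_lit 5) (nat_lit 21) (nat_lit 5) (nat_lit 20) (nat_lit 5) (nat_lit 316) (nat_lit 306) (nat_lit 158)) (XT.lf (nat_lit 0) (nat_lit 2084817497552) (nat_lit 228) (nat_lit 3977508192993) (nat_lit 76) (nat_lit 4044743756) (nat_lit 17) (nat_lit 5) (nat_lit 20) (nat_lit 5) (nat_lit 18) (nat_lit 4) (nat_lit 317) (nat_lit 306) (nat_lit 157)))))) (XT.nd (nat_lit 390) (nat_lit 228) (nat_lit 0) (XT.nd (nat_lit 156) (nat_lit 228) (nat_lit 0) (XT.nd (nat_lit 78) (nat_lit 76) (nat_lit 0) (XT.lf (nat_lit 0) (nat_lit 3553273982606) (nat_lit 228) (nat_lit 820326751125) (nat_lit 76) (nat_lit 2260080384553) (nat_lit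 17) (nat_lit 5) (nat_lit 20) (nat_lit 5) (nat_lit 18) (nat_lit 4) (nat_lit 318) (nat_lit 306) (nat_lit 156)) (XT.lf (nat_lit 0) (nat_lit 3085087751586) (nat_lit 76) (nat_lit 2284658093149) (nat_lit 152) (nat_lit 1897180524482) (nat_lit 16) (nat_lit 5) (nat_lit 17) (nat_lit 5) (nat_lit 18) (nat_lit 4) (nat_lit 319) (nat_lit 306) (nat_lit 155))) (XT.nd (nat_lit 78) (nat_lit 228) (nat_lit 0) (XT.lf (nat_lit 0) (nat_lit 7508481780599) (nat_lit 152) (nat_lit 327130909257) (nat_lit 0) (nat_lit 152076723773) (nat_lit 16) (nat_lit 5) (nat_lit 18) (nat_lit 4) (nat_lit 16) (nat_lit 4) (nat_lit 320) (nat_lit 306) (nat_lit 154)) (XT.nd (nat_lit 78) (nat_lit 76) (nat_lit 0) (XT.lf (nat_lit 0) (nat_lit 1353256870445) (nat_lit 152) (nat_lit 4446902785937) (nat_lit 76) (nat_lit 2963609318032) (nat_lit 14) (nat_lit 5) (nat_lit 16) (nat_lit 5) (nat_lit 15) (nat_lit 4) (nat_lit 321) (nat_lit 306) (nat_lit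 153)) (XT.lf (nat_lit 0) (nat_lit 18550207630) (nat_lit 76) (nat_lit 3411661543775) (nat_lit 152) (nat_lit 6219823440877) (nat_lit 13) (nat_lit 5) (nat_lit 14) (nat_lit 5) (nat_lit 15) (nat_lit 4) (nat_lit 322) (nat_lit 306) (nat_lit 152))))) (XT.nd (nat_lit 156) (nat_lit 152) (nat_lit 0) (XT.nd (nat_lit 78) (nat_lit 76) (nat_lit 0) (XT.lf (nat_lit 0) (nat_lit 5653592383087) (nat_lit 76) (nat_lit 397569217568) (nat_lit 152) (nat_lit 4583211981752) (nat_lit 13) (nat_lit 5) (nat_lit 14) (nat_lit 5) (nat_lit 15) (nat_lit 4) (nat_lit 323) (nat_lit 306) (nat_lit 151)) (XT.lf (nat_lit 0) (nat_lit 263962179145) (nat_lit 76) (nat_lit 8939287571263) (nat_lit 76) (nat_lit 2542413607178) (nat_lit 12) (nat_lit 4) (nat_lit 13) (nat_lit 5) (nat_lit 13) (nat_lit 4) (nat_lit 324) (nat_lit 306) (nat_lit 150))) (XT.nd (nat_lit 78) (nat_lit 76) (nat_lit 0) (XT.lf (nat_lit 0) (nat_lit 113597815599) (nat_lit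 152) (nat_lit 6152638660829) (nat_lit 76) (nat_lit 6714871040304) (nat_lit 11) (nat_lit 5) (nat_lit 13) (nat_lit 5) (nat_lit 12) (nat_lit 4) (nat_lit 325) (nat_lit 306) (nat_lit 149)) (XT.nd (nat_lit 78) (nat_lit 76) (nat_lit 0) (XT.lf (nat_lit 0) (nat_lit 2907716225041) (nat_lit 152) (nat_lit 145284080774) (nat_lit 76) (nat_lit 11330707896787) (nat_lit 11) (nat_lit 5) (nat_lit 13) (nat_lit 5) (nat_lit 12) (nat_lit 4) (nat_lit 326) (nat_lit 306) (nat_lit 148)) (XT.lf (nat_lit 0) (nat_lit 6469601299522) (nat_lit 152) (nat_lit 8567698156618) (nat_lit 0) (nat_lit 907102199670) (nat_lit 10) (nat_lit 5) (nat_lit 12) (nat_lit 4) (nat_lit 10) (nat_lit 4) (nat_lit 327) (nat_lit 306) (nat_lit 147))))))) (XT.nd (nat_lit 780) (nat_lit 304) (nat_lit 0) (XT.nd (nat_lit 390) (nat_lit 152) (nat_lit 0) (XT.nd (nat_lit 156) (nat_lit 152) (nat_lit 0) (XT.nd (nat_lit 78) (nat_lit 76) (nat_lit 0) (XT.lf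 (nat_lit 0) (nat_lit 10719106134855) (nat_lit 152) (nat_lit 1840485407351) (nat_lit 0) (nat_lit 5156607034842) (nat_lit 10) (nat_lit 5) (nat_lit 12) (nat_lit 4) (nat_lit 10) (nat_lit 4) (nat_lit 328) (nat_lit 306) (nat_lit 146)) (XT.lf (nat_lit 0) (nat_lit 6471990612770) (nat_lit 76) (nat_lit 9402037412216) (nat_lit 76) (nat_lit 3839538312061) (nat_lit 9) (nat_lit 4) (nat_lit 10) (nat_lit 5) (nat_lit 10) (nat_lit 4) (nat_lit 329) (nat_lit 306) (nat_lit 145))) (XT.nd (nat_lit 78) (nat_lit 152) (nat_lit 0) (XT.lf (nat_lit 0) (nat_lit 16238183497751) (nat_lit 76) (nat_lit 5660211892420) (nat_lit 76) (nat_lit 97712792143) (nat_lit 9) (nat_lit 4) (nat_lit 10) (nat_lit 5) (nat_lit 10) (nat_lit 4) (nat_lit 330) (nat_lit 306) (nat_lit 144)) (XT.nd (nat_lit 78) (nat_lit 0) (nat_lit 0) (XT.lf (nat_lit 0) (nat_lit 2935474127420) (nat_lit 76) (nat_lit 1017071559930) (nat_lit 152) (nat_lit 20624132445107)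 (nat_lit 7) (nat_lit 5) (nat_lit 8) (nat_lit 5) (nat_lit 9) (nat_lit 4) (nat_lit 331) (nat_lit 306) (nat_lit 143)) (XT.lf (nat_lit 0) (nat_lit 9094641089269) (nat_lit 152) (nat_lit 14117163875728) (nat_lit 0) (nat_lit 4257685349725) (nat_lit 7) (nat_lit 5) (nat_lit 9) (nat_lit 4) (nat_lit 7) (nat_lit 4) (nat_lit 332) (nat_lit 306) (nat_lit 142))))) (XT.nd (nat_lit 156) (nat_lit 76) (nat_lit 0) (XT.nd (nat_lit 78) (nat_lit 76) (nat_lit 0) (XT.lf (nat_lit 0) (nat_lit 15056482780355) (nat_lit 152) (nat_lit 5512949706401) (nat_lit 0) (nat_lit 10219527040740) (nat_lit 7) (nat_lit 5) (nat_lit 9) (nat_lit 4) (nat_lit 7) (nat_lit 4) (nat_lit 333) (nat_lit 306) (nat_lit 141)) (XT.lf (nat_lit 0) (nat_lit 4810127390956) (nat_lit 76) (nat_lit 17301650451640) (nat_lit 76) (nat_lit 12464694711964) (nat_lit 6) (nat_lit 4) (nat_lit 7) (nat_lit 5) (nat_lit 7) (nat_lit 4) (nat_lit 334) (nat_lit 306) (nat_lit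 140))) (XT.nd (nat_lit 78) (nat_lit 76) (nat_lit 0) (XT.lf (nat_lit 0) (nat_lit 17301246423053) (nat_lit 76) (nat_lit 13212297657456) (nat_lit 76) (nat_lit 8375341917727) (nat_lit 6) (nat_lit 4) (nat_lit 7) (nat_lit 5) (nat_lit 7) (nat_lit 4) (nat_lit 335) (nat_lit 306) (nat_lit 139)) (XT.nd (nat_lit 78) (nat_lit 76) (nat_lit 0) (XT.lf (nat_lit 0) (nat_lit 31666033309723) (nat_lit 76) (nat_lit 8509541944266) (nat_lit 76) (nat_lit 3672586204491) (nat_lit 6) (nat_lit 4) (nat_lit 7) (nat_lit 5) (nat_lit 7) (nat_lit 4) (nat_lit 336) (nat_lit 306) (nat_lit 138)) (XT.lf (nat_lit 0) (nat_lit 1581069277160) (nat_lit 152) (nat_lit 1437656793919) (nat_lit 76) (nat_lit 46521822148898) (nat_lit 5) (nat_lit 5) (nat_lit 7) (nat_lit 5) (nat_lit 6) (nat_lit 4) (nat_lit 337) (nat_lit 306) (nat_lit 137)))))) (XT.nd (nat_lit 38376) (nat_lit 0) (nat_lit 1520) (XT.nd (nat_lit 1716) (nat_lit 0) (nat_lit 0)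 (XT.nd (nat_lit 1638) (nat_lit 228) (nat_lit 0) (XT.lf (nat_lit 0) (nat_lit 7903166490736) (nat_lit 152) (nat_lit 44361816282610) (nat_lit 0) (nat_lit 3697118021301) (nat_lit 4) (nat_lit 5) (nat_lit 6) (nat_lit 4) (nat_lit 4) (nat_lit 4) (nat_lit 338) (nat_lit 306) (nat_lit 136)) (XT.lf (nat_lit 0) (nat_lit 14129143104433) (nat_lit 152) (nat_lit 898588121288731) (nat_lit 0) (nat_lit 10471709652584) (nat_lit 1) (nat_lit 5) (nat_lit 3) (nat_lit 4) (nat_lit 1) (nat_lit 4) (nat_lit 359) (nat_lit 306) (nat_lit 115))) (XT.nd (nat_lit 36504) (nat_lit 0) (nat_lit 1824) (XT.lf (nat_lit 0) (nat_lit 24787486165365) (nat_lit 152) (nat_lit 1014384771069202) (nat_lit 0) (nat_lit 21130052713514) (nat_lit 1) (nat_lit 5) (nat_lit 3) (nat_lit 4) (nat_lit 1) (nat_lit 4) (nat_lit 360) (nat_lit 306) (nat_lit 114)) (XT.nd (nat_lit 78) (nat_lit 0) (nat_lit 0) (XT.lf (nat_lit 0) (nat_lit 296612746007) (nat_lit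 380) (nat_lit 575711506963) (nat_lit 380) (nat_lit 575711506963) (nat_lit 25) (nat_lit 3) (nat_lit 30) (nat_lit 3) (nat_lit 30) (nat_lit 5) (nat_lit 307) (nat_lit 307) (nat_lit 166)) (XT.lf (nat_lit 76) (nat_lit 252295096658) (nat_lit 0) (nat_lit 395869316319) (nat_lit 380) (nat_lit 2463545419502) (nat_lit 26) (nat_lit 5) (nat_lit 25) (nat_lit 3) (nat_lit 30) (nat_lit 5) (nat_lit 308) (nat_lit 307) (nat_lit 165))))) (XT.nd (nat_lit 234) (nat_lit 380) (nat_lit 0) (XT.nd (nat_lit 78) (nat_lit 0) (nat_lit 0) (XT.lf (nat_lit 0) (nat_lit 822233764496) (nat_lit 304) (nat_lit 1405392092964) (nat_lit 380) (nat_lit 1115434595665) (nat_lit 26) (nat_lit 5) (nat_lit 30) (nat_lit 5) (nat_lit 31) (nat_lit 5) (nat_lit 309) (nat_lit 307) (nat_lit 164)) (XT.nd (nat_lit 78) (nat_lit 0) (nat_lit 76) (XT.lf (nat_lit 76) (nat_lit 272107957656) (nat_lit 0) (nat_lit 780423890050) (nat_lit 380) (nat_lit 2552064069820)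 (nat_lit 27) (nat_lit 5) (nat_lit 26) (nat_lit 5) (nat_lit 31) (nat_lit 5) (nat_lit 310) (nat_lit 307) (nat_lit 163)) (XT.lf (nat_lit 0) (nat_lit 1430935280720) (nat_lit 304) (nat_lit 1575259189009) (nat_lit 76) (nat_lit 882133136262) (nat_lit 27) (nat_lit 5) (nat_lit 31) (nat_lit 5) (nat_lit 28) (nat_lit 5) (nat_lit 311) (nat_lit 307) (nat_lit 162)))) (XT.nd (nat_lit 78) (nat_lit 152) (nat_lit 0) (XT.lf (nat_lit 0) (nat_lit 448301778610) (nat_lit 304) (nat_lit 1473523712237) (nat_lit 380) (nat_lit 2284434617557) (nat_lit 23) (nat_lit 5) (nat_lit 27) (nat_lit 5) (nat_lit 28) (nat_lit 5) (nat_lit 312) (nat_lit 307) (nat_lit 161)) (XT.nd (nat_lit 78) (nat_lit 152) (nat_lit 0) (XT.lf (nat_lit 0) (nat_lit 2584582272545) (nat_lit 380) (nat_lit 1622986426500) (nat_lit 76) (nat_lit 349578831128) (nat_lit 23) (nat_lit 5) (nat_lit 28) (nat_lit 5) (nat_lit 24) (nat_lit 5) (nat_lit 313) (nat_lit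 307) (nat_lit 160)) (XT.lf (nat_lit 0) (nat_lit 836537849777) (nat_lit 152) (nat_lit 2615021765290) (nat_lit 228) (nat_lit 1493387393606) (nat_lit 21) (nat_lit 5) (nat_lit 23) (nat_lit 5) (nat_lit 24) (nat_lit 5) (nat_lit 314) (nat_lit 307) (nat_lit 159))))))))
noncomputable def xc118 : XT := (XT.nd (nat_lit 1560) (nat_lit 152) (nat_lit 0) (XT.nd (nat_lit 780) (nat_lit 456) (nat_lit 0) (XT.nd (nat_lit 390) (nat_lit 304) (nat_lit 0) (XT.nd (nat_lit 156) (nat_lit 152) (nat_lit 0) (XT.nd (nat_lit 78) (nat_lit 152) (nat_lit 0) (XT.lf (nat_lit 0) (nat_lit 3847392309410) (nat_lit 152) (nat_lit 686029175766) (nat_lit 228) (nat_lit 844769234843) (nat_lit 21) (nat_lit 5) (nat_lit 23) (nat_lit 5) (nat_lit 24) (nat_lit 5) (nat_lit 315) (nat_lit 307) (nat_lit 158)) (XT.lf (nat_lit 0) (nat_lit 41652197922) (nat_lit 152) (nat_lit 4355564929683) (nat_lit 76) (nat_lit 1460061463088) (nat_lit 19) (nat_lit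 5) (nat_lit 21) (nat_lit 5) (nat_lit 20) (nat_lit 5) (nat_lit 316) (nat_lit 307) (nat_lit 157))) (XT.nd (nat_lit 78) (nat_lit 152) (nat_lit 0) (XT.lf (nat_lit 0) (nat_lit 1091046059019) (nat_lit 152) (nat_lit 1311788972730) (nat_lit 76) (nat_lit 3981885920423) (nat_lit 19) (nat_lit 5) (nat_lit 21) (nat_lit 5) (nat_lit 20) (nat_lit 5) (nat_lit 317) (nat_lit 307) (nat_lit 156)) (XT.nd (nat_lit 78) (nat_lit 0) (nat_lit 0) (XT.lf (nat_lit 0) (nat_lit 2397540127670) (nat_lit 228) (nat_lit 4574134413159) (nat_lit 76) (nat_lit 4651457785) (nat_lit 17) (nat_lit 5) (nat_lit 20) (nat_lit 5) (nat_lit 18) (nat_lit 4) (nat_lit 318) (nat_lit 307) (nat_lit 155)) (XT.lf (nat_lit 0) (nat_lit 4086265084767) (nat_lit 228) (nat_lit 943375756157) (nat_lit 76) (nat_lit 2599092444380) (nat_lit 17) (nat_lit 5) (nat_lit 20) (nat_lit 5) (nat_lit 18) (nat_lit 4) (nat_lit 319) (nat_lit 307) (nat_lit 154))))) (XT.nd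 (nat_lit 156) (nat_lit 228) (nat_lit 0) (XT.nd (nat_lit 78) (nat_lit 0) (nat_lit 0) (XT.lf (nat_lit 0) (nat_lit 3547850921614) (nat_lit 76) (nat_lit 2627356804281) (nat_lit 152) (nat_lit 2181757598031) (nat_lit 16) (nat_lit 5) (nat_lit 17) (nat_lit 5) (nat_lit 18) (nat_lit 4) (nat_lit 320) (nat_lit 307) (nat_lit 153)) (XT.lf (nat_lit 0) (nat_lit 8634754051660) (nat_lit 152) (nat_lit 376200538823) (nat_lit 0) (nat_lit 174888234589) (nat_lit 16) (nat_lit 5) (nat_lit 18) (nat_lit 4) (nat_lit 16) (nat_lit 4) (nat_lit 321) (nat_lit 307) (nat_lit 152))) (XT.nd (nat_lit 78) (nat_lit 76) (nat_lit 0) (XT.lf (nat_lit 0) (nat_lit 1556245404917) (nat_lit 152) (nat_lit 5113938196929) (nat_lit 76) (nat_lit 3408150718141) (nat_lit 14) (nat_lit 5) (nat_lit 16) (nat_lit 5) (nat_lit 15) (nat_lit 4) (nat_lit 322) (nat_lit 307) (nat_lit 151)) (XT.nd (nat_lit 78) (nat_lit 0) (nat_lit 0) (XT.lf (nat_lit 0)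 (nat_lit 21332745360) (nat_lit 76) (nat_lit 3923410772424) (nat_lit 152) (nat_lit 7152796952786) (nat_lit 13) (nat_lit 5) (nat_lit 14) (nat_lit 5) (nat_lit 15) (nat_lit 4) (nat_lit 323) (nat_lit 307) (nat_lit 150)) (XT.lf (nat_lit 0) (nat_lit 6501631246277) (nat_lit 76) (nat_lit 457204597667) (nat_lit 152) (nat_lit 5270693775343) (nat_lit 13) (nat_lit 5) (nat_lit 14) (nat_lit 5) (nat_lit 15) (nat_lit 4) (nat_lit 324) (nat_lit 307) (nat_lit 149)))))) (XT.nd (nat_lit 390) (nat_lit 228) (nat_lit 0) (XT.nd (nat_lit 156) (nat_lit 76) (nat_lit 0) (XT.nd (nat_lit 78) (nat_lit 76) (nat_lit 0) (XT.lf (nat_lit 0) (nat_lit 303556511842) (nat_lit 76) (nat_lit 10280180704233) (nat_lit 76) (nat_lit 2923775644679) (nat_lit 12) (nat_lit 4) (nat_lit 13) (nat_lit 5) (nat_lit 13) (nat_lit 4) (nat_lit 325) (nat_lit 307) (nat_lit 148)) (XT.lf (nat_lit 0) (nat_lit 130637490771) (nat_lit 152) (nat_lit 7075534454609)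 (nat_lit 76) (nat_lit 7722101698435) (nat_lit 11) (nat_lit 5) (nat_lit 13) (nat_lit 5) (nat_lit 12) (nat_lit 4) (nat_lit 326) (nat_lit 307) (nat_lit 147))) (XT.nd (nat_lit 78) (nat_lit 76) (nat_lit 0) (XT.lf (nat_lit 0) (nat_lit 3343873661261) (nat_lit 152) (nat_lit 167076688243) (nat_lit 76) (nat_lit 13030314083118) (nat_lit 11) (nat_lit 5) (nat_lit 13) (nat_lit 5) (nat_lit 12) (nat_lit 4) (nat_lit 327) (nat_lit 307) (nat_lit 146)) (XT.nd (nat_lit 78) (nat_lit 0) (nat_lit 0) (XT.lf (nat_lit 0) (nat_lit 7440041496863) (nat_lit 152) (nat_lit 9852852875411) (nat_lit 0) (nat_lit 1043167531544) (nat_lit 10) (nat_lit 5) (nat_lit 12) (nat_lit 4) (nat_lit 10) (nat_lit 4) (nat_lit 328) (nat_lit 307) (nat_lit 145)) (XT.lf (nat_lit 0) (nat_lit 12326972057182) (nat_lit 152) (nat_lit 2116558214367) (nat_lit 0) (nat_lit 5930098091740) (nat_lit 10) (nat_lit 5) (nat_lit 12) (nat_lit 4) (nat_lit 10)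 (nat_lit 4) (nat_lit 329) (nat_lit 307) (nat_lit 144))))) (XT.nd (nat_lit 156) (nat_lit 152) (nat_lit 0) (XT.nd (nat_lit 78) (nat_lit 0) (nat_lit 0) (XT.lf (nat_lit 0) (nat_lit 7442789208586) (nat_lit 76) (nat_lit 10812343022133) (nat_lit 76) (nat_lit 4415469056585) (nat_lit 9) (nat_lit 4) (nat_lit 10) (nat_lit 5) (nat_lit 10) (nat_lit 4) (nat_lit 330) (nat_lit 307) (nat_lit 143)) (XT.lf (nat_lit 0) (nat_lit 18673911025806) (nat_lit 76) (nat_lit 6509243674618) (nat_lit 76) (nat_lit 112369708977) (nat_lit 9) (nat_lit 4) (nat_lit 10) (nat_lit 5) (nat_lit 10) (nat_lit 4) (nat_lit 331) (nat_lit 307) (nat_lit 142))) (XT.nd (nat_lit 78) (nat_lit 0) (nat_lit 0) (XT.lf (nat_lit 0) (nat_lit 3375795249941) (nat_lit 76) (nat_lit 1169632292227) (nat_lit 152) (nat_lit 23717752309900) (nat_lit 7) (nat_lit 5) (nat_lit 8) (nat_lit 5) (nat_lit 9) (nat_lit 4) (nat_lit 332) (nat_lit 307) (nat_lit 141))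 (XT.nd (nat_lit 78) (nat_lit 0) (nat_lit 0) (XT.lf (nat_lit 0) (nat_lit 10458837254212) (nat_lit 152) (nat_lit 16234738453961) (nat_lit 0) (nat_lit 4896338153524) (nat_lit 7) (nat_lit 5) (nat_lit 9) (nat_lit 4) (nat_lit 7) (nat_lit 4) (nat_lit 333) (nat_lit 307) (nat_lit 140)) (XT.lf (nat_lit 0) (nat_lit 17314955198758) (nat_lit 152) (nat_lit 6339892159642) (nat_lit 0) (nat_lit 11752456098017) (nat_lit 7) (nat_lit 5) (nat_lit 9) (nat_lit 4) (nat_lit 7) (nat_lit 4) (nat_lit 334) (nat_lit 307) (nat_lit 139))))))) (XT.nd (nat_lit 39000) (nat_lit 0) (nat_lit 684) (XT.nd (nat_lit 38610) (nat_lit 0) (nat_lit 1368) (XT.nd (nat_lit 156) (nat_lit 76) (nat_lit 0) (XT.nd (nat_lit 78) (nat_lit 0) (nat_lit 0) (XT.lf (nat_lit 0) (nat_lit 5531646502195) (nat_lit 76) (nat_lit 19896898018072) (nat_lit 76) (nat_lit 14334398917285) (nat_lit 6) (nat_lit 4) (nat_lit 7) (nat_lit 5) (nat_lit 7) (nat_lit 4)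 (nat_lit 335) (nat_lit 307) (nat_lit 138)) (XT.lf (nat_lit 0) (nat_lit 19896433388767) (nat_lit 76) (nat_lit 15194142304932) (nat_lit 76) (nat_lit 9631643204105) (nat_lit 6) (nat_lit 4) (nat_lit 7) (nat_lit 5) (nat_lit 7) (nat_lit 4) (nat_lit 336) (nat_lit 307) (nat_lit 137))) (XT.nd (nat_lit 78) (nat_lit 76) (nat_lit 0) (XT.lf (nat_lit 0) (nat_lit 36415938308143) (nat_lit 76) (nat_lit 9785973234912) (nat_lit 76) (nat_lit 4223474134050) (nat_lit 6) (nat_lit 4) (nat_lit 7) (nat_lit 5) (nat_lit 7) (nat_lit 4) (nat_lit 337) (nat_lit 307) (nat_lit 136)) (XT.nd (nat_lit 38298) (nat_lit 0) (nat_lit 1520) (XT.lf (nat_lit 0) (nat_lit 1818229669617) (nat_lit 152) (nat_lit 1653305311213) (nat_lit 76) (nat_lit 53500095472011) (nat_lit 5) (nat_lit 5) (nat_lit 7) (nat_lit 5) (nat_lit 6) (nat_lit 4) (nat_lit 338) (nat_lit 307) (nat_lit 135)) (XT.lf (nat_lit 0) (nat_lit 341104664743) (nat_lit 380)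 (nat_lit 662068229068) (nat_lit 380) (nat_lit 662068229068) (nat_lit 25) (nat_lit 3) (nat_lit 30) (nat_lit 3) (nat_lit 30) (nat_lit 5) (nat_lit 308) (nat_lit 308) (nat_lit 164))))) (XT.nd (nat_lit 156) (nat_lit 152) (nat_lit 0) (XT.nd (nat_lit 78) (nat_lit 0) (nat_lit 76) (XT.lf (nat_lit 76) (nat_lit 290139368678) (nat_lit 0) (nat_lit 455249718445) (nat_lit 380) (nat_lit 2833077218368) (nat_lit 26) (nat_lit 5) (nat_lit 25) (nat_lit 3) (nat_lit 30) (nat_lit 5) (nat_lit 309) (nat_lit 308) (nat_lit 163)) (XT.lf (nat_lit 0) (nat_lit 945568839610) (nat_lit 304) (nat_lit 1616200898582) (nat_lit 380) (nat_lit 1282749781309) (nat_lit 26) (nat_lit 5) (nat_lit 30) (nat_lit 5) (nat_lit 31) (nat_lit 5) (nat_lit 310) (nat_lit 308) (nat_lit 162))) (XT.nd (nat_lit 78) (nat_lit 228) (nat_lit 0) (XT.lf (nat_lit 76) (nat_lit 312924159252) (nat_lit 0) (nat_lit 897487475017) (nat_lit 380) (nat_lit 2934873669451)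 (nat_lit 27) (nat_lit 5) (nat_lit 26) (nat_lit 5) (nat_lit 31) (nat_lit 5) (nat_lit 311) (nat_lit 308) (nat_lit 161)) (XT.nd (nat_lit 78) (nat_lit 304) (nat_lit 0) (XT.lf (nat_lit 0) (nat_lit 1645575580956) (nat_lit 304) (nat_lit 1811548059149) (nat_lit 76) (nat_lit 1014453105546) (nat_lit 27) (nat_lit 5) (nat_lit 31) (nat_lit 5) (nat_lit 28) (nat_lit 5) (nat_lit 312) (nat_lit 308) (nat_lit 160)) (XT.lf (nat_lit 0) (nat_lit 515547053240) (nat_lit 304) (nat_lit 1694552268626) (nat_lit 380) (nat_lit 2627099801672) (nat_lit 23) (nat_lit 5) (nat_lit 27) (nat_lit 5) (nat_lit 28) (nat_lit 5) (nat_lit 313) (nat_lit 308) (nat_lit 159)))))) (XT.nd (nat_lit 390) (nat_lit 380) (nat_lit 0) (XT.nd (nat_lit 156) (nat_lit 152) (nat_lit 0) (XT.nd (nat_lit 78) (nat_lit 152) (nat_lit 0) (XT.lf (nat_lit 0) (nat_lit 2972269619870) (nat_lit 380) (nat_lit 1866434382696) (nat_lit 76) (nat_lit 402015656151)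 (nat_lit 23) (nat_lit 5) (nat_lit 28) (nat_lit 5) (nat_lit 24) (nat_lit 5) (nat_lit 314) (nat_lit 308) (nat_lit 158)) (XT.lf (nat_lit 0) (nat_lit 962018534670) (nat_lit 152) (nat_lit 3007275028568) (nat_lit 228) (nat_lit 1717395495837) (nat_lit 21) (nat_lit 5) (nat_lit 23) (nat_lit 5) (nat_lit 24) (nat_lit 5) (nat_lit 315) (nat_lit 308) (nat_lit 157))) (XT.nd (nat_lit 78) (nat_lit 152) (nat_lit 0) (XT.lf (nat_lit 0) (nat_lit 4424501162279) (nat_lit 152) (nat_lit 788933550814) (nat_lit 228) (nat_lit 971484614146) (nat_lit 21) (nat_lit 5) (nat_lit 23) (nat_lit 5) (nat_lit 24) (nat_lit 5) (nat_lit 316) (nat_lit 308) (nat_lit 156)) (XT.nd (nat_lit 78) (nat_lit 0) (nat_lit 0) (XT.lf (nat_lit 0) (nat_lit 47900032649) (nat_lit 152) (nat_lit 5008899661775) (nat_lit 76) (nat_lit 1679070684108) (nat_lit 19) (nat_lit 5) (nat_lit 21) (nat_lit 5) (nat_lit 20) (nat_lit 5) (nat_lit 317) (nat_lit 308)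 (nat_lit 155)) (XT.lf (nat_lit 0) (nat_lit 1254702972254) (nat_lit 152) (nat_lit 1508557312240) (nat_lit 76) (nat_lit 4579168809840) (nat_lit 19) (nat_lit 5) (nat_lit 21) (nat_lit 5) (nat_lit 20) (nat_lit 5) (nat_lit 318) (nat_lit 308) (nat_lit 154))))) (XT.nd (nat_lit 156) (nat_lit 228) (nat_lit 0) (XT.nd (nat_lit 78) (nat_lit 0) (nat_lit 0) (XT.lf (nat_lit 0) (nat_lit 2757171150969) (nat_lit 228) (nat_lit 5260254568492) (nat_lit 76) (nat_lit 5349178317) (nat_lit 17) (nat_lit 5) (nat_lit 20) (nat_lit 5) (nat_lit 18) (nat_lit 4) (nat_lit 319) (nat_lit 308) (nat_lit 153)) (XT.lf (nat_lit 0) (nat_lit 4699204851088) (nat_lit 228) (nat_lit 1084882113806) (nat_lit 76) (nat_lit 2988956312659) (nat_lit 17) (nat_lit 5) (nat_lit 20) (nat_lit 5) (nat_lit 18) (nat_lit 4) (nat_lit 320) (nat_lit 308) (nat_lit 152))) (XT.nd (nat_lit 78) (nat_lit 152) (nat_lit 0) (XT.lf (nat_lit 0) (nat_lit 4080028565368)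 (nat_lit 76) (nat_lit 3021460322776) (nat_lit 152) (nat_lit 2509021233861) (nat_lit 16) (nat_lit 5) (nat_lit 17) (nat_lit 5) (nat_lit 18) (nat_lit 4) (nat_lit 321) (nat_lit 308) (nat_lit 151)) (XT.nd (nat_lit 78) (nat_lit 152) (nat_lit 0) (XT.lf (nat_lit 0) (nat_lit 9929967162412) (nat_lit 152) (nat_lit 432630614487) (nat_lit 0) (nat_lit 201121471478) (nat_lit 16) (nat_lit 5) (nat_lit 18) (nat_lit 4) (nat_lit 16) (nat_lit 4) (nat_lit 322) (nat_lit 308) (nat_lit 150)) (XT.lf (nat_lit 0) (nat_lit 1789682218608) (nat_lit 152) (nat_lit 5881028921252) (nat_lit 76) (nat_lit 3919373327680) (nat_lit 14) (nat_lit 5) (nat_lit 16) (nat_lit 5) (nat_lit 15) (nat_lit 4) (nat_lit 323) (nat_lit 308) (nat_lit 149))))))))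
noncomputable def xc119 : XT := (XT.nd (nat_lit 39858) (nat_lit 0) (nat_lit 76) (XT.nd (nat_lit 780) (nat_lit 76) (nat_lit 0) (XT.nd (nat_lit 390) (nat_lit 304) (nat_lit 0) (XT.nd (nat_lit 156) (nat_lit 152) (nat_lit 0) (XT.nd (nat_lit 78) (nat_lit 0) (nat_lit 0) (XT.lf (nat_lit 0) (nat_lit 24532662144) (nat_lit 76) (nat_lit 4511922386082) (nat_lit 152) (nat_lit 8225716492511) (nat_lit 13) (nat_lit 5) (nat_lit 14) (nat_lit 5) (nat_lit 15) (nat_lit 4) (nat_lit 324) (nat_lit 308) (nat_lit 148)) (XT.lf (nat_lit 0) (nat_lit 7476875937548) (nat_lit 76) (nat_lit 525785285399) (nat_lit 152) (nat_lit 6061297838869) (nat_lit 13) (nat_lit 5) (nat_lit 14) (nat_lit 5) (nat_lit 15) (nat_lit 4) (nat_lit 325) (nat_lit 308) (nat_lit 147))) (XT.nd (nat_lit 78) (nat_lit 76) (nat_lit 0) (XT.lf (nat_lit 0) (nat_lit 349089993024) (nat_lit 76) (nat_lit 11822207807812) (nat_lit 76) (nat_lit 3362341988677)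 (nat_lit 12) (nat_lit 4) (nat_lit 13) (nat_lit 5) (nat_lit 13) (nat_lit 4) (nat_lit 326) (nat_lit 308) (nat_lit 146)) (XT.nd (nat_lit 78) (nat_lit 0) (nat_lit 0) (XT.lf (nat_lit 0) (nat_lit 150233116528) (nat_lit 152) (nat_lit 8136864618759) (nat_lit 76) (nat_lit 8880416954777) (nat_lit 11) (nat_lit 5) (nat_lit 13) (nat_lit 5) (nat_lit 12) (nat_lit 4) (nat_lit 327) (nat_lit 308) (nat_lit 145)) (XT.lf (nat_lit 0) (nat_lit 3845454712312) (nat_lit 152) (nat_lit 192138187965) (nat_lit 76) (nat_lit 14984861196957) (nat_lit 11) (nat_lit 5) (nat_lit 13) (nat_lit 5) (nat_lit 12) (nat_lit 4) (nat_lit 328) (nat_lit 308) (nat_lit 144))))) (XT.nd (nat_lit 156) (nat_lit 228) (nat_lit 0) (XT.nd (nat_lit 78) (nat_lit 0) (nat_lit 0) (XT.lf (nat_lit 0) (nat_lit 8556047723217) (nat_lit 152) (nat_lit 11330780803170) (nat_lit 0) (nat_lit 1199642662730) (nat_lit 10) (nat_lit 5) (nat_lit 12) (nat_lit 4) (nat_lit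 10) (nat_lit 4) (nat_lit 329) (nat_lit 308) (nat_lit 143)) (XT.lf (nat_lit 0) (nat_lit 14176017867345) (nat_lit 152) (nat_lit 2434041943432) (nat_lit 0) (nat_lit 6819612806766) (nat_lit 10) (nat_lit 5) (nat_lit 12) (nat_lit 4) (nat_lit 10) (nat_lit 4) (nat_lit 330) (nat_lit 308) (nat_lit 142))) (XT.nd (nat_lit 78) (nat_lit 152) (nat_lit 0) (XT.lf (nat_lit 0) (nat_lit 8559207592824) (nat_lit 76) (nat_lit 12434194474005) (nat_lit 76) (nat_lit 5077789413345) (nat_lit 9) (nat_lit 4) (nat_lit 10) (nat_lit 5) (nat_lit 10) (nat_lit 4) (nat_lit 331) (nat_lit 308) (nat_lit 141)) (XT.nd (nat_lit 78) (nat_lit 152) (nat_lit 0) (XT.lf (nat_lit 0) (nat_lit 21474997682242) (nat_lit 76) (nat_lit 7485630224552) (nat_lit 76) (nat_lit 129225163822) (nat_lit 9) (nat_lit 4) (nat_lit 10) (nat_lit 5) (nat_lit 10) (nat_lit 4) (nat_lit 332) (nat_lit 308) (nat_lit 140)) (XT.lf (nat_lit 0) (nat_lit 3882164540008)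 (nat_lit 76) (nat_lit 1345077134781) (nat_lit 152) (nat_lit 27275415154893) (nat_lit 7) (nat_lit 5) (nat_lit 8) (nat_lit 5) (nat_lit 9) (nat_lit 4) (nat_lit 333) (nat_lit 308) (nat_lit 139)))))) (XT.nd (nat_lit 38688) (nat_lit 0) (nat_lit 1444) (XT.nd (nat_lit 156) (nat_lit 76) (nat_lit 0) (XT.nd (nat_lit 78) (nat_lit 0) (nat_lit 0) (XT.lf (nat_lit 0) (nat_lit 12027662843518) (nat_lit 152) (nat_lit 18669949219691) (nat_lit 0) (nat_lit 5630788877566) (nat_lit 7) (nat_lit 5) (nat_lit 9) (nat_lit 4) (nat_lit 7) (nat_lit 4) (nat_lit 334) (nat_lit 308) (nat_lit 138)) (XT.lf (nat_lit 0) (nat_lit 19912198479592) (nat_lit 152) (nat_lit 7290875981533) (nat_lit 0) (nat_lit 13515324513601) (nat_lit 7) (nat_lit 5) (nat_lit 9) (nat_lit 4) (nat_lit 7) (nat_lit 4) (nat_lit 335) (nat_lit 308) (nat_lit 137))) (XT.nd (nat_lit 78) (nat_lit 0) (nat_lit 0) (XT.lf (nat_lit 0) (nat_lit 6361393479486) (nat_lit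 76) (nat_lit 22881432719790) (nat_lit 76) (nat_lit 16484558753763) (nat_lit 6) (nat_lit 4) (nat_lit 7) (nat_lit 5) (nat_lit 7) (nat_lit 4) (nat_lit 336) (nat_lit 308) (nat_lit 136)) (XT.nd (nat_lit 78) (nat_lit 0) (nat_lit 0) (XT.lf (nat_lit 0) (nat_lit 22880898398789) (nat_lit 76) (nat_lit 17473263649808) (nat_lit 76) (nat_lit 11076389683751) (nat_lit 6) (nat_lit 4) (nat_lit 7) (nat_lit 5) (nat_lit 7) (nat_lit 4) (nat_lit 337) (nat_lit 308) (nat_lit 135)) (XT.lf (nat_lit 0) (nat_lit 41878329055849) (nat_lit 76) (nat_lit 11253869219398) (nat_lit 76) (nat_lit 4856995253315) (nat_lit 6) (nat_lit 4) (nat_lit 7) (nat_lit 5) (nat_lit 7) (nat_lit 4) (nat_lit 338) (nat_lit 308) (nat_lit 134))))) (XT.nd (nat_lit 156) (nat_lit 0) (nat_lit 76) (XT.nd (nat_lit 78) (nat_lit 0) (nat_lit 0) (XT.lf (nat_lit 0) (nat_lit 392270369623) (nat_lit 380) (nat_lit 761378460450) (nat_lit 380) (nat_lit 761378460450)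 (nat_lit 25) (nat_lit 3) (nat_lit 30) (nat_lit 3) (nat_lit 30) (nat_lit 5) (nat_lit 309) (nat_lit 309) (nat_lit 162)) (XT.lf (nat_lit 76) (nat_lit 333660279666) (nat_lit 0) (nat_lit 523537179750) (nat_lit 380) (nat_lit 3258038790492) (nat_lit 26) (nat_lit 5) (nat_lit 25) (nat_lit 3) (nat_lit 30) (nat_lit 5) (nat_lit 310) (nat_lit 309) (nat_lit 161))) (XT.nd (nat_lit 78) (nat_lit 0) (nat_lit 0) (XT.lf (nat_lit 0) (nat_lit 1087404173445) (nat_lit 304) (nat_lit 1858631027073) (nat_lit 380) (nat_lit 1475162245704) (nat_lit 26) (nat_lit 5) (nat_lit 30) (nat_lit 5) (nat_lit 31) (nat_lit 5) (nat_lit 311) (nat_lit 309) (nat_lit 160)) (XT.nd (nat_lit 78) (nat_lit 0) (nat_lit 76) (XT.lf (nat_lit 76) (nat_lit 359862789150) (nat_lit 0) (nat_lit 1032110597372) (nat_lit 380) (nat_lit 3375104711671) (nat_lit 27) (nat_lit 5) (nat_lit 26) (nat_lit 5) (nat_lit 31) (nat_lit 5) (nat_lit 312) (nat_lit 309)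 (nat_lit 159)) (XT.lf (nat_lit 0) (nat_lit 1892411924244) (nat_lit 304) (nat_lit 2083280261813) (nat_lit 76) (nat_lit 1166621070504) (nat_lit 27) (nat_lit 5) (nat_lit 31) (nat_lit 5) (nat_lit 28) (nat_lit 5) (nat_lit 313) (nat_lit 309) (nat_lit 158))))))) (XT.nd (nat_lit 780) (nat_lit 684) (nat_lit 0) (XT.nd (nat_lit 390) (nat_lit 228) (nat_lit 0) (XT.nd (nat_lit 156) (nat_lit 304) (nat_lit 0) (XT.nd (nat_lit 78) (nat_lit 0) (nat_lit 0) (XT.lf (nat_lit 0) (nat_lit 592879117152) (nat_lit 304) (nat_lit 1948735108583) (nat_lit 380) (nat_lit 3021164765482) (nat_lit 23) (nat_lit 5) (nat_lit 27) (nat_lit 5) (nat_lit 28) (nat_lit 5) (nat_lit 314) (nat_lit 309) (nat_lit 157)) (XT.lf (nat_lit 0) (nat_lit 3418110067723) (nat_lit 380) (nat_lit 2146399534218) (nat_lit 76) (nat_lit 462318004841) (nat_lit 23) (nat_lit 5) (nat_lit 28) (nat_lit 5) (nat_lit 24) (nat_lit 5) (nat_lit 315) (nat_lit 309)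 (nat_lit 156))) (XT.nd (nat_lit 78) (nat_lit 152) (nat_lit 0) (XT.lf (nat_lit 0) (nat_lit 1106321320486) (nat_lit 152) (nat_lit 3458366281708) (nat_lit 228) (nat_lit 1975004815062) (nat_lit 21) (nat_lit 5) (nat_lit 23) (nat_lit 5) (nat_lit 24) (nat_lit 5) (nat_lit 316) (nat_lit 309) (nat_lit 155)) (XT.nd (nat_lit 78) (nat_lit 152) (nat_lit 0) (XT.lf (nat_lit 0) (nat_lit 5088176341504) (nat_lit 152) (nat_lit 907273582440) (nat_lit 228) (nat_lit 1117207301790) (nat_lit 21) (nat_lit 5) (nat_lit 23) (nat_lit 5) (nat_lit 24) (nat_lit 5) (nat_lit 317) (nat_lit 309) (nat_lit 154)) (XT.lf (nat_lit 0) (nat_lit 55085041357) (nat_lit 152) (nat_lit 5760234605475) (nat_lit 76) (nat_lit 1930931287902) (nat_lit 19) (nat_lit 5) (nat_lit 21) (nat_lit 5) (nat_lit 20) (nat_lit 5) (nat_lit 318) (nat_lit 309) (nat_lit 153))))) (XT.nd (nat_lit 156) (nat_lit 76) (nat_lit 0) (XT.nd (nat_lit 78) (nat_lit 152)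 (nat_lit 0) (XT.lf (nat_lit 0) (nat_lit 1442908421405) (nat_lit 152) (nat_lit 1734840904236) (nat_lit 76) (nat_lit 5266044132339) (nat_lit 19) (nat_lit 5) (nat_lit 21) (nat_lit 5) (nat_lit 20) (nat_lit 5) (nat_lit 319) (nat_lit 309) (nat_lit 152)) (XT.lf (nat_lit 0) (nat_lit 3170746826751) (nat_lit 228) (nat_lit 6049292748745) (nat_lit 76) (nat_lit 6151556475) (nat_lit 17) (nat_lit 5) (nat_lit 20) (nat_lit 5) (nat_lit 18) (nat_lit 4) (nat_lit 320) (nat_lit 309) (nat_lit 151))) (XT.nd (nat_lit 78) (nat_lit 76) (nat_lit 0) (XT.lf (nat_lit 0) (nat_lit 5404085581479) (nat_lit 228) (nat_lit 1247614426510) (nat_lit 76) (nat_lit 3437299760783) (nat_lit 17) (nat_lit 5) (nat_lit 20) (nat_lit 5) (nat_lit 18) (nat_lit 4) (nat_lit 321) (nat_lit 309) (nat_lit 150)) (XT.nd (nat_lit 78) (nat_lit 0) (nat_lit 0) (XT.lf (nat_lit 0) (nat_lit 4692032854341) (nat_lit 76) (nat_lit 3474679369568) (nat_lit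 152) (nat_lit 2885374416011) (nat_lit 16) (nat_lit 5) (nat_lit 17) (nat_lit 5) (nat_lit 18) (nat_lit 4) (nat_lit 322) (nat_lit 309) (nat_lit 149)) (XT.lf (nat_lit 0) (nat_lit 11419462239045) (nat_lit 152) (nat_lit 497525202759) (nat_lit 0) (nat_lit 231289693487) (nat_lit 16) (nat_lit 5) (nat_lit 18) (nat_lit 4) (nat_lit 16) (nat_lit 4) (nat_lit 323) (nat_lit 309) (nat_lit 148)))))) (XT.nd (nat_lit 390) (nat_lit 304) (nat_lit 0) (XT.nd (nat_lit 156) (nat_lit 152) (nat_lit 0) (XT.nd (nat_lit 78) (nat_lit 76) (nat_lit 0) (XT.lf (nat_lit 0) (nat_lit 2058134553632) (nat_lit 152) (nat_lit 6763183255495) (nat_lit 76) (nat_lit 4507279328206) (nat_lit 14) (nat_lit 5) (nat_lit 16) (nat_lit 5) (nat_lit 15) (nat_lit 4) (nat_lit 324) (nat_lit 309) (nat_lit 147)) (XT.lf (nat_lit 0) (nat_lit 28212565231) (nat_lit 76) (nat_lit 5188710742327) (nat_lit 152) (nat_lit 9459573963974) (nat_lit 13) (nat_lit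 5) (nat_lit 14) (nat_lit 5) (nat_lit 15) (nat_lit 4) (nat_lit 325) (nat_lit 309) (nat_lit 146))) (XT.nd (nat_lit 78) (nat_lit 152) (nat_lit 0) (XT.lf (nat_lit 0) (nat_lit 8598407331454) (nat_lit 76) (nat_lit 604653076759) (nat_lit 152) (nat_lit 6970492512600) (nat_lit 13) (nat_lit 5) (nat_lit 14) (nat_lit 5) (nat_lit 15) (nat_lit 4) (nat_lit 326) (nat_lit 309) (nat_lit 145)) (XT.nd (nat_lit 78) (nat_lit 76) (nat_lit 0) (XT.lf (nat_lit 0) (nat_lit 401453495308) (nat_lit 76) (nat_lit 13595538977429) (nat_lit 76) (nat_lit 3866693284935) (nat_lit 12) (nat_lit 4) (nat_lit 13) (nat_lit 5) (nat_lit 13) (nat_lit 4) (nat_lit 327) (nat_lit 309) (nat_lit 144)) (XT.lf (nat_lit 0) (nat_lit 172768085627) (nat_lit 152) (nat_lit 9357394308517) (nat_lit 76) (nat_lit 10212479499186) (nat_lit 11) (nat_lit 5) (nat_lit 13) (nat_lit 5) (nat_lit 12) (nat_lit 4) (nat_lit 328) (nat_lit 309) (nat_lit 143)))))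 (XT.nd (nat_lit 234) (nat_lit 228) (nat_lit 0) (XT.nd (nat_lit 78) (nat_lit 76) (nat_lit 0) (XT.lf (nat_lit 0) (nat_lit 4422272920567) (nat_lit 152) (nat_lit 220958913503) (nat_lit 76) (nat_lit 17232590377538) (nat_lit 11) (nat_lit 5) (nat_lit 13) (nat_lit 5) (nat_lit 12) (nat_lit 4) (nat_lit 329) (nat_lit 309) (nat_lit 142)) (XT.nd (nat_lit 78) (nat_lit 0) (nat_lit 0) (XT.lf (nat_lit 0) (nat_lit 9839454883079) (nat_lit 152) (nat_lit 13030397920958) (nat_lit 0) (nat_lit 1379589063239) (nat_lit 10) (nat_lit 5) (nat_lit 12) (nat_lit 4) (nat_lit 10) (nat_lit 4) (nat_lit 330) (nat_lit 309) (nat_lit 141)) (XT.lf (nat_lit 0) (nat_lit 16302420548647) (nat_lit 152) (nat_lit 2799148232611) (nat_lit 0) (nat_lit 7842554728737) (nat_lit 10) (nat_lit 5) (nat_lit 12) (nat_lit 4) (nat_lit 10) (nat_lit 4) (nat_lit 331) (nat_lit 309) (nat_lit 140)))) (XT.nd (nat_lit 78) (nat_lit 152) (nat_lit 0) (XT.lf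 (nat_lit 0) (nat_lit 9843088733978) (nat_lit 76) (nat_lit 14299323644011) (nat_lit 76) (nat_lit 5839457824041) (nat_lit 9) (nat_lit 4) (nat_lit 10) (nat_lit 5) (nat_lit 10) (nat_lit 4) (nat_lit 332) (nat_lit 309) (nat_lit 139)) (XT.nd (nat_lit 78) (nat_lit 152) (nat_lit 0) (XT.lf (nat_lit 0) (nat_lit 24696247336518) (nat_lit 76) (nat_lit 8608474757283) (nat_lit 76) (nat_lit 148608937259) (nat_lit 9) (nat_lit 4) (nat_lit 10) (nat_lit 5) (nat_lit 10) (nat_lit 4) (nat_lit 333) (nat_lit 309) (nat_lit 138)) (XT.lf (nat_lit 0) (nat_lit 4464489222958) (nat_lit 76) (nat_lit 1546838704031) (nat_lit 152) (nat_lit 31366727426999) (nat_lit 7) (nat_lit 5) (nat_lit 8) (nat_lit 5) (nat_lit 9) (nat_lit 4) (nat_lit 334) (nat_lit 309) (nat_lit 137))))))))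
noncomputable def xc120 : XT := (XT.nd (nat_lit 39936) (nat_lit 0) (nat_lit 0) (XT.nd (nat_lit 39156) (nat_lit 0) (nat_lit 608) (XT.nd (nat_lit 38766) (nat_lit 0) (nat_lit 1292) (XT.nd (nat_lit 156) (nat_lit 76) (nat_lit 0) (XT.nd (nat_lit 78) (nat_lit 0) (nat_lit 0) (XT.lf (nat_lit 0) (nat_lit 13831812270933) (nat_lit 152) (nat_lit 21470441600857) (nat_lit 0) (nat_lit 6475407209968) (nat_lit 7) (nat_lit 5) (nat_lit 9) (nat_lit 4) (nat_lit 7) (nat_lit 4) (nat_lit 335) (nat_lit 309) (nat_lit 136)) (XT.lf (nat_lit 0) (nat_lit 22899028252303) (nat_lit 152) (nat_lit 8384507377208) (nat_lit 0) (nat_lit 15542623191308) (nat_lit 7) (nat_lit 5) (nat_lit 9) (nat_lit 4) (nat_lit 7) (nat_lit 4) (nat_lit 336) (nat_lit 309) (nat_lit 135))) (XT.nd (nat_lit 78) (nat_lit 0) (nat_lit 0) (XT.lf (nat_lit 0) (nat_lit 7315602502893) (nat_lit 76) (nat_lit 26313647627007) (nat_lit 76) (nat_lit 18957242565985)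 (nat_lit 6) (nat_lit 4) (nat_lit 7) (nat_lit 5) (nat_lit 7) (nat_lit 4) (nat_lit 337) (nat_lit 309) (nat_lit 134)) (XT.nd (nat_lit 38454) (nat_lit 0) (nat_lit 1444) (XT.lf (nat_lit 0) (nat_lit 26313033159897) (nat_lit 76) (nat_lit 20094253196626) (nat_lit 76) (nat_lit 12737848135581) (nat_lit 6) (nat_lit 4) (nat_lit 7) (nat_lit 5) (nat_lit 7) (nat_lit 4) (nat_lit 338) (nat_lit 309) (nat_lit 133)) (XT.lf (nat_lit 0) (nat_lit 451110928975) (nat_lit 380) (nat_lit 875585227265) (nat_lit 380) (nat_lit 875585227265) (nat_lit 25) (nat_lit 3) (nat_lit 30) (nat_lit 3) (nat_lit 30) (nat_lit 5) (nat_lit 310) (nat_lit 310) (nat_lit 160))))) (XT.nd (nat_lit 156) (nat_lit 152) (nat_lit 0) (XT.nd (nat_lit 78) (nat_lit 0) (nat_lit 76) (XT.lf (nat_lit 76) (nat_lit 383709325916) (nat_lit 0) (nat_lit 602067759387) (nat_lit 380) (nat_lit 3746744601026) (nat_lit 26) (nat_lit 5) (nat_lit 25) (nat_lit 3) (nat_lit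 30) (nat_lit 5) (nat_lit 311) (nat_lit 310) (nat_lit 159)) (XT.lf (nat_lit 0) (nat_lit 1250514805430) (nat_lit 304) (nat_lit 2137425676374) (nat_lit 380) (nat_lit 1696436580440) (nat_lit 26) (nat_lit 5) (nat_lit 30) (nat_lit 5) (nat_lit 31) (nat_lit 5) (nat_lit 312) (nat_lit 310) (nat_lit 158))) (XT.nd (nat_lit 78) (nat_lit 228) (nat_lit 0) (XT.lf (nat_lit 76) (nat_lit 413842212067) (nat_lit 0) (nat_lit 1186927187812) (nat_lit 380) (nat_lit 3881370412224) (nat_lit 27) (nat_lit 5) (nat_lit 26) (nat_lit 5) (nat_lit 31) (nat_lit 5) (nat_lit 313) (nat_lit 310) (nat_lit 157)) (XT.nd (nat_lit 78) (nat_lit 304) (nat_lit 0) (XT.lf (nat_lit 0) (nat_lit 2176273717528) (nat_lit 304) (nat_lit 2395772296390) (nat_lit 76) (nat_lit 1341614230419) (nat_lit 27) (nat_lit 5) (nat_lit 31) (nat_lit 5) (nat_lit 28) (nat_lit 5) (nat_lit 314) (nat_lit 310) (nat_lit 156)) (XT.lf (nat_lit 0) (nat_lit 681810989207)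 (nat_lit 304) (nat_lit 2241045374615) (nat_lit 380) (nat_lit 3474339475434) (nat_lit 23) (nat_lit 5) (nat_lit 27) (nat_lit 5) (nat_lit 28) (nat_lit 5) (nat_lit 315) (nat_lit 310) (nat_lit 155)))))) (XT.nd (nat_lit 390) (nat_lit 380) (nat_lit 0) (XT.nd (nat_lit 156) (nat_lit 152) (nat_lit 0) (XT.nd (nat_lit 78) (nat_lit 152) (nat_lit 0) (XT.lf (nat_lit 0) (nat_lit 3930826581566) (nat_lit 380) (nat_lit 2468359459903) (nat_lit 76) (nat_lit 531665705769) (nat_lit 23) (nat_lit 5) (nat_lit 28) (nat_lit 5) (nat_lit 24) (nat_lit 5) (nat_lit 316) (nat_lit 310) (nat_lit 154)) (XT.lf (nat_lit 0) (nat_lit 1272269522804) (nat_lit 152) (nat_lit 3977121223097) (nat_lit 228) (nat_lit 2271255533427) (nat_lit 21) (nat_lit 5) (nat_lit 23) (nat_lit 5) (nat_lit 24) (nat_lit 5) (nat_lit 317) (nat_lit 310) (nat_lit 153))) (XT.nd (nat_lit 78) (nat_lit 152) (nat_lit 0) (XT.lf (nat_lit 0) (nat_lit 5851402796421)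 (nat_lit 152) (nat_lit 1043364619052) (nat_lit 228) (nat_lit 1284788393673) (nat_lit 21) (nat_lit 5) (nat_lit 23) (nat_lit 5) (nat_lit 24) (nat_lit 5) (nat_lit 318) (nat_lit 310) (nat_lit 152)) (XT.nd (nat_lit 78) (nat_lit 0) (nat_lit 0) (XT.lf (nat_lit 0) (nat_lit 63347800441) (nat_lit 152) (nat_lit 6624269792089) (nat_lit 76) (nat_lit 2220570981977) (nat_lit 19) (nat_lit 5) (nat_lit 21) (nat_lit 5) (nat_lit 20) (nat_lit 5) (nat_lit 319) (nat_lit 310) (nat_lit 151)) (XT.lf (nat_lit 0) (nat_lit 1659344687121) (nat_lit 152) (nat_lit 1995067036212) (nat_lit 76) (nat_lit 6055950752964) (nat_lit 19) (nat_lit 5) (nat_lit 21) (nat_lit 5) (nat_lit 20) (nat_lit 5) (nat_lit 320) (nat_lit 310) (nat_lit 150))))) (XT.nd (nat_lit 156) (nat_lit 228) (nat_lit 0) (XT.nd (nat_lit 78) (nat_lit 0) (nat_lit 0) (XT.lf (nat_lit 0) (nat_lit 3646358853135) (nat_lit 228) (nat_lit 6956686657260) (nat_lit 76)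 (nat_lit 7074291012) (nat_lit 17) (nat_lit 5) (nat_lit 20) (nat_lit 5) (nat_lit 18) (nat_lit 4) (nat_lit 321) (nat_lit 310) (nat_lit 149)) (XT.lf (nat_lit 0) (nat_lit 6214698420763) (nat_lit 228) (nat_lit 1434756587185) (nat_lit 76) (nat_lit 3952894725827) (nat_lit 17) (nat_lit 5) (nat_lit 20) (nat_lit 5) (nat_lit 18) (nat_lit 4) (nat_lit 322) (nat_lit 310) (nat_lit 148))) (XT.nd (nat_lit 78) (nat_lit 152) (nat_lit 0) (XT.lf (nat_lit 0) (nat_lit 5395837785644) (nat_lit 76) (nat_lit 3995881273776) (nat_lit 152) (nat_lit 3318180576198) (nat_lit 16) (nat_lit 5) (nat_lit 17) (nat_lit 5) (nat_lit 18) (nat_lit 4) (nat_lit 323) (nat_lit 310) (nat_lit 147)) (XT.nd (nat_lit 78) (nat_lit 152) (nat_lit 0) (XT.lf (nat_lit 0) (nat_lit 13132381576619) (nat_lit 152) (nat_lit 572153980224) (nat_lit 0) (nat_lit 265983148482) (nat_lit 16) (nat_lit 5) (nat_lit 18) (nat_lit 4) (nat_lit 16) (nat_lit 4) (nat_lit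 324) (nat_lit 310) (nat_lit 146)) (XT.lf (nat_lit 0) (nat_lit 2366854738365) (nat_lit 152) (nat_lit 7777660740837) (nat_lit 76) (nat_lit 5183371228476) (nat_lit 14) (nat_lit 5) (nat_lit 16) (nat_lit 5) (nat_lit 15) (nat_lit 4) (nat_lit 325) (nat_lit 310) (nat_lit 145))))))) (XT.nd (nat_lit 780) (nat_lit 76) (nat_lit 0) (XT.nd (nat_lit 390) (nat_lit 304) (nat_lit 0) (XT.nd (nat_lit 156) (nat_lit 152) (nat_lit 0) (XT.nd (nat_lit 78) (nat_lit 0) (nat_lit 0) (XT.lf (nat_lit 0) (nat_lit 32444452862) (nat_lit 76) (nat_lit 5967017352415) (nat_lit 152) (nat_lit 10878510056744) (nat_lit 13) (nat_lit 5) (nat_lit 14) (nat_lit 5) (nat_lit 15) (nat_lit 4) (nat_lit 326) (nat_lit 310) (nat_lit 144)) (XT.lf (nat_lit 0) (nat_lit 9888168433648) (nat_lit 76) (nat_lit 695351037176) (nat_lit 152) (nat_lit 8016066387902) (nat_lit 13) (nat_lit 5) (nat_lit 14) (nat_lit 5) (nat_lit 15) (nat_lit 4) (nat_lit 327)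 (nat_lit 310) (nat_lit 143))) (XT.nd (nat_lit 78) (nat_lit 76) (nat_lit 0) (XT.lf (nat_lit 0) (nat_lit 461671522123) (nat_lit 76) (nat_lit 15634869822867) (nat_lit 76) (nat_lit 4446697276130) (nat_lit 12) (nat_lit 4) (nat_lit 13) (nat_lit 5) (nat_lit 13) (nat_lit 4) (nat_lit 328) (nat_lit 310) (nat_lit 142)) (XT.nd (nat_lit 78) (nat_lit 0) (nat_lit 0) (XT.lf (nat_lit 0) (nat_lit 198683299695) (nat_lit 152) (nat_lit 10761003452483) (nat_lit 76) (nat_lit 11744351424966) (nat_lit 11) (nat_lit 5) (nat_lit 13) (nat_lit 5) (nat_lit 12) (nat_lit 4) (nat_lit 329) (nat_lit 310) (nat_lit 141)) (XT.lf (nat_lit 0) (nat_lit 5085613859717) (nat_lit 152) (nat_lit 254102748519) (nat_lit 76) (nat_lit 19817478934953) (nat_lit 11) (nat_lit 5) (nat_lit 13) (nat_lit 5) (nat_lit 12) (nat_lit 4) (nat_lit 330) (nat_lit 310) (nat_lit 140))))) (XT.nd (nat_lit 156) (nat_lit 228) (nat_lit 0) (XT.nd (nat_lit 78)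 (nat_lit 0) (nat_lit 0) (XT.lf (nat_lit 0) (nat_lit 11315373116584) (nat_lit 152) (nat_lit 14984957607071) (nat_lit 0) (nat_lit 1586527423557) (nat_lit 10) (nat_lit 5) (nat_lit 12) (nat_lit 4) (nat_lit 10) (nat_lit 4) (nat_lit 331) (nat_lit 310) (nat_lit 139)) (XT.lf (nat_lit 0) (nat_lit 18747783631851) (nat_lit 152) (nat_lit 3219020465736) (nat_lit 0) (nat_lit 9018937938771) (nat_lit 10) (nat_lit 5) (nat_lit 12) (nat_lit 4) (nat_lit 10) (nat_lit 4) (nat_lit 332) (nat_lit 310) (nat_lit 138))) (XT.nd (nat_lit 78) (nat_lit 152) (nat_lit 0) (XT.lf (nat_lit 0) (nat_lit 11319552045761) (nat_lit 76) (nat_lit 16444222189785) (nat_lit 76) (nat_lit 6715376496659) (nat_lit 9) (nat_lit 4) (nat_lit 10) (nat_lit 5) (nat_lit 10) (nat_lit 4) (nat_lit 333) (nat_lit 310) (nat_lit 137)) (XT.nd (nat_lit 78) (nat_lit 152) (nat_lit 0) (XT.lf (nat_lit 0) (nat_lit 28400684438462) (nat_lit 76) (nat_lit 9899745970155)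 (nat_lit 76) (nat_lit 170900276989) (nat_lit 9) (nat_lit 4) (nat_lit 10) (nat_lit 5) (nat_lit 10) (nat_lit 4) (nat_lit 334) (nat_lit 310) (nat_lit 136)) (XT.lf (nat_lit 0) (nat_lit 5134162607875) (nat_lit 76) (nat_lit 1778864508904) (nat_lit 152) (nat_lit 36071736540195) (nat_lit 7) (nat_lit 5) (nat_lit 8) (nat_lit 5) (nat_lit 9) (nat_lit 4) (nat_lit 335) (nat_lit 310) (nat_lit 135)))))) (XT.nd (nat_lit 38766) (nat_lit 0) (nat_lit 1292) (XT.nd (nat_lit 156) (nat_lit 76) (nat_lit 0) (XT.nd (nat_lit 78) (nat_lit 0) (nat_lit 0) (XT.lf (nat_lit 0) (nat_lit 15906584112244) (nat_lit 152) (nat_lit 24691007839634) (nat_lit 0) (nat_lit 7446718292043) (nat_lit 7) (nat_lit 5) (nat_lit 9) (nat_lit 4) (nat_lit 7) (nat_lit 4) (nat_lit 336) (nat_lit 310) (nat_lit 134)) (XT.lf (nat_lit 0) (nat_lit 26333882490732) (nat_lit 152) (nat_lit 9642183482614) (nat_lit 0) (nat_lit 17874016670508) (nat_lit 7)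 (nat_lit 5) (nat_lit 9) (nat_lit 4) (nat_lit 7) (nat_lit 4) (nat_lit 337) (nat_lit 310) (nat_lit 133))) (XT.nd (nat_lit 78) (nat_lit 0) (nat_lit 0) (XT.lf (nat_lit 0) (nat_lit 8412942879449) (nat_lit 76) (nat_lit 30260694770490) (nat_lit 76) (nat_lit 21800828950246) (nat_lit 6) (nat_lit 4) (nat_lit 7) (nat_lit 5) (nat_lit 7) (nat_lit 4) (nat_lit 338) (nat_lit 310) (nat_lit 132)) (XT.nd (nat_lit 38454) (nat_lit 0) (nat_lit 1444) (XT.lf (nat_lit 0) (nat_lit 30259988134858) (nat_lit 76) (nat_lit 23108391175625) (nat_lit 76) (nat_lit 14648525355364) (nat_lit 6) (nat_lit 4) (nat_lit 7) (nat_lit 5) (nat_lit 7) (nat_lit 4) (nat_lit 339) (nat_lit 310) (nat_lit 131)) (XT.lf (nat_lit 0) (nat_lit 518777571276) (nat_lit 380) (nat_lit 1006923009652) (nat_lit 380) (nat_lit 1006923009652) (nat_lit 25) (nat_lit 3) (nat_lit 30) (nat_lit 3) (nat_lit 30) (nat_lit 5) (nat_lit 311) (nat_lit 311) (nat_lit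 158))))) (XT.nd (nat_lit 156) (nat_lit 152) (nat_lit 0) (XT.nd (nat_lit 78) (nat_lit 0) (nat_lit 76) (XT.lf (nat_lit 76) (nat_lit 441265728055) (nat_lit 0) (nat_lit 692377925318) (nat_lit 380) (nat_lit 4308756285102) (nat_lit 26) (nat_lit 5) (nat_lit 25) (nat_lit 3) (nat_lit 30) (nat_lit 5) (nat_lit 312) (nat_lit 311) (nat_lit 157)) (XT.lf (nat_lit 0) (nat_lit 1438092030758) (nat_lit 304) (nat_lit 2458039524230) (nat_lit 380) (nat_lit 1950902065904) (nat_lit 26) (nat_lit 5) (nat_lit 30) (nat_lit 5) (nat_lit 31) (nat_lit 5) (nat_lit 313) (nat_lit 311) (nat_lit 156))) (XT.nd (nat_lit 78) (nat_lit 228) (nat_lit 0) (XT.lf (nat_lit 76) (nat_lit 475918547314) (nat_lit 0) (nat_lit 1364966266614) (nat_lit 380) (nat_lit 4463575969370) (nat_lit 27) (nat_lit 5) (nat_lit 26) (nat_lit 5) (nat_lit 31) (nat_lit 5) (nat_lit 314) (nat_lit 311) (nat_lit 155)) (XT.nd (nat_lit 78) (nat_lit 304) (nat_lit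 0) (XT.lf (nat_lit 0) (nat_lit 2502714778671) (nat_lit 304) (nat_lit 2755138137298) (nat_lit 76) (nat_lit 1542856364482) (nat_lit 27) (nat_lit 5) (nat_lit 31) (nat_lit 5) (nat_lit 28) (nat_lit 5) (nat_lit 315) (nat_lit 311) (nat_lit 154)) (XT.lf (nat_lit 0) (nat_lit 784082640977) (nat_lit 304) (nat_lit 2577202180614) (nat_lit 380) (nat_lit 3995490393066) (nat_lit 23) (nat_lit 5) (nat_lit 27) (nat_lit 5) (nat_lit 28) (nat_lit 5) (nat_lit 316) (nat_lit 311) (nat_lit 153))))))))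
noncomputable def xc121 : XT := (XT.nd (nat_lit 1560) (nat_lit 76) (nat_lit 0) (XT.nd (nat_lit 780) (nat_lit 532) (nat_lit 0) (XT.nd (nat_lit 390) (nat_lit 380) (nat_lit 0) (XT.nd (nat_lit 156) (nat_lit 152) (nat_lit 0) (XT.nd (nat_lit 78) (nat_lit 152) (nat_lit 0) (XT.lf (nat_lit 0) (nat_lit 4520450571587) (nat_lit 380) (nat_lit 2838613375525) (nat_lit 76) (nat_lit 611415561788) (nat_lit 23) (nat_lit 5) (nat_lit 28) (nat_lit 5) (nat_lit 24) (nat_lit 5) (nat_lit 317) (nat_lit 311) (nat_lit 152)) (XT.lf (nat_lit 0) (nat_lit 1463109954436) (nat_lit 152) (nat_lit 4573689405907) (nat_lit 228) (nat_lit 2611943860497) (nat_lit 21) (nat_lit 5) (nat_lit 23) (nat_lit 5) (nat_lit 24) (nat_lit 5) (nat_lit 318) (nat_lit 311) (nat_lit 151))) (XT.nd (nat_lit 78) (nat_lit 152) (nat_lit 0) (XT.lf (nat_lit 0) (nat_lit 6729113218677) (nat_lit 152) (nat_lit 1199869311341) (nat_lit 228) (nat_lit 1477506650163)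 (nat_lit 21) (nat_lit 5) (nat_lit 23) (nat_lit 5) (nat_lit 24) (nat_lit 5) (nat_lit 319) (nat_lit 311) (nat_lit 150)) (XT.nd (nat_lit 78) (nat_lit 0) (nat_lit 0) (XT.lf (nat_lit 0) (nat_lit 72849972686) (nat_lit 152) (nat_lit 7617910257720) (nat_lit 76) (nat_lit 2553656629947) (nat_lit 19) (nat_lit 5) (nat_lit 21) (nat_lit 5) (nat_lit 20) (nat_lit 5) (nat_lit 320) (nat_lit 311) (nat_lit 149)) (XT.lf (nat_lit 0) (nat_lit 1908246392083) (nat_lit 152) (nat_lit 2294327088877) (nat_lit 76) (nat_lit 6964343366494) (nat_lit 19) (nat_lit 5) (nat_lit 21) (nat_lit 5) (nat_lit 20) (nat_lit 5) (nat_lit 321) (nat_lit 311) (nat_lit 148))))) (XT.nd (nat_lit 156) (nat_lit 228) (nat_lit 0) (XT.nd (nat_lit 78) (nat_lit 0) (nat_lit 0) (XT.lf (nat_lit 0) (nat_lit 4193312682898) (nat_lit 228) (nat_lit 8000189652978) (nat_lit 76) (nat_lit 8135435470) (nat_lit 17) (nat_lit 5) (nat_lit 20) (nat_lit 5) (nat_lit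 18) (nat_lit 4) (nat_lit 322) (nat_lit 311) (nat_lit 147)) (XT.lf (nat_lit 0) (nat_lit 7146903185437) (nat_lit 228) (nat_lit 1649970072766) (nat_lit 76) (nat_lit 4545828935402) (nat_lit 17) (nat_lit 5) (nat_lit 20) (nat_lit 5) (nat_lit 18) (nat_lit 4) (nat_lit 323) (nat_lit 311) (nat_lit 146))) (XT.nd (nat_lit 78) (nat_lit 152) (nat_lit 0) (XT.lf (nat_lit 0) (nat_lit 6205213455874) (nat_lit 76) (nat_lit 4595263463914) (nat_lit 152) (nat_lit 3815907660952) (nat_lit 16) (nat_lit 5) (nat_lit 17) (nat_lit 5) (nat_lit 18) (nat_lit 4) (nat_lit 324) (nat_lit 311) (nat_lit 145)) (XT.nd (nat_lit 78) (nat_lit 152) (nat_lit 0) (XT.lf (nat_lit 0) (nat_lit 15102238814410) (nat_lit 152) (nat_lit 657977075027) (nat_lit 0) (nat_lit 305880621490) (nat_lit 16) (nat_lit 5) (nat_lit 18) (nat_lit 4) (nat_lit 16) (nat_lit 4) (nat_lit 325) (nat_lit 311) (nat_lit 144)) (XT.lf (nat_lit 0) (nat_lit 2721882950396)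 (nat_lit 152) (nat_lit 8944309849708) (nat_lit 76) (nat_lit 5960876913533) (nat_lit 14) (nat_lit 5) (nat_lit 16) (nat_lit 5) (nat_lit 15) (nat_lit 4) (nat_lit 326) (nat_lit 311) (nat_lit 143)))))) (XT.nd (nat_lit 390) (nat_lit 304) (nat_lit 0) (XT.nd (nat_lit 156) (nat_lit 152) (nat_lit 0) (XT.nd (nat_lit 78) (nat_lit 0) (nat_lit 0) (XT.lf (nat_lit 0) (nat_lit 37311122945) (nat_lit 76) (nat_lit 6862069954323) (nat_lit 152) (nat_lit 12510286563875) (nat_lit 13) (nat_lit 5) (nat_lit 14) (nat_lit 5) (nat_lit 15) (nat_lit 4) (nat_lit 327) (nat_lit 311) (nat_lit 142)) (XT.lf (nat_lit 0) (nat_lit 11371393700568) (nat_lit 76) (nat_lit 799653691923) (nat_lit 152) (nat_lit 9218476344887) (nat_lit 13) (nat_lit 5) (nat_lit 14) (nat_lit 5) (nat_lit 15) (nat_lit 4) (nat_lit 328) (nat_lit 311) (nat_lit 141))) (XT.nd (nat_lit 78) (nat_lit 76) (nat_lit 0) (XT.lf (nat_lit 0) (nat_lit 530922252346) (nat_lit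 76) (nat_lit 17980100295408) (nat_lit 76) (nat_lit 5113701866380) (nat_lit 12) (nat_lit 4) (nat_lit 13) (nat_lit 5) (nat_lit 13) (nat_lit 4) (nat_lit 329) (nat_lit 311) (nat_lit 140)) (XT.nd (nat_lit 78) (nat_lit 0) (nat_lit 0) (XT.lf (nat_lit 0) (nat_lit 228485795576) (nat_lit 152) (nat_lit 12375153968609) (nat_lit 76) (nat_lit 13506004139393) (nat_lit 11) (nat_lit 5) (nat_lit 13) (nat_lit 5) (nat_lit 12) (nat_lit 4) (nat_lit 330) (nat_lit 311) (nat_lit 139)) (XT.lf (nat_lit 0) (nat_lit 5848455939479) (nat_lit 152) (nat_lit 292218159277) (nat_lit 76) (nat_lit 22790100775789) (nat_lit 11) (nat_lit 5) (nat_lit 13) (nat_lit 5) (nat_lit 12) (nat_lit 4) (nat_lit 331) (nat_lit 311) (nat_lit 138))))) (XT.nd (nat_lit 156) (nat_lit 228) (nat_lit 0) (XT.nd (nat_lit 78) (nat_lit 0) (nat_lit 0) (XT.lf (nat_lit 0) (nat_lit 13012679084860) (nat_lit 152) (nat_lit 17232701246595) (nat_lit 0) (nat_lit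 1824506537719) (nat_lit 10) (nat_lit 5) (nat_lit 12) (nat_lit 4) (nat_lit 10) (nat_lit 4) (nat_lit 332) (nat_lit 311) (nat_lit 137)) (XT.lf (nat_lit 0) (nat_lit 21559951177314) (nat_lit 152) (nat_lit 3701873534260) (nat_lit 0) (nat_lit 10371778630133) (nat_lit 10) (nat_lit 5) (nat_lit 12) (nat_lit 4) (nat_lit 10) (nat_lit 4) (nat_lit 333) (nat_lit 311) (nat_lit 136))) (XT.nd (nat_lit 78) (nat_lit 152) (nat_lit 0) (XT.lf (nat_lit 0) (nat_lit 13017484853900) (nat_lit 76) (nat_lit 18910855517627) (nat_lit 76) (nat_lit 7722682970411) (nat_lit 9) (nat_lit 4) (nat_lit 10) (nat_lit 5) (nat_lit 10) (nat_lit 4) (nat_lit 334) (nat_lit 311) (nat_lit 135)) (XT.nd (nat_lit 78) (nat_lit 152) (nat_lit 0) (XT.lf (nat_lit 0) (nat_lit 32660787105340) (nat_lit 76) (nat_lit 11384707865134) (nat_lit 76) (nat_lit 196535317888) (nat_lit 9) (nat_lit 4) (nat_lit 10) (nat_lit 5) (nat_lit 10) (nat_lit 4) (nat_lit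 335) (nat_lit 311) (nat_lit 134)) (XT.lf (nat_lit 0) (nat_lit 5904287000170) (nat_lit 76) (nat_lit 2045694184686) (nat_lit 152) (nat_lit 41482497020580) (nat_lit 7) (nat_lit 5) (nat_lit 8) (nat_lit 5) (nat_lit 9) (nat_lit 4) (nat_lit 336) (nat_lit 311) (nat_lit 133))))))) (XT.nd (nat_lit 39234) (nat_lit 0) (nat_lit 532) (XT.nd (nat_lit 38844) (nat_lit 0) (nat_lit 1292) (XT.nd (nat_lit 156) (nat_lit 76) (nat_lit 0) (XT.nd (nat_lit 78) (nat_lit 0) (nat_lit 0) (XT.lf (nat_lit 0) (nat_lit 18292571729588) (nat_lit 152) (nat_lit 28394659014557) (nat_lit 0) (nat_lit 8563726036288) (nat_lit 7) (nat_lit 5) (nat_lit 9) (nat_lit 4) (nat_lit 7) (nat_lit 4) (nat_lit 337) (nat_lit 311) (nat_lit 132)) (XT.lf (nat_lit 0) (nat_lit 30283964864783) (nat_lit 152) (nat_lit 11088511004118) (nat_lit 0) (nat_lit 20555119171465) (nat_lit 7) (nat_lit 5) (nat_lit 9) (nat_lit 4) (nat_lit 7) (nat_lit 4) (nat_lit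 338) (nat_lit 311) (nat_lit 131))) (XT.nd (nat_lit 38532) (nat_lit 0) (nat_lit 1444) (XT.lf (nat_lit 0) (nat_lit 9674884312215) (nat_lit 76) (nat_lit 34799798985634) (nat_lit 76) (nat_lit 25070953292301) (nat_lit 6) (nat_lit 4) (nat_lit 7) (nat_lit 5) (nat_lit 7) (nat_lit 4) (nat_lit 339) (nat_lit 311) (nat_lit 130)) (XT.nd (nat_lit 78) (nat_lit 0) (nat_lit 0) (XT.lf (nat_lit 0) (nat_lit 596594209202) (nat_lit 380) (nat_lit 1157961459812) (nat_lit 380) (nat_lit 1157961459812) (nat_lit 25) (nat_lit 3) (nat_lit 30) (nat_lit 3) (nat_lit 30) (nat_lit 5) (nat_lit 312) (nat_lit 312) (nat_lit 156)) (XT.lf (nat_lit 76) (nat_lit 507455589722) (nat_lit 0) (nat_lit 796234615645) (nat_lit 380) (nat_lit 4955069723271) (nat_lit 26) (nat_lit 5) (nat_lit 25) (nat_lit 3) (nat_lit 30) (nat_lit 5) (nat_lit 313) (nat_lit 312) (nat_lit 155))))) (XT.nd (nat_lit 156) (nat_lit 228) (nat_lit 0) (XT.nd (nat_lit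 78) (nat_lit 0) (nat_lit 0) (XT.lf (nat_lit 0) (nat_lit 1653805838785) (nat_lit 304) (nat_lit 2826745450143) (nat_lit 380) (nat_lit 2243537374579) (nat_lit 26) (nat_lit 5) (nat_lit 30) (nat_lit 5) (nat_lit 31) (nat_lit 5) (nat_lit 314) (nat_lit 312) (nat_lit 154)) (XT.lf (nat_lit 76) (nat_lit 547306332009) (nat_lit 0) (nat_lit 1569711207084) (nat_lit 380) (nat_lit 5133112361232) (nat_lit 27) (nat_lit 5) (nat_lit 26) (nat_lit 5) (nat_lit 31) (nat_lit 5) (nat_lit 315) (nat_lit 312) (nat_lit 153))) (XT.nd (nat_lit 78) (nat_lit 304) (nat_lit 0) (XT.lf (nat_lit 0) (nat_lit 2878121998128) (nat_lit 304) (nat_lit 3168408855208) (nat_lit 76) (nat_lit 1774284818777) (nat_lit 27) (nat_lit 5) (nat_lit 31) (nat_lit 5) (nat_lit 28) (nat_lit 5) (nat_lit 316) (nat_lit 312) (nat_lit 152)) (XT.nd (nat_lit 78) (nat_lit 0) (nat_lit 0) (XT.lf (nat_lit 0) (nat_lit 901695039686) (nat_lit 304) (nat_lit 2963782507561)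 (nat_lit 380) (nat_lit 4594813949241) (nat_lit 23) (nat_lit 5) (nat_lit 27) (nat_lit 5) (nat_lit 28) (nat_lit 5) (nat_lit 317) (nat_lit 312) (nat_lit 151)) (XT.lf (nat_lit 0) (nat_lit 5198518159432) (nat_lit 380) (nat_lit 3264405379310) (nat_lit 76) (nat_lit 703127896172) (nat_lit 23) (nat_lit 5) (nat_lit 28) (nat_lit 5) (nat_lit 24) (nat_lit 5) (nat_lit 318) (nat_lit 312) (nat_lit 150)))))) (XT.nd (nat_lit 390) (nat_lit 304) (nat_lit 0) (XT.nd (nat_lit 156) (nat_lit 304) (nat_lit 0) (XT.nd (nat_lit 78) (nat_lit 0) (nat_lit 0) (XT.lf (nat_lit 0) (nat_lit 1682576450029) (nat_lit 152) (nat_lit 5259742816298) (nat_lit 228) (nat_lit 3003735437345) (nat_lit 21) (nat_lit 5) (nat_lit 23) (nat_lit 5) (nat_lit 24) (nat_lit 5) (nat_lit 319) (nat_lit 312) (nat_lit 149)) (XT.lf (nat_lit 0) (nat_lit 7738480203589) (nat_lit 152) (nat_lit 1379849707611) (nat_lit 228) (nat_lit 1699132645752) (nat_lit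 21) (nat_lit 5) (nat_lit 23) (nat_lit 5) (nat_lit 24) (nat_lit 5) (nat_lit 320) (nat_lit 312) (nat_lit 148))) (XT.nd (nat_lit 78) (nat_lit 152) (nat_lit 0) (XT.lf (nat_lit 0) (nat_lit 83777470236) (nat_lit 152) (nat_lit 8760596793972) (nat_lit 76) (nat_lit 2936705124948) (nat_lit 19) (nat_lit 5) (nat_lit 21) (nat_lit 5) (nat_lit 20) (nat_lit 5) (nat_lit 321) (nat_lit 312) (nat_lit 147)) (XT.nd (nat_lit 78) (nat_lit 152) (nat_lit 0) (XT.lf (nat_lit 0) (nat_lit 2194483352328) (nat_lit 152) (nat_lit 2638476150116) (nat_lit 76) (nat_lit 8008994871911) (nat_lit 19) (nat_lit 5) (nat_lit 21) (nat_lit 5) (nat_lit 20) (nat_lit 5) (nat_lit 322) (nat_lit 312) (nat_lit 146)) (XT.lf (nat_lit 0) (nat_lit 4822309586689) (nat_lit 228) (nat_lit 9200218098754) (nat_lit 76) (nat_lit 9355751400) (nat_lit 17) (nat_lit 5) (nat_lit 20) (nat_lit 5) (nat_lit 18) (nat_lit 4) (nat_lit 323) (nat_lit 312) (nat_lit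 145))))) (XT.nd (nat_lit 234) (nat_lit 228) (nat_lit 0) (XT.nd (nat_lit 78) (nat_lit 76) (nat_lit 0) (XT.lf (nat_lit 0) (nat_lit 8218938664431) (nat_lit 228) (nat_lit 1897465581794) (nat_lit 76) (nat_lit 5227703276243) (nat_lit 17) (nat_lit 5) (nat_lit 20) (nat_lit 5) (nat_lit 18) (nat_lit 4) (nat_lit 324) (nat_lit 312) (nat_lit 144)) (XT.nd (nat_lit 78) (nat_lit 0) (nat_lit 0) (XT.lf (nat_lit 0) (nat_lit 7135995476057) (nat_lit 76) (nat_lit 5284552982799) (nat_lit 152) (nat_lit 4388293808829) (nat_lit 16) (nat_lit 5) (nat_lit 17) (nat_lit 5) (nat_lit 18) (nat_lit 4) (nat_lit 325) (nat_lit 312) (nat_lit 143)) (XT.lf (nat_lit 0) (nat_lit 17367574637553) (nat_lit 152) (nat_lit 756673634594) (nat_lit 0) (nat_lit 351762715270) (nat_lit 16) (nat_lit 5) (nat_lit 18) (nat_lit 4) (nat_lit 16) (nat_lit 4) (nat_lit 326) (nat_lit 312) (nat_lit 142)))) (XT.nd (nat_lit 78) (nat_lit 76) (nat_lit 0)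 (XT.lf (nat_lit 0) (nat_lit 3130165393921) (nat_lit 152) (nat_lit 10285956325459) (nat_lit 76) (nat_lit 6855008451157) (nat_lit 14) (nat_lit 5) (nat_lit 16) (nat_lit 5) (nat_lit 15) (nat_lit 4) (nat_lit 327) (nat_lit 312) (nat_lit 141)) (XT.nd (nat_lit 78) (nat_lit 0) (nat_lit 0) (XT.lf (nat_lit 0) (nat_lit 42907793014) (nat_lit 76) (nat_lit 7891380446751) (nat_lit 152) (nat_lit 14386829547413) (nat_lit 13) (nat_lit 5) (nat_lit 14) (nat_lit 5) (nat_lit 15) (nat_lit 4) (nat_lit 328) (nat_lit 312) (nat_lit 140)) (XT.lf (nat_lit 0) (nat_lit 13077102757068) (nat_lit 76) (nat_lit 919601745085) (nat_lit 152) (nat_lit 10601247795713) (nat_lit 13) (nat_lit 5) (nat_lit 14) (nat_lit 5) (nat_lit 15) (nat_lit 4) (nat_lit 329) (nat_lit 312) (nat_lit 139))))))))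
noncomputable def xc122 : XT := (XT.nd (nat_lit 40170) (nat_lit 152) (nat_lit 0) (XT.nd (nat_lit 39390) (nat_lit 0) (nat_lit 912) (XT.nd (nat_lit 390) (nat_lit 228) (nat_lit 0) (XT.nd (nat_lit 156) (nat_lit 76) (nat_lit 0) (XT.nd (nat_lit 78) (nat_lit 76) (nat_lit 0) (XT.lf (nat_lit 0) (nat_lit 610560591638) (nat_lit 76) (nat_lit 20677115339048) (nat_lit 76) (nat_lit 5880757145454) (nat_lit 12) (nat_lit 4) (nat_lit 13) (nat_lit 5) (nat_lit 13) (nat_lit 4) (nat_lit 330) (nat_lit 312) (nat_lit 138)) (XT.lf (nat_lit 0) (nat_lit 262758665612) (nat_lit 152) (nat_lit 14231427062579) (nat_lit 76) (nat_lit 15531904760817) (nat_lit 11) (nat_lit 5) (nat_lit 13) (nat_lit 5) (nat_lit 12) (nat_lit 4) (nat_lit 331) (nat_lit 312) (nat_lit 137))) (XT.nd (nat_lit 78) (nat_lit 76) (nat_lit 0) (XT.lf (nat_lit 0) (nat_lit 6725724331010) (nat_lit 152) (nat_lit 336050882020) (nat_lit 76) (nat_lit 26208615892605)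 (nat_lit 11) (nat_lit 5) (nat_lit 13) (nat_lit 5) (nat_lit 12) (nat_lit 4) (nat_lit 332) (nat_lit 312) (nat_lit 136)) (XT.nd (nat_lit 78) (nat_lit 0) (nat_lit 0) (XT.lf (nat_lit 0) (nat_lit 14964580948186) (nat_lit 152) (nat_lit 19817606432423) (nat_lit 0) (nat_lit 2098182518853) (nat_lit 10) (nat_lit 5) (nat_lit 12) (nat_lit 4) (nat_lit 10) (nat_lit 4) (nat_lit 333) (nat_lit 312) (nat_lit 135)) (XT.lf (nat_lit 0) (nat_lit 24793943854430) (nat_lit 152) (nat_lit 4257154563389) (nat_lit 0) (nat_lit 11927545425067) (nat_lit 10) (nat_lit 5) (nat_lit 12) (nat_lit 4) (nat_lit 10) (nat_lit 4) (nat_lit 334) (nat_lit 312) (nat_lit 134))))) (XT.nd (nat_lit 156) (nat_lit 152) (nat_lit 0) (XT.nd (nat_lit 78) (nat_lit 0) (nat_lit 0) (XT.lf (nat_lit 0) (nat_lit 14970107582949) (nat_lit 76) (nat_lit 21747483844798) (nat_lit 76) (nat_lit 8881085415408) (nat_lit 9) (nat_lit 4) (nat_lit 10) (nat_lit 5)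 (nat_lit 10) (nat_lit 4) (nat_lit 335) (nat_lit 312) (nat_lit 133)) (XT.lf (nat_lit 0) (nat_lit 37559905171980) (nat_lit 76) (nat_lit 13092414044493) (nat_lit 76) (nat_lit 226015615080) (nat_lit 9) (nat_lit 4) (nat_lit 10) (nat_lit 5) (nat_lit 10) (nat_lit 4) (nat_lit 336) (nat_lit 312) (nat_lit 132))) (XT.nd (nat_lit 78) (nat_lit 0) (nat_lit 0) (XT.lf (nat_lit 0) (nat_lit 6789930051038) (nat_lit 76) (nat_lit 2352548311971) (nat_lit 152) (nat_lit 47704871573179) (nat_lit 7) (nat_lit 5) (nat_lit 8) (nat_lit 5) (nat_lit 9) (nat_lit 4) (nat_lit 337) (nat_lit 312) (nat_lit 131)) (XT.nd (nat_lit 38688) (nat_lit 0) (nat_lit 1368) (XT.lf (nat_lit 0) (nat_lit 21036457489410) (nat_lit 152) (nat_lit 32653857865967) (nat_lit 0) (nat_lit 9848284942062) (nat_lit 7) (nat_lit 5) (nat_lit 9) (nat_lit 4) (nat_lit 7) (nat_lit 4) (nat_lit 338) (nat_lit 312) (nat_lit 130)) (XT.lf (nat_lit 0) (nat_lit 686083342272)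 (nat_lit 380) (nat_lit 1331655677810) (nat_lit 380) (nat_lit 1331655677810) (nat_lit 25) (nat_lit 3) (nat_lit 30) (nat_lit 3) (nat_lit 30) (nat_lit 5) (nat_lit 313) (nat_lit 313) (nat_lit 154)))))) (XT.nd (nat_lit 390) (nat_lit 304) (nat_lit 0) (XT.nd (nat_lit 156) (nat_lit 152) (nat_lit 0) (XT.nd (nat_lit 78) (nat_lit 0) (nat_lit 76) (XT.lf (nat_lit 76) (nat_lit 583573930039) (nat_lit 0) (nat_lit 915669809148) (nat_lit 380) (nat_lit 5698330178286) (nat_lit 26) (nat_lit 5) (nat_lit 25) (nat_lit 3) (nat_lit 30) (nat_lit 5) (nat_lit 314) (nat_lit 313) (nat_lit 153)) (XT.lf (nat_lit 0) (nat_lit 1901876717183) (nat_lit 304) (nat_lit 3250757265606) (nat_lit 380) (nat_lit 2580067979849) (nat_lit 26) (nat_lit 5) (nat_lit 30) (nat_lit 5) (nat_lit 31) (nat_lit 5) (nat_lit 315) (nat_lit 313) (nat_lit 152))) (XT.nd (nat_lit 78) (nat_lit 228) (nat_lit 0) (XT.lf (nat_lit 76) (nat_lit 629402283775)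 (nat_lit 0) (nat_lit 1805167888507) (nat_lit 380) (nat_lit 5903079212736) (nat_lit 27) (nat_lit 5) (nat_lit 26) (nat_lit 5) (nat_lit 31) (nat_lit 5) (nat_lit 316) (nat_lit 313) (nat_lit 151)) (XT.nd (nat_lit 78) (nat_lit 304) (nat_lit 0) (XT.lf (nat_lit 0) (nat_lit 3309840299857) (nat_lit 304) (nat_lit 3643670181460) (nat_lit 76) (nat_lit 2040427541308) (nat_lit 27) (nat_lit 5) (nat_lit 31) (nat_lit 5) (nat_lit 28) (nat_lit 5) (nat_lit 317) (nat_lit 313) (nat_lit 150)) (XT.lf (nat_lit 0) (nat_lit 1036949297576) (nat_lit 304) (nat_lit 3408349883584) (nat_lit 380) (nat_lit 5284036039522) (nat_lit 23) (nat_lit 5) (nat_lit 27) (nat_lit 5) (nat_lit 28) (nat_lit 5) (nat_lit 318) (nat_lit 313) (nat_lit 149))))) (XT.nd (nat_lit 156) (nat_lit 152) (nat_lit 0) (XT.nd (nat_lit 78) (nat_lit 152) (nat_lit 0) (XT.lf (nat_lit 0) (nat_lit 5978295884939) (nat_lit 380) (nat_lit 3754066184284) (nat_lit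 76) (nat_lit 808597080685) (nat_lit 23) (nat_lit 5) (nat_lit 28) (nat_lit 5) (nat_lit 24) (nat_lit 5) (nat_lit 319) (nat_lit 313) (nat_lit 148)) (XT.lf (nat_lit 0) (nat_lit 1934962919368) (nat_lit 152) (nat_lit 6048704238368) (nat_lit 228) (nat_lit 3454295751263) (nat_lit 21) (nat_lit 5) (nat_lit 23) (nat_lit 5) (nat_lit 24) (nat_lit 5) (nat_lit 320) (nat_lit 313) (nat_lit 147))) (XT.nd (nat_lit 78) (nat_lit 152) (nat_lit 0) (XT.lf (nat_lit 0) (nat_lit 8899252235724) (nat_lit 152) (nat_lit 1586827163427) (nat_lit 228) (nat_lit 1954002541150) (nat_lit 21) (nat_lit 5) (nat_lit 23) (nat_lit 5) (nat_lit 24) (nat_lit 5) (nat_lit 321) (nat_lit 313) (nat_lit 146)) (XT.nd (nat_lit 78) (nat_lit 0) (nat_lit 0) (XT.lf (nat_lit 0) (nat_lit 96344092017) (nat_lit 152) (nat_lit 10074686311248) (nat_lit 76) (nat_lit 3377210894075) (nat_lit 19) (nat_lit 5) (nat_lit 21) (nat_lit 5) (nat_lit 20) (nat_lit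 5) (nat_lit 322) (nat_lit 313) (nat_lit 145)) (XT.lf (nat_lit 0) (nat_lit 2523655856260) (nat_lit 152) (nat_lit 3034247571052) (nat_lit 76) (nat_lit 9210344103033) (nat_lit 19) (nat_lit 5) (nat_lit 21) (nat_lit 5) (nat_lit 20) (nat_lit 5) (nat_lit 323) (nat_lit 313) (nat_lit 144))))))) (XT.nd (nat_lit 780) (nat_lit 456) (nat_lit 0) (XT.nd (nat_lit 390) (nat_lit 228) (nat_lit 0) (XT.nd (nat_lit 156) (nat_lit 228) (nat_lit 0) (XT.nd (nat_lit 78) (nat_lit 0) (nat_lit 0) (XT.lf (nat_lit 0) (nat_lit 5545656025717) (nat_lit 228) (nat_lit 10580250811925) (nat_lit 76) (nat_lit 10759114570) (nat_lit 17) (nat_lit 5) (nat_lit 20) (nat_lit 5) (nat_lit 18) (nat_lit 4) (nat_lit 324) (nat_lit 313) (nat_lit 143)) (XT.lf (nat_lit 0) (nat_lit 9451779464988) (nat_lit 228) (nat_lit 2182085417635) (nat_lit 76) (nat_lit 6011858768080) (nat_lit 17) (nat_lit 5) (nat_lit 20) (nat_lit 5) (nat_lit 18) (nat_lit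 4) (nat_lit 325) (nat_lit 313) (nat_lit 142))) (XT.nd (nat_lit 78) (nat_lit 152) (nat_lit 0) (XT.lf (nat_lit 0) (nat_lit 8206394798828) (nat_lit 76) (nat_lit 6077235929688) (nat_lit 152) (nat_lit 5046537879195) (nat_lit 16) (nat_lit 5) (nat_lit 17) (nat_lit 5) (nat_lit 18) (nat_lit 4) (nat_lit 326) (nat_lit 313) (nat_lit 141)) (XT.nd (nat_lit 78) (nat_lit 152) (nat_lit 0) (XT.lf (nat_lit 0) (nat_lit 19972710833929) (nat_lit 152) (nat_lit 870174678508) (nat_lit 0) (nat_lit 404527122981) (nat_lit 16) (nat_lit 5) (nat_lit 18) (nat_lit 4) (nat_lit 16) (nat_lit 4) (nat_lit 327) (nat_lit 313) (nat_lit 140)) (XT.lf (nat_lit 0) (nat_lit 3599690203739) (nat_lit 152) (nat_lit 11828849772988) (nat_lit 76) (nat_lit 7883259719280) (nat_lit 14) (nat_lit 5) (nat_lit 16) (nat_lit 5) (nat_lit 15) (nat_lit 4) (nat_lit 328) (nat_lit 313) (nat_lit 139))))) (XT.nd (nat_lit 156) (nat_lit 152) (nat_lit 0)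 (XT.nd (nat_lit 78) (nat_lit 0) (nat_lit 0) (XT.lf (nat_lit 0) (nat_lit 49343963197) (nat_lit 76) (nat_lit 9075087513218) (nat_lit 152) (nat_lit 16544853978736) (nat_lit 13) (nat_lit 5) (nat_lit 14) (nat_lit 5) (nat_lit 15) (nat_lit 4) (nat_lit 329) (nat_lit 313) (nat_lit 138)) (XT.lf (nat_lit 0) (nat_lit 15038668171699) (nat_lit 76) (nat_lit 1057542006374) (nat_lit 152) (nat_lit 12191434964384) (nat_lit 13) (nat_lit 5) (nat_lit 14) (nat_lit 5) (nat_lit 15) (nat_lit 4) (nat_lit 330) (nat_lit 313) (nat_lit 137))) (XT.nd (nat_lit 78) (nat_lit 76) (nat_lit 0) (XT.lf (nat_lit 0) (nat_lit 702144681473) (nat_lit 76) (nat_lit 23778682639397) (nat_lit 76) (nat_lit 6762870716604) (nat_lit 12) (nat_lit 4) (nat_lit 13) (nat_lit 5) (nat_lit 13) (nat_lit 4) (nat_lit 331) (nat_lit 313) (nat_lit 136)) (XT.nd (nat_lit 78) (nat_lit 0) (nat_lit 0) (XT.lf (nat_lit 0) (nat_lit 302172465983) (nat_lit 152)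 (nat_lit 16366141120967) (nat_lit 76) (nat_lit 17861690475330) (nat_lit 11) (nat_lit 5) (nat_lit 13) (nat_lit 5) (nat_lit 12) (nat_lit 4) (nat_lit 332) (nat_lit 313) (nat_lit 135)) (XT.lf (nat_lit 0) (nat_lit 7734582981122) (nat_lit 152) (nat_lit 386458513454) (nat_lit 76) (nat_lit 30139908276835) (nat_lit 11) (nat_lit 5) (nat_lit 13) (nat_lit 5) (nat_lit 12) (nat_lit 4) (nat_lit 333) (nat_lit 313) (nat_lit 134)))))) (XT.nd (nat_lit 546) (nat_lit 152) (nat_lit 0) (XT.nd (nat_lit 156) (nat_lit 228) (nat_lit 0) (XT.nd (nat_lit 78) (nat_lit 0) (nat_lit 0) (XT.lf (nat_lit 0) (nat_lit 17209268090864) (nat_lit 152) (nat_lit 22790247396408) (nat_lit 0) (nat_lit 2412909897040) (nat_lit 10) (nat_lit 5) (nat_lit 12) (nat_lit 4) (nat_lit 10) (nat_lit 4) (nat_lit 334) (nat_lit 313) (nat_lit 133)) (XT.lf (nat_lit 0) (nat_lit 28513035432987) (nat_lit 152) (nat_lit 4895727747134) (nat_lit 0) (nat_lit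 13716677239139) (nat_lit 10) (nat_lit 5) (nat_lit 12) (nat_lit 4) (nat_lit 10) (nat_lit 4) (nat_lit 335) (nat_lit 313) (nat_lit 132))) (XT.nd (nat_lit 78) (nat_lit 152) (nat_lit 0) (XT.lf (nat_lit 0) (nat_lit 17215623721121) (nat_lit 76) (nat_lit 25009606421159) (nat_lit 76) (nat_lit 10213248227292) (nat_lit 9) (nat_lit 4) (nat_lit 10) (nat_lit 5) (nat_lit 10) (nat_lit 4) (nat_lit 336) (nat_lit 313) (nat_lit 131)) (XT.nd (nat_lit 78) (nat_lit 152) (nat_lit 0) (XT.lf (nat_lit 0) (nat_lit 43193890948410) (nat_lit 76) (nat_lit 15056276150855) (nat_lit 76) (nat_lit 259917956971) (nat_lit 9) (nat_lit 4) (nat_lit 10) (nat_lit 5) (nat_lit 10) (nat_lit 4) (nat_lit 337) (nat_lit 313) (nat_lit 130)) (XT.lf (nat_lit 0) (nat_lit 7808419559331) (nat_lit 76) (nat_lit 2705430558450) (nat_lit 152) (nat_lit 54860602308787) (nat_lit 7) (nat_lit 5) (nat_lit 8) (nat_lit 5) (nat_lit 9) (nat_lit 4) (nat_lit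 338) (nat_lit 313) (nat_lit 129))))) (XT.nd (nat_lit 156) (nat_lit 76) (nat_lit 0) (XT.nd (nat_lit 78) (nat_lit 0) (nat_lit 0) (XT.lf (nat_lit 0) (nat_lit 12795034504127) (nat_lit 76) (nat_lit 46022734157882) (nat_lit 76) (nat_lit 33156335728374) (nat_lit 6) (nat_lit 4) (nat_lit 7) (nat_lit 5) (nat_lit 7) (nat_lit 4) (nat_lit 341) (nat_lit 313) (nat_lit 126)) (XT.lf (nat_lit 0) (nat_lit 46021659456641) (nat_lit 76) (nat_lit 35144974428197) (nat_lit 76) (nat_lit 22278575998682) (nat_lit 6) (nat_lit 4) (nat_lit 7) (nat_lit 5) (nat_lit 7) (nat_lit 4) (nat_lit 342) (nat_lit 313) (nat_lit 125))) (XT.nd (nat_lit 78) (nat_lit 76) (nat_lit 0) (XT.lf (nat_lit 0) (nat_lit 84232278151998) (nat_lit 76) (nat_lit 22635550739077) (nat_lit 76) (nat_lit 9769152309555) (nat_lit 6) (nat_lit 4) (nat_lit 7) (nat_lit 5) (nat_lit 7) (nat_lit 4) (nat_lit 343) (nat_lit 313) (nat_lit 124)) (XT.nd (nat_lit 38298)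 (nat_lit 0) (nat_lit 1520) (XT.lf (nat_lit 0) (nat_lit 4205675715292) (nat_lit 152) (nat_lit 3824195641649) (nat_lit 76) (nat_lit 123748971796673) (nat_lit 5) (nat_lit 5) (nat_lit 7) (nat_lit 5) (nat_lit 6) (nat_lit 4) (nat_lit 344) (nat_lit 313) (nat_lit 123)) (XT.lf (nat_lit 0) (nat_lit 788995844891) (nat_lit 380) (nat_lit 1531404028746) (nat_lit 380) (nat_lit 1531404028746) (nat_lit 25) (nat_lit 3) (nat_lit 30) (nat_lit 3) (nat_lit 30) (nat_lit 5) (nat_lit 314) (nat_lit 314) (nat_lit 152))))))))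
noncomputable def xc123 : XT := (XT.nd (nat_lit 1560) (nat_lit 456) (nat_lit 0) (XT.nd (nat_lit 780) (nat_lit 608) (nat_lit 0) (XT.nd (nat_lit 390) (nat_lit 304) (nat_lit 0) (XT.nd (nat_lit 156) (nat_lit 152) (nat_lit 0) (XT.nd (nat_lit 78) (nat_lit 0) (nat_lit 76) (XT.lf (nat_lit 76) (nat_lit 671110020950) (nat_lit 0) (nat_lit 1053020281395) (nat_lit 380) (nat_lit 6553079702401) (nat_lit 26) (nat_lit 5) (nat_lit 25) (nat_lit 3) (nat_lit 30) (nat_lit 5) (nat_lit 315) (nat_lit 314) (nat_lit 151)) (XT.lf (nat_lit 0) (nat_lit 2187158226712) (nat_lit 304) (nat_lit 3738370853890) (nat_lit 380) (nat_lit 2967078176134) (nat_lit 26) (nat_lit 5) (nat_lit 30) (nat_lit 5) (nat_lit 31) (nat_lit 5) (nat_lit 316) (nat_lit 314) (nat_lit 150))) (XT.nd (nat_lit 78) (nat_lit 228) (nat_lit 0) (XT.lf (nat_lit 76) (nat_lit 723812627827) (nat_lit 0) (nat_lit 2075943072055) (nat_lit 380) (nat_lit 6788541092621)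 (nat_lit 27) (nat_lit 5) (nat_lit 26) (nat_lit 5) (nat_lit 31) (nat_lit 5) (nat_lit 317) (nat_lit 314) (nat_lit 149)) (XT.nd (nat_lit 78) (nat_lit 304) (nat_lit 0) (XT.lf (nat_lit 0) (nat_lit 3806316346354) (nat_lit 304) (nat_lit 4190220707144) (nat_lit 76) (nat_lit 2346491672288) (nat_lit 27) (nat_lit 5) (nat_lit 31) (nat_lit 5) (nat_lit 28) (nat_lit 5) (nat_lit 318) (nat_lit 314) (nat_lit 148)) (XT.lf (nat_lit 0) (nat_lit 1192491693678) (nat_lit 304) (nat_lit 3919602366039) (nat_lit 380) (nat_lit 6076641443858) (nat_lit 23) (nat_lit 5) (nat_lit 27) (nat_lit 5) (nat_lit 28) (nat_lit 5) (nat_lit 319) (nat_lit 314) (nat_lit 147))))) (XT.nd (nat_lit 156) (nat_lit 152) (nat_lit 0) (XT.nd (nat_lit 78) (nat_lit 152) (nat_lit 0) (XT.lf (nat_lit 0) (nat_lit 6875040268884) (nat_lit 380) (nat_lit 4317176110473) (nat_lit 76) (nat_lit 929886642854) (nat_lit 23) (nat_lit 5) (nat_lit 28) (nat_lit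 5) (nat_lit 24) (nat_lit 5) (nat_lit 320) (nat_lit 314) (nat_lit 146)) (XT.lf (nat_lit 0) (nat_lit 2225207358662) (nat_lit 152) (nat_lit 6956009873840) (nat_lit 228) (nat_lit 3972440112680) (nat_lit 21) (nat_lit 5) (nat_lit 23) (nat_lit 5) (nat_lit 24) (nat_lit 5) (nat_lit 321) (nat_lit 314) (nat_lit 145))) (XT.nd (nat_lit 78) (nat_lit 152) (nat_lit 0) (XT.lf (nat_lit 0) (nat_lit 10234140072289) (nat_lit 152) (nat_lit 1824851237695) (nat_lit 228) (nat_lit 2247102921216) (nat_lit 21) (nat_lit 5) (nat_lit 23) (nat_lit 5) (nat_lit 24) (nat_lit 5) (nat_lit 322) (nat_lit 314) (nat_lit 144)) (XT.nd (nat_lit 78) (nat_lit 0) (nat_lit 0) (XT.lf (nat_lit 0) (nat_lit 110795706761) (nat_lit 152) (nat_lit 11585889256560) (nat_lit 76) (nat_lit 3883792528478) (nat_lit 19) (nat_lit 5) (nat_lit 21) (nat_lit 5) (nat_lit 20) (nat_lit 5) (nat_lit 323) (nat_lit 314) (nat_lit 143)) (XT.lf (nat_lit 0) (nat_lit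 2902204235518) (nat_lit 152) (nat_lit 3489384705513) (nat_lit 76) (nat_lit 10591895718741) (nat_lit 19) (nat_lit 5) (nat_lit 21) (nat_lit 5) (nat_lit 20) (nat_lit 5) (nat_lit 324) (nat_lit 314) (nat_lit 142)))))) (XT.nd (nat_lit 390) (nat_lit 228) (nat_lit 0) (XT.nd (nat_lit 156) (nat_lit 228) (nat_lit 0) (XT.nd (nat_lit 78) (nat_lit 0) (nat_lit 0) (XT.lf (nat_lit 0) (nat_lit 6377504430350) (nat_lit 228) (nat_lit 12167288432473) (nat_lit 76) (nat_lit 12372982104) (nat_lit 17) (nat_lit 5) (nat_lit 20) (nat_lit 5) (nat_lit 18) (nat_lit 4) (nat_lit 325) (nat_lit 314) (nat_lit 141)) (XT.lf (nat_lit 0) (nat_lit 10869546385410) (nat_lit 228) (nat_lit 2509398229202) (nat_lit 76) (nat_lit 6913637583595) (nat_lit 17) (nat_lit 5) (nat_lit 20) (nat_lit 5) (nat_lit 18) (nat_lit 4) (nat_lit 326) (nat_lit 314) (nat_lit 140))) (XT.nd (nat_lit 78) (nat_lit 152) (nat_lit 0) (XT.lf (nat_lit 0) (nat_lit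 9437354019683) (nat_lit 76) (nat_lit 6988821318740) (nat_lit 152) (nat_lit 5803518560351) (nat_lit 16) (nat_lit 5) (nat_lit 17) (nat_lit 5) (nat_lit 18) (nat_lit 4) (nat_lit 327) (nat_lit 314) (nat_lit 139)) (XT.nd (nat_lit 78) (nat_lit 152) (nat_lit 0) (XT.lf (nat_lit 0) (nat_lit 22968617459579) (nat_lit 152) (nat_lit 1000700879320) (nat_lit 0) (nat_lit 465206191746) (nat_lit 16) (nat_lit 5) (nat_lit 18) (nat_lit 4) (nat_lit 16) (nat_lit 4) (nat_lit 328) (nat_lit 314) (nat_lit 138)) (XT.lf (nat_lit 0) (nat_lit 4139643734852) (nat_lit 152) (nat_lit 13603177237961) (nat_lit 76) (nat_lit 9065748677512) (nat_lit 14) (nat_lit 5) (nat_lit 16) (nat_lit 5) (nat_lit 15) (nat_lit 4) (nat_lit 329) (nat_lit 314) (nat_lit 137))))) (XT.nd (nat_lit 156) (nat_lit 152) (nat_lit 0) (XT.nd (nat_lit 78) (nat_lit 0) (nat_lit 0) (XT.lf (nat_lit 0) (nat_lit 56745558608) (nat_lit 76) (nat_lit 10436350639789)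 (nat_lit 152) (nat_lit 19026582074950) (nat_lit 13) (nat_lit 5) (nat_lit 14) (nat_lit 5) (nat_lit 15) (nat_lit 4) (nat_lit 330) (nat_lit 314) (nat_lit 136)) (XT.lf (nat_lit 0) (nat_lit 17294468398263) (nat_lit 76) (nat_lit 1216173306971) (nat_lit 152) (nat_lit 14020150208522) (nat_lit 13) (nat_lit 5) (nat_lit 14) (nat_lit 5) (nat_lit 15) (nat_lit 4) (nat_lit 331) (nat_lit 314) (nat_lit 135))) (XT.nd (nat_lit 78) (nat_lit 76) (nat_lit 0) (XT.lf (nat_lit 0) (nat_lit 807466384517) (nat_lit 76) (nat_lit 27345485034922) (nat_lit 76) (nat_lit 7777301323589) (nat_lit 12) (nat_lit 4) (nat_lit 13) (nat_lit 5) (nat_lit 13) (nat_lit 4) (nat_lit 332) (nat_lit 314) (nat_lit 134)) (XT.nd (nat_lit 78) (nat_lit 0) (nat_lit 0) (XT.lf (nat_lit 0) (nat_lit 347498336281) (nat_lit 152) (nat_lit 18821062288357) (nat_lit 76) (nat_lit 20540944046924) (nat_lit 11) (nat_lit 5) (nat_lit 13) (nat_lit 5) (nat_lit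 12) (nat_lit 4) (nat_lit 333) (nat_lit 314) (nat_lit 133)) (XT.lf (nat_lit 0) (nat_lit 8894770428638) (nat_lit 152) (nat_lit 444427289816) (nat_lit 76) (nat_lit 34660894518617) (nat_lit 11) (nat_lit 5) (nat_lit 13) (nat_lit 5) (nat_lit 12) (nat_lit 4) (nat_lit 334) (nat_lit 314) (nat_lit 132))))))) (XT.nd (nat_lit 39234) (nat_lit 0) (nat_lit 912) (XT.nd (nat_lit 624) (nat_lit 76) (nat_lit 0) (XT.nd (nat_lit 156) (nat_lit 304) (nat_lit 0) (XT.nd (nat_lit 78) (nat_lit 0) (nat_lit 0) (XT.lf (nat_lit 0) (nat_lit 19790658304835) (nat_lit 152) (nat_lit 26208784505205) (nat_lit 0) (nat_lit 2774846381868) (nat_lit 10) (nat_lit 5) (nat_lit 12) (nat_lit 4) (nat_lit 10) (nat_lit 4) (nat_lit 335) (nat_lit 314) (nat_lit 131)) (XT.lf (nat_lit 0) (nat_lit 32789990748232) (nat_lit 152) (nat_lit 5630086908626) (nat_lit 0) (nat_lit 15774178825247) (nat_lit 10) (nat_lit 5) (nat_lit 12) (nat_lit 4) (nat_lit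 10) (nat_lit 4) (nat_lit 336) (nat_lit 314) (nat_lit 130))) (XT.nd (nat_lit 312) (nat_lit 228) (nat_lit 0) (XT.lf (nat_lit 0) (nat_lit 19797967279841) (nat_lit 76) (nat_lit 28761047384063) (nat_lit 76) (nat_lit 11745235461063) (nat_lit 9) (nat_lit 4) (nat_lit 10) (nat_lit 5) (nat_lit 10) (nat_lit 4) (nat_lit 337) (nat_lit 314) (nat_lit 129)) (XT.nd (nat_lit 78) (nat_lit 76) (nat_lit 0) (XT.lf (nat_lit 0) (nat_lit 46058125064649) (nat_lit 152) (nat_lit 16864239171530) (nat_lit 0) (nat_lit 31261766870699) (nat_lit 7) (nat_lit 5) (nat_lit 9) (nat_lit 4) (nat_lit 7) (nat_lit 4) (nat_lit 341) (nat_lit 314) (nat_lit 125)) (XT.lf (nat_lit 0) (nat_lit 14714289680113) (nat_lit 76) (nat_lit 52926144281378) (nat_lit 76) (nat_lit 38129786087422) (nat_lit 6) (nat_lit 4) (nat_lit 7) (nat_lit 5) (nat_lit 7) (nat_lit 4) (nat_lit 342) (nat_lit 314) (nat_lit 124))))) (XT.nd (nat_lit 156) (nat_lit 76)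 (nat_lit 0) (XT.nd (nat_lit 78) (nat_lit 0) (nat_lit 0) (XT.lf (nat_lit 0) (nat_lit 52924908375456) (nat_lit 76) (nat_lit 40416720592266) (nat_lit 76) (nat_lit 25620362398303) (nat_lit 6) (nat_lit 4) (nat_lit 7) (nat_lit 5) (nat_lit 7) (nat_lit 4) (nat_lit 343) (nat_lit 314) (nat_lit 123)) (XT.lf (nat_lit 0) (nat_lit 96867119875075) (nat_lit 76) (nat_lit 26030883349798) (nat_lit 76) (nat_lit 11234525155831) (nat_lit 6) (nat_lit 4) (nat_lit 7) (nat_lit 5) (nat_lit 7) (nat_lit 4) (nat_lit 344) (nat_lit 314) (nat_lit 122))) (XT.nd (nat_lit 38298) (nat_lit 0) (nat_lit 1520) (XT.lf (nat_lit 0) (nat_lit 4836527072710) (nat_lit 152) (nat_lit 4397824987643) (nat_lit 76) (nat_lit 142311317566284) (nat_lit 5) (nat_lit 5) (nat_lit 7) (nat_lit 5) (nat_lit 6) (nat_lit 4) (nat_lit 345) (nat_lit 314) (nat_lit 121)) (XT.nd (nat_lit 78) (nat_lit 0) (nat_lit 0) (XT.lf (nat_lit 0) (nat_lit 907345222590)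 (nat_lit 380) (nat_lit 1761114632501) (nat_lit 380) (nat_lit 1761114632501) (nat_lit 25) (nat_lit 3) (nat_lit 30) (nat_lit 3) (nat_lit 30) (nat_lit 5) (nat_lit 315) (nat_lit 315) (nat_lit 150)) (XT.lf (nat_lit 76) (nat_lit 771776525156) (nat_lit 0) (nat_lit 1210973324265) (nat_lit 380) (nat_lit 7536041655774) (nat_lit 26) (nat_lit 5) (nat_lit 25) (nat_lit 3) (nat_lit 30) (nat_lit 5) (nat_lit 316) (nat_lit 315) (nat_lit 149)))))) (XT.nd (nat_lit 390) (nat_lit 456) (nat_lit 0) (XT.nd (nat_lit 156) (nat_lit 228) (nat_lit 0) (XT.nd (nat_lit 78) (nat_lit 0) (nat_lit 0) (XT.lf (nat_lit 0) (nat_lit 2515231962194) (nat_lit 304) (nat_lit 4299126480797) (nat_lit 380) (nat_lit 3412139902031) (nat_lit 26) (nat_lit 5) (nat_lit 30) (nat_lit 5) (nat_lit 31) (nat_lit 5) (nat_lit 317) (nat_lit 315) (nat_lit 148)) (XT.lf (nat_lit 76) (nat_lit 832384523124) (nat_lit 0) (nat_lit 2387334533070) (nat_lit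 380) (nat_lit 7806822254982) (nat_lit 27) (nat_lit 5) (nat_lit 26) (nat_lit 5) (nat_lit 31) (nat_lit 5) (nat_lit 318) (nat_lit 315) (nat_lit 147))) (XT.nd (nat_lit 78) (nat_lit 304) (nat_lit 0) (XT.lf (nat_lit 0) (nat_lit 4377263799456) (nat_lit 304) (nat_lit 4818753812055) (nat_lit 76) (nat_lit 2698465422968) (nat_lit 27) (nat_lit 5) (nat_lit 31) (nat_lit 5) (nat_lit 28) (nat_lit 5) (nat_lit 319) (nat_lit 315) (nat_lit 146)) (XT.nd (nat_lit 78) (nat_lit 0) (nat_lit 0) (XT.lf (nat_lit 0) (nat_lit 1371365448837) (nat_lit 304) (nat_lit 4507542720881) (nat_lit 380) (nat_lit 6988137659233) (nat_lit 23) (nat_lit 5) (nat_lit 27) (nat_lit 5) (nat_lit 28) (nat_lit 5) (nat_lit 320) (nat_lit 315) (nat_lit 145)) (XT.lf (nat_lit 0) (nat_lit 7906296310128) (nat_lit 380) (nat_lit 4964752525944) (nat_lit 76) (nat_lit 1069369639332) (nat_lit 23) (nat_lit 5) (nat_lit 28) (nat_lit 5) (nat_lit 24) (nat_lit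 5) (nat_lit 321) (nat_lit 315) (nat_lit 144))))) (XT.nd (nat_lit 234) (nat_lit 152) (nat_lit 0) (XT.nd (nat_lit 78) (nat_lit 152) (nat_lit 0) (XT.lf (nat_lit 0) (nat_lit 2558988463511) (nat_lit 152) (nat_lit 7999411354702) (nat_lit 228) (nat_lit 4568306128619) (nat_lit 21) (nat_lit 5) (nat_lit 23) (nat_lit 5) (nat_lit 24) (nat_lit 5) (nat_lit 322) (nat_lit 315) (nat_lit 143)) (XT.nd (nat_lit 78) (nat_lit 152) (nat_lit 0) (XT.lf (nat_lit 0) (nat_lit 11769261084045) (nat_lit 152) (nat_lit 2098578923163) (nat_lit 228) (nat_lit 2584168358562) (nat_lit 21) (nat_lit 5) (nat_lit 23) (nat_lit 5) (nat_lit 24) (nat_lit 5) (nat_lit 323) (nat_lit 315) (nat_lit 142)) (XT.lf (nat_lit 0) (nat_lit 127415063487) (nat_lit 152) (nat_lit 13323772644004) (nat_lit 76) (nat_lit 4466361407969) (nat_lit 19) (nat_lit 5) (nat_lit 21) (nat_lit 5) (nat_lit 20) (nat_lit 5) (nat_lit 324) (nat_lit 315) (nat_lit 141))))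 (XT.nd (nat_lit 78) (nat_lit 152) (nat_lit 0) (XT.lf (nat_lit 0) (nat_lit 3337534871465) (nat_lit 152) (nat_lit 4012792410436) (nat_lit 76) (nat_lit 12180680076743) (nat_lit 19) (nat_lit 5) (nat_lit 21) (nat_lit 5) (nat_lit 20) (nat_lit 5) (nat_lit 325) (nat_lit 315) (nat_lit 140)) (XT.nd (nat_lit 78) (nat_lit 0) (nat_lit 0) (XT.lf (nat_lit 0) (nat_lit 7334130095489) (nat_lit 228) (nat_lit 13992381696406) (nat_lit 76) (nat_lit 14228929684) (nat_lit 17) (nat_lit 5) (nat_lit 20) (nat_lit 5) (nat_lit 18) (nat_lit 4) (nat_lit 326) (nat_lit 315) (nat_lit 139)) (XT.lf (nat_lit 0) (nat_lit 12499978343731) (nat_lit 228) (nat_lit 2885807962766) (nat_lit 76) (nat_lit 7950683221364) (nat_lit 17) (nat_lit 5) (nat_lit 20) (nat_lit 5) (nat_lit 18) (nat_lit 4) (nat_lit 327) (nat_lit 315) (nat_lit 138))))))))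
noncomputable def xc124 : XT := (XT.nd (nat_lit 40170) (nat_lit 0) (nat_lit 76) (XT.nd (nat_lit 1014) (nat_lit 304) (nat_lit 0) (XT.nd (nat_lit 390) (nat_lit 228) (nat_lit 0) (XT.nd (nat_lit 156) (nat_lit 228) (nat_lit 0) (XT.nd (nat_lit 78) (nat_lit 0) (nat_lit 0) (XT.lf (nat_lit 0) (nat_lit 10852957123414) (nat_lit 76) (nat_lit 8037144516247) (nat_lit 152) (nat_lit 6674046343856) (nat_lit 16) (nat_lit 5) (nat_lit 17) (nat_lit 5) (nat_lit 18) (nat_lit 4) (nat_lit 328) (nat_lit 315) (nat_lit 137)) (XT.lf (nat_lit 0) (nat_lit 26413910078940) (nat_lit 152) (nat_lit 1150806010489) (nat_lit 0) (nat_lit 534987120749) (nat_lit 16) (nat_lit 5) (nat_lit 18) (nat_lit 4) (nat_lit 16) (nat_lit 4) (nat_lit 329) (nat_lit 315) (nat_lit 136))) (XT.nd (nat_lit 78) (nat_lit 76) (nat_lit 0) (XT.lf (nat_lit 0) (nat_lit 4760590295497) (nat_lit 152) (nat_lit 15643653822918) (nat_lit 76) (nat_lit 10425610979396)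 (nat_lit 14) (nat_lit 5) (nat_lit 16) (nat_lit 5) (nat_lit 15) (nat_lit 4) (nat_lit 330) (nat_lit 315) (nat_lit 135)) (XT.nd (nat_lit 78) (nat_lit 0) (nat_lit 0) (XT.lf (nat_lit 0) (nat_lit 65257393102) (nat_lit 76) (nat_lit 12001803235446) (nat_lit 152) (nat_lit 21880569385741) (nat_lit 13) (nat_lit 5) (nat_lit 14) (nat_lit 5) (nat_lit 15) (nat_lit 4) (nat_lit 331) (nat_lit 315) (nat_lit 134)) (XT.lf (nat_lit 0) (nat_lit 19888638658615) (nat_lit 76) (nat_lit 1398599302746) (nat_lit 152) (nat_lit 16123172739408) (nat_lit 13) (nat_lit 5) (nat_lit 14) (nat_lit 5) (nat_lit 15) (nat_lit 4) (nat_lit 332) (nat_lit 315) (nat_lit 133))))) (XT.nd (nat_lit 156) (nat_lit 76) (nat_lit 0) (XT.nd (nat_lit 78) (nat_lit 76) (nat_lit 0) (XT.lf (nat_lit 0) (nat_lit 928586342817) (nat_lit 76) (nat_lit 31447307789870) (nat_lit 76) (nat_lit 8943896521745) (nat_lit 12) (nat_lit 4) (nat_lit 13) (nat_lit 5)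 (nat_lit 13) (nat_lit 4) (nat_lit 333) (nat_lit 315) (nat_lit 132)) (XT.lf (nat_lit 0) (nat_lit 399623087026) (nat_lit 152) (nat_lit 21644221631039) (nat_lit 76) (nat_lit 23622085654186) (nat_lit 11) (nat_lit 5) (nat_lit 13) (nat_lit 5) (nat_lit 12) (nat_lit 4) (nat_lit 334) (nat_lit 315) (nat_lit 131))) (XT.nd (nat_lit 78) (nat_lit 76) (nat_lit 0) (XT.lf (nat_lit 0) (nat_lit 10228985993197) (nat_lit 152) (nat_lit 511091382791) (nat_lit 76) (nat_lit 39860028696603) (nat_lit 11) (nat_lit 5) (nat_lit 13) (nat_lit 5) (nat_lit 12) (nat_lit 4) (nat_lit 335) (nat_lit 315) (nat_lit 130)) (XT.nd (nat_lit 78) (nat_lit 0) (nat_lit 0) (XT.lf (nat_lit 0) (nat_lit 22759257050818) (nat_lit 152) (nat_lit 30140102180483) (nat_lit 0) (nat_lit 3191073339354) (nat_lit 10) (nat_lit 5) (nat_lit 12) (nat_lit 4) (nat_lit 10) (nat_lit 4) (nat_lit 336) (nat_lit 315) (nat_lit 129)) (XT.lf (nat_lit 0) (nat_lit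 37708489360690) (nat_lit 152) (nat_lit 6474599944484) (nat_lit 0) (nat_lit 18140305649213) (nat_lit 10) (nat_lit 5) (nat_lit 12) (nat_lit 4) (nat_lit 10) (nat_lit 4) (nat_lit 337) (nat_lit 315) (nat_lit 128)))))) (XT.nd (nat_lit 38766) (nat_lit 0) (nat_lit 1292) (XT.nd (nat_lit 156) (nat_lit 76) (nat_lit 0) (XT.nd (nat_lit 78) (nat_lit 0) (nat_lit 0) (XT.lf (nat_lit 0) (nat_lit 31993822285009) (nat_lit 152) (nat_lit 49662436080288) (nat_lit 0) (nat_lit 14978010361952) (nat_lit 7) (nat_lit 5) (nat_lit 9) (nat_lit 4) (nat_lit 7) (nat_lit 4) (nat_lit 341) (nat_lit 315) (nat_lit 124)) (XT.lf (nat_lit 0) (nat_lit 52966843824491) (nat_lit 152) (nat_lit 19393875046969) (nat_lit 0) (nat_lit 35951031901429) (nat_lit 7) (nat_lit 5) (nat_lit 9) (nat_lit 4) (nat_lit 7) (nat_lit 4) (nat_lit 342) (nat_lit 315) (nat_lit 123))) (XT.nd (nat_lit 78) (nat_lit 0) (nat_lit 0) (XT.lf (nat_lit 0) (nat_lit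 16921433132407) (nat_lit 76) (nat_lit 60865065923445) (nat_lit 76) (nat_lit 43849254000378) (nat_lit 6) (nat_lit 4) (nat_lit 7) (nat_lit 5) (nat_lit 7) (nat_lit 4) (nat_lit 343) (nat_lit 315) (nat_lit 122)) (XT.nd (nat_lit 38454) (nat_lit 0) (nat_lit 1444) (XT.lf (nat_lit 0) (nat_lit 60863644632016) (nat_lit 76) (nat_lit 46479228680983) (nat_lit 76) (nat_lit 29463416757912) (nat_lit 6) (nat_lit 4) (nat_lit 7) (nat_lit 5) (nat_lit 7) (nat_lit 4) (nat_lit 344) (nat_lit 315) (nat_lit 121)) (XT.lf (nat_lit 0) (nat_lit 1043447006710) (nat_lit 380) (nat_lit 2025281826955) (nat_lit 380) (nat_lit 2025281826955) (nat_lit 25) (nat_lit 3) (nat_lit 30) (nat_lit 3) (nat_lit 30) (nat_lit 5) (nat_lit 316) (nat_lit 316) (nat_lit 148))))) (XT.nd (nat_lit 156) (nat_lit 152) (nat_lit 0) (XT.nd (nat_lit 78) (nat_lit 0) (nat_lit 76) (XT.lf (nat_lit 76) (nat_lit 887543004733) (nat_lit 0) (nat_lit 1392619323405)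 (nat_lit 380) (nat_lit 8666447902638) (nat_lit 26) (nat_lit 5) (nat_lit 25) (nat_lit 3) (nat_lit 30) (nat_lit 5) (nat_lit 317) (nat_lit 316) (nat_lit 147)) (XT.lf (nat_lit 0) (nat_lit 2892516757639) (nat_lit 304) (nat_lit 4943995452027) (nat_lit 380) (nat_lit 3923960886939) (nat_lit 26) (nat_lit 5) (nat_lit 30) (nat_lit 5) (nat_lit 31) (nat_lit 5) (nat_lit 318) (nat_lit 316) (nat_lit 146))) (XT.nd (nat_lit 78) (nat_lit 228) (nat_lit 0) (XT.lf (nat_lit 76) (nat_lit 957242202442) (nat_lit 0) (nat_lit 2745434713186) (nat_lit 380) (nat_lit 8977845592070) (nat_lit 27) (nat_lit 5) (nat_lit 26) (nat_lit 5) (nat_lit 31) (nat_lit 5) (nat_lit 319) (nat_lit 316) (nat_lit 145)) (XT.nd (nat_lit 78) (nat_lit 304) (nat_lit 0) (XT.lf (nat_lit 0) (nat_lit 5033853370243) (nat_lit 304) (nat_lit 5541566882986) (nat_lit 76) (nat_lit 3103235236290) (nat_lit 27) (nat_lit 5) (nat_lit 31) (nat_lit 5) (nat_lit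 28) (nat_lit 5) (nat_lit 320) (nat_lit 316) (nat_lit 144)) (XT.lf (nat_lit 0) (nat_lit 1577070267000) (nat_lit 304) (nat_lit 5183674128966) (nat_lit 380) (nat_lit 8036358307208) (nat_lit 23) (nat_lit 5) (nat_lit 27) (nat_lit 5) (nat_lit 28) (nat_lit 5) (nat_lit 321) (nat_lit 316) (nat_lit 143))))))) (XT.nd (nat_lit 1638) (nat_lit 0) (nat_lit 0) (XT.nd (nat_lit 390) (nat_lit 912) (nat_lit 0) (XT.nd (nat_lit 156) (nat_lit 152) (nat_lit 0) (XT.nd (nat_lit 78) (nat_lit 152) (nat_lit 0) (XT.lf (nat_lit 0) (nat_lit 9092240757336) (nat_lit 380) (nat_lit 5709465404004) (nat_lit 76) (nat_lit 1229775085270) (nat_lit 23) (nat_lit 5) (nat_lit 28) (nat_lit 5) (nat_lit 24) (nat_lit 5) (nat_lit 322) (nat_lit 316) (nat_lit 142)) (XT.lf (nat_lit 0) (nat_lit 2942836733831) (nat_lit 152) (nat_lit 9199323057745) (nat_lit 228) (nat_lit 5253552047185) (nat_lit 21) (nat_lit 5) (nat_lit 23) (nat_lit 5) (nat_lit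 24) (nat_lit 5) (nat_lit 323) (nat_lit 316) (nat_lit 141))) (XT.nd (nat_lit 78) (nat_lit 152) (nat_lit 0) (XT.lf (nat_lit 0) (nat_lit 13534650247342) (nat_lit 152) (nat_lit 2413365761497) (nat_lit 228) (nat_lit 2971793611713) (nat_lit 21) (nat_lit 5) (nat_lit 23) (nat_lit 5) (nat_lit 24) (nat_lit 5) (nat_lit 324) (nat_lit 316) (nat_lit 140)) (XT.nd (nat_lit 78) (nat_lit 0) (nat_lit 0) (XT.lf (nat_lit 0) (nat_lit 146527323549) (nat_lit 152) (nat_lit 15322338539818) (nat_lit 76) (nat_lit 5136315619331) (nat_lit 19) (nat_lit 5) (nat_lit 21) (nat_lit 5) (nat_lit 20) (nat_lit 5) (nat_lit 325) (nat_lit 316) (nat_lit 139)) (XT.lf (nat_lit 0) (nat_lit 3838165102654) (nat_lit 152) (nat_lit 4614711271317) (nat_lit 76) (nat_lit 14007782088399) (nat_lit 19) (nat_lit 5) (nat_lit 21) (nat_lit 5) (nat_lit 20) (nat_lit 5) (nat_lit 326) (nat_lit 316) (nat_lit 138))))) (XT.nd (nat_lit 156) (nat_lit 760)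 (nat_lit 0) (XT.nd (nat_lit 78) (nat_lit 0) (nat_lit 0) (XT.lf (nat_lit 0) (nat_lit 8434249610256) (nat_lit 228) (nat_lit 16091238950157) (nat_lit 76) (nat_lit 16363269335) (nat_lit 17) (nat_lit 5) (nat_lit 20) (nat_lit 5) (nat_lit 18) (nat_lit 4) (nat_lit 327) (nat_lit 316) (nat_lit 137)) (XT.lf (nat_lit 0) (nat_lit 14374975095677) (nat_lit 228) (nat_lit 3318679156563) (nat_lit 76) (nat_lit 9143285704741) (nat_lit 17) (nat_lit 5) (nat_lit 20) (nat_lit 5) (nat_lit 18) (nat_lit 4) (nat_lit 328) (nat_lit 316) (nat_lit 136))) (XT.nd (nat_lit 936) (nat_lit 684) (nat_lit 0) (XT.lf (nat_lit 0) (nat_lit 12480900692515) (nat_lit 76) (nat_lit 9242716193455) (nat_lit 152) (nat_lit 7675153295020) (nat_lit 16) (nat_lit 5) (nat_lit 17) (nat_lit 5) (nat_lit 18) (nat_lit 4) (nat_lit 329) (nat_lit 316) (nat_lit 135)) (XT.nd (nat_lit 78) (nat_lit 0) (nat_lit 0) (XT.lf (nat_lit 0) (nat_lit 11875630098628)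 (nat_lit 76) (nat_lit 4114621699922) (nat_lit 152) (nat_lit 83436118535606) (nat_lit 7) (nat_lit 5) (nat_lit 8) (nat_lit 5) (nat_lit 9) (nat_lit 4) (nat_lit 341) (nat_lit 316) (nat_lit 123)) (XT.lf (nat_lit 0) (nat_lit 36792895627886) (nat_lit 152) (nat_lit 57111801492079) (nat_lit 0) (nat_lit 17224711916353) (nat_lit 7) (nat_lit 5) (nat_lit 9) (nat_lit 4) (nat_lit 7) (nat_lit 4) (nat_lit 342) (nat_lit 316) (nat_lit 122)))))) (XT.nd (nat_lit 38922) (nat_lit 0) (nat_lit 1064) (XT.nd (nat_lit 38688) (nat_lit 0) (nat_lit 1368) (XT.nd (nat_lit 38610) (nat_lit 0) (nat_lit 1368) (XT.lf (nat_lit 0) (nat_lit 60911870398273) (nat_lit 152) (nat_lit 22302956303795) (nat_lit 0) (nat_lit 41343686686737) (nat_lit 7) (nat_lit 5) (nat_lit 9) (nat_lit 4) (nat_lit 7) (nat_lit 4) (nat_lit 343) (nat_lit 316) (nat_lit 121)) (XT.lf (nat_lit 0) (nat_lit 1199964058268) (nat_lit 380) (nat_lit 2329074100680)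 (nat_lit 380) (nat_lit 2329074100680) (nat_lit 25) (nat_lit 3) (nat_lit 30) (nat_lit 3) (nat_lit 30) (nat_lit 5) (nat_lit 317) (nat_lit 317) (nat_lit 146))) (XT.nd (nat_lit 78) (nat_lit 0) (nat_lit 76) (XT.lf (nat_lit 76) (nat_lit 1020674456051) (nat_lit 0) (nat_lit 1601512222294) (nat_lit 380) (nat_lit 9966415086898) (nat_lit 26) (nat_lit 5) (nat_lit 25) (nat_lit 3) (nat_lit 30) (nat_lit 5) (nat_lit 318) (nat_lit 317) (nat_lit 145)) (XT.nd (nat_lit 78) (nat_lit 0) (nat_lit 0) (XT.lf (nat_lit 0) (nat_lit 3326394272128) (nat_lit 304) (nat_lit 5685594769158) (nat_lit 380) (nat_lit 4512555019681) (nat_lit 26) (nat_lit 5) (nat_lit 30) (nat_lit 5) (nat_lit 31) (nat_lit 5) (nat_lit 319) (nat_lit 317) (nat_lit 144)) (XT.lf (nat_lit 76) (nat_lit 1100828533451) (nat_lit 0) (nat_lit 3157249920282) (nat_lit 380) (nat_lit 10324522430005) (nat_lit 27) (nat_lit 5) (nat_lit 26) (nat_lit 5) (nat_lit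 31) (nat_lit 5) (nat_lit 320) (nat_lit 317) (nat_lit 143))))) (XT.nd (nat_lit 156) (nat_lit 152) (nat_lit 0) (XT.nd (nat_lit 78) (nat_lit 304) (nat_lit 0) (XT.lf (nat_lit 0) (nat_lit 5788931376436) (nat_lit 304) (nat_lit 6372801914771) (nat_lit 76) (nat_lit 3568720521640) (nat_lit 27) (nat_lit 5) (nat_lit 31) (nat_lit 5) (nat_lit 28) (nat_lit 5) (nat_lit 321) (nat_lit 317) (nat_lit 142)) (XT.lf (nat_lit 0) (nat_lit 1813630807684) (nat_lit 304) (nat_lit 5961225248275) (nat_lit 380) (nat_lit 9241812052601) (nat_lit 23) (nat_lit 5) (nat_lit 27) (nat_lit 5) (nat_lit 28) (nat_lit 5) (nat_lit 322) (nat_lit 317) (nat_lit 141))) (XT.nd (nat_lit 78) (nat_lit 152) (nat_lit 0) (XT.lf (nat_lit 0) (nat_lit 10456076871457) (nat_lit 380) (nat_lit 6565885213976) (nat_lit 76) (nat_lit 1414241348089) (nat_lit 23) (nat_lit 5) (nat_lit 28) (nat_lit 5) (nat_lit 24) (nat_lit 5) (nat_lit 323) (nat_lit 317)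 (nat_lit 140)) (XT.nd (nat_lit 78) (nat_lit 0) (nat_lit 0) (XT.lf (nat_lit 0) (nat_lit 3384262244506) (nat_lit 152) (nat_lit 10579221516285) (nat_lit 228) (nat_lit 6041584853712) (nat_lit 21) (nat_lit 5) (nat_lit 23) (nat_lit 5) (nat_lit 24) (nat_lit 5) (nat_lit 324) (nat_lit 317) (nat_lit 139)) (XT.lf (nat_lit 0) (nat_lit 15564847784965) (nat_lit 152) (nat_lit 2775370625615) (nat_lit 228) (nat_lit 3417562652991) (nat_lit 21) (nat_lit 5) (nat_lit 23) (nat_lit 5) (nat_lit 24) (nat_lit 5) (nat_lit 325) (nat_lit 317) (nat_lit 138))))))))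
noncomputable def xc125 : XT := (XT.nd (nat_lit 80886) (nat_lit 0) (nat_lit 912) (XT.nd (nat_lit 40326) (nat_lit 0) (nat_lit 760) (XT.nd (nat_lit 1248) (nat_lit 152) (nat_lit 0) (XT.nd (nat_lit 156) (nat_lit 760) (nat_lit 0) (XT.nd (nat_lit 78) (nat_lit 0) (nat_lit 0) (XT.lf (nat_lit 0) (nat_lit 168506422489) (nat_lit 152) (nat_lit 17620689320196) (nat_lit 76) (nat_lit 5906762962357) (nat_lit 19) (nat_lit 5) (nat_lit 21) (nat_lit 5) (nat_lit 20) (nat_lit 5) (nat_lit 326) (nat_lit 317) (nat_lit 137)) (XT.lf (nat_lit 0) (nat_lit 4413889868406) (nat_lit 152) (nat_lit 5306917961498) (nat_lit 76) (nat_lit 16108949401769) (nat_lit 19) (nat_lit 5) (nat_lit 21) (nat_lit 5) (nat_lit 20) (nat_lit 5) (nat_lit 327) (nat_lit 317) (nat_lit 136))) (XT.nd (nat_lit 78) (nat_lit 608) (nat_lit 0) (XT.lf (nat_lit 0) (nat_lit 9699387052130) (nat_lit 228) (nat_lit 18504924792144) (nat_lit 76) (nat_lit 18817759887)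 (nat_lit 17) (nat_lit 5) (nat_lit 20) (nat_lit 5) (nat_lit 18) (nat_lit 4) (nat_lit 328) (nat_lit 317) (nat_lit 135)) (XT.nd (nat_lit 936) (nat_lit 608) (nat_lit 0) (XT.lf (nat_lit 0) (nat_lit 16531221360319) (nat_lit 228) (nat_lit 3816481029581) (nat_lit 76) (nat_lit 10514778560584) (nat_lit 17) (nat_lit 5) (nat_lit 20) (nat_lit 5) (nat_lit 18) (nat_lit 4) (nat_lit 329) (nat_lit 317) (nat_lit 134)) (XT.lf (nat_lit 0) (nat_lit 75546385232320) (nat_lit 76) (nat_lit 26333521088723) (nat_lit 76) (nat_lit 454598130215) (nat_lit 9) (nat_lit 4) (nat_lit 10) (nat_lit 5) (nat_lit 10) (nat_lit 4) (nat_lit 341) (nat_lit 317) (nat_lit 122))))) (XT.nd (nat_lit 38844) (nat_lit 0) (nat_lit 1368) (XT.nd (nat_lit 38766) (nat_lit 0) (nat_lit 1368) (XT.lf (nat_lit 0) (nat_lit 13656974613631) (nat_lit 76) (nat_lit 4731814954807) (nat_lit 152) (nat_lit 95951536315827) (nat_lit 7) (nat_lit 5) (nat_lit 8)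 (nat_lit 5) (nat_lit 9) (nat_lit 4) (nat_lit 342) (nat_lit 317) (nat_lit 121)) (XT.lf (nat_lit 0) (nat_lit 1379958667426) (nat_lit 380) (nat_lit 2678435215541) (nat_lit 380) (nat_lit 2678435215541) (nat_lit 25) (nat_lit 3) (nat_lit 30) (nat_lit 3) (nat_lit 30) (nat_lit 5) (nat_lit 318) (nat_lit 318) (nat_lit 144))) (XT.nd (nat_lit 78) (nat_lit 0) (nat_lit 76) (XT.lf (nat_lit 76) (nat_lit 1173775624918) (nat_lit 0) (nat_lit 1841739055924) (nat_lit 380) (nat_lit 11461377349073) (nat_lit 26) (nat_lit 5) (nat_lit 25) (nat_lit 3) (nat_lit 30) (nat_lit 5) (nat_lit 319) (nat_lit 318) (nat_lit 143)) (XT.nd (nat_lit 78) (nat_lit 0) (nat_lit 0) (XT.lf (nat_lit 0) (nat_lit 3825353413585) (nat_lit 304) (nat_lit 6538433984024) (nat_lit 380) (nat_lit 5189438272407) (nat_lit 26) (nat_lit 5) (nat_lit 30) (nat_lit 5) (nat_lit 31) (nat_lit 5) (nat_lit 320) (nat_lit 318) (nat_lit 142)) (XT.lf (nat_lit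 76) (nat_lit 1265952813954) (nat_lit 0) (nat_lit 3630837408414) (nat_lit 380) (nat_lit 11873200793843) (nat_lit 27) (nat_lit 5) (nat_lit 26) (nat_lit 5) (nat_lit 31) (nat_lit 5) (nat_lit 321) (nat_lit 318) (nat_lit 141)))))) (XT.nd (nat_lit 390) (nat_lit 304) (nat_lit 0) (XT.nd (nat_lit 156) (nat_lit 152) (nat_lit 0) (XT.nd (nat_lit 78) (nat_lit 304) (nat_lit 0) (XT.lf (nat_lit 0) (nat_lit 6657271083398) (nat_lit 304) (nat_lit 7328722201485) (nat_lit 76) (nat_lit 4104028599815) (nat_lit 27) (nat_lit 5) (nat_lit 31) (nat_lit 5) (nat_lit 28) (nat_lit 5) (nat_lit 322) (nat_lit 318) (nat_lit 140)) (XT.lf (nat_lit 0) (nat_lit 2085675429315) (nat_lit 304) (nat_lit 6855409035489) (nat_lit 380) (nat_lit 10628083859970) (nat_lit 23) (nat_lit 5) (nat_lit 27) (nat_lit 5) (nat_lit 28) (nat_lit 5) (nat_lit 323) (nat_lit 318) (nat_lit 139))) (XT.nd (nat_lit 78) (nat_lit 152) (nat_lit 0) (XT.lf (nat_lit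 0) (nat_lit 12024488402569) (nat_lit 380) (nat_lit 7550767995598) (nat_lit 76) (nat_lit 1626377550324) (nat_lit 23) (nat_lit 5) (nat_lit 28) (nat_lit 5) (nat_lit 24) (nat_lit 5) (nat_lit 324) (nat_lit 318) (nat_lit 138)) (XT.nd (nat_lit 78) (nat_lit 0) (nat_lit 0) (XT.lf (nat_lit 0) (nat_lit 3891901581635) (nat_lit 152) (nat_lit 12166104743635) (nat_lit 228) (nat_lit 6947822581353) (nat_lit 21) (nat_lit 5) (nat_lit 23) (nat_lit 5) (nat_lit 24) (nat_lit 5) (nat_lit 325) (nat_lit 318) (nat_lit 137)) (XT.lf (nat_lit 0) (nat_lit 17899574953105) (nat_lit 152) (nat_lit 3191676219377) (nat_lit 228) (nat_lit 3930197050578) (nat_lit 21) (nat_lit 5) (nat_lit 23) (nat_lit 5) (nat_lit 24) (nat_lit 5) (nat_lit 326) (nat_lit 318) (nat_lit 136))))) (XT.nd (nat_lit 156) (nat_lit 152) (nat_lit 0) (XT.nd (nat_lit 78) (nat_lit 0) (nat_lit 0) (XT.lf (nat_lit 0) (nat_lit 193782386170) (nat_lit 152) (nat_lit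 20263792717775) (nat_lit 76) (nat_lit 6792777406806) (nat_lit 19) (nat_lit 5) (nat_lit 21) (nat_lit 5) (nat_lit 20) (nat_lit 5) (nat_lit 327) (nat_lit 318) (nat_lit 135)) (XT.lf (nat_lit 0) (nat_lit 5075973348934) (nat_lit 152) (nat_lit 6102955655331) (nat_lit 76) (nat_lit 18525291812117) (nat_lit 19) (nat_lit 5) (nat_lit 21) (nat_lit 5) (nat_lit 20) (nat_lit 5) (nat_lit 328) (nat_lit 318) (nat_lit 134))) (XT.nd (nat_lit 39858) (nat_lit 0) (nat_lit 608) (XT.lf (nat_lit 0) (nat_lit 11154295110202) (nat_lit 228) (nat_lit 21280663510560) (nat_lit 76) (nat_lit 21640423983) (nat_lit 17) (nat_lit 5) (nat_lit 20) (nat_lit 5) (nat_lit 18) (nat_lit 4) (nat_lit 329) (nat_lit 318) (nat_lit 133)) (XT.nd (nat_lit 78) (nat_lit 0) (nat_lit 0) (XT.lf (nat_lit 0) (nat_lit 1586952467856) (nat_lit 380) (nat_lit 3080200497691) (nat_lit 380) (nat_lit 3080200497691) (nat_lit 25) (nat_lit 3) (nat_lit 30) (nat_lit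 3) (nat_lit 30) (nat_lit 5) (nat_lit 319) (nat_lit 319) (nat_lit 142)) (XT.lf (nat_lit 76) (nat_lit 1349841969003) (nat_lit 0) (nat_lit 2117999914528) (nat_lit 380) (nat_lit 13180583950785) (nat_lit 26) (nat_lit 5) (nat_lit 25) (nat_lit 3) (nat_lit 30) (nat_lit 5) (nat_lit 320) (nat_lit 319) (nat_lit 141))))))) (XT.nd (nat_lit 40638) (nat_lit 0) (nat_lit 0) (XT.nd (nat_lit 390) (nat_lit 304) (nat_lit 0) (XT.nd (nat_lit 156) (nat_lit 228) (nat_lit 0) (XT.nd (nat_lit 78) (nat_lit 0) (nat_lit 0) (XT.lf (nat_lit 0) (nat_lit 4399156426105) (nat_lit 304) (nat_lit 7519199081243) (nat_lit 380) (nat_lit 5967854013097) (nat_lit 26) (nat_lit 5) (nat_lit 30) (nat_lit 5) (nat_lit 31) (nat_lit 5) (nat_lit 321) (nat_lit 319) (nat_lit 140)) (XT.lf (nat_lit 76) (nat_lit 1455845736415) (nat_lit 0) (nat_lit 4175463019743) (nat_lit 380) (nat_lit 13654180912419) (nat_lit 27) (nat_lit 5) (nat_lit 26) (nat_lit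 5) (nat_lit 31) (nat_lit 5) (nat_lit 322) (nat_lit 319) (nat_lit 139))) (XT.nd (nat_lit 78) (nat_lit 304) (nat_lit 0) (XT.lf (nat_lit 0) (nat_lit 7655861746284) (nat_lit 304) (nat_lit 8428030531328) (nat_lit 76) (nat_lit 4719632889734) (nat_lit 27) (nat_lit 5) (nat_lit 31) (nat_lit 5) (nat_lit 28) (nat_lit 5) (nat_lit 323) (nat_lit 319) (nat_lit 138)) (XT.nd (nat_lit 78) (nat_lit 0) (nat_lit 0) (XT.lf (nat_lit 0) (nat_lit 2398526744075) (nat_lit 304) (nat_lit 7883720390792) (nat_lit 380) (nat_lit 12222296438572) (nat_lit 23) (nat_lit 5) (nat_lit 27) (nat_lit 5) (nat_lit 28) (nat_lit 5) (nat_lit 324) (nat_lit 319) (nat_lit 137)) (XT.lf (nat_lit 0) (nat_lit 13828161663252) (nat_lit 380) (nat_lit 8683383194578) (nat_lit 76) (nat_lit 1870334182889) (nat_lit 23) (nat_lit 5) (nat_lit 28) (nat_lit 5) (nat_lit 24) (nat_lit 5) (nat_lit 325) (nat_lit 319) (nat_lit 136))))) (XT.nd (nat_lit 156)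 (nat_lit 152) (nat_lit 0) (XT.nd (nat_lit 78) (nat_lit 0) (nat_lit 0) (XT.lf (nat_lit 0) (nat_lit 4475686819224) (nat_lit 152) (nat_lit 13991020455110) (nat_lit 228) (nat_lit 7989995968241) (nat_lit 21) (nat_lit 5) (nat_lit 23) (nat_lit 5) (nat_lit 24) (nat_lit 5) (nat_lit 326) (nat_lit 319) (nat_lit 135)) (XT.lf (nat_lit 0) (nat_lit 20584511196369) (nat_lit 152) (nat_lit 3670427652222) (nat_lit 228) (nat_lit 4519726607892) (nat_lit 21) (nat_lit 5) (nat_lit 23) (nat_lit 5) (nat_lit 24) (nat_lit 5) (nat_lit 327) (nat_lit 319) (nat_lit 134))) (XT.nd (nat_lit 78) (nat_lit 0) (nat_lit 0) (XT.lf (nat_lit 0) (nat_lit 222849744328) (nat_lit 152) (nat_lit 23303361625102) (nat_lit 76) (nat_lit 7811694017898) (nat_lit 19) (nat_lit 5) (nat_lit 21) (nat_lit 5) (nat_lit 20) (nat_lit 5) (nat_lit 328) (nat_lit 319) (nat_lit 133)) (XT.nd (nat_lit 39936) (nat_lit 0) (nat_lit 456) (XT.lf (nat_lit 0) (nat_lit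 5837369351477) (nat_lit 152) (nat_lit 7018399003336) (nat_lit 76) (nat_lit 21304085583997) (nat_lit 19) (nat_lit 5) (nat_lit 21) (nat_lit 5) (nat_lit 20) (nat_lit 5) (nat_lit 329) (nat_lit 319) (nat_lit 132)) (XT.lf (nat_lit 0) (nat_lit 1824995338274) (nat_lit 380) (nat_lit 3542230572207) (nat_lit 380) (nat_lit 3542230572207) (nat_lit 25) (nat_lit 3) (nat_lit 30) (nat_lit 3) (nat_lit 30) (nat_lit 5) (nat_lit 320) (nat_lit 320) (nat_lit 140)))))) (XT.nd (nat_lit 390) (nat_lit 304) (nat_lit 0) (XT.nd (nat_lit 156) (nat_lit 152) (nat_lit 0) (XT.nd (nat_lit 78) (nat_lit 0) (nat_lit 76) (XT.lf (nat_lit 76) (nat_lit 1552318264617) (nat_lit 0) (nat_lit 2435699901871) (nat_lit 380) (nat_lit 15157671542911) (nat_lit 26) (nat_lit 5) (nat_lit 25) (nat_lit 3) (nat_lit 30) (nat_lit 5) (nat_lit 321) (nat_lit 320) (nat_lit 139)) (XT.lf (nat_lit 0) (nat_lit 5059029890386) (nat_lit 304) (nat_lit 8647078943138)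 (nat_lit 380) (nat_lit 6863032114932) (nat_lit 26) (nat_lit 5) (nat_lit 30) (nat_lit 5) (nat_lit 31) (nat_lit 5) (nat_lit 322) (nat_lit 320) (nat_lit 138))) (XT.nd (nat_lit 78) (nat_lit 228) (nat_lit 0) (XT.lf (nat_lit 76) (nat_lit 1674222597155) (nat_lit 0) (nat_lit 4801782472756) (nat_lit 380) (nat_lit 15702308048903) (nat_lit 27) (nat_lit 5) (nat_lit 26) (nat_lit 5) (nat_lit 31) (nat_lit 5) (nat_lit 323) (nat_lit 320) (nat_lit 137)) (XT.nd (nat_lit 78) (nat_lit 304) (nat_lit 0) (XT.lf (nat_lit 0) (nat_lit 8804241008510) (nat_lit 304) (nat_lit 9692235110740) (nat_lit 76) (nat_lit 5427577823154) (nat_lit 27) (nat_lit 5) (nat_lit 31) (nat_lit 5) (nat_lit 28) (nat_lit 5) (nat_lit 324) (nat_lit 320) (nat_lit 136)) (XT.lf (nat_lit 0) (nat_lit 2758305755960) (nat_lit 304) (nat_lit 9066278449395) (nat_lit 380) (nat_lit 14055640904061) (nat_lit 23) (nat_lit 5) (nat_lit 27) (nat_lit 5) (nat_lit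 28) (nat_lit 5) (nat_lit 325) (nat_lit 320) (nat_lit 135))))) (XT.nd (nat_lit 234) (nat_lit 152) (nat_lit 0) (XT.nd (nat_lit 78) (nat_lit 152) (nat_lit 0) (XT.lf (nat_lit 0) (nat_lit 15902385912965) (nat_lit 380) (nat_lit 9985890673493) (nat_lit 76) (nat_lit 2150884310334) (nat_lit 23) (nat_lit 5) (nat_lit 28) (nat_lit 5) (nat_lit 24) (nat_lit 5) (nat_lit 326) (nat_lit 320) (nat_lit 134)) (XT.nd (nat_lit 78) (nat_lit 0) (nat_lit 0) (XT.lf (nat_lit 0) (nat_lit 5147039842367) (nat_lit 152) (nat_lit 16089673523324) (nat_lit 228) (nat_lit 9188495363239) (nat_lit 21) (nat_lit 5) (nat_lit 23) (nat_lit 5) (nat_lit 24) (nat_lit 5) (nat_lit 327) (nat_lit 320) (nat_lit 133)) (XT.lf (nat_lit 0) (nat_lit 23672187876050) (nat_lit 152) (nat_lit 4220991800010) (nat_lit 228) (nat_lit 5197685598869) (nat_lit 21) (nat_lit 5) (nat_lit 23) (nat_lit 5) (nat_lit 24) (nat_lit 5) (nat_lit 328) (nat_lit 320)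 (nat_lit 132)))) (XT.nd (nat_lit 78) (nat_lit 0) (nat_lit 0) (XT.lf (nat_lit 0) (nat_lit 256277206154) (nat_lit 152) (nat_lit 26798865868610) (nat_lit 76) (nat_lit 8983448120638) (nat_lit 19) (nat_lit 5) (nat_lit 21) (nat_lit 5) (nat_lit 20) (nat_lit 5) (nat_lit 329) (nat_lit 320) (nat_lit 131)) (XT.nd (nat_lit 39936) (nat_lit 0) (nat_lit 456) (XT.lf (nat_lit 0) (nat_lit 6712974754352) (nat_lit 152) (nat_lit 8071158853612) (nat_lit 76) (nat_lit 24499698421644) (nat_lit 19) (nat_lit 5) (nat_lit 21) (nat_lit 5) (nat_lit 20) (nat_lit 5) (nat_lit 330) (nat_lit 320) (nat_lit 130)) (XT.lf (nat_lit 0) (nat_lit 2098744639195) (nat_lit 380) (nat_lit 4073565157934) (nat_lit 380) (nat_lit 4073565157934) (nat_lit 25) (nat_lit 3) (nat_lit 30) (nat_lit 3) (nat_lit 30) (nat_lit 5) (nat_lit 321) (nat_lit 321) (nat_lit 138))))))))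
noncomputable def xc126 : XT := (XT.nd (nat_lit 81432) (nat_lit 0) (nat_lit 152) (XT.nd (nat_lit 40716) (nat_lit 0) (nat_lit 0) (XT.nd (nat_lit 390) (nat_lit 304) (nat_lit 0) (XT.nd (nat_lit 156) (nat_lit 152) (nat_lit 0) (XT.nd (nat_lit 78) (nat_lit 0) (nat_lit 76) (XT.lf (nat_lit 76) (nat_lit 1785166004508) (nat_lit 0) (nat_lit 2801054887275) (nat_lit 380) (nat_lit 17431322273977) (nat_lit 26) (nat_lit 5) (nat_lit 25) (nat_lit 3) (nat_lit 30) (nat_lit 5) (nat_lit 322) (nat_lit 321) (nat_lit 137)) (XT.lf (nat_lit 0) (nat_lit 5817884374219) (nat_lit 304) (nat_lit 9944140784389) (nat_lit 380) (nat_lit 7892486932074) (nat_lit 26) (nat_lit 5) (nat_lit 30) (nat_lit 5) (nat_lit 31) (nat_lit 5) (nat_lit 323) (nat_lit 321) (nat_lit 136))) (XT.nd (nat_lit 78) (nat_lit 228) (nat_lit 0) (XT.lf (nat_lit 76) (nat_lit 1925355986938) (nat_lit 0) (nat_lit 5522049843708) (nat_lit 380) (nat_lit 18057654255952)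 (nat_lit 27) (nat_lit 5) (nat_lit 26) (nat_lit 5) (nat_lit 31) (nat_lit 5) (nat_lit 324) (nat_lit 321) (nat_lit 135)) (XT.nd (nat_lit 78) (nat_lit 304) (nat_lit 0) (XT.lf (nat_lit 0) (nat_lit 10124877160001) (nat_lit 304) (nat_lit 11146070377135) (nat_lit 76) (nat_lit 6241714496597) (nat_lit 27) (nat_lit 5) (nat_lit 31) (nat_lit 5) (nat_lit 28) (nat_lit 5) (nat_lit 325) (nat_lit 321) (nat_lit 134)) (XT.lf (nat_lit 0) (nat_lit 3172051619561) (nat_lit 304) (nat_lit 10426220216793) (nat_lit 380) (nat_lit 16163987039445) (nat_lit 23) (nat_lit 5) (nat_lit 27) (nat_lit 5) (nat_lit 28) (nat_lit 5) (nat_lit 326) (nat_lit 321) (nat_lit 133))))) (XT.nd (nat_lit 156) (nat_lit 152) (nat_lit 0) (XT.nd (nat_lit 78) (nat_lit 152) (nat_lit 0) (XT.lf (nat_lit 0) (nat_lit 18287743800080) (nat_lit 380) (nat_lit 11483774274311) (nat_lit 76) (nat_lit 2473516956894) (nat_lit 23) (nat_lit 5) (nat_lit 28) (nat_lit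 5) (nat_lit 24) (nat_lit 5) (nat_lit 327) (nat_lit 321) (nat_lit 132)) (XT.lf (nat_lit 0) (nat_lit 5919095818918) (nat_lit 152) (nat_lit 18503124551782) (nat_lit 228) (nat_lit 10566769667545) (nat_lit 21) (nat_lit 5) (nat_lit 23) (nat_lit 5) (nat_lit 24) (nat_lit 5) (nat_lit 328) (nat_lit 321) (nat_lit 131))) (XT.nd (nat_lit 78) (nat_lit 152) (nat_lit 0) (XT.lf (nat_lit 0) (nat_lit 27223016057628) (nat_lit 152) (nat_lit 4854140569976) (nat_lit 228) (nat_lit 5977338438542) (nat_lit 21) (nat_lit 5) (nat_lit 23) (nat_lit 5) (nat_lit 24) (nat_lit 5) (nat_lit 329) (nat_lit 321) (nat_lit 130)) (XT.nd (nat_lit 40014) (nat_lit 0) (nat_lit 456) (XT.lf (nat_lit 0) (nat_lit 294718787210) (nat_lit 152) (nat_lit 30818695748707) (nat_lit 76) (nat_lit 10330965338775) (nat_lit 19) (nat_lit 5) (nat_lit 21) (nat_lit 5) (nat_lit 20) (nat_lit 5) (nat_lit 330) (nat_lit 321) (nat_lit 129)) (XT.lf (nat_lit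 0) (nat_lit 2413556335211) (nat_lit 380) (nat_lit 4684599931545) (nat_lit 380) (nat_lit 4684599931545) (nat_lit 25) (nat_lit 3) (nat_lit 30) (nat_lit 3) (nat_lit 30) (nat_lit 5) (nat_lit 322) (nat_lit 322) (nat_lit 136)))))) (XT.nd (nat_lit 390) (nat_lit 304) (nat_lit 0) (XT.nd (nat_lit 156) (nat_lit 152) (nat_lit 0) (XT.nd (nat_lit 78) (nat_lit 0) (nat_lit 76) (XT.lf (nat_lit 76) (nat_lit 2052940905334) (nat_lit 0) (nat_lit 3221213120460) (nat_lit 380) (nat_lit 20046020614792) (nat_lit 26) (nat_lit 5) (nat_lit 25) (nat_lit 3) (nat_lit 30) (nat_lit 5) (nat_lit 323) (nat_lit 322) (nat_lit 135)) (XT.lf (nat_lit 0) (nat_lit 6690567030561) (nat_lit 304) (nat_lit 11435761901881) (nat_lit 380) (nat_lit 9076359971811) (nat_lit 26) (nat_lit 5) (nat_lit 30) (nat_lit 5) (nat_lit 31) (nat_lit 5) (nat_lit 324) (nat_lit 322) (nat_lit 134))) (XT.nd (nat_lit 78) (nat_lit 228) (nat_lit 0) (XT.lf (nat_lit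 76) (nat_lit 2214159385137) (nat_lit 0) (nat_lit 6350357320293) (nat_lit 380) (nat_lit 20766302394129) (nat_lit 27) (nat_lit 5) (nat_lit 26) (nat_lit 5) (nat_lit 31) (nat_lit 5) (nat_lit 325) (nat_lit 322) (nat_lit 133)) (XT.nd (nat_lit 78) (nat_lit 304) (nat_lit 0) (XT.lf (nat_lit 0) (nat_lit 11643608734164) (nat_lit 304) (nat_lit 12817980933541) (nat_lit 76) (nat_lit 7177971671063) (nat_lit 27) (nat_lit 5) (nat_lit 31) (nat_lit 5) (nat_lit 28) (nat_lit 5) (nat_lit 326) (nat_lit 322) (nat_lit 132)) (XT.lf (nat_lit 0) (nat_lit 3647859362652) (nat_lit 304) (nat_lit 11990153249303) (nat_lit 380) (nat_lit 18588585095191) (nat_lit 23) (nat_lit 5) (nat_lit 27) (nat_lit 5) (nat_lit 28) (nat_lit 5) (nat_lit 327) (nat_lit 322) (nat_lit 131))))) (XT.nd (nat_lit 156) (nat_lit 152) (nat_lit 0) (XT.nd (nat_lit 78) (nat_lit 152) (nat_lit 0) (XT.lf (nat_lit 0) (nat_lit 21030905370221) (nat_lit 380)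 (nat_lit 13206340415303) (nat_lit 76) (nat_lit 2844544500435) (nat_lit 23) (nat_lit 5) (nat_lit 28) (nat_lit 5) (nat_lit 24) (nat_lit 5) (nat_lit 328) (nat_lit 322) (nat_lit 130)) (XT.lf (nat_lit 0) (nat_lit 6806960191904) (nat_lit 152) (nat_lit 21278593234520) (nat_lit 228) (nat_lit 12151785117541) (nat_lit 21) (nat_lit 5) (nat_lit 23) (nat_lit 5) (nat_lit 24) (nat_lit 5) (nat_lit 329) (nat_lit 322) (nat_lit 129))) (XT.nd (nat_lit 78) (nat_lit 152) (nat_lit 0) (XT.lf (nat_lit 0) (nat_lit 31306468466401) (nat_lit 152) (nat_lit 5582261655447) (nat_lit 228) (nat_lit 6873939204206) (nat_lit 21) (nat_lit 5) (nat_lit 23) (nat_lit 5) (nat_lit 24) (nat_lit 5) (nat_lit 330) (nat_lit 322) (nat_lit 128)) (XT.nd (nat_lit 40014) (nat_lit 0) (nat_lit 456) (XT.lf (nat_lit 0) (nat_lit 338926605392) (nat_lit 152) (nat_lit 35441500110867) (nat_lit 76) (nat_lit 11880610139622) (nat_lit 19) (nat_lit 5)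 (nat_lit 21) (nat_lit 5) (nat_lit 20) (nat_lit 5) (nat_lit 331) (nat_lit 322) (nat_lit 127)) (XT.lf (nat_lit 0) (nat_lit 2775589785596) (nat_lit 380) (nat_lit 5387289921218) (nat_lit 380) (nat_lit 5387289921218) (nat_lit 25) (nat_lit 3) (nat_lit 30) (nat_lit 3) (nat_lit 30) (nat_lit 5) (nat_lit 323) (nat_lit 323) (nat_lit 134))))))) (XT.nd (nat_lit 40794) (nat_lit 0) (nat_lit 0) (XT.nd (nat_lit 390) (nat_lit 152) (nat_lit 0) (XT.nd (nat_lit 156) (nat_lit 152) (nat_lit 0) (XT.nd (nat_lit 78) (nat_lit 0) (nat_lit 76) (XT.lf (nat_lit 76) (nat_lit 2360882041248) (nat_lit 0) (nat_lit 3704395088600) (nat_lit 380) (nat_lit 23052923706799) (nat_lit 26) (nat_lit 5) (nat_lit 25) (nat_lit 3) (nat_lit 30) (nat_lit 5) (nat_lit 324) (nat_lit 323) (nat_lit 133)) (XT.lf (nat_lit 0) (nat_lit 7694152085303) (nat_lit 304) (nat_lit 13151126187037) (nat_lit 380) (nat_lit 10437813967527) (nat_lit 26) (nat_lit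 5) (nat_lit 30) (nat_lit 5) (nat_lit 31) (nat_lit 5) (nat_lit 325) (nat_lit 323) (nat_lit 132))) (XT.nd (nat_lit 78) (nat_lit 228) (nat_lit 0) (XT.lf (nat_lit 76) (nat_lit 2546283293028) (nat_lit 0) (nat_lit 7302910918359) (nat_lit 380) (nat_lit 23881247753084) (nat_lit 27) (nat_lit 5) (nat_lit 26) (nat_lit 5) (nat_lit 31) (nat_lit 5) (nat_lit 326) (nat_lit 323) (nat_lit 131)) (XT.nd (nat_lit 78) (nat_lit 304) (nat_lit 0) (XT.lf (nat_lit 0) (nat_lit 13390150044412) (nat_lit 304) (nat_lit 14740678073448) (nat_lit 76) (nat_lit 8254667421705) (nat_lit 27) (nat_lit 5) (nat_lit 31) (nat_lit 5) (nat_lit 28) (nat_lit 5) (nat_lit 327) (nat_lit 323) (nat_lit 130)) (XT.lf (nat_lit 0) (nat_lit 4195038267169) (nat_lit 304) (nat_lit 13788676236691) (nat_lit 380) (nat_lit 21376872859341) (nat_lit 23) (nat_lit 5) (nat_lit 27) (nat_lit 5) (nat_lit 28) (nat_lit 5) (nat_lit 328) (nat_lit 323) (nat_lit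 129))))) (XT.nd (nat_lit 156) (nat_lit 0) (nat_lit 0) (XT.nd (nat_lit 78) (nat_lit 152) (nat_lit 0) (XT.lf (nat_lit 0) (nat_lit 24185541175852) (nat_lit 380) (nat_lit 15187291477481) (nat_lit 76) (nat_lit 3271226175506) (nat_lit 23) (nat_lit 5) (nat_lit 28) (nat_lit 5) (nat_lit 24) (nat_lit 5) (nat_lit 329) (nat_lit 323) (nat_lit 128)) (XT.lf (nat_lit 0) (nat_lit 7828004220802) (nat_lit 152) (nat_lit 24470382219675) (nat_lit 228) (nat_lit 13974552885070) (nat_lit 21) (nat_lit 5) (nat_lit 23) (nat_lit 5) (nat_lit 24) (nat_lit 5) (nat_lit 330) (nat_lit 323) (nat_lit 127))) (XT.nd (nat_lit 40092) (nat_lit 0) (nat_lit 304) (XT.lf (nat_lit 0) (nat_lit 36002438736459) (nat_lit 152) (nat_lit 6419600903744) (nat_lit 228) (nat_lit 7905030084747) (nat_lit 21) (nat_lit 5) (nat_lit 23) (nat_lit 5) (nat_lit 24) (nat_lit 5) (nat_lit 331) (nat_lit 323) (nat_lit 126)) (XT.nd (nat_lit 78) (nat_lit 0)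 (nat_lit 0) (XT.lf (nat_lit 0) (nat_lit 3191928253514) (nat_lit 380) (nat_lit 6195383409356) (nat_lit 380) (nat_lit 6195383409355) (nat_lit 25) (nat_lit 3) (nat_lit 30) (nat_lit 3) (nat_lit 30) (nat_lit 5) (nat_lit 324) (nat_lit 324) (nat_lit 132)) (XT.lf (nat_lit 76) (nat_lit 2715014347521) (nat_lit 0) (nat_lit 4260054351943) (nat_lit 380) (nat_lit 26510862262658) (nat_lit 26) (nat_lit 5) (nat_lit 25) (nat_lit 3) (nat_lit 30) (nat_lit 5) (nat_lit 325) (nat_lit 324) (nat_lit 131)))))) (XT.nd (nat_lit 390) (nat_lit 152) (nat_lit 0) (XT.nd (nat_lit 156) (nat_lit 228) (nat_lit 0) (XT.nd (nat_lit 78) (nat_lit 0) (nat_lit 0) (XT.lf (nat_lit 0) (nat_lit 8848274898217) (nat_lit 304) (nat_lit 15123795114998) (nat_lit 380) (nat_lit 12003486062613) (nat_lit 26) (nat_lit 5) (nat_lit 30) (nat_lit 5) (nat_lit 31) (nat_lit 5) (nat_lit 326) (nat_lit 324) (nat_lit 130)) (XT.lf (nat_lit 76) (nat_lit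 2928225787073) (nat_lit 0) (nat_lit 8398347556130) (nat_lit 380) (nat_lit 27463434915923) (nat_lit 27) (nat_lit 5) (nat_lit 26) (nat_lit 5) (nat_lit 31) (nat_lit 5) (nat_lit 327) (nat_lit 324) (nat_lit 129))) (XT.nd (nat_lit 78) (nat_lit 304) (nat_lit 0) (XT.lf (nat_lit 0) (nat_lit 15398672551166) (nat_lit 304) (nat_lit 16951779784372) (nat_lit 76) (nat_lit 9492867534948) (nat_lit 27) (nat_lit 5) (nat_lit 31) (nat_lit 5) (nat_lit 28) (nat_lit 5) (nat_lit 328) (nat_lit 324) (nat_lit 128)) (XT.nd (nat_lit 78) (nat_lit 0) (nat_lit 0) (XT.lf (nat_lit 0) (nat_lit 4824294007333) (nat_lit 304) (nat_lit 15856977672190) (nat_lit 380) (nat_lit 24583403788146) (nat_lit 23) (nat_lit 5) (nat_lit 27) (nat_lit 5) (nat_lit 28) (nat_lit 5) (nat_lit 329) (nat_lit 324) (nat_lit 127)) (XT.lf (nat_lit 0) (nat_lit 27813372352303) (nat_lit 380) (nat_lit 17465385199014) (nat_lit 76) (nat_lit 3761910101836)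 (nat_lit 23) (nat_lit 5) (nat_lit 28) (nat_lit 5) (nat_lit 24) (nat_lit 5) (nat_lit 330) (nat_lit 324) (nat_lit 126))))) (XT.nd (nat_lit 40248) (nat_lit 0) (nat_lit 304) (XT.nd (nat_lit 78) (nat_lit 0) (nat_lit 0) (XT.lf (nat_lit 0) (nat_lit 9002204854007) (nat_lit 152) (nat_lit 28140939552609) (nat_lit 228) (nat_lit 16070735817753) (nat_lit 21) (nat_lit 5) (nat_lit 23) (nat_lit 5) (nat_lit 24) (nat_lit 5) (nat_lit 331) (nat_lit 324) (nat_lit 125)) (XT.nd (nat_lit 40092) (nat_lit 0) (nat_lit 304) (XT.lf (nat_lit 0) (nat_lit 41402804547001) (nat_lit 152) (nat_lit 7382541039290) (nat_lit 228) (nat_lit 9090784597392) (nat_lit 21) (nat_lit 5) (nat_lit 23) (nat_lit 5) (nat_lit 24) (nat_lit 5) (nat_lit 332) (nat_lit 324) (nat_lit 124)) (XT.lf (nat_lit 0) (nat_lit 3670717491600) (nat_lit 380) (nat_lit 7124690920725) (nat_lit 380) (nat_lit 7124690920725) (nat_lit 25) (nat_lit 3) (nat_lit 30)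 (nat_lit 3) (nat_lit 30) (nat_lit 5) (nat_lit 325) (nat_lit 325) (nat_lit 130)))) (XT.nd (nat_lit 78) (nat_lit 0) (nat_lit 76) (XT.lf (nat_lit 76) (nat_lit 3122266499714) (nat_lit 0) (nat_lit 4899062504776) (nat_lit 380) (nat_lit 30487491601936) (nat_lit 26) (nat_lit 5) (nat_lit 25) (nat_lit 3) (nat_lit 30) (nat_lit 5) (nat_lit 326) (nat_lit 325) (nat_lit 129)) (XT.nd (nat_lit 78) (nat_lit 0) (nat_lit 0) (XT.lf (nat_lit 0) (nat_lit 10175516133040) (nat_lit 304) (nat_lit 17392364382176) (nat_lit 380) (nat_lit 13804008971973) (nat_lit 26) (nat_lit 5) (nat_lit 30) (nat_lit 5) (nat_lit 31) (nat_lit 5) (nat_lit 327) (nat_lit 325) (nat_lit 128)) (XT.lf (nat_lit 76) (nat_lit 3367459655203) (nat_lit 0) (nat_lit 9658099689562) (nat_lit 380) (nat_lit 31582950153218) (nat_lit 27) (nat_lit 5) (nat_lit 26) (nat_lit 5) (nat_lit 31) (nat_lit 5) (nat_lit 328) (nat_lit 325) (nat_lit 127))))))))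
noncomputable def xc127 : XT := (XT.nd (nat_lit 121992) (nat_lit 0) (nat_lit 304) (XT.nd (nat_lit 40872) (nat_lit 0) (nat_lit 152) (XT.nd (nat_lit 40482) (nat_lit 0) (nat_lit 152) (XT.nd (nat_lit 156) (nat_lit 152) (nat_lit 0) (XT.nd (nat_lit 78) (nat_lit 304) (nat_lit 0) (XT.lf (nat_lit 0) (nat_lit 17708473433911) (nat_lit 304) (nat_lit 19494546751957) (nat_lit 76) (nat_lit 10916797665180) (nat_lit 27) (nat_lit 5) (nat_lit 31) (nat_lit 5) (nat_lit 28) (nat_lit 5) (nat_lit 329) (nat_lit 325) (nat_lit 126)) (XT.lf (nat_lit 0) (nat_lit 5547938108501) (nat_lit 304) (nat_lit 18235524323015) (nat_lit 380) (nat_lit 28270914356294) (nat_lit 23) (nat_lit 5) (nat_lit 27) (nat_lit 5) (nat_lit 28) (nat_lit 5) (nat_lit 330) (nat_lit 325) (nat_lit 125))) (XT.nd (nat_lit 78) (nat_lit 152) (nat_lit 0) (XT.lf (nat_lit 0) (nat_lit 31985378205205) (nat_lit 380) (nat_lit 20085192978799) (nat_lit 76) (nat_lit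 4326196617114) (nat_lit 23) (nat_lit 5) (nat_lit 28) (nat_lit 5) (nat_lit 24) (nat_lit 5) (nat_lit 331) (nat_lit 325) (nat_lit 124)) (XT.nd (nat_lit 40170) (nat_lit 0) (nat_lit 304) (XT.lf (nat_lit 0) (nat_lit 10352535582172) (nat_lit 152) (nat_lit 32362080485487) (nat_lit 228) (nat_lit 18481346190357) (nat_lit 21) (nat_lit 5) (nat_lit 23) (nat_lit 5) (nat_lit 24) (nat_lit 5) (nat_lit 332) (nat_lit 325) (nat_lit 123)) (XT.lf (nat_lit 0) (nat_lit 4221325115384) (nat_lit 380) (nat_lit 8193394558808) (nat_lit 380) (nat_lit 8193394558808) (nat_lit 25) (nat_lit 3) (nat_lit 30) (nat_lit 3) (nat_lit 30) (nat_lit 5) (nat_lit 326) (nat_lit 326) (nat_lit 128))))) (XT.nd (nat_lit 156) (nat_lit 152) (nat_lit 0) (XT.nd (nat_lit 78) (nat_lit 0) (nat_lit 76) (XT.lf (nat_lit 76) (nat_lit 3590606474721) (nat_lit 0) (nat_lit 5633921880522) (nat_lit 380) (nat_lit 35060615342134) (nat_lit 26) (nat_lit 5)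 (nat_lit 25) (nat_lit 3) (nat_lit 30) (nat_lit 5) (nat_lit 327) (nat_lit 326) (nat_lit 127)) (XT.lf (nat_lit 0) (nat_lit 11701843553065) (nat_lit 304) (nat_lit 20001219039448) (nat_lit 380) (nat_lit 15874610317745) (nat_lit 26) (nat_lit 5) (nat_lit 30) (nat_lit 5) (nat_lit 31) (nat_lit 5) (nat_lit 328) (nat_lit 326) (nat_lit 126))) (XT.nd (nat_lit 78) (nat_lit 228) (nat_lit 0) (XT.lf (nat_lit 76) (nat_lit 3872578603536) (nat_lit 0) (nat_lit 11106814643006) (nat_lit 380) (nat_lit 36320392676130) (nat_lit 27) (nat_lit 5) (nat_lit 26) (nat_lit 5) (nat_lit 31) (nat_lit 5) (nat_lit 329) (nat_lit 326) (nat_lit 125)) (XT.nd (nat_lit 78) (nat_lit 304) (nat_lit 0) (XT.lf (nat_lit 0) (nat_lit 20364744449051) (nat_lit 304) (nat_lit 22418728764696) (nat_lit 76) (nat_lit 12554317314950) (nat_lit 27) (nat_lit 5) (nat_lit 31) (nat_lit 5) (nat_lit 28) (nat_lit 5) (nat_lit 330) (nat_lit 326) (nat_lit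 124)) (XT.lf (nat_lit 0) (nat_lit 6380128824827) (nat_lit 304) (nat_lit 20970852971464) (nat_lit 380) (nat_lit 32511551509682) (nat_lit 23) (nat_lit 5) (nat_lit 27) (nat_lit 5) (nat_lit 28) (nat_lit 5) (nat_lit 331) (nat_lit 326) (nat_lit 123)))))) (XT.nd (nat_lit 40560) (nat_lit 0) (nat_lit 0) (XT.nd (nat_lit 40326) (nat_lit 0) (nat_lit 152) (XT.nd (nat_lit 40248) (nat_lit 0) (nat_lit 152) (XT.lf (nat_lit 0) (nat_lit 36783184936027) (nat_lit 380) (nat_lit 23097971925568) (nat_lit 76) (nat_lit 4975126109684) (nat_lit 23) (nat_lit 5) (nat_lit 28) (nat_lit 5) (nat_lit 24) (nat_lit 5) (nat_lit 332) (nat_lit 326) (nat_lit 122)) (XT.lf (nat_lit 0) (nat_lit 4854523882726) (nat_lit 380) (nat_lit 9422403742610) (nat_lit 380) (nat_lit 9422403742610) (nat_lit 25) (nat_lit 3) (nat_lit 30) (nat_lit 3) (nat_lit 30) (nat_lit 5) (nat_lit 327) (nat_lit 327) (nat_lit 126))) (XT.nd (nat_lit 78) (nat_lit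 0) (nat_lit 76) (XT.lf (nat_lit 76) (nat_lit 4129197445966) (nat_lit 0) (nat_lit 6479010162624) (nat_lit 380) (nat_lit 40319707643385) (nat_lit 26) (nat_lit 5) (nat_lit 25) (nat_lit 3) (nat_lit 30) (nat_lit 5) (nat_lit 328) (nat_lit 327) (nat_lit 125)) (XT.nd (nat_lit 78) (nat_lit 0) (nat_lit 0) (XT.lf (nat_lit 0) (nat_lit 13457120086076) (nat_lit 304) (nat_lit 23001401895324) (nat_lit 380) (nat_lit 18255801865388) (nat_lit 26) (nat_lit 5) (nat_lit 30) (nat_lit 5) (nat_lit 31) (nat_lit 5) (nat_lit 329) (nat_lit 327) (nat_lit 124)) (XT.lf (nat_lit 76) (nat_lit 4453465394105) (nat_lit 0) (nat_lit 12772836839465) (nat_lit 380) (nat_lit 41768451577496) (nat_lit 27) (nat_lit 5) (nat_lit 26) (nat_lit 5) (nat_lit 31) (nat_lit 5) (nat_lit 330) (nat_lit 327) (nat_lit 123))))) (XT.nd (nat_lit 156) (nat_lit 0) (nat_lit 0) (XT.nd (nat_lit 78) (nat_lit 304) (nat_lit 0) (XT.lf (nat_lit 0) (nat_lit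 23419456116449) (nat_lit 304) (nat_lit 25781538079361) (nat_lit 76) (nat_lit 14437464912187) (nat_lit 27) (nat_lit 5) (nat_lit 31) (nat_lit 5) (nat_lit 28) (nat_lit 5) (nat_lit 331) (nat_lit 327) (nat_lit 122)) (XT.lf (nat_lit 0) (nat_lit 7337148148590) (nat_lit 304) (nat_lit 24116480917181) (nat_lit 380) (nat_lit 37388284236093) (nat_lit 23) (nat_lit 5) (nat_lit 27) (nat_lit 5) (nat_lit 28) (nat_lit 5) (nat_lit 332) (nat_lit 327) (nat_lit 121))) (XT.nd (nat_lit 40248) (nat_lit 0) (nat_lit 152) (XT.lf (nat_lit 0) (nat_lit 42300662676463) (nat_lit 380) (nat_lit 26562667714365) (nat_lit 76) (nat_lit 5721395026139) (nat_lit 23) (nat_lit 5) (nat_lit 28) (nat_lit 5) (nat_lit 24) (nat_lit 5) (nat_lit 333) (nat_lit 327) (nat_lit 120)) (XT.nd (nat_lit 78) (nat_lit 0) (nat_lit 0) (XT.lf (nat_lit 0) (nat_lit 5582702465160) (nat_lit 380) (nat_lit 10835764303987) (nat_lit 380) (nat_lit 10835764303987)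 (nat_lit 25) (nat_lit 3) (nat_lit 30) (nat_lit 3) (nat_lit 30) (nat_lit 5) (nat_lit 328) (nat_lit 328) (nat_lit 124)) (XT.lf (nat_lit 76) (nat_lit 4748577062889) (nat_lit 0) (nat_lit 7450861687035) (nat_lit 380) (nat_lit 46367663789840) (nat_lit 26) (nat_lit 5) (nat_lit 25) (nat_lit 3) (nat_lit 30) (nat_lit 5) (nat_lit 329) (nat_lit 328) (nat_lit 123))))))) (XT.nd (nat_lit 121992) (nat_lit 0) (nat_lit 0) (XT.nd (nat_lit 40716) (nat_lit 0) (nat_lit 0) (XT.nd (nat_lit 156) (nat_lit 76) (nat_lit 0) (XT.nd (nat_lit 78) (nat_lit 0) (nat_lit 0) (XT.lf (nat_lit 0) (nat_lit 15475688099026) (nat_lit 304) (nat_lit 26451612179592) (nat_lit 380) (nat_lit 20994172145183) (nat_lit 26) (nat_lit 5) (nat_lit 30) (nat_lit 5) (nat_lit 31) (nat_lit 5) (nat_lit 330) (nat_lit 328) (nat_lit 122)) (XT.lf (nat_lit 76) (nat_lit 5121485203250) (nat_lit 0) (nat_lit 14688762365390) (nat_lit 380) (nat_lit 48033719314081)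 (nat_lit 27) (nat_lit 5) (nat_lit 26) (nat_lit 5) (nat_lit 31) (nat_lit 5) (nat_lit 331) (nat_lit 328) (nat_lit 121))) (XT.nd (nat_lit 40404) (nat_lit 152) (nat_lit 0) (XT.lf (nat_lit 0) (nat_lit 26932374533947) (nat_lit 304) (nat_lit 29648768791234) (nat_lit 76) (nat_lit 16603084649010) (nat_lit 27) (nat_lit 5) (nat_lit 31) (nat_lit 5) (nat_lit 28) (nat_lit 5) (nat_lit 332) (nat_lit 328) (nat_lit 120)) (XT.nd (nat_lit 78) (nat_lit 0) (nat_lit 0) (XT.lf (nat_lit 0) (nat_lit 6420107834954) (nat_lit 380) (nat_lit 12461128949574) (nat_lit 380) (nat_lit 12461128949574) (nat_lit 25) (nat_lit 3) (nat_lit 30) (nat_lit 3) (nat_lit 30) (nat_lit 5) (nat_lit 329) (nat_lit 329) (nat_lit 122)) (XT.lf (nat_lit 76) (nat_lit 5460863622344) (nat_lit 0) (nat_lit 8568490940103) (nat_lit 380) (nat_lit 53322813358277) (nat_lit 26) (nat_lit 5) (nat_lit 25) (nat_lit 3) (nat_lit 30) (nat_lit 5) (nat_lit 330)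 (nat_lit 329) (nat_lit 121))))) (XT.nd (nat_lit 40560) (nat_lit 76) (nat_lit 0) (XT.nd (nat_lit 78) (nat_lit 0) (nat_lit 0) (XT.lf (nat_lit 0) (nat_lit 17797041313910) (nat_lit 304) (nat_lit 30419354006507) (nat_lit 380) (nat_lit 24143297966950) (nat_lit 26) (nat_lit 5) (nat_lit 30) (nat_lit 5) (nat_lit 31) (nat_lit 5) (nat_lit 331) (nat_lit 329) (nat_lit 120)) (XT.lf (nat_lit 76) (nat_lit 5889707983761) (nat_lit 0) (nat_lit 16892076720202) (nat_lit 380) (nat_lit 55238777211162) (nat_lit 27) (nat_lit 5) (nat_lit 26) (nat_lit 5) (nat_lit 31) (nat_lit 5) (nat_lit 332) (nat_lit 329) (nat_lit 119))) (XT.nd (nat_lit 78) (nat_lit 0) (nat_lit 0) (XT.lf (nat_lit 0) (nat_lit 7383124010212) (nat_lit 380) (nat_lit 14330298292001) (nat_lit 380) (nat_lit 14330298292001) (nat_lit 25) (nat_lit 3) (nat_lit 30) (nat_lit 3) (nat_lit 30) (nat_lit 5) (nat_lit 330) (nat_lit 330) (nat_lit 120)) (XT.nd (nat_lit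 78) (nat_lit 0) (nat_lit 76) (XT.lf (nat_lit 76) (nat_lit 6279993165711) (nat_lit 0) (nat_lit 9853764581130) (nat_lit 380) (nat_lit 61321235361989) (nat_lit 26) (nat_lit 5) (nat_lit 25) (nat_lit 3) (nat_lit 30) (nat_lit 5) (nat_lit 331) (nat_lit 330) (nat_lit 119)) (XT.lf (nat_lit 0) (nat_lit 20466597511019) (nat_lit 304) (nat_lit 34982257107466) (nat_lit 380) (nat_lit 27764792661985) (nat_lit 26) (nat_lit 5) (nat_lit 30) (nat_lit 5) (nat_lit 31) (nat_lit 5) (nat_lit 332) (nat_lit 330) (nat_lit 118)))))) (XT.nd (nat_lit 40950) (nat_lit 0) (nat_lit 0) (XT.nd (nat_lit 40716) (nat_lit 0) (nat_lit 0) (XT.nd (nat_lit 78) (nat_lit 0) (nat_lit 0) (XT.lf (nat_lit 0) (nat_lit 8490592611754) (nat_lit 380) (nat_lit 16479843035795) (nat_lit 380) (nat_lit 16479843035795) (nat_lit 25) (nat_lit 3) (nat_lit 30) (nat_lit 3) (nat_lit 30) (nat_lit 5) (nat_lit 331) (nat_lit 331) (nat_lit 118)) (XT.lf (nat_lit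 76) (nat_lit 7221992140580) (nat_lit 0) (nat_lit 11331829268306) (nat_lit 380) (nat_lit 70519420666264) (nat_lit 26) (nat_lit 5) (nat_lit 25) (nat_lit 3) (nat_lit 30) (nat_lit 5) (nat_lit 332) (nat_lit 331) (nat_lit 117))) (XT.nd (nat_lit 78) (nat_lit 0) (nat_lit 0) (XT.lf (nat_lit 0) (nat_lit 9764181503526) (nat_lit 380) (nat_lit 18951819491160) (nat_lit 380) (nat_lit 18951819491160) (nat_lit 25) (nat_lit 3) (nat_lit 30) (nat_lit 3) (nat_lit 30) (nat_lit 5) (nat_lit 332) (nat_lit 332) (nat_lit 116)) (XT.nd (nat_lit 78) (nat_lit 0) (nat_lit 76) (XT.lf (nat_lit 76) (nat_lit 8305290961677) (nat_lit 0) (nat_lit 13031603658558) (nat_lit 380) (nat_lit 81097333766187) (nat_lit 26) (nat_lit 5) (nat_lit 25) (nat_lit 3) (nat_lit 30) (nat_lit 5) (nat_lit 333) (nat_lit 332) (nat_lit 115)) (XT.lf (nat_lit 0) (nat_lit 27067075208354) (nat_lit 304) (nat_lit 46264035024598) (nat_lit 380) (nat_lit 36718938295463)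 (nat_lit 26) (nat_lit 5) (nat_lit 30) (nat_lit 5) (nat_lit 31) (nat_lit 5) (nat_lit 334) (nat_lit 332) (nat_lit 114))))) (XT.nd (nat_lit 40560) (nat_lit 0) (nat_lit 0) (XT.nd (nat_lit 78) (nat_lit 76) (nat_lit 0) (XT.lf (nat_lit 76) (nat_lit 8957509629849) (nat_lit 0) (nat_lit 25690737181847) (nat_lit 380) (nat_lit 84011275290962) (nat_lit 27) (nat_lit 5) (nat_lit 26) (nat_lit 5) (nat_lit 31) (nat_lit 5) (nat_lit 335) (nat_lit 332) (nat_lit 113)) (XT.nd (nat_lit 40404) (nat_lit 152) (nat_lit 0) (XT.lf (nat_lit 0) (nat_lit 47104891387297) (nat_lit 304) (nat_lit 51855881920589) (nat_lit 76) (nat_lit 29038898820388) (nat_lit 27) (nat_lit 5) (nat_lit 31) (nat_lit 5) (nat_lit 28) (nat_lit 5) (nat_lit 336) (nat_lit 332) (nat_lit 112)) (XT.lf (nat_lit 0) (nat_lit 11228808729061) (nat_lit 380) (nat_lit 21794592414830) (nat_lit 380) (nat_lit 21794592414830) (nat_lit 25) (nat_lit 3) (nat_lit 30)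 (nat_lit 3) (nat_lit 30) (nat_lit 5) (nat_lit 333) (nat_lit 333) (nat_lit 114)))) (XT.nd (nat_lit 78) (nat_lit 0) (nat_lit 0) (XT.lf (nat_lit 76) (nat_lit 9551084605935) (nat_lit 0) (nat_lit 14986344207346) (nat_lit 380) (nat_lit 93261933831102) (nat_lit 26) (nat_lit 5) (nat_lit 25) (nat_lit 3) (nat_lit 30) (nat_lit 5) (nat_lit 334) (nat_lit 333) (nat_lit 113)) (XT.nd (nat_lit 40560) (nat_lit 76) (nat_lit 0) (XT.lf (nat_lit 0) (nat_lit 31127136489617) (nat_lit 304) (nat_lit 53203640278280) (nat_lit 380) (nat_lit 42226779039780) (nat_lit 26) (nat_lit 5) (nat_lit 30) (nat_lit 5) (nat_lit 31) (nat_lit 5) (nat_lit 335) (nat_lit 333) (nat_lit 112)) (XT.lf (nat_lit 0) (nat_lit 12913130038425) (nat_lit 380) (nat_lit 25063781277052) (nat_lit 380) (nat_lit 25063781277052) (nat_lit 25) (nat_lit 3) (nat_lit 30) (nat_lit 3) (nat_lit 30) (nat_lit 5) (nat_lit 334) (nat_lit 334) (nat_lit 112))))))))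

set_option maxRecDepth 10000000 in
noncomputable def Tp : PT := (PT.nd (nat_lit 5374278) (PT.nd (nat_lit 5171088) pc0 pc1) (PT.nd (nat_lit 122304) pc2 pc3))

set_option maxRecDepth 10000000 in
noncomputable def Tx : XT := (XT.nd (nat_lit 8400132) (nat_lit 0) (nat_lit 76) XT.nil (XT.nd (nat_lit 5199090) (nat_lit 0) (nat_lit 0) (XT.nd (nat_lit 2513238) (nat_lit 0) (nat_lit 0) (XT.nd (nat_lit 1862250) (nat_lit 0) (nat_lit 0) (XT.nd (nat_lit 1419054) (nat_lit 0) (nat_lit 0) (XT.nd (nat_lit 1133574) (nat_lit 0) (nat_lit 0) (XT.nd (nat_lit 890838) (nat_lit 0) (nat_lit 0) (XT.nd (nat_lit 690378) (nat_lit 0) (nat_lit 0) (XT.nd (nat_lit 607308) (nat_lit 0) (nat_lit 0) xc0 xc1) (XT.nd (nat_lit 119418) (nat_lit 0) (nat_lit 0) xc2 xc3)) (XT.nd (nat_lit 122304) (nat_lit 0) (nat_lit 0) (XT.nd (nat_lit 41964) (nat_lit 0) (nat_lit 0) xc4 xc5) (XT.nd (nat_lit 41340) (nat_lit 0) (nat_lit 0) xc6 xc7)))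 (XT.nd (nat_lit 162786) (nat_lit 0) (nat_lit 0) (XT.nd (nat_lit 81744) (nat_lit 0) (nat_lit 0) (XT.nd (nat_lit 40872) (nat_lit 0) (nat_lit 0) xc8 xc9) (XT.nd (nat_lit 40560) (nat_lit 0) (nat_lit 0) xc10 xc11)) (XT.nd (nat_lit 80028) (nat_lit 0) (nat_lit 0) (XT.nd (nat_lit 40170) (nat_lit 0) (nat_lit 0) xc12 xc13) (XT.nd (nat_lit 3120) (nat_lit 0) (nat_lit 0) xc14 xc15)))) (XT.nd (nat_lit 241176) (nat_lit 0) (nat_lit 0) (XT.nd (nat_lit 120900) (nat_lit 0) (nat_lit 0) (XT.nd (nat_lit 42666) (nat_lit 0) (nat_lit 0) (XT.nd (nat_lit 39312) (nat_lit 0) (nat_lit 0) xc16 xc17) (XT.nd (nat_lit 39078) (nat_lit 0) (nat_lit 0) xc18 xc19)) (XT.nd (nat_lit 42198) (nat_lit 0) (nat_lit 0) (XT.nd (nat_lit 39000) (nat_lit 0) (nat_lit 0) xc20 xc21) (XT.nd (nat_lit 39000) (nat_lit 0) (nat_lit 0) xc22 xc23))) (XT.nd (nat_lit 83928) (nat_lit 0) (nat_lit 0) (XT.nd (nat_lit 42042) (nat_lit 0) (nat_lit 0) (XT.nd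 (nat_lit 3120) (nat_lit 0) (nat_lit 0) xc24 xc25) (XT.nd (nat_lit 38688) (nat_lit 0) (nat_lit 0) xc26 xc27)) (XT.nd (nat_lit 41652) (nat_lit 0) (nat_lit 0) (XT.nd (nat_lit 38454) (nat_lit 0) (nat_lit 0) xc28 xc29) (XT.nd (nat_lit 38220) (nat_lit 0) (nat_lit 0) xc30 xc31))))) (XT.nd (nat_lit 326742) (nat_lit 0) (nat_lit 0) (XT.nd (nat_lit 164658) (nat_lit 0) (nat_lit 0) (XT.nd (nat_lit 82446) (nat_lit 0) (nat_lit 0) (XT.nd (nat_lit 41262) (nat_lit 0) (nat_lit 0) (XT.nd (nat_lit 3120) (nat_lit 0) (nat_lit 0) xc32 xc33) (XT.nd (nat_lit 3120) (nat_lit 0) (nat_lit 0) xc34 xc35)) (XT.nd (nat_lit 41184) (nat_lit 0) (nat_lit 0) (XT.nd (nat_lit 3120) (nat_lit 0) (nat_lit 0) xc36 xc37) (XT.nd (nat_lit 3120) (nat_lit 0) (nat_lit 0) xc38 xc39))) (XT.nd (nat_lit 81432) (nat_lit 0) (nat_lit 0) (XT.nd (nat_lit 40872) (nat_lit 0) (nat_lit 0) (XT.nd (nat_lit 37674) (nat_lit 0) (nat_lit 152) xc40 xc41)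 (XT.nd (nat_lit 37362) (nat_lit 0) (nat_lit 152) xc42 xc43)) (XT.nd (nat_lit 40404) (nat_lit 0) (nat_lit 0) (XT.nd (nat_lit 37206) (nat_lit 0) (nat_lit 152) xc44 xc45) (XT.nd (nat_lit 3120) (nat_lit 0) (nat_lit 0) xc46 xc47)))) (XT.nd (nat_lit 161772) (nat_lit 0) (nat_lit 0) (XT.nd (nat_lit 80652) (nat_lit 0) (nat_lit 0) (XT.nd (nat_lit 40170) (nat_lit 0) (nat_lit 0) (XT.nd (nat_lit 3120) (nat_lit 0) (nat_lit 0) xc48 xc49) (XT.nd (nat_lit 3120) (nat_lit 0) (nat_lit 0) xc50 xc51)) (XT.nd (nat_lit 40560) (nat_lit 0) (nat_lit 0) (XT.nd (nat_lit 3120) (nat_lit 0) (nat_lit 0) xc52 xc53) (XT.nd (nat_lit 3120) (nat_lit 0) (nat_lit 0) xc54 xc55))) (XT.nd (nat_lit 81198) (nat_lit 0) (nat_lit 0) (XT.nd (nat_lit 40560) (nat_lit 0) (nat_lit 0) (XT.nd (nat_lit 3120) (nat_lit 0) (nat_lit 0) xc56 xc57) (XT.nd (nat_lit 3120) (nat_lit 0) (nat_lit 0) xc58 xc59)) (XT.nd (nat_lit 40716) (nat_lit 0) (nat_lit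 0) (XT.nd (nat_lit 3120) (nat_lit 0) (nat_lit 0) xc60 xc61) (XT.nd (nat_lit 3198) (nat_lit 0) (nat_lit 0) xc62 xc63)))))) (XT.nd (nat_lit 773214) (nat_lit 0) (nat_lit 0) (XT.nd (nat_lit 328692) (nat_lit 0) (nat_lit 0) (XT.nd (nat_lit 162864) (nat_lit 0) (nat_lit 0) (XT.nd (nat_lit 81120) (nat_lit 0) (nat_lit 0) (XT.nd (nat_lit 40482) (nat_lit 0) (nat_lit 0) (XT.nd (nat_lit 3120) (nat_lit 0) (nat_lit 0) xc64 xc65) (XT.nd (nat_lit 3120) (nat_lit 0) (nat_lit 0) xc66 xc67)) (XT.nd (nat_lit 40794) (nat_lit 0) (nat_lit 0) (XT.nd (nat_lit 3120) (nat_lit 0) (nat_lit 0) xc68 xc69) (XT.nd (nat_lit 3120) (nat_lit 0) (nat_lit 0) xc70 xc71))) (XT.nd (nat_lit 82524) (nat_lit 0) (nat_lit 0) (XT.nd (nat_lit 41106) (nat_lit 0) (nat_lit 0) (XT.nd (nat_lit 3120) (nat_lit 0) (nat_lit 0) xc72 xc73) (XT.nd (nat_lit 3120) (nat_lit 0) (nat_lit 0) xc74 xc75)) (XT.nd (nat_lit 41574) (nat_lit 0) (nat_lit 0) (XT.nd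 (nat_lit 38376) (nat_lit 0) (nat_lit 152) xc76 xc77) (XT.nd (nat_lit 38532) (nat_lit 0) (nat_lit 0) xc78 xc79)))) (XT.nd (nat_lit 203034) (nat_lit 0) (nat_lit 0) (XT.nd (nat_lit 119106) (nat_lit 0) (nat_lit 0) (XT.nd (nat_lit 77298) (nat_lit 0) (nat_lit 0) (XT.nd (nat_lit 38688) (nat_lit 0) (nat_lit 0) xc80 xc81) (XT.nd (nat_lit 3120) (nat_lit 152) (nat_lit 0) xc82 xc83)) (XT.nd (nat_lit 41886) (nat_lit 0) (nat_lit 0) (XT.nd (nat_lit 3120) (nat_lit 0) (nat_lit 0) xc84 xc85) (XT.nd (nat_lit 38844) (nat_lit 0) (nat_lit 152) xc86 xc87))) (XT.nd (nat_lit 120666) (nat_lit 0) (nat_lit 0) (XT.nd (nat_lit 78234) (nat_lit 0) (nat_lit 0) (XT.nd (nat_lit 39078) (nat_lit 0) (nat_lit 0) xc88 xc89) (XT.nd (nat_lit 3120) (nat_lit 152) (nat_lit 0) xc90 xc91)) (XT.nd (nat_lit 42510) (nat_lit 0) (nat_lit 0) (XT.nd (nat_lit 39312) (nat_lit 0) (nat_lit 0) xc92 xc93) (XT.nd (nat_lit 39078) (nat_lit 0) (nat_lit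 0) xc94 xc95))))) (XT.nd (nat_lit 529230) (nat_lit 0) (nat_lit 0) (XT.nd (nat_lit 243906) (nat_lit 0) (nat_lit 0) (XT.nd (nat_lit 121368) (nat_lit 0) (nat_lit 0) (XT.nd (nat_lit 42432) (nat_lit 0) (nat_lit 0) (XT.nd (nat_lit 3120) (nat_lit 0) (nat_lit 0) xc96 xc97) (XT.nd (nat_lit 39390) (nat_lit 0) (nat_lit 0) xc98 xc99)) (XT.nd (nat_lit 42822) (nat_lit 0) (nat_lit 152) (XT.nd (nat_lit 3120) (nat_lit 152) (nat_lit 0) xc100 xc101) (XT.nd (nat_lit 39780) (nat_lit 0) (nat_lit 0) xc102 xc103))) (XT.nd (nat_lit 123006) (nat_lit 0) (nat_lit 0) (XT.nd (nat_lit 43056) (nat_lit 152) (nat_lit 0) (XT.nd (nat_lit 3120) (nat_lit 0) (nat_lit 0) xc104 xc105) (XT.nd (nat_lit 40014) (nat_lit 152) (nat_lit 0) xc106 xc107)) (XT.nd (nat_lit 80886) (nat_lit 0) (nat_lit 0) (XT.nd (nat_lit 40326) (nat_lit 0) (nat_lit 0) xc108 xc109) (XT.nd (nat_lit 40560) (nat_lit 0) (nat_lit 152) xc110 xc111)))) (XT.nd (nat_lit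 367458) (nat_lit 0) (nat_lit 304) (XT.nd (nat_lit 164346) (nat_lit 228) (nat_lit 0) (XT.nd (nat_lit 82056) (nat_lit 0) (nat_lit 0) (XT.nd (nat_lit 40950) (nat_lit 0) (nat_lit 0) xc112 xc113) (XT.nd (nat_lit 41106) (nat_lit 0) (nat_lit 0) xc114 xc115)) (XT.nd (nat_lit 120276) (nat_lit 0) (nat_lit 304) (XT.nd (nat_lit 79092) (nat_lit 0) (nat_lit 0) xc116 xc117) (XT.nd (nat_lit 41340) (nat_lit 0) (nat_lit 76) xc118 xc119))) (XT.nd (nat_lit 243282) (nat_lit 0) (nat_lit 76) (XT.nd (nat_lit 121524) (nat_lit 76) (nat_lit 0) (XT.nd (nat_lit 79872) (nat_lit 0) (nat_lit 0) xc120 xc121) (XT.nd (nat_lit 80106) (nat_lit 0) (nat_lit 0) xc122 xc123)) (XT.nd (nat_lit 243360) (nat_lit 0) (nat_lit 988) (XT.nd (nat_lit 81120) (nat_lit 0) (nat_lit 76) xc124 xc125) (XT.nd (nat_lit 163098) (nat_lit 0) (nat_lit 152) xc126 xc127))))))) XT.nil))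

set_option maxRecDepth 10000000 in
noncomputable def Te : XT := XT.nil

set_option maxRecDepth 10000000 in
noncomputable def Tz : ZL := (ZL.cons (nat_lit 76) (nat_lit 6) (nat_lit 281633796431505641996) (ZL.cons (nat_lit 152) (nat_lit 6) (nat_lit 265093942790155081756) (ZL.cons (nat_lit 228) (nat_lit 3) (nat_lit 131277318628207640089) (ZL.cons (nat_lit 304) (nat_lit 6) (nat_lit 246073111102601937482) (ZL.cons (nat_lit 380) (nat_lit 6) (nat_lit 231866753327925787634) (ZL.cons (nat_lit 456) (nat_lit 3) (nat_lit 114829330779728197479) (ZL.cons (nat_lit 532) (nat_lit 6) (nat_lit 215529441887048215310) (ZL.cons (nat_lit 608) (nat_lit 6) (nat_lit 203409010830917238504) (ZL.cons (nat_lit 684) (nat_lit 3) (nat_lit 100744465516124100696) (ZL.cons (nat_lit 760) (nat_lit 6) (nat_lit 189470515116366615174) (ZL.cons (nat_lit 836) (nat_lit 6) (nat_lit 179239051219310121276) (ZL.cons (nat_lit 912)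 (nat_lit 3) (nat_lit 88784708305885914068) (ZL.cons (nat_lit 988) (nat_lit 6) (nat_lit 167472867737695153290) (ZL.cons (nat_lit 1064) (nat_lit 6) (nat_lit 158983327320513351348) (ZL.cons (nat_lit 1140) (nat_lit 3) (nat_lit 78765735570022635179) (ZL.cons (nat_lit 1216) (nat_lit 6) (nat_lit 149220355840754279116) (ZL.cons (nat_lit 1292) (nat_lit 6) (nat_lit 142376913062227355818) (ZL.cons (nat_lit 1368) (nat_lit 3) (nat_lit 70557214713518860088) (ZL.cons (nat_lit 1444) (nat_lit 6) (nat_lit 136867249358797669366) (ZL.cons (nat_lit 1520) (nat_lit 6) (nat_lit 134506953866921394030) (ZL.cons (nat_lit 1596) (nat_lit 6) (nat_lit 129268652464663894298) (ZL.cons (nat_lit 1672) (nat_lit 3) (nat_lit 64085420303988627302) (ZL.cons (nat_lit 1748) (nat_lit 6) (nat_lit 125297036714568878594) (ZL.cons (nat_lit 1824) (nat_lit 6) (nat_lit 123244605852067769606) (ZL.cons (nat_lit 1900) (nat_lit 3) (nat_lit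 60160248104228468906) (ZL.cons (nat_lit 1976) (nat_lit 6) (nat_lit 120866302723336155254) (ZL.cons (nat_lit 2052) (nat_lit 6) (nat_lit 122514401091091009652) (ZL.cons (nat_lit 2128) (nat_lit 6) (nat_lit 119631866745272970840) (ZL.cons (nat_lit 2204) (nat_lit 3) (nat_lit 59338623869729250773) (ZL.cons (nat_lit 2280) (nat_lit 6) (nat_lit 116088455254600033884) (ZL.cons (nat_lit 2356) (nat_lit 6) (nat_lit 117261939261590351380) (ZL.cons (nat_lit 2432) (nat_lit 6) (nat_lit 115477216772458952262) (ZL.cons (nat_lit 2508) (nat_lit 3) (nat_lit 56477113078714884825) (ZL.cons (nat_lit 2584) (nat_lit 6) (nat_lit 113581903649540869704) (ZL.cons (nat_lit 2660) (nat_lit 3) (nat_lit 56375900083111969940) (ZL.cons (nat_lit 2736) (nat_lit 6) (nat_lit 111402293558185074764) (ZL.cons (nat_lit 2812) (nat_lit 1) (nat_lit 18446744073709551617) ZL.nil)))))))))))))))))))))))))))))))))))))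

noncomputable def vl : XL := ⟨(nat_lit 0), (nat_lit 76), (nat_lit 34792228), (nat_lit 228), (nat_lit 377997166), (nat_lit 76), (nat_lit 34792228), (nat_lit 1), (nat_lit 5), (nat_lit 3), (nat_lit 4), (nat_lit 1), (nat_lit 4), (nat_lit 0), (nat_lit 0), (nat_lit 0)⟩

noncomputable def cp0 : Nat := (nat_lit 44819539534770814275596289979507214896133322790796217569480454176911097273875591361200128)

noncomputable def cp1 : Nat := (nat_lit 15191300794295697609744216835510266927375286070832676333106459683594158601107953806861782329686166570871975867356106304627846529029027481872134573293117514356177370932576844437734314308936122996174864699609588057541028548354554920016616841473429278750753541002305951602569711029986159149644093142776900338076695165076549655913435820220285486800452392153823182663565110808244812178608974505161222956706065349032352988617861547436338910256323086227836615718121417018938377314075324843372224226324311736604515913837021618457106531985952347959785172239634792052489867304889908925260581557973852386401058725117776850653855527307221584546335478816305852622906168074825286661170048666032914728631965149004465148074506962573322662835711329073550934291149856656499060954313877929014441291045172643004838923141892742005358476644392347736666052406473295305982622253861029543936)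

noncomputable def rc0 : Nat := (nat_lit 15191300794295697609744216835510266927375286070832676333106459683594158601107953806861782329686166570871975867356106304627846529029027481872134573293117514356177370932576844437734314308936122996174864699609588057541028548354554920016616841473429278750753541002305951602569711029986159149644093142776900338076695165076549655913435820220285486800452392153823182663565110808244812178608974505161222956706065349032352988617861547436338910256323086227836615718121417018938377314075324843372224226324311736604515913837021618457106531985952347959785172239634792052489867304889908925260581557973852386401058725117776850653855527307221584546335478816305852622906168074825286661170048666032914728631965149004465148074506962573322662835711329073550934291149856656499060954313877929014441291045172643004838923141892742005358476644392347736666052406473295305982622253861029543936)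

end Vale.Agent.Lib.P154.PChain.BH.S0
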