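import Vale.Agent.Lib.P154.PChain.BH.R0_0

set_option linter.all false

namespace Vale.Agent.Lib.P154.PChain.BH.S1

open Vale.Agent.Lib.P154.Chain

noncomputable def pc0 : PT := (PT.nd (nat_lit 4887090) (PT.nd (nat_lit 4684134) (PT.nd (nat_lit 4602858) (PT.nd (nat_lit 4562220) (PT.nd (nat_lit 4521738) (PT.nd (nat_lit 4521660) PT.nil (PT.lf (nat_lit 76) (nat_lit 6) (nat_lit 1) (nat_lit 3) (nat_lit 139) (nat_lit 111) (nat_lit 140))) (PT.lf (nat_lit 76) (nat_lit 6) (nat_lit 1) (nat_lit 1) (nat_lit 140) (nat_lit 111) (nat_lit 139))) (PT.nd (nat_lit 78) (PT.lf (nat_lit 152) (nat_lit 6) (nat_lit 2) (nat_lit 3) (nat_lit 138) (nat_lit 112) (nat_lit 140)) (PT.nd (nat_lit 78) (PT.lf (nat_lit 228) (nat_lit 3) (nat_lit 3) (nat_lit 1) (nat_lit 139) (nat_lit 112) (nat_lit 139)) (PT.lf (nat_lit 152) (nat_lit 6) (nat_lit 2) (nat_lit 1) (nat_lit 140) (nat_lit 112) (nat_lit 138))))) (PT.nd (nat_lit 40638)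 (PT.nd (nat_lit 78) (PT.lf (nat_lit 304) (nat_lit 6) (nat_lit 4) (nat_lit 3) (nat_lit 138) (nat_lit 113) (nat_lit 139)) (PT.nd (nat_lit 40482) (PT.lf (nat_lit 304) (nat_lit 6) (nat_lit 4) (nat_lit 1) (nat_lit 139) (nat_lit 113) (nat_lit 138)) (PT.lf (nat_lit 380) (nat_lit 6) (nat_lit 5) (nat_lit 3) (nat_lit 137) (nat_lit 114) (nat_lit 139)))) (PT.nd (nat_lit 78) (PT.lf (nat_lit 456) (nat_lit 3) (nat_lit 6) (nat_lit 1) (nat_lit 138) (nat_lit 114) (nat_lit 138)) (PT.nd (nat_lit 40482) (PT.lf (nat_lit 380) (nat_lit 6) (nat_lit 5) (nat_lit 1) (nat_lit 139) (nat_lit 114) (nat_lit 137)) (PT.lf (nat_lit 532) (nat_lit 6) (nat_lit 7) (nat_lit 3) (nat_lit 137) (nat_lit 115) (nat_lit 138)))))) (PT.nd (nat_lit 121680) (PT.nd (nat_lit 40638) (PT.nd (nat_lit 40482) (PT.lf (nat_lit 532) (nat_lit 6) (nat_lit 7) (nat_lit 1) (nat_lit 138) (nat_lit 115) (nat_lit 137)) (PT.nd (nat_lit 78) (PT.lf (nat_lit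 608) (nat_lit 6) (nat_lit 8) (nat_lit 3) (nat_lit 136) (nat_lit 116) (nat_lit 138)) (PT.lf (nat_lit 684) (nat_lit 3) (nat_lit 9) (nat_lit 1) (nat_lit 137) (nat_lit 116) (nat_lit 137)))) (PT.nd (nat_lit 40482) (PT.lf (nat_lit 608) (nat_lit 6) (nat_lit 8) (nat_lit 1) (nat_lit 138) (nat_lit 116) (nat_lit 136)) (PT.nd (nat_lit 78) (PT.lf (nat_lit 760) (nat_lit 6) (nat_lit 10) (nat_lit 3) (nat_lit 136) (nat_lit 117) (nat_lit 137)) (PT.lf (nat_lit 760) (nat_lit 6) (nat_lit 10) (nat_lit 1) (nat_lit 137) (nat_lit 117) (nat_lit 136))))) (PT.nd (nat_lit 40638) (PT.nd (nat_lit 78) (PT.lf (nat_lit 836) (nat_lit 6) (nat_lit 11) (nat_lit 3) (nat_lit 135) (nat_lit 118) (nat_lit 137)) (PT.nd (nat_lit 78) (PT.lf (nat_lit 912) (nat_lit 3) (nat_lit 12) (nat_lit 1) (nat_lit 136) (nat_lit 118) (nat_lit 136)) (PT.lf (nat_lit 836) (nat_lit 6) (nat_lit 11) (nat_lit 1) (nat_lit 137) (nat_lit 118) (nat_lit 135))))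 (PT.nd (nat_lit 78) (PT.lf (nat_lit 988) (nat_lit 6) (nat_lit 13) (nat_lit 3) (nat_lit 135) (nat_lit 119) (nat_lit 136)) (PT.nd (nat_lit 40482) (PT.lf (nat_lit 988) (nat_lit 6) (nat_lit 13) (nat_lit 1) (nat_lit 136) (nat_lit 119) (nat_lit 135)) (PT.lf (nat_lit 1064) (nat_lit 6) (nat_lit 14) (nat_lit 3) (nat_lit 134) (nat_lit 120) (nat_lit 136))))))) (PT.nd (nat_lit 162318) (PT.nd (nat_lit 81198) (PT.nd (nat_lit 40560) (PT.nd (nat_lit 78) (PT.lf (nat_lit 1140) (nat_lit 3) (nat_lit 15) (nat_lit 1) (nat_lit 135) (nat_lit 120) (nat_lit 135)) (PT.lf (nat_lit 1064) (nat_lit 6) (nat_lit 14) (nat_lit 1) (nat_lit 136) (nat_lit 120) (nat_lit 134))) (PT.nd (nat_lit 78) (PT.lf (nat_lit 1216) (nat_lit 6) (nat_lit 16) (nat_lit 3) (nat_lit 134) (nat_lit 121) (nat_lit 135)) (PT.nd (nat_lit 40482) (PT.lf (nat_lit 1216) (nat_lit 6) (nat_lit 16) (nat_lit 1) (nat_lit 135) (nat_lit 121) (nat_lit 134)) (PT.lf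 (nat_lit 1292) (nat_lit 6) (nat_lit 17) (nat_lit 3) (nat_lit 133) (nat_lit 122) (nat_lit 135))))) (PT.nd (nat_lit 40560) (PT.nd (nat_lit 78) (PT.lf (nat_lit 1368) (nat_lit 3) (nat_lit 18) (nat_lit 1) (nat_lit 134) (nat_lit 122) (nat_lit 134)) (PT.nd (nat_lit 40404) (PT.lf (nat_lit 1292) (nat_lit 6) (nat_lit 17) (nat_lit 1) (nat_lit 135) (nat_lit 122) (nat_lit 133)) (PT.lf (nat_lit 1444) (nat_lit 6) (nat_lit 19) (nat_lit 3) (nat_lit 132) (nat_lit 123) (nat_lit 135)))) (PT.nd (nat_lit 78) (PT.lf (nat_lit 1520) (nat_lit 6) (nat_lit 20) (nat_lit 3) (nat_lit 133) (nat_lit 123) (nat_lit 134)) (PT.nd (nat_lit 78) (PT.lf (nat_lit 1520) (nat_lit 6) (nat_lit 20) (nat_lit 1) (nat_lit 134) (nat_lit 123) (nat_lit 133)) (PT.lf (nat_lit 1444) (nat_lit 6) (nat_lit 19) (nat_lit 1) (nat_lit 135) (nat_lit 123) (nat_lit 132)))))) (PT.nd (nat_lit 40794) (PT.nd (nat_lit 40560) (PT.nd (nat_lit 78) (PT.lf (nat_lit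 1596) (nat_lit 6) (nat_lit 21) (nat_lit 3) (nat_lit 132) (nat_lit 124) (nat_lit 134)) (PT.nd (nat_lit 78) (PT.lf (nat_lit 1672) (nat_lit 3) (nat_lit 22) (nat_lit 1) (nat_lit 133) (nat_lit 124) (nat_lit 133)) (PT.lf (nat_lit 1596) (nat_lit 6) (nat_lit 21) (nat_lit 1) (nat_lit 134) (nat_lit 124) (nat_lit 132)))) (PT.nd (nat_lit 78) (PT.lf (nat_lit 1748) (nat_lit 6) (nat_lit 23) (nat_lit 3) (nat_lit 131) (nat_lit 125) (nat_lit 134)) (PT.nd (nat_lit 78) (PT.lf (nat_lit 1824) (nat_lit 6) (nat_lit 24) (nat_lit 3) (nat_lit 132) (nat_lit 125) (nat_lit 133)) (PT.lf (nat_lit 1824) (nat_lit 6) (nat_lit 24) (nat_lit 1) (nat_lit 133) (nat_lit 125) (nat_lit 132))))) (PT.nd (nat_lit 40482) (PT.nd (nat_lit 40326) (PT.lf (nat_lit 1748) (nat_lit 6) (nat_lit 23) (nat_lit 1) (nat_lit 134) (nat_lit 125) (nat_lit 131)) (PT.nd (nat_lit 78) (PT.lf (nat_lit 2052) (nat_lit 6) (nat_lit 27) (nat_lit 3) (nat_lit 130)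 (nat_lit 126) (nat_lit 134)) (PT.lf (nat_lit 2128) (nat_lit 6) (nat_lit 28) (nat_lit 3) (nat_lit 131) (nat_lit 126) (nat_lit 133)))) (PT.nd (nat_lit 78) (PT.lf (nat_lit 2204) (nat_lit 3) (nat_lit 29) (nat_lit 1) (nat_lit 132) (nat_lit 126) (nat_lit 132)) (PT.nd (nat_lit 78) (PT.lf (nat_lit 2128) (nat_lit 6) (nat_lit 28) (nat_lit 1) (nat_lit 133) (nat_lit 126) (nat_lit 131)) (PT.lf (nat_lit 2052) (nat_lit 6) (nat_lit 27) (nat_lit 1) (nat_lit 134) (nat_lit 126) (nat_lit 130))))))))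
noncomputable def pc1 : PT := (PT.nd (nat_lit 121836) (PT.nd (nat_lit 40950) (PT.nd (nat_lit 390) (PT.nd (nat_lit 156) (PT.nd (nat_lit 78) (PT.lf (nat_lit 1976) (nat_lit 6) (nat_lit 26) (nat_lit 3) (nat_lit 129) (nat_lit 127) (nat_lit 134)) (PT.lf (nat_lit 2356) (nat_lit 6) (nat_lit 31) (nat_lit 3) (nat_lit 130) (nat_lit 127) (nat_lit 133))) (PT.nd (nat_lit 78) (PT.lf (nat_lit 2432) (nat_lit 6) (nat_lit 32) (nat_lit 3) (nat_lit 131) (nat_lit 127) (nat_lit 132)) (PT.nd (nat_lit 78) (PT.lf (nat_lit 2432) (nat_lit 6) (nat_lit 32) (nat_lit 1) (nat_lit 132) (nat_lit 127) (nat_lit 131)) (PT.lf (nat_lit 2356) (nat_lit 6) (nat_lit 31) (nat_lit 1) (nat_lit 133) (nat_lit 127) (nat_lit 130))))) (PT.nd (nat_lit 40326) (PT.nd (nat_lit 40170) (PT.lf (nat_lit 1976) (nat_lit 6) (nat_lit 26) (nat_lit 1) (nat_lit 134) (nat_lit 127) (nat_lit 129)) (PT.nd (nat_lit 78) (PT.lf (nat_lit 1900) (nat_lit 3) (nat_lit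 25) (nat_lit 3) (nat_lit 128) (nat_lit 128) (nat_lit 134)) (PT.lf (nat_lit 2280) (nat_lit 6) (nat_lit 30) (nat_lit 3) (nat_lit 129) (nat_lit 128) (nat_lit 133)))) (PT.nd (nat_lit 78) (PT.lf (nat_lit 2584) (nat_lit 6) (nat_lit 34) (nat_lit 3) (nat_lit 130) (nat_lit 128) (nat_lit 132)) (PT.nd (nat_lit 78) (PT.lf (nat_lit 2660) (nat_lit 3) (nat_lit 35) (nat_lit 1) (nat_lit 131) (nat_lit 128) (nat_lit 131)) (PT.lf (nat_lit 2584) (nat_lit 6) (nat_lit 34) (nat_lit 1) (nat_lit 132) (nat_lit 128) (nat_lit 130)))))) (PT.nd (nat_lit 40482) (PT.nd (nat_lit 40248) (PT.nd (nat_lit 78) (PT.lf (nat_lit 2280) (nat_lit 6) (nat_lit 30) (nat_lit 1) (nat_lit 133) (nat_lit 128) (nat_lit 129)) (PT.nd (nat_lit 40092) (PT.lf (nat_lit 1900) (nat_lit 3) (nat_lit 25) (nat_lit 0) (nat_lit 134) (nat_lit 128) (nat_lit 128)) (PT.lf (nat_lit 1976) (nat_lit 6) (nat_lit 26) (nat_lit 5) (nat_lit 127) (nat_lit 129) (nat_lit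 134)))) (PT.nd (nat_lit 78) (PT.lf (nat_lit 2280) (nat_lit 6) (nat_lit 30) (nat_lit 5) (nat_lit 128) (nat_lit 129) (nat_lit 133)) (PT.nd (nat_lit 78) (PT.lf (nat_lit 2508) (nat_lit 3) (nat_lit 33) (nat_lit 3) (nat_lit 129) (nat_lit 129) (nat_lit 132)) (PT.lf (nat_lit 2736) (nat_lit 6) (nat_lit 36) (nat_lit 3) (nat_lit 130) (nat_lit 129) (nat_lit 131))))) (PT.nd (nat_lit 234) (PT.nd (nat_lit 78) (PT.lf (nat_lit 2736) (nat_lit 6) (nat_lit 36) (nat_lit 1) (nat_lit 131) (nat_lit 129) (nat_lit 130)) (PT.nd (nat_lit 78) (PT.lf (nat_lit 2508) (nat_lit 3) (nat_lit 33) (nat_lit 0) (nat_lit 132) (nat_lit 129) (nat_lit 129)) (PT.lf (nat_lit 2280) (nat_lit 6) (nat_lit 30) (nat_lit 0) (nat_lit 133) (nat_lit 129) (nat_lit 128)))) (PT.nd (nat_lit 40014) (PT.lf (nat_lit 1976) (nat_lit 6) (nat_lit 26) (nat_lit 0) (nat_lit 134) (nat_lit 129) (nat_lit 127)) (PT.nd (nat_lit 78) (PT.lf (nat_lit 2052) (nat_lit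 6) (nat_lit 27) (nat_lit 5) (nat_lit 126) (nat_lit 130) (nat_lit 134)) (PT.lf (nat_lit 2356) (nat_lit 6) (nat_lit 31) (nat_lit 5) (nat_lit 127) (nat_lit 130) (nat_lit 133))))))) (PT.nd (nat_lit 40716) (PT.nd (nat_lit 390) (PT.nd (nat_lit 156) (PT.nd (nat_lit 78) (PT.lf (nat_lit 2584) (nat_lit 6) (nat_lit 34) (nat_lit 5) (nat_lit 128) (nat_lit 130) (nat_lit 132)) (PT.lf (nat_lit 2736) (nat_lit 6) (nat_lit 36) (nat_lit 5) (nat_lit 129) (nat_lit 130) (nat_lit 131))) (PT.nd (nat_lit 78) (PT.lf (nat_lit 2812) (nat_lit 1) (nat_lit 37) (nat_lit 0) (nat_lit 130) (nat_lit 130) (nat_lit 130)) (PT.nd (nat_lit 78) (PT.lf (nat_lit 2736) (nat_lit 6) (nat_lit 36) (nat_lit 0) (nat_lit 131) (nat_lit 130) (nat_lit 129)) (PT.lf (nat_lit 2584) (nat_lit 6) (nat_lit 34) (nat_lit 0) (nat_lit 132) (nat_lit 130) (nat_lit 128))))) (PT.nd (nat_lit 40092) (PT.nd (nat_lit 78) (PT.lf (nat_lit 2356) (nat_lit 6) (nat_lit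 31) (nat_lit 0) (nat_lit 133) (nat_lit 130) (nat_lit 127)) (PT.nd (nat_lit 39936) (PT.lf (nat_lit 2052) (nat_lit 6) (nat_lit 27) (nat_lit 0) (nat_lit 134) (nat_lit 130) (nat_lit 126)) (PT.lf (nat_lit 1748) (nat_lit 6) (nat_lit 23) (nat_lit 5) (nat_lit 125) (nat_lit 131) (nat_lit 134)))) (PT.nd (nat_lit 78) (PT.lf (nat_lit 2128) (nat_lit 6) (nat_lit 28) (nat_lit 5) (nat_lit 126) (nat_lit 131) (nat_lit 133)) (PT.nd (nat_lit 78) (PT.lf (nat_lit 2432) (nat_lit 6) (nat_lit 32) (nat_lit 5) (nat_lit 127) (nat_lit 131) (nat_lit 132)) (PT.lf (nat_lit 2660) (nat_lit 3) (nat_lit 35) (nat_lit 4) (nat_lit 128) (nat_lit 131) (nat_lit 131)))))) (PT.nd (nat_lit 40170) (PT.nd (nat_lit 234) (PT.nd (nat_lit 78) (PT.lf (nat_lit 2736) (nat_lit 6) (nat_lit 36) (nat_lit 4) (nat_lit 129) (nat_lit 131) (nat_lit 130)) (PT.nd (nat_lit 78) (PT.lf (nat_lit 2736) (nat_lit 6) (nat_lit 36) (nat_lit 2) (nat_lit 130) (nat_lit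 131) (nat_lit 129)) (PT.lf (nat_lit 2660) (nat_lit 3) (nat_lit 35) (nat_lit 0) (nat_lit 131) (nat_lit 131) (nat_lit 128)))) (PT.nd (nat_lit 78) (PT.lf (nat_lit 2432) (nat_lit 6) (nat_lit 32) (nat_lit 0) (nat_lit 132) (nat_lit 131) (nat_lit 127)) (PT.nd (nat_lit 78) (PT.lf (nat_lit 2128) (nat_lit 6) (nat_lit 28) (nat_lit 0) (nat_lit 133) (nat_lit 131) (nat_lit 126)) (PT.lf (nat_lit 1748) (nat_lit 6) (nat_lit 23) (nat_lit 0) (nat_lit 134) (nat_lit 131) (nat_lit 125))))) (PT.nd (nat_lit 234) (PT.nd (nat_lit 78) (PT.lf (nat_lit 1444) (nat_lit 6) (nat_lit 19) (nat_lit 5) (nat_lit 123) (nat_lit 132) (nat_lit 135)) (PT.nd (nat_lit 78) (PT.lf (nat_lit 1596) (nat_lit 6) (nat_lit 21) (nat_lit 5) (nat_lit 124) (nat_lit 132) (nat_lit 134)) (PT.lf (nat_lit 1824) (nat_lit 6) (nat_lit 24) (nat_lit 5) (nat_lit 125) (nat_lit 132) (nat_lit 133)))) (PT.nd (nat_lit 78) (PT.lf (nat_lit 2204) (nat_lit 3) (nat_lit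 29) (nat_lit 4) (nat_lit 126) (nat_lit 132) (nat_lit 132)) (PT.nd (nat_lit 78) (PT.lf (nat_lit 2432) (nat_lit 6) (nat_lit 32) (nat_lit 4) (nat_lit 127) (nat_lit 132) (nat_lit 131)) (PT.lf (nat_lit 2584) (nat_lit 6) (nat_lit 34) (nat_lit 4) (nat_lit 128) (nat_lit 132) (nat_lit 130))))))))
noncomputable def pc2 : PT := (PT.nd (nat_lit 80730) (PT.nd (nat_lit 40404) (PT.nd (nat_lit 390) (PT.nd (nat_lit 156) (PT.nd (nat_lit 78) (PT.lf (nat_lit 2508) (nat_lit 3) (nat_lit 33) (nat_lit 2) (nat_lit 129) (nat_lit 132) (nat_lit 129)) (PT.lf (nat_lit 2584) (nat_lit 6) (nat_lit 34) (nat_lit 2) (nat_lit 130) (nat_lit 132) (nat_lit 128))) (PT.nd (nat_lit 78) (PT.lf (nat_lit 2432) (nat_lit 6) (nat_lit 32) (nat_lit 2) (nat_lit 131) (nat_lit 132) (nat_lit 127)) (PT.nd (nat_lit 78) (PT.lf (nat_lit 2204) (nat_lit 3) (nat_lit 29) (nat_lit 0) (nat_lit 132) (nat_lit 132) (nat_lit 126)) (PT.lf (nat_lit 1824)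 (nat_lit 6) (nat_lit 24) (nat_lit 0) (nat_lit 133) (nat_lit 132) (nat_lit 125))))) (PT.nd (nat_lit 39780) (PT.nd (nat_lit 78) (PT.lf (nat_lit 1596) (nat_lit 6) (nat_lit 21) (nat_lit 0) (nat_lit 134) (nat_lit 132) (nat_lit 124)) (PT.nd (nat_lit 39624) (PT.lf (nat_lit 1444) (nat_lit 6) (nat_lit 19) (nat_lit 0) (nat_lit 135) (nat_lit 132) (nat_lit 123)) (PT.lf (nat_lit 1292) (nat_lit 6) (nat_lit 17) (nat_lit 5) (nat_lit 122) (nat_lit 133) (nat_lit 135)))) (PT.nd (nat_lit 78) (PT.lf (nat_lit 1520) (nat_lit 6) (nat_lit 20) (nat_lit 5) (nat_lit 123) (nat_lit 133) (nat_lit 134)) (PT.nd (nat_lit 78) (PT.lf (nat_lit 1672) (nat_lit 3) (nat_lit 22) (nat_lit 4) (nat_lit 124) (nat_lit 133) (nat_lit 133)) (PT.lf (nat_lit 1824) (nat_lit 6) (nat_lit 24) (nat_lit 4) (nat_lit 125) (nat_lit 133) (nat_lit 132)))))) (PT.nd (nat_lit 468) (PT.nd (nat_lit 234) (PT.nd (nat_lit 78) (PT.lf (nat_lit 2128) (nat_lit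 6) (nat_lit 28) (nat_lit 4) (nat_lit 126) (nat_lit 133) (nat_lit 131)) (PT.nd (nat_lit 78) (PT.lf (nat_lit 2356) (nat_lit 6) (nat_lit 31) (nat_lit 4) (nat_lit 127) (nat_lit 133) (nat_lit 130)) (PT.lf (nat_lit 2280) (nat_lit 6) (nat_lit 30) (nat_lit 4) (nat_lit 128) (nat_lit 133) (nat_lit 129)))) (PT.nd (nat_lit 78) (PT.lf (nat_lit 2280) (nat_lit 6) (nat_lit 30) (nat_lit 2) (nat_lit 129) (nat_lit 133) (nat_lit 128)) (PT.nd (nat_lit 78) (PT.lf (nat_lit 2356) (nat_lit 6) (nat_lit 31) (nat_lit 2) (nat_lit 130) (nat_lit 133) (nat_lit 127)) (PT.lf (nat_lit 2128) (nat_lit 6) (nat_lit 28) (nat_lit 2) (nat_lit 131) (nat_lit 133) (nat_lit 126))))) (PT.nd (nat_lit 234) (PT.nd (nat_lit 78) (PT.lf (nat_lit 1824) (nat_lit 6) (nat_lit 24) (nat_lit 2) (nat_lit 132) (nat_lit 133) (nat_lit 125)) (PT.nd (nat_lit 78) (PT.lf (nat_lit 1672) (nat_lit 3) (nat_lit 22) (nat_lit 0) (nat_lit 133) (nat_lit 133) (nat_lit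 124)) (PT.lf (nat_lit 1520) (nat_lit 6) (nat_lit 20) (nat_lit 0) (nat_lit 134) (nat_lit 133) (nat_lit 123)))) (PT.nd (nat_lit 39468) (PT.lf (nat_lit 1292) (nat_lit 6) (nat_lit 17) (nat_lit 0) (nat_lit 135) (nat_lit 133) (nat_lit 122)) (PT.nd (nat_lit 78) (PT.lf (nat_lit 1064) (nat_lit 6) (nat_lit 14) (nat_lit 5) (nat_lit 120) (nat_lit 134) (nat_lit 136)) (PT.lf (nat_lit 1216) (nat_lit 6) (nat_lit 16) (nat_lit 5) (nat_lit 121) (nat_lit 134) (nat_lit 135))))))) (PT.nd (nat_lit 858) (PT.nd (nat_lit 390) (PT.nd (nat_lit 156) (PT.nd (nat_lit 78) (PT.lf (nat_lit 1368) (nat_lit 3) (nat_lit 18) (nat_lit 4) (nat_lit 122) (nat_lit 134) (nat_lit 134)) (PT.lf (nat_lit 1520) (nat_lit 6) (nat_lit 20) (nat_lit 4) (nat_lit 123) (nat_lit 134) (nat_lit 133))) (PT.nd (nat_lit 78) (PT.lf (nat_lit 1596) (nat_lit 6) (nat_lit 21) (nat_lit 4) (nat_lit 124) (nat_lit 134) (nat_lit 132)) (PT.nd (nat_lit 78) (PT.lf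 (nat_lit 1748) (nat_lit 6) (nat_lit 23) (nat_lit 4) (nat_lit 125) (nat_lit 134) (nat_lit 131)) (PT.lf (nat_lit 2052) (nat_lit 6) (nat_lit 27) (nat_lit 4) (nat_lit 126) (nat_lit 134) (nat_lit 130))))) (PT.nd (nat_lit 234) (PT.nd (nat_lit 78) (PT.lf (nat_lit 1976) (nat_lit 6) (nat_lit 26) (nat_lit 4) (nat_lit 127) (nat_lit 134) (nat_lit 129)) (PT.nd (nat_lit 78) (PT.lf (nat_lit 1900) (nat_lit 3) (nat_lit 25) (nat_lit 2) (nat_lit 128) (nat_lit 134) (nat_lit 128)) (PT.lf (nat_lit 1976) (nat_lit 6) (nat_lit 26) (nat_lit 2) (nat_lit 129) (nat_lit 134) (nat_lit 127)))) (PT.nd (nat_lit 78) (PT.lf (nat_lit 2052) (nat_lit 6) (nat_lit 27) (nat_lit 2) (nat_lit 130) (nat_lit 134) (nat_lit 126)) (PT.nd (nat_lit 78) (PT.lf (nat_lit 1748) (nat_lit 6) (nat_lit 23) (nat_lit 2) (nat_lit 131) (nat_lit 134) (nat_lit 125)) (PT.lf (nat_lit 1596) (nat_lit 6) (nat_lit 21) (nat_lit 2) (nat_lit 132) (nat_lit 134)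 (nat_lit 124)))))) (PT.nd (nat_lit 39624) (PT.nd (nat_lit 234) (PT.nd (nat_lit 78) (PT.lf (nat_lit 1520) (nat_lit 6) (nat_lit 20) (nat_lit 2) (nat_lit 133) (nat_lit 134) (nat_lit 123)) (PT.nd (nat_lit 78) (PT.lf (nat_lit 1368) (nat_lit 3) (nat_lit 18) (nat_lit 0) (nat_lit 134) (nat_lit 134) (nat_lit 122)) (PT.lf (nat_lit 1216) (nat_lit 6) (nat_lit 16) (nat_lit 0) (nat_lit 135) (nat_lit 134) (nat_lit 121)))) (PT.nd (nat_lit 39234) (PT.lf (nat_lit 1064) (nat_lit 6) (nat_lit 14) (nat_lit 0) (nat_lit 136) (nat_lit 134) (nat_lit 120)) (PT.nd (nat_lit 78) (PT.lf (nat_lit 836) (nat_lit 6) (nat_lit 11) (nat_lit 5) (nat_lit 118) (nat_lit 135) (nat_lit 137)) (PT.lf (nat_lit 988) (nat_lit 6) (nat_lit 13) (nat_lit 5) (nat_lit 119) (nat_lit 135) (nat_lit 136))))) (PT.nd (nat_lit 234) (PT.nd (nat_lit 78) (PT.lf (nat_lit 1140) (nat_lit 3) (nat_lit 15) (nat_lit 4) (nat_lit 120) (nat_lit 135) (nat_lit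 135)) (PT.nd (nat_lit 78) (PT.lf (nat_lit 1216) (nat_lit 6) (nat_lit 16) (nat_lit 4) (nat_lit 121) (nat_lit 135) (nat_lit 134)) (PT.lf (nat_lit 1292) (nat_lit 6) (nat_lit 17) (nat_lit 4) (nat_lit 122) (nat_lit 135) (nat_lit 133)))) (PT.nd (nat_lit 702) (PT.lf (nat_lit 1444) (nat_lit 6) (nat_lit 19) (nat_lit 4) (nat_lit 123) (nat_lit 135) (nat_lit 132)) (PT.nd (nat_lit 78) (PT.lf (nat_lit 1444) (nat_lit 6) (nat_lit 19) (nat_lit 2) (nat_lit 132) (nat_lit 135) (nat_lit 123)) (PT.lf (nat_lit 1292) (nat_lit 6) (nat_lit 17) (nat_lit 2) (nat_lit 133) (nat_lit 135) (nat_lit 122))))))))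
noncomputable def pc3 : PT := (PT.nd (nat_lit 81666) (PT.nd (nat_lit 40794) (PT.nd (nat_lit 39312) (PT.nd (nat_lit 156) (PT.nd (nat_lit 78) (PT.lf (nat_lit 1216) (nat_lit 6) (nat_lit 16) (nat_lit 2) (nat_lit 134) (nat_lit 135) (nat_lit 121)) (PT.lf (nat_lit 1140) (nat_lit 3) (nat_lit 15) (nat_lit 0) (nat_lit 135) (nat_lit 135) (nat_lit 120))) (PT.nd (nat_lit 78) (PT.lf (nat_lit 988) (nat_lit 6) (nat_lit 13) (nat_lit 0) (nat_lit 136) (nat_lit 135) (nat_lit 119)) (PT.nd (nat_lit 39000) (PT.lf (nat_lit 836) (nat_lit 6) (nat_lit 11) (nat_lit 0) (nat_lit 137) (nat_lit 135) (nat_lit 118)) (PT.lf (nat_lit 608) (nat_lit 6) (nat_lit 8) (nat_lit 5) (nat_lit 116) (nat_lit 136) (nat_lit 138))))) (PT.nd (nat_lit 234) (PT.nd (nat_lit 78) (PT.lf (nat_lit 760) (nat_lit 6) (nat_lit 10) (nat_lit 5) (nat_lit 117) (nat_lit 136) (nat_lit 137)) (PT.nd (nat_lit 78) (PT.lf (nat_lit 912) (nat_lit 3) (nat_lit 12)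 (nat_lit 4) (nat_lit 118) (nat_lit 136) (nat_lit 136)) (PT.lf (nat_lit 988) (nat_lit 6) (nat_lit 13) (nat_lit 4) (nat_lit 119) (nat_lit 136) (nat_lit 135)))) (PT.nd (nat_lit 1092) (PT.lf (nat_lit 1064) (nat_lit 6) (nat_lit 14) (nat_lit 4) (nat_lit 120) (nat_lit 136) (nat_lit 134)) (PT.nd (nat_lit 78) (PT.lf (nat_lit 1064) (nat_lit 6) (nat_lit 14) (nat_lit 2) (nat_lit 134) (nat_lit 136) (nat_lit 120)) (PT.lf (nat_lit 988) (nat_lit 6) (nat_lit 13) (nat_lit 2) (nat_lit 135) (nat_lit 136) (nat_lit 119)))))) (PT.nd (nat_lit 39156) (PT.nd (nat_lit 38922) (PT.nd (nat_lit 78) (PT.lf (nat_lit 912) (nat_lit 3) (nat_lit 12) (nat_lit 0) (nat_lit 136) (nat_lit 136) (nat_lit 118)) (PT.nd (nat_lit 78) (PT.lf (nat_lit 760) (nat_lit 6) (nat_lit 10) (nat_lit 0) (nat_lit 137) (nat_lit 136) (nat_lit 117)) (PT.lf (nat_lit 608) (nat_lit 6) (nat_lit 8) (nat_lit 0) (nat_lit 138) (nat_lit 136) (nat_lit 116))))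 (PT.nd (nat_lit 78) (PT.lf (nat_lit 380) (nat_lit 6) (nat_lit 5) (nat_lit 5) (nat_lit 114) (nat_lit 137) (nat_lit 139)) (PT.nd (nat_lit 78) (PT.lf (nat_lit 532) (nat_lit 6) (nat_lit 7) (nat_lit 5) (nat_lit 115) (nat_lit 137) (nat_lit 138)) (PT.lf (nat_lit 684) (nat_lit 3) (nat_lit 9) (nat_lit 4) (nat_lit 116) (nat_lit 137) (nat_lit 137))))) (PT.nd (nat_lit 1482) (PT.nd (nat_lit 78) (PT.lf (nat_lit 760) (nat_lit 6) (nat_lit 10) (nat_lit 4) (nat_lit 117) (nat_lit 137) (nat_lit 136)) (PT.nd (nat_lit 1326) (PT.lf (nat_lit 836) (nat_lit 6) (nat_lit 11) (nat_lit 4) (nat_lit 118) (nat_lit 137) (nat_lit 135)) (PT.lf (nat_lit 836) (nat_lit 6) (nat_lit 11) (nat_lit 2) (nat_lit 135) (nat_lit 137) (nat_lit 118)))) (PT.nd (nat_lit 78) (PT.lf (nat_lit 760) (nat_lit 6) (nat_lit 10) (nat_lit 2) (nat_lit 136) (nat_lit 137) (nat_lit 117)) (PT.nd (nat_lit 78) (PT.lf (nat_lit 684) (nat_lit 3) (nat_lit 9)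 (nat_lit 0) (nat_lit 137) (nat_lit 137) (nat_lit 116)) (PT.lf (nat_lit 532) (nat_lit 6) (nat_lit 7) (nat_lit 0) (nat_lit 138) (nat_lit 137) (nat_lit 115))))))) (PT.nd (nat_lit 79092) (PT.nd (nat_lit 38844) (PT.nd (nat_lit 38610) (PT.nd (nat_lit 38532) (PT.lf (nat_lit 380) (nat_lit 6) (nat_lit 5) (nat_lit 0) (nat_lit 139) (nat_lit 137) (nat_lit 114)) (PT.lf (nat_lit 152) (nat_lit 6) (nat_lit 2) (nat_lit 5) (nat_lit 112) (nat_lit 138) (nat_lit 140))) (PT.nd (nat_lit 78) (PT.lf (nat_lit 304) (nat_lit 6) (nat_lit 4) (nat_lit 5) (nat_lit 113) (nat_lit 138) (nat_lit 139)) (PT.nd (nat_lit 78) (PT.lf (nat_lit 456) (nat_lit 3) (nat_lit 6) (nat_lit 4) (nat_lit 114) (nat_lit 138) (nat_lit 138)) (PT.lf (nat_lit 532) (nat_lit 6) (nat_lit 7) (nat_lit 4) (nat_lit 115) (nat_lit 138) (nat_lit 137))))) (PT.nd (nat_lit 1716) (PT.nd (nat_lit 1560) (PT.lf (nat_lit 608) (nat_lit 6) (nat_lit 8) (nat_lit 4) (nat_lit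 116) (nat_lit 138) (nat_lit 136)) (PT.nd (nat_lit 78) (PT.lf (nat_lit 608) (nat_lit 6) (nat_lit 8) (nat_lit 2) (nat_lit 136) (nat_lit 138) (nat_lit 116)) (PT.lf (nat_lit 532) (nat_lit 6) (nat_lit 7) (nat_lit 2) (nat_lit 137) (nat_lit 138) (nat_lit 115)))) (PT.nd (nat_lit 78) (PT.lf (nat_lit 456) (nat_lit 3) (nat_lit 6) (nat_lit 0) (nat_lit 138) (nat_lit 138) (nat_lit 114)) (PT.nd (nat_lit 78) (PT.lf (nat_lit 304) (nat_lit 6) (nat_lit 4) (nat_lit 0) (nat_lit 139) (nat_lit 138) (nat_lit 113)) (PT.lf (nat_lit 152) (nat_lit 6) (nat_lit 2) (nat_lit 0) (nat_lit 140) (nat_lit 138) (nat_lit 112)))))) (PT.nd (nat_lit 2184) (PT.nd (nat_lit 234) (PT.nd (nat_lit 78) (PT.lf (nat_lit 76) (nat_lit 6) (nat_lit 1) (nat_lit 5) (nat_lit 111) (nat_lit 139) (nat_lit 140)) (PT.nd (nat_lit 78) (PT.lf (nat_lit 228) (nat_lit 3) (nat_lit 3) (nat_lit 4) (nat_lit 112) (nat_lit 139) (nat_lit 139)) (PT.lf (nat_lit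 304) (nat_lit 6) (nat_lit 4) (nat_lit 4) (nat_lit 113) (nat_lit 139) (nat_lit 138)))) (PT.nd (nat_lit 1794) (PT.lf (nat_lit 380) (nat_lit 6) (nat_lit 5) (nat_lit 4) (nat_lit 114) (nat_lit 139) (nat_lit 137)) (PT.nd (nat_lit 78) (PT.lf (nat_lit 380) (nat_lit 6) (nat_lit 5) (nat_lit 2) (nat_lit 137) (nat_lit 139) (nat_lit 114)) (PT.lf (nat_lit 304) (nat_lit 6) (nat_lit 4) (nat_lit 2) (nat_lit 138) (nat_lit 139) (nat_lit 113))))) (PT.nd (nat_lit 38532) (PT.nd (nat_lit 78) (PT.lf (nat_lit 228) (nat_lit 3) (nat_lit 3) (nat_lit 0) (nat_lit 139) (nat_lit 139) (nat_lit 112)) (PT.nd (nat_lit 38376) (PT.lf (nat_lit 76) (nat_lit 6) (nat_lit 1) (nat_lit 0) (nat_lit 140) (nat_lit 139) (nat_lit 111)) (PT.lf (nat_lit 76) (nat_lit 6) (nat_lit 1) (nat_lit 4) (nat_lit 111) (nat_lit 140) (nat_lit 139)))) (PT.nd (nat_lit 2028) (PT.lf (nat_lit 152) (nat_lit 6) (nat_lit 2) (nat_lit 4) (nat_lit 112) (nat_lit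 140) (nat_lit 138)) (PT.nd (nat_lit 78) (PT.lf (nat_lit 152) (nat_lit 6) (nat_lit 2) (nat_lit 2) (nat_lit 138) (nat_lit 140) (nat_lit 112)) (PT.lf (nat_lit 76) (nat_lit 6) (nat_lit 1) (nat_lit 2) (nat_lit 139) (nat_lit 140) (nat_lit 111))))))))
noncomputable def xc0 : XT := (XT.nd (nat_lit 162474) (nat_lit 0) (nat_lit 0) (XT.nd (nat_lit 121524) (nat_lit 0) (nat_lit 0) (XT.nd (nat_lit 80964) (nat_lit 0) (nat_lit 0) (XT.nd (nat_lit 40560) (nat_lit 0) (nat_lit 0) (XT.nd (nat_lit 78) (nat_lit 0) (nat_lit 0) (XT.lf (nat_lit 0) (nat_lit 3813022600267) (nat_lit 152) (nat_lit 315160112933) (nat_lit 0) (nat_lit 3813022600267) (nat_lit 1) (nat_lit 5) (nat_lit 3) (nat_lit 4) (nat_lit 1) (nat_lit 4) (nat_lit 330) (nat_lit 225) (nat_lit 225)) (XT.nd (nat_lit 40404) (nat_lit 0) (nat_lit 0) (XT.lf (nat_lit 0) (nat_lit 8770480529579) (nat_lit 152) (nat_lit 723778918280) (nat_lit 0) (nat_lit 8770469398262)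 (nat_lit 1) (nat_lit 5) (nat_lit 3) (nat_lit 4) (nat_lit 1) (nat_lit 4) (nat_lit 331) (nat_lit 225) (nat_lit 224)) (XT.lf (nat_lit 0) (nat_lit 2882714352392) (nat_lit 152) (nat_lit 239303092548) (nat_lit 0) (nat_lit 2882714352392) (nat_lit 1) (nat_lit 5) (nat_lit 3) (nat_lit 4) (nat_lit 1) (nat_lit 4) (nat_lit 328) (nat_lit 226) (nat_lit 226)))) (XT.nd (nat_lit 78) (nat_lit 0) (nat_lit 0) (XT.lf (nat_lit 0) (nat_lit 6630850841809) (nat_lit 152) (nat_lit 549144370175) (nat_lit 0) (nat_lit 6630838040795) (nat_lit 1) (nat_lit 5) (nat_lit 3) (nat_lit 4) (nat_lit 1) (nat_lit 4) (nat_lit 329) (nat_lit 226) (nat_lit 225)) (XT.nd (nat_lit 78) (nat_lit 0) (nat_lit 0) (XT.lf (nat_lit 0) (nat_lit 7626033394732) (nat_lit 152) (nat_lit 630369741387) (nat_lit 0) (nat_lit 7626009462401) (nat_lit 1) (nat_lit 5) (nat_lit 3) (nat_lit 4) (nat_lit 1) (nat_lit 4) (nat_lit 330) (nat_lit 226) (nat_lit 224))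 (XT.lf (nat_lit 0) (nat_lit 8770447326543) (nat_lit 152) (nat_lit 723871490776) (nat_lit 0) (nat_lit 8770413714807) (nat_lit 1) (nat_lit 5) (nat_lit 3) (nat_lit 4) (nat_lit 1) (nat_lit 4) (nat_lit 331) (nat_lit 226) (nat_lit 223))))) (XT.nd (nat_lit 234) (nat_lit 0) (nat_lit 0) (XT.nd (nat_lit 78) (nat_lit 0) (nat_lit 0) (XT.lf (nat_lit 0) (nat_lit 2179195881118) (nat_lit 152) (nat_lit 182093802309) (nat_lit 0) (nat_lit 2179195881118) (nat_lit 1) (nat_lit 5) (nat_lit 3) (nat_lit 4) (nat_lit 1) (nat_lit 4) (nat_lit 326) (nat_lit 227) (nat_lit 227)) (XT.nd (nat_lit 78) (nat_lit 0) (nat_lit 0) (XT.lf (nat_lit 0) (nat_lit 5012849532575) (nat_lit 152) (nat_lit 417375091224) (nat_lit 0) (nat_lit 5012834811409) (nat_lit 1) (nat_lit 5) (nat_lit 3) (nat_lit 4) (nat_lit 1) (nat_lit 4) (nat_lit 327) (nat_lit 227) (nat_lit 226)) (XT.lf (nat_lit 0) (nat_lit 5765415128110) (nat_lit 152) (nat_lit 478663127945)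 (nat_lit 0) (nat_lit 5765387605930) (nat_lit 1) (nat_lit 5) (nat_lit 3) (nat_lit 4) (nat_lit 1) (nat_lit 4) (nat_lit 328) (nat_lit 227) (nat_lit 225)))) (XT.nd (nat_lit 156) (nat_lit 0) (nat_lit 0) (XT.nd (nat_lit 78) (nat_lit 0) (nat_lit 0) (XT.lf (nat_lit 0) (nat_lit 6630812658318) (nat_lit 152) (nat_lit 549250828546) (nat_lit 0) (nat_lit 6630774004822) (nat_lit 1) (nat_lit 5) (nat_lit 3) (nat_lit 4) (nat_lit 1) (nat_lit 4) (nat_lit 329) (nat_lit 227) (nat_lit 224)) (XT.lf (nat_lit 0) (nat_lit 7625973814009) (nat_lit 152) (nat_lit 630519256732) (nat_lit 0) (nat_lit 7625925481106) (nat_lit 1) (nat_lit 5) (nat_lit 3) (nat_lit 4) (nat_lit 1) (nat_lit 4) (nat_lit 330) (nat_lit 227) (nat_lit 223))) (XT.nd (nat_lit 40092) (nat_lit 0) (nat_lit 0) (XT.lf (nat_lit 0) (nat_lit 8770369139531) (nat_lit 152) (nat_lit 724058446969) (nat_lit 0) (nat_lit 8770312389754) (nat_lit 1) (nat_lit 5) (nat_lit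 3) (nat_lit 4) (nat_lit 1) (nat_lit 4) (nat_lit 331) (nat_lit 227) (nat_lit 222)) (XT.lf (nat_lit 0) (nat_lit 1647152296077) (nat_lit 152) (nat_lit 139007302432) (nat_lit 0) (nat_lit 1647152296077) (nat_lit 1) (nat_lit 5) (nat_lit 3) (nat_lit 4) (nat_lit 1) (nat_lit 4) (nat_lit 324) (nat_lit 228) (nat_lit 228)))))) (XT.nd (nat_lit 40404) (nat_lit 0) (nat_lit 0) (XT.nd (nat_lit 234) (nat_lit 0) (nat_lit 0) (XT.nd (nat_lit 78) (nat_lit 0) (nat_lit 0) (XT.lf (nat_lit 0) (nat_lit 3789254137882) (nat_lit 152) (nat_lit 318060043393) (nat_lit 0) (nat_lit 3789237208541) (nat_lit 1) (nat_lit 5) (nat_lit 3) (nat_lit 4) (nat_lit 1) (nat_lit 4) (nat_lit 325) (nat_lit 228) (nat_lit 227)) (XT.nd (nat_lit 78) (nat_lit 0) (nat_lit 0) (XT.lf (nat_lit 0) (nat_lit 4358376149061) (nat_lit 152) (nat_lit 364253088896) (nat_lit 0) (nat_lit 4358344498554) (nat_lit 1) (nat_lit 5) (nat_lit 3) (nat_lit 4) (nat_lit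 1) (nat_lit 4) (nat_lit 326) (nat_lit 228) (nat_lit 226)) (XT.lf (nat_lit 0) (nat_lit 5012805621561) (nat_lit 152) (nat_lit 417497518350) (nat_lit 0) (nat_lit 5012761170040) (nat_lit 1) (nat_lit 5) (nat_lit 3) (nat_lit 4) (nat_lit 1) (nat_lit 4) (nat_lit 327) (nat_lit 228) (nat_lit 225)))) (XT.nd (nat_lit 156) (nat_lit 0) (nat_lit 0) (XT.nd (nat_lit 78) (nat_lit 0) (nat_lit 0) (XT.lf (nat_lit 0) (nat_lit 5765346610278) (nat_lit 152) (nat_lit 478835070593) (nat_lit 0) (nat_lit 5765291027441) (nat_lit 1) (nat_lit 5) (nat_lit 3) (nat_lit 4) (nat_lit 1) (nat_lit 4) (nat_lit 328) (nat_lit 228) (nat_lit 224)) (XT.lf (nat_lit 0) (nat_lit 6630722743254) (nat_lit 152) (nat_lit 549465828168) (nat_lit 0) (nat_lit 6630657481011) (nat_lit 1) (nat_lit 5) (nat_lit 3) (nat_lit 4) (nat_lit 1) (nat_lit 4) (nat_lit 329) (nat_lit 228) (nat_lit 223))) (XT.nd (nat_lit 78) (nat_lit 0) (nat_lit 0) (XT.lf (nat_lit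 0) (nat_lit 7625865292656) (nat_lit 152) (nat_lit 630771697202) (nat_lit 0) (nat_lit 7625791613538) (nat_lit 1) (nat_lit 5) (nat_lit 3) (nat_lit 4) (nat_lit 1) (nat_lit 4) (nat_lit 330) (nat_lit 228) (nat_lit 222)) (XT.lf (nat_lit 0) (nat_lit 8770244438796) (nat_lit 152) (nat_lit 724343444698) (nat_lit 0) (nat_lit 8770163440658) (nat_lit 1) (nat_lit 5) (nat_lit 3) (nat_lit 4) (nat_lit 1) (nat_lit 4) (nat_lit 331) (nat_lit 228) (nat_lit 221))))) (XT.nd (nat_lit 234) (nat_lit 0) (nat_lit 0) (XT.nd (nat_lit 78) (nat_lit 0) (nat_lit 0) (XT.lf (nat_lit 0) (nat_lit 1244755978138) (nat_lit 152) (nat_lit 106625452448) (nat_lit 0) (nat_lit 1244755978138) (nat_lit 1) (nat_lit 5) (nat_lit 3) (nat_lit 4) (nat_lit 1) (nat_lit 4) (nat_lit 322) (nat_lit 229) (nat_lit 229)) (XT.nd (nat_lit 78) (nat_lit 0) (nat_lit 0) (XT.lf (nat_lit 0) (nat_lit 2863863185159) (nat_lit 152) (nat_lit 243333275600) (nat_lit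 0) (nat_lit 2863843716417) (nat_lit 1) (nat_lit 5) (nat_lit 3) (nat_lit 4) (nat_lit 1) (nat_lit 4) (nat_lit 323) (nat_lit 229) (nat_lit 228)) (XT.lf (nat_lit 0) (nat_lit 3294286637003) (nat_lit 152) (nat_lit 278089911783) (nat_lit 0) (nat_lit 3294250238920) (nat_lit 1) (nat_lit 5) (nat_lit 3) (nat_lit 4) (nat_lit 1) (nat_lit 4) (nat_lit 324) (nat_lit 229) (nat_lit 227)))) (XT.nd (nat_lit 156) (nat_lit 0) (nat_lit 0) (XT.nd (nat_lit 78) (nat_lit 0) (nat_lit 0) (XT.lf (nat_lit 0) (nat_lit 3789203640216) (nat_lit 152) (nat_lit 318200834588) (nat_lit 0) (nat_lit 3789152520967) (nat_lit 1) (nat_lit 5) (nat_lit 3) (nat_lit 4) (nat_lit 1) (nat_lit 4) (nat_lit 325) (nat_lit 229) (nat_lit 226)) (XT.lf (nat_lit 0) (nat_lit 4358297353554) (nat_lit 152) (nat_lit 364450822940) (nat_lit 0) (nat_lit 4358233433291) (nat_lit 1) (nat_lit 5) (nat_lit 3) (nat_lit 4) (nat_lit 1) (nat_lit 4) (nat_lit 326) (nat_lit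 229) (nat_lit 225))) (XT.nd (nat_lit 78) (nat_lit 0) (nat_lit 0) (XT.lf (nat_lit 0) (nat_lit 5012702219237) (nat_lit 152) (nat_lit 417744767915) (nat_lit 0) (nat_lit 5012627167658) (nat_lit 1) (nat_lit 5) (nat_lit 3) (nat_lit 4) (nat_lit 1) (nat_lit 4) (nat_lit 327) (nat_lit 229) (nat_lit 224)) (XT.lf (nat_lit 0) (nat_lit 5765221810723) (nat_lit 152) (nat_lit 479125377133) (nat_lit 0) (nat_lit 5765137079737) (nat_lit 1) (nat_lit 5) (nat_lit 3) (nat_lit 4) (nat_lit 1) (nat_lit 4) (nat_lit 328) (nat_lit 229) (nat_lit 223))))))) (XT.nd (nat_lit 40716) (nat_lit 0) (nat_lit 0) (XT.nd (nat_lit 40170) (nat_lit 0) (nat_lit 0) (XT.nd (nat_lit 39936) (nat_lit 0) (nat_lit 0) (XT.nd (nat_lit 78) (nat_lit 0) (nat_lit 0) (XT.lf (nat_lit 0) (nat_lit 6630579337410) (nat_lit 152) (nat_lit 549793575556) (nat_lit 0) (nat_lit 6630486189550) (nat_lit 1) (nat_lit 5) (nat_lit 3) (nat_lit 4) (nat_lit 1) (nat_lit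 4) (nat_lit 329) (nat_lit 229) (nat_lit 222)) (XT.nd (nat_lit 78) (nat_lit 0) (nat_lit 0) (XT.lf (nat_lit 0) (nat_lit 7625705707429) (nat_lit 152) (nat_lit 631132001849) (nat_lit 0) (nat_lit 7625605240548) (nat_lit 1) (nat_lit 5) (nat_lit 3) (nat_lit 4) (nat_lit 1) (nat_lit 4) (nat_lit 330) (nat_lit 229) (nat_lit 221)) (XT.lf (nat_lit 0) (nat_lit 8770070784542) (nat_lit 152) (nat_lit 724732060005) (nat_lit 0) (nat_lit 8769963953295) (nat_lit 1) (nat_lit 5) (nat_lit 3) (nat_lit 4) (nat_lit 1) (nat_lit 4) (nat_lit 331) (nat_lit 229) (nat_lit 220)))) (XT.nd (nat_lit 78) (nat_lit 0) (nat_lit 0) (XT.lf (nat_lit 0) (nat_lit 940377380643) (nat_lit 152) (nat_lit 82367515798) (nat_lit 0) (nat_lit 940377380643) (nat_lit 1) (nat_lit 5) (nat_lit 3) (nat_lit 4) (nat_lit 1) (nat_lit 4) (nat_lit 320) (nat_lit 230) (nat_lit 230)) (XT.nd (nat_lit 78) (nat_lit 0) (nat_lit 0) (XT.lf (nat_lit 0) (nat_lit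 2163931076237) (nat_lit 152) (nat_lit 187254231551) (nat_lit 0) (nat_lit 2163908687184) (nat_lit 1) (nat_lit 5) (nat_lit 3) (nat_lit 4) (nat_lit 1) (nat_lit 4) (nat_lit 321) (nat_lit 230) (nat_lit 229)) (XT.lf (nat_lit 0) (nat_lit 2489491307853) (nat_lit 152) (nat_lit 213337507853) (nat_lit 0) (nat_lit 2489449450058) (nat_lit 1) (nat_lit 5) (nat_lit 3) (nat_lit 4) (nat_lit 1) (nat_lit 4) (nat_lit 322) (nat_lit 230) (nat_lit 228))))) (XT.nd (nat_lit 234) (nat_lit 0) (nat_lit 0) (XT.nd (nat_lit 78) (nat_lit 0) (nat_lit 0) (XT.lf (nat_lit 0) (nat_lit 2863805112842) (nat_lit 152) (nat_lit 243495185474) (nat_lit 0) (nat_lit 2863746325706) (nat_lit 1) (nat_lit 5) (nat_lit 3) (nat_lit 4) (nat_lit 1) (nat_lit 4) (nat_lit 323) (nat_lit 230) (nat_lit 227)) (XT.nd (nat_lit 78) (nat_lit 0) (nat_lit 0) (XT.lf (nat_lit 0) (nat_lit 3294196022171) (nat_lit 152) (nat_lit 278317305934) (nat_lit 0) (nat_lit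 3294122513869) (nat_lit 1) (nat_lit 5) (nat_lit 3) (nat_lit 4) (nat_lit 1) (nat_lit 4) (nat_lit 324) (nat_lit 230) (nat_lit 226)) (XT.lf (nat_lit 0) (nat_lit 3789084727544) (nat_lit 152) (nat_lit 318485171588) (nat_lit 0) (nat_lit 3788998418227) (nat_lit 1) (nat_lit 5) (nat_lit 3) (nat_lit 4) (nat_lit 1) (nat_lit 4) (nat_lit 325) (nat_lit 230) (nat_lit 225)))) (XT.nd (nat_lit 156) (nat_lit 0) (nat_lit 0) (XT.nd (nat_lit 78) (nat_lit 0) (nat_lit 0) (XT.lf (nat_lit 0) (nat_lit 4358153834065) (nat_lit 152) (nat_lit 364784675461) (nat_lit 0) (nat_lit 4358056393432) (nat_lit 1) (nat_lit 5) (nat_lit 3) (nat_lit 4) (nat_lit 1) (nat_lit 4) (nat_lit 326) (nat_lit 230) (nat_lit 224)) (XT.lf (nat_lit 0) (nat_lit 5012537302516) (nat_lit 152) (nat_lit 418121677412) (nat_lit 0) (nat_lit 5012430182477) (nat_lit 1) (nat_lit 5) (nat_lit 3) (nat_lit 4) (nat_lit 1) (nat_lit 4) (nat_lit 327) (nat_lit 230)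 (nat_lit 223))) (XT.nd (nat_lit 78) (nat_lit 0) (nat_lit 0) (XT.lf (nat_lit 0) (nat_lit 5765038287712) (nat_lit 152) (nat_lit 479539727477) (nat_lit 0) (nat_lit 5764922750799) (nat_lit 1) (nat_lit 5) (nat_lit 3) (nat_lit 4) (nat_lit 1) (nat_lit 4) (nat_lit 328) (nat_lit 230) (nat_lit 222)) (XT.lf (nat_lit 0) (nat_lit 6630379635018) (nat_lit 152) (nat_lit 550240483159) (nat_lit 0) (nat_lit 6630256779083) (nat_lit 1) (nat_lit 5) (nat_lit 3) (nat_lit 4) (nat_lit 1) (nat_lit 4) (nat_lit 329) (nat_lit 230) (nat_lit 221)))))) (XT.nd (nat_lit 40092) (nat_lit 0) (nat_lit 0) (XT.nd (nat_lit 39780) (nat_lit 0) (nat_lit 0) (XT.nd (nat_lit 78) (nat_lit 0) (nat_lit 0) (XT.lf (nat_lit 0) (nat_lit 7625491936009) (nat_lit 152) (nat_lit 631607220112) (nat_lit 0) (nat_lit 7625362715709) (nat_lit 1) (nat_lit 5) (nat_lit 3) (nat_lit 4) (nat_lit 1) (nat_lit 4) (nat_lit 330) (nat_lit 230) (nat_lit 220)) (XT.nd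 (nat_lit 39624) (nat_lit 0) (nat_lit 0) (XT.lf (nat_lit 0) (nat_lit 8769844779186) (nat_lit 152) (nat_lit 725231896233) (nat_lit 0) (nat_lit 8769710024653) (nat_lit 1) (nat_lit 5) (nat_lit 3) (nat_lit 4) (nat_lit 1) (nat_lit 4) (nat_lit 331) (nat_lit 230) (nat_lit 219)) (XT.lf (nat_lit 0) (nat_lit 710097886254) (nat_lit 152) (nat_lit 64286533893) (nat_lit 0) (nat_lit 710097886254) (nat_lit 1) (nat_lit 5) (nat_lit 3) (nat_lit 4) (nat_lit 1) (nat_lit 4) (nat_lit 318) (nat_lit 231) (nat_lit 231)))) (XT.nd (nat_lit 156) (nat_lit 0) (nat_lit 0) (XT.nd (nat_lit 78) (nat_lit 0) (nat_lit 0) (XT.lf (nat_lit 0) (nat_lit 1634447704254) (nat_lit 152) (nat_lit 145339314950) (nat_lit 0) (nat_lit 1634421956843) (nat_lit 1) (nat_lit 5) (nat_lit 3) (nat_lit 4) (nat_lit 1) (nat_lit 4) (nat_lit 319) (nat_lit 231) (nat_lit 230)) (XT.lf (nat_lit 0) (nat_lit 1880731015600) (nat_lit 152) (nat_lit 164834624997)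 (nat_lit 0) (nat_lit 1880682879135) (nat_lit 1) (nat_lit 5) (nat_lit 3) (nat_lit 4) (nat_lit 1) (nat_lit 4) (nat_lit 320) (nat_lit 231) (nat_lit 229))) (XT.nd (nat_lit 78) (nat_lit 0) (nat_lit 0) (XT.lf (nat_lit 0) (nat_lit 2163864293073) (nat_lit 152) (nat_lit 187440427906) (nat_lit 0) (nat_lit 2163796687866) (nat_lit 1) (nat_lit 5) (nat_lit 3) (nat_lit 4) (nat_lit 1) (nat_lit 4) (nat_lit 321) (nat_lit 231) (nat_lit 228)) (XT.lf (nat_lit 0) (nat_lit 2489387100796) (nat_lit 152) (nat_lit 213599011126) (nat_lit 0) (nat_lit 2489302566249) (nat_lit 1) (nat_lit 5) (nat_lit 3) (nat_lit 4) (nat_lit 1) (nat_lit 4) (nat_lit 322) (nat_lit 231) (nat_lit 227))))) (XT.nd (nat_lit 234) (nat_lit 0) (nat_lit 0) (XT.nd (nat_lit 78) (nat_lit 0) (nat_lit 0) (XT.lf (nat_lit 0) (nat_lit 2863668363270) (nat_lit 152) (nat_lit 243822173024) (nat_lit 0) (nat_lit 2863569107556) (nat_lit 1) (nat_lit 5) (nat_lit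 3) (nat_lit 4) (nat_lit 1) (nat_lit 4) (nat_lit 323) (nat_lit 231) (nat_lit 226)) (XT.nd (nat_lit 78) (nat_lit 0) (nat_lit 0) (XT.lf (nat_lit 0) (nat_lit 3294030974759) (nat_lit 152) (nat_lit 278701236333) (nat_lit 0) (nat_lit 3293918918031) (nat_lit 1) (nat_lit 5) (nat_lit 3) (nat_lit 4) (nat_lit 1) (nat_lit 4) (nat_lit 324) (nat_lit 231) (nat_lit 225)) (XT.lf (nat_lit 0) (nat_lit 3788895073314) (nat_lit 152) (nat_lit 318918617509) (nat_lit 0) (nat_lit 3788771885270) (nat_lit 1) (nat_lit 5) (nat_lit 3) (nat_lit 4) (nat_lit 1) (nat_lit 4) (nat_lit 325) (nat_lit 231) (nat_lit 224)))) (XT.nd (nat_lit 156) (nat_lit 0) (nat_lit 0) (XT.nd (nat_lit 78) (nat_lit 0) (nat_lit 0) (XT.lf (nat_lit 0) (nat_lit 4357942782603) (nat_lit 152) (nat_lit 365261178357) (nat_lit 0) (nat_lit 4357809915153) (nat_lit 1) (nat_lit 5) (nat_lit 3) (nat_lit 4) (nat_lit 1) (nat_lit 4) (nat_lit 326) (nat_lit 231) (nat_lit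 223)) (XT.lf (nat_lit 0) (nat_lit 5012307644765) (nat_lit 152) (nat_lit 418635621155) (nat_lit 0) (nat_lit 5012166360440) (nat_lit 1) (nat_lit 5) (nat_lit 3) (nat_lit 4) (nat_lit 1) (nat_lit 4) (nat_lit 327) (nat_lit 231) (nat_lit 222))) (XT.nd (nat_lit 78) (nat_lit 0) (nat_lit 0) (XT.lf (nat_lit 0) (nat_lit 5764792450579) (nat_lit 152) (nat_lit 480086228480) (nat_lit 0) (nat_lit 5764643847234) (nat_lit 1) (nat_lit 5) (nat_lit 3) (nat_lit 4) (nat_lit 1) (nat_lit 4) (nat_lit 328) (nat_lit 231) (nat_lit 221)) (XT.lf (nat_lit 0) (nat_lit 6630119728857) (nat_lit 152) (nat_lit 550815294821) (nat_lit 0) (nat_lit 6629964761145) (nat_lit 1) (nat_lit 5) (nat_lit 3) (nat_lit 4) (nat_lit 1) (nat_lit 4) (nat_lit 329) (nat_lit 231) (nat_lit 220))))))))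
noncomputable def xc1 : XT := (XT.nd (nat_lit 80730) (nat_lit 0) (nat_lit 0) (XT.nd (nat_lit 40404) (nat_lit 0) (nat_lit 0) (XT.nd (nat_lit 39858) (nat_lit 0) (nat_lit 0) (XT.nd (nat_lit 39624) (nat_lit 0) (nat_lit 0) (XT.nd (nat_lit 78) (nat_lit 0) (nat_lit 0) (XT.lf (nat_lit 0) (nat_lit 7625219795912) (nat_lit 152) (nat_lit 632206649740) (nat_lit 0) (nat_lit 7625059293969) (nat_lit 1) (nat_lit 5) (nat_lit 3) (nat_lit 4) (nat_lit 1) (nat_lit 4) (nat_lit 330) (nat_lit 231) (nat_lit 219)) (XT.nd (nat_lit 39468) (nat_lit 0) (nat_lit 0) (XT.lf (nat_lit 0) (nat_lit 8769562000882) (nat_lit 152) (nat_lit 725852732787) (nat_lit 0) (nat_lit 8769396686563) (nat_lit 1) (nat_lit 5) (nat_lit 3) (nat_lit 4) (nat_lit 1) (nat_lit 4) (nat_lit 331) (nat_lit 231) (nat_lit 218)) (XT.lf (nat_lit 0) (nat_lit 535829127614) (nat_lit 152) (nat_lit 50915442691) (nat_lit 0) (nat_lit 535829127614) (nat_lit 1) (nat_lit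 5) (nat_lit 3) (nat_lit 4) (nat_lit 1) (nat_lit 4) (nat_lit 316) (nat_lit 232) (nat_lit 232)))) (XT.nd (nat_lit 78) (nat_lit 0) (nat_lit 0) (XT.lf (nat_lit 0) (nat_lit 1233812944264) (nat_lit 152) (nat_lit 114207848235) (nat_lit 0) (nat_lit 1233783334741) (nat_lit 1) (nat_lit 5) (nat_lit 3) (nat_lit 4) (nat_lit 1) (nat_lit 4) (nat_lit 317) (nat_lit 232) (nat_lit 231)) (XT.nd (nat_lit 78) (nat_lit 0) (nat_lit 0) (XT.lf (nat_lit 0) (nat_lit 1420168464968) (nat_lit 152) (nat_lit 128687600195) (nat_lit 0) (nat_lit 1420113108033) (nat_lit 1) (nat_lit 5) (nat_lit 3) (nat_lit 4) (nat_lit 1) (nat_lit 4) (nat_lit 318) (nat_lit 232) (nat_lit 230)) (XT.lf (nat_lit 0) (nat_lit 1634370903615) (nat_lit 152) (nat_lit 145553440758) (nat_lit 0) (nat_lit 1634293157627) (nat_lit 1) (nat_lit 5) (nat_lit 3) (nat_lit 4) (nat_lit 1) (nat_lit 4) (nat_lit 319) (nat_lit 232) (nat_lit 229))))) (XT.nd (nat_lit 234)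 (nat_lit 0) (nat_lit 0) (XT.nd (nat_lit 78) (nat_lit 0) (nat_lit 0) (XT.lf (nat_lit 0) (nat_lit 1880611177484) (nat_lit 152) (nat_lit 165135353761) (nat_lit 0) (nat_lit 1880513962754) (nat_lit 1) (nat_lit 5) (nat_lit 3) (nat_lit 4) (nat_lit 1) (nat_lit 4) (nat_lit 320) (nat_lit 232) (nat_lit 228)) (XT.nd (nat_lit 78) (nat_lit 0) (nat_lit 0) (XT.lf (nat_lit 0) (nat_lit 2163707031064) (nat_lit 152) (nat_lit 187816463589) (nat_lit 0) (nat_lit 2163592886993) (nat_lit 1) (nat_lit 5) (nat_lit 3) (nat_lit 4) (nat_lit 1) (nat_lit 4) (nat_lit 321) (nat_lit 232) (nat_lit 227)) (XT.lf (nat_lit 0) (nat_lit 2489197296272) (nat_lit 152) (nat_lit 214040531086) (nat_lit 0) (nat_lit 2489068431035) (nat_lit 1) (nat_lit 5) (nat_lit 3) (nat_lit 4) (nat_lit 1) (nat_lit 4) (nat_lit 322) (nat_lit 232) (nat_lit 226)))) (XT.nd (nat_lit 156) (nat_lit 0) (nat_lit 0) (XT.nd (nat_lit 78) (nat_lit 0) (nat_lit 0) (XT.lf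 (nat_lit 0) (nat_lit 2863450260905) (nat_lit 152) (nat_lit 244320635833) (nat_lit 0) (nat_lit 2863308594655) (nat_lit 1) (nat_lit 5) (nat_lit 3) (nat_lit 4) (nat_lit 1) (nat_lit 4) (nat_lit 323) (nat_lit 232) (nat_lit 225)) (XT.lf (nat_lit 0) (nat_lit 3293788265577) (nat_lit 152) (nat_lit 279249214663) (nat_lit 0) (nat_lit 3293635468010) (nat_lit 1) (nat_lit 5) (nat_lit 3) (nat_lit 4) (nat_lit 1) (nat_lit 4) (nat_lit 324) (nat_lit 232) (nat_lit 224))) (XT.nd (nat_lit 78) (nat_lit 0) (nat_lit 0) (XT.lf (nat_lit 0) (nat_lit 3788630966900) (nat_lit 152) (nat_lit 319509652814) (nat_lit 0) (nat_lit 3788468489927) (nat_lit 1) (nat_lit 5) (nat_lit 3) (nat_lit 4) (nat_lit 1) (nat_lit 4) (nat_lit 325) (nat_lit 232) (nat_lit 223)) (XT.lf (nat_lit 0) (nat_lit 4357660069901) (nat_lit 152) (nat_lit 365889654510) (nat_lit 0) (nat_lit 4357489176053) (nat_lit 1) (nat_lit 5) (nat_lit 3) (nat_lit 4) (nat_lit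 1) (nat_lit 4) (nat_lit 326) (nat_lit 232) (nat_lit 222)))))) (XT.nd (nat_lit 39780) (nat_lit 0) (nat_lit 0) (XT.nd (nat_lit 234) (nat_lit 0) (nat_lit 0) (XT.nd (nat_lit 78) (nat_lit 0) (nat_lit 0) (XT.lf (nat_lit 0) (nat_lit 5012008752680) (nat_lit 152) (nat_lit 419296654567) (nat_lit 0) (nat_lit 5011830539811) (nat_lit 1) (nat_lit 5) (nat_lit 3) (nat_lit 4) (nat_lit 1) (nat_lit 4) (nat_lit 327) (nat_lit 232) (nat_lit 221)) (XT.nd (nat_lit 78) (nat_lit 0) (nat_lit 0) (XT.lf (nat_lit 0) (nat_lit 5764479489468) (nat_lit 152) (nat_lit 480775572551) (nat_lit 0) (nat_lit 5764294912232) (nat_lit 1) (nat_lit 5) (nat_lit 3) (nat_lit 4) (nat_lit 1) (nat_lit 4) (nat_lit 328) (nat_lit 232) (nat_lit 220)) (XT.lf (nat_lit 0) (nat_lit 6629794533808) (nat_lit 152) (nat_lit 551529256858) (nat_lit 0) (nat_lit 6629604422342) (nat_lit 1) (nat_lit 5) (nat_lit 3) (nat_lit 4) (nat_lit 1) (nat_lit 4) (nat_lit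 329) (nat_lit 232) (nat_lit 219)))) (XT.nd (nat_lit 39390) (nat_lit 0) (nat_lit 0) (XT.nd (nat_lit 78) (nat_lit 0) (nat_lit 0) (XT.lf (nat_lit 0) (nat_lit 7624883962657) (nat_lit 152) (nat_lit 632942018703) (nat_lit 0) (nat_lit 7624689038815) (nat_lit 1) (nat_lit 5) (nat_lit 3) (nat_lit 4) (nat_lit 1) (nat_lit 4) (nat_lit 330) (nat_lit 232) (nat_lit 218)) (XT.lf (nat_lit 0) (nat_lit 8769216917013) (nat_lit 152) (nat_lit 726606716468) (nat_lit 0) (nat_lit 8769017808497) (nat_lit 1) (nat_lit 5) (nat_lit 3) (nat_lit 4) (nat_lit 1) (nat_lit 4) (nat_lit 331) (nat_lit 232) (nat_lit 217))) (XT.nd (nat_lit 78) (nat_lit 0) (nat_lit 0) (XT.lf (nat_lit 0) (nat_lit 403890875526) (nat_lit 152) (nat_lit 41150814833) (nat_lit 0) (nat_lit 403890875526) (nat_lit 1) (nat_lit 5) (nat_lit 3) (nat_lit 4) (nat_lit 1) (nat_lit 4) (nat_lit 314) (nat_lit 233) (nat_lit 233)) (XT.lf (nat_lit 0) (nat_lit 930565857073)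 (nat_lit 152) (nat_lit 91314553669) (nat_lit 0) (nat_lit 930531806121) (nat_lit 1) (nat_lit 5) (nat_lit 3) (nat_lit 4) (nat_lit 1) (nat_lit 4) (nat_lit 315) (nat_lit 233) (nat_lit 232))))) (XT.nd (nat_lit 234) (nat_lit 0) (nat_lit 0) (XT.nd (nat_lit 78) (nat_lit 0) (nat_lit 0) (XT.lf (nat_lit 0) (nat_lit 1071626851558) (nat_lit 152) (nat_lit 101962597653) (nat_lit 0) (nat_lit 1071563191083) (nat_lit 1) (nat_lit 5) (nat_lit 3) (nat_lit 4) (nat_lit 1) (nat_lit 4) (nat_lit 316) (nat_lit 233) (nat_lit 231)) (XT.nd (nat_lit 78) (nat_lit 0) (nat_lit 0) (XT.lf (nat_lit 0) (nat_lit 1233724623529) (nat_lit 152) (nat_lit 114454092915) (nat_lit 0) (nat_lit 1233635215643) (nat_lit 1) (nat_lit 5) (nat_lit 3) (nat_lit 4) (nat_lit 1) (nat_lit 4) (nat_lit 317) (nat_lit 233) (nat_lit 230)) (XT.lf (nat_lit 0) (nat_lit 1420030651134) (nat_lit 152) (nat_lit 129033438275) (nat_lit 0) (nat_lit 1419918854195)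 (nat_lit 1) (nat_lit 5) (nat_lit 3) (nat_lit 4) (nat_lit 1) (nat_lit 4) (nat_lit 318) (nat_lit 233) (nat_lit 229)))) (XT.nd (nat_lit 156) (nat_lit 0) (nat_lit 0) (XT.nd (nat_lit 78) (nat_lit 0) (nat_lit 0) (XT.lf (nat_lit 0) (nat_lit 1634190052305) (nat_lit 152) (nat_lit 145985881794) (nat_lit 0) (nat_lit 1634058786624) (nat_lit 1) (nat_lit 5) (nat_lit 3) (nat_lit 4) (nat_lit 1) (nat_lit 4) (nat_lit 319) (nat_lit 233) (nat_lit 228)) (XT.lf (nat_lit 0) (nat_lit 1880392902281) (nat_lit 152) (nat_lit 165643101715) (nat_lit 0) (nat_lit 1880244707259) (nat_lit 1) (nat_lit 5) (nat_lit 3) (nat_lit 4) (nat_lit 1) (nat_lit 4) (nat_lit 320) (nat_lit 233) (nat_lit 227))) (XT.nd (nat_lit 78) (nat_lit 0) (nat_lit 0) (XT.lf (nat_lit 0) (nat_lit 2163456213345) (nat_lit 152) (nat_lit 188389695819) (nat_lit 0) (nat_lit 2163293297157) (nat_lit 1) (nat_lit 5) (nat_lit 3) (nat_lit 4) (nat_lit 1) (nat_lit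 4) (nat_lit 321) (nat_lit 233) (nat_lit 226)) (XT.lf (nat_lit 0) (nat_lit 2488918180713) (nat_lit 152) (nat_lit 214670706166) (nat_lit 0) (nat_lit 2488742463511) (nat_lit 1) (nat_lit 5) (nat_lit 3) (nat_lit 4) (nat_lit 1) (nat_lit 4) (nat_lit 322) (nat_lit 233) (nat_lit 225))))))) (XT.nd (nat_lit 40092) (nat_lit 0) (nat_lit 0) (XT.nd (nat_lit 468) (nat_lit 0) (nat_lit 0) (XT.nd (nat_lit 234) (nat_lit 0) (nat_lit 0) (XT.nd (nat_lit 78) (nat_lit 0) (nat_lit 0) (XT.lf (nat_lit 0) (nat_lit 2863146538530) (nat_lit 152) (nat_lit 245000326434) (nat_lit 0) (nat_lit 2862959690011) (nat_lit 1) (nat_lit 5) (nat_lit 3) (nat_lit 4) (nat_lit 1) (nat_lit 4) (nat_lit 323) (nat_lit 233) (nat_lit 224)) (XT.nd (nat_lit 78) (nat_lit 0) (nat_lit 0) (XT.lf (nat_lit 0) (nat_lit 3293463145969) (nat_lit 152) (nat_lit 279971962239) (nat_lit 0) (nat_lit 3293266618045) (nat_lit 1) (nat_lit 5) (nat_lit 3) (nat_lit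 4) (nat_lit 1) (nat_lit 4) (nat_lit 324) (nat_lit 233) (nat_lit 223)) (XT.lf (nat_lit 0) (nat_lit 3788287241003) (nat_lit 152) (nat_lit 320269841237) (nat_lit 0) (nat_lit 3788082296204) (nat_lit 1) (nat_lit 5) (nat_lit 3) (nat_lit 4) (nat_lit 1) (nat_lit 4) (nat_lit 325) (nat_lit 233) (nat_lit 222)))) (XT.nd (nat_lit 78) (nat_lit 0) (nat_lit 0) (XT.lf (nat_lit 0) (nat_lit 4357300164622) (nat_lit 152) (nat_lit 366682400192) (nat_lit 0) (nat_lit 4357087900802) (nat_lit 1) (nat_lit 5) (nat_lit 3) (nat_lit 4) (nat_lit 1) (nat_lit 4) (nat_lit 326) (nat_lit 233) (nat_lit 221)) (XT.nd (nat_lit 78) (nat_lit 0) (nat_lit 0) (XT.lf (nat_lit 0) (nat_lit 5011634778374) (nat_lit 152) (nat_lit 420117710909) (nat_lit 0) (nat_lit 5011416150187) (nat_lit 1) (nat_lit 5) (nat_lit 3) (nat_lit 4) (nat_lit 1) (nat_lit 4) (nat_lit 327) (nat_lit 233) (nat_lit 220)) (XT.lf (nat_lit 0) (nat_lit 5764093281224) (nat_lit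 152) (nat_lit 481621246859) (nat_lit 0) (nat_lit 5763869118806) (nat_lit 1) (nat_lit 5) (nat_lit 3) (nat_lit 4) (nat_lit 1) (nat_lit 4) (nat_lit 328) (nat_lit 233) (nat_lit 219))))) (XT.nd (nat_lit 39312) (nat_lit 0) (nat_lit 0) (XT.nd (nat_lit 78) (nat_lit 0) (nat_lit 0) (XT.lf (nat_lit 0) (nat_lit 6629397687359) (nat_lit 152) (nat_lit 552396338092) (nat_lit 0) (nat_lit 6629168712565) (nat_lit 1) (nat_lit 5) (nat_lit 3) (nat_lit 4) (nat_lit 1) (nat_lit 4) (nat_lit 329) (nat_lit 233) (nat_lit 218)) (XT.nd (nat_lit 78) (nat_lit 0) (nat_lit 0) (XT.lf (nat_lit 0) (nat_lit 7624477865594) (nat_lit 152) (nat_lit 633827714655) (nat_lit 0) (nat_lit 7624244706126) (nat_lit 1) (nat_lit 5) (nat_lit 3) (nat_lit 4) (nat_lit 1) (nat_lit 4) (nat_lit 330) (nat_lit 233) (nat_lit 217)) (XT.lf (nat_lit 0) (nat_lit 8768802775938) (nat_lit 152) (nat_lit 727508599132) (nat_lit 0) (nat_lit 8768565977623) (nat_lit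 1) (nat_lit 5) (nat_lit 3) (nat_lit 4) (nat_lit 1) (nat_lit 4) (nat_lit 331) (nat_lit 233) (nat_lit 216)))) (XT.nd (nat_lit 156) (nat_lit 0) (nat_lit 0) (XT.nd (nat_lit 78) (nat_lit 0) (nat_lit 0) (XT.lf (nat_lit 0) (nat_lit 303935662824) (nat_lit 152) (nat_lit 34165067106) (nat_lit 0) (nat_lit 303935662824) (nat_lit 1) (nat_lit 5) (nat_lit 3) (nat_lit 4) (nat_lit 1) (nat_lit 4) (nat_lit 312) (nat_lit 234) (nat_lit 234)) (XT.lf (nat_lit 0) (nat_lit 700911394363) (nat_lit 152) (nat_lit 74747485829) (nat_lit 0) (nat_lit 700872235769) (nat_lit 1) (nat_lit 5) (nat_lit 3) (nat_lit 4) (nat_lit 1) (nat_lit 4) (nat_lit 313) (nat_lit 234) (nat_lit 233))) (XT.nd (nat_lit 78) (nat_lit 0) (nat_lit 0) (XT.lf (nat_lit 0) (nat_lit 807745636830) (nat_lit 152) (nat_lit 82453098778) (nat_lit 0) (nat_lit 807672427284) (nat_lit 1) (nat_lit 5) (nat_lit 3) (nat_lit 4) (nat_lit 1) (nat_lit 4) (nat_lit 314) (nat_lit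 234) (nat_lit 232)) (XT.lf (nat_lit 0) (nat_lit 930464288228) (nat_lit 152) (nat_lit 91597735050) (nat_lit 0) (nat_lit 930361469159) (nat_lit 1) (nat_lit 5) (nat_lit 3) (nat_lit 4) (nat_lit 1) (nat_lit 4) (nat_lit 315) (nat_lit 234) (nat_lit 231)))))) (XT.nd (nat_lit 546) (nat_lit 0) (nat_lit 0) (XT.nd (nat_lit 234) (nat_lit 0) (nat_lit 0) (XT.nd (nat_lit 78) (nat_lit 0) (nat_lit 0) (XT.lf (nat_lit 0) (nat_lit 1071468365649) (nat_lit 152) (nat_lit 102360311444) (nat_lit 0) (nat_lit 1071339799169) (nat_lit 1) (nat_lit 5) (nat_lit 3) (nat_lit 4) (nat_lit 1) (nat_lit 4) (nat_lit 316) (nat_lit 234) (nat_lit 230)) (XT.nd (nat_lit 78) (nat_lit 0) (nat_lit 0) (XT.lf (nat_lit 0) (nat_lit 1233516644522) (nat_lit 152) (nat_lit 114951400105) (nat_lit 0) (nat_lit 1233365688989) (nat_lit 1) (nat_lit 5) (nat_lit 3) (nat_lit 4) (nat_lit 1) (nat_lit 4) (nat_lit 317) (nat_lit 234) (nat_lit 229)) (XT.lf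 (nat_lit 0) (nat_lit 1419779634651) (nat_lit 152) (nat_lit 129617348421) (nat_lit 0) (nat_lit 1419609210375) (nat_lit 1) (nat_lit 5) (nat_lit 3) (nat_lit 4) (nat_lit 1) (nat_lit 4) (nat_lit 318) (nat_lit 234) (nat_lit 228)))) (XT.nd (nat_lit 156) (nat_lit 0) (nat_lit 0) (XT.nd (nat_lit 78) (nat_lit 0) (nat_lit 0) (XT.lf (nat_lit 0) (nat_lit 1633901611928) (nat_lit 152) (nat_lit 146645098859) (nat_lit 0) (nat_lit 1633714258312) (nat_lit 1) (nat_lit 5) (nat_lit 3) (nat_lit 4) (nat_lit 1) (nat_lit 4) (nat_lit 319) (nat_lit 234) (nat_lit 227)) (XT.lf (nat_lit 0) (nat_lit 1880071919389) (nat_lit 152) (nat_lit 166367803057) (nat_lit 0) (nat_lit 1879869844606) (nat_lit 1) (nat_lit 5) (nat_lit 3) (nat_lit 4) (nat_lit 1) (nat_lit 4) (nat_lit 320) (nat_lit 234) (nat_lit 226))) (XT.nd (nat_lit 78) (nat_lit 0) (nat_lit 0) (XT.lf (nat_lit 0) (nat_lit 2163106932613) (nat_lit 152) (nat_lit 189171340010)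 (nat_lit 0) (nat_lit 2162892056816) (nat_lit 1) (nat_lit 5) (nat_lit 3) (nat_lit 4) (nat_lit 1) (nat_lit 4) (nat_lit 321) (nat_lit 234) (nat_lit 225)) (XT.lf (nat_lit 0) (nat_lit 2488544293164) (nat_lit 152) (nat_lit 215501865878) (nat_lit 0) (nat_lit 2488318286051) (nat_lit 1) (nat_lit 5) (nat_lit 3) (nat_lit 4) (nat_lit 1) (nat_lit 4) (nat_lit 322) (nat_lit 234) (nat_lit 224))))) (XT.nd (nat_lit 234) (nat_lit 0) (nat_lit 0) (XT.nd (nat_lit 78) (nat_lit 0) (nat_lit 0) (XT.lf (nat_lit 0) (nat_lit 2862751253748) (nat_lit 152) (nat_lit 245874543121) (nat_lit 0) (nat_lit 2862515567229) (nat_lit 1) (nat_lit 5) (nat_lit 3) (nat_lit 4) (nat_lit 1) (nat_lit 4) (nat_lit 323) (nat_lit 234) (nat_lit 223)) (XT.nd (nat_lit 78) (nat_lit 0) (nat_lit 0) (XT.lf (nat_lit 0) (nat_lit 3293049254899) (nat_lit 152) (nat_lit 280883619774) (nat_lit 0) (nat_lit 3292805151505) (nat_lit 1) (nat_lit 5) (nat_lit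 3) (nat_lit 4) (nat_lit 1) (nat_lit 4) (nat_lit 324) (nat_lit 234) (nat_lit 222)) (XT.lf (nat_lit 0) (nat_lit 3787857170551) (nat_lit 152) (nat_lit 321214056031) (nat_lit 0) (nat_lit 3787605748137) (nat_lit 1) (nat_lit 5) (nat_lit 3) (nat_lit 4) (nat_lit 1) (nat_lit 4) (nat_lit 325) (nat_lit 234) (nat_lit 221)))) (XT.nd (nat_lit 156) (nat_lit 0) (nat_lit 0) (XT.nd (nat_lit 78) (nat_lit 0) (nat_lit 0) (XT.lf (nat_lit 0) (nat_lit 4356856025142) (nat_lit 152) (nat_lit 367654925646) (nat_lit 0) (nat_lit 4356598238361) (nat_lit 1) (nat_lit 5) (nat_lit 3) (nat_lit 4) (nat_lit 1) (nat_lit 4) (nat_lit 326) (nat_lit 234) (nat_lit 220)) (XT.lf (nat_lit 0) (nat_lit 5011178404957) (nat_lit 152) (nat_lit 421114854328) (nat_lit 0) (nat_lit 5010915083945) (nat_lit 1) (nat_lit 5) (nat_lit 3) (nat_lit 4) (nat_lit 1) (nat_lit 4) (nat_lit 327) (nat_lit 234) (nat_lit 219))) (XT.nd (nat_lit 78) (nat_lit 0)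 (nat_lit 0) (XT.lf (nat_lit 0) (nat_lit 5763626269601) (nat_lit 152) (nat_lit 482639797203) (nat_lit 0) (nat_lit 5763358136214) (nat_lit 1) (nat_lit 5) (nat_lit 3) (nat_lit 4) (nat_lit 1) (nat_lit 4) (nat_lit 328) (nat_lit 234) (nat_lit 218)) (XT.lf (nat_lit 0) (nat_lit 6628921425122) (nat_lit 152) (nat_lit 553433503155) (nat_lit 0) (nat_lit 6628649107060) (nat_lit 1) (nat_lit 5) (nat_lit 3) (nat_lit 4) (nat_lit 1) (nat_lit 4) (nat_lit 329) (nat_lit 234) (nat_lit 217))))))))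
noncomputable def xc2 : XT := (XT.nd (nat_lit 79794) (nat_lit 0) (nat_lit 0) (XT.nd (nat_lit 39936) (nat_lit 0) (nat_lit 0) (XT.nd (nat_lit 39390) (nat_lit 0) (nat_lit 0) (XT.nd (nat_lit 39156) (nat_lit 0) (nat_lit 0) (XT.nd (nat_lit 78) (nat_lit 0) (nat_lit 0) (XT.lf (nat_lit 0) (nat_lit 7623993559345) (nat_lit 152) (nat_lit 634881066430) (nat_lit 0) (nat_lit 7623717602436) (nat_lit 1) (nat_lit 5) (nat_lit 3) (nat_lit 4) (nat_lit 1) (nat_lit 4) (nat_lit 330) (nat_lit 234) (nat_lit 216)) (XT.nd (nat_lit 39000) (nat_lit 0) (nat_lit 0) (XT.lf (nat_lit 0) (nat_lit 8768311474895) (nat_lit 152) (nat_lit 728576026309) (nat_lit 0) (nat_lit 8768032353772) (nat_lit 1) (nat_lit 5) (nat_lit 3) (nat_lit 4) (nat_lit 1) (nat_lit 4) (nat_lit 331) (nat_lit 234) (nat_lit 215)) (XT.lf (nat_lit 0) (nat_lit 228135581978) (nat_lit 152) (nat_lit 29340209061) (nat_lit 0) (nat_lit 228135581978) (nat_lit 1) (nat_lit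 5) (nat_lit 3) (nat_lit 4) (nat_lit 1) (nat_lit 4) (nat_lit 310) (nat_lit 235) (nat_lit 235)))) (XT.nd (nat_lit 78) (nat_lit 0) (nat_lit 0) (XT.lf (nat_lit 0) (nat_lit 526850113899) (nat_lit 152) (nat_lit 63075487048) (nat_lit 0) (nat_lit 526805081515) (nat_lit 1) (nat_lit 5) (nat_lit 3) (nat_lit 4) (nat_lit 1) (nat_lit 4) (nat_lit 311) (nat_lit 235) (nat_lit 234)) (XT.nd (nat_lit 78) (nat_lit 0) (nat_lit 0) (XT.lf (nat_lit 0) (nat_lit 607829794293) (nat_lit 152) (nat_lit 68504323690) (nat_lit 0) (nat_lit 607745603315) (nat_lit 1) (nat_lit 5) (nat_lit 3) (nat_lit 4) (nat_lit 1) (nat_lit 4) (nat_lit 312) (nat_lit 235) (nat_lit 233)) (XT.lf (nat_lit 0) (nat_lit 700794590191) (nat_lit 152) (nat_lit 75073144418) (nat_lit 0) (nat_lit 700676348262) (nat_lit 1) (nat_lit 5) (nat_lit 3) (nat_lit 4) (nat_lit 1) (nat_lit 4) (nat_lit 313) (nat_lit 235) (nat_lit 232))))) (XT.nd (nat_lit 234) (nat_lit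 0) (nat_lit 0) (XT.nd (nat_lit 78) (nat_lit 0) (nat_lit 0) (XT.lf (nat_lit 0) (nat_lit 807563378036) (nat_lit 152) (nat_lit 82910469638) (nat_lit 0) (nat_lit 807415526583) (nat_lit 1) (nat_lit 5) (nat_lit 3) (nat_lit 4) (nat_lit 1) (nat_lit 4) (nat_lit 314) (nat_lit 235) (nat_lit 231)) (XT.nd (nat_lit 78) (nat_lit 0) (nat_lit 0) (XT.lf (nat_lit 0) (nat_lit 930225112370) (nat_lit 152) (nat_lit 92169638320) (nat_lit 0) (nat_lit 930051513506) (nat_lit 1) (nat_lit 5) (nat_lit 3) (nat_lit 4) (nat_lit 1) (nat_lit 4) (nat_lit 315) (nat_lit 235) (nat_lit 230)) (XT.lf (nat_lit 0) (nat_lit 1071179696693) (nat_lit 152) (nat_lit 103031808113) (nat_lit 0) (nat_lit 1070983708776) (nat_lit 1) (nat_lit 5) (nat_lit 3) (nat_lit 4) (nat_lit 1) (nat_lit 4) (nat_lit 316) (nat_lit 235) (nat_lit 229)))) (XT.nd (nat_lit 156) (nat_lit 0) (nat_lit 0) (XT.nd (nat_lit 78) (nat_lit 0) (nat_lit 0) (XT.lf (nat_lit 0)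 (nat_lit 1233184938089) (nat_lit 152) (nat_lit 115709499730) (nat_lit 0) (nat_lit 1232969481430) (nat_lit 1) (nat_lit 5) (nat_lit 3) (nat_lit 4) (nat_lit 1) (nat_lit 4) (nat_lit 317) (nat_lit 235) (nat_lit 228)) (XT.lf (nat_lit 0) (nat_lit 1419410504325) (nat_lit 152) (nat_lit 130450754964) (nat_lit 0) (nat_lit 1419178118324) (nat_lit 1) (nat_lit 5) (nat_lit 3) (nat_lit 4) (nat_lit 1) (nat_lit 4) (nat_lit 318) (nat_lit 235) (nat_lit 227))) (XT.nd (nat_lit 78) (nat_lit 0) (nat_lit 0) (XT.lf (nat_lit 0) (nat_lit 1633499939087) (nat_lit 152) (nat_lit 147543989678) (nat_lit 0) (nat_lit 1633252831920) (nat_lit 1) (nat_lit 5) (nat_lit 3) (nat_lit 4) (nat_lit 1) (nat_lit 4) (nat_lit 319) (nat_lit 235) (nat_lit 226)) (XT.lf (nat_lit 0) (nat_lit 1879641948707) (nat_lit 152) (nat_lit 167323636725) (nat_lit 0) (nat_lit 1879382040527) (nat_lit 1) (nat_lit 5) (nat_lit 3) (nat_lit 4) (nat_lit 1) (nat_lit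 4) (nat_lit 320) (nat_lit 235) (nat_lit 225)))))) (XT.nd (nat_lit 546) (nat_lit 0) (nat_lit 0) (XT.nd (nat_lit 234) (nat_lit 0) (nat_lit 0) (XT.nd (nat_lit 78) (nat_lit 0) (nat_lit 0) (XT.lf (nat_lit 0) (nat_lit 2162652355114) (nat_lit 152) (nat_lit 190176689200) (nat_lit 0) (nat_lit 2162381315618) (nat_lit 1) (nat_lit 5) (nat_lit 3) (nat_lit 4) (nat_lit 1) (nat_lit 4) (nat_lit 321) (nat_lit 235) (nat_lit 224)) (XT.nd (nat_lit 78) (nat_lit 0) (nat_lit 0) (XT.lf (nat_lit 0) (nat_lit 2488068318433) (nat_lit 152) (nat_lit 216550272043) (nat_lit 0) (nat_lit 2487787599531) (nat_lit 1) (nat_lit 5) (nat_lit 3) (nat_lit 4) (nat_lit 1) (nat_lit 4) (nat_lit 322) (nat_lit 235) (nat_lit 223)) (XT.lf (nat_lit 0) (nat_lit 2862256672728) (nat_lit 152) (nat_lit 246960390134) (nat_lit 0) (nat_lit 2861967536951) (nat_lit 1) (nat_lit 5) (nat_lit 3) (nat_lit 4) (nat_lit 1) (nat_lit 4) (nat_lit 323) (nat_lit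 235) (nat_lit 222)))) (XT.nd (nat_lit 156) (nat_lit 0) (nat_lit 0) (XT.nd (nat_lit 78) (nat_lit 0) (nat_lit 0) (XT.lf (nat_lit 0) (nat_lit 3292538494497) (nat_lit 152) (nat_lit 282002024045) (nat_lit 0) (nat_lit 3292242039699) (nat_lit 1) (nat_lit 5) (nat_lit 3) (nat_lit 4) (nat_lit 1) (nat_lit 4) (nat_lit 324) (nat_lit 235) (nat_lit 221)) (XT.lf (nat_lit 0) (nat_lit 3787332341122) (nat_lit 152) (nat_lit 322360770963) (nat_lit 0) (nat_lit 3787029521958) (nat_lit 1) (nat_lit 5) (nat_lit 3) (nat_lit 4) (nat_lit 1) (nat_lit 4) (nat_lit 325) (nat_lit 235) (nat_lit 220))) (XT.nd (nat_lit 78) (nat_lit 0) (nat_lit 0) (XT.lf (nat_lit 0) (nat_lit 4356318961776) (nat_lit 152) (nat_lit 368826258542) (nat_lit 0) (nat_lit 4356010608380) (nat_lit 1) (nat_lit 5) (nat_lit 3) (nat_lit 4) (nat_lit 1) (nat_lit 4) (nat_lit 326) (nat_lit 235) (nat_lit 219)) (XT.lf (nat_lit 0) (nat_lit 5010630703385) (nat_lit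 152) (nat_lit 422307594151) (nat_lit 0) (nat_lit 5010317537614) (nat_lit 1) (nat_lit 5) (nat_lit 3) (nat_lit 4) (nat_lit 1) (nat_lit 4) (nat_lit 327) (nat_lit 235) (nat_lit 218))))) (XT.nd (nat_lit 234) (nat_lit 0) (nat_lit 0) (XT.nd (nat_lit 78) (nat_lit 0) (nat_lit 0) (XT.lf (nat_lit 0) (nat_lit 5763069317415) (nat_lit 152) (nat_lit 483851151745) (nat_lit 0) (nat_lit 5762751966970) (nat_lit 1) (nat_lit 5) (nat_lit 3) (nat_lit 4) (nat_lit 1) (nat_lit 4) (nat_lit 328) (nat_lit 235) (nat_lit 217)) (XT.nd (nat_lit 78) (nat_lit 0) (nat_lit 0) (XT.lf (nat_lit 0) (nat_lit 6628356428924) (nat_lit 152) (nat_lit 554661044408) (nat_lit 0) (nat_lit 6628035439631) (nat_lit 1) (nat_lit 5) (nat_lit 3) (nat_lit 4) (nat_lit 1) (nat_lit 4) (nat_lit 329) (nat_lit 235) (nat_lit 216)) (XT.lf (nat_lit 0) (nat_lit 7623421568353) (nat_lit 152) (nat_lit 636122683084) (nat_lit 0) (nat_lit 7623097414846) (nat_lit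 1) (nat_lit 5) (nat_lit 3) (nat_lit 4) (nat_lit 1) (nat_lit 4) (nat_lit 330) (nat_lit 235) (nat_lit 215)))) (XT.nd (nat_lit 38922) (nat_lit 0) (nat_lit 0) (XT.nd (nat_lit 38844) (nat_lit 0) (nat_lit 0) (XT.lf (nat_lit 0) (nat_lit 8767733401475) (nat_lit 152) (nat_lit 729829882443) (nat_lit 0) (nat_lit 8767406496476) (nat_lit 1) (nat_lit 5) (nat_lit 3) (nat_lit 4) (nat_lit 1) (nat_lit 4) (nat_lit 331) (nat_lit 235) (nat_lit 214)) (XT.lf (nat_lit 0) (nat_lit 170567314157) (nat_lit 152) (nat_lit 26217899693) (nat_lit 0) (nat_lit 170567314157) (nat_lit 1) (nat_lit 5) (nat_lit 3) (nat_lit 4) (nat_lit 1) (nat_lit 4) (nat_lit 308) (nat_lit 236) (nat_lit 236))) (XT.nd (nat_lit 78) (nat_lit 0) (nat_lit 0) (XT.lf (nat_lit 0) (nat_lit 394763839211) (nat_lit 152) (nat_lit 55233126434) (nat_lit 0) (nat_lit 394712051970) (nat_lit 1) (nat_lit 5) (nat_lit 3) (nat_lit 4) (nat_lit 1) (nat_lit 4) (nat_lit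 309) (nat_lit 236) (nat_lit 235)) (XT.lf (nat_lit 0) (nat_lit 456223402899) (nat_lit 152) (nat_lit 58880736022) (nat_lit 0) (nat_lit 456126583274) (nat_lit 1) (nat_lit 5) (nat_lit 3) (nat_lit 4) (nat_lit 1) (nat_lit 4) (nat_lit 310) (nat_lit 236) (nat_lit 234))))))) (XT.nd (nat_lit 1014) (nat_lit 0) (nat_lit 0) (XT.nd (nat_lit 468) (nat_lit 0) (nat_lit 0) (XT.nd (nat_lit 234) (nat_lit 0) (nat_lit 0) (XT.nd (nat_lit 78) (nat_lit 0) (nat_lit 0) (XT.lf (nat_lit 0) (nat_lit 526715789101) (nat_lit 152) (nat_lit 63449994426) (nat_lit 0) (nat_lit 526579810883) (nat_lit 1) (nat_lit 5) (nat_lit 3) (nat_lit 4) (nat_lit 1) (nat_lit 4) (nat_lit 311) (nat_lit 236) (nat_lit 233)) (XT.nd (nat_lit 78) (nat_lit 0) (nat_lit 0) (XT.lf (nat_lit 0) (nat_lit 607620196679) (nat_lit 152) (nat_lit 69030300179) (nat_lit 0) (nat_lit 607450167509) (nat_lit 1) (nat_lit 5) (nat_lit 3) (nat_lit 4) (nat_lit 1) (nat_lit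 4) (nat_lit 312) (nat_lit 236) (nat_lit 232)) (XT.lf (nat_lit 0) (nat_lit 700519537955) (nat_lit 152) (nat_lit 75730833178) (nat_lit 0) (nat_lit 700319899262) (nat_lit 1) (nat_lit 5) (nat_lit 3) (nat_lit 4) (nat_lit 1) (nat_lit 4) (nat_lit 313) (nat_lit 236) (nat_lit 231)))) (XT.nd (nat_lit 78) (nat_lit 0) (nat_lit 0) (XT.lf (nat_lit 0) (nat_lit 807231408736) (nat_lit 152) (nat_lit 83682690806) (nat_lit 0) (nat_lit 807006022631) (nat_lit 1) (nat_lit 5) (nat_lit 3) (nat_lit 4) (nat_lit 1) (nat_lit 4) (nat_lit 314) (nat_lit 236) (nat_lit 230)) (XT.nd (nat_lit 78) (nat_lit 0) (nat_lit 0) (XT.lf (nat_lit 0) (nat_lit 929843649972) (nat_lit 152) (nat_lit 93041452888) (nat_lit 0) (nat_lit 929595874814) (nat_lit 1) (nat_lit 5) (nat_lit 3) (nat_lit 4) (nat_lit 1) (nat_lit 4) (nat_lit 315) (nat_lit 236) (nat_lit 229)) (XT.lf (nat_lit 0) (nat_lit 1070755196818) (nat_lit 152) (nat_lit 103990225637)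 (nat_lit 0) (nat_lit 1070487952918) (nat_lit 1) (nat_lit 5) (nat_lit 3) (nat_lit 4) (nat_lit 1) (nat_lit 4) (nat_lit 316) (nat_lit 236) (nat_lit 228))))) (XT.nd (nat_lit 234) (nat_lit 0) (nat_lit 0) (XT.nd (nat_lit 78) (nat_lit 0) (nat_lit 0) (XT.lf (nat_lit 0) (nat_lit 1232723014321) (nat_lit 152) (nat_lit 116743224172) (nat_lit 0) (nat_lit 1232438841080) (nat_lit 1) (nat_lit 5) (nat_lit 3) (nat_lit 4) (nat_lit 1) (nat_lit 4) (nat_lit 317) (nat_lit 236) (nat_lit 227)) (XT.nd (nat_lit 78) (nat_lit 0) (nat_lit 0) (XT.lf (nat_lit 0) (nat_lit 1418916038041) (nat_lit 152) (nat_lit 131549963683) (nat_lit 0) (nat_lit 1418617143634) (nat_lit 1) (nat_lit 5) (nat_lit 3) (nat_lit 4) (nat_lit 1) (nat_lit 4) (nat_lit 318) (nat_lit 236) (nat_lit 226)) (XT.lf (nat_lit 0) (nat_lit 1632977174963) (nat_lit 152) (nat_lit 148700141247) (nat_lit 0) (nat_lit 1632665479542) (nat_lit 1) (nat_lit 5) (nat_lit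 3) (nat_lit 4) (nat_lit 1) (nat_lit 4) (nat_lit 319) (nat_lit 236) (nat_lit 225)))) (XT.nd (nat_lit 156) (nat_lit 0) (nat_lit 0) (XT.nd (nat_lit 78) (nat_lit 0) (nat_lit 0) (XT.lf (nat_lit 0) (nat_lit 1879094577767) (nat_lit 152) (nat_lit 168529303815) (nat_lit 0) (nat_lit 1878771751029) (nat_lit 1) (nat_lit 5) (nat_lit 3) (nat_lit 4) (nat_lit 1) (nat_lit 4) (nat_lit 320) (nat_lit 236) (nat_lit 224)) (XT.lf (nat_lit 0) (nat_lit 2162083586941) (nat_lit 152) (nat_lit 191425413265) (nat_lit 0) (nat_lit 2161751080798) (nat_lit 1) (nat_lit 5) (nat_lit 3) (nat_lit 4) (nat_lit 1) (nat_lit 4) (nat_lit 321) (nat_lit 236) (nat_lit 223))) (XT.nd (nat_lit 78) (nat_lit 0) (nat_lit 0) (XT.lf (nat_lit 0) (nat_lit 2487480943971) (nat_lit 152) (nat_lit 217836436955) (nat_lit 0) (nat_lit 2487140020953) (nat_lit 1) (nat_lit 5) (nat_lit 3) (nat_lit 4) (nat_lit 1) (nat_lit 4) (nat_lit 322) (nat_lit 236) (nat_lit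 222)) (XT.lf (nat_lit 0) (nat_lit 2861653118885) (nat_lit 152) (nat_lit 248279112305) (nat_lit 0) (nat_lit 2861304876846) (nat_lit 1) (nat_lit 5) (nat_lit 3) (nat_lit 4) (nat_lit 1) (nat_lit 4) (nat_lit 323) (nat_lit 236) (nat_lit 221)))))) (XT.nd (nat_lit 546) (nat_lit 0) (nat_lit 0) (XT.nd (nat_lit 234) (nat_lit 0) (nat_lit 0) (XT.nd (nat_lit 78) (nat_lit 0) (nat_lit 0) (XT.lf (nat_lit 0) (nat_lit 3291920871626) (nat_lit 152) (nat_lit 283349056877) (nat_lit 0) (nat_lit 3291566265220) (nat_lit 1) (nat_lit 5) (nat_lit 3) (nat_lit 4) (nat_lit 1) (nat_lit 4) (nat_lit 324) (nat_lit 236) (nat_lit 220)) (XT.nd (nat_lit 78) (nat_lit 0) (nat_lit 0) (XT.lf (nat_lit 0) (nat_lit 3786702484314) (nat_lit 152) (nat_lit 323732421759) (nat_lit 0) (nat_lit 3786342343677) (nat_lit 1) (nat_lit 5) (nat_lit 3) (nat_lit 4) (nat_lit 1) (nat_lit 4) (nat_lit 325) (nat_lit 236) (nat_lit 219)) (XT.lf (nat_lit 0)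 (nat_lit 4355678466762) (nat_lit 152) (nat_lit 370219316265) (nat_lit 0) (nat_lit 4355313513749) (nat_lit 1) (nat_lit 5) (nat_lit 3) (nat_lit 4) (nat_lit 1) (nat_lit 4) (nat_lit 326) (nat_lit 236) (nat_lit 218)))) (XT.nd (nat_lit 156) (nat_lit 0) (nat_lit 0) (XT.nd (nat_lit 78) (nat_lit 0) (nat_lit 0) (XT.lf (nat_lit 0) (nat_lit 5009980957756) (nat_lit 152) (nat_lit 423719266592) (nat_lit 0) (nat_lit 5009611820070) (nat_lit 1) (nat_lit 5) (nat_lit 3) (nat_lit 4) (nat_lit 1) (nat_lit 4) (nat_lit 327) (nat_lit 236) (nat_lit 217)) (XT.lf (nat_lit 0) (nat_lit 5762411527775) (nat_lit 152) (nat_lit 485279010898) (nat_lit 0) (nat_lit 5762038751241) (nat_lit 1) (nat_lit 5) (nat_lit 3) (nat_lit 4) (nat_lit 1) (nat_lit 4) (nat_lit 328) (nat_lit 236) (nat_lit 216))) (XT.nd (nat_lit 78) (nat_lit 0) (nat_lit 0) (XT.lf (nat_lit 0) (nat_lit 6627691644490) (nat_lit 152) (nat_lit 556102978962) (nat_lit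 0) (nat_lit 6627315703741) (nat_lit 1) (nat_lit 5) (nat_lit 3) (nat_lit 4) (nat_lit 1) (nat_lit 4) (nat_lit 329) (nat_lit 236) (nat_lit 215)) (XT.lf (nat_lit 0) (nat_lit 7622750701490) (nat_lit 152) (nat_lit 637576857118) (nat_lit 0) (nat_lit 7622372009251) (nat_lit 1) (nat_lit 5) (nat_lit 3) (nat_lit 4) (nat_lit 1) (nat_lit 4) (nat_lit 330) (nat_lit 236) (nat_lit 214))))) (XT.nd (nat_lit 38844) (nat_lit 0) (nat_lit 0) (XT.nd (nat_lit 38688) (nat_lit 0) (nat_lit 0) (XT.lf (nat_lit 0) (nat_lit 8767057245544) (nat_lit 152) (nat_lit 731294699502) (nat_lit 0) (nat_lit 8766676160703) (nat_lit 1) (nat_lit 5) (nat_lit 3) (nat_lit 4) (nat_lit 1) (nat_lit 4) (nat_lit 331) (nat_lit 236) (nat_lit 213)) (XT.nd (nat_lit 78) (nat_lit 0) (nat_lit 0) (XT.lf (nat_lit 0) (nat_lit 126747038790) (nat_lit 152) (nat_lit 24461858200) (nat_lit 0) (nat_lit 126747038790) (nat_lit 1) (nat_lit 5) (nat_lit 3) (nat_lit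 4) (nat_lit 1) (nat_lit 4) (nat_lit 306) (nat_lit 237) (nat_lit 237)) (XT.lf (nat_lit 0) (nat_lit 294346058366) (nat_lit 152) (nat_lit 50434024570) (nat_lit 0) (nat_lit 294286503038) (nat_lit 1) (nat_lit 5) (nat_lit 3) (nat_lit 4) (nat_lit 1) (nat_lit 4) (nat_lit 307) (nat_lit 237) (nat_lit 236)))) (XT.nd (nat_lit 156) (nat_lit 0) (nat_lit 0) (XT.nd (nat_lit 78) (nat_lit 0) (nat_lit 0) (XT.lf (nat_lit 0) (nat_lit 341079703097) (nat_lit 152) (nat_lit 52666164971) (nat_lit 0) (nat_lit 340968360529) (nat_lit 1) (nat_lit 5) (nat_lit 3) (nat_lit 4) (nat_lit 1) (nat_lit 4) (nat_lit 308) (nat_lit 237) (nat_lit 235)) (XT.lf (nat_lit 0) (nat_lit 394609365695) (nat_lit 152) (nat_lit 55663809918) (nat_lit 0) (nat_lit 394452990743) (nat_lit 1) (nat_lit 5) (nat_lit 3) (nat_lit 4) (nat_lit 1) (nat_lit 4) (nat_lit 309) (nat_lit 237) (nat_lit 234))) (XT.nd (nat_lit 78) (nat_lit 0) (nat_lit 0) (XT.lf (nat_lit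 0) (nat_lit 455982365643) (nat_lit 152) (nat_lit 59485608984) (nat_lit 0) (nat_lit 455786832098) (nat_lit 1) (nat_lit 5) (nat_lit 3) (nat_lit 4) (nat_lit 1) (nat_lit 4) (nat_lit 310) (nat_lit 237) (nat_lit 233)) (XT.lf (nat_lit 0) (nat_lit 526399479030) (nat_lit 152) (nat_lit 64206336499) (nat_lit 0) (nat_lit 526169894532) (nat_lit 1) (nat_lit 5) (nat_lit 3) (nat_lit 4) (nat_lit 1) (nat_lit 4) (nat_lit 311) (nat_lit 237) (nat_lit 232))))))))
noncomputable def xc3 : XT := (XT.nd (nat_lit 40560) (nat_lit 0) (nat_lit 0) (XT.nd (nat_lit 1014) (nat_lit 0) (nat_lit 0) (XT.nd (nat_lit 468) (nat_lit 0) (nat_lit 0) (XT.nd (nat_lit 234) (nat_lit 0) (nat_lit 0) (XT.nd (nat_lit 78) (nat_lit 0) (nat_lit 0) (XT.lf (nat_lit 0) (nat_lit 607238431985) (nat_lit 152) (nat_lit 69918354523) (nat_lit 0) (nat_lit 606979237964) (nat_lit 1) (nat_lit 5) (nat_lit 3) (nat_lit 4) (nat_lit 1) (nat_lit 4) (nat_lit 312)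 (nat_lit 237) (nat_lit 231)) (XT.nd (nat_lit 78) (nat_lit 0) (nat_lit 0) (XT.lf (nat_lit 0) (nat_lit 700080856197) (nat_lit 152) (nat_lit 76733419931) (nat_lit 0) (nat_lit 699795914765) (nat_lit 1) (nat_lit 5) (nat_lit 3) (nat_lit 4) (nat_lit 1) (nat_lit 4) (nat_lit 313) (nat_lit 237) (nat_lit 230)) (XT.lf (nat_lit 0) (nat_lit 806743233880) (nat_lit 152) (nat_lit 84784870959) (nat_lit 0) (nat_lit 806435903394) (nat_lit 1) (nat_lit 5) (nat_lit 3) (nat_lit 4) (nat_lit 1) (nat_lit 4) (nat_lit 314) (nat_lit 237) (nat_lit 229)))) (XT.nd (nat_lit 78) (nat_lit 0) (nat_lit 0) (XT.lf (nat_lit 0) (nat_lit 929312437639) (nat_lit 152) (nat_lit 94230235997) (nat_lit 0) (nat_lit 928985638411) (nat_lit 1) (nat_lit 5) (nat_lit 3) (nat_lit 4) (nat_lit 1) (nat_lit 4) (nat_lit 315) (nat_lit 237) (nat_lit 228)) (XT.nd (nat_lit 78) (nat_lit 0) (nat_lit 0) (XT.lf (nat_lit 0) (nat_lit 1070186560592) (nat_lit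 152) (nat_lit 105254315664) (nat_lit 0) (nat_lit 1069842832024) (nat_lit 1) (nat_lit 5) (nat_lit 3) (nat_lit 4) (nat_lit 1) (nat_lit 4) (nat_lit 316) (nat_lit 237) (nat_lit 227)) (XT.lf (nat_lit 0) (nat_lit 1232121835579) (nat_lit 152) (nat_lit 118072798476) (nat_lit 0) (nat_lit 1231763385845) (nat_lit 1) (nat_lit 5) (nat_lit 3) (nat_lit 4) (nat_lit 1) (nat_lit 4) (nat_lit 317) (nat_lit 237) (nat_lit 226))))) (XT.nd (nat_lit 234) (nat_lit 0) (nat_lit 0) (XT.nd (nat_lit 78) (nat_lit 0) (nat_lit 0) (XT.lf (nat_lit 0) (nat_lit 1418286561459) (nat_lit 152) (nat_lit 132936480836) (nat_lit 0) (nat_lit 1417915310711) (nat_lit 1) (nat_lit 5) (nat_lit 3) (nat_lit 4) (nat_lit 1) (nat_lit 4) (nat_lit 318) (nat_lit 237) (nat_lit 225)) (XT.nd (nat_lit 78) (nat_lit 0) (nat_lit 0) (XT.lf (nat_lit 0) (nat_lit 1632323091564) (nat_lit 152) (nat_lit 150136173921) (nat_lit 0) (nat_lit 1631940709499) (nat_lit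 1) (nat_lit 5) (nat_lit 3) (nat_lit 4) (nat_lit 1) (nat_lit 4) (nat_lit 319) (nat_lit 237) (nat_lit 224)) (XT.lf (nat_lit 0) (nat_lit 1878419097135) (nat_lit 152) (nat_lit 170008393464) (nat_lit 0) (nat_lit 1878027035665) (nat_lit 1) (nat_lit 5) (nat_lit 3) (nat_lit 4) (nat_lit 1) (nat_lit 4) (nat_lit 320) (nat_lit 237) (nat_lit 223)))) (XT.nd (nat_lit 156) (nat_lit 0) (nat_lit 0) (XT.nd (nat_lit 78) (nat_lit 0) (nat_lit 0) (XT.lf (nat_lit 0) (nat_lit 2161389500021) (nat_lit 152) (nat_lit 192941943762) (nat_lit 0) (nat_lit 2160989021676) (nat_lit 1) (nat_lit 5) (nat_lit 3) (nat_lit 4) (nat_lit 1) (nat_lit 4) (nat_lit 321) (nat_lit 237) (nat_lit 222)) (XT.lf (nat_lit 0) (nat_lit 2486770677669) (nat_lit 152) (nat_lit 219385524711) (nat_lit 0) (nat_lit 2486362880303) (nat_lit 1) (nat_lit 5) (nat_lit 3) (nat_lit 4) (nat_lit 1) (nat_lit 4) (nat_lit 322) (nat_lit 237) (nat_lit 221))) (XT.nd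 (nat_lit 78) (nat_lit 0) (nat_lit 0) (XT.lf (nat_lit 0) (nat_lit 2860928783555) (nat_lit 152) (nat_lit 249856510721) (nat_lit 0) (nat_lit 2860514621823) (nat_lit 1) (nat_lit 5) (nat_lit 3) (nat_lit 4) (nat_lit 1) (nat_lit 4) (nat_lit 323) (nat_lit 237) (nat_lit 220)) (XT.lf (nat_lit 0) (nat_lit 3291184302359) (nat_lit 152) (nat_lit 284951073258) (nat_lit 0) (nat_lit 3290764606395) (nat_lit 1) (nat_lit 5) (nat_lit 3) (nat_lit 4) (nat_lit 1) (nat_lit 4) (nat_lit 324) (nat_lit 237) (nat_lit 219)))))) (XT.nd (nat_lit 39000) (nat_lit 0) (nat_lit 0) (XT.nd (nat_lit 234) (nat_lit 0) (nat_lit 0) (XT.nd (nat_lit 78) (nat_lit 0) (nat_lit 0) (XT.lf (nat_lit 0) (nat_lit 3785955276841) (nat_lit 152) (nat_lit 325355845066) (nat_lit 0) (nat_lit 3785530768502) (nat_lit 1) (nat_lit 5) (nat_lit 3) (nat_lit 4) (nat_lit 1) (nat_lit 4) (nat_lit 325) (nat_lit 237) (nat_lit 218)) (XT.nd (nat_lit 78) (nat_lit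 0) (nat_lit 0) (XT.lf (nat_lit 0) (nat_lit 4354922008675) (nat_lit 152) (nat_lit 371861354291) (nat_lit 0) (nat_lit 4354493315661) (nat_lit 1) (nat_lit 5) (nat_lit 3) (nat_lit 4) (nat_lit 1) (nat_lit 4) (nat_lit 326) (nat_lit 237) (nat_lit 217)) (XT.lf (nat_lit 0) (nat_lit 5009216455658) (nat_lit 152) (nat_lit 425377491329) (nat_lit 0) (nat_lit 5008784123797) (nat_lit 1) (nat_lit 5) (nat_lit 3) (nat_lit 4) (nat_lit 1) (nat_lit 4) (nat_lit 327) (nat_lit 237) (nat_lit 216)))) (XT.nd (nat_lit 156) (nat_lit 0) (nat_lit 0) (XT.nd (nat_lit 78) (nat_lit 0) (nat_lit 0) (XT.lf (nat_lit 0) (nat_lit 5761640030883) (nat_lit 152) (nat_lit 486951311036) (nat_lit 0) (nat_lit 5761204534807) (nat_lit 1) (nat_lit 5) (nat_lit 3) (nat_lit 4) (nat_lit 1) (nat_lit 4) (nat_lit 328) (nat_lit 237) (nat_lit 215)) (XT.lf (nat_lit 0) (nat_lit 6626914065169) (nat_lit 152) (nat_lit 557787518581) (nat_lit 0) (nat_lit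 6626475817602) (nat_lit 1) (nat_lit 5) (nat_lit 3) (nat_lit 4) (nat_lit 1) (nat_lit 4) (nat_lit 329) (nat_lit 237) (nat_lit 214))) (XT.nd (nat_lit 78) (nat_lit 0) (nat_lit 0) (XT.lf (nat_lit 0) (nat_lit 7621967833101) (nat_lit 152) (nat_lit 639272039762) (nat_lit 0) (nat_lit 7621527192933) (nat_lit 1) (nat_lit 5) (nat_lit 3) (nat_lit 4) (nat_lit 1) (nat_lit 4) (nat_lit 330) (nat_lit 237) (nat_lit 213)) (XT.lf (nat_lit 0) (nat_lit 8766269777964) (nat_lit 152) (nat_lit 732999136951) (nat_lit 0) (nat_lit 8765827057274) (nat_lit 1) (nat_lit 5) (nat_lit 3) (nat_lit 4) (nat_lit 1) (nat_lit 4) (nat_lit 331) (nat_lit 237) (nat_lit 212))))) (XT.nd (nat_lit 234) (nat_lit 0) (nat_lit 0) (XT.nd (nat_lit 78) (nat_lit 0) (nat_lit 0) (XT.lf (nat_lit 0) (nat_lit 93278661724) (nat_lit 152) (nat_lit 23829642452) (nat_lit 0) (nat_lit 93278661724) (nat_lit 1) (nat_lit 5) (nat_lit 3) (nat_lit 4) (nat_lit 1)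 (nat_lit 4) (nat_lit 304) (nat_lit 238) (nat_lit 238)) (XT.nd (nat_lit 78) (nat_lit 0) (nat_lit 0) (XT.lf (nat_lit 0) (nat_lit 217792971485) (nat_lit 152) (nat_lit 48105690955) (nat_lit 0) (nat_lit 217724482859) (nat_lit 1) (nat_lit 5) (nat_lit 3) (nat_lit 4) (nat_lit 1) (nat_lit 4) (nat_lit 305) (nat_lit 238) (nat_lit 237)) (XT.lf (nat_lit 0) (nat_lit 253430913581) (nat_lit 152) (nat_lit 49188636822) (nat_lit 0) (nat_lit 253302869628) (nat_lit 1) (nat_lit 5) (nat_lit 3) (nat_lit 4) (nat_lit 1) (nat_lit 4) (nat_lit 306) (nat_lit 238) (nat_lit 236)))) (XT.nd (nat_lit 156) (nat_lit 0) (nat_lit 0) (XT.nd (nat_lit 78) (nat_lit 0) (nat_lit 0) (XT.lf (nat_lit 0) (nat_lit 294168413821) (nat_lit 152) (nat_lit 50929310576) (nat_lit 0) (nat_lit 293988582627) (nat_lit 1) (nat_lit 5) (nat_lit 3) (nat_lit 4) (nat_lit 1) (nat_lit 4) (nat_lit 307) (nat_lit 238) (nat_lit 235)) (XT.lf (nat_lit 0) (nat_lit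 340802510253) (nat_lit 152) (nat_lit 53361768878) (nat_lit 0) (nat_lit 340577646676) (nat_lit 1) (nat_lit 5) (nat_lit 3) (nat_lit 4) (nat_lit 1) (nat_lit 4) (nat_lit 308) (nat_lit 238) (nat_lit 234))) (XT.nd (nat_lit 78) (nat_lit 0) (nat_lit 0) (XT.lf (nat_lit 0) (nat_lit 394245609112) (nat_lit 152) (nat_lit 56533603302) (nat_lit 0) (nat_lit 393981586940) (nat_lit 1) (nat_lit 5) (nat_lit 3) (nat_lit 4) (nat_lit 1) (nat_lit 4) (nat_lit 309) (nat_lit 238) (nat_lit 233)) (XT.lf (nat_lit 0) (nat_lit 455543336245) (nat_lit 152) (nat_lit 60506871480) (nat_lit 0) (nat_lit 455245263121) (nat_lit 1) (nat_lit 5) (nat_lit 3) (nat_lit 4) (nat_lit 1) (nat_lit 4) (nat_lit 310) (nat_lit 238) (nat_lit 232))))))) (XT.nd (nat_lit 1092) (nat_lit 0) (nat_lit 0) (XT.nd (nat_lit 546) (nat_lit 0) (nat_lit 0) (XT.nd (nat_lit 234) (nat_lit 0) (nat_lit 0) (XT.nd (nat_lit 78) (nat_lit 0) (nat_lit 0) (XT.lf (nat_lit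 0) (nat_lit 525894995008) (nat_lit 152) (nat_lit 65359311266) (nat_lit 0) (nat_lit 525567312362) (nat_lit 1) (nat_lit 5) (nat_lit 3) (nat_lit 4) (nat_lit 1) (nat_lit 4) (nat_lit 311) (nat_lit 238) (nat_lit 231)) (XT.nd (nat_lit 78) (nat_lit 0) (nat_lit 0) (XT.lf (nat_lit 0) (nat_lit 606677030900) (nat_lit 152) (nat_lit 71185861699) (nat_lit 0) (nat_lit 606323600842) (nat_lit 1) (nat_lit 5) (nat_lit 3) (nat_lit 4) (nat_lit 1) (nat_lit 4) (nat_lit 312) (nat_lit 238) (nat_lit 230)) (XT.lf (nat_lit 0) (nat_lit 699469962014) (nat_lit 152) (nat_lit 78100520507) (nat_lit 0) (nat_lit 699094142902) (nat_lit 1) (nat_lit 5) (nat_lit 3) (nat_lit 4) (nat_lit 1) (nat_lit 4) (nat_lit 313) (nat_lit 238) (nat_lit 229)))) (XT.nd (nat_lit 156) (nat_lit 0) (nat_lit 0) (XT.nd (nat_lit 78) (nat_lit 0) (nat_lit 0) (XT.lf (nat_lit 0) (nat_lit 806089302219) (nat_lit 152) (nat_lit 86238574490) (nat_lit 0) (nat_lit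 805694014366) (nat_lit 1) (nat_lit 5) (nat_lit 3) (nat_lit 4) (nat_lit 1) (nat_lit 4) (nat_lit 314) (nat_lit 238) (nat_lit 228)) (XT.lf (nat_lit 0) (nat_lit 928621082086) (nat_lit 152) (nat_lit 95759246446) (nat_lit 0) (nat_lit 928208864891) (nat_lit 1) (nat_lit 5) (nat_lit 3) (nat_lit 4) (nat_lit 1) (nat_lit 4) (nat_lit 315) (nat_lit 238) (nat_lit 227))) (XT.nd (nat_lit 78) (nat_lit 0) (nat_lit 0) (XT.lf (nat_lit 0) (nat_lit 1069462662523) (nat_lit 152) (nat_lit 106848810390) (nat_lit 0) (nat_lit 1069035724162) (nat_lit 1) (nat_lit 5) (nat_lit 3) (nat_lit 4) (nat_lit 1) (nat_lit 4) (nat_lit 316) (nat_lit 238) (nat_lit 226)) (XT.lf (nat_lit 0) (nat_lit 1231369639670) (nat_lit 152) (nat_lit 119724236051) (nat_lit 0) (nat_lit 1230929900296) (nat_lit 1) (nat_lit 5) (nat_lit 3) (nat_lit 4) (nat_lit 1) (nat_lit 4) (nat_lit 317) (nat_lit 238) (nat_lit 225))))) (XT.nd (nat_lit 234) (nat_lit 0)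 (nat_lit 0) (XT.nd (nat_lit 78) (nat_lit 0) (nat_lit 0) (XT.lf (nat_lit 0) (nat_lit 1417509758733) (nat_lit 152) (nat_lit 134637433933) (nat_lit 0) (nat_lit 1417058888042) (nat_lit 1) (nat_lit 5) (nat_lit 3) (nat_lit 4) (nat_lit 1) (nat_lit 4) (nat_lit 318) (nat_lit 238) (nat_lit 224)) (XT.nd (nat_lit 78) (nat_lit 0) (nat_lit 0) (XT.lf (nat_lit 0) (nat_lit 1631524891606) (nat_lit 152) (nat_lit 151880183992) (nat_lit 0) (nat_lit 1631064341509) (nat_lit 1) (nat_lit 5) (nat_lit 3) (nat_lit 4) (nat_lit 1) (nat_lit 4) (nat_lit 319) (nat_lit 238) (nat_lit 223)) (XT.lf (nat_lit 0) (nat_lit 1877602290888) (nat_lit 152) (nat_lit 171789844383) (nat_lit 0) (nat_lit 1877133323917) (nat_lit 1) (nat_lit 5) (nat_lit 3) (nat_lit 4) (nat_lit 1) (nat_lit 4) (nat_lit 320) (nat_lit 238) (nat_lit 222)))) (XT.nd (nat_lit 156) (nat_lit 0) (nat_lit 0) (XT.nd (nat_lit 78) (nat_lit 0) (nat_lit 0) (XT.lf (nat_lit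 0) (nat_lit 2160556514392) (nat_lit 152) (nat_lit 194755951940) (nat_lit 0) (nat_lit 2160080228400) (nat_lit 1) (nat_lit 5) (nat_lit 3) (nat_lit 4) (nat_lit 1) (nat_lit 4) (nat_lit 321) (nat_lit 238) (nat_lit 221)) (XT.lf (nat_lit 0) (nat_lit 2485923623013) (nat_lit 152) (nat_lit 221227843549) (nat_lit 0) (nat_lit 2485440972654) (nat_lit 1) (nat_lit 5) (nat_lit 3) (nat_lit 4) (nat_lit 1) (nat_lit 4) (nat_lit 322) (nat_lit 238) (nat_lit 220))) (XT.nd (nat_lit 78) (nat_lit 0) (nat_lit 0) (XT.lf (nat_lit 0) (nat_lit 2860069494962) (nat_lit 152) (nat_lit 251723447524) (nat_lit 0) (nat_lit 2859581310371) (nat_lit 1) (nat_lit 5) (nat_lit 3) (nat_lit 4) (nat_lit 1) (nat_lit 4) (nat_lit 323) (nat_lit 238) (nat_lit 219)) (XT.lf (nat_lit 0) (nat_lit 3290314375560) (nat_lit 152) (nat_lit 286839416987) (nat_lit 0) (nat_lit 3289821378594) (nat_lit 1) (nat_lit 5) (nat_lit 3) (nat_lit 4) (nat_lit 1)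 (nat_lit 4) (nat_lit 324) (nat_lit 238) (nat_lit 218)))))) (XT.nd (nat_lit 38844) (nat_lit 0) (nat_lit 0) (XT.nd (nat_lit 234) (nat_lit 0) (nat_lit 0) (XT.nd (nat_lit 78) (nat_lit 0) (nat_lit 0) (XT.lf (nat_lit 0) (nat_lit 3785076099428) (nat_lit 152) (nat_lit 327262803514) (nat_lit 0) (nat_lit 3784578917788) (nat_lit 1) (nat_lit 5) (nat_lit 3) (nat_lit 4) (nat_lit 1) (nat_lit 4) (nat_lit 325) (nat_lit 238) (nat_lit 217)) (XT.nd (nat_lit 78) (nat_lit 0) (nat_lit 0) (XT.lf (nat_lit 0) (nat_lit 4354034787249) (nat_lit 152) (nat_lit 373784499450) (nat_lit 0) (nat_lit 4353533966762) (nat_lit 1) (nat_lit 5) (nat_lit 3) (nat_lit 4) (nat_lit 1) (nat_lit 4) (nat_lit 326) (nat_lit 238) (nat_lit 216)) (XT.lf (nat_lit 0) (nat_lit 5008322239439) (nat_lit 152) (nat_lit 427314711890) (nat_lit 0) (nat_lit 5007818254737) (nat_lit 1) (nat_lit 5) (nat_lit 3) (nat_lit 4) (nat_lit 1) (nat_lit 4) (nat_lit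 327) (nat_lit 238) (nat_lit 215)))) (XT.nd (nat_lit 156) (nat_lit 0) (nat_lit 0) (XT.nd (nat_lit 78) (nat_lit 0) (nat_lit 0) (XT.lf (nat_lit 0) (nat_lit 5760739732235) (nat_lit 152) (nat_lit 488900771077) (nat_lit 0) (nat_lit 5760232996042) (nat_lit 1) (nat_lit 5) (nat_lit 3) (nat_lit 4) (nat_lit 1) (nat_lit 4) (nat_lit 328) (nat_lit 238) (nat_lit 214)) (XT.lf (nat_lit 0) (nat_lit 6626008477453) (nat_lit 152) (nat_lit 559747621647) (nat_lit 0) (nat_lit 6625499348659) (nat_lit 1) (nat_lit 5) (nat_lit 3) (nat_lit 4) (nat_lit 1) (nat_lit 4) (nat_lit 329) (nat_lit 238) (nat_lit 213))) (XT.nd (nat_lit 78) (nat_lit 0) (nat_lit 0) (XT.lf (nat_lit 0) (nat_lit 7621057646195) (nat_lit 152) (nat_lit 641241397633) (nat_lit 0) (nat_lit 7620546436878) (nat_lit 1) (nat_lit 5) (nat_lit 3) (nat_lit 4) (nat_lit 1) (nat_lit 4) (nat_lit 330) (nat_lit 238) (nat_lit 212)) (XT.lf (nat_lit 0) (nat_lit 8765355591762)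 (nat_lit 152) (nat_lit 734976542479) (nat_lit 0) (nat_lit 8764842573295) (nat_lit 1) (nat_lit 5) (nat_lit 3) (nat_lit 4) (nat_lit 1) (nat_lit 4) (nat_lit 331) (nat_lit 238) (nat_lit 211))))) (XT.nd (nat_lit 234) (nat_lit 0) (nat_lit 0) (XT.nd (nat_lit 78) (nat_lit 0) (nat_lit 0) (XT.lf (nat_lit 0) (nat_lit 67587714000) (nat_lit 152) (nat_lit 24151541010) (nat_lit 0) (nat_lit 67587714000) (nat_lit 1) (nat_lit 5) (nat_lit 3) (nat_lit 4) (nat_lit 1) (nat_lit 4) (nat_lit 302) (nat_lit 239) (nat_lit 239)) (XT.nd (nat_lit 78) (nat_lit 0) (nat_lit 0) (XT.lf (nat_lit 0) (nat_lit 159191599147) (nat_lit 152) (nat_lit 47840684636) (nat_lit 0) (nat_lit 159112837227) (nat_lit 1) (nat_lit 5) (nat_lit 3) (nat_lit 4) (nat_lit 1) (nat_lit 4) (nat_lit 303) (nat_lit 239) (nat_lit 238)) (XT.lf (nat_lit 0) (nat_lit 186484684849) (nat_lit 152) (nat_lit 47963943389) (nat_lit 0) (nat_lit 186337434302) (nat_lit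 1) (nat_lit 5) (nat_lit 3) (nat_lit 4) (nat_lit 1) (nat_lit 4) (nat_lit 304) (nat_lit 239) (nat_lit 237)))) (XT.nd (nat_lit 156) (nat_lit 0) (nat_lit 0) (XT.nd (nat_lit 78) (nat_lit 0) (nat_lit 0) (XT.lf (nat_lit 0) (nat_lit 217588680259) (nat_lit 152) (nat_lit 48675269863) (nat_lit 0) (nat_lit 217381874386) (nat_lit 1) (nat_lit 5) (nat_lit 3) (nat_lit 4) (nat_lit 1) (nat_lit 4) (nat_lit 305) (nat_lit 239) (nat_lit 236)) (XT.lf (nat_lit 0) (nat_lit 253112141811) (nat_lit 152) (nat_lit 49988581315) (nat_lit 0) (nat_lit 252853548697) (nat_lit 1) (nat_lit 5) (nat_lit 3) (nat_lit 4) (nat_lit 1) (nat_lit 4) (nat_lit 306) (nat_lit 239) (nat_lit 235))) (XT.nd (nat_lit 78) (nat_lit 0) (nat_lit 0) (XT.lf (nat_lit 0) (nat_lit 293750093751) (nat_lit 152) (nat_lit 51929572969) (nat_lit 0) (nat_lit 293446468254) (nat_lit 1) (nat_lit 5) (nat_lit 3) (nat_lit 4) (nat_lit 1) (nat_lit 4) (nat_lit 307) (nat_lit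 239) (nat_lit 234)) (XT.lf (nat_lit 0) (nat_lit 340297626445) (nat_lit 152) (nat_lit 54536220748) (nat_lit 0) (nat_lit 339954842353) (nat_lit 1) (nat_lit 5) (nat_lit 3) (nat_lit 4) (nat_lit 1) (nat_lit 4) (nat_lit 308) (nat_lit 239) (nat_lit 233))))))))
noncomputable def xc4 : XT := (XT.nd (nat_lit 40248) (nat_lit 0) (nat_lit 0) (XT.nd (nat_lit 1014) (nat_lit 0) (nat_lit 0) (XT.nd (nat_lit 468) (nat_lit 0) (nat_lit 0) (XT.nd (nat_lit 234) (nat_lit 0) (nat_lit 0) (XT.nd (nat_lit 78) (nat_lit 0) (nat_lit 0) (XT.lf (nat_lit 0) (nat_lit 393665452487) (nat_lit 152) (nat_lit 57859524284) (nat_lit 0) (nat_lit 393288617444) (nat_lit 1) (nat_lit 5) (nat_lit 3) (nat_lit 4) (nat_lit 1) (nat_lit 4) (nat_lit 309) (nat_lit 239) (nat_lit 232)) (XT.nd (nat_lit 78) (nat_lit 0) (nat_lit 0) (XT.lf (nat_lit 0) (nat_lit 454897724997) (nat_lit 152) (nat_lit 61964504732) (nat_lit 0) (nat_lit 454491280430) (nat_lit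 1) (nat_lit 5) (nat_lit 3) (nat_lit 4) (nat_lit 1) (nat_lit 4) (nat_lit 310) (nat_lit 239) (nat_lit 231)) (XT.lf (nat_lit 0) (nat_lit 525192466697) (nat_lit 152) (nat_lit 66931476927) (nat_lit 0) (nat_lit 524760274719) (nat_lit 1) (nat_lit 5) (nat_lit 3) (nat_lit 4) (nat_lit 1) (nat_lit 4) (nat_lit 311) (nat_lit 239) (nat_lit 230)))) (XT.nd (nat_lit 78) (nat_lit 0) (nat_lit 0) (XT.lf (nat_lit 0) (nat_lit 605925009491) (nat_lit 152) (nat_lit 72857620760) (nat_lit 0) (nat_lit 605470428459) (nat_lit 1) (nat_lit 5) (nat_lit 3) (nat_lit 4) (nat_lit 1) (nat_lit 4) (nat_lit 312) (nat_lit 239) (nat_lit 229)) (XT.nd (nat_lit 78) (nat_lit 0) (nat_lit 0) (XT.lf (nat_lit 0) (nat_lit 698674903128) (nat_lit 152) (nat_lit 79858882523) (nat_lit 0) (nat_lit 698200853354) (nat_lit 1) (nat_lit 5) (nat_lit 3) (nat_lit 4) (nat_lit 1) (nat_lit 4) (nat_lit 313) (nat_lit 239) (nat_lit 228)) (XT.lf (nat_lit 0)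 (nat_lit 805256819440) (nat_lit 152) (nat_lit 88072243425) (nat_lit 0) (nat_lit 804765840325) (nat_lit 1) (nat_lit 5) (nat_lit 3) (nat_lit 4) (nat_lit 1) (nat_lit 4) (nat_lit 314) (nat_lit 239) (nat_lit 227))))) (XT.nd (nat_lit 234) (nat_lit 0) (nat_lit 0) (XT.nd (nat_lit 78) (nat_lit 0) (nat_lit 0) (XT.lf (nat_lit 0) (nat_lit 927756056790) (nat_lit 152) (nat_lit 97658399658) (nat_lit 0) (nat_lit 927250356510) (nat_lit 1) (nat_lit 5) (nat_lit 3) (nat_lit 4) (nat_lit 1) (nat_lit 4) (nat_lit 315) (nat_lit 239) (nat_lit 226)) (XT.nd (nat_lit 78) (nat_lit 0) (nat_lit 0) (XT.lf (nat_lit 0) (nat_lit 1068569339388) (nat_lit 152) (nat_lit 108804906451) (nat_lit 0) (nat_lit 1068050838093) (nat_lit 1) (nat_lit 5) (nat_lit 3) (nat_lit 4) (nat_lit 1) (nat_lit 4) (nat_lit 316) (nat_lit 239) (nat_lit 225)) (XT.lf (nat_lit 0) (nat_lit 1230451709718) (nat_lit 152) (nat_lit 121729847634) (nat_lit 0) (nat_lit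 1229922077107) (nat_lit 1) (nat_lit 5) (nat_lit 3) (nat_lit 4) (nat_lit 1) (nat_lit 4) (nat_lit 317) (nat_lit 239) (nat_lit 224)))) (XT.nd (nat_lit 156) (nat_lit 0) (nat_lit 0) (XT.nd (nat_lit 78) (nat_lit 0) (nat_lit 0) (XT.lf (nat_lit 0) (nat_lit 1416570431549) (nat_lit 152) (nat_lit 136686102490) (nat_lit 0) (nat_lit 1416031119532) (nat_lit 1) (nat_lit 5) (nat_lit 3) (nat_lit 4) (nat_lit 1) (nat_lit 4) (nat_lit 318) (nat_lit 239) (nat_lit 223)) (XT.lf (nat_lit 0) (nat_lit 1630566958133) (nat_lit 152) (nat_lit 153966293397) (nat_lit 0) (nat_lit 1630019229241) (nat_lit 1) (nat_lit 5) (nat_lit 3) (nat_lit 4) (nat_lit 1) (nat_lit 4) (nat_lit 319) (nat_lit 239) (nat_lit 222))) (XT.nd (nat_lit 78) (nat_lit 0) (nat_lit 0) (XT.lf (nat_lit 0) (nat_lit 1876628178033) (nat_lit 152) (nat_lit 173908511047) (nat_lit 0) (nat_lit 1876073130121) (nat_lit 1) (nat_lit 5) (nat_lit 3) (nat_lit 4) (nat_lit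 1) (nat_lit 4) (nat_lit 320) (nat_lit 239) (nat_lit 221)) (XT.lf (nat_lit 0) (nat_lit 2159568332510) (nat_lit 152) (nat_lit 196902929264) (nat_lit 0) (nat_lit 2159006920231) (nat_lit 1) (nat_lit 5) (nat_lit 3) (nat_lit 4) (nat_lit 1) (nat_lit 4) (nat_lit 321) (nat_lit 239) (nat_lit 220)))))) (XT.nd (nat_lit 546) (nat_lit 0) (nat_lit 0) (XT.nd (nat_lit 234) (nat_lit 0) (nat_lit 0) (XT.nd (nat_lit 78) (nat_lit 0) (nat_lit 0) (XT.lf (nat_lit 0) (nat_lit 2484923207193) (nat_lit 152) (nat_lit 223399438838) (nat_lit 0) (nat_lit 2484356260683) (nat_lit 1) (nat_lit 5) (nat_lit 3) (nat_lit 4) (nat_lit 1) (nat_lit 4) (nat_lit 322) (nat_lit 239) (nat_lit 219)) (XT.nd (nat_lit 78) (nat_lit 0) (nat_lit 0) (XT.lf (nat_lit 0) (nat_lit 2859058440936) (nat_lit 152) (nat_lit 253916449739) (nat_lit 0) (nat_lit 2858486682050) (nat_lit 1) (nat_lit 5) (nat_lit 3) (nat_lit 4) (nat_lit 1) (nat_lit 4) (nat_lit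 323) (nat_lit 239) (nat_lit 218)) (XT.lf (nat_lit 0) (nat_lit 3289294070920) (nat_lit 152) (nat_lit 289051033921) (nat_lit 0) (nat_lit 3288718127360) (nat_lit 1) (nat_lit 5) (nat_lit 3) (nat_lit 4) (nat_lit 1) (nat_lit 4) (nat_lit 324) (nat_lit 239) (nat_lit 217)))) (XT.nd (nat_lit 156) (nat_lit 0) (nat_lit 0) (XT.nd (nat_lit 78) (nat_lit 0) (nat_lit 0) (XT.lf (nat_lit 0) (nat_lit 3784047750776) (nat_lit 152) (nat_lit 329490607159) (nat_lit 0) (nat_lit 3783468168369) (nat_lit 1) (nat_lit 5) (nat_lit 3) (nat_lit 4) (nat_lit 1) (nat_lit 4) (nat_lit 325) (nat_lit 239) (nat_lit 216)) (XT.lf (nat_lit 0) (nat_lit 4352999443804) (nat_lit 152) (nat_lit 376026378497) (nat_lit 0) (nat_lit 4352416697182) (nat_lit 1) (nat_lit 5) (nat_lit 3) (nat_lit 4) (nat_lit 1) (nat_lit 4) (nat_lit 326) (nat_lit 239) (nat_lit 215))) (XT.nd (nat_lit 78) (nat_lit 0) (nat_lit 0) (XT.lf (nat_lit 0) (nat_lit 5007280813565)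 (nat_lit 152) (nat_lit 429568830416) (nat_lit 0) (nat_lit 5006695315452) (nat_lit 1) (nat_lit 5) (nat_lit 3) (nat_lit 4) (nat_lit 1) (nat_lit 4) (nat_lit 327) (nat_lit 239) (nat_lit 214)) (XT.lf (nat_lit 0) (nat_lit 5759693017292) (nat_lit 152) (nat_lit 491165532629) (nat_lit 0) (nat_lit 5759105126578) (nat_lit 1) (nat_lit 5) (nat_lit 3) (nat_lit 4) (nat_lit 1) (nat_lit 4) (nat_lit 328) (nat_lit 239) (nat_lit 213))))) (XT.nd (nat_lit 38376) (nat_lit 0) (nat_lit 0) (XT.nd (nat_lit 78) (nat_lit 0) (nat_lit 0) (XT.lf (nat_lit 0) (nat_lit 6624957163320) (nat_lit 152) (nat_lit 562021638004) (nat_lit 0) (nat_lit 6624367192083) (nat_lit 1) (nat_lit 5) (nat_lit 3) (nat_lit 4) (nat_lit 1) (nat_lit 4) (nat_lit 329) (nat_lit 239) (nat_lit 212)) (XT.nd (nat_lit 78) (nat_lit 0) (nat_lit 0) (XT.lf (nat_lit 0) (nat_lit 7620002332766) (nat_lit 152) (nat_lit 643523461647) (nat_lit 0) (nat_lit 7619410552379)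 (nat_lit 1) (nat_lit 5) (nat_lit 3) (nat_lit 4) (nat_lit 1) (nat_lit 4) (nat_lit 330) (nat_lit 239) (nat_lit 211)) (XT.lf (nat_lit 0) (nat_lit 8764296800685) (nat_lit 152) (nat_lit 737265604455) (nat_lit 0) (nat_lit 8763703447124) (nat_lit 1) (nat_lit 5) (nat_lit 3) (nat_lit 4) (nat_lit 1) (nat_lit 4) (nat_lit 331) (nat_lit 239) (nat_lit 210)))) (XT.nd (nat_lit 156) (nat_lit 0) (nat_lit 0) (XT.nd (nat_lit 78) (nat_lit 0) (nat_lit 0) (XT.lf (nat_lit 0) (nat_lit 47720013268) (nat_lit 152) (nat_lit 25314878732) (nat_lit 0) (nat_lit 47720013268) (nat_lit 1) (nat_lit 5) (nat_lit 3) (nat_lit 4) (nat_lit 1) (nat_lit 4) (nat_lit 300) (nat_lit 240) (nat_lit 240)) (XT.lf (nat_lit 0) (nat_lit 114056866006) (nat_lit 152) (nat_lit 49360182446) (nat_lit 0) (nat_lit 113966289798) (nat_lit 1) (nat_lit 5) (nat_lit 3) (nat_lit 4) (nat_lit 1) (nat_lit 4) (nat_lit 301) (nat_lit 240) (nat_lit 239))) (XT.nd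 (nat_lit 78) (nat_lit 0) (nat_lit 0) (XT.lf (nat_lit 0) (nat_lit 135091893610) (nat_lit 152) (nat_lit 48653439278) (nat_lit 0) (nat_lit 134922555482) (nat_lit 1) (nat_lit 5) (nat_lit 3) (nat_lit 4) (nat_lit 1) (nat_lit 4) (nat_lit 302) (nat_lit 240) (nat_lit 238)) (XT.lf (nat_lit 0) (nat_lit 158956664238) (nat_lit 152) (nat_lit 48495700380) (nat_lit 0) (nat_lit 158718837483) (nat_lit 1) (nat_lit 5) (nat_lit 3) (nat_lit 4) (nat_lit 1) (nat_lit 4) (nat_lit 303) (nat_lit 240) (nat_lit 237))))))) (XT.nd (nat_lit 1014) (nat_lit 0) (nat_lit 0) (XT.nd (nat_lit 468) (nat_lit 0) (nat_lit 0) (XT.nd (nat_lit 234) (nat_lit 0) (nat_lit 0) (XT.nd (nat_lit 78) (nat_lit 0) (nat_lit 0) (XT.lf (nat_lit 0) (nat_lit 186118097313) (nat_lit 152) (nat_lit 48883879556) (nat_lit 0) (nat_lit 185820715231) (nat_lit 1) (nat_lit 5) (nat_lit 3) (nat_lit 4) (nat_lit 1) (nat_lit 4) (nat_lit 304) (nat_lit 240) (nat_lit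 236)) (XT.nd (nat_lit 78) (nat_lit 0) (nat_lit 0) (XT.lf (nat_lit 0) (nat_lit 217107612179) (nat_lit 152) (nat_lit 49825571614) (nat_lit 0) (nat_lit 216758442856) (nat_lit 1) (nat_lit 5) (nat_lit 3) (nat_lit 4) (nat_lit 1) (nat_lit 4) (nat_lit 305) (nat_lit 240) (nat_lit 235)) (XT.lf (nat_lit 0) (nat_lit 252531525431) (nat_lit 152) (nat_lit 51339200966) (nat_lit 0) (nat_lit 252137323725) (nat_lit 1) (nat_lit 5) (nat_lit 3) (nat_lit 4) (nat_lit 1) (nat_lit 4) (nat_lit 306) (nat_lit 240) (nat_lit 234)))) (XT.nd (nat_lit 78) (nat_lit 0) (nat_lit 0) (XT.lf (nat_lit 0) (nat_lit 293082913633) (nat_lit 152) (nat_lit 53454382097) (nat_lit 0) (nat_lit 292649553333) (nat_lit 1) (nat_lit 5) (nat_lit 3) (nat_lit 4) (nat_lit 1) (nat_lit 4) (nat_lit 307) (nat_lit 240) (nat_lit 233)) (XT.nd (nat_lit 78) (nat_lit 0) (nat_lit 0) (XT.lf (nat_lit 0) (nat_lit 339555173510) (nat_lit 152) (nat_lit 56212498988)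 (nat_lit 0) (nat_lit 339087762258) (nat_lit 1) (nat_lit 5) (nat_lit 3) (nat_lit 4) (nat_lit 1) (nat_lit 4) (nat_lit 308) (nat_lit 240) (nat_lit 232)) (XT.lf (nat_lit 0) (nat_lit 392857544930) (nat_lit 152) (nat_lit 59667514794) (nat_lit 0) (nat_lit 392360524155) (nat_lit 1) (nat_lit 5) (nat_lit 3) (nat_lit 4) (nat_lit 1) (nat_lit 4) (nat_lit 309) (nat_lit 240) (nat_lit 231))))) (XT.nd (nat_lit 234) (nat_lit 0) (nat_lit 0) (XT.nd (nat_lit 78) (nat_lit 0) (nat_lit 0) (XT.lf (nat_lit 0) (nat_lit 454032900376) (nat_lit 152) (nat_lit 63887027652) (nat_lit 0) (nat_lit 453510132190) (nat_lit 1) (nat_lit 5) (nat_lit 3) (nat_lit 4) (nat_lit 1) (nat_lit 4) (nat_lit 310) (nat_lit 240) (nat_lit 230)) (XT.nd (nat_lit 78) (nat_lit 0) (nat_lit 0) (XT.lf (nat_lit 0) (nat_lit 524278148978) (nat_lit 152) (nat_lit 68953593246) (nat_lit 0) (nat_lit 523732991738) (nat_lit 1) (nat_lit 5) (nat_lit 3) (nat_lit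 4) (nat_lit 1) (nat_lit 4) (nat_lit 311) (nat_lit 240) (nat_lit 229)) (XT.lf (nat_lit 0) (nat_lit 604967654294) (nat_lit 152) (nat_lit 74966340035) (nat_lit 0) (nat_lit 604403028313) (nat_lit 1) (nat_lit 5) (nat_lit 3) (nat_lit 4) (nat_lit 1) (nat_lit 4) (nat_lit 312) (nat_lit 240) (nat_lit 228)))) (XT.nd (nat_lit 156) (nat_lit 0) (nat_lit 0) (XT.nd (nat_lit 78) (nat_lit 0) (nat_lit 0) (XT.lf (nat_lit 0) (nat_lit 697680124038) (nat_lit 152) (nat_lit 82042908717) (nat_lit 0) (nat_lit 697098568715) (nat_lit 1) (nat_lit 5) (nat_lit 3) (nat_lit 4) (nat_lit 1) (nat_lit 4) (nat_lit 313) (nat_lit 240) (nat_lit 227)) (XT.lf (nat_lit 0) (nat_lit 804229497835) (nat_lit 152) (nat_lit 90321753896) (nat_lit 0) (nat_lit 803633221346) (nat_lit 1) (nat_lit 5) (nat_lit 3) (nat_lit 4) (nat_lit 1) (nat_lit 4) (nat_lit 314) (nat_lit 240) (nat_lit 226))) (XT.nd (nat_lit 78) (nat_lit 0) (nat_lit 0) (XT.lf (nat_lit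 0) (nat_lit 926700437346) (nat_lit 152) (nat_lit 99964852977) (nat_lit 0) (nat_lit 926091359843) (nat_lit 1) (nat_lit 5) (nat_lit 3) (nat_lit 4) (nat_lit 1) (nat_lit 4) (nat_lit 315) (nat_lit 240) (nat_lit 225)) (XT.lf (nat_lit 0) (nat_lit 1067489113126) (nat_lit 152) (nat_lit 111160875292) (nat_lit 0) (nat_lit 1066868904307) (nat_lit 1) (nat_lit 5) (nat_lit 3) (nat_lit 4) (nat_lit 1) (nat_lit 4) (nat_lit 316) (nat_lit 240) (nat_lit 224)))))) (XT.nd (nat_lit 546) (nat_lit 0) (nat_lit 0) (XT.nd (nat_lit 234) (nat_lit 0) (nat_lit 0) (XT.nd (nat_lit 78) (nat_lit 0) (nat_lit 0) (XT.lf (nat_lit 0) (nat_lit 1229350086224) (nat_lit 152) (nat_lit 124128873449) (nat_lit 0) (nat_lit 1228720197999) (nat_lit 1) (nat_lit 5) (nat_lit 3) (nat_lit 4) (nat_lit 1) (nat_lit 4) (nat_lit 317) (nat_lit 240) (nat_lit 223)) (XT.nd (nat_lit 78) (nat_lit 0) (nat_lit 0) (XT.lf (nat_lit 0) (nat_lit 1415450201766)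 (nat_lit 152) (nat_lit 139122569153) (nat_lit 0) (nat_lit 1414811896666) (nat_lit 1) (nat_lit 5) (nat_lit 3) (nat_lit 4) (nat_lit 1) (nat_lit 4) (nat_lit 318) (nat_lit 240) (nat_lit 222)) (XT.lf (nat_lit 0) (nat_lit 1629430548968) (nat_lit 152) (nat_lit 156435317319) (nat_lit 0) (nat_lit 1628784924847) (nat_lit 1) (nat_lit 5) (nat_lit 3) (nat_lit 4) (nat_lit 1) (nat_lit 4) (nat_lit 319) (nat_lit 240) (nat_lit 221)))) (XT.nd (nat_lit 156) (nat_lit 0) (nat_lit 0) (XT.nd (nat_lit 78) (nat_lit 0) (nat_lit 0) (XT.lf (nat_lit 0) (nat_lit 1875477699841) (nat_lit 152) (nat_lit 176405845629) (nat_lit 0) (nat_lit 1874825711354) (nat_lit 1) (nat_lit 5) (nat_lit 3) (nat_lit 4) (nat_lit 1) (nat_lit 4) (nat_lit 320) (nat_lit 240) (nat_lit 220)) (XT.lf (nat_lit 0) (nat_lit 2158405620380) (nat_lit 152) (nat_lit 199424881811) (nat_lit 0) (nat_lit 2157748097662) (nat_lit 1) (nat_lit 5) (nat_lit 3) (nat_lit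 4) (nat_lit 1) (nat_lit 4) (nat_lit 321) (nat_lit 240) (nat_lit 219))) (XT.nd (nat_lit 78) (nat_lit 0) (nat_lit 0) (XT.lf (nat_lit 0) (nat_lit 2483749856858) (nat_lit 152) (nat_lit 225942798311) (nat_lit 0) (nat_lit 2483087521764) (nat_lit 1) (nat_lit 5) (nat_lit 3) (nat_lit 4) (nat_lit 1) (nat_lit 4) (nat_lit 322) (nat_lit 240) (nat_lit 218)) (XT.lf (nat_lit 0) (nat_lit 2857875839986) (nat_lit 152) (nat_lit 256478423931) (nat_lit 0) (nat_lit 2857209320218) (nat_lit 1) (nat_lit 5) (nat_lit 3) (nat_lit 4) (nat_lit 1) (nat_lit 4) (nat_lit 323) (nat_lit 240) (nat_lit 217))))) (XT.nd (nat_lit 234) (nat_lit 0) (nat_lit 0) (XT.nd (nat_lit 78) (nat_lit 0) (nat_lit 0) (XT.lf (nat_lit 0) (nat_lit 3288103425958) (nat_lit 152) (nat_lit 291629194824) (nat_lit 0) (nat_lit 3287433267343) (nat_lit 1) (nat_lit 5) (nat_lit 3) (nat_lit 4) (nat_lit 1) (nat_lit 4) (nat_lit 324) (nat_lit 240) (nat_lit 216))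 (XT.nd (nat_lit 78) (nat_lit 0) (nat_lit 0) (XT.lf (nat_lit 0) (nat_lit 3782850111021) (nat_lit 152) (nat_lit 332082843464) (nat_lit 0) (nat_lit 3782176788191) (nat_lit 1) (nat_lit 5) (nat_lit 3) (nat_lit 4) (nat_lit 1) (nat_lit 4) (nat_lit 325) (nat_lit 240) (nat_lit 215)) (XT.lf (nat_lit 0) (nat_lit 4351795721620) (nat_lit 152) (nat_lit 378630854282) (nat_lit 0) (nat_lit 4351119647299) (nat_lit 1) (nat_lit 5) (nat_lit 3) (nat_lit 4) (nat_lit 1) (nat_lit 4) (nat_lit 326) (nat_lit 240) (nat_lit 214)))) (XT.nd (nat_lit 156) (nat_lit 0) (nat_lit 0) (XT.nd (nat_lit 78) (nat_lit 0) (nat_lit 0) (XT.lf (nat_lit 0) (nat_lit 5006071802313) (nat_lit 152) (nat_lit 432183949227) (nat_lit 0) (nat_lit 5005393335390) (nat_lit 1) (nat_lit 5) (nat_lit 3) (nat_lit 4) (nat_lit 1) (nat_lit 4) (nat_lit 327) (nat_lit 240) (nat_lit 213)) (XT.lf (nat_lit 0) (nat_lit 5758479406850) (nat_lit 152) (nat_lit 493789906244)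 (nat_lit 0) (nat_lit 5757798859405) (nat_lit 1) (nat_lit 5) (nat_lit 3) (nat_lit 4) (nat_lit 1) (nat_lit 4) (nat_lit 328) (nat_lit 240) (nat_lit 212))) (XT.nd (nat_lit 78) (nat_lit 0) (nat_lit 0) (XT.lf (nat_lit 0) (nat_lit 6623739553582) (nat_lit 152) (nat_lit 564654059276) (nat_lit 0) (nat_lit 6623057196987) (nat_lit 1) (nat_lit 5) (nat_lit 3) (nat_lit 4) (nat_lit 1) (nat_lit 4) (nat_lit 329) (nat_lit 240) (nat_lit 211)) (XT.lf (nat_lit 0) (nat_lit 7618781245380) (nat_lit 152) (nat_lit 646162880881) (nat_lit 0) (nat_lit 7618097315611) (nat_lit 1) (nat_lit 5) (nat_lit 3) (nat_lit 4) (nat_lit 1) (nat_lit 4) (nat_lit 330) (nat_lit 240) (nat_lit 210))))))))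
noncomputable def xc5 : XT := (XT.nd (nat_lit 40092) (nat_lit 0) (nat_lit 0) (XT.nd (nat_lit 39000) (nat_lit 0) (nat_lit 0) (XT.nd (nat_lit 38454) (nat_lit 0) (nat_lit 0) (XT.nd (nat_lit 38220) (nat_lit 0) (nat_lit 0) (XT.nd (nat_lit 38064) (nat_lit 0) (nat_lit 0) (XT.lf (nat_lit 0) (nat_lit 8763072689257) (nat_lit 152) (nat_lit 739911108873) (nat_lit 0) (nat_lit 8762387391510) (nat_lit 1) (nat_lit 5) (nat_lit 3) (nat_lit 4) (nat_lit 1) (nat_lit 4) (nat_lit 331) (nat_lit 240) (nat_lit 209)) (XT.nd (nat_lit 78) (nat_lit 0) (nat_lit 0) (XT.lf (nat_lit 0) (nat_lit 32189275877) (nat_lit 152) (nat_lit 27252455776) (nat_lit 0) (nat_lit 32189275877) (nat_lit 1) (nat_lit 5) (nat_lit 3) (nat_lit 4) (nat_lit 1) (nat_lit 4) (nat_lit 298) (nat_lit 241) (nat_lit 241)) (XT.lf (nat_lit 0) (nat_lit 78981295329) (nat_lit 152) (nat_lit 52487003849) (nat_lit 0) (nat_lit 78877132690) (nat_lit 1) (nat_lit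 5) (nat_lit 3) (nat_lit 4) (nat_lit 1) (nat_lit 4) (nat_lit 299) (nat_lit 241) (nat_lit 240)))) (XT.nd (nat_lit 78) (nat_lit 0) (nat_lit 0) (XT.lf (nat_lit 0) (nat_lit 95343961988) (nat_lit 152) (nat_lit 51032668313) (nat_lit 0) (nat_lit 95149223140) (nat_lit 1) (nat_lit 5) (nat_lit 3) (nat_lit 4) (nat_lit 1) (nat_lit 4) (nat_lit 300) (nat_lit 241) (nat_lit 239)) (XT.nd (nat_lit 78) (nat_lit 0) (nat_lit 0) (XT.lf (nat_lit 0) (nat_lit 113786690860) (nat_lit 152) (nat_lit 50113450551) (nat_lit 0) (nat_lit 113513190092) (nat_lit 1) (nat_lit 5) (nat_lit 3) (nat_lit 4) (nat_lit 1) (nat_lit 4) (nat_lit 301) (nat_lit 241) (nat_lit 238)) (XT.lf (nat_lit 0) (nat_lit 134670317944) (nat_lit 152) (nat_lit 49711365870) (nat_lit 0) (nat_lit 134328328550) (nat_lit 1) (nat_lit 5) (nat_lit 3) (nat_lit 4) (nat_lit 1) (nat_lit 4) (nat_lit 302) (nat_lit 241) (nat_lit 237))))) (XT.nd (nat_lit 234) (nat_lit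 0) (nat_lit 0) (XT.nd (nat_lit 78) (nat_lit 0) (nat_lit 0) (XT.lf (nat_lit 0) (nat_lit 158403435945) (nat_lit 152) (nat_lit 49818547394) (nat_lit 0) (nat_lit 158001891224) (nat_lit 1) (nat_lit 5) (nat_lit 3) (nat_lit 4) (nat_lit 1) (nat_lit 4) (nat_lit 303) (nat_lit 241) (nat_lit 236)) (XT.nd (nat_lit 78) (nat_lit 0) (nat_lit 0) (XT.lf (nat_lit 0) (nat_lit 185450388476) (nat_lit 152) (nat_lit 50437092154) (nat_lit 0) (nat_lit 184997056514) (nat_lit 1) (nat_lit 5) (nat_lit 3) (nat_lit 4) (nat_lit 1) (nat_lit 4) (nat_lit 304) (nat_lit 241) (nat_lit 235)) (XT.lf (nat_lit 0) (nat_lit 216340355043) (nat_lit 152) (nat_lit 51579102112) (nat_lit 0) (nat_lit 215841990697) (nat_lit 1) (nat_lit 5) (nat_lit 3) (nat_lit 4) (nat_lit 1) (nat_lit 4) (nat_lit 305) (nat_lit 241) (nat_lit 234)))) (XT.nd (nat_lit 156) (nat_lit 0) (nat_lit 0) (XT.nd (nat_lit 78) (nat_lit 0) (nat_lit 0) (XT.lf (nat_lit 0) (nat_lit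 251677704556) (nat_lit 152) (nat_lit 53266920941) (nat_lit 0) (nat_lit 251140181617) (nat_lit 1) (nat_lit 5) (nat_lit 3) (nat_lit 4) (nat_lit 1) (nat_lit 4) (nat_lit 306) (nat_lit 241) (nat_lit 233)) (XT.lf (nat_lit 0) (nat_lit 292153819942) (nat_lit 152) (nat_lit 55533571185) (nat_lit 0) (nat_lit 291582246051) (nat_lit 1) (nat_lit 5) (nat_lit 3) (nat_lit 4) (nat_lit 1) (nat_lit 4) (nat_lit 307) (nat_lit 241) (nat_lit 232))) (XT.nd (nat_lit 78) (nat_lit 0) (nat_lit 0) (XT.lf (nat_lit 0) (nat_lit 338560625196) (nat_lit 152) (nat_lit 58423400346) (nat_lit 0) (nat_lit 337959441782) (nat_lit 1) (nat_lit 5) (nat_lit 3) (nat_lit 4) (nat_lit 1) (nat_lit 4) (nat_lit 308) (nat_lit 241) (nat_lit 231)) (XT.lf (nat_lit 0) (nat_lit 391806079553) (nat_lit 152) (nat_lit 61992948562) (nat_lit 0) (nat_lit 391179148727) (nat_lit 1) (nat_lit 5) (nat_lit 3) (nat_lit 4) (nat_lit 1) (nat_lit 4) (nat_lit 309)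 (nat_lit 241) (nat_lit 230)))))) (XT.nd (nat_lit 546) (nat_lit 0) (nat_lit 0) (XT.nd (nat_lit 234) (nat_lit 0) (nat_lit 0) (XT.nd (nat_lit 78) (nat_lit 0) (nat_lit 0) (XT.lf (nat_lit 0) (nat_lit 452931941901) (nat_lit 152) (nat_lit 66312054818) (nat_lit 0) (nat_lit 452282622022) (nat_lit 1) (nat_lit 5) (nat_lit 3) (nat_lit 4) (nat_lit 1) (nat_lit 4) (nat_lit 310) (nat_lit 241) (nat_lit 229)) (XT.nd (nat_lit 78) (nat_lit 0) (nat_lit 0) (XT.lf (nat_lit 0) (nat_lit 523134153025) (nat_lit 152) (nat_lit 71465223369) (nat_lit 0) (nat_lit 522465364404) (nat_lit 1) (nat_lit 5) (nat_lit 3) (nat_lit 4) (nat_lit 1) (nat_lit 4) (nat_lit 311) (nat_lit 241) (nat_lit 228)) (XT.lf (nat_lit 0) (nat_lit 603786234449) (nat_lit 152) (nat_lit 77553277076) (nat_lit 0) (nat_lit 603100516486) (nat_lit 1) (nat_lit 5) (nat_lit 3) (nat_lit 4) (nat_lit 1) (nat_lit 4) (nat_lit 312) (nat_lit 241) (nat_lit 227)))) (XT.nd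 (nat_lit 156) (nat_lit 0) (nat_lit 0) (XT.nd (nat_lit 78) (nat_lit 0) (nat_lit 0) (XT.lf (nat_lit 0) (nat_lit 696466161677) (nat_lit 152) (nat_lit 84695330034) (nat_lit 0) (nat_lit 695765722549) (nat_lit 1) (nat_lit 5) (nat_lit 3) (nat_lit 4) (nat_lit 1) (nat_lit 4) (nat_lit 313) (nat_lit 241) (nat_lit 226)) (XT.lf (nat_lit 0) (nat_lit 802987237634) (nat_lit 152) (nat_lit 93031118062) (nat_lit 0) (nat_lit 802273997492) (nat_lit 1) (nat_lit 5) (nat_lit 3) (nat_lit 4) (nat_lit 1) (nat_lit 4) (nat_lit 314) (nat_lit 241) (nat_lit 225))) (XT.nd (nat_lit 78) (nat_lit 0) (nat_lit 0) (XT.lf (nat_lit 0) (nat_lit 925433570327) (nat_lit 152) (nat_lit 102723732665) (nat_lit 0) (nat_lit 924709198869) (nat_lit 1) (nat_lit 5) (nat_lit 3) (nat_lit 4) (nat_lit 1) (nat_lit 4) (nat_lit 315) (nat_lit 241) (nat_lit 224)) (XT.lf (nat_lit 0) (nat_lit 1066200848875) (nat_lit 152) (nat_lit 113962811954) (nat_lit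 0) (nat_lit 1065466798011) (nat_lit 1) (nat_lit 5) (nat_lit 3) (nat_lit 4) (nat_lit 1) (nat_lit 4) (nat_lit 316) (nat_lit 241) (nat_lit 223))))) (XT.nd (nat_lit 234) (nat_lit 0) (nat_lit 0) (XT.nd (nat_lit 78) (nat_lit 0) (nat_lit 0) (XT.lf (nat_lit 0) (nat_lit 1228043215685) (nat_lit 152) (nat_lit 126968250960) (nat_lit 0) (nat_lit 1227300747946) (nat_lit 1) (nat_lit 5) (nat_lit 3) (nat_lit 4) (nat_lit 1) (nat_lit 4) (nat_lit 317) (nat_lit 241) (nat_lit 222)) (XT.nd (nat_lit 78) (nat_lit 0) (nat_lit 0) (XT.lf (nat_lit 0) (nat_lit 1414127151844) (nat_lit 152) (nat_lit 141994503923) (nat_lit 0) (nat_lit 1413377365084) (nat_lit 1) (nat_lit 5) (nat_lit 3) (nat_lit 4) (nat_lit 1) (nat_lit 4) (nat_lit 318) (nat_lit 241) (nat_lit 221)) (XT.lf (nat_lit 0) (nat_lit 1628093430019) (nat_lit 152) (nat_lit 159335562749) (nat_lit 0) (nat_lit 1627337278893) (nat_lit 1) (nat_lit 5) (nat_lit 3) (nat_lit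 4) (nat_lit 1) (nat_lit 4) (nat_lit 319) (nat_lit 241) (nat_lit 220)))) (XT.nd (nat_lit 156) (nat_lit 0) (nat_lit 0) (XT.nd (nat_lit 78) (nat_lit 0) (nat_lit 0) (XT.lf (nat_lit 0) (nat_lit 1874128346955) (nat_lit 152) (nat_lit 179330709024) (nat_lit 0) (nat_lit 1873366661597) (nat_lit 1) (nat_lit 5) (nat_lit 3) (nat_lit 4) (nat_lit 1) (nat_lit 4) (nat_lit 320) (nat_lit 241) (nat_lit 219)) (XT.lf (nat_lit 0) (nat_lit 2157045629288) (nat_lit 152) (nat_lit 202371152132) (nat_lit 0) (nat_lit 2156279131555) (nat_lit 1) (nat_lit 5) (nat_lit 3) (nat_lit 4) (nat_lit 1) (nat_lit 4) (nat_lit 321) (nat_lit 241) (nat_lit 218))) (XT.nd (nat_lit 78) (nat_lit 0) (nat_lit 0) (XT.lf (nat_lit 0) (nat_lit 2482380615152) (nat_lit 152) (nat_lit 228907683351) (nat_lit 0) (nat_lit 2481609932744) (nat_lit 1) (nat_lit 5) (nat_lit 3) (nat_lit 4) (nat_lit 1) (nat_lit 4) (nat_lit 322) (nat_lit 241) (nat_lit 217))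 (XT.lf (nat_lit 0) (nat_lit 2856498554268) (nat_lit 152) (nat_lit 259459495682) (nat_lit 0) (nat_lit 2855724233014) (nat_lit 1) (nat_lit 5) (nat_lit 3) (nat_lit 4) (nat_lit 1) (nat_lit 4) (nat_lit 323) (nat_lit 241) (nat_lit 216))))))) (XT.nd (nat_lit 38922) (nat_lit 0) (nat_lit 0) (XT.nd (nat_lit 546) (nat_lit 0) (nat_lit 0) (XT.nd (nat_lit 234) (nat_lit 0) (nat_lit 0) (XT.nd (nat_lit 78) (nat_lit 0) (nat_lit 0) (XT.lf (nat_lit 0) (nat_lit 3286719145447) (nat_lit 152) (nat_lit 294624341977) (nat_lit 0) (nat_lit 3285941659978) (nat_lit 1) (nat_lit 5) (nat_lit 3) (nat_lit 4) (nat_lit 1) (nat_lit 4) (nat_lit 324) (nat_lit 241) (nat_lit 215)) (XT.nd (nat_lit 78) (nat_lit 0) (nat_lit 0) (XT.lf (nat_lit 0) (nat_lit 3781459748080) (nat_lit 152) (nat_lit 335090230097) (nat_lit 0) (nat_lit 3780679511120) (nat_lit 1) (nat_lit 5) (nat_lit 3) (nat_lit 4) (nat_lit 1) (nat_lit 4) (nat_lit 325) (nat_lit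 241) (nat_lit 214)) (XT.lf (nat_lit 0) (nat_lit 4350400069612) (nat_lit 152) (nat_lit 381648883939) (nat_lit 0) (nat_lit 4349617440050) (nat_lit 1) (nat_lit 5) (nat_lit 3) (nat_lit 4) (nat_lit 1) (nat_lit 4) (nat_lit 326) (nat_lit 241) (nat_lit 213)))) (XT.nd (nat_lit 156) (nat_lit 0) (nat_lit 0) (XT.nd (nat_lit 78) (nat_lit 0) (nat_lit 0) (XT.lf (nat_lit 0) (nat_lit 5004671551114) (nat_lit 152) (nat_lit 435211233690) (nat_lit 0) (nat_lit 5003886841029) (nat_lit 1) (nat_lit 5) (nat_lit 3) (nat_lit 4) (nat_lit 1) (nat_lit 4) (nat_lit 327) (nat_lit 241) (nat_lit 212)) (XT.lf (nat_lit 0) (nat_lit 5757075156355) (nat_lit 152) (nat_lit 496825238363) (nat_lit 0) (nat_lit 5756288637121) (nat_lit 1) (nat_lit 5) (nat_lit 3) (nat_lit 4) (nat_lit 1) (nat_lit 4) (nat_lit 328) (nat_lit 241) (nat_lit 211))) (XT.nd (nat_lit 78) (nat_lit 0) (nat_lit 0) (XT.lf (nat_lit 0) (nat_lit 6622331825439) (nat_lit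 152) (nat_lit 567696389357) (nat_lit 0) (nat_lit 6621543733030) (nat_lit 1) (nat_lit 5) (nat_lit 3) (nat_lit 4) (nat_lit 1) (nat_lit 4) (nat_lit 329) (nat_lit 241) (nat_lit 210)) (XT.lf (nat_lit 0) (nat_lit 7617370493195) (nat_lit 152) (nat_lit 649211296147) (nat_lit 0) (nat_lit 7616581032809) (nat_lit 1) (nat_lit 5) (nat_lit 3) (nat_lit 4) (nat_lit 1) (nat_lit 4) (nat_lit 330) (nat_lit 241) (nat_lit 209))))) (XT.nd (nat_lit 38064) (nat_lit 0) (nat_lit 0) (XT.nd (nat_lit 37908) (nat_lit 0) (nat_lit 0) (XT.lf (nat_lit 0) (nat_lit 8761659307470) (nat_lit 152) (nat_lit 742964815604) (nat_lit 0) (nat_lit 8760868657538) (nat_lit 1) (nat_lit 5) (nat_lit 3) (nat_lit 4) (nat_lit 1) (nat_lit 4) (nat_lit 331) (nat_lit 241) (nat_lit 208)) (XT.nd (nat_lit 78) (nat_lit 0) (nat_lit 0) (XT.lf (nat_lit 0) (nat_lit 19861720656) (nat_lit 152) (nat_lit 29934157967) (nat_lit 0) (nat_lit 19861720656) (nat_lit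 1) (nat_lit 5) (nat_lit 3) (nat_lit 4) (nat_lit 1) (nat_lit 4) (nat_lit 296) (nat_lit 242) (nat_lit 242)) (XT.lf (nat_lit 0) (nat_lit 51369812444) (nat_lit 152) (nat_lit 57125872224) (nat_lit 0) (nat_lit 51250025408) (nat_lit 1) (nat_lit 5) (nat_lit 3) (nat_lit 4) (nat_lit 1) (nat_lit 4) (nat_lit 297) (nat_lit 242) (nat_lit 241)))) (XT.nd (nat_lit 156) (nat_lit 0) (nat_lit 0) (XT.nd (nat_lit 78) (nat_lit 0) (nat_lit 0) (XT.lf (nat_lit 0) (nat_lit 64268077523) (nat_lit 152) (nat_lit 54968259026) (nat_lit 0) (nat_lit 64044127849) (nat_lit 1) (nat_lit 5) (nat_lit 3) (nat_lit 4) (nat_lit 1) (nat_lit 4) (nat_lit 298) (nat_lit 242) (nat_lit 240)) (XT.lf (nat_lit 0) (nat_lit 78670593911) (nat_lit 152) (nat_lit 53353262171) (nat_lit 0) (nat_lit 78356068028) (nat_lit 1) (nat_lit 5) (nat_lit 3) (nat_lit 4) (nat_lit 1) (nat_lit 4) (nat_lit 299) (nat_lit 242) (nat_lit 239))) (XT.nd (nat_lit 78) (nat_lit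 0) (nat_lit 0) (XT.lf (nat_lit 0) (nat_lit 94859149972) (nat_lit 152) (nat_lit 52249283893) (nat_lit 0) (nat_lit 94465862169) (nat_lit 1) (nat_lit 5) (nat_lit 3) (nat_lit 4) (nat_lit 1) (nat_lit 4) (nat_lit 300) (nat_lit 242) (nat_lit 238)) (XT.lf (nat_lit 0) (nat_lit 113150478324) (nat_lit 152) (nat_lit 51634724617) (nat_lit 0) (nat_lit 112688701894) (nat_lit 1) (nat_lit 5) (nat_lit 3) (nat_lit 4) (nat_lit 1) (nat_lit 4) (nat_lit 301) (nat_lit 242) (nat_lit 237)))))) (XT.nd (nat_lit 546) (nat_lit 0) (nat_lit 0) (XT.nd (nat_lit 234) (nat_lit 0) (nat_lit 0) (XT.nd (nat_lit 78) (nat_lit 0) (nat_lit 0) (XT.lf (nat_lit 0) (nat_lit 133902452782) (nat_lit 152) (nat_lit 51497560358) (nat_lit 0) (nat_lit 133381121026) (nat_lit 1) (nat_lit 5) (nat_lit 3) (nat_lit 4) (nat_lit 1) (nat_lit 4) (nat_lit 302) (nat_lit 242) (nat_lit 236)) (XT.nd (nat_lit 78) (nat_lit 0) (nat_lit 0) (XT.lf (nat_lit 0)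 (nat_lit 157521090239) (nat_lit 152) (nat_lit 51835107467) (nat_lit 0) (nat_lit 156947971242) (nat_lit 1) (nat_lit 5) (nat_lit 3) (nat_lit 4) (nat_lit 1) (nat_lit 4) (nat_lit 303) (nat_lit 242) (nat_lit 235)) (XT.lf (nat_lit 0) (nat_lit 184468494470) (nat_lit 152) (nat_lit 52653970126) (nat_lit 0) (nat_lit 183850343089) (nat_lit 1) (nat_lit 5) (nat_lit 3) (nat_lit 4) (nat_lit 1) (nat_lit 4) (nat_lit 304) (nat_lit 242) (nat_lit 234)))) (XT.nd (nat_lit 156) (nat_lit 0) (nat_lit 0) (XT.nd (nat_lit 78) (nat_lit 0) (nat_lit 0) (XT.lf (nat_lit 0) (nat_lit 215271897298) (nat_lit 152) (nat_lit 53970169562) (nat_lit 0) (nat_lit 214614587323) (nat_lit 1) (nat_lit 5) (nat_lit 3) (nat_lit 4) (nat_lit 1) (nat_lit 4) (nat_lit 305) (nat_lit 242) (nat_lit 233)) (XT.lf (nat_lit 0) (nat_lit 250533973995) (nat_lit 152) (nat_lit 55809457503) (nat_lit 0) (nat_lit 249842613069) (nat_lit 1) (nat_lit 5) (nat_lit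 3) (nat_lit 4) (nat_lit 1) (nat_lit 4) (nat_lit 306) (nat_lit 242) (nat_lit 232))) (XT.nd (nat_lit 78) (nat_lit 0) (nat_lit 0) (XT.lf (nat_lit 0) (nat_lit 290944634758) (nat_lit 152) (nat_lit 58207820017) (nat_lit 0) (nat_lit 290223664308) (nat_lit 1) (nat_lit 5) (nat_lit 3) (nat_lit 4) (nat_lit 1) (nat_lit 4) (nat_lit 307) (nat_lit 242) (nat_lit 231)) (XT.lf (nat_lit 0) (nat_lit 337294522949) (nat_lit 152) (nat_lit 61212181587) (nat_lit 0) (nat_lit 336547805088) (nat_lit 1) (nat_lit 5) (nat_lit 3) (nat_lit 4) (nat_lit 1) (nat_lit 4) (nat_lit 308) (nat_lit 242) (nat_lit 230))))) (XT.nd (nat_lit 234) (nat_lit 0) (nat_lit 0) (XT.nd (nat_lit 78) (nat_lit 0) (nat_lit 0) (XT.lf (nat_lit 0) (nat_lit 390490484207) (nat_lit 152) (nat_lit 64881323202) (nat_lit 0) (nat_lit 389721377293) (nat_lit 1) (nat_lit 5) (nat_lit 3) (nat_lit 4) (nat_lit 1) (nat_lit 4) (nat_lit 309) (nat_lit 242) (nat_lit 229))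 (XT.nd (nat_lit 78) (nat_lit 0) (nat_lit 0) (XT.lf (nat_lit 0) (nat_lit 451573309078) (nat_lit 152) (nat_lit 69287032415) (nat_lit 0) (nat_lit 450784733421) (nat_lit 1) (nat_lit 5) (nat_lit 3) (nat_lit 4) (nat_lit 1) (nat_lit 4) (nat_lit 310) (nat_lit 242) (nat_lit 228)) (XT.lf (nat_lit 0) (nat_lit 521738096310) (nat_lit 152) (nat_lit 74515507884) (nat_lit 0) (nat_lit 520932591312) (nat_lit 1) (nat_lit 5) (nat_lit 3) (nat_lit 4) (nat_lit 1) (nat_lit 4) (nat_lit 311) (nat_lit 242) (nat_lit 227)))) (XT.nd (nat_lit 156) (nat_lit 0) (nat_lit 0) (XT.nd (nat_lit 78) (nat_lit 0) (nat_lit 0) (XT.lf (nat_lit 0) (nat_lit 602357635217) (nat_lit 152) (nat_lit 80669045868) (nat_lit 0) (nat_lit 601537409054) (nat_lit 1) (nat_lit 5) (nat_lit 3) (nat_lit 4) (nat_lit 1) (nat_lit 4) (nat_lit 312) (nat_lit 242) (nat_lit 226)) (XT.lf (nat_lit 0) (nat_lit 695009264606) (nat_lit 152) (nat_lit 87868041675) (nat_lit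 0) (nat_lit 694176237428) (nat_lit 1) (nat_lit 5) (nat_lit 3) (nat_lit 4) (nat_lit 1) (nat_lit 4) (nat_lit 313) (nat_lit 242) (nat_lit 225))) (XT.nd (nat_lit 78) (nat_lit 0) (nat_lit 0) (XT.lf (nat_lit 0) (nat_lit 801505733745) (nat_lit 152) (nat_lit 96253345225) (nat_lit 0) (nat_lit 800661575252) (nat_lit 1) (nat_lit 5) (nat_lit 3) (nat_lit 4) (nat_lit 1) (nat_lit 4) (nat_lit 314) (nat_lit 242) (nat_lit 224)) (XT.lf (nat_lit 0) (nat_lit 923930669207) (nat_lit 152) (nat_lit 105989016802) (nat_lit 0) (nat_lit 923076831307) (nat_lit 1) (nat_lit 5) (nat_lit 3) (nat_lit 4) (nat_lit 1) (nat_lit 4) (nat_lit 315) (nat_lit 242) (nat_lit 223))))))))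
noncomputable def xc6 : XT := (XT.nd (nat_lit 39780) (nat_lit 0) (nat_lit 0) (XT.nd (nat_lit 1014) (nat_lit 0) (nat_lit 0) (XT.nd (nat_lit 468) (nat_lit 0) (nat_lit 0) (XT.nd (nat_lit 234) (nat_lit 0) (nat_lit 0) (XT.nd (nat_lit 78) (nat_lit 0) (nat_lit 0) (XT.lf (nat_lit 0) (nat_lit 1064679341466) (nat_lit 152) (nat_lit 117265536939) (nat_lit 0) (nat_lit 1063817086692) (nat_lit 1) (nat_lit 5) (nat_lit 3) (nat_lit 4) (nat_lit 1) (nat_lit 4) (nat_lit 316) (nat_lit 242) (nat_lit 222)) (XT.nd (nat_lit 78) (nat_lit 0) (nat_lit 0) (XT.lf (nat_lit 0) (nat_lit 1226505528893) (nat_lit 152) (nat_lit 130303533204) (nat_lit 0) (nat_lit 1225635955098) (nat_lit 1) (nat_lit 5) (nat_lit 3) (nat_lit 4) (nat_lit 1) (nat_lit 4) (nat_lit 317) (nat_lit 242) (nat_lit 221)) (XT.lf (nat_lit 0) (nat_lit 1412575396026) (nat_lit 152) (nat_lit 145358096827) (nat_lit 0) (nat_lit 1411699457864) (nat_lit 1) (nat_lit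 5) (nat_lit 3) (nat_lit 4) (nat_lit 1) (nat_lit 4) (nat_lit 318) (nat_lit 242) (nat_lit 220)))) (XT.nd (nat_lit 78) (nat_lit 0) (nat_lit 0) (XT.lf (nat_lit 0) (nat_lit 1626529440263) (nat_lit 152) (nat_lit 162723773618) (nat_lit 0) (nat_lit 1625647967870) (nat_lit 1) (nat_lit 5) (nat_lit 3) (nat_lit 4) (nat_lit 1) (nat_lit 4) (nat_lit 319) (nat_lit 242) (nat_lit 219)) (XT.nd (nat_lit 78) (nat_lit 0) (nat_lit 0) (XT.lf (nat_lit 0) (nat_lit 1872553718993) (nat_lit 152) (nat_lit 182740326819) (nat_lit 0) (nat_lit 1871667434225) (nat_lit 1) (nat_lit 5) (nat_lit 3) (nat_lit 4) (nat_lit 1) (nat_lit 4) (nat_lit 320) (nat_lit 242) (nat_lit 218)) (XT.lf (nat_lit 0) (nat_lit 2155461750712) (nat_lit 152) (nat_lit 205799384646) (nat_lit 0) (nat_lit 2154571281270) (nat_lit 1) (nat_lit 5) (nat_lit 3) (nat_lit 4) (nat_lit 1) (nat_lit 4) (nat_lit 321) (nat_lit 242) (nat_lit 217))))) (XT.nd (nat_lit 234)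 (nat_lit 0) (nat_lit 0) (XT.nd (nat_lit 78) (nat_lit 0) (nat_lit 0) (XT.lf (nat_lit 0) (nat_lit 2480788692564) (nat_lit 152) (nat_lit 232352102576) (nat_lit 0) (nat_lit 2479894584274) (nat_lit 1) (nat_lit 5) (nat_lit 3) (nat_lit 4) (nat_lit 1) (nat_lit 4) (nat_lit 322) (nat_lit 242) (nat_lit 216)) (XT.nd (nat_lit 78) (nat_lit 0) (nat_lit 0) (XT.lf (nat_lit 0) (nat_lit 2854899636887) (nat_lit 152) (nat_lit 262917990309) (nat_lit 0) (nat_lit 2854002364382) (nat_lit 1) (nat_lit 5) (nat_lit 3) (nat_lit 4) (nat_lit 1) (nat_lit 4) (nat_lit 323) (nat_lit 242) (nat_lit 215)) (XT.lf (nat_lit 0) (nat_lit 3285114145637) (nat_lit 152) (nat_lit 298095076083) (nat_lit 0) (nat_lit 3284214121641) (nat_lit 1) (nat_lit 5) (nat_lit 3) (nat_lit 4) (nat_lit 1) (nat_lit 4) (nat_lit 324) (nat_lit 242) (nat_lit 214)))) (XT.nd (nat_lit 156) (nat_lit 0) (nat_lit 0) (XT.nd (nat_lit 78) (nat_lit 0) (nat_lit 0) (XT.lf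 (nat_lit 0) (nat_lit 3779849459202) (nat_lit 152) (nat_lit 338571607229) (nat_lit 0) (nat_lit 3778947042605) (nat_lit 1) (nat_lit 5) (nat_lit 3) (nat_lit 4) (nat_lit 1) (nat_lit 4) (nat_lit 325) (nat_lit 242) (nat_lit 213)) (XT.lf (nat_lit 0) (nat_lit 4348785181543) (nat_lit 152) (nat_lit 385139515876) (nat_lit 0) (nat_lit 4347880684423) (nat_lit 1) (nat_lit 5) (nat_lit 3) (nat_lit 4) (nat_lit 1) (nat_lit 4) (nat_lit 326) (nat_lit 242) (nat_lit 212))) (XT.nd (nat_lit 78) (nat_lit 0) (nat_lit 0) (XT.lf (nat_lit 0) (nat_lit 5003052663749) (nat_lit 152) (nat_lit 438709913283) (nat_lit 0) (nat_lit 5002146357479) (nat_lit 1) (nat_lit 5) (nat_lit 3) (nat_lit 4) (nat_lit 1) (nat_lit 4) (nat_lit 327) (nat_lit 242) (nat_lit 211)) (XT.lf (nat_lit 0) (nat_lit 5755452791342) (nat_lit 152) (nat_lit 500330915919) (nat_lit 0) (nat_lit 5754544911899) (nat_lit 1) (nat_lit 5) (nat_lit 3) (nat_lit 4) (nat_lit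 1) (nat_lit 4) (nat_lit 328) (nat_lit 242) (nat_lit 210)))))) (XT.nd (nat_lit 38220) (nat_lit 0) (nat_lit 0) (XT.nd (nat_lit 37908) (nat_lit 0) (nat_lit 0) (XT.nd (nat_lit 78) (nat_lit 0) (nat_lit 0) (XT.lf (nat_lit 0) (nat_lit 6620706436384) (nat_lit 152) (nat_lit 571208152097) (nat_lit 0) (nat_lit 6619797188963) (nat_lit 1) (nat_lit 5) (nat_lit 3) (nat_lit 4) (nat_lit 1) (nat_lit 4) (nat_lit 329) (nat_lit 242) (nat_lit 209)) (XT.nd (nat_lit 78) (nat_lit 0) (nat_lit 0) (XT.lf (nat_lit 0) (nat_lit 7615742474538) (nat_lit 152) (nat_lit 652728350351) (nat_lit 0) (nat_lit 7614832037571) (nat_lit 1) (nat_lit 5) (nat_lit 3) (nat_lit 4) (nat_lit 1) (nat_lit 4) (nat_lit 330) (nat_lit 242) (nat_lit 208)) (XT.lf (nat_lit 0) (nat_lit 8760029002202) (nat_lit 152) (nat_lit 746486471082) (nat_lit 0) (nat_lit 8759117530848) (nat_lit 1) (nat_lit 5) (nat_lit 3) (nat_lit 4) (nat_lit 1) (nat_lit 4) (nat_lit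 331) (nat_lit 242) (nat_lit 207)))) (XT.nd (nat_lit 156) (nat_lit 0) (nat_lit 0) (XT.nd (nat_lit 78) (nat_lit 0) (nat_lit 0) (XT.lf (nat_lit 0) (nat_lit 9868618375) (nat_lit 152) (nat_lit 33361018014) (nat_lit 0) (nat_lit 9868618375) (nat_lit 1) (nat_lit 5) (nat_lit 3) (nat_lit 4) (nat_lit 1) (nat_lit 4) (nat_lit 294) (nat_lit 243) (nat_lit 243)) (XT.lf (nat_lit 0) (nat_lit 29238855437) (nat_lit 152) (nat_lit 63249246666) (nat_lit 0) (nat_lit 29101100346) (nat_lit 1) (nat_lit 5) (nat_lit 3) (nat_lit 4) (nat_lit 1) (nat_lit 4) (nat_lit 295) (nat_lit 243) (nat_lit 242))) (XT.nd (nat_lit 78) (nat_lit 0) (nat_lit 0) (XT.lf (nat_lit 0) (nat_lit 39596395947) (nat_lit 152) (nat_lit 60401165530) (nat_lit 0) (nat_lit 39338853821) (nat_lit 1) (nat_lit 5) (nat_lit 3) (nat_lit 4) (nat_lit 1) (nat_lit 4) (nat_lit 296) (nat_lit 243) (nat_lit 241)) (XT.lf (nat_lit 0) (nat_lit 51012505813) (nat_lit 152)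 (nat_lit 58122069294) (nat_lit 0) (nat_lit 50650801047) (nat_lit 1) (nat_lit 5) (nat_lit 3) (nat_lit 4) (nat_lit 1) (nat_lit 4) (nat_lit 297) (nat_lit 243) (nat_lit 240))))) (XT.nd (nat_lit 234) (nat_lit 0) (nat_lit 0) (XT.nd (nat_lit 78) (nat_lit 0) (nat_lit 0) (XT.lf (nat_lit 0) (nat_lit 63710543705) (nat_lit 152) (nat_lit 56367366944) (nat_lit 0) (nat_lit 63258262731) (nat_lit 1) (nat_lit 5) (nat_lit 3) (nat_lit 4) (nat_lit 1) (nat_lit 4) (nat_lit 298) (nat_lit 243) (nat_lit 239)) (XT.nd (nat_lit 78) (nat_lit 0) (nat_lit 0) (XT.lf (nat_lit 0) (nat_lit 77938949495) (nat_lit 152) (nat_lit 55102727346) (nat_lit 0) (nat_lit 77407906601) (nat_lit 1) (nat_lit 5) (nat_lit 3) (nat_lit 4) (nat_lit 1) (nat_lit 4) (nat_lit 299) (nat_lit 243) (nat_lit 238)) (XT.lf (nat_lit 0) (nat_lit 93976105035) (nat_lit 152) (nat_lit 54303407554) (nat_lit 0) (nat_lit 93376573516) (nat_lit 1) (nat_lit 5) (nat_lit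 3) (nat_lit 4) (nat_lit 1) (nat_lit 4) (nat_lit 300) (nat_lit 243) (nat_lit 237)))) (XT.nd (nat_lit 156) (nat_lit 0) (nat_lit 0) (XT.nd (nat_lit 78) (nat_lit 0) (nat_lit 0) (XT.lf (nat_lit 0) (nat_lit 112135780761) (nat_lit 152) (nat_lit 53953768701) (nat_lit 0) (nat_lit 111476693914) (nat_lit 1) (nat_lit 5) (nat_lit 3) (nat_lit 4) (nat_lit 1) (nat_lit 4) (nat_lit 301) (nat_lit 243) (nat_lit 236)) (XT.lf (nat_lit 0) (nat_lit 132773274675) (nat_lit 152) (nat_lit 54046970026) (nat_lit 0) (nat_lit 132062400587) (nat_lit 1) (nat_lit 5) (nat_lit 3) (nat_lit 4) (nat_lit 1) (nat_lit 4) (nat_lit 302) (nat_lit 243) (nat_lit 235))) (XT.nd (nat_lit 78) (nat_lit 0) (nat_lit 0) (XT.lf (nat_lit 0) (nat_lit 156292363832) (nat_lit 152) (nat_lit 54584835035) (nat_lit 0) (nat_lit 155536457361) (nat_lit 1) (nat_lit 5) (nat_lit 3) (nat_lit 4) (nat_lit 1) (nat_lit 4) (nat_lit 303) (nat_lit 243) (nat_lit 234))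 (XT.lf (nat_lit 0) (nat_lit 183153204325) (nat_lit 152) (nat_lit 55577887172) (nat_lit 0) (nat_lit 182358139259) (nat_lit 1) (nat_lit 5) (nat_lit 3) (nat_lit 4) (nat_lit 1) (nat_lit 4) (nat_lit 304) (nat_lit 243) (nat_lit 233))))))) (XT.nd (nat_lit 1014) (nat_lit 0) (nat_lit 0) (XT.nd (nat_lit 468) (nat_lit 0) (nat_lit 0) (XT.nd (nat_lit 234) (nat_lit 0) (nat_lit 0) (XT.nd (nat_lit 78) (nat_lit 0) (nat_lit 0) (XT.lf (nat_lit 0) (nat_lit 213881334337) (nat_lit 152) (nat_lit 57045555719) (nat_lit 0) (nat_lit 213052218320) (nat_lit 1) (nat_lit 5) (nat_lit 3) (nat_lit 4) (nat_lit 1) (nat_lit 4) (nat_lit 305) (nat_lit 243) (nat_lit 232)) (XT.nd (nat_lit 78) (nat_lit 0) (nat_lit 0) (XT.lf (nat_lit 0) (nat_lit 249077956411) (nat_lit 152) (nat_lit 59016555931) (nat_lit 0) (nat_lit 248219230871) (nat_lit 1) (nat_lit 5) (nat_lit 3) (nat_lit 4) (nat_lit 1) (nat_lit 4) (nat_lit 306) (nat_lit 243)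 (nat_lit 231)) (XT.lf (nat_lit 0) (nat_lit 289431700111) (nat_lit 152) (nat_lit 61529450854) (nat_lit 0) (nat_lit 288547227159) (nat_lit 1) (nat_lit 5) (nat_lit 3) (nat_lit 4) (nat_lit 1) (nat_lit 4) (nat_lit 307) (nat_lit 243) (nat_lit 230)))) (XT.nd (nat_lit 78) (nat_lit 0) (nat_lit 0) (XT.lf (nat_lit 0) (nat_lit 335732095203) (nat_lit 152) (nat_lit 64633405824) (nat_lit 0) (nat_lit 334825233198) (nat_lit 1) (nat_lit 5) (nat_lit 3) (nat_lit 4) (nat_lit 1) (nat_lit 4) (nat_lit 308) (nat_lit 243) (nat_lit 229)) (XT.nd (nat_lit 78) (nat_lit 0) (nat_lit 0) (XT.lf (nat_lit 0) (nat_lit 388885018984) (nat_lit 152) (nat_lit 68389150395) (nat_lit 0) (nat_lit 387958688237) (nat_lit 1) (nat_lit 5) (nat_lit 3) (nat_lit 4) (nat_lit 1) (nat_lit 4) (nat_lit 309) (nat_lit 243) (nat_lit 228)) (XT.lf (nat_lit 0) (nat_lit 449930419962) (nat_lit 152) (nat_lit 72870166526) (nat_lit 0) (nat_lit 448987159874)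 (nat_lit 1) (nat_lit 5) (nat_lit 3) (nat_lit 4) (nat_lit 1) (nat_lit 4) (nat_lit 310) (nat_lit 243) (nat_lit 227))))) (XT.nd (nat_lit 234) (nat_lit 0) (nat_lit 0) (XT.nd (nat_lit 78) (nat_lit 0) (nat_lit 0) (XT.lf (nat_lit 0) (nat_lit 520062664678) (nat_lit 152) (nat_lit 78164126271) (nat_lit 0) (nat_lit 519104683424) (nat_lit 1) (nat_lit 5) (nat_lit 3) (nat_lit 4) (nat_lit 1) (nat_lit 4) (nat_lit 311) (nat_lit 243) (nat_lit 226)) (XT.nd (nat_lit 78) (nat_lit 0) (nat_lit 0) (XT.lf (nat_lit 0) (nat_lit 600653905746) (nat_lit 152) (nat_lit 84374607104) (nat_lit 0) (nat_lit 599683123478) (nat_lit 1) (nat_lit 5) (nat_lit 3) (nat_lit 4) (nat_lit 1) (nat_lit 4) (nat_lit 312) (nat_lit 243) (nat_lit 225)) (XT.lf (nat_lit 0) (nat_lit 693280928317) (nat_lit 152) (nat_lit 91623118433) (nat_lit 0) (nat_lit 692299014733) (nat_lit 1) (nat_lit 5) (nat_lit 3) (nat_lit 4) (nat_lit 1) (nat_lit 4) (nat_lit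 313) (nat_lit 243) (nat_lit 224)))) (XT.nd (nat_lit 156) (nat_lit 0) (nat_lit 0) (XT.nd (nat_lit 78) (nat_lit 0) (nat_lit 0) (XT.lf (nat_lit 0) (nat_lit 799756000225) (nat_lit 152) (nat_lit 100051478957) (nat_lit 0) (nat_lit 798764407234) (nat_lit 1) (nat_lit 5) (nat_lit 3) (nat_lit 4) (nat_lit 1) (nat_lit 4) (nat_lit 314) (nat_lit 243) (nat_lit 223)) (XT.lf (nat_lit 0) (nat_lit 922162329397) (nat_lit 152) (nat_lit 109824591383) (nat_lit 0) (nat_lit 921162319532) (nat_lit 1) (nat_lit 5) (nat_lit 3) (nat_lit 4) (nat_lit 1) (nat_lit 4) (nat_lit 315) (nat_lit 243) (nat_lit 222))) (XT.nd (nat_lit 78) (nat_lit 0) (nat_lit 0) (XT.lf (nat_lit 0) (nat_lit 1062894822274) (nat_lit 152) (nat_lit 121133668779) (nat_lit 0) (nat_lit 1061887493388) (nat_lit 1) (nat_lit 5) (nat_lit 3) (nat_lit 4) (nat_lit 1) (nat_lit 4) (nat_lit 316) (nat_lit 243) (nat_lit 221)) (XT.lf (nat_lit 0) (nat_lit 1224706940674)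 (nat_lit 152) (nat_lit 134199975703) (nat_lit 0) (nat_lit 1223693247422) (nat_lit 1) (nat_lit 5) (nat_lit 3) (nat_lit 4) (nat_lit 1) (nat_lit 4) (nat_lit 317) (nat_lit 243) (nat_lit 220)))))) (XT.nd (nat_lit 546) (nat_lit 0) (nat_lit 0) (XT.nd (nat_lit 234) (nat_lit 0) (nat_lit 0) (XT.nd (nat_lit 78) (nat_lit 0) (nat_lit 0) (XT.lf (nat_lit 0) (nat_lit 1410764573869) (nat_lit 152) (nat_lit 149279157291) (nat_lit 0) (nat_lit 1409745346386) (nat_lit 1) (nat_lit 5) (nat_lit 3) (nat_lit 4) (nat_lit 1) (nat_lit 4) (nat_lit 318) (nat_lit 243) (nat_lit 219)) (XT.nd (nat_lit 78) (nat_lit 0) (nat_lit 0) (XT.lf (nat_lit 0) (nat_lit 1624707979901) (nat_lit 152) (nat_lit 166666241009) (nat_lit 0) (nat_lit 1623683940042) (nat_lit 1) (nat_lit 5) (nat_lit 3) (nat_lit 4) (nat_lit 1) (nat_lit 4) (nat_lit 319) (nat_lit 243) (nat_lit 218)) (XT.lf (nat_lit 0) (nat_lit 1870723008017) (nat_lit 152) (nat_lit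 186701408928) (nat_lit 0) (nat_lit 1869694783484) (nat_lit 1) (nat_lit 5) (nat_lit 3) (nat_lit 4) (nat_lit 1) (nat_lit 4) (nat_lit 320) (nat_lit 243) (nat_lit 217)))) (XT.nd (nat_lit 156) (nat_lit 0) (nat_lit 0) (XT.nd (nat_lit 78) (nat_lit 0) (nat_lit 0) (XT.lf (nat_lit 0) (nat_lit 2153622995724) (nat_lit 152) (nat_lit 209776653466) (nat_lit 0) (nat_lit 2152591132344) (nat_lit 1) (nat_lit 5) (nat_lit 3) (nat_lit 4) (nat_lit 1) (nat_lit 4) (nat_lit 321) (nat_lit 243) (nat_lit 216)) (XT.lf (nat_lit 0) (nat_lit 2478942942782) (nat_lit 152) (nat_lit 236343446798) (nat_lit 0) (nat_lit 2477907915187) (nat_lit 1) (nat_lit 5) (nat_lit 3) (nat_lit 4) (nat_lit 1) (nat_lit 4) (nat_lit 322) (nat_lit 243) (nat_lit 215))) (XT.nd (nat_lit 78) (nat_lit 0) (nat_lit 0) (XT.lf (nat_lit 0) (nat_lit 2853047804676) (nat_lit 152) (nat_lit 266921574011) (nat_lit 0) (nat_lit 2852010025590) (nat_lit 1) (nat_lit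 5) (nat_lit 3) (nat_lit 4) (nat_lit 1) (nat_lit 4) (nat_lit 323) (nat_lit 243) (nat_lit 214)) (XT.lf (nat_lit 0) (nat_lit 3283257024358) (nat_lit 152) (nat_lit 302109302811) (nat_lit 0) (nat_lit 3282216852670) (nat_lit 1) (nat_lit 5) (nat_lit 3) (nat_lit 4) (nat_lit 1) (nat_lit 4) (nat_lit 324) (nat_lit 243) (nat_lit 213))))) (XT.nd (nat_lit 234) (nat_lit 0) (nat_lit 0) (XT.nd (nat_lit 78) (nat_lit 0) (nat_lit 0) (XT.lf (nat_lit 0) (nat_lit 3777987738733) (nat_lit 152) (nat_lit 342595088761) (nat_lit 0) (nat_lit 3776945486522) (nat_lit 1) (nat_lit 5) (nat_lit 3) (nat_lit 4) (nat_lit 1) (nat_lit 4) (nat_lit 325) (nat_lit 243) (nat_lit 212)) (XT.nd (nat_lit 78) (nat_lit 0) (nat_lit 0) (XT.lf (nat_lit 0) (nat_lit 4346919461778) (nat_lit 152) (nat_lit 389171045065) (nat_lit 0) (nat_lit 4345875400418) (nat_lit 1) (nat_lit 5) (nat_lit 3) (nat_lit 4) (nat_lit 1) (nat_lit 4) (nat_lit 326) (nat_lit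 243) (nat_lit 211)) (XT.lf (nat_lit 0) (nat_lit 5001183466336) (nat_lit 152) (nat_lit 442748440434) (nat_lit 0) (nat_lit 5000137831802) (nat_lit 1) (nat_lit 5) (nat_lit 3) (nat_lit 4) (nat_lit 1) (nat_lit 4) (nat_lit 327) (nat_lit 243) (nat_lit 210)))) (XT.nd (nat_lit 156) (nat_lit 0) (nat_lit 0) (XT.nd (nat_lit 78) (nat_lit 0) (nat_lit 0) (XT.lf (nat_lit 0) (nat_lit 5753580569887) (nat_lit 152) (nat_lit 504375528255) (nat_lit 0) (nat_lit 5752533567375) (nat_lit 1) (nat_lit 5) (nat_lit 3) (nat_lit 4) (nat_lit 1) (nat_lit 4) (nat_lit 328) (nat_lit 243) (nat_lit 209)) (XT.lf (nat_lit 0) (nat_lit 6618831585326) (nat_lit 152) (nat_lit 575258055898) (nat_lit 0) (nat_lit 6617783393269) (nat_lit 1) (nat_lit 5) (nat_lit 3) (nat_lit 4) (nat_lit 1) (nat_lit 4) (nat_lit 329) (nat_lit 243) (nat_lit 208))) (XT.nd (nat_lit 78) (nat_lit 0) (nat_lit 0) (XT.lf (nat_lit 0) (nat_lit 7613865336870) (nat_lit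 152) (nat_lit 656782855426) (nat_lit 0) (nat_lit 7612816110425) (nat_lit 1) (nat_lit 5) (nat_lit 3) (nat_lit 4) (nat_lit 1) (nat_lit 4) (nat_lit 330) (nat_lit 243) (nat_lit 207)) (XT.lf (nat_lit 0) (nat_lit 8758149876178) (nat_lit 152) (nat_lit 750544977264) (nat_lit 0) (nat_lit 8757099750266) (nat_lit 1) (nat_lit 5) (nat_lit 3) (nat_lit 4) (nat_lit 1) (nat_lit 4) (nat_lit 331) (nat_lit 243) (nat_lit 206))))))))
noncomputable def xc7 : XT := (XT.nd (nat_lit 2106) (nat_lit 0) (nat_lit 0) (XT.nd (nat_lit 1014) (nat_lit 0) (nat_lit 0) (XT.nd (nat_lit 468) (nat_lit 0) (nat_lit 0) (XT.nd (nat_lit 234) (nat_lit 0) (nat_lit 0) (XT.nd (nat_lit 78) (nat_lit 0) (nat_lit 0) (XT.lf (nat_lit 0) (nat_lit 1539942980) (nat_lit 152) (nat_lit 37561190641) (nat_lit 0) (nat_lit 1539942980) (nat_lit 1) (nat_lit 5) (nat_lit 3) (nat_lit 4) (nat_lit 1) (nat_lit 4) (nat_lit 292) (nat_lit 244) (nat_lit 244)) (XT.nd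 (nat_lit 78) (nat_lit 0) (nat_lit 0) (XT.lf (nat_lit 0) (nat_lit 11064057005) (nat_lit 152) (nat_lit 70887479495) (nat_lit 0) (nat_lit 10905638651) (nat_lit 1) (nat_lit 5) (nat_lit 3) (nat_lit 4) (nat_lit 1) (nat_lit 4) (nat_lit 293) (nat_lit 244) (nat_lit 243)) (XT.lf (nat_lit 0) (nat_lit 19591134580) (nat_lit 152) (nat_lit 67334813063) (nat_lit 0) (nat_lit 19294961135) (nat_lit 1) (nat_lit 5) (nat_lit 3) (nat_lit 4) (nat_lit 1) (nat_lit 4) (nat_lit 294) (nat_lit 244) (nat_lit 242)))) (XT.nd (nat_lit 78) (nat_lit 0) (nat_lit 0) (XT.lf (nat_lit 0) (nat_lit 28827952811) (nat_lit 152) (nat_lit 64394873296) (nat_lit 0) (nat_lit 28411992331) (nat_lit 1) (nat_lit 5) (nat_lit 3) (nat_lit 4) (nat_lit 1) (nat_lit 4) (nat_lit 295) (nat_lit 244) (nat_lit 241)) (XT.nd (nat_lit 78) (nat_lit 0) (nat_lit 0) (XT.lf (nat_lit 0) (nat_lit 38955232056) (nat_lit 152) (nat_lit 62010139635) (nat_lit 0) (nat_lit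 38435108936) (nat_lit 1) (nat_lit 5) (nat_lit 3) (nat_lit 4) (nat_lit 1) (nat_lit 4) (nat_lit 296) (nat_lit 244) (nat_lit 240)) (XT.lf (nat_lit 0) (nat_lit 50171114734) (nat_lit 152) (nat_lit 60133954246) (nat_lit 0) (nat_lit 49560415406) (nat_lit 1) (nat_lit 5) (nat_lit 3) (nat_lit 4) (nat_lit 1) (nat_lit 4) (nat_lit 297) (nat_lit 244) (nat_lit 239))))) (XT.nd (nat_lit 234) (nat_lit 0) (nat_lit 0) (XT.nd (nat_lit 78) (nat_lit 0) (nat_lit 0) (XT.lf (nat_lit 0) (nat_lit 62695042028) (nat_lit 152) (nat_lit 58729609154) (nat_lit 0) (nat_lit 62005580780) (nat_lit 1) (nat_lit 5) (nat_lit 3) (nat_lit 4) (nat_lit 1) (nat_lit 4) (nat_lit 298) (nat_lit 244) (nat_lit 238)) (XT.nd (nat_lit 78) (nat_lit 0) (nat_lit 0) (XT.lf (nat_lit 0) (nat_lit 76772047298) (nat_lit 152) (nat_lit 57769628043) (nat_lit 0) (nat_lit 76014097424) (nat_lit 1) (nat_lit 5) (nat_lit 3) (nat_lit 4) (nat_lit 1) (nat_lit 4)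 (nat_lit 299) (nat_lit 244) (nat_lit 237)) (XT.lf (nat_lit 0) (nat_lit 92677550212) (nat_lit 152) (nat_lit 57235228672) (nat_lit 0) (nat_lit 91860045011) (nat_lit 1) (nat_lit 5) (nat_lit 3) (nat_lit 4) (nat_lit 1) (nat_lit 4) (nat_lit 300) (nat_lit 244) (nat_lit 236)))) (XT.nd (nat_lit 156) (nat_lit 0) (nat_lit 0) (XT.nd (nat_lit 78) (nat_lit 0) (nat_lit 0) (XT.lf (nat_lit 0) (nat_lit 110722745393) (nat_lit 152) (nat_lit 57115955404) (nat_lit 0) (nat_lit 109853452952) (nat_lit 1) (nat_lit 5) (nat_lit 3) (nat_lit 4) (nat_lit 1) (nat_lit 4) (nat_lit 301) (nat_lit 244) (nat_lit 235)) (XT.lf (nat_lit 0) (nat_lit 131260691008) (nat_lit 152) (nat_lit 57409474629) (nat_lit 0) (nat_lit 130346366183) (nat_lit 1) (nat_lit 5) (nat_lit 3) (nat_lit 4) (nat_lit 1) (nat_lit 4) (nat_lit 302) (nat_lit 244) (nat_lit 234))) (XT.nd (nat_lit 78) (nat_lit 0) (nat_lit 0) (XT.lf (nat_lit 0) (nat_lit 154693216427)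 (nat_lit 152) (nat_lit 58121529115) (nat_lit 0) (nat_lit 153739733007) (nat_lit 1) (nat_lit 5) (nat_lit 3) (nat_lit 4) (nat_lit 1) (nat_lit 4) (nat_lit 303) (nat_lit 244) (nat_lit 233)) (XT.lf (nat_lit 0) (nat_lit 181478784103) (nat_lit 152) (nat_lit 59266050364) (nat_lit 0) (nat_lit 180491249732) (nat_lit 1) (nat_lit 5) (nat_lit 3) (nat_lit 4) (nat_lit 1) (nat_lit 4) (nat_lit 304) (nat_lit 244) (nat_lit 232)))))) (XT.nd (nat_lit 546) (nat_lit 0) (nat_lit 0) (XT.nd (nat_lit 234) (nat_lit 0) (nat_lit 0) (XT.nd (nat_lit 78) (nat_lit 0) (nat_lit 0) (XT.lf (nat_lit 0) (nat_lit 212141459492) (nat_lit 152) (nat_lit 60865431182) (nat_lit 0) (nat_lit 211124315598) (nat_lit 1) (nat_lit 5) (nat_lit 3) (nat_lit 4) (nat_lit 1) (nat_lit 4) (nat_lit 305) (nat_lit 244) (nat_lit 231)) (XT.nd (nat_lit 78) (nat_lit 0) (nat_lit 0) (XT.lf (nat_lit 0) (nat_lit 247281164503) (nat_lit 152) (nat_lit 62950963803)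 (nat_lit 0) (nat_lit 246238273197) (nat_lit 1) (nat_lit 5) (nat_lit 3) (nat_lit 4) (nat_lit 1) (nat_lit 4) (nat_lit 306) (nat_lit 244) (nat_lit 230)) (XT.lf (nat_lit 0) (nat_lit 287585415104) (nat_lit 152) (nat_lit 65563452125) (nat_lit 0) (nat_lit 286520134745) (nat_lit 1) (nat_lit 5) (nat_lit 3) (nat_lit 4) (nat_lit 1) (nat_lit 4) (nat_lit 307) (nat_lit 244) (nat_lit 229)))) (XT.nd (nat_lit 156) (nat_lit 0) (nat_lit 0) (XT.nd (nat_lit 78) (nat_lit 0) (nat_lit 0) (XT.lf (nat_lit 0) (nat_lit 333842772720) (nat_lit 152) (nat_lit 68754010051) (nat_lit 0) (nat_lit 332758023618) (nat_lit 1) (nat_lit 5) (nat_lit 3) (nat_lit 4) (nat_lit 1) (nat_lit 4) (nat_lit 308) (nat_lit 244) (nat_lit 228)) (XT.lf (nat_lit 0) (nat_lit 386958272607) (nat_lit 152) (nat_lit 72585061540) (nat_lit 0) (nat_lit 385856594165) (nat_lit 1) (nat_lit 5) (nat_lit 3) (nat_lit 4) (nat_lit 1) (nat_lit 4) (nat_lit 309) (nat_lit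 244) (nat_lit 227))) (XT.nd (nat_lit 78) (nat_lit 0) (nat_lit 0) (XT.lf (nat_lit 0) (nat_lit 447971131070) (nat_lit 152) (nat_lit 77131561948) (nat_lit 0) (nat_lit 446854731461) (nat_lit 1) (nat_lit 5) (nat_lit 3) (nat_lit 4) (nat_lit 1) (nat_lit 4) (nat_lit 310) (nat_lit 244) (nat_lit 226)) (XT.lf (nat_lit 0) (nat_lit 518075077946) (nat_lit 152) (nat_lit 82482464543) (nat_lit 0) (nat_lit 516945877324) (nat_lit 1) (nat_lit 5) (nat_lit 3) (nat_lit 4) (nat_lit 1) (nat_lit 4) (nat_lit 311) (nat_lit 244) (nat_lit 225))))) (XT.nd (nat_lit 234) (nat_lit 0) (nat_lit 0) (XT.nd (nat_lit 78) (nat_lit 0) (nat_lit 0) (XT.lf (nat_lit 0) (nat_lit 598641712197) (nat_lit 152) (nat_lit 88742460897) (nat_lit 0) (nat_lit 597501380258) (nat_lit 1) (nat_lit 5) (nat_lit 3) (nat_lit 4) (nat_lit 1) (nat_lit 4) (nat_lit 312) (nat_lit 244) (nat_lit 224)) (XT.nd (nat_lit 78) (nat_lit 0) (nat_lit 0) (XT.lf (nat_lit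 0) (nat_lit 691247337536) (nat_lit 152) (nat_lit 96034029201) (nat_lit 0) (nat_lit 690097326191) (nat_lit 1) (nat_lit 5) (nat_lit 3) (nat_lit 4) (nat_lit 1) (nat_lit 4) (nat_lit 313) (nat_lit 244) (nat_lit 223)) (XT.lf (nat_lit 0) (nat_lit 797703803154) (nat_lit 152) (nat_lit 104499830573) (nat_lit 0) (nat_lit 796545374935) (nat_lit 1) (nat_lit 5) (nat_lit 3) (nat_lit 4) (nat_lit 1) (nat_lit 4) (nat_lit 314) (nat_lit 244) (nat_lit 222)))) (XT.nd (nat_lit 156) (nat_lit 0) (nat_lit 0) (XT.nd (nat_lit 78) (nat_lit 0) (nat_lit 0) (XT.lf (nat_lit 0) (nat_lit 920093952945) (nat_lit 152) (nat_lit 114305500257) (nat_lit 0) (nat_lit 918928205705) (nat_lit 1) (nat_lit 5) (nat_lit 3) (nat_lit 4) (nat_lit 1) (nat_lit 4) (nat_lit 315) (nat_lit 244) (nat_lit 221)) (XT.lf (nat_lit 0) (nat_lit 1060812376795) (nat_lit 152) (nat_lit 125642888313) (nat_lit 0) (nat_lit 1059640265188) (nat_lit 1) (nat_lit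 5) (nat_lit 3) (nat_lit 4) (nat_lit 1) (nat_lit 4) (nat_lit 316) (nat_lit 244) (nat_lit 220))) (XT.nd (nat_lit 78) (nat_lit 0) (nat_lit 0) (XT.lf (nat_lit 0) (nat_lit 1222612261257) (nat_lit 152) (nat_lit 138733813202) (nat_lit 0) (nat_lit 1221434615420) (nat_lit 1) (nat_lit 5) (nat_lit 3) (nat_lit 4) (nat_lit 1) (nat_lit 4) (nat_lit 317) (nat_lit 244) (nat_lit 219)) (XT.lf (nat_lit 0) (nat_lit 1408659256247) (nat_lit 152) (nat_lit 153834401717) (nat_lit 0) (nat_lit 1407476798033) (nat_lit 1) (nat_lit 5) (nat_lit 3) (nat_lit 4) (nat_lit 1) (nat_lit 4) (nat_lit 318) (nat_lit 244) (nat_lit 218))))))) (XT.nd (nat_lit 38454) (nat_lit 0) (nat_lit 0) (XT.nd (nat_lit 546) (nat_lit 0) (nat_lit 0) (XT.nd (nat_lit 234) (nat_lit 0) (nat_lit 0) (XT.nd (nat_lit 78) (nat_lit 0) (nat_lit 0) (XT.lf (nat_lit 0) (nat_lit 1622593411664) (nat_lit 152) (nat_lit 171240100153) (nat_lit 0) (nat_lit 1621406768777)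 (nat_lit 1) (nat_lit 5) (nat_lit 3) (nat_lit 4) (nat_lit 1) (nat_lit 4) (nat_lit 319) (nat_lit 244) (nat_lit 217)) (XT.nd (nat_lit 78) (nat_lit 0) (nat_lit 0) (XT.lf (nat_lit 0) (nat_lit 1868600395768) (nat_lit 152) (nat_lit 191291454784) (nat_lit 0) (nat_lit 1867410114033) (nat_lit 1) (nat_lit 5) (nat_lit 3) (nat_lit 4) (nat_lit 1) (nat_lit 4) (nat_lit 320) (nat_lit 244) (nat_lit 216)) (XT.lf (nat_lit 0) (nat_lit 2151493388682) (nat_lit 152) (nat_lit 214380774724) (nat_lit 0) (nat_lit 2150299942732) (nat_lit 1) (nat_lit 5) (nat_lit 3) (nat_lit 4) (nat_lit 1) (nat_lit 4) (nat_lit 321) (nat_lit 244) (nat_lit 215)))) (XT.nd (nat_lit 156) (nat_lit 0) (nat_lit 0) (XT.nd (nat_lit 78) (nat_lit 0) (nat_lit 0) (XT.lf (nat_lit 0) (nat_lit 2476807253311) (nat_lit 152) (nat_lit 240959807535) (nat_lit 0) (nat_lit 2475611055870) (nat_lit 1) (nat_lit 5) (nat_lit 3) (nat_lit 4) (nat_lit 1) (nat_lit 4)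 (nat_lit 322) (nat_lit 244) (nat_lit 214)) (XT.lf (nat_lit 0) (nat_lit 2850906826137) (nat_lit 152) (nat_lit 271548577773) (nat_lit 0) (nat_lit 2849708236095) (nat_lit 1) (nat_lit 5) (nat_lit 3) (nat_lit 4) (nat_lit 1) (nat_lit 4) (nat_lit 323) (nat_lit 244) (nat_lit 213))) (XT.nd (nat_lit 78) (nat_lit 0) (nat_lit 0) (XT.lf (nat_lit 0) (nat_lit 3281111446628) (nat_lit 152) (nat_lit 306745561378) (nat_lit 0) (nat_lit 3279910776064) (nat_lit 1) (nat_lit 5) (nat_lit 3) (nat_lit 4) (nat_lit 1) (nat_lit 4) (nat_lit 324) (nat_lit 244) (nat_lit 212)) (XT.lf (nat_lit 0) (nat_lit 3775838161707) (nat_lit 152) (nat_lit 347239394985) (nat_lit 0) (nat_lit 3774635681993) (nat_lit 1) (nat_lit 5) (nat_lit 3) (nat_lit 4) (nat_lit 1) (nat_lit 4) (nat_lit 325) (nat_lit 244) (nat_lit 211))))) (XT.nd (nat_lit 234) (nat_lit 0) (nat_lit 0) (XT.nd (nat_lit 78) (nat_lit 0) (nat_lit 0) (XT.lf (nat_lit 0) (nat_lit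 4344766407104) (nat_lit 152) (nat_lit 393822349251) (nat_lit 0) (nat_lit 4343562354216) (nat_lit 1) (nat_lit 5) (nat_lit 3) (nat_lit 4) (nat_lit 1) (nat_lit 4) (nat_lit 326) (nat_lit 244) (nat_lit 210)) (XT.nd (nat_lit 78) (nat_lit 0) (nat_lit 0) (XT.lf (nat_lit 0) (nat_lit 4999027387620) (nat_lit 152) (nat_lit 447405829805) (nat_lit 0) (nat_lit 4997821966754) (nat_lit 1) (nat_lit 5) (nat_lit 3) (nat_lit 4) (nat_lit 1) (nat_lit 4) (nat_lit 327) (nat_lit 244) (nat_lit 209)) (XT.lf (nat_lit 0) (nat_lit 5751421861569) (nat_lit 152) (nat_lit 509038209090) (nat_lit 0) (nat_lit 5750215251158) (nat_lit 1) (nat_lit 5) (nat_lit 3) (nat_lit 4) (nat_lit 1) (nat_lit 4) (nat_lit 328) (nat_lit 244) (nat_lit 208)))) (XT.nd (nat_lit 156) (nat_lit 0) (nat_lit 0) (XT.nd (nat_lit 78) (nat_lit 0) (nat_lit 0) (XT.lf (nat_lit 0) (nat_lit 6616670590398) (nat_lit 152) (nat_lit 579925338007) (nat_lit 0) (nat_lit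 6615462945600) (nat_lit 1) (nat_lit 5) (nat_lit 3) (nat_lit 4) (nat_lit 1) (nat_lit 4) (nat_lit 329) (nat_lit 244) (nat_lit 207)) (XT.lf (nat_lit 0) (nat_lit 7611702353585) (nat_lit 152) (nat_lit 661454138642) (nat_lit 0) (nat_lit 7610493809319) (nat_lit 1) (nat_lit 5) (nat_lit 3) (nat_lit 4) (nat_lit 1) (nat_lit 4) (nat_lit 330) (nat_lit 244) (nat_lit 206))) (XT.nd (nat_lit 37440) (nat_lit 0) (nat_lit 152) (XT.lf (nat_lit 0) (nat_lit 8755985163887) (nat_lit 152) (nat_lit 755219739704) (nat_lit 0) (nat_lit 8754775837475) (nat_lit 1) (nat_lit 5) (nat_lit 3) (nat_lit 4) (nat_lit 1) (nat_lit 4) (nat_lit 331) (nat_lit 244) (nat_lit 205)) (XT.lf (nat_lit 0) (nat_lit 20245055984) (nat_lit 76) (nat_lit 5503116628) (nat_lit 76) (nat_lit 5503116628) (nat_lit 3) (nat_lit 4) (nat_lit 4) (nat_lit 5) (nat_lit 4) (nat_lit 4) (nat_lit 290) (nat_lit 245) (nat_lit 245)))))) (XT.nd (nat_lit 546) (nat_lit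 0) (nat_lit 0) (XT.nd (nat_lit 234) (nat_lit 0) (nat_lit 0) (XT.nd (nat_lit 78) (nat_lit 152) (nat_lit 0) (XT.lf (nat_lit 0) (nat_lit 62605969520) (nat_lit 76) (nat_lit 4412814548) (nat_lit 76) (nat_lit 4216058952) (nat_lit 3) (nat_lit 4) (nat_lit 4) (nat_lit 5) (nat_lit 4) (nat_lit 4) (nat_lit 291) (nat_lit 245) (nat_lit 244)) (XT.nd (nat_lit 78) (nat_lit 0) (nat_lit 0) (XT.lf (nat_lit 0) (nat_lit 2911868465) (nat_lit 152) (nat_lit 75827074873) (nat_lit 0) (nat_lit 2571269003) (nat_lit 1) (nat_lit 5) (nat_lit 3) (nat_lit 4) (nat_lit 1) (nat_lit 4) (nat_lit 292) (nat_lit 245) (nat_lit 243)) (XT.lf (nat_lit 0) (nat_lit 10591518985) (nat_lit 152) (nat_lit 72204950120) (nat_lit 0) (nat_lit 10113164433) (nat_lit 1) (nat_lit 5) (nat_lit 3) (nat_lit 4) (nat_lit 1) (nat_lit 4) (nat_lit 293) (nat_lit 245) (nat_lit 242)))) (XT.nd (nat_lit 156) (nat_lit 0) (nat_lit 0) (XT.nd (nat_lit 78) (nat_lit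 0) (nat_lit 0) (XT.lf (nat_lit 0) (nat_lit 18853796105) (nat_lit 152) (nat_lit 69185133283) (nat_lit 0) (nat_lit 18255654517) (nat_lit 1) (nat_lit 5) (nat_lit 3) (nat_lit 4) (nat_lit 1) (nat_lit 4) (nat_lit 294) (nat_lit 245) (nat_lit 241)) (XT.lf (nat_lit 0) (nat_lit 27860353070) (nat_lit 152) (nat_lit 66708540991) (nat_lit 0) (nat_lit 27158048844) (nat_lit 1) (nat_lit 5) (nat_lit 3) (nat_lit 4) (nat_lit 1) (nat_lit 4) (nat_lit 295) (nat_lit 245) (nat_lit 240))) (XT.nd (nat_lit 78) (nat_lit 0) (nat_lit 0) (XT.lf (nat_lit 0) (nat_lit 37787405127) (nat_lit 152) (nat_lit 64726718177) (nat_lit 0) (nat_lit 36994524692) (nat_lit 1) (nat_lit 5) (nat_lit 3) (nat_lit 4) (nat_lit 1) (nat_lit 4) (nat_lit 296) (nat_lit 245) (nat_lit 239)) (XT.lf (nat_lit 0) (nat_lit 48829177207) (nat_lit 152) (nat_lit 63200890046) (nat_lit 0) (nat_lit 47957534852) (nat_lit 1) (nat_lit 5) (nat_lit 3) (nat_lit 4) (nat_lit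 1) (nat_lit 4) (nat_lit 297) (nat_lit 245) (nat_lit 238))))) (XT.nd (nat_lit 234) (nat_lit 0) (nat_lit 0) (XT.nd (nat_lit 78) (nat_lit 0) (nat_lit 0) (XT.lf (nat_lit 0) (nat_lit 61201703981) (nat_lit 152) (nat_lit 62101203440) (nat_lit 0) (nat_lit 60261573000) (nat_lit 1) (nat_lit 5) (nat_lit 3) (nat_lit 4) (nat_lit 1) (nat_lit 4) (nat_lit 298) (nat_lit 245) (nat_lit 237)) (XT.nd (nat_lit 78) (nat_lit 0) (nat_lit 0) (XT.lf (nat_lit 0) (nat_lit 75147056625) (nat_lit 152) (nat_lit 61406142751) (nat_lit 0) (nat_lit 74147370317) (nat_lit 1) (nat_lit 5) (nat_lit 3) (nat_lit 4) (nat_lit 1) (nat_lit 4) (nat_lit 299) (nat_lit 245) (nat_lit 236)) (XT.lf (nat_lit 0) (nat_lit 90938078995) (nat_lit 152) (nat_lit 61102108965) (nat_lit 0) (nat_lit 89886605446) (nat_lit 1) (nat_lit 5) (nat_lit 3) (nat_lit 4) (nat_lit 1) (nat_lit 4) (nat_lit 300) (nat_lit 245) (nat_lit 235)))) (XT.nd (nat_lit 156) (nat_lit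 0) (nat_lit 0) (XT.nd (nat_lit 78) (nat_lit 0) (nat_lit 0) (XT.lf (nat_lit 0) (nat_lit 108883725877) (nat_lit 152) (nat_lit 61183153596) (nat_lit 0) (nat_lit 107787219944) (nat_lit 1) (nat_lit 5) (nat_lit 3) (nat_lit 4) (nat_lit 1) (nat_lit 4) (nat_lit 301) (nat_lit 245) (nat_lit 234)) (XT.lf (nat_lit 0) (nat_lit 129335107753) (nat_lit 152) (nat_lit 61650862299) (nat_lit 0) (nat_lit 128199443226) (nat_lit 1) (nat_lit 5) (nat_lit 3) (nat_lit 4) (nat_lit 1) (nat_lit 4) (nat_lit 302) (nat_lit 245) (nat_lit 233))) (XT.nd (nat_lit 78) (nat_lit 0) (nat_lit 0) (XT.lf (nat_lit 0) (nat_lit 152692360355) (nat_lit 152) (nat_lit 62514385897) (nat_lit 0) (nat_lit 151522644877) (nat_lit 1) (nat_lit 5) (nat_lit 3) (nat_lit 4) (nat_lit 1) (nat_lit 4) (nat_lit 303) (nat_lit 245) (nat_lit 232)) (XT.lf (nat_lit 0) (nat_lit 179412473409) (nat_lit 152) (nat_lit 63790619416) (nat_lit 0) (nat_lit 178213148407)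 (nat_lit 1) (nat_lit 5) (nat_lit 3) (nat_lit 4) (nat_lit 1) (nat_lit 4) (nat_lit 304) (nat_lit 245) (nat_lit 231))))))))
noncomputable def xc8 : XT := (XT.nd (nat_lit 39312) (nat_lit 0) (nat_lit 0) (XT.nd (nat_lit 1014) (nat_lit 0) (nat_lit 0) (XT.nd (nat_lit 468) (nat_lit 0) (nat_lit 0) (XT.nd (nat_lit 234) (nat_lit 0) (nat_lit 0) (XT.nd (nat_lit 78) (nat_lit 0) (nat_lit 0) (XT.lf (nat_lit 0) (nat_lit 210018231735) (nat_lit 152) (nat_lit 65504532644) (nat_lit 0) (nat_lit 208793159322) (nat_lit 1) (nat_lit 5) (nat_lit 3) (nat_lit 4) (nat_lit 1) (nat_lit 4) (nat_lit 305) (nat_lit 245) (nat_lit 230)) (XT.nd (nat_lit 78) (nat_lit 0) (nat_lit 0) (XT.lf (nat_lit 0) (nat_lit 245108443647) (nat_lit 152) (nat_lit 67689658664) (nat_lit 0) (nat_lit 243860982181) (nat_lit 1) (nat_lit 5) (nat_lit 3) (nat_lit 4) (nat_lit 1) (nat_lit 4) (nat_lit 306) (nat_lit 245) (nat_lit 229)) (XT.lf (nat_lit 0) (nat_lit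 285369656771) (nat_lit 152) (nat_lit 70388749942) (nat_lit 0) (nat_lit 284102726563) (nat_lit 1) (nat_lit 5) (nat_lit 3) (nat_lit 4) (nat_lit 1) (nat_lit 4) (nat_lit 307) (nat_lit 245) (nat_lit 228)))) (XT.nd (nat_lit 78) (nat_lit 0) (nat_lit 0) (XT.lf (nat_lit 0) (nat_lit 331589590494) (nat_lit 152) (nat_lit 73654614786) (nat_lit 0) (nat_lit 330305730944) (nat_lit 1) (nat_lit 5) (nat_lit 3) (nat_lit 4) (nat_lit 1) (nat_lit 4) (nat_lit 308) (nat_lit 245) (nat_lit 227)) (XT.nd (nat_lit 78) (nat_lit 0) (nat_lit 0) (XT.lf (nat_lit 0) (nat_lit 384672547866) (nat_lit 152) (nat_lit 77551150552) (nat_lit 0) (nat_lit 383373967150) (nat_lit 1) (nat_lit 5) (nat_lit 3) (nat_lit 4) (nat_lit 1) (nat_lit 4) (nat_lit 309) (nat_lit 245) (nat_lit 226)) (XT.lf (nat_lit 0) (nat_lit 445657108488) (nat_lit 152) (nat_lit 82154593809) (nat_lit 0) (nat_lit 444345726759) (nat_lit 1) (nat_lit 5) (nat_lit 3) (nat_lit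 4) (nat_lit 1) (nat_lit 4) (nat_lit 310) (nat_lit 245) (nat_lit 225))))) (XT.nd (nat_lit 234) (nat_lit 0) (nat_lit 0) (XT.nd (nat_lit 78) (nat_lit 0) (nat_lit 0) (XT.lf (nat_lit 0) (nat_lit 515736448547) (nat_lit 152) (nat_lit 87555011925) (nat_lit 0) (nat_lit 514413935501) (nat_lit 1) (nat_lit 5) (nat_lit 3) (nat_lit 4) (nat_lit 1) (nat_lit 4) (nat_lit 311) (nat_lit 245) (nat_lit 224)) (XT.nd (nat_lit 78) (nat_lit 0) (nat_lit 0) (XT.lf (nat_lit 0) (nat_lit 596281685566) (nat_lit 152) (nat_lit 93858065255) (nat_lit 0) (nat_lit 594949493114) (nat_lit 1) (nat_lit 5) (nat_lit 3) (nat_lit 4) (nat_lit 1) (nat_lit 4) (nat_lit 312) (nat_lit 245) (nat_lit 223)) (XT.lf (nat_lit 0) (nat_lit 688868704616) (nat_lit 152) (nat_lit 101187074406) (nat_lit 0) (nat_lit 687528095290) (nat_lit 1) (nat_lit 5) (nat_lit 3) (nat_lit 4) (nat_lit 1) (nat_lit 4) (nat_lit 313) (nat_lit 245) (nat_lit 222)))) (XT.nd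 (nat_lit 156) (nat_lit 0) (nat_lit 0) (XT.nd (nat_lit 78) (nat_lit 0) (nat_lit 0) (XT.lf (nat_lit 0) (nat_lit 795308990853) (nat_lit 152) (nat_lit 109685433037) (nat_lit 0) (nat_lit 793961062505) (nat_lit 1) (nat_lit 5) (nat_lit 3) (nat_lit 4) (nat_lit 1) (nat_lit 4) (nat_lit 314) (nat_lit 245) (nat_lit 221)) (XT.lf (nat_lit 0) (nat_lit 917685071616) (nat_lit 152) (nat_lit 119519413381) (nat_lit 0) (nat_lit 916330778902) (nat_lit 1) (nat_lit 5) (nat_lit 3) (nat_lit 4) (nat_lit 1) (nat_lit 4) (nat_lit 315) (nat_lit 245) (nat_lit 220))) (XT.nd (nat_lit 78) (nat_lit 0) (nat_lit 0) (XT.lf (nat_lit 0) (nat_lit 1058391261529) (nat_lit 152) (nat_lit 130881419402) (nat_lit 0) (nat_lit 1057031434583) (nat_lit 1) (nat_lit 5) (nat_lit 3) (nat_lit 4) (nat_lit 1) (nat_lit 4) (nat_lit 316) (nat_lit 245) (nat_lit 219)) (XT.lf (nat_lit 0) (nat_lit 1220180507785) (nat_lit 152) (nat_lit 143993751218) (nat_lit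 0) (nat_lit 1218815868465) (nat_lit 1) (nat_lit 5) (nat_lit 3) (nat_lit 4) (nat_lit 1) (nat_lit 4) (nat_lit 317) (nat_lit 245) (nat_lit 218)))))) (XT.nd (nat_lit 546) (nat_lit 0) (nat_lit 0) (XT.nd (nat_lit 234) (nat_lit 0) (nat_lit 0) (XT.nd (nat_lit 78) (nat_lit 0) (nat_lit 0) (XT.lf (nat_lit 0) (nat_lit 1406218252160) (nat_lit 152) (nat_lit 159112954451) (nat_lit 0) (nat_lit 1404849428166) (nat_lit 1) (nat_lit 5) (nat_lit 3) (nat_lit 4) (nat_lit 1) (nat_lit 4) (nat_lit 318) (nat_lit 245) (nat_lit 217)) (XT.nd (nat_lit 78) (nat_lit 0) (nat_lit 0) (XT.lf (nat_lit 0) (nat_lit 1620144363566) (nat_lit 152) (nat_lit 176534839598) (nat_lit 0) (nat_lit 1618771900724) (nat_lit 1) (nat_lit 5) (nat_lit 3) (nat_lit 4) (nat_lit 1) (nat_lit 4) (nat_lit 319) (nat_lit 245) (nat_lit 216)) (XT.lf (nat_lit 0) (nat_lit 1866144352876) (nat_lit 152) (nat_lit 196600269631) (nat_lit 0) (nat_lit 1864768725820)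 (nat_lit 1) (nat_lit 5) (nat_lit 3) (nat_lit 4) (nat_lit 1) (nat_lit 4) (nat_lit 320) (nat_lit 245) (nat_lit 215)))) (XT.nd (nat_lit 156) (nat_lit 0) (nat_lit 0) (XT.nd (nat_lit 78) (nat_lit 0) (nat_lit 0) (XT.lf (nat_lit 0) (nat_lit 2149031263361) (nat_lit 152) (nat_lit 219701829050) (nat_lit 0) (nat_lit 2147652884813) (nat_lit 1) (nat_lit 5) (nat_lit 3) (nat_lit 4) (nat_lit 1) (nat_lit 4) (nat_lit 321) (nat_lit 245) (nat_lit 214)) (XT.lf (nat_lit 0) (nat_lit 2474339838922) (nat_lit 152) (nat_lit 246291504887) (nat_lit 0) (nat_lit 2472959067773) (nat_lit 1) (nat_lit 5) (nat_lit 3) (nat_lit 4) (nat_lit 1) (nat_lit 4) (nat_lit 322) (nat_lit 245) (nat_lit 213))) (XT.nd (nat_lit 78) (nat_lit 0) (nat_lit 0) (XT.lf (nat_lit 0) (nat_lit 2848434812558) (nat_lit 152) (nat_lit 276889529931) (nat_lit 0) (nat_lit 2847051960886) (nat_lit 1) (nat_lit 5) (nat_lit 3) (nat_lit 4) (nat_lit 1) (nat_lit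 4) (nat_lit 323) (nat_lit 245) (nat_lit 212)) (XT.lf (nat_lit 0) (nat_lit 3278635433753) (nat_lit 152) (nat_lit 312094561192) (nat_lit 0) (nat_lit 3277250772932) (nat_lit 1) (nat_lit 5) (nat_lit 3) (nat_lit 4) (nat_lit 1) (nat_lit 4) (nat_lit 324) (nat_lit 245) (nat_lit 211))))) (XT.nd (nat_lit 234) (nat_lit 0) (nat_lit 0) (XT.nd (nat_lit 78) (nat_lit 0) (nat_lit 0) (XT.lf (nat_lit 0) (nat_lit 3773358671184) (nat_lit 152) (nat_lit 352595392761) (nat_lit 0) (nat_lit 3771972437188) (nat_lit 1) (nat_lit 5) (nat_lit 3) (nat_lit 4) (nat_lit 1) (nat_lit 4) (nat_lit 325) (nat_lit 245) (nat_lit 210)) (XT.nd (nat_lit 78) (nat_lit 0) (nat_lit 0) (XT.lf (nat_lit 0) (nat_lit 4342283892539) (nat_lit 152) (nat_lit 399184432212) (nat_lit 0) (nat_lit 4340896290566) (nat_lit 1) (nat_lit 5) (nat_lit 3) (nat_lit 4) (nat_lit 1) (nat_lit 4) (nat_lit 326) (nat_lit 245) (nat_lit 209)) (XT.lf (nat_lit 0) (nat_lit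 4996542243452) (nat_lit 152) (nat_lit 452773204230) (nat_lit 0) (nat_lit 4995153451934) (nat_lit 1) (nat_lit 5) (nat_lit 3) (nat_lit 4) (nat_lit 1) (nat_lit 4) (nat_lit 327) (nat_lit 245) (nat_lit 208)))) (XT.nd (nat_lit 156) (nat_lit 0) (nat_lit 0) (XT.nd (nat_lit 78) (nat_lit 0) (nat_lit 0) (XT.lf (nat_lit 0) (nat_lit 5748934430791) (nat_lit 152) (nat_lit 514410184789) (nat_lit 0) (nat_lit 5747544604885) (nat_lit 1) (nat_lit 5) (nat_lit 3) (nat_lit 4) (nat_lit 1) (nat_lit 4) (nat_lit 328) (nat_lit 245) (nat_lit 207)) (XT.lf (nat_lit 0) (nat_lit 6614181171264) (nat_lit 152) (nat_lit 585301314813) (nat_lit 0) (nat_lit 6612790445891) (nat_lit 1) (nat_lit 5) (nat_lit 3) (nat_lit 4) (nat_lit 1) (nat_lit 4) (nat_lit 329) (nat_lit 245) (nat_lit 206))) (XT.nd (nat_lit 78) (nat_lit 0) (nat_lit 0) (XT.lf (nat_lit 0) (nat_lit 7609211205445) (nat_lit 152) (nat_lit 666833594673) (nat_lit 0) (nat_lit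 7607819697926) (nat_lit 1) (nat_lit 5) (nat_lit 3) (nat_lit 4) (nat_lit 1) (nat_lit 4) (nat_lit 330) (nat_lit 245) (nat_lit 205)) (XT.lf (nat_lit 0) (nat_lit 8753492512263) (nat_lit 152) (nat_lit 760602221147) (nat_lit 0) (nat_lit 8752100324618) (nat_lit 1) (nat_lit 5) (nat_lit 3) (nat_lit 4) (nat_lit 1) (nat_lit 4) (nat_lit 331) (nat_lit 245) (nat_lit 204))))))) (XT.nd (nat_lit 1014) (nat_lit 0) (nat_lit 0) (XT.nd (nat_lit 468) (nat_lit 0) (nat_lit 0) (XT.nd (nat_lit 234) (nat_lit 152) (nat_lit 0) (XT.nd (nat_lit 78) (nat_lit 0) (nat_lit 0) (XT.lf (nat_lit 0) (nat_lit 629112042) (nat_lit 76) (nat_lit 11794910983) (nat_lit 76) (nat_lit 11794910983) (nat_lit 3) (nat_lit 4) (nat_lit 4) (nat_lit 5) (nat_lit 4) (nat_lit 4) (nat_lit 288) (nat_lit 246) (nat_lit 246)) (XT.nd (nat_lit 78) (nat_lit 0) (nat_lit 0) (XT.lf (nat_lit 0) (nat_lit 19895649566) (nat_lit 76) (nat_lit 17647288509) (nat_lit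 76) (nat_lit 17421019574) (nat_lit 3) (nat_lit 4) (nat_lit 4) (nat_lit 5) (nat_lit 4) (nat_lit 4) (nat_lit 289) (nat_lit 246) (nat_lit 245)) (XT.lf (nat_lit 0) (nat_lit 39760914661) (nat_lit 76) (nat_lit 11596960590) (nat_lit 76) (nat_lit 11173936059) (nat_lit 3) (nat_lit 4) (nat_lit 4) (nat_lit 5) (nat_lit 4) (nat_lit 4) (nat_lit 290) (nat_lit 246) (nat_lit 244)))) (XT.nd (nat_lit 78) (nat_lit 152) (nat_lit 0) (XT.lf (nat_lit 0) (nat_lit 61242687598) (nat_lit 76) (nat_lit 5320462228) (nat_lit 76) (nat_lit 4726345874) (nat_lit 3) (nat_lit 4) (nat_lit 4) (nat_lit 5) (nat_lit 4) (nat_lit 4) (nat_lit 291) (nat_lit 246) (nat_lit 243)) (XT.nd (nat_lit 78) (nat_lit 0) (nat_lit 0) (XT.lf (nat_lit 0) (nat_lit 2063929218) (nat_lit 152) (nat_lit 77954943127) (nat_lit 0) (nat_lit 1376066393) (nat_lit 1) (nat_lit 5) (nat_lit 3) (nat_lit 4) (nat_lit 1) (nat_lit 4) (nat_lit 292) (nat_lit 246) (nat_lit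 242)) (XT.lf (nat_lit 0) (nat_lit 9478779283) (nat_lit 152) (nat_lit 74865667969) (nat_lit 0) (nat_lit 8671129423) (nat_lit 1) (nat_lit 5) (nat_lit 3) (nat_lit 4) (nat_lit 1) (nat_lit 4) (nat_lit 293) (nat_lit 246) (nat_lit 241))))) (XT.nd (nat_lit 234) (nat_lit 0) (nat_lit 0) (XT.nd (nat_lit 78) (nat_lit 0) (nat_lit 0) (XT.lf (nat_lit 0) (nat_lit 17510795137) (nat_lit 152) (nat_lit 72309198606) (nat_lit 0) (nat_lit 16598982637) (nat_lit 1) (nat_lit 5) (nat_lit 3) (nat_lit 4) (nat_lit 1) (nat_lit 4) (nat_lit 294) (nat_lit 246) (nat_lit 240)) (XT.nd (nat_lit 78) (nat_lit 0) (nat_lit 0) (XT.lf (nat_lit 0) (nat_lit 26317124915) (nat_lit 152) (nat_lit 70235517162) (nat_lit 0) (nat_lit 25314736207) (nat_lit 1) (nat_lit 5) (nat_lit 3) (nat_lit 4) (nat_lit 1) (nat_lit 4) (nat_lit 295) (nat_lit 246) (nat_lit 239)) (XT.lf (nat_lit 0) (nat_lit 36070066374) (nat_lit 152) (nat_lit 68604051606) (nat_lit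 0) (nat_lit 34988915746) (nat_lit 1) (nat_lit 5) (nat_lit 3) (nat_lit 4) (nat_lit 1) (nat_lit 4) (nat_lit 296) (nat_lit 246) (nat_lit 238)))) (XT.nd (nat_lit 156) (nat_lit 0) (nat_lit 0) (XT.nd (nat_lit 78) (nat_lit 0) (nat_lit 0) (XT.lf (nat_lit 0) (nat_lit 46960437934) (nat_lit 152) (nat_lit 67382881961) (nat_lit 0) (nat_lit 45810798679) (nat_lit 1) (nat_lit 5) (nat_lit 3) (nat_lit 4) (nat_lit 1) (nat_lit 4) (nat_lit 297) (nat_lit 246) (nat_lit 237)) (XT.lf (nat_lit 0) (nat_lit 59201312082) (nat_lit 152) (nat_lit 66548115777) (nat_lit 0) (nat_lit 57992117500) (nat_lit 1) (nat_lit 5) (nat_lit 3) (nat_lit 4) (nat_lit 1) (nat_lit 4) (nat_lit 298) (nat_lit 246) (nat_lit 236))) (XT.nd (nat_lit 78) (nat_lit 0) (nat_lit 0) (XT.lf (nat_lit 0) (nat_lit 73032184181) (nat_lit 152) (nat_lit 66083420673) (nat_lit 0) (nat_lit 71771202359) (nat_lit 1) (nat_lit 5) (nat_lit 3) (nat_lit 4) (nat_lit 1)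 (nat_lit 4) (nat_lit 299) (nat_lit 246) (nat_lit 235)) (XT.lf (nat_lit 0) (nat_lit 88723658252) (nat_lit 152) (nat_lit 65979704787) (nat_lit 0) (nat_lit 87417644046) (nat_lit 1) (nat_lit 5) (nat_lit 3) (nat_lit 4) (nat_lit 1) (nat_lit 4) (nat_lit 300) (nat_lit 246) (nat_lit 234)))))) (XT.nd (nat_lit 546) (nat_lit 0) (nat_lit 0) (XT.nd (nat_lit 234) (nat_lit 0) (nat_lit 0) (XT.nd (nat_lit 78) (nat_lit 0) (nat_lit 0) (XT.lf (nat_lit 0) (nat_lit 106582741395) (nat_lit 152) (nat_lit 66234938895) (nat_lit 0) (nat_lit 105237568595) (nat_lit 1) (nat_lit 5) (nat_lit 3) (nat_lit 4) (nat_lit 1) (nat_lit 4) (nat_lit 301) (nat_lit 246) (nat_lit 233)) (XT.nd (nat_lit 78) (nat_lit 0) (nat_lit 0) (XT.lf (nat_lit 0) (nat_lit 126958850455) (nat_lit 152) (nat_lit 66854116710) (nat_lit 0) (nat_lit 125579626703) (nat_lit 1) (nat_lit 5) (nat_lit 3) (nat_lit 4) (nat_lit 1) (nat_lit 4) (nat_lit 302) (nat_lit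 246) (nat_lit 232)) (XT.lf (nat_lit 0) (nat_lit 150250648434) (nat_lit 152) (nat_lit 67849352578) (nat_lit 0) (nat_lit 148841815159) (nat_lit 1) (nat_lit 5) (nat_lit 3) (nat_lit 4) (nat_lit 1) (nat_lit 4) (nat_lit 303) (nat_lit 246) (nat_lit 231)))) (XT.nd (nat_lit 156) (nat_lit 0) (nat_lit 0) (XT.nd (nat_lit 78) (nat_lit 0) (nat_lit 0) (XT.lf (nat_lit 0) (nat_lit 176913844425) (nat_lit 152) (nat_lit 69240118507) (nat_lit 0) (nat_lit 175479263738) (nat_lit 1) (nat_lit 5) (nat_lit 3) (nat_lit 4) (nat_lit 1) (nat_lit 4) (nat_lit 304) (nat_lit 246) (nat_lit 230)) (XT.lf (nat_lit 0) (nat_lit 207470109652) (nat_lit 152) (nat_lit 71053625134) (nat_lit 0) (nat_lit 206013139912) (nat_lit 1) (nat_lit 5) (nat_lit 3) (nat_lit 4) (nat_lit 1) (nat_lit 4) (nat_lit 305) (nat_lit 246) (nat_lit 229))) (XT.nd (nat_lit 78) (nat_lit 0) (nat_lit 0) (XT.lf (nat_lit 0) (nat_lit 242517284087) (nat_lit 152) (nat_lit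 73325354110) (nat_lit 0) (nat_lit 241040845605) (nat_lit 1) (nat_lit 5) (nat_lit 3) (nat_lit 4) (nat_lit 1) (nat_lit 4) (nat_lit 306) (nat_lit 246) (nat_lit 228)) (XT.lf (nat_lit 0) (nat_lit 282741073318) (nat_lit 152) (nat_lit 76099752306) (nat_lit 0) (nat_lit 281247705495) (nat_lit 1) (nat_lit 5) (nat_lit 3) (nat_lit 4) (nat_lit 1) (nat_lit 4) (nat_lit 307) (nat_lit 246) (nat_lit 227))))) (XT.nd (nat_lit 234) (nat_lit 0) (nat_lit 0) (XT.nd (nat_lit 78) (nat_lit 0) (nat_lit 0) (XT.lf (nat_lit 0) (nat_lit 328928464525) (nat_lit 152) (nat_lit 79431101427) (nat_lit 0) (nat_lit 327420375536) (nat_lit 1) (nat_lit 5) (nat_lit 3) (nat_lit 4) (nat_lit 1) (nat_lit 4) (nat_lit 308) (nat_lit 246) (nat_lit 226)) (XT.nd (nat_lit 78) (nat_lit 0) (nat_lit 0) (XT.lf (nat_lit 0) (nat_lit 381983124057) (nat_lit 152) (nat_lit 83384580042) (nat_lit 0) (nat_lit 380462234054) (nat_lit 1) (nat_lit 5) (nat_lit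 3) (nat_lit 4) (nat_lit 1) (nat_lit 4) (nat_lit 309) (nat_lit 246) (nat_lit 225)) (XT.lf (nat_lit 0) (nat_lit 442943077863) (nat_lit 152) (nat_lit 88037538820) (nat_lit 0) (nat_lit 441411056543) (nat_lit 1) (nat_lit 5) (nat_lit 3) (nat_lit 4) (nat_lit 1) (nat_lit 4) (nat_lit 310) (nat_lit 246) (nat_lit 224)))) (XT.nd (nat_lit 156) (nat_lit 0) (nat_lit 0) (XT.nd (nat_lit 78) (nat_lit 0) (nat_lit 0) (XT.lf (nat_lit 0) (nat_lit 513001020689) (nat_lit 152) (nat_lit 93481013911) (nat_lit 0) (nat_lit 511459319965) (nat_lit 1) (nat_lit 5) (nat_lit 3) (nat_lit 4) (nat_lit 1) (nat_lit 4) (nat_lit 311) (nat_lit 246) (nat_lit 223)) (XT.lf (nat_lit 0) (nat_lit 593527651419) (nat_lit 152) (nat_lit 99821508088) (nat_lit 0) (nat_lit 591977533820) (nat_lit 1) (nat_lit 5) (nat_lit 3) (nat_lit 4) (nat_lit 1) (nat_lit 4) (nat_lit 312) (nat_lit 246) (nat_lit 222))) (XT.nd (nat_lit 78) (nat_lit 0) (nat_lit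 0) (XT.lf (nat_lit 0) (nat_lit 686098491087) (nat_lit 152) (nat_lit 107183074499) (nat_lit 0) (nat_lit 684541054467) (nat_lit 1) (nat_lit 5) (nat_lit 3) (nat_lit 4) (nat_lit 1) (nat_lit 4) (nat_lit 313) (nat_lit 246) (nat_lit 221)) (XT.lf (nat_lit 0) (nat_lit 792524708296) (nat_lit 152) (nat_lit 115709743790) (nat_lit 0) (nat_lit 790960907309) (nat_lit 1) (nat_lit 5) (nat_lit 3) (nat_lit 4) (nat_lit 1) (nat_lit 4) (nat_lit 314) (nat_lit 246) (nat_lit 220))))))))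
noncomputable def xc9 : XT := (XT.nd (nat_lit 39156) (nat_lit 0) (nat_lit 0) (XT.nd (nat_lit 1014) (nat_lit 0) (nat_lit 0) (XT.nd (nat_lit 468) (nat_lit 0) (nat_lit 0) (XT.nd (nat_lit 234) (nat_lit 0) (nat_lit 0) (XT.nd (nat_lit 78) (nat_lit 0) (nat_lit 0) (XT.lf (nat_lit 0) (nat_lit 914888555122) (nat_lit 152) (nat_lit 125568342099) (nat_lit 0) (nat_lit 913319219904) (nat_lit 1) (nat_lit 5) (nat_lit 3) (nat_lit 4) (nat_lit 1) (nat_lit 4) (nat_lit 315) (nat_lit 246) (nat_lit 219)) (XT.nd (nat_lit 78) (nat_lit 0) (nat_lit 0) (XT.lf (nat_lit 0) (nat_lit 1055584106829) (nat_lit 152) (nat_lit 136951755046) (nat_lit 0) (nat_lit 1054009959235) (nat_lit 1) (nat_lit 5) (nat_lit 3) (nat_lit 4) (nat_lit 1) (nat_lit 4) (nat_lit 316) (nat_lit 246) (nat_lit 218)) (XT.lf (nat_lit 0) (nat_lit 1217364102472) (nat_lit 152) (nat_lit 150082701581) (nat_lit 0) (nat_lit 1215785770204) (nat_lit 1) (nat_lit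 5) (nat_lit 3) (nat_lit 4) (nat_lit 1) (nat_lit 4) (nat_lit 317) (nat_lit 246) (nat_lit 217)))) (XT.nd (nat_lit 78) (nat_lit 0) (nat_lit 0) (XT.lf (nat_lit 0) (nat_lit 1403393802835) (nat_lit 152) (nat_lit 165218091525) (nat_lit 0) (nat_lit 1401811831720) (nat_lit 1) (nat_lit 5) (nat_lit 3) (nat_lit 4) (nat_lit 1) (nat_lit 4) (nat_lit 318) (nat_lit 246) (nat_lit 216)) (XT.nd (nat_lit 78) (nat_lit 0) (nat_lit 0) (XT.lf (nat_lit 0) (nat_lit 1617312919447) (nat_lit 152) (nat_lit 182654052074) (nat_lit 0) (nat_lit 1615727784117) (nat_lit 1) (nat_lit 5) (nat_lit 3) (nat_lit 4) (nat_lit 1) (nat_lit 4) (nat_lit 319) (nat_lit 246) (nat_lit 215)) (XT.lf (nat_lit 0) (nat_lit 1863306826329) (nat_lit 152) (nat_lit 202731721587) (nat_lit 0) (nat_lit 1861718939508) (nat_lit 1) (nat_lit 5) (nat_lit 3) (nat_lit 4) (nat_lit 1) (nat_lit 4) (nat_lit 320) (nat_lit 246) (nat_lit 214))))) (XT.nd (nat_lit 234)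 (nat_lit 0) (nat_lit 0) (XT.nd (nat_lit 78) (nat_lit 0) (nat_lit 0) (XT.lf (nat_lit 0) (nat_lit 2146188447745) (nat_lit 152) (nat_lit 225843924031) (nat_lit 0) (nat_lit 2144598168323) (nat_lit 1) (nat_lit 5) (nat_lit 3) (nat_lit 4) (nat_lit 1) (nat_lit 4) (nat_lit 321) (nat_lit 246) (nat_lit 213)) (XT.nd (nat_lit 78) (nat_lit 0) (nat_lit 0) (XT.lf (nat_lit 0) (nat_lit 2471492424116) (nat_lit 152) (nat_lit 252442854673) (nat_lit 0) (nat_lit 2469900064171) (nat_lit 1) (nat_lit 5) (nat_lit 3) (nat_lit 4) (nat_lit 1) (nat_lit 4) (nat_lit 322) (nat_lit 246) (nat_lit 212)) (XT.lf (nat_lit 0) (nat_lit 2845583398456) (nat_lit 152) (nat_lit 283048927373) (nat_lit 0) (nat_lit 2843989229361) (nat_lit 1) (nat_lit 5) (nat_lit 3) (nat_lit 4) (nat_lit 1) (nat_lit 4) (nat_lit 323) (nat_lit 246) (nat_lit 211)))) (XT.nd (nat_lit 156) (nat_lit 0) (nat_lit 0) (XT.nd (nat_lit 78) (nat_lit 0) (nat_lit 0) (XT.lf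 (nat_lit 0) (nat_lit 3275780542003) (nat_lit 152) (nat_lit 318260956597) (nat_lit 0) (nat_lit 3274184799734) (nat_lit 1) (nat_lit 5) (nat_lit 3) (nat_lit 4) (nat_lit 1) (nat_lit 4) (nat_lit 324) (nat_lit 246) (nat_lit 210)) (XT.lf (nat_lit 0) (nat_lit 3770500755391) (nat_lit 152) (nat_lit 358767873350) (nat_lit 0) (nat_lit 3768903645145) (nat_lit 1) (nat_lit 5) (nat_lit 3) (nat_lit 4) (nat_lit 1) (nat_lit 4) (nat_lit 325) (nat_lit 246) (nat_lit 209))) (XT.nd (nat_lit 78) (nat_lit 0) (nat_lit 0) (XT.lf (nat_lit 0) (nat_lit 4339423347144) (nat_lit 152) (nat_lit 405362204266) (nat_lit 0) (nat_lit 4337825047352) (nat_lit 1) (nat_lit 5) (nat_lit 3) (nat_lit 4) (nat_lit 1) (nat_lit 4) (nat_lit 326) (nat_lit 246) (nat_lit 208)) (XT.lf (nat_lit 0) (nat_lit 4993679411448) (nat_lit 152) (nat_lit 458955577557) (nat_lit 0) (nat_lit 4992080077269) (nat_lit 1) (nat_lit 5) (nat_lit 3) (nat_lit 4) (nat_lit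 1) (nat_lit 4) (nat_lit 327) (nat_lit 246) (nat_lit 207)))))) (XT.nd (nat_lit 37596) (nat_lit 0) (nat_lit 0) (XT.nd (nat_lit 234) (nat_lit 0) (nat_lit 0) (XT.nd (nat_lit 78) (nat_lit 0) (nat_lit 0) (XT.lf (nat_lit 0) (nat_lit 5746069610430) (nat_lit 152) (nat_lit 520596559224) (nat_lit 0) (nat_lit 5744469376783) (nat_lit 1) (nat_lit 5) (nat_lit 3) (nat_lit 4) (nat_lit 1) (nat_lit 4) (nat_lit 328) (nat_lit 246) (nat_lit 206)) (XT.nd (nat_lit 78) (nat_lit 0) (nat_lit 0) (XT.lf (nat_lit 0) (nat_lit 6611314621897) (nat_lit 152) (nat_lit 591491168472) (nat_lit 0) (nat_lit 6609713606104) (nat_lit 1) (nat_lit 5) (nat_lit 3) (nat_lit 4) (nat_lit 1) (nat_lit 4) (nat_lit 329) (nat_lit 246) (nat_lit 205)) (XT.lf (nat_lit 0) (nat_lit 7606343152594) (nat_lit 152) (nat_lit 673026473744) (nat_lit 0) (nat_lit 7604741456675) (nat_lit 1) (nat_lit 5) (nat_lit 3) (nat_lit 4) (nat_lit 1) (nat_lit 4) (nat_lit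 330) (nat_lit 246) (nat_lit 204)))) (XT.nd (nat_lit 37206) (nat_lit 0) (nat_lit 152) (XT.nd (nat_lit 37128) (nat_lit 0) (nat_lit 228) (XT.lf (nat_lit 0) (nat_lit 8750623152036) (nat_lit 152) (nat_lit 766797731012) (nat_lit 0) (nat_lit 8749020864703) (nat_lit 1) (nat_lit 5) (nat_lit 3) (nat_lit 4) (nat_lit 1) (nat_lit 4) (nat_lit 331) (nat_lit 246) (nat_lit 203)) (XT.lf (nat_lit 0) (nat_lit 1686803397) (nat_lit 152) (nat_lit 15584563098) (nat_lit 0) (nat_lit 1686803397) (nat_lit 4) (nat_lit 5) (nat_lit 6) (nat_lit 4) (nat_lit 4) (nat_lit 4) (nat_lit 286) (nat_lit 247) (nat_lit 247))) (XT.nd (nat_lit 78) (nat_lit 76) (nat_lit 0) (XT.lf (nat_lit 0) (nat_lit 13682240495) (nat_lit 152) (nat_lit 15689809503) (nat_lit 0) (nat_lit 13422031219) (nat_lit 4) (nat_lit 5) (nat_lit 6) (nat_lit 4) (nat_lit 4) (nat_lit 4) (nat_lit 287) (nat_lit 247) (nat_lit 246)) (XT.lf (nat_lit 0) (nat_lit 419647180)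 (nat_lit 76) (nat_lit 24269158400) (nat_lit 76) (nat_lit 23782680189) (nat_lit 3) (nat_lit 4) (nat_lit 4) (nat_lit 5) (nat_lit 4) (nat_lit 4) (nat_lit 288) (nat_lit 247) (nat_lit 245))))) (XT.nd (nat_lit 234) (nat_lit 152) (nat_lit 0) (XT.nd (nat_lit 78) (nat_lit 0) (nat_lit 0) (XT.lf (nat_lit 0) (nat_lit 18327875356) (nat_lit 76) (nat_lit 18691083341) (nat_lit 76) (nat_lit 18007849535) (nat_lit 3) (nat_lit 4) (nat_lit 4) (nat_lit 5) (nat_lit 4) (nat_lit 4) (nat_lit 289) (nat_lit 247) (nat_lit 244)) (XT.nd (nat_lit 78) (nat_lit 0) (nat_lit 0) (XT.lf (nat_lit 0) (nat_lit 37559055836) (nat_lit 76) (nat_lit 12957675768) (nat_lit 76) (nat_lit 12103350139) (nat_lit 3) (nat_lit 4) (nat_lit 4) (nat_lit 5) (nat_lit 4) (nat_lit 4) (nat_lit 290) (nat_lit 247) (nat_lit 243)) (XT.lf (nat_lit 0) (nat_lit 58489450846) (nat_lit 76) (nat_lit 6956760316) (nat_lit 76) (nat_lit 5953659189) (nat_lit 3) (nat_lit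 4) (nat_lit 4) (nat_lit 5) (nat_lit 4) (nat_lit 4) (nat_lit 291) (nat_lit 247) (nat_lit 242)))) (XT.nd (nat_lit 156) (nat_lit 0) (nat_lit 0) (XT.nd (nat_lit 78) (nat_lit 76) (nat_lit 0) (XT.lf (nat_lit 0) (nat_lit 533452683) (nat_lit 152) (nat_lit 22889543) (nat_lit 76) (nat_lit 80980529892) (nat_lit 2) (nat_lit 5) (nat_lit 4) (nat_lit 5) (nat_lit 3) (nat_lit 4) (nat_lit 292) (nat_lit 247) (nat_lit 241)) (XT.lf (nat_lit 0) (nat_lit 7704066905) (nat_lit 152) (nat_lit 78921690565) (nat_lit 0) (nat_lit 6551319890) (nat_lit 1) (nat_lit 5) (nat_lit 3) (nat_lit 4) (nat_lit 1) (nat_lit 4) (nat_lit 293) (nat_lit 247) (nat_lit 240))) (XT.nd (nat_lit 78) (nat_lit 0) (nat_lit 0) (XT.lf (nat_lit 0) (nat_lit 15535855570) (nat_lit 152) (nat_lit 76768132050) (nat_lit 0) (nat_lit 14292532348) (nat_lit 1) (nat_lit 5) (nat_lit 3) (nat_lit 4) (nat_lit 1) (nat_lit 4) (nat_lit 294) (nat_lit 247) (nat_lit 239))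 (XT.lf (nat_lit 0) (nat_lit 24168074750) (nat_lit 152) (nat_lit 75044807864) (nat_lit 0) (nat_lit 22845989608) (nat_lit 1) (nat_lit 5) (nat_lit 3) (nat_lit 4) (nat_lit 1) (nat_lit 4) (nat_lit 295) (nat_lit 247) (nat_lit 238))))))) (XT.nd (nat_lit 1092) (nat_lit 0) (nat_lit 0) (XT.nd (nat_lit 546) (nat_lit 0) (nat_lit 0) (XT.nd (nat_lit 234) (nat_lit 0) (nat_lit 0) (XT.nd (nat_lit 78) (nat_lit 0) (nat_lit 0) (XT.lf (nat_lit 0) (nat_lit 33769615689) (nat_lit 152) (nat_lit 73718000793) (nat_lit 0) (nat_lit 32379041921) (nat_lit 1) (nat_lit 5) (nat_lit 3) (nat_lit 4) (nat_lit 1) (nat_lit 4) (nat_lit 296) (nat_lit 247) (nat_lit 237)) (XT.nd (nat_lit 78) (nat_lit 0) (nat_lit 0) (XT.lf (nat_lit 0) (nat_lit 44528334623) (nat_lit 152) (nat_lit 72761751571) (nat_lit 0) (nat_lit 43078205527) (nat_lit 1) (nat_lit 5) (nat_lit 3) (nat_lit 4) (nat_lit 1) (nat_lit 4) (nat_lit 297) (nat_lit 247) (nat_lit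 236)) (XT.lf (nat_lit 0) (nat_lit 56654728227) (nat_lit 152) (nat_lit 72157350971) (nat_lit 0) (nat_lit 55152811890) (nat_lit 1) (nat_lit 5) (nat_lit 3) (nat_lit 4) (nat_lit 1) (nat_lit 4) (nat_lit 298) (nat_lit 247) (nat_lit 235)))) (XT.nd (nat_lit 156) (nat_lit 0) (nat_lit 0) (XT.nd (nat_lit 78) (nat_lit 0) (nat_lit 0) (XT.lf (nat_lit 0) (nat_lit 70386052027) (nat_lit 152) (nat_lit 71892973767) (nat_lit 0) (nat_lit 68839103306) (nat_lit 1) (nat_lit 5) (nat_lit 3) (nat_lit 4) (nat_lit 1) (nat_lit 4) (nat_lit 299) (nat_lit 247) (nat_lit 234)) (XT.lf (nat_lit 0) (nat_lit 85990962359) (nat_lit 152) (nat_lit 71963447359) (nat_lit 0) (nat_lit 84404855044) (nat_lit 1) (nat_lit 5) (nat_lit 3) (nat_lit 4) (nat_lit 1) (nat_lit 4) (nat_lit 300) (nat_lit 247) (nat_lit 233))) (XT.nd (nat_lit 78) (nat_lit 0) (nat_lit 0) (XT.lf (nat_lit 0) (nat_lit 103774772686) (nat_lit 152) (nat_lit 72370150579)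 (nat_lit 0) (nat_lit 102154614419) (nat_lit 1) (nat_lit 5) (nat_lit 3) (nat_lit 4) (nat_lit 1) (nat_lit 4) (nat_lit 301) (nat_lit 247) (nat_lit 232)) (XT.lf (nat_lit 0) (nat_lit 124085427123) (nat_lit 152) (nat_lit 73121040664) (nat_lit 0) (nat_lit 122435659333) (nat_lit 1) (nat_lit 5) (nat_lit 3) (nat_lit 4) (nat_lit 1) (nat_lit 4) (nat_lit 302) (nat_lit 247) (nat_lit 231))))) (XT.nd (nat_lit 234) (nat_lit 0) (nat_lit 0) (XT.nd (nat_lit 78) (nat_lit 0) (nat_lit 0) (XT.lf (nat_lit 0) (nat_lit 147320308039) (nat_lit 152) (nat_lit 74230808941) (nat_lit 0) (nat_lit 145644792838) (nat_lit 1) (nat_lit 5) (nat_lit 3) (nat_lit 4) (nat_lit 1) (nat_lit 4) (nat_lit 303) (nat_lit 247) (nat_lit 230)) (XT.nd (nat_lit 78) (nat_lit 0) (nat_lit 0) (XT.lf (nat_lit 0) (nat_lit 173934010931) (nat_lit 152) (nat_lit 75721168270) (nat_lit 0) (nat_lit 172236106676) (nat_lit 1) (nat_lit 5) (nat_lit 3) (nat_lit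 4) (nat_lit 1) (nat_lit 4) (nat_lit 304) (nat_lit 247) (nat_lit 229)) (XT.lf (nat_lit 0) (nat_lit 204447238681) (nat_lit 152) (nat_lit 77621277852) (nat_lit 0) (nat_lit 202729865684) (nat_lit 1) (nat_lit 5) (nat_lit 3) (nat_lit 4) (nat_lit 1) (nat_lit 4) (nat_lit 305) (nat_lit 247) (nat_lit 228)))) (XT.nd (nat_lit 156) (nat_lit 0) (nat_lit 0) (XT.nd (nat_lit 78) (nat_lit 0) (nat_lit 0) (XT.lf (nat_lit 0) (nat_lit 239456989223) (nat_lit 152) (nat_lit 79968313746) (nat_lit 0) (nat_lit 237722686886) (nat_lit 1) (nat_lit 5) (nat_lit 3) (nat_lit 4) (nat_lit 1) (nat_lit 4) (nat_lit 306) (nat_lit 247) (nat_lit 227)) (XT.lf (nat_lit 0) (nat_lit 279648235938) (nat_lit 152) (nat_lit 82808196220) (nat_lit 0) (nat_lit 277899212435) (nat_lit 1) (nat_lit 5) (nat_lit 3) (nat_lit 4) (nat_lit 1) (nat_lit 4) (nat_lit 307) (nat_lit 247) (nat_lit 226))) (XT.nd (nat_lit 78) (nat_lit 0) (nat_lit 0) (XT.lf (nat_lit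 0) (nat_lit 325807329306) (nat_lit 152) (nat_lit 86196488190) (nat_lit 0) (nat_lit 324045504788) (nat_lit 1) (nat_lit 5) (nat_lit 3) (nat_lit 4) (nat_lit 1) (nat_lit 4) (nat_lit 308) (nat_lit 247) (nat_lit 225)) (XT.lf (nat_lit 0) (nat_lit 378837382021) (nat_lit 152) (nat_lit 90199482327) (nat_lit 0) (nat_lit 377064426187) (nat_lit 1) (nat_lit 5) (nat_lit 3) (nat_lit 4) (nat_lit 1) (nat_lit 4) (nat_lit 309) (nat_lit 247) (nat_lit 224)))))) (XT.nd (nat_lit 546) (nat_lit 0) (nat_lit 0) (XT.nd (nat_lit 234) (nat_lit 0) (nat_lit 0) (XT.nd (nat_lit 78) (nat_lit 0) (nat_lit 0) (XT.lf (nat_lit 0) (nat_lit 439775938594) (nat_lit 152) (nat_lit 94895498079) (nat_lit 0) (nat_lit 437993303355) (nat_lit 1) (nat_lit 5) (nat_lit 3) (nat_lit 4) (nat_lit 1) (nat_lit 4) (nat_lit 310) (nat_lit 247) (nat_lit 223)) (XT.nd (nat_lit 78) (nat_lit 0) (nat_lit 0) (XT.lf (nat_lit 0) (nat_lit 509815275132) (nat_lit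 152) (nat_lit 100376414018) (nat_lit 0) (nat_lit 508024223018) (nat_lit 1) (nat_lit 5) (nat_lit 3) (nat_lit 4) (nat_lit 1) (nat_lit 4) (nat_lit 311) (nat_lit 247) (nat_lit 222)) (XT.lf (nat_lit 0) (nat_lit 590325726479) (nat_lit 152) (nat_lit 106749465454) (nat_lit 0) (nat_lit 588527355344) (nat_lit 1) (nat_lit 5) (nat_lit 3) (nat_lit 4) (nat_lit 1) (nat_lit 4) (nat_lit 312) (nat_lit 247) (nat_lit 221)))) (XT.nd (nat_lit 156) (nat_lit 0) (nat_lit 0) (XT.nd (nat_lit 78) (nat_lit 0) (nat_lit 0) (XT.lf (nat_lit 0) (nat_lit 682882497120) (nat_lit 152) (nat_lit 114139342524) (nat_lit 0) (nat_lit 681077761619) (nat_lit 1) (nat_lit 5) (nat_lit 3) (nat_lit 4) (nat_lit 1) (nat_lit 4) (nat_lit 313) (nat_lit 247) (nat_lit 220)) (XT.lf (nat_lit 0) (nat_lit 789296480392) (nat_lit 152) (nat_lit 122690629780) (nat_lit 0) (nat_lit 787486210659) (nat_lit 1) (nat_lit 5) (nat_lit 3) (nat_lit 4) (nat_lit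 1) (nat_lit 4) (nat_lit 314) (nat_lit 247) (nat_lit 219))) (XT.nd (nat_lit 78) (nat_lit 0) (nat_lit 0) (XT.lf (nat_lit 0) (nat_lit 911649689012) (nat_lit 152) (nat_lit 132570635016) (nat_lit 0) (nat_lit 909834606904) (nat_lit 1) (nat_lit 5) (nat_lit 3) (nat_lit 4) (nat_lit 1) (nat_lit 4) (nat_lit 315) (nat_lit 247) (nat_lit 218)) (XT.lf (nat_lit 0) (nat_lit 1052335990105) (nat_lit 152) (nat_lit 143972662682) (nat_lit 0) (nat_lit 1050516723323) (nat_lit 1) (nat_lit 5) (nat_lit 3) (nat_lit 4) (nat_lit 1) (nat_lit 4) (nat_lit 316) (nat_lit 247) (nat_lit 217))))) (XT.nd (nat_lit 234) (nat_lit 0) (nat_lit 0) (XT.nd (nat_lit 78) (nat_lit 0) (nat_lit 0) (XT.lf (nat_lit 0) (nat_lit 1214107941736) (nat_lit 152) (nat_lit 157119795928) (nat_lit 0) (nat_lit 1212285036106) (nat_lit 1) (nat_lit 5) (nat_lit 3) (nat_lit 4) (nat_lit 1) (nat_lit 4) (nat_lit 317) (nat_lit 247) (nat_lit 216)) (XT.nd (nat_lit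 78) (nat_lit 0) (nat_lit 0) (XT.lf (nat_lit 0) (nat_lit 1400130647305) (nat_lit 152) (nat_lit 172269261273) (nat_lit 0) (nat_lit 1398304577461) (nat_lit 1) (nat_lit 5) (nat_lit 3) (nat_lit 4) (nat_lit 1) (nat_lit 4) (nat_lit 318) (nat_lit 247) (nat_lit 215)) (XT.lf (nat_lit 0) (nat_lit 1614043681489) (nat_lit 152) (nat_lit 189717461302) (nat_lit 0) (nat_lit 1612214860153) (nat_lit 1) (nat_lit 5) (nat_lit 3) (nat_lit 4) (nat_lit 1) (nat_lit 4) (nat_lit 319) (nat_lit 247) (nat_lit 214)))) (XT.nd (nat_lit 156) (nat_lit 0) (nat_lit 0) (XT.nd (nat_lit 78) (nat_lit 0) (nat_lit 0) (XT.lf (nat_lit 0) (nat_lit 1860032299302) (nat_lit 152) (nat_lit 209805773840) (nat_lit 0) (nat_lit 1858201085365) (nat_lit 1) (nat_lit 5) (nat_lit 3) (nat_lit 4) (nat_lit 1) (nat_lit 4) (nat_lit 320) (nat_lit 247) (nat_lit 213)) (XT.lf (nat_lit 0) (nat_lit 2142909321528) (nat_lit 152) (nat_lit 232927231090) (nat_lit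 0) (nat_lit 2141076027069) (nat_lit 1) (nat_lit 5) (nat_lit 3) (nat_lit 4) (nat_lit 1) (nat_lit 4) (nat_lit 321) (nat_lit 247) (nat_lit 212))) (XT.nd (nat_lit 78) (nat_lit 0) (nat_lit 0) (XT.lf (nat_lit 0) (nat_lit 2468209298603) (nat_lit 152) (nat_lit 259534209389) (nat_lit 0) (nat_lit 2466374194994) (nat_lit 1) (nat_lit 5) (nat_lit 3) (nat_lit 4) (nat_lit 1) (nat_lit 4) (nat_lit 322) (nat_lit 247) (nat_lit 211)) (XT.lf (nat_lit 0) (nat_lit 2842296795295) (nat_lit 152) (nat_lit 290147280051) (nat_lit 0) (nat_lit 2840460118511) (nat_lit 1) (nat_lit 5) (nat_lit 3) (nat_lit 4) (nat_lit 1) (nat_lit 4) (nat_lit 323) (nat_lit 247) (nat_lit 210))))))))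
noncomputable def xc10 : XT := (XT.nd (nat_lit 39000) (nat_lit 0) (nat_lit 0) (XT.nd (nat_lit 37908) (nat_lit 0) (nat_lit 0) (XT.nd (nat_lit 468) (nat_lit 0) (nat_lit 0) (XT.nd (nat_lit 234) (nat_lit 0) (nat_lit 0) (XT.nd (nat_lit 78) (nat_lit 0) (nat_lit 0) (XT.lf (nat_lit 0) (nat_lit 3272490914800) (nat_lit 152) (nat_lit 325365394458) (nat_lit 0) (nat_lit 3270652870039) (nat_lit 1) (nat_lit 5) (nat_lit 3) (nat_lit 4) (nat_lit 1) (nat_lit 4) (nat_lit 324) (nat_lit 247) (nat_lit 209)) (XT.nd (nat_lit 78) (nat_lit 0) (nat_lit 0) (XT.lf (nat_lit 0) (nat_lit 3767208498586) (nat_lit 152) (nat_lit 365877602677) (nat_lit 0) (nat_lit 3765369264280) (nat_lit 1) (nat_lit 5) (nat_lit 3) (nat_lit 4) (nat_lit 1) (nat_lit 4) (nat_lit 325) (nat_lit 247) (nat_lit 208)) (XT.lf (nat_lit 0) (nat_lit 4336128803729) (nat_lit 152) (nat_lit 412476534866) (nat_lit 0) (nat_lit 4334288535035) (nat_lit 1) (nat_lit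 5) (nat_lit 3) (nat_lit 4) (nat_lit 1) (nat_lit 4) (nat_lit 326) (nat_lit 247) (nat_lit 207)))) (XT.nd (nat_lit 78) (nat_lit 0) (nat_lit 0) (XT.lf (nat_lit 0) (nat_lit 4990382879676) (nat_lit 152) (nat_lit 466073909265) (nat_lit 0) (nat_lit 4988541711514) (nat_lit 1) (nat_lit 5) (nat_lit 3) (nat_lit 4) (nat_lit 1) (nat_lit 4) (nat_lit 327) (nat_lit 247) (nat_lit 206)) (XT.nd (nat_lit 78) (nat_lit 0) (nat_lit 0) (XT.lf (nat_lit 0) (nat_lit 5742771349652) (nat_lit 152) (nat_lit 527718370156) (nat_lit 0) (nat_lit 5740929399345) (nat_lit 1) (nat_lit 5) (nat_lit 3) (nat_lit 4) (nat_lit 1) (nat_lit 4) (nat_lit 328) (nat_lit 247) (nat_lit 205)) (XT.lf (nat_lit 0) (nat_lit 6608014857635) (nat_lit 152) (nat_lit 598616004816) (nat_lit 0) (nat_lit 6606172227202) (nat_lit 1) (nat_lit 5) (nat_lit 3) (nat_lit 4) (nat_lit 1) (nat_lit 4) (nat_lit 329) (nat_lit 247) (nat_lit 204))))) (XT.nd (nat_lit 37128)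 (nat_lit 0) (nat_lit 228) (XT.nd (nat_lit 78) (nat_lit 0) (nat_lit 0) (XT.lf (nat_lit 0) (nat_lit 7603042080956) (nat_lit 152) (nat_lit 680153940881) (nat_lit 0) (nat_lit 7601198859108) (nat_lit 1) (nat_lit 5) (nat_lit 3) (nat_lit 4) (nat_lit 1) (nat_lit 4) (nat_lit 330) (nat_lit 247) (nat_lit 203)) (XT.nd (nat_lit 36972) (nat_lit 0) (nat_lit 380) (XT.lf (nat_lit 0) (nat_lit 8747320943548) (nat_lit 152) (nat_lit 773927485795) (nat_lit 0) (nat_lit 8745477207427) (nat_lit 1) (nat_lit 5) (nat_lit 3) (nat_lit 4) (nat_lit 1) (nat_lit 4) (nat_lit 331) (nat_lit 247) (nat_lit 202)) (XT.lf (nat_lit 0) (nat_lit 250348621) (nat_lit 76) (nat_lit 7383278538) (nat_lit 76) (nat_lit 7383278538) (nat_lit 6) (nat_lit 4) (nat_lit 7) (nat_lit 5) (nat_lit 7) (nat_lit 4) (nat_lit 284) (nat_lit 248) (nat_lit 248)))) (XT.nd (nat_lit 156) (nat_lit 0) (nat_lit 0) (XT.nd (nat_lit 78) (nat_lit 152) (nat_lit 0) (XT.lf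 (nat_lit 0) (nat_lit 21414925970) (nat_lit 76) (nat_lit 6301373432) (nat_lit 76) (nat_lit 5978193512) (nat_lit 6) (nat_lit 4) (nat_lit 7) (nat_lit 5) (nat_lit 7) (nat_lit 4) (nat_lit 285) (nat_lit 248) (nat_lit 247)) (XT.lf (nat_lit 0) (nat_lit 3213673219) (nat_lit 152) (nat_lit 32085248270) (nat_lit 0) (nat_lit 2654223277) (nat_lit 4) (nat_lit 5) (nat_lit 6) (nat_lit 4) (nat_lit 4) (nat_lit 4) (nat_lit 286) (nat_lit 248) (nat_lit 246))) (XT.nd (nat_lit 78) (nat_lit 0) (nat_lit 0) (XT.lf (nat_lit 0) (nat_lit 13123024968) (nat_lit 152) (nat_lit 17402559467) (nat_lit 0) (nat_lit 12337306091) (nat_lit 4) (nat_lit 5) (nat_lit 6) (nat_lit 4) (nat_lit 4) (nat_lit 4) (nat_lit 287) (nat_lit 248) (nat_lit 245)) (XT.lf (nat_lit 0) (nat_lit 23772295833) (nat_lit 152) (nat_lit 2006815139) (nat_lit 0) (nat_lit 22789821360) (nat_lit 4) (nat_lit 5) (nat_lit 6) (nat_lit 4) (nat_lit 4) (nat_lit 4) (nat_lit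 288) (nat_lit 248) (nat_lit 244)))))) (XT.nd (nat_lit 546) (nat_lit 0) (nat_lit 0) (XT.nd (nat_lit 234) (nat_lit 152) (nat_lit 0) (XT.nd (nat_lit 78) (nat_lit 0) (nat_lit 0) (XT.lf (nat_lit 0) (nat_lit 15161653092) (nat_lit 76) (nat_lit 20572826142) (nat_lit 76) (nat_lit 19419259846) (nat_lit 3) (nat_lit 4) (nat_lit 4) (nat_lit 5) (nat_lit 4) (nat_lit 4) (nat_lit 289) (nat_lit 248) (nat_lit 243)) (XT.nd (nat_lit 78) (nat_lit 0) (nat_lit 0) (XT.lf (nat_lit 0) (nat_lit 33841455646) (nat_lit 76) (nat_lit 15115001479) (nat_lit 76) (nat_lit 13812659686) (nat_lit 3) (nat_lit 4) (nat_lit 4) (nat_lit 5) (nat_lit 4) (nat_lit 4) (nat_lit 290) (nat_lit 248) (nat_lit 242)) (XT.lf (nat_lit 0) (nat_lit 54292391591) (nat_lit 76) (nat_lit 9353723340) (nat_lit 76) (nat_lit 7922011548) (nat_lit 3) (nat_lit 4) (nat_lit 4) (nat_lit 5) (nat_lit 4) (nat_lit 4) (nat_lit 291) (nat_lit 248) (nat_lit 241)))) (XT.nd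 (nat_lit 156) (nat_lit 0) (nat_lit 0) (XT.nd (nat_lit 78) (nat_lit 152) (nat_lit 0) (XT.lf (nat_lit 0) (nat_lit 76914587934) (nat_lit 76) (nat_lit 3176271064) (nat_lit 76) (nat_lit 1632063622) (nat_lit 3) (nat_lit 4) (nat_lit 4) (nat_lit 5) (nat_lit 4) (nat_lit 4) (nat_lit 292) (nat_lit 248) (nat_lit 240)) (XT.lf (nat_lit 0) (nat_lit 5232659215) (nat_lit 152) (nat_lit 84452374872) (nat_lit 0) (nat_lit 3712261301) (nat_lit 1) (nat_lit 5) (nat_lit 3) (nat_lit 4) (nat_lit 1) (nat_lit 4) (nat_lit 293) (nat_lit 248) (nat_lit 239))) (XT.nd (nat_lit 78) (nat_lit 0) (nat_lit 0) (XT.lf (nat_lit 0) (nat_lit 12890337283) (nat_lit 152) (nat_lit 82649173616) (nat_lit 0) (nat_lit 11291177449) (nat_lit 1) (nat_lit 5) (nat_lit 3) (nat_lit 4) (nat_lit 1) (nat_lit 4) (nat_lit 294) (nat_lit 248) (nat_lit 238)) (XT.lf (nat_lit 0) (nat_lit 21371155943) (nat_lit 152) (nat_lit 81230507915) (nat_lit 0) (nat_lit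 19703507483) (nat_lit 1) (nat_lit 5) (nat_lit 3) (nat_lit 4) (nat_lit 1) (nat_lit 4) (nat_lit 295) (nat_lit 248) (nat_lit 237))))) (XT.nd (nat_lit 234) (nat_lit 0) (nat_lit 0) (XT.nd (nat_lit 78) (nat_lit 0) (nat_lit 0) (XT.lf (nat_lit 0) (nat_lit 30841044256) (nat_lit 152) (nat_lit 80168621267) (nat_lit 0) (nat_lit 29113840469) (nat_lit 1) (nat_lit 5) (nat_lit 3) (nat_lit 4) (nat_lit 1) (nat_lit 4) (nat_lit 296) (nat_lit 248) (nat_lit 236)) (XT.nd (nat_lit 78) (nat_lit 0) (nat_lit 0) (XT.lf (nat_lit 0) (nat_lit 41485282646) (nat_lit 152) (nat_lit 79442737629) (nat_lit 0) (nat_lit 39706291617) (nat_lit 1) (nat_lit 5) (nat_lit 3) (nat_lit 4) (nat_lit 1) (nat_lit 4) (nat_lit 297) (nat_lit 248) (nat_lit 235)) (XT.lf (nat_lit 0) (nat_lit 53512127950) (nat_lit 152) (nat_lit 79038654929) (nat_lit 0) (nat_lit 51688104538) (nat_lit 1) (nat_lit 5) (nat_lit 3) (nat_lit 4) (nat_lit 1) (nat_lit 4)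 (nat_lit 298) (nat_lit 248) (nat_lit 234)))) (XT.nd (nat_lit 156) (nat_lit 0) (nat_lit 0) (XT.nd (nat_lit 78) (nat_lit 0) (nat_lit 0) (XT.lf (nat_lit 0) (nat_lit 67156888011) (nat_lit 152) (nat_lit 78948467202) (nat_lit 0) (nat_lit 65293706005) (nat_lit 1) (nat_lit 5) (nat_lit 3) (nat_lit 4) (nat_lit 1) (nat_lit 4) (nat_lit 299) (nat_lit 248) (nat_lit 233)) (XT.lf (nat_lit 0) (nat_lit 82686525527) (nat_lit 152) (nat_lit 79170409906) (nat_lit 0) (nat_lit 80789292569) (nat_lit 1) (nat_lit 5) (nat_lit 3) (nat_lit 4) (nat_lit 1) (nat_lit 4) (nat_lit 300) (nat_lit 248) (nat_lit 232))) (XT.nd (nat_lit 78) (nat_lit 0) (nat_lit 0) (XT.lf (nat_lit 0) (nat_lit 100404881231) (nat_lit 152) (nat_lit 79708825396) (nat_lit 0) (nat_lit 98478038750) (nat_lit 1) (nat_lit 5) (nat_lit 3) (nat_lit 4) (nat_lit 1) (nat_lit 4) (nat_lit 301) (nat_lit 248) (nat_lit 231)) (XT.lf (nat_lit 0) (nat_lit 120658618605)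 (nat_lit 152) (nat_lit 80574247891) (nat_lit 0) (nat_lit 118706028712) (nat_lit 1) (nat_lit 5) (nat_lit 3) (nat_lit 4) (nat_lit 1) (nat_lit 4) (nat_lit 302) (nat_lit 248) (nat_lit 230))))))) (XT.nd (nat_lit 1014) (nat_lit 0) (nat_lit 0) (XT.nd (nat_lit 468) (nat_lit 0) (nat_lit 0) (XT.nd (nat_lit 234) (nat_lit 0) (nat_lit 0) (XT.nd (nat_lit 78) (nat_lit 0) (nat_lit 0) (XT.lf (nat_lit 0) (nat_lit 143844006422) (nat_lit 152) (nat_lit 81783609568) (nat_lit 0) (nat_lit 141869027477) (nat_lit 1) (nat_lit 5) (nat_lit 3) (nat_lit 4) (nat_lit 1) (nat_lit 4) (nat_lit 303) (nat_lit 248) (nat_lit 229)) (XT.nd (nat_lit 78) (nat_lit 0) (nat_lit 0) (XT.lf (nat_lit 0) (nat_lit 170414671837) (nat_lit 152) (nat_lit 83360571852) (nat_lit 0) (nat_lit 168420224149) (nat_lit 1) (nat_lit 5) (nat_lit 3) (nat_lit 4) (nat_lit 1) (nat_lit 4) (nat_lit 304) (nat_lit 248) (nat_lit 228)) (XT.lf (nat_lit 0) (nat_lit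 200890475694) (nat_lit 152) (nat_lit 85335988353) (nat_lit 0) (nat_lit 198879098665) (nat_lit 1) (nat_lit 5) (nat_lit 3) (nat_lit 4) (nat_lit 1) (nat_lit 4) (nat_lit 305) (nat_lit 248) (nat_lit 227)))) (XT.nd (nat_lit 78) (nat_lit 0) (nat_lit 0) (XT.lf (nat_lit 0) (nat_lit 235867683721) (nat_lit 152) (nat_lit 87748508524) (nat_lit 0) (nat_lit 233841585526) (nat_lit 1) (nat_lit 5) (nat_lit 3) (nat_lit 4) (nat_lit 1) (nat_lit 4) (nat_lit 306) (nat_lit 248) (nat_lit 226)) (XT.nd (nat_lit 78) (nat_lit 0) (nat_lit 0) (XT.lf (nat_lit 0) (nat_lit 276030632596) (nat_lit 152) (nat_lit 90645333846) (nat_lit 0) (nat_lit 273991733388) (nat_lit 1) (nat_lit 5) (nat_lit 3) (nat_lit 4) (nat_lit 1) (nat_lit 4) (nat_lit 307) (nat_lit 248) (nat_lit 225)) (XT.lf (nat_lit 0) (nat_lit 322165119146) (nat_lit 152) (nat_lit 94083141338) (nat_lit 0) (nat_lit 320115088621) (nat_lit 1) (nat_lit 5) (nat_lit 3) (nat_lit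 4) (nat_lit 1) (nat_lit 4) (nat_lit 308) (nat_lit 248) (nat_lit 224))))) (XT.nd (nat_lit 234) (nat_lit 0) (nat_lit 0) (XT.nd (nat_lit 78) (nat_lit 0) (nat_lit 0) (XT.lf (nat_lit 0) (nat_lit 375173774629) (nat_lit 152) (nat_lit 98129192449) (nat_lit 0) (nat_lit 373114064698) (nat_lit 1) (nat_lit 5) (nat_lit 3) (nat_lit 4) (nat_lit 1) (nat_lit 4) (nat_lit 309) (nat_lit 248) (nat_lit 223)) (XT.nd (nat_lit 78) (nat_lit 0) (nat_lit 0) (XT.lf (nat_lit 0) (nat_lit 436093724913) (nat_lit 152) (nat_lit 102862649050) (nat_lit 0) (nat_lit 434025598108) (nat_lit 1) (nat_lit 5) (nat_lit 3) (nat_lit 4) (nat_lit 1) (nat_lit 4) (nat_lit 310) (nat_lit 248) (nat_lit 222)) (XT.lf (nat_lit 0) (nat_lit 506116882070) (nat_lit 152) (nat_lit 108376122248) (nat_lit 0) (nat_lit 504041436243) (nat_lit 1) (nat_lit 5) (nat_lit 3) (nat_lit 4) (nat_lit 1) (nat_lit 4) (nat_lit 311) (nat_lit 248) (nat_lit 221)))) (XT.nd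 (nat_lit 156) (nat_lit 0) (nat_lit 0) (XT.nd (nat_lit 78) (nat_lit 0) (nat_lit 0) (XT.lf (nat_lit 0) (nat_lit 586613264390) (nat_lit 152) (nat_lit 114777484344) (nat_lit 0) (nat_lit 584531454197) (nat_lit 1) (nat_lit 5) (nat_lit 3) (nat_lit 4) (nat_lit 1) (nat_lit 4) (nat_lit 312) (nat_lit 248) (nat_lit 220)) (XT.lf (nat_lit 0) (nat_lit 679157801093) (nat_lit 152) (nat_lit 122191979379) (nat_lit 0) (nat_lit 677070456669) (nat_lit 1) (nat_lit 5) (nat_lit 3) (nat_lit 4) (nat_lit 1) (nat_lit 4) (nat_lit 313) (nat_lit 248) (nat_lit 219))) (XT.nd (nat_lit 78) (nat_lit 0) (nat_lit 0) (XT.lf (nat_lit 0) (nat_lit 785561146160) (nat_lit 152) (nat_lit 130764673561) (nat_lit 0) (nat_lit 783468989360) (nat_lit 1) (nat_lit 5) (nat_lit 3) (nat_lit 4) (nat_lit 1) (nat_lit 4) (nat_lit 314) (nat_lit 248) (nat_lit 218)) (XT.lf (nat_lit 0) (nat_lit 907905104165) (nat_lit 152) (nat_lit 140663293515) (nat_lit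 0) (nat_lit 905808762692) (nat_lit 1) (nat_lit 5) (nat_lit 3) (nat_lit 4) (nat_lit 1) (nat_lit 4) (nat_lit 315) (nat_lit 248) (nat_lit 217)))))) (XT.nd (nat_lit 546) (nat_lit 0) (nat_lit 0) (XT.nd (nat_lit 234) (nat_lit 0) (nat_lit 0) (XT.nd (nat_lit 78) (nat_lit 0) (nat_lit 0) (XT.lf (nat_lit 0) (nat_lit 1048583361246) (nat_lit 152) (nat_lit 152081507893) (nat_lit 0) (nat_lit 1046483380925) (nat_lit 1) (nat_lit 5) (nat_lit 3) (nat_lit 4) (nat_lit 1) (nat_lit 4) (nat_lit 316) (nat_lit 248) (nat_lit 216)) (XT.nd (nat_lit 78) (nat_lit 0) (nat_lit 0) (XT.lf (nat_lit 0) (nat_lit 1210348318083) (nat_lit 152) (nat_lit 165242716540) (nat_lit 0) (nat_lit 1208245173548) (nat_lit 1) (nat_lit 5) (nat_lit 3) (nat_lit 4) (nat_lit 1) (nat_lit 4) (nat_lit 317) (nat_lit 248) (nat_lit 215)) (XT.lf (nat_lit 0) (nat_lit 1396364941224) (nat_lit 152) (nat_lit 180404421365) (nat_lit 0) (nat_lit 1394259045197)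 (nat_lit 1) (nat_lit 5) (nat_lit 3) (nat_lit 4) (nat_lit 1) (nat_lit 4) (nat_lit 318) (nat_lit 248) (nat_lit 214)))) (XT.nd (nat_lit 156) (nat_lit 0) (nat_lit 0) (XT.nd (nat_lit 78) (nat_lit 0) (nat_lit 0) (XT.lf (nat_lit 0) (nat_lit 1610272686339) (nat_lit 152) (nat_lit 197863264420) (nat_lit 0) (nat_lit 1608164397711) (nat_lit 1) (nat_lit 5) (nat_lit 3) (nat_lit 4) (nat_lit 1) (nat_lit 4) (nat_lit 319) (nat_lit 248) (nat_lit 213)) (XT.lf (nat_lit 0) (nat_lit 1856256704962) (nat_lit 152) (nat_lit 217960831763) (nat_lit 0) (nat_lit 1854146335811) (nat_lit 1) (nat_lit 5) (nat_lit 3) (nat_lit 4) (nat_lit 1) (nat_lit 4) (nat_lit 320) (nat_lit 248) (nat_lit 212))) (XT.nd (nat_lit 78) (nat_lit 0) (nat_lit 0) (XT.lf (nat_lit 0) (nat_lit 2139129727893) (nat_lit 152) (nat_lit 241090336669) (nat_lit 0) (nat_lit 2137017549592) (nat_lit 1) (nat_lit 5) (nat_lit 3) (nat_lit 4) (nat_lit 1) (nat_lit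 4) (nat_lit 321) (nat_lit 248) (nat_lit 211)) (XT.lf (nat_lit 0) (nat_lit 2464426227319) (nat_lit 152) (nat_lit 267704312930) (nat_lit 0) (nat_lit 2462312475844) (nat_lit 1) (nat_lit 5) (nat_lit 3) (nat_lit 4) (nat_lit 1) (nat_lit 4) (nat_lit 322) (nat_lit 248) (nat_lit 210))))) (XT.nd (nat_lit 234) (nat_lit 0) (nat_lit 0) (XT.nd (nat_lit 78) (nat_lit 0) (nat_lit 0) (XT.lf (nat_lit 0) (nat_lit 2838510699969) (nat_lit 152) (nat_lit 298323468776) (nat_lit 0) (nat_lit 2836395580516) (nat_lit 1) (nat_lit 5) (nat_lit 3) (nat_lit 4) (nat_lit 1) (nat_lit 4) (nat_lit 323) (nat_lit 248) (nat_lit 209)) (XT.nd (nat_lit 78) (nat_lit 0) (nat_lit 0) (XT.lf (nat_lit 0) (nat_lit 3268702189872) (nat_lit 152) (nat_lit 333546874649) (nat_lit 0) (nat_lit 3266585880874) (nat_lit 1) (nat_lit 5) (nat_lit 3) (nat_lit 4) (nat_lit 1) (nat_lit 4) (nat_lit 324) (nat_lit 248) (nat_lit 208)) (XT.lf (nat_lit 0) (nat_lit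 3763417487048) (nat_lit 152) (nat_lit 374063684141) (nat_lit 0) (nat_lit 3761300143663) (nat_lit 1) (nat_lit 5) (nat_lit 3) (nat_lit 4) (nat_lit 1) (nat_lit 4) (nat_lit 325) (nat_lit 248) (nat_lit 207)))) (XT.nd (nat_lit 156) (nat_lit 0) (nat_lit 0) (XT.nd (nat_lit 78) (nat_lit 0) (nat_lit 0) (XT.lf (nat_lit 0) (nat_lit 4332335803834) (nat_lit 152) (nat_lit 420666617438) (nat_lit 0) (nat_lit 4330217560981) (nat_lit 1) (nat_lit 5) (nat_lit 3) (nat_lit 4) (nat_lit 1) (nat_lit 4) (nat_lit 326) (nat_lit 248) (nat_lit 206)) (XT.lf (nat_lit 0) (nat_lit 4986588150775) (nat_lit 152) (nat_lit 474267471061) (nat_lit 0) (nat_lit 4984469125777) (nat_lit 1) (nat_lit 5) (nat_lit 3) (nat_lit 4) (nat_lit 1) (nat_lit 4) (nat_lit 327) (nat_lit 248) (nat_lit 205))) (XT.nd (nat_lit 78) (nat_lit 0) (nat_lit 0) (XT.lf (nat_lit 0) (nat_lit 5738975117268) (nat_lit 152) (nat_lit 535914957364) (nat_lit 0) (nat_lit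 5736855412143) (nat_lit 1) (nat_lit 5) (nat_lit 3) (nat_lit 4) (nat_lit 1) (nat_lit 4) (nat_lit 328) (nat_lit 248) (nat_lit 204)) (XT.lf (nat_lit 0) (nat_lit 6604217317874) (nat_lit 152) (nat_lit 606815222817) (nat_lit 0) (nat_lit 6602097021335) (nat_lit 1) (nat_lit 5) (nat_lit 3) (nat_lit 4) (nat_lit 1) (nat_lit 4) (nat_lit 329) (nat_lit 248) (nat_lit 203))))))))
noncomputable def xc11 : XT := (XT.nd (nat_lit 38844) (nat_lit 0) (nat_lit 0) (XT.nd (nat_lit 37752) (nat_lit 0) (nat_lit 0) (XT.nd (nat_lit 37206) (nat_lit 0) (nat_lit 152) (XT.nd (nat_lit 36972) (nat_lit 0) (nat_lit 380) (XT.nd (nat_lit 78) (nat_lit 0) (nat_lit 0) (XT.lf (nat_lit 0) (nat_lit 7599243404345) (nat_lit 152) (nat_lit 688355446528) (nat_lit 0) (nat_lit 7597122593533) (nat_lit 1) (nat_lit 5) (nat_lit 3) (nat_lit 4) (nat_lit 1) (nat_lit 4) (nat_lit 330) (nat_lit 248) (nat_lit 202)) (XT.nd (nat_lit 36816) (nat_lit 0)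 (nat_lit 608) (XT.lf (nat_lit 0) (nat_lit 8743521278373) (nat_lit 152) (nat_lit 782130980700) (nat_lit 0) (nat_lit 8741400020366) (nat_lit 1) (nat_lit 5) (nat_lit 3) (nat_lit 4) (nat_lit 1) (nat_lit 4) (nat_lit 331) (nat_lit 248) (nat_lit 201)) (XT.lf (nat_lit 0) (nat_lit 6373124689) (nat_lit 76) (nat_lit 2847665912) (nat_lit 76) (nat_lit 2847665912) (nat_lit 9) (nat_lit 4) (nat_lit 10) (nat_lit 5) (nat_lit 10) (nat_lit 4) (nat_lit 282) (nat_lit 249) (nat_lit 249)))) (XT.nd (nat_lit 78) (nat_lit 76) (nat_lit 0) (XT.lf (nat_lit 0) (nat_lit 4386689922) (nat_lit 152) (nat_lit 18483209272) (nat_lit 0) (nat_lit 4015033014) (nat_lit 7) (nat_lit 5) (nat_lit 9) (nat_lit 4) (nat_lit 7) (nat_lit 4) (nat_lit 283) (nat_lit 249) (nat_lit 248)) (XT.nd (nat_lit 78) (nat_lit 76) (nat_lit 0) (XT.lf (nat_lit 0) (nat_lit 15170986157) (nat_lit 152) (nat_lit 424198149) (nat_lit 0) (nat_lit 14476149329) (nat_lit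 7) (nat_lit 5) (nat_lit 9) (nat_lit 4) (nat_lit 7) (nat_lit 4) (nat_lit 284) (nat_lit 249) (nat_lit 247)) (XT.lf (nat_lit 0) (nat_lit 19644012259) (nat_lit 76) (nat_lit 7549049990) (nat_lit 76) (nat_lit 6573187144) (nat_lit 6) (nat_lit 4) (nat_lit 7) (nat_lit 5) (nat_lit 7) (nat_lit 4) (nat_lit 285) (nat_lit 249) (nat_lit 246))))) (XT.nd (nat_lit 234) (nat_lit 76) (nat_lit 0) (XT.nd (nat_lit 78) (nat_lit 0) (nat_lit 0) (XT.lf (nat_lit 0) (nat_lit 2171293413) (nat_lit 152) (nat_lit 34851538619) (nat_lit 0) (nat_lit 1041447769) (nat_lit 4) (nat_lit 5) (nat_lit 6) (nat_lit 4) (nat_lit 4) (nat_lit 4) (nat_lit 286) (nat_lit 249) (nat_lit 245)) (XT.nd (nat_lit 78) (nat_lit 0) (nat_lit 0) (XT.lf (nat_lit 0) (nat_lit 11733443466) (nat_lit 152) (nat_lit 20861569721) (nat_lit 0) (nat_lit 10406842226) (nat_lit 4) (nat_lit 5) (nat_lit 6) (nat_lit 4) (nat_lit 4) (nat_lit 4) (nat_lit 287) (nat_lit 249)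 (nat_lit 244)) (XT.lf (nat_lit 0) (nat_lit 22080799813) (nat_lit 152) (nat_lit 6068190526) (nat_lit 0) (nat_lit 20583106750) (nat_lit 4) (nat_lit 5) (nat_lit 6) (nat_lit 4) (nat_lit 4) (nat_lit 4) (nat_lit 288) (nat_lit 249) (nat_lit 243)))) (XT.nd (nat_lit 156) (nat_lit 0) (nat_lit 0) (XT.nd (nat_lit 78) (nat_lit 0) (nat_lit 0) (XT.lf (nat_lit 0) (nat_lit 10335034948) (nat_lit 76) (nat_lit 23329333620) (nat_lit 76) (nat_lit 21682865059) (nat_lit 3) (nat_lit 4) (nat_lit 4) (nat_lit 5) (nat_lit 4) (nat_lit 4) (nat_lit 289) (nat_lit 249) (nat_lit 242)) (XT.lf (nat_lit 0) (nat_lit 28535378435) (nat_lit 76) (nat_lit 18111146270) (nat_lit 76) (nat_lit 16335307711) (nat_lit 3) (nat_lit 4) (nat_lit 4) (nat_lit 5) (nat_lit 4) (nat_lit 4) (nat_lit 290) (nat_lit 249) (nat_lit 241))) (XT.nd (nat_lit 78) (nat_lit 0) (nat_lit 0) (XT.lf (nat_lit 0) (nat_lit 48569393453) (nat_lit 76) (nat_lit 12558248402)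 (nat_lit 76) (nat_lit 10669914193) (nat_lit 3) (nat_lit 4) (nat_lit 4) (nat_lit 5) (nat_lit 4) (nat_lit 4) (nat_lit 291) (nat_lit 249) (nat_lit 240)) (XT.lf (nat_lit 0) (nat_lit 70829049860) (nat_lit 76) (nat_lit 6561996363) (nat_lit 76) (nat_lit 4575839849) (nat_lit 3) (nat_lit 4) (nat_lit 4) (nat_lit 5) (nat_lit 4) (nat_lit 4) (nat_lit 292) (nat_lit 249) (nat_lit 239)))))) (XT.nd (nat_lit 546) (nat_lit 0) (nat_lit 0) (XT.nd (nat_lit 234) (nat_lit 0) (nat_lit 0) (XT.nd (nat_lit 78) (nat_lit 0) (nat_lit 0) (XT.lf (nat_lit 0) (nat_lit 2016202587) (nat_lit 152) (nat_lit 91565929931) (nat_lit 0) (nat_lit 98406858) (nat_lit 1) (nat_lit 5) (nat_lit 3) (nat_lit 4) (nat_lit 1) (nat_lit 4) (nat_lit 293) (nat_lit 249) (nat_lit 238)) (XT.nd (nat_lit 78) (nat_lit 0) (nat_lit 0) (XT.lf (nat_lit 0) (nat_lit 9522480135) (nat_lit 152) (nat_lit 90067387160) (nat_lit 0) (nat_lit 7536195780) (nat_lit 1)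 (nat_lit 5) (nat_lit 3) (nat_lit 4) (nat_lit 1) (nat_lit 4) (nat_lit 294) (nat_lit 249) (nat_lit 237)) (XT.lf (nat_lit 0) (nat_lit 17871646169) (nat_lit 152) (nat_lit 88913641882) (nat_lit 0) (nat_lit 15825806486) (nat_lit 1) (nat_lit 5) (nat_lit 3) (nat_lit 4) (nat_lit 1) (nat_lit 4) (nat_lit 295) (nat_lit 249) (nat_lit 236)))) (XT.nd (nat_lit 156) (nat_lit 0) (nat_lit 0) (XT.nd (nat_lit 78) (nat_lit 0) (nat_lit 0) (XT.lf (nat_lit 0) (nat_lit 27227053938) (nat_lit 152) (nat_lit 88082120819) (nat_lit 0) (nat_lit 25129427014) (nat_lit 1) (nat_lit 5) (nat_lit 3) (nat_lit 4) (nat_lit 1) (nat_lit 4) (nat_lit 296) (nat_lit 249) (nat_lit 235)) (XT.lf (nat_lit 0) (nat_lit 37771744028) (nat_lit 152) (nat_lit 87556555080) (nat_lit 0) (nat_lit 35629084721) (nat_lit 1) (nat_lit 5) (nat_lit 3) (nat_lit 4) (nat_lit 1) (nat_lit 4) (nat_lit 297) (nat_lit 249) (nat_lit 234))) (XT.nd (nat_lit 78) (nat_lit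 0) (nat_lit 0) (XT.lf (nat_lit 0) (nat_lit 49712025593) (nat_lit 152) (nat_lit 87326661858) (nat_lit 0) (nat_lit 47530207692) (nat_lit 1) (nat_lit 5) (nat_lit 3) (nat_lit 4) (nat_lit 1) (nat_lit 4) (nat_lit 298) (nat_lit 249) (nat_lit 233)) (XT.lf (nat_lit 0) (nat_lit 63281512838) (nat_lit 152) (nat_lit 87387943243) (nat_lit 0) (nat_lit 61065643985) (nat_lit 1) (nat_lit 5) (nat_lit 3) (nat_lit 4) (nat_lit 1) (nat_lit 4) (nat_lit 299) (nat_lit 249) (nat_lit 232))))) (XT.nd (nat_lit 234) (nat_lit 0) (nat_lit 0) (XT.nd (nat_lit 78) (nat_lit 0) (nat_lit 0) (XT.lf (nat_lit 0) (nat_lit 78745695731) (nat_lit 152) (nat_lit 87741598217) (nat_lit 0) (nat_lit 76500217355) (nat_lit 1) (nat_lit 5) (nat_lit 3) (nat_lit 4) (nat_lit 1) (nat_lit 4) (nat_lit 300) (nat_lit 249) (nat_lit 231)) (XT.nd (nat_lit 78) (nat_lit 0) (nat_lit 0) (XT.lf (nat_lit 0) (nat_lit 96407134372) (nat_lit 152) (nat_lit 88394546117)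 (nat_lit 0) (nat_lit 94135908584) (nat_lit 1) (nat_lit 5) (nat_lit 3) (nat_lit 4) (nat_lit 1) (nat_lit 4) (nat_lit 301) (nat_lit 249) (nat_lit 230)) (XT.lf (nat_lit 0) (nat_lit 116611378647) (nat_lit 152) (nat_lit 89359562011) (nat_lit 0) (nat_lit 114317763806) (nat_lit 1) (nat_lit 5) (nat_lit 3) (nat_lit 4) (nat_lit 1) (nat_lit 4) (nat_lit 302) (nat_lit 249) (nat_lit 229)))) (XT.nd (nat_lit 156) (nat_lit 0) (nat_lit 0) (XT.nd (nat_lit 78) (nat_lit 0) (nat_lit 0) (XT.lf (nat_lit 0) (nat_lit 139753728988) (nat_lit 152) (nat_lit 90655526644) (nat_lit 0) (nat_lit 137440645405) (nat_lit 1) (nat_lit 5) (nat_lit 3) (nat_lit 4) (nat_lit 1) (nat_lit 4) (nat_lit 303) (nat_lit 249) (nat_lit 228)) (XT.lf (nat_lit 0) (nat_lit 166286970509) (nat_lit 152) (nat_lit 92307795846) (nat_lit 0) (nat_lit 163956957585) (nat_lit 1) (nat_lit 5) (nat_lit 3) (nat_lit 4) (nat_lit 1) (nat_lit 4) (nat_lit 304) (nat_lit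 249) (nat_lit 227))) (XT.nd (nat_lit 78) (nat_lit 0) (nat_lit 0) (XT.lf (nat_lit 0) (nat_lit 196730231851) (nat_lit 152) (nat_lit 94348696623) (nat_lit 0) (nat_lit 194385497761) (nat_lit 1) (nat_lit 5) (nat_lit 3) (nat_lit 4) (nat_lit 1) (nat_lit 4) (nat_lit 305) (nat_lit 249) (nat_lit 226)) (XT.lf (nat_lit 0) (nat_lit 231679142038) (nat_lit 152) (nat_lit 96818159644) (nat_lit 0) (nat_lit 229321606934) (nat_lit 1) (nat_lit 5) (nat_lit 3) (nat_lit 4) (nat_lit 1) (nat_lit 4) (nat_lit 306) (nat_lit 249) (nat_lit 225))))))) (XT.nd (nat_lit 1092) (nat_lit 0) (nat_lit 0) (XT.nd (nat_lit 546) (nat_lit 0) (nat_lit 0) (XT.nd (nat_lit 234) (nat_lit 0) (nat_lit 0) (XT.nd (nat_lit 78) (nat_lit 0) (nat_lit 0) (XT.lf (nat_lit 0) (nat_lit 271817484096) (nat_lit 152) (nat_lit 99764500488) (nat_lit 0) (nat_lit 269448817676) (nat_lit 1) (nat_lit 5) (nat_lit 3) (nat_lit 4) (nat_lit 1) (nat_lit 4) (nat_lit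 307) (nat_lit 249) (nat_lit 224)) (XT.nd (nat_lit 78) (nat_lit 0) (nat_lit 0) (XT.lf (nat_lit 0) (nat_lit 317930573414) (nat_lit 152) (nat_lit 103245364954) (nat_lit 0) (nat_lit 315552227588) (nat_lit 1) (nat_lit 5) (nat_lit 3) (nat_lit 4) (nat_lit 1) (nat_lit 4) (nat_lit 308) (nat_lit 249) (nat_lit 223)) (XT.lf (nat_lit 0) (nat_lit 370920622608) (nat_lit 152) (nat_lit 107328856913) (nat_lit 0) (nat_lit 368533859907) (nat_lit 1) (nat_lit 5) (nat_lit 3) (nat_lit 4) (nat_lit 1) (nat_lit 4) (nat_lit 309) (nat_lit 249) (nat_lit 222)))) (XT.nd (nat_lit 156) (nat_lit 0) (nat_lit 0) (XT.nd (nat_lit 78) (nat_lit 0) (nat_lit 0) (XT.lf (nat_lit 0) (nat_lit 431824393510) (nat_lit 152) (nat_lit 112094870773) (nat_lit 0) (nat_lit 429430311788) (nat_lit 1) (nat_lit 5) (nat_lit 3) (nat_lit 4) (nat_lit 1) (nat_lit 4) (nat_lit 310) (nat_lit 249) (nat_lit 221)) (XT.lf (nat_lit 0) (nat_lit 501833481639)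 (nat_lit 152) (nat_lit 117636654630) (nat_lit 0) (nat_lit 499433035551) (nat_lit 1) (nat_lit 5) (nat_lit 3) (nat_lit 4) (nat_lit 1) (nat_lit 4) (nat_lit 311) (nat_lit 249) (nat_lit 220))) (XT.nd (nat_lit 78) (nat_lit 0) (nat_lit 0) (XT.lf (nat_lit 0) (nat_lit 582317630022) (nat_lit 152) (nat_lit 124062634691) (nat_lit 0) (nat_lit 579911649702) (nat_lit 1) (nat_lit 5) (nat_lit 3) (nat_lit 4) (nat_lit 1) (nat_lit 4) (nat_lit 312) (nat_lit 249) (nat_lit 219)) (XT.lf (nat_lit 0) (nat_lit 674851528520) (nat_lit 152) (nat_lit 131498536653) (nat_lit 0) (nat_lit 672440735825) (nat_lit 1) (nat_lit 5) (nat_lit 3) (nat_lit 4) (nat_lit 1) (nat_lit 4) (nat_lit 313) (nat_lit 249) (nat_lit 218))))) (XT.nd (nat_lit 234) (nat_lit 0) (nat_lit 0) (XT.nd (nat_lit 78) (nat_lit 0) (nat_lit 0) (XT.lf (nat_lit 0) (nat_lit 781245622972) (nat_lit 152) (nat_lit 140089845554) (nat_lit 0) (nat_lit 778830645602) (nat_lit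 1) (nat_lit 5) (nat_lit 3) (nat_lit 4) (nat_lit 1) (nat_lit 4) (nat_lit 314) (nat_lit 249) (nat_lit 217)) (XT.nd (nat_lit 78) (nat_lit 0) (nat_lit 0) (XT.lf (nat_lit 0) (nat_lit 903581536965) (nat_lit 152) (nat_lit 150004652220) (nat_lit 0) (nat_lit 901162920749) (nat_lit 1) (nat_lit 5) (nat_lit 3) (nat_lit 4) (nat_lit 1) (nat_lit 4) (nat_lit 315) (nat_lit 249) (nat_lit 216)) (XT.lf (nat_lit 0) (nat_lit 1044252799253) (nat_lit 152) (nat_lit 161436941999) (nat_lit 0) (nat_lit 1041831018822) (nat_lit 1) (nat_lit 5) (nat_lit 3) (nat_lit 4) (nat_lit 1) (nat_lit 4) (nat_lit 316) (nat_lit 249) (nat_lit 215)))) (XT.nd (nat_lit 156) (nat_lit 0) (nat_lit 0) (XT.nd (nat_lit 78) (nat_lit 0) (nat_lit 0) (XT.lf (nat_lit 0) (nat_lit 1206011673661) (nat_lit 152) (nat_lit 174610390125) (nat_lit 0) (nat_lit 1203587141739) (nat_lit 1) (nat_lit 5) (nat_lit 3) (nat_lit 4) (nat_lit 1) (nat_lit 4) (nat_lit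 317) (nat_lit 249) (nat_lit 214)) (XT.lf (nat_lit 0) (nat_lit 1392023007734) (nat_lit 152) (nat_lit 189782737976) (nat_lit 0) (nat_lit 1389596083210) (nat_lit 1) (nat_lit 5) (nat_lit 3) (nat_lit 4) (nat_lit 1) (nat_lit 4) (nat_lit 318) (nat_lit 249) (nat_lit 213))) (XT.nd (nat_lit 78) (nat_lit 0) (nat_lit 0) (XT.lf (nat_lit 0) (nat_lit 1605926153658) (nat_lit 152) (nat_lit 207250835836) (nat_lit 0) (nat_lit 1603497148612) (nat_lit 1) (nat_lit 5) (nat_lit 3) (nat_lit 4) (nat_lit 1) (nat_lit 4) (nat_lit 319) (nat_lit 249) (nat_lit 212)) (XT.lf (nat_lit 0) (nat_lit 1851906172985) (nat_lit 152) (nat_lit 227356450835) (nat_lit 0) (nat_lit 1849475358789) (nat_lit 1) (nat_lit 5) (nat_lit 3) (nat_lit 4) (nat_lit 1) (nat_lit 4) (nat_lit 320) (nat_lit 249) (nat_lit 211)))))) (XT.nd (nat_lit 546) (nat_lit 0) (nat_lit 0) (XT.nd (nat_lit 234) (nat_lit 0) (nat_lit 0) (XT.nd (nat_lit 78) (nat_lit 0)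 (nat_lit 0) (XT.lf (nat_lit 0) (nat_lit 2134775718268) (nat_lit 152) (nat_lit 250492953704) (nat_lit 0) (nat_lit 2132343330898) (nat_lit 1) (nat_lit 5) (nat_lit 3) (nat_lit 4) (nat_lit 1) (nat_lit 4) (nat_lit 321) (nat_lit 249) (nat_lit 210)) (XT.nd (nat_lit 78) (nat_lit 0) (nat_lit 0) (XT.lf (nat_lit 0) (nat_lit 2460069193652) (nat_lit 152) (nat_lit 277113015149) (nat_lit 0) (nat_lit 2457635438304) (nat_lit 1) (nat_lit 5) (nat_lit 3) (nat_lit 4) (nat_lit 1) (nat_lit 4) (nat_lit 322) (nat_lit 249) (nat_lit 209)) (XT.lf (nat_lit 0) (nat_lit 2834151036700) (nat_lit 152) (nat_lit 307737462460) (nat_lit 0) (nat_lit 2831716091807) (nat_lit 1) (nat_lit 5) (nat_lit 3) (nat_lit 4) (nat_lit 1) (nat_lit 4) (nat_lit 323) (nat_lit 249) (nat_lit 208)))) (XT.nd (nat_lit 156) (nat_lit 0) (nat_lit 0) (XT.nd (nat_lit 78) (nat_lit 0) (nat_lit 0) (XT.lf (nat_lit 0) (nat_lit 3264340239993) (nat_lit 152) (nat_lit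 342965469606) (nat_lit 0) (nat_lit 3261904260712) (nat_lit 1) (nat_lit 5) (nat_lit 3) (nat_lit 4) (nat_lit 1) (nat_lit 4) (nat_lit 324) (nat_lit 249) (nat_lit 207)) (XT.lf (nat_lit 0) (nat_lit 3759053548812) (nat_lit 152) (nat_lit 383486280206) (nat_lit 0) (nat_lit 3756616670064) (nat_lit 1) (nat_lit 5) (nat_lit 3) (nat_lit 4) (nat_lit 1) (nat_lit 4) (nat_lit 325) (nat_lit 249) (nat_lit 206))) (XT.nd (nat_lit 78) (nat_lit 0) (nat_lit 0) (XT.lf (nat_lit 0) (nat_lit 4327970136592) (nat_lit 152) (nat_lit 430092692727) (nat_lit 0) (nat_lit 4325532475699) (nat_lit 1) (nat_lit 5) (nat_lit 3) (nat_lit 4) (nat_lit 1) (nat_lit 4) (nat_lit 326) (nat_lit 249) (nat_lit 205)) (XT.lf (nat_lit 0) (nat_lit 4982220980050) (nat_lit 152) (nat_lit 483696571762) (nat_lit 0) (nat_lit 4979782639030) (nat_lit 1) (nat_lit 5) (nat_lit 3) (nat_lit 4) (nat_lit 1) (nat_lit 4) (nat_lit 327) (nat_lit 249) (nat_lit 204)))))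 (XT.nd (nat_lit 234) (nat_lit 0) (nat_lit 0) (XT.nd (nat_lit 78) (nat_lit 0) (nat_lit 0) (XT.lf (nat_lit 0) (nat_lit 5734606639165) (nat_lit 152) (nat_lit 545346688858) (nat_lit 0) (nat_lit 5732167706731) (nat_lit 1) (nat_lit 5) (nat_lit 3) (nat_lit 4) (nat_lit 1) (nat_lit 4) (nat_lit 328) (nat_lit 249) (nat_lit 203)) (XT.nd (nat_lit 78) (nat_lit 0) (nat_lit 0) (XT.lf (nat_lit 0) (nat_lit 6599847702922) (nat_lit 152) (nat_lit 616249241958) (nat_lit 0) (nat_lit 6597408256215) (nat_lit 1) (nat_lit 5) (nat_lit 3) (nat_lit 4) (nat_lit 1) (nat_lit 4) (nat_lit 329) (nat_lit 249) (nat_lit 202)) (XT.lf (nat_lit 0) (nat_lit 7594872800829) (nat_lit 152) (nat_lit 697791454927) (nat_lit 0) (nat_lit 7592432906927) (nat_lit 1) (nat_lit 5) (nat_lit 3) (nat_lit 4) (nat_lit 1) (nat_lit 4) (nat_lit 330) (nat_lit 249) (nat_lit 201)))) (XT.nd (nat_lit 36738) (nat_lit 0) (nat_lit 608) (XT.nd (nat_lit 36660)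 (nat_lit 0) (nat_lit 836) (XT.lf (nat_lit 0) (nat_lit 8739149815235) (nat_lit 152) (nat_lit 791568718887) (nat_lit 0) (nat_lit 8736709532468) (nat_lit 1) (nat_lit 5) (nat_lit 3) (nat_lit 4) (nat_lit 1) (nat_lit 4) (nat_lit 331) (nat_lit 249) (nat_lit 200)) (XT.lf (nat_lit 0) (nat_lit 6608702038) (nat_lit 76) (nat_lit 1622726555) (nat_lit 76) (nat_lit 1622726555) (nat_lit 12) (nat_lit 4) (nat_lit 13) (nat_lit 5) (nat_lit 13) (nat_lit 4) (nat_lit 280) (nat_lit 250) (nat_lit 250))) (XT.nd (nat_lit 78) (nat_lit 76) (nat_lit 0) (XT.lf (nat_lit 0) (nat_lit 7111085383) (nat_lit 152) (nat_lit 8013393143) (nat_lit 0) (nat_lit 6649487503) (nat_lit 10) (nat_lit 5) (nat_lit 12) (nat_lit 4) (nat_lit 10) (nat_lit 4) (nat_lit 281) (nat_lit 250) (nat_lit 249)) (XT.lf (nat_lit 0) (nat_lit 11816770363) (nat_lit 76) (nat_lit 6610650137) (nat_lit 76) (nat_lit 5747662796) (nat_lit 9) (nat_lit 4) (nat_lit 10)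 (nat_lit 5) (nat_lit 10) (nat_lit 4) (nat_lit 282) (nat_lit 250) (nat_lit 248))))))))
noncomputable def xc12 : XT := (XT.nd (nat_lit 2106) (nat_lit 0) (nat_lit 0) (XT.nd (nat_lit 1014) (nat_lit 0) (nat_lit 0) (XT.nd (nat_lit 468) (nat_lit 228) (nat_lit 0) (XT.nd (nat_lit 234) (nat_lit 152) (nat_lit 0) (XT.nd (nat_lit 78) (nat_lit 76) (nat_lit 0) (XT.lf (nat_lit 0) (nat_lit 3833946291) (nat_lit 152) (nat_lit 20417883523) (nat_lit 0) (nat_lit 2711704018) (nat_lit 7) (nat_lit 5) (nat_lit 9) (nat_lit 4) (nat_lit 7) (nat_lit 4) (nat_lit 283) (nat_lit 250) (nat_lit 247)) (XT.nd (nat_lit 78) (nat_lit 76) (nat_lit 0) (XT.lf (nat_lit 0) (nat_lit 14221822272) (nat_lit 152) (nat_lit 3141349346) (nat_lit 0) (nat_lit 12818553982) (nat_lit 7) (nat_lit 5) (nat_lit 9) (nat_lit 4) (nat_lit 7) (nat_lit 4) (nat_lit 284) (nat_lit 250) (nat_lit 246)) (XT.lf (nat_lit 0) (nat_lit 16067536524) (nat_lit 76) (nat_lit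 9745634249) (nat_lit 76) (nat_lit 8097995509) (nat_lit 6) (nat_lit 4) (nat_lit 7) (nat_lit 5) (nat_lit 7) (nat_lit 4) (nat_lit 285) (nat_lit 250) (nat_lit 245)))) (XT.nd (nat_lit 78) (nat_lit 76) (nat_lit 0) (XT.lf (nat_lit 0) (nat_lit 295485616) (nat_lit 152) (nat_lit 1245524702) (nat_lit 76) (nat_lit 36705355944) (nat_lit 5) (nat_lit 5) (nat_lit 7) (nat_lit 5) (nat_lit 6) (nat_lit 4) (nat_lit 286) (nat_lit 250) (nat_lit 244)) (XT.nd (nat_lit 78) (nat_lit 0) (nat_lit 0) (XT.lf (nat_lit 0) (nat_lit 9486308524) (nat_lit 152) (nat_lit 26134516551) (nat_lit 0) (nat_lit 7592869679) (nat_lit 4) (nat_lit 5) (nat_lit 6) (nat_lit 4) (nat_lit 4) (nat_lit 4) (nat_lit 287) (nat_lit 250) (nat_lit 243)) (XT.lf (nat_lit 0) (nat_lit 19571130507) (nat_lit 152) (nat_lit 11864933126) (nat_lit 0) (nat_lit 17528916164) (nat_lit 4) (nat_lit 5) (nat_lit 6) (nat_lit 4) (nat_lit 4) (nat_lit 4) (nat_lit 288) (nat_lit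 250) (nat_lit 242))))) (XT.nd (nat_lit 234) (nat_lit 152) (nat_lit 0) (XT.nd (nat_lit 78) (nat_lit 0) (nat_lit 0) (XT.lf (nat_lit 0) (nat_lit 3753587090) (nat_lit 76) (nat_lit 27014537442) (nat_lit 76) (nat_lit 24842953101) (nat_lit 3) (nat_lit 4) (nat_lit 4) (nat_lit 5) (nat_lit 4) (nat_lit 4) (nat_lit 289) (nat_lit 250) (nat_lit 241)) (XT.nd (nat_lit 78) (nat_lit 0) (nat_lit 0) (XT.lf (nat_lit 0) (nat_lit 21537009650) (nat_lit 76) (nat_lit 22004730364) (nat_lit 76) (nat_lit 19720650373) (nat_lit 3) (nat_lit 4) (nat_lit 4) (nat_lit 5) (nat_lit 4) (nat_lit 4) (nat_lit 290) (nat_lit 250) (nat_lit 240)) (XT.lf (nat_lit 0) (nat_lit 41208484732) (nat_lit 76) (nat_lit 16633032733) (nat_lit 76) (nat_lit 14251130437) (nat_lit 3) (nat_lit 4) (nat_lit 4) (nat_lit 5) (nat_lit 4) (nat_lit 4) (nat_lit 291) (nat_lit 250) (nat_lit 239)))) (XT.nd (nat_lit 156) (nat_lit 152) (nat_lit 0) (XT.nd (nat_lit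 78) (nat_lit 0) (nat_lit 0) (XT.lf (nat_lit 0) (nat_lit 63152889020) (nat_lit 76) (nat_lit 10794346117) (nat_lit 76) (nat_lit 8327380948) (nat_lit 3) (nat_lit 4) (nat_lit 4) (nat_lit 5) (nat_lit 4) (nat_lit 4) (nat_lit 292) (nat_lit 250) (nat_lit 238)) (XT.lf (nat_lit 0) (nat_lit 87799569555) (nat_lit 76) (nat_lit 4374435344) (nat_lit 76) (nat_lit 1833502458) (nat_lit 3) (nat_lit 4) (nat_lit 4) (nat_lit 5) (nat_lit 4) (nat_lit 4) (nat_lit 293) (nat_lit 250) (nat_lit 237))) (XT.nd (nat_lit 78) (nat_lit 0) (nat_lit 0) (XT.lf (nat_lit 0) (nat_lit 5366391269) (nat_lit 152) (nat_lit 99167911644) (nat_lit 0) (nat_lit 2954120307) (nat_lit 1) (nat_lit 5) (nat_lit 3) (nat_lit 4) (nat_lit 1) (nat_lit 4) (nat_lit 294) (nat_lit 250) (nat_lit 236)) (XT.lf (nat_lit 0) (nat_lit 13601076758) (nat_lit 152) (nat_lit 98244531951) (nat_lit 0) (nat_lit 11137018555) (nat_lit 1) (nat_lit 5) (nat_lit 3) (nat_lit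 4) (nat_lit 1) (nat_lit 4) (nat_lit 295) (nat_lit 250) (nat_lit 235)))))) (XT.nd (nat_lit 546) (nat_lit 0) (nat_lit 0) (XT.nd (nat_lit 234) (nat_lit 0) (nat_lit 0) (XT.nd (nat_lit 78) (nat_lit 0) (nat_lit 0) (XT.lf (nat_lit 0) (nat_lit 22856936228) (nat_lit 152) (nat_lit 97613328787) (nat_lit 0) (nat_lit 20347845641) (nat_lit 1) (nat_lit 5) (nat_lit 3) (nat_lit 4) (nat_lit 1) (nat_lit 4) (nat_lit 296) (nat_lit 250) (nat_lit 234)) (XT.nd (nat_lit 78) (nat_lit 0) (nat_lit 0) (XT.lf (nat_lit 0) (nat_lit 33315062579) (nat_lit 152) (nat_lit 97261952527) (nat_lit 0) (nat_lit 30766813398) (nat_lit 1) (nat_lit 5) (nat_lit 3) (nat_lit 4) (nat_lit 1) (nat_lit 4) (nat_lit 297) (nat_lit 250) (nat_lit 233)) (XT.lf (nat_lit 0) (nat_lit 45180071328) (nat_lit 152) (nat_lit 97183528416) (nat_lit 0) (nat_lit 42597771195) (nat_lit 1) (nat_lit 5) (nat_lit 3) (nat_lit 4) (nat_lit 1) (nat_lit 4) (nat_lit 298)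 (nat_lit 250) (nat_lit 232)))) (XT.nd (nat_lit 156) (nat_lit 0) (nat_lit 0) (XT.nd (nat_lit 78) (nat_lit 0) (nat_lit 0) (XT.lf (nat_lit 0) (nat_lit 58684103950) (nat_lit 152) (nat_lit 97376522071) (nat_lit 0) (nat_lit 56072194295) (nat_lit 1) (nat_lit 5) (nat_lit 3) (nat_lit 4) (nat_lit 1) (nat_lit 4) (nat_lit 299) (nat_lit 250) (nat_lit 231)) (XT.lf (nat_lit 0) (nat_lit 74091369780) (nat_lit 152) (nat_lit 97844709454) (nat_lit 0) (nat_lit 71453712713) (nat_lit 1) (nat_lit 5) (nat_lit 3) (nat_lit 4) (nat_lit 1) (nat_lit 4) (nat_lit 300) (nat_lit 250) (nat_lit 230))) (XT.nd (nat_lit 78) (nat_lit 0) (nat_lit 0) (XT.lf (nat_lit 0) (nat_lit 91703315322) (nat_lit 152) (nat_lit 98597250754) (nat_lit 0) (nat_lit 89043269202) (nat_lit 1) (nat_lit 5) (nat_lit 3) (nat_lit 4) (nat_lit 1) (nat_lit 4) (nat_lit 301) (nat_lit 250) (nat_lit 229)) (XT.lf (nat_lit 0) (nat_lit 111864522120) (nat_lit 152)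 (nat_lit 99648869604) (nat_lit 0) (nat_lit 109185007258) (nat_lit 1) (nat_lit 5) (nat_lit 3) (nat_lit 4) (nat_lit 1) (nat_lit 4) (nat_lit 302) (nat_lit 250) (nat_lit 228))))) (XT.nd (nat_lit 234) (nat_lit 0) (nat_lit 0) (XT.nd (nat_lit 78) (nat_lit 0) (nat_lit 0) (XT.lf (nat_lit 0) (nat_lit 134969448568) (nat_lit 152) (nat_lit 101020141155) (nat_lit 0) (nat_lit 132273004364) (nat_lit 1) (nat_lit 5) (nat_lit 3) (nat_lit 4) (nat_lit 1) (nat_lit 4) (nat_lit 303) (nat_lit 250) (nat_lit 227)) (XT.nd (nat_lit 78) (nat_lit 0) (nat_lit 0) (XT.lf (nat_lit 0) (nat_lit 161470147574) (nat_lit 152) (nat_lit 102737894634) (nat_lit 0) (nat_lit 158758982204) (nat_lit 1) (nat_lit 5) (nat_lit 3) (nat_lit 4) (nat_lit 1) (nat_lit 4) (nat_lit 304) (nat_lit 250) (nat_lit 226)) (XT.lf (nat_lit 0) (nat_lit 191885111076) (nat_lit 152) (nat_lit 104835738261) (nat_lit 0) (nat_lit 189161144692) (nat_lit 1) (nat_lit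 5) (nat_lit 3) (nat_lit 4) (nat_lit 1) (nat_lit 4) (nat_lit 305) (nat_lit 250) (nat_lit 225)))) (XT.nd (nat_lit 156) (nat_lit 0) (nat_lit 0) (XT.nd (nat_lit 78) (nat_lit 0) (nat_lit 0) (XT.lf (nat_lit 0) (nat_lit 226809414446) (nat_lit 152) (nat_lit 107354716802) (nat_lit 0) (nat_lit 224074316746) (nat_lit 1) (nat_lit 5) (nat_lit 3) (nat_lit 4) (nat_lit 1) (nat_lit 4) (nat_lit 306) (nat_lit 250) (nat_lit 224)) (XT.lf (nat_lit 0) (nat_lit 266926359272) (nat_lit 152) (nat_lit 110344114621) (nat_lit 0) (nat_lit 264181582166) (nat_lit 1) (nat_lit 5) (nat_lit 3) (nat_lit 4) (nat_lit 1) (nat_lit 4) (nat_lit 307) (nat_lit 250) (nat_lit 223))) (XT.nd (nat_lit 78) (nat_lit 0) (nat_lit 0) (XT.lf (nat_lit 0) (nat_lit 313020842300) (nat_lit 152) (nat_lit 113862419935) (nat_lit 0) (nat_lit 310267648320) (nat_lit 1) (nat_lit 5) (nat_lit 3) (nat_lit 4) (nat_lit 1) (nat_lit 4) (nat_lit 308) (nat_lit 250)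 (nat_lit 222)) (XT.lf (nat_lit 0) (nat_lit 365994712112) (nat_lit 152) (nat_lit 117978469153) (nat_lit 0) (nat_lit 363234199111) (nat_lit 1) (nat_lit 5) (nat_lit 3) (nat_lit 4) (nat_lit 1) (nat_lit 4) (nat_lit 309) (nat_lit 250) (nat_lit 221))))))) (XT.nd (nat_lit 1014) (nat_lit 0) (nat_lit 0) (XT.nd (nat_lit 468) (nat_lit 0) (nat_lit 0) (XT.nd (nat_lit 234) (nat_lit 0) (nat_lit 0) (XT.nd (nat_lit 78) (nat_lit 0) (nat_lit 0) (XT.lf (nat_lit 0) (nat_lit 426884413987) (nat_lit 152) (nat_lit 122772793673) (nat_lit 0) (nat_lit 424117536620) (nat_lit 1) (nat_lit 5) (nat_lit 3) (nat_lit 4) (nat_lit 1) (nat_lit 4) (nat_lit 310) (nat_lit 250) (nat_lit 220)) (XT.nd (nat_lit 78) (nat_lit 0) (nat_lit 0) (XT.lf (nat_lit 0) (nat_lit 496881268179) (nat_lit 152) (nat_lit 128339195495) (nat_lit 0) (nat_lit 494108856580) (nat_lit 1) (nat_lit 5) (nat_lit 3) (nat_lit 4) (nat_lit 1) (nat_lit 4) (nat_lit 311)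 (nat_lit 250) (nat_lit 219)) (XT.lf (nat_lit 0) (nat_lit 577354778356) (nat_lit 152) (nat_lit 134786582483) (nat_lit 0) (nat_lit 574577554381) (nat_lit 1) (nat_lit 5) (nat_lit 3) (nat_lit 4) (nat_lit 1) (nat_lit 4) (nat_lit 312) (nat_lit 250) (nat_lit 218)))) (XT.nd (nat_lit 78) (nat_lit 0) (nat_lit 0) (XT.lf (nat_lit 0) (nat_lit 669879426240) (nat_lit 152) (nat_lit 142241099163) (nat_lit 0) (nat_lit 667098017591) (nat_lit 1) (nat_lit 5) (nat_lit 3) (nat_lit 4) (nat_lit 1) (nat_lit 4) (nat_lit 313) (nat_lit 250) (nat_lit 217)) (XT.nd (nat_lit 78) (nat_lit 0) (nat_lit 0) (XT.lf (nat_lit 0) (nat_lit 776265476679) (nat_lit 152) (nat_lit 150848594775) (nat_lit 0) (nat_lit 773480429184) (nat_lit 1) (nat_lit 5) (nat_lit 3) (nat_lit 4) (nat_lit 1) (nat_lit 4) (nat_lit 314) (nat_lit 250) (nat_lit 216)) (XT.lf (nat_lit 0) (nat_lit 898594395880) (nat_lit 152) (nat_lit 160777476843) (nat_lit 0) (nat_lit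 895806184169) (nat_lit 1) (nat_lit 5) (nat_lit 3) (nat_lit 4) (nat_lit 1) (nat_lit 4) (nat_lit 315) (nat_lit 250) (nat_lit 215))))) (XT.nd (nat_lit 234) (nat_lit 0) (nat_lit 0) (XT.nd (nat_lit 78) (nat_lit 0) (nat_lit 0) (XT.lf (nat_lit 0) (nat_lit 1039259575739) (nat_lit 152) (nat_lit 172222006101) (nat_lit 0) (nat_lit 1036468612537) (nat_lit 1) (nat_lit 5) (nat_lit 3) (nat_lit 4) (nat_lit 1) (nat_lit 4) (nat_lit 316) (nat_lit 250) (nat_lit 214)) (XT.nd (nat_lit 78) (nat_lit 0) (nat_lit 0) (XT.lf (nat_lit 0) (nat_lit 1201013161078) (nat_lit 152) (nat_lit 185406097254) (nat_lit 0) (nat_lit 1198219805276) (nat_lit 1) (nat_lit 5) (nat_lit 3) (nat_lit 4) (nat_lit 1) (nat_lit 4) (nat_lit 317) (nat_lit 250) (nat_lit 213)) (XT.lf (nat_lit 0) (nat_lit 1387019895961) (nat_lit 152) (nat_lit 200587699910) (nat_lit 0) (nat_lit 1384224459635) (nat_lit 1) (nat_lit 5) (nat_lit 3) (nat_lit 4) (nat_lit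 1) (nat_lit 4) (nat_lit 318) (nat_lit 250) (nat_lit 212)))) (XT.nd (nat_lit 156) (nat_lit 0) (nat_lit 0) (XT.nd (nat_lit 78) (nat_lit 0) (nat_lit 0) (XT.lf (nat_lit 0) (nat_lit 1600919042589) (nat_lit 152) (nat_lit 218063845425) (nat_lit 0) (nat_lit 1598121797114) (nat_lit 1) (nat_lit 5) (nat_lit 3) (nat_lit 4) (nat_lit 1) (nat_lit 4) (nat_lit 319) (nat_lit 250) (nat_lit 211)) (XT.lf (nat_lit 0) (nat_lit 1846895584268) (nat_lit 152) (nat_lit 238176458387) (nat_lit 0) (nat_lit 1844096765619) (nat_lit 1) (nat_lit 5) (nat_lit 3) (nat_lit 4) (nat_lit 1) (nat_lit 4) (nat_lit 320) (nat_lit 250) (nat_lit 210))) (XT.nd (nat_lit 78) (nat_lit 0) (nat_lit 0) (XT.lf (nat_lit 0) (nat_lit 2129762105509) (nat_lit 152) (nat_lit 261319046440) (nat_lit 0) (nat_lit 2126961918882) (nat_lit 1) (nat_lit 5) (nat_lit 3) (nat_lit 4) (nat_lit 1) (nat_lit 4) (nat_lit 321) (nat_lit 250) (nat_lit 209)) (XT.lf (nat_lit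 0) (nat_lit 2455052951291) (nat_lit 152) (nat_lit 287944399350) (nat_lit 0) (nat_lit 2452251575118) (nat_lit 1) (nat_lit 5) (nat_lit 3) (nat_lit 4) (nat_lit 1) (nat_lit 4) (nat_lit 322) (nat_lit 250) (nat_lit 208)))))) (XT.nd (nat_lit 546) (nat_lit 0) (nat_lit 0) (XT.nd (nat_lit 234) (nat_lit 0) (nat_lit 0) (XT.nd (nat_lit 78) (nat_lit 0) (nat_lit 0) (XT.lf (nat_lit 0) (nat_lit 2829132507728) (nat_lit 152) (nat_lit 318573447935) (nat_lit 0) (nat_lit 2826330097168) (nat_lit 1) (nat_lit 5) (nat_lit 3) (nat_lit 4) (nat_lit 1) (nat_lit 4) (nat_lit 323) (nat_lit 250) (nat_lit 207)) (XT.nd (nat_lit 78) (nat_lit 0) (nat_lit 0) (XT.lf (nat_lit 0) (nat_lit 3259319722664) (nat_lit 152) (nat_lit 353805456189) (nat_lit 0) (nat_lit 3256516412637) (nat_lit 1) (nat_lit 5) (nat_lit 3) (nat_lit 4) (nat_lit 1) (nat_lit 4) (nat_lit 324) (nat_lit 250) (nat_lit 206)) (XT.lf (nat_lit 0) (nat_lit 3754031302478)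 (nat_lit 152) (nat_lit 394329746012) (nat_lit 0) (nat_lit 3751227210305) (nat_lit 1) (nat_lit 5) (nat_lit 3) (nat_lit 4) (nat_lit 1) (nat_lit 4) (nat_lit 325) (nat_lit 250) (nat_lit 205)))) (XT.nd (nat_lit 156) (nat_lit 0) (nat_lit 0) (XT.nd (nat_lit 78) (nat_lit 0) (nat_lit 0) (XT.lf (nat_lit 0) (nat_lit 4322946386775) (nat_lit 152) (nat_lit 440939183945) (nat_lit 0) (nat_lit 4320141614475) (nat_lit 1) (nat_lit 5) (nat_lit 3) (nat_lit 4) (nat_lit 1) (nat_lit 4) (nat_lit 326) (nat_lit 250) (nat_lit 204)) (XT.lf (nat_lit 0) (nat_lit 4977195922855) (nat_lit 152) (nat_lit 494545693774) (nat_lit 0) (nat_lit 4974390559141) (nat_lit 1) (nat_lit 5) (nat_lit 3) (nat_lit 4) (nat_lit 1) (nat_lit 4) (nat_lit 327) (nat_lit 250) (nat_lit 203))) (XT.nd (nat_lit 78) (nat_lit 0) (nat_lit 0) (XT.lf (nat_lit 0) (nat_lit 5729580445122) (nat_lit 152) (nat_lit 556198098516) (nat_lit 0) (nat_lit 5726774567134)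 (nat_lit 1) (nat_lit 5) (nat_lit 3) (nat_lit 4) (nat_lit 1) (nat_lit 4) (nat_lit 328) (nat_lit 250) (nat_lit 202)) (XT.lf (nat_lit 0) (nat_lit 6594820520314) (nat_lit 152) (nat_lit 627102640874) (nat_lit 0) (nat_lit 6592014195132) (nat_lit 1) (nat_lit 5) (nat_lit 3) (nat_lit 4) (nat_lit 1) (nat_lit 4) (nat_lit 329) (nat_lit 250) (nat_lit 201))))) (XT.nd (nat_lit 36660) (nat_lit 0) (nat_lit 608) (XT.nd (nat_lit 78) (nat_lit 0) (nat_lit 0) (XT.lf (nat_lit 0) (nat_lit 7589844758599) (nat_lit 152) (nat_lit 708646583631) (nat_lit 0) (nat_lit 7587038044553) (nat_lit 1) (nat_lit 5) (nat_lit 3) (nat_lit 4) (nat_lit 1) (nat_lit 4) (nat_lit 330) (nat_lit 250) (nat_lit 200)) (XT.nd (nat_lit 36504) (nat_lit 0) (nat_lit 1064) (XT.lf (nat_lit 0) (nat_lit 8734121025508) (nat_lit 152) (nat_lit 802425351757) (nat_lit 0) (nat_lit 8731313973319) (nat_lit 1) (nat_lit 5) (nat_lit 3) (nat_lit 4) (nat_lit 1)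 (nat_lit 4) (nat_lit 331) (nat_lit 250) (nat_lit 199)) (XT.lf (nat_lit 0) (nat_lit 3806133643) (nat_lit 76) (nat_lit 2183836746) (nat_lit 76) (nat_lit 2183836746) (nat_lit 15) (nat_lit 4) (nat_lit 16) (nat_lit 5) (nat_lit 16) (nat_lit 4) (nat_lit 278) (nat_lit 251) (nat_lit 251)))) (XT.nd (nat_lit 156) (nat_lit 228) (nat_lit 0) (XT.nd (nat_lit 78) (nat_lit 76) (nat_lit 0) (XT.lf (nat_lit 0) (nat_lit 5620788035) (nat_lit 152) (nat_lit 7253573389) (nat_lit 0) (nat_lit 5047483468) (nat_lit 13) (nat_lit 5) (nat_lit 15) (nat_lit 4) (nat_lit 13) (nat_lit 4) (nat_lit 279) (nat_lit 251) (nat_lit 250)) (XT.lf (nat_lit 0) (nat_lit 12306502716) (nat_lit 76) (nat_lit 4255839751) (nat_lit 76) (nat_lit 3184009474) (nat_lit 12) (nat_lit 4) (nat_lit 13) (nat_lit 5) (nat_lit 13) (nat_lit 4) (nat_lit 280) (nat_lit 251) (nat_lit 249))) (XT.nd (nat_lit 78) (nat_lit 76) (nat_lit 0) (XT.lf (nat_lit 0) (nat_lit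 6667103077) (nat_lit 152) (nat_lit 9911805972) (nat_lit 0) (nat_lit 5273278174) (nat_lit 10) (nat_lit 5) (nat_lit 12) (nat_lit 4) (nat_lit 10) (nat_lit 4) (nat_lit 281) (nat_lit 251) (nat_lit 248)) (XT.lf (nat_lit 0) (nat_lit 9010147856) (nat_lit 76) (nat_lit 8511526138) (nat_lit 76) (nat_lit 6768666922) (nat_lit 9) (nat_lit 4) (nat_lit 10) (nat_lit 5) (nat_lit 10) (nat_lit 4) (nat_lit 282) (nat_lit 251) (nat_lit 247))))))))
noncomputable def xc13 : XT := (XT.nd (nat_lit 2106) (nat_lit 0) (nat_lit 0) (XT.nd (nat_lit 1014) (nat_lit 0) (nat_lit 0) (XT.nd (nat_lit 468) (nat_lit 228) (nat_lit 0) (XT.nd (nat_lit 234) (nat_lit 152) (nat_lit 0) (XT.nd (nat_lit 78) (nat_lit 76) (nat_lit 0) (XT.lf (nat_lit 0) (nat_lit 2345987570) (nat_lit 152) (nat_lit 24325084347) (nat_lit 0) (nat_lit 451203019) (nat_lit 7) (nat_lit 5) (nat_lit 9) (nat_lit 4) (nat_lit 7) (nat_lit 4) (nat_lit 283) (nat_lit 251)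 (nat_lit 246)) (XT.nd (nat_lit 78) (nat_lit 76) (nat_lit 0) (XT.lf (nat_lit 0) (nat_lit 12389150288) (nat_lit 152) (nat_lit 7728964906) (nat_lit 0) (nat_lit 10249995286) (nat_lit 7) (nat_lit 5) (nat_lit 9) (nat_lit 4) (nat_lit 7) (nat_lit 4) (nat_lit 284) (nat_lit 251) (nat_lit 245)) (XT.lf (nat_lit 0) (nat_lit 10615524241) (nat_lit 76) (nat_lit 12934102858) (nat_lit 76) (nat_lit 10582451813) (nat_lit 6) (nat_lit 4) (nat_lit 7) (nat_lit 5) (nat_lit 7) (nat_lit 4) (nat_lit 285) (nat_lit 251) (nat_lit 244)))) (XT.nd (nat_lit 78) (nat_lit 152) (nat_lit 0) (XT.lf (nat_lit 0) (nat_lit 31015324883) (nat_lit 76) (nat_lit 5005463673) (nat_lit 76) (nat_lit 2469033460) (nat_lit 6) (nat_lit 4) (nat_lit 7) (nat_lit 5) (nat_lit 7) (nat_lit 4) (nat_lit 286) (nat_lit 251) (nat_lit 243)) (XT.nd (nat_lit 78) (nat_lit 0) (nat_lit 0) (XT.lf (nat_lit 0) (nat_lit 6337654459) (nat_lit 152) (nat_lit 33324566309)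 (nat_lit 0) (nat_lit 3840332467) (nat_lit 4) (nat_lit 5) (nat_lit 6) (nat_lit 4) (nat_lit 4) (nat_lit 4) (nat_lit 287) (nat_lit 251) (nat_lit 242)) (XT.lf (nat_lit 0) (nat_lit 16194185691) (nat_lit 152) (nat_lit 19510457466) (nat_lit 0) (nat_lit 13567493701) (nat_lit 4) (nat_lit 5) (nat_lit 6) (nat_lit 4) (nat_lit 4) (nat_lit 4) (nat_lit 288) (nat_lit 251) (nat_lit 241))))) (XT.nd (nat_lit 234) (nat_lit 152) (nat_lit 0) (XT.nd (nat_lit 78) (nat_lit 76) (nat_lit 0) (XT.lf (nat_lit 0) (nat_lit 27102392159) (nat_lit 152) (nat_lit 4475771731) (nat_lit 0) (nat_lit 24363204519) (nat_lit 4) (nat_lit 5) (nat_lit 6) (nat_lit 4) (nat_lit 4) (nat_lit 4) (nat_lit 289) (nat_lit 251) (nat_lit 240)) (XT.nd (nat_lit 78) (nat_lit 0) (nat_lit 0) (XT.lf (nat_lit 0) (nat_lit 12709424684) (nat_lit 76) (nat_lit 26871932581) (nat_lit 76) (nat_lit 24034922636) (nat_lit 3) (nat_lit 4) (nat_lit 4) (nat_lit 5) (nat_lit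 4) (nat_lit 4) (nat_lit 290) (nat_lit 251) (nat_lit 239)) (XT.lf (nat_lit 0) (nat_lit 32065647647) (nat_lit 76) (nat_lit 21657800373) (nat_lit 76) (nat_lit 18735727554) (nat_lit 3) (nat_lit 4) (nat_lit 4) (nat_lit 5) (nat_lit 4) (nat_lit 4) (nat_lit 291) (nat_lit 251) (nat_lit 238)))) (XT.nd (nat_lit 156) (nat_lit 152) (nat_lit 0) (XT.nd (nat_lit 78) (nat_lit 0) (nat_lit 0) (XT.lf (nat_lit 0) (nat_lit 53735919658) (nat_lit 76) (nat_lit 15956127169) (nat_lit 76) (nat_lit 12960086633) (nat_lit 3) (nat_lit 4) (nat_lit 4) (nat_lit 5) (nat_lit 4) (nat_lit 4) (nat_lit 292) (nat_lit 251) (nat_lit 237)) (XT.lf (nat_lit 0) (nat_lit 78144224300) (nat_lit 76) (nat_lit 9655358492) (nat_lit 76) (nat_lit 6594998203) (nat_lit 3) (nat_lit 4) (nat_lit 4) (nat_lit 5) (nat_lit 4) (nat_lit 4) (nat_lit 293) (nat_lit 251) (nat_lit 236))) (XT.nd (nat_lit 78) (nat_lit 76) (nat_lit 0) (XT.lf (nat_lit 0) (nat_lit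 459856828) (nat_lit 152) (nat_lit 2159788305) (nat_lit 76) (nat_lit 105295685231) (nat_lit 2) (nat_lit 5) (nat_lit 4) (nat_lit 5) (nat_lit 3) (nat_lit 4) (nat_lit 294) (nat_lit 251) (nat_lit 235)) (XT.lf (nat_lit 0) (nat_lit 8475893092) (nat_lit 152) (nat_lit 109405739014) (nat_lit 0) (nat_lit 5545406534) (nat_lit 1) (nat_lit 5) (nat_lit 3) (nat_lit 4) (nat_lit 1) (nat_lit 4) (nat_lit 295) (nat_lit 251) (nat_lit 234)))))) (XT.nd (nat_lit 546) (nat_lit 0) (nat_lit 0) (XT.nd (nat_lit 234) (nat_lit 0) (nat_lit 0) (XT.nd (nat_lit 78) (nat_lit 0) (nat_lit 0) (XT.lf (nat_lit 0) (nat_lit 17645188823) (nat_lit 152) (nat_lit 108948725328) (nat_lit 0) (nat_lit 14675543670) (nat_lit 1) (nat_lit 5) (nat_lit 3) (nat_lit 4) (nat_lit 1) (nat_lit 4) (nat_lit 296) (nat_lit 251) (nat_lit 233)) (XT.nd (nat_lit 78) (nat_lit 0) (nat_lit 0) (XT.lf (nat_lit 0) (nat_lit 28028042358) (nat_lit 152) (nat_lit 108748818179)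 (nat_lit 0) (nat_lit 25024346254) (nat_lit 1) (nat_lit 5) (nat_lit 3) (nat_lit 4) (nat_lit 1) (nat_lit 4) (nat_lit 297) (nat_lit 251) (nat_lit 232)) (XT.lf (nat_lit 0) (nat_lit 39827596484) (nat_lit 152) (nat_lit 108802106340) (nat_lit 0) (nat_lit 36794290857) (nat_lit 1) (nat_lit 5) (nat_lit 3) (nat_lit 4) (nat_lit 1) (nat_lit 4) (nat_lit 298) (nat_lit 251) (nat_lit 231)))) (XT.nd (nat_lit 156) (nat_lit 0) (nat_lit 0) (XT.nd (nat_lit 78) (nat_lit 0) (nat_lit 0) (XT.lf (nat_lit 0) (nat_lit 53274712043) (nat_lit 152) (nat_lit 109109632404) (nat_lit 0) (nat_lit 50215659004) (nat_lit 1) (nat_lit 5) (nat_lit 3) (nat_lit 4) (nat_lit 1) (nat_lit 4) (nat_lit 299) (nat_lit 251) (nat_lit 230)) (XT.lf (nat_lit 0) (nat_lit 68632484774) (nat_lit 152) (nat_lit 109677413186) (nat_lit 0) (nat_lit 65551042682) (nat_lit 1) (nat_lit 5) (nat_lit 3) (nat_lit 4) (nat_lit 1) (nat_lit 4) (nat_lit 300) (nat_lit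 251) (nat_lit 229))) (XT.nd (nat_lit 78) (nat_lit 0) (nat_lit 0) (XT.lf (nat_lit 0) (nat_lit 86201392839) (nat_lit 152) (nat_lit 110516557442) (nat_lit 0) (nat_lit 83100482005) (nat_lit 1) (nat_lit 5) (nat_lit 3) (nat_lit 4) (nat_lit 1) (nat_lit 4) (nat_lit 301) (nat_lit 251) (nat_lit 228)) (XT.lf (nat_lit 0) (nat_lit 106325175744) (nat_lit 152) (nat_lit 111643483210) (nat_lit 0) (nat_lit 103207335569) (nat_lit 1) (nat_lit 5) (nat_lit 3) (nat_lit 4) (nat_lit 1) (nat_lit 4) (nat_lit 302) (nat_lit 251) (nat_lit 227))))) (XT.nd (nat_lit 234) (nat_lit 0) (nat_lit 0) (XT.nd (nat_lit 78) (nat_lit 0) (nat_lit 0) (XT.lf (nat_lit 0) (nat_lit 129397559676) (nat_lit 152) (nat_lit 113080239038) (nat_lit 0) (nat_lit 126264998335) (nat_lit 1) (nat_lit 5) (nat_lit 3) (nat_lit 4) (nat_lit 1) (nat_lit 4) (nat_lit 303) (nat_lit 251) (nat_lit 226)) (XT.nd (nat_lit 78) (nat_lit 0) (nat_lit 0) (XT.lf (nat_lit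 0) (nat_lit 155869960843) (nat_lit 152) (nat_lit 114854935366) (nat_lit 0) (nat_lit 152724598488) (nat_lit 1) (nat_lit 5) (nat_lit 3) (nat_lit 4) (nat_lit 1) (nat_lit 4) (nat_lit 304) (nat_lit 251) (nat_lit 225)) (XT.lf (nat_lit 0) (nat_lit 186260317527) (nat_lit 152) (nat_lit 117002294514) (nat_lit 0) (nat_lit 183103823856) (nat_lit 1) (nat_lit 5) (nat_lit 3) (nat_lit 4) (nat_lit 1) (nat_lit 4) (nat_lit 305) (nat_lit 251) (nat_lit 224)))) (XT.nd (nat_lit 156) (nat_lit 0) (nat_lit 0) (XT.nd (nat_lit 78) (nat_lit 0) (nat_lit 0) (XT.lf (nat_lit 0) (nat_lit 221163223665) (nat_lit 152) (nat_lit 119564330031) (nat_lit 0) (nat_lit 217997050588) (nat_lit 1) (nat_lit 5) (nat_lit 3) (nat_lit 4) (nat_lit 1) (nat_lit 4) (nat_lit 306) (nat_lit 251) (nat_lit 223)) (XT.lf (nat_lit 0) (nat_lit 261261562202) (nat_lit 152) (nat_lit 122591168697) (nat_lit 0) (nat_lit 258086972250) (nat_lit 1) (nat_lit 5)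 (nat_lit 3) (nat_lit 4) (nat_lit 1) (nat_lit 4) (nat_lit 307) (nat_lit 251) (nat_lit 222))) (XT.nd (nat_lit 78) (nat_lit 0) (nat_lit 0) (XT.lf (nat_lit 0) (nat_lit 307339865849) (nat_lit 152) (nat_lit 126142031270) (nat_lit 0) (nat_lit 304157956876) (nat_lit 1) (nat_lit 5) (nat_lit 3) (nat_lit 4) (nat_lit 1) (nat_lit 4) (nat_lit 308) (nat_lit 251) (nat_lit 221)) (XT.lf (nat_lit 0) (nat_lit 360299666634) (nat_lit 152) (nat_lit 130286391148) (nat_lit 0) (nat_lit 357111393294) (nat_lit 1) (nat_lit 5) (nat_lit 3) (nat_lit 4) (nat_lit 1) (nat_lit 4) (nat_lit 309) (nat_lit 251) (nat_lit 220))))))) (XT.nd (nat_lit 1092) (nat_lit 0) (nat_lit 0) (XT.nd (nat_lit 546) (nat_lit 0) (nat_lit 0) (XT.nd (nat_lit 234) (nat_lit 0) (nat_lit 0) (XT.nd (nat_lit 78) (nat_lit 0) (nat_lit 0) (XT.lf (nat_lit 0) (nat_lit 421177134571) (nat_lit 152) (nat_lit 135105333633) (nat_lit 0) (nat_lit 417983327001) (nat_lit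 1) (nat_lit 5) (nat_lit 3) (nat_lit 4) (nat_lit 1) (nat_lit 4) (nat_lit 310) (nat_lit 251) (nat_lit 219)) (XT.nd (nat_lit 78) (nat_lit 0) (nat_lit 0) (XT.lf (nat_lit 0) (nat_lit 491163350557) (nat_lit 152) (nat_lit 140693142382) (nat_lit 0) (nat_lit 487964730611) (nat_lit 1) (nat_lit 5) (nat_lit 3) (nat_lit 4) (nat_lit 1) (nat_lit 4) (nat_lit 311) (nat_lit 251) (nat_lit 218)) (XT.lf (nat_lit 0) (nat_lit 571627610120) (nat_lit 152) (nat_lit 147159144088) (nat_lit 0) (nat_lit 568424805500) (nat_lit 1) (nat_lit 5) (nat_lit 3) (nat_lit 4) (nat_lit 1) (nat_lit 4) (nat_lit 312) (nat_lit 251) (nat_lit 217)))) (XT.nd (nat_lit 156) (nat_lit 0) (nat_lit 0) (XT.nd (nat_lit 78) (nat_lit 0) (nat_lit 0) (XT.lf (nat_lit 0) (nat_lit 664144213991) (nat_lit 152) (nat_lit 154629847479) (nat_lit 0) (nat_lit 660937770524) (nat_lit 1) (nat_lit 5) (nat_lit 3) (nat_lit 4) (nat_lit 1) (nat_lit 4) (nat_lit 313)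 (nat_lit 251) (nat_lit 216)) (XT.lf (nat_lit 0) (nat_lit 770523269638) (nat_lit 152) (nat_lit 163251418493) (nat_lit 0) (nat_lit 767313661956) (nat_lit 1) (nat_lit 5) (nat_lit 3) (nat_lit 4) (nat_lit 1) (nat_lit 4) (nat_lit 314) (nat_lit 251) (nat_lit 215))) (XT.nd (nat_lit 78) (nat_lit 0) (nat_lit 0) (XT.lf (nat_lit 0) (nat_lit 892846106410) (nat_lit 152) (nat_lit 173192540040) (nat_lit 0) (nat_lit 889633747236) (nat_lit 1) (nat_lit 5) (nat_lit 3) (nat_lit 4) (nat_lit 1) (nat_lit 4) (nat_lit 315) (nat_lit 251) (nat_lit 214)) (XT.lf (nat_lit 0) (nat_lit 1033505997200) (nat_lit 152) (nat_lit 184647712324) (nat_lit 0) (nat_lit 1030291245425) (nat_lit 1) (nat_lit 5) (nat_lit 3) (nat_lit 4) (nat_lit 1) (nat_lit 4) (nat_lit 316) (nat_lit 251) (nat_lit 213))))) (XT.nd (nat_lit 234) (nat_lit 0) (nat_lit 0) (XT.nd (nat_lit 78) (nat_lit 0) (nat_lit 0) (XT.lf (nat_lit 0) (nat_lit 1195254983350)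 (nat_lit 152) (nat_lit 197841058282) (nat_lit 0) (nat_lit 1192038151052) (nat_lit 1) (nat_lit 5) (nat_lit 3) (nat_lit 4) (nat_lit 1) (nat_lit 4) (nat_lit 317) (nat_lit 251) (nat_lit 212)) (XT.nd (nat_lit 78) (nat_lit 0) (nat_lit 0) (XT.lf (nat_lit 0) (nat_lit 1381257718936) (nat_lit 152) (nat_lit 213030708594) (nat_lit 0) (nat_lit 1378039077489) (nat_lit 1) (nat_lit 5) (nat_lit 3) (nat_lit 4) (nat_lit 1) (nat_lit 4) (nat_lit 318) (nat_lit 251) (nat_lit 211)) (XT.lf (nat_lit 0) (nat_lit 1595153387916) (nat_lit 152) (nat_lit 230513852072) (nat_lit 0) (nat_lit 1591933173295) (nat_lit 1) (nat_lit 5) (nat_lit 3) (nat_lit 4) (nat_lit 1) (nat_lit 4) (nat_lit 319) (nat_lit 251) (nat_lit 210)))) (XT.nd (nat_lit 156) (nat_lit 0) (nat_lit 0) (XT.nd (nat_lit 78) (nat_lit 0) (nat_lit 0) (XT.lf (nat_lit 0) (nat_lit 1841126905553) (nat_lit 152) (nat_lit 250632550219) (nat_lit 0) (nat_lit 1837905322955)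 (nat_lit 1) (nat_lit 5) (nat_lit 3) (nat_lit 4) (nat_lit 1) (nat_lit 4) (nat_lit 320) (nat_lit 251) (nat_lit 209)) (XT.lf (nat_lit 0) (nat_lit 2123990797192) (nat_lit 152) (nat_lit 273780429736) (nat_lit 0) (nat_lit 2120768025047) (nat_lit 1) (nat_lit 5) (nat_lit 3) (nat_lit 4) (nat_lit 1) (nat_lit 4) (nat_lit 321) (nat_lit 251) (nat_lit 208))) (XT.nd (nat_lit 78) (nat_lit 0) (nat_lit 0) (XT.lf (nat_lit 0) (nat_lit 2449279356364) (nat_lit 152) (nat_lit 300410383920) (nat_lit 0) (nat_lit 2446055549832) (nat_lit 1) (nat_lit 5) (nat_lit 3) (nat_lit 4) (nat_lit 1) (nat_lit 4) (nat_lit 322) (nat_lit 251) (nat_lit 207)) (XT.lf (nat_lit 0) (nat_lit 2823356924444) (nat_lit 152) (nat_lit 331043433612) (nat_lit 0) (nat_lit 2820132218445) (nat_lit 1) (nat_lit 5) (nat_lit 3) (nat_lit 4) (nat_lit 1) (nat_lit 4) (nat_lit 323) (nat_lit 251) (nat_lit 206)))))) (XT.nd (nat_lit 546) (nat_lit 0) (nat_lit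 0) (XT.nd (nat_lit 234) (nat_lit 0) (nat_lit 0) (XT.nd (nat_lit 78) (nat_lit 0) (nat_lit 0) (XT.lf (nat_lit 0) (nat_lit 3253542410374) (nat_lit 152) (nat_lit 366278921090) (nat_lit 0) (nat_lit 3250316922230) (nat_lit 1) (nat_lit 5) (nat_lit 3) (nat_lit 4) (nat_lit 1) (nat_lit 4) (nat_lit 324) (nat_lit 251) (nat_lit 205)) (XT.nd (nat_lit 78) (nat_lit 0) (nat_lit 0) (XT.lf (nat_lit 0) (nat_lit 3748252486705) (nat_lit 152) (nat_lit 406806236326) (nat_lit 0) (nat_lit 3745026318434) (nat_lit 1) (nat_lit 5) (nat_lit 3) (nat_lit 4) (nat_lit 1) (nat_lit 4) (nat_lit 325) (nat_lit 251) (nat_lit 204)) (XT.lf (nat_lit 0) (nat_lit 4317166263624) (nat_lit 152) (nat_lit 453418305052) (nat_lit 0) (nat_lit 4313939503939) (nat_lit 1) (nat_lit 5) (nat_lit 3) (nat_lit 4) (nat_lit 1) (nat_lit 4) (nat_lit 326) (nat_lit 251) (nat_lit 203)))) (XT.nd (nat_lit 156) (nat_lit 0) (nat_lit 0) (XT.nd (nat_lit 78) (nat_lit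 0) (nat_lit 0) (XT.lf (nat_lit 0) (nat_lit 4971414662855) (nat_lit 152) (nat_lit 507027102527) (nat_lit 0) (nat_lit 4968187388897) (nat_lit 1) (nat_lit 5) (nat_lit 3) (nat_lit 4) (nat_lit 1) (nat_lit 4) (nat_lit 327) (nat_lit 251) (nat_lit 202)) (XT.lf (nat_lit 0) (nat_lit 5723798196557) (nat_lit 152) (nat_lit 568681496527) (nat_lit 0) (nat_lit 5720570475404) (nat_lit 1) (nat_lit 5) (nat_lit 3) (nat_lit 4) (nat_lit 1) (nat_lit 4) (nat_lit 328) (nat_lit 251) (nat_lit 201))) (XT.nd (nat_lit 78) (nat_lit 0) (nat_lit 0) (XT.lf (nat_lit 0) (nat_lit 6589037412128) (nat_lit 152) (nat_lit 639587768673) (nat_lit 0) (nat_lit 6585809302110) (nat_lit 1) (nat_lit 5) (nat_lit 3) (nat_lit 4) (nat_lit 1) (nat_lit 4) (nat_lit 329) (nat_lit 251) (nat_lit 200)) (XT.lf (nat_lit 0) (nat_lit 7584060902916) (nat_lit 152) (nat_lit 721133215596) (nat_lit 0) (nat_lit 7580832454755) (nat_lit 1) (nat_lit 5) (nat_lit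 3) (nat_lit 4) (nat_lit 1) (nat_lit 4) (nat_lit 330) (nat_lit 251) (nat_lit 199))))) (XT.nd (nat_lit 36504) (nat_lit 0) (nat_lit 684) (XT.nd (nat_lit 36348) (nat_lit 0) (nat_lit 1140) (XT.lf (nat_lit 0) (nat_lit 8728336519828) (nat_lit 152) (nat_lit 814913291690) (nat_lit 0) (nat_lit 8725107777629) (nat_lit 1) (nat_lit 5) (nat_lit 3) (nat_lit 4) (nat_lit 1) (nat_lit 4) (nat_lit 331) (nat_lit 251) (nat_lit 198)) (XT.nd (nat_lit 78) (nat_lit 228) (nat_lit 0) (XT.lf (nat_lit 0) (nat_lit 3292731584) (nat_lit 152) (nat_lit 301908921) (nat_lit 0) (nat_lit 3292731584) (nat_lit 19) (nat_lit 5) (nat_lit 21) (nat_lit 4) (nat_lit 19) (nat_lit 4) (nat_lit 276) (nat_lit 252) (nat_lit 252)) (XT.lf (nat_lit 0) (nat_lit 2105292266) (nat_lit 152) (nat_lit 11491787175) (nat_lit 0) (nat_lit 1393247994) (nat_lit 16) (nat_lit 5) (nat_lit 18) (nat_lit 4) (nat_lit 16) (nat_lit 4) (nat_lit 277) (nat_lit 252)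 (nat_lit 251)))) (XT.nd (nat_lit 156) (nat_lit 228) (nat_lit 0) (XT.nd (nat_lit 78) (nat_lit 152) (nat_lit 0) (XT.lf (nat_lit 0) (nat_lit 6721015517) (nat_lit 76) (nat_lit 5497912770) (nat_lit 76) (nat_lit 4166699566) (nat_lit 15) (nat_lit 4) (nat_lit 16) (nat_lit 5) (nat_lit 16) (nat_lit 4) (nat_lit 278) (nat_lit 252) (nat_lit 250)) (XT.lf (nat_lit 0) (nat_lit 5308477301) (nat_lit 152) (nat_lit 9114042316) (nat_lit 0) (nat_lit 3577346772) (nat_lit 13) (nat_lit 5) (nat_lit 15) (nat_lit 4) (nat_lit 13) (nat_lit 4) (nat_lit 279) (nat_lit 252) (nat_lit 249))) (XT.nd (nat_lit 78) (nat_lit 152) (nat_lit 0) (XT.lf (nat_lit 0) (nat_lit 9555976653) (nat_lit 76) (nat_lit 6234937832) (nat_lit 76) (nat_lit 4070306685) (nat_lit 12) (nat_lit 4) (nat_lit 13) (nat_lit 5) (nat_lit 13) (nat_lit 4) (nat_lit 280) (nat_lit 252) (nat_lit 248)) (XT.lf (nat_lit 0) (nat_lit 5308853973) (nat_lit 152) (nat_lit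 13745774491) (nat_lit 0) (nat_lit 2955531560) (nat_lit 10) (nat_lit 5) (nat_lit 12) (nat_lit 4) (nat_lit 10) (nat_lit 4) (nat_lit 281) (nat_lit 252) (nat_lit 247))))))))
noncomputable def xc14 : XT := (XT.nd (nat_lit 2106) (nat_lit 0) (nat_lit 0) (XT.nd (nat_lit 1014) (nat_lit 152) (nat_lit 0) (XT.nd (nat_lit 468) (nat_lit 76) (nat_lit 0) (XT.nd (nat_lit 234) (nat_lit 228) (nat_lit 0) (XT.nd (nat_lit 78) (nat_lit 152) (nat_lit 0) (XT.lf (nat_lit 0) (nat_lit 4271469678) (nat_lit 76) (nat_lit 11435150879) (nat_lit 76) (nat_lit 8778320367) (nat_lit 9) (nat_lit 4) (nat_lit 10) (nat_lit 5) (nat_lit 10) (nat_lit 4) (nat_lit 282) (nat_lit 252) (nat_lit 246)) (XT.nd (nat_lit 78) (nat_lit 76) (nat_lit 0) (XT.lf (nat_lit 0) (nat_lit 36860462) (nat_lit 152) (nat_lit 2844080837) (nat_lit 76) (nat_lit 24471867311) (nat_lit 8) (nat_lit 5) (nat_lit 10) (nat_lit 5) (nat_lit 9) (nat_lit 4) (nat_lit 283)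 (nat_lit 252) (nat_lit 245)) (XT.lf (nat_lit 0) (nat_lit 9637113578) (nat_lit 152) (nat_lit 14276802525) (nat_lit 0) (nat_lit 6720218833) (nat_lit 7) (nat_lit 5) (nat_lit 9) (nat_lit 4) (nat_lit 7) (nat_lit 4) (nat_lit 284) (nat_lit 252) (nat_lit 244)))) (XT.nd (nat_lit 78) (nat_lit 152) (nat_lit 0) (XT.lf (nat_lit 0) (nat_lit 3181305603) (nat_lit 76) (nat_lit 17176838897) (nat_lit 76) (nat_lit 14075164984) (nat_lit 6) (nat_lit 4) (nat_lit 7) (nat_lit 5) (nat_lit 7) (nat_lit 4) (nat_lit 285) (nat_lit 252) (nat_lit 243)) (XT.nd (nat_lit 78) (nat_lit 152) (nat_lit 0) (XT.lf (nat_lit 0) (nat_lit 23110164077) (nat_lit 76) (nat_lit 9481161145) (nat_lit 76) (nat_lit 6218809693) (nat_lit 6) (nat_lit 4) (nat_lit 7) (nat_lit 5) (nat_lit 7) (nat_lit 4) (nat_lit 286) (nat_lit 252) (nat_lit 242)) (XT.lf (nat_lit 0) (nat_lit 1276419597) (nat_lit 76) (nat_lit 972854751) (nat_lit 152) (nat_lit 41622936310)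 (nat_lit 4) (nat_lit 5) (nat_lit 5) (nat_lit 5) (nat_lit 6) (nat_lit 4) (nat_lit 287) (nat_lit 252) (nat_lit 241))))) (XT.nd (nat_lit 234) (nat_lit 0) (nat_lit 0) (XT.nd (nat_lit 78) (nat_lit 76) (nat_lit 0) (XT.lf (nat_lit 0) (nat_lit 11883894704) (nat_lit 152) (nat_lit 29154349892) (nat_lit 0) (nat_lit 8621333267) (nat_lit 4) (nat_lit 5) (nat_lit 6) (nat_lit 4) (nat_lit 4) (nat_lit 4) (nat_lit 288) (nat_lit 252) (nat_lit 240)) (XT.nd (nat_lit 78) (nat_lit 76) (nat_lit 0) (XT.lf (nat_lit 0) (nat_lit 22619480567) (nat_lit 152) (nat_lit 14464068378) (nat_lit 0) (nat_lit 19259096825) (nat_lit 4) (nat_lit 5) (nat_lit 6) (nat_lit 4) (nat_lit 4) (nat_lit 4) (nat_lit 289) (nat_lit 252) (nat_lit 239)) (XT.lf (nat_lit 0) (nat_lit 1879909918) (nat_lit 76) (nat_lit 32807980790) (nat_lit 76) (nat_lit 29362534174) (nat_lit 3) (nat_lit 4) (nat_lit 4) (nat_lit 5) (nat_lit 4) (nat_lit 4) (nat_lit 290)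 (nat_lit 252) (nat_lit 238)))) (XT.nd (nat_lit 156) (nat_lit 0) (nat_lit 0) (XT.nd (nat_lit 78) (nat_lit 0) (nat_lit 0) (XT.lf (nat_lit 0) (nat_lit 20962000603) (nat_lit 76) (nat_lit 27730861993) (nat_lit 76) (nat_lit 24211447662) (nat_lit 3) (nat_lit 4) (nat_lit 4) (nat_lit 5) (nat_lit 4) (nat_lit 4) (nat_lit 291) (nat_lit 252) (nat_lit 237)) (XT.lf (nat_lit 0) (nat_lit 42393896721) (nat_lit 76) (nat_lit 22148330886) (nat_lit 76) (nat_lit 18564596801) (nat_lit 3) (nat_lit 4) (nat_lit 4) (nat_lit 5) (nat_lit 4) (nat_lit 4) (nat_lit 292) (nat_lit 252) (nat_lit 236))) (XT.nd (nat_lit 78) (nat_lit 0) (nat_lit 0) (XT.lf (nat_lit 0) (nat_lit 66594917978) (nat_lit 76) (nat_lit 15951164033) (nat_lit 76) (nat_lit 12311499727) (nat_lit 3) (nat_lit 4) (nat_lit 4) (nat_lit 5) (nat_lit 4) (nat_lit 4) (nat_lit 293) (nat_lit 252) (nat_lit 235)) (XT.lf (nat_lit 0) (nat_lit 94038562616) (nat_lit 76) (nat_lit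 9018112517) (nat_lit 76) (nat_lit 5329813237) (nat_lit 3) (nat_lit 4) (nat_lit 4) (nat_lit 5) (nat_lit 4) (nat_lit 4) (nat_lit 294) (nat_lit 252) (nat_lit 234)))))) (XT.nd (nat_lit 546) (nat_lit 0) (nat_lit 0) (XT.nd (nat_lit 234) (nat_lit 0) (nat_lit 0) (XT.nd (nat_lit 78) (nat_lit 0) (nat_lit 0) (XT.lf (nat_lit 0) (nat_lit 1308449786) (nat_lit 76) (nat_lit 1114165765) (nat_lit 152) (nat_lit 121528264463) (nat_lit 1) (nat_lit 5) (nat_lit 2) (nat_lit 5) (nat_lit 3) (nat_lit 4) (nat_lit 295) (nat_lit 252) (nat_lit 233)) (XT.nd (nat_lit 78) (nat_lit 0) (nat_lit 0) (XT.lf (nat_lit 0) (nat_lit 11489842752) (nat_lit 152) (nat_lit 122310089940) (nat_lit 0) (nat_lit 8001541281) (nat_lit 1) (nat_lit 5) (nat_lit 3) (nat_lit 4) (nat_lit 1) (nat_lit 4) (nat_lit 296) (nat_lit 252) (nat_lit 232)) (XT.lf (nat_lit 0) (nat_lit 21807241664) (nat_lit 152) (nat_lit 122241895062) (nat_lit 0) (nat_lit 18289330670)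 (nat_lit 1) (nat_lit 5) (nat_lit 3) (nat_lit 4) (nat_lit 1) (nat_lit 4) (nat_lit 297) (nat_lit 252) (nat_lit 231)))) (XT.nd (nat_lit 156) (nat_lit 0) (nat_lit 0) (XT.nd (nat_lit 78) (nat_lit 0) (nat_lit 0) (XT.lf (nat_lit 0) (nat_lit 33549878727) (nat_lit 152) (nat_lit 122409715631) (nat_lit 0) (nat_lit 30006220321) (nat_lit 1) (nat_lit 5) (nat_lit 3) (nat_lit 4) (nat_lit 1) (nat_lit 4) (nat_lit 298) (nat_lit 252) (nat_lit 230)) (XT.lf (nat_lit 0) (nat_lit 46947501188) (nat_lit 152) (nat_lit 122816835095) (nat_lit 0) (nat_lit 43381453729) (nat_lit 1) (nat_lit 5) (nat_lit 3) (nat_lit 4) (nat_lit 1) (nat_lit 4) (nat_lit 299) (nat_lit 252) (nat_lit 229))) (XT.nd (nat_lit 78) (nat_lit 0) (nat_lit 0) (XT.lf (nat_lit 0) (nat_lit 62262236442) (nat_lit 152) (nat_lit 123471218834) (nat_lit 0) (nat_lit 58676720241) (nat_lit 1) (nat_lit 5) (nat_lit 3) (nat_lit 4) (nat_lit 1) (nat_lit 4) (nat_lit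 300) (nat_lit 252) (nat_lit 228)) (XT.lf (nat_lit 0) (nat_lit 79793720614) (nat_lit 152) (nat_lit 124385670007) (nat_lit 0) (nat_lit 76191275072) (nat_lit 1) (nat_lit 5) (nat_lit 3) (nat_lit 4) (nat_lit 1) (nat_lit 4) (nat_lit 301) (nat_lit 252) (nat_lit 227))))) (XT.nd (nat_lit 234) (nat_lit 0) (nat_lit 0) (XT.nd (nat_lit 78) (nat_lit 0) (nat_lit 0) (XT.lf (nat_lit 0) (nat_lit 99884961003) (nat_lit 152) (nat_lit 125578080052) (nat_lit 0) (nat_lit 96267794295) (nat_lit 1) (nat_lit 5) (nat_lit 3) (nat_lit 4) (nat_lit 1) (nat_lit 4) (nat_lit 302) (nat_lit 252) (nat_lit 226)) (XT.nd (nat_lit 78) (nat_lit 0) (nat_lit 0) (XT.lf (nat_lit 0) (nat_lit 122929047096) (nat_lit 152) (nat_lit 127071778729) (nat_lit 0) (nat_lit 119299079373) (nat_lit 1) (nat_lit 5) (nat_lit 3) (nat_lit 4) (nat_lit 1) (nat_lit 4) (nat_lit 303) (nat_lit 252) (nat_lit 225)) (XT.lf (nat_lit 0) (nat_lit 149376841445) (nat_lit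 152) (nat_lit 128895990579) (nat_lit 0) (nat_lit 145735742406) (nat_lit 1) (nat_lit 5) (nat_lit 3) (nat_lit 4) (nat_lit 1) (nat_lit 4) (nat_lit 304) (nat_lit 252) (nat_lit 224)))) (XT.nd (nat_lit 156) (nat_lit 0) (nat_lit 0) (XT.nd (nat_lit 78) (nat_lit 0) (nat_lit 0) (XT.lf (nat_lit 0) (nat_lit 179745800897) (nat_lit 152) (nat_lit 131086406702) (nat_lit 0) (nat_lit 176095022453) (nat_lit 1) (nat_lit 5) (nat_lit 3) (nat_lit 4) (nat_lit 1) (nat_lit 4) (nat_lit 305) (nat_lit 252) (nat_lit 223)) (XT.lf (nat_lit 0) (nat_lit 214630100746) (nat_lit 152) (nat_lit 133685883066) (nat_lit 0) (nat_lit 210970905427) (nat_lit 1) (nat_lit 5) (nat_lit 3) (nat_lit 4) (nat_lit 1) (nat_lit 4) (nat_lit 306) (nat_lit 252) (nat_lit 222))) (XT.nd (nat_lit 78) (nat_lit 0) (nat_lit 0) (XT.lf (nat_lit 0) (nat_lit 254712259901) (nat_lit 152) (nat_lit 136745278991) (nat_lit 0) (nat_lit 251045745561) (nat_lit 1)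 (nat_lit 5) (nat_lit 3) (nat_lit 4) (nat_lit 1) (nat_lit 4) (nat_lit 307) (nat_lit 252) (nat_lit 221)) (XT.lf (nat_lit 0) (nat_lit 300776494520) (nat_lit 152) (nat_lit 140324452224) (nat_lit 0) (nat_lit 297103615814) (nat_lit 1) (nat_lit 5) (nat_lit 3) (nat_lit 4) (nat_lit 1) (nat_lit 4) (nat_lit 308) (nat_lit 252) (nat_lit 220))))))) (XT.nd (nat_lit 1014) (nat_lit 0) (nat_lit 0) (XT.nd (nat_lit 468) (nat_lit 0) (nat_lit 0) (XT.nd (nat_lit 234) (nat_lit 0) (nat_lit 0) (XT.nd (nat_lit 78) (nat_lit 0) (nat_lit 0) (XT.lf (nat_lit 0) (nat_lit 353724061368) (nat_lit 152) (nat_lit 144493430067) (nat_lit 0) (nat_lit 350045648430) (nat_lit 1) (nat_lit 5) (nat_lit 3) (nat_lit 4) (nat_lit 1) (nat_lit 4) (nat_lit 309) (nat_lit 252) (nat_lit 219)) (XT.nd (nat_lit 78) (nat_lit 0) (nat_lit 0) (XT.lf (nat_lit 0) (nat_lit 414590891100) (nat_lit 152) (nat_lit 149333779478) (nat_lit 0) (nat_lit 410907665787)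 (nat_lit 1) (nat_lit 5) (nat_lit 3) (nat_lit 4) (nat_lit 1) (nat_lit 4) (nat_lit 310) (nat_lit 252) (nat_lit 218)) (XT.lf (nat_lit 0) (nat_lit 484567856471) (nat_lit 152) (nat_lit 154940202946) (nat_lit 0) (nat_lit 480880446484) (nat_lit 1) (nat_lit 5) (nat_lit 3) (nat_lit 4) (nat_lit 1) (nat_lit 4) (nat_lit 311) (nat_lit 252) (nat_lit 217)))) (XT.nd (nat_lit 78) (nat_lit 0) (nat_lit 0) (XT.lf (nat_lit 0) (nat_lit 565024072022) (nat_lit 152) (nat_lit 161422391363) (nat_lit 0) (nat_lit 561333023188) (nat_lit 1) (nat_lit 5) (nat_lit 3) (nat_lit 4) (nat_lit 1) (nat_lit 4) (nat_lit 312) (nat_lit 252) (nat_lit 216)) (XT.nd (nat_lit 78) (nat_lit 0) (nat_lit 0) (XT.lf (nat_lit 0) (nat_lit 657533681100) (nat_lit 152) (nat_lit 168907170157) (nat_lit 0) (nat_lit 653839468051) (nat_lit 1) (nat_lit 5) (nat_lit 3) (nat_lit 4) (nat_lit 1) (nat_lit 4) (nat_lit 313) (nat_lit 252) (nat_lit 215)) (XT.lf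 (nat_lit 0) (nat_lit 763906654318) (nat_lit 152) (nat_lit 177540980650) (nat_lit 0) (nat_lit 760209689778) (nat_lit 1) (nat_lit 5) (nat_lit 3) (nat_lit 4) (nat_lit 1) (nat_lit 4) (nat_lit 314) (nat_lit 252) (nat_lit 214))))) (XT.nd (nat_lit 234) (nat_lit 0) (nat_lit 0) (XT.nd (nat_lit 78) (nat_lit 0) (nat_lit 0) (XT.lf (nat_lit 0) (nat_lit 886224202021) (nat_lit 152) (nat_lit 187492745223) (nat_lit 0) (nat_lit 882524844880) (nat_lit 1) (nat_lit 5) (nat_lit 3) (nat_lit 4) (nat_lit 1) (nat_lit 4) (nat_lit 315) (nat_lit 252) (nat_lit 213)) (XT.nd (nat_lit 78) (nat_lit 0) (nat_lit 0) (XT.lf (nat_lit 0) (nat_lit 1026879493621) (nat_lit 152) (nat_lit 198957172312) (nat_lit 0) (nat_lit 1023178055957) (nat_lit 1) (nat_lit 5) (nat_lit 3) (nat_lit 4) (nat_lit 1) (nat_lit 4) (nat_lit 316) (nat_lit 252) (nat_lit 212)) (XT.lf (nat_lit 0) (nat_lit 1188624480475) (nat_lit 152) (nat_lit 212158565926)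 (nat_lit 0) (nat_lit 1184921233661) (nat_lit 1) (nat_lit 5) (nat_lit 3) (nat_lit 4) (nat_lit 1) (nat_lit 4) (nat_lit 317) (nat_lit 252) (nat_lit 211)))) (XT.nd (nat_lit 156) (nat_lit 0) (nat_lit 0) (XT.nd (nat_lit 78) (nat_lit 0) (nat_lit 0) (XT.lf (nat_lit 0) (nat_lit 1374623738414) (nat_lit 152) (nat_lit 227355214200) (nat_lit 0) (nat_lit 1370918918425) (nat_lit 1) (nat_lit 5) (nat_lit 3) (nat_lit 4) (nat_lit 1) (nat_lit 4) (nat_lit 318) (nat_lit 252) (nat_lit 210)) (XT.lf (nat_lit 0) (nat_lit 1588516383352) (nat_lit 152) (nat_lit 244844442863) (nat_lit 0) (nat_lit 1584810195386) (nat_lit 1) (nat_lit 5) (nat_lit 3) (nat_lit 4) (nat_lit 1) (nat_lit 4) (nat_lit 319) (nat_lit 252) (nat_lit 209))) (XT.nd (nat_lit 78) (nat_lit 0) (nat_lit 0) (XT.lf (nat_lit 0) (nat_lit 1834487271387) (nat_lit 152) (nat_lit 264968432474) (nat_lit 0) (nat_lit 1830779893875) (nat_lit 1) (nat_lit 5) (nat_lit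 3) (nat_lit 4) (nat_lit 1) (nat_lit 4) (nat_lit 320) (nat_lit 252) (nat_lit 208)) (XT.lf (nat_lit 0) (nat_lit 2117348876415) (nat_lit 152) (nat_lit 288120913265) (nat_lit 0) (nat_lit 2113640464516) (nat_lit 1) (nat_lit 5) (nat_lit 3) (nat_lit 4) (nat_lit 1) (nat_lit 4) (nat_lit 321) (nat_lit 252) (nat_lit 207)))))) (XT.nd (nat_lit 546) (nat_lit 0) (nat_lit 0) (XT.nd (nat_lit 234) (nat_lit 0) (nat_lit 0) (XT.nd (nat_lit 78) (nat_lit 0) (nat_lit 0) (XT.lf (nat_lit 0) (nat_lit 2442635447230) (nat_lit 152) (nat_lit 314754868556) (nat_lit 0) (nat_lit 2438926135864) (nat_lit 1) (nat_lit 5) (nat_lit 3) (nat_lit 4) (nat_lit 1) (nat_lit 4) (nat_lit 322) (nat_lit 252) (nat_lit 206)) (XT.nd (nat_lit 78) (nat_lit 0) (nat_lit 0) (XT.lf (nat_lit 0) (nat_lit 2816711286305) (nat_lit 152) (nat_lit 345391397473) (nat_lit 0) (nat_lit 2813001192793) (nat_lit 1) (nat_lit 5) (nat_lit 3) (nat_lit 4) (nat_lit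 1) (nat_lit 4) (nat_lit 323) (nat_lit 252) (nat_lit 205)) (XT.lf (nat_lit 0) (nat_lit 3246895268751) (nat_lit 152) (nat_lit 380629910363) (nat_lit 0) (nat_lit 3243184495113) (nat_lit 1) (nat_lit 5) (nat_lit 3) (nat_lit 4) (nat_lit 1) (nat_lit 4) (nat_lit 324) (nat_lit 252) (nat_lit 204)))) (XT.nd (nat_lit 156) (nat_lit 0) (nat_lit 0) (XT.nd (nat_lit 78) (nat_lit 0) (nat_lit 0) (XT.lf (nat_lit 0) (nat_lit 3741604037705) (nat_lit 152) (nat_lit 421159856392) (nat_lit 0) (nat_lit 3737892672652) (nat_lit 1) (nat_lit 5) (nat_lit 3) (nat_lit 4) (nat_lit 1) (nat_lit 4) (nat_lit 325) (nat_lit 252) (nat_lit 203)) (XT.lf (nat_lit 0) (nat_lit 4310516677775) (nat_lit 152) (nat_lit 467774212764) (nat_lit 0) (nat_lit 4306804798449) (nat_lit 1) (nat_lit 5) (nat_lit 3) (nat_lit 4) (nat_lit 1) (nat_lit 4) (nat_lit 326) (nat_lit 252) (nat_lit 202))) (XT.nd (nat_lit 78) (nat_lit 0) (nat_lit 0) (XT.lf (nat_lit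 0) (nat_lit 4964764088442) (nat_lit 152) (nat_lit 521384999497) (nat_lit 0) (nat_lit 4961051761921) (nat_lit 1) (nat_lit 5) (nat_lit 3) (nat_lit 4) (nat_lit 1) (nat_lit 4) (nat_lit 327) (nat_lit 252) (nat_lit 201)) (XT.lf (nat_lit 0) (nat_lit 5717146762522) (nat_lit 152) (nat_lit 583041123286) (nat_lit 0) (nat_lit 5713434047137) (nat_lit 1) (nat_lit 5) (nat_lit 3) (nat_lit 4) (nat_lit 1) (nat_lit 4) (nat_lit 328) (nat_lit 252) (nat_lit 200))))) (XT.nd (nat_lit 36348) (nat_lit 0) (nat_lit 1140) (XT.nd (nat_lit 78) (nat_lit 0) (nat_lit 0) (XT.lf (nat_lit 0) (nat_lit 6582385230596) (nat_lit 152) (nat_lit 653948899597) (nat_lit 0) (nat_lit 6578672177068) (nat_lit 1) (nat_lit 5) (nat_lit 3) (nat_lit 4) (nat_lit 1) (nat_lit 4) (nat_lit 329) (nat_lit 252) (nat_lit 199)) (XT.nd (nat_lit 78) (nat_lit 0) (nat_lit 0) (XT.lf (nat_lit 0) (nat_lit 7577408071386) (nat_lit 152) (nat_lit 735495654488)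 (nat_lit 0) (nat_lit 7573694723821) (nat_lit 1) (nat_lit 5) (nat_lit 3) (nat_lit 4) (nat_lit 1) (nat_lit 4) (nat_lit 330) (nat_lit 252) (nat_lit 198)) (XT.lf (nat_lit 0) (nat_lit 8721683123083) (nat_lit 152) (nat_lit 829276867947) (nat_lit 0) (nat_lit 8717969519833) (nat_lit 1) (nat_lit 5) (nat_lit 3) (nat_lit 4) (nat_lit 1) (nat_lit 4) (nat_lit 331) (nat_lit 252) (nat_lit 197)))) (XT.nd (nat_lit 156) (nat_lit 380) (nat_lit 0) (XT.nd (nat_lit 78) (nat_lit 152) (nat_lit 0) (XT.lf (nat_lit 0) (nat_lit 686982304) (nat_lit 152) (nat_lit 4515541657) (nat_lit 0) (nat_lit 686982304) (nat_lit 23) (nat_lit 5) (nat_lit 25) (nat_lit 4) (nat_lit 23) (nat_lit 4) (nat_lit 274) (nat_lit 253) (nat_lit 253)) (XT.lf (nat_lit 0) (nat_lit 7710881885) (nat_lit 152) (nat_lit 2983662473) (nat_lit 152) (nat_lit 2028554768) (nat_lit 21) (nat_lit 4) (nat_lit 23) (nat_lit 5) (nat_lit 23) (nat_lit 4) (nat_lit 275)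 (nat_lit 253) (nat_lit 252))) (XT.nd (nat_lit 78) (nat_lit 228) (nat_lit 0) (XT.lf (nat_lit 0) (nat_lit 7017018375) (nat_lit 152) (nat_lit 1430508478) (nat_lit 0) (nat_lit 5363651575) (nat_lit 19) (nat_lit 5) (nat_lit 21) (nat_lit 4) (nat_lit 19) (nat_lit 4) (nat_lit 276) (nat_lit 253) (nat_lit 251)) (XT.lf (nat_lit 0) (nat_lit 1750863216) (nat_lit 76) (nat_lit 207277390) (nat_lit 152) (nat_lit 13109830468) (nat_lit 16) (nat_lit 5) (nat_lit 17) (nat_lit 5) (nat_lit 18) (nat_lit 4) (nat_lit 277) (nat_lit 253) (nat_lit 250))))))))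
noncomputable def xc15 : XT := (XT.nd (nat_lit 2106) (nat_lit 0) (nat_lit 0) (XT.nd (nat_lit 1014) (nat_lit 228) (nat_lit 0) (XT.nd (nat_lit 468) (nat_lit 380) (nat_lit 0) (XT.nd (nat_lit 234) (nat_lit 228) (nat_lit 0) (XT.nd (nat_lit 78) (nat_lit 228) (nat_lit 0) (XT.lf (nat_lit 0) (nat_lit 4029822670) (nat_lit 76) (nat_lit 7579530776) (nat_lit 76) (nat_lit 4891058891) (nat_lit 15) (nat_lit 4) (nat_lit 16) (nat_lit 5) (nat_lit 16) (nat_lit 4) (nat_lit 278) (nat_lit 253) (nat_lit 249)) (XT.nd (nat_lit 78) (nat_lit 76) (nat_lit 0) (XT.lf (nat_lit 0) (nat_lit 4104440841) (nat_lit 152) (nat_lit 12871380649) (nat_lit 0) (nat_lit 1181614404) (nat_lit 13) (nat_lit 5) (nat_lit 15) (nat_lit 4) (nat_lit 13) (nat_lit 4) (nat_lit 279) (nat_lit 253) (nat_lit 248)) (XT.lf (nat_lit 0) (nat_lit 4912011247) (nat_lit 76) (nat_lit 9221468836) (nat_lit 76) (nat_lit 5921685340) (nat_lit 12) (nat_lit 4) (nat_lit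 13) (nat_lit 5) (nat_lit 13) (nat_lit 4) (nat_lit 280) (nat_lit 253) (nat_lit 247)))) (XT.nd (nat_lit 78) (nat_lit 76) (nat_lit 0) (XT.lf (nat_lit 0) (nat_lit 2651119079) (nat_lit 76) (nat_lit 367482517) (nat_lit 152) (nat_lit 19231666571) (nat_lit 10) (nat_lit 5) (nat_lit 11) (nat_lit 5) (nat_lit 12) (nat_lit 4) (nat_lit 281) (nat_lit 253) (nat_lit 246)) (XT.nd (nat_lit 78) (nat_lit 76) (nat_lit 0) (XT.lf (nat_lit 0) (nat_lit 13006680391) (nat_lit 152) (nat_lit 2367318635) (nat_lit 0) (nat_lit 9383897117) (nat_lit 10) (nat_lit 5) (nat_lit 12) (nat_lit 4) (nat_lit 10) (nat_lit 4) (nat_lit 282) (nat_lit 253) (nat_lit 245)) (XT.lf (nat_lit 0) (nat_lit 17214855842) (nat_lit 76) (nat_lit 7144940093) (nat_lit 76) (nat_lit 3292661093) (nat_lit 9) (nat_lit 4) (nat_lit 10) (nat_lit 5) (nat_lit 10) (nat_lit 4) (nat_lit 283) (nat_lit 253) (nat_lit 244))))) (XT.nd (nat_lit 234) (nat_lit 152) (nat_lit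 0) (XT.nd (nat_lit 78) (nat_lit 76) (nat_lit 0) (XT.lf (nat_lit 0) (nat_lit 5911867947) (nat_lit 152) (nat_lit 22912972068) (nat_lit 0) (nat_lit 2160163778) (nat_lit 7) (nat_lit 5) (nat_lit 9) (nat_lit 4) (nat_lit 7) (nat_lit 4) (nat_lit 284) (nat_lit 253) (nat_lit 243)) (XT.nd (nat_lit 78) (nat_lit 76) (nat_lit 0) (XT.lf (nat_lit 0) (nat_lit 16329733827) (nat_lit 152) (nat_lit 6061389464) (nat_lit 0) (nat_lit 12417352120) (nat_lit 7) (nat_lit 5) (nat_lit 9) (nat_lit 4) (nat_lit 7) (nat_lit 4) (nat_lit 285) (nat_lit 253) (nat_lit 242)) (XT.lf (nat_lit 0) (nat_lit 13138772053) (nat_lit 76) (nat_lit 15063749826) (nat_lit 76) (nat_lit 11011648521) (nat_lit 6) (nat_lit 4) (nat_lit 7) (nat_lit 5) (nat_lit 7) (nat_lit 4) (nat_lit 286) (nat_lit 253) (nat_lit 241)))) (XT.nd (nat_lit 156) (nat_lit 0) (nat_lit 0) (XT.nd (nat_lit 78) (nat_lit 152) (nat_lit 0) (XT.lf (nat_lit 0) (nat_lit 34820402262)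 (nat_lit 76) (nat_lit 6825409311) (nat_lit 76) (nat_lit 2651812704) (nat_lit 6) (nat_lit 4) (nat_lit 7) (nat_lit 5) (nat_lit 7) (nat_lit 4) (nat_lit 287) (nat_lit 253) (nat_lit 240)) (XT.lf (nat_lit 0) (nat_lit 6555925767) (nat_lit 152) (nat_lit 40985295257) (nat_lit 0) (nat_lit 2593662159) (nat_lit 4) (nat_lit 5) (nat_lit 6) (nat_lit 4) (nat_lit 4) (nat_lit 4) (nat_lit 288) (nat_lit 253) (nat_lit 239))) (XT.nd (nat_lit 78) (nat_lit 0) (nat_lit 0) (XT.lf (nat_lit 0) (nat_lit 17141406756) (nat_lit 152) (nat_lit 26594495674) (nat_lit 0) (nat_lit 13094080274) (nat_lit 4) (nat_lit 5) (nat_lit 6) (nat_lit 4) (nat_lit 4) (nat_lit 4) (nat_lit 289) (nat_lit 253) (nat_lit 238)) (XT.lf (nat_lit 0) (nat_lit 29034079040) (nat_lit 152) (nat_lit 10604977155) (nat_lit 0) (nat_lit 24912784842) (nat_lit 4) (nat_lit 5) (nat_lit 6) (nat_lit 4) (nat_lit 4) (nat_lit 4) (nat_lit 290) (nat_lit 253) (nat_lit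 237)))))) (XT.nd (nat_lit 546) (nat_lit 0) (nat_lit 0) (XT.nd (nat_lit 234) (nat_lit 152) (nat_lit 0) (XT.nd (nat_lit 78) (nat_lit 0) (nat_lit 0) (XT.lf (nat_lit 0) (nat_lit 7680298333) (nat_lit 76) (nat_lit 34971038365) (nat_lit 76) (nat_lit 30785424414) (nat_lit 3) (nat_lit 4) (nat_lit 4) (nat_lit 5) (nat_lit 4) (nat_lit 4) (nat_lit 291) (nat_lit 253) (nat_lit 236)) (XT.nd (nat_lit 78) (nat_lit 0) (nat_lit 0) (XT.lf (nat_lit 0) (nat_lit 28904911065) (nat_lit 76) (nat_lit 29492109081) (nat_lit 76) (nat_lit 25250564910) (nat_lit 3) (nat_lit 4) (nat_lit 4) (nat_lit 5) (nat_lit 4) (nat_lit 4) (nat_lit 292) (nat_lit 253) (nat_lit 235)) (XT.lf (nat_lit 0) (nat_lit 52925685900) (nat_lit 76) (nat_lit 23385030770) (nat_lit 76) (nat_lit 19094851625) (nat_lit 3) (nat_lit 4) (nat_lit 4) (nat_lit 5) (nat_lit 4) (nat_lit 4) (nat_lit 293) (nat_lit 253) (nat_lit 234)))) (XT.nd (nat_lit 156) (nat_lit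 152) (nat_lit 0) (XT.nd (nat_lit 78) (nat_lit 0) (nat_lit 0) (XT.lf (nat_lit 0) (nat_lit 80212594519) (nat_lit 76) (nat_lit 16530317117) (nat_lit 76) (nat_lit 12197846689) (nat_lit 3) (nat_lit 4) (nat_lit 4) (nat_lit 5) (nat_lit 4) (nat_lit 4) (nat_lit 294) (nat_lit 253) (nat_lit 233)) (XT.lf (nat_lit 0) (nat_lit 111299511221) (nat_lit 76) (nat_lit 8793854159) (nat_lit 76) (nat_lit 4424608704) (nat_lit 3) (nat_lit 4) (nat_lit 4) (nat_lit 5) (nat_lit 4) (nat_lit 4) (nat_lit 295) (nat_lit 253) (nat_lit 232))) (XT.nd (nat_lit 78) (nat_lit 0) (nat_lit 0) (XT.lf (nat_lit 0) (nat_lit 4270467332) (nat_lit 152) (nat_lit 137958840626) (nat_lit 0) (nat_lit 195260165) (nat_lit 1) (nat_lit 5) (nat_lit 3) (nat_lit 4) (nat_lit 1) (nat_lit 4) (nat_lit 296) (nat_lit 253) (nat_lit 231)) (XT.lf (nat_lit 0) (nat_lit 14530949181) (nat_lit 152) (nat_lit 138005178157) (nat_lit 0) (nat_lit 10429994603) (nat_lit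 1) (nat_lit 5) (nat_lit 3) (nat_lit 4) (nat_lit 1) (nat_lit 4) (nat_lit 297) (nat_lit 253) (nat_lit 230))))) (XT.nd (nat_lit 234) (nat_lit 0) (nat_lit 0) (XT.nd (nat_lit 78) (nat_lit 0) (nat_lit 0) (XT.lf (nat_lit 0) (nat_lit 26224093145) (nat_lit 152) (nat_lit 138272592126) (nat_lit 0) (nat_lit 22100749514) (nat_lit 1) (nat_lit 5) (nat_lit 3) (nat_lit 4) (nat_lit 1) (nat_lit 4) (nat_lit 298) (nat_lit 253) (nat_lit 229)) (XT.nd (nat_lit 78) (nat_lit 0) (nat_lit 0) (XT.lf (nat_lit 0) (nat_lit 39578678129) (nat_lit 152) (nat_lit 138766314545) (nat_lit 0) (nat_lit 35435865755) (nat_lit 1) (nat_lit 5) (nat_lit 3) (nat_lit 4) (nat_lit 1) (nat_lit 4) (nat_lit 299) (nat_lit 253) (nat_lit 228)) (XT.lf (nat_lit 0) (nat_lit 54855989490) (nat_lit 152) (nat_lit 139496005202) (nat_lit 0) (nat_lit 50696247775) (nat_lit 1) (nat_lit 5) (nat_lit 3) (nat_lit 4) (nat_lit 1) (nat_lit 4) (nat_lit 300) (nat_lit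 253) (nat_lit 227)))) (XT.nd (nat_lit 156) (nat_lit 0) (nat_lit 0) (XT.nd (nat_lit 78) (nat_lit 0) (nat_lit 0) (XT.lf (nat_lit 0) (nat_lit 72354931146) (nat_lit 152) (nat_lit 140475940652) (nat_lit 0) (nat_lit 68180468266) (nat_lit 1) (nat_lit 5) (nat_lit 3) (nat_lit 4) (nat_lit 1) (nat_lit 4) (nat_lit 301) (nat_lit 253) (nat_lit 226)) (XT.lf (nat_lit 0) (nat_lit 92417873696) (nat_lit 152) (nat_lit 141725293546) (nat_lit 0) (nat_lit 88230609801) (nat_lit 1) (nat_lit 5) (nat_lit 3) (nat_lit 4) (nat_lit 1) (nat_lit 4) (nat_lit 302) (nat_lit 253) (nat_lit 225))) (XT.nd (nat_lit 78) (nat_lit 0) (nat_lit 0) (XT.lf (nat_lit 0) (nat_lit 115437352971) (nat_lit 152) (nat_lit 143268507745) (nat_lit 0) (nat_lit 111238957760) (nat_lit 1) (nat_lit 5) (nat_lit 3) (nat_lit 4) (nat_lit 1) (nat_lit 4) (nat_lit 303) (nat_lit 253) (nat_lit 224)) (XT.lf (nat_lit 0) (nat_lit 141863750088) (nat_lit 152) (nat_lit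 145135776569) (nat_lit 0) (nat_lit 137655675471) (nat_lit 1) (nat_lit 5) (nat_lit 3) (nat_lit 4) (nat_lit 1) (nat_lit 4) (nat_lit 304) (nat_lit 253) (nat_lit 223))))))) (XT.nd (nat_lit 1092) (nat_lit 0) (nat_lit 0) (XT.nd (nat_lit 546) (nat_lit 0) (nat_lit 0) (XT.nd (nat_lit 234) (nat_lit 0) (nat_lit 0) (XT.nd (nat_lit 78) (nat_lit 0) (nat_lit 0) (XT.lf (nat_lit 0) (nat_lit 172214103251) (nat_lit 152) (nat_lit 147363633540) (nat_lit 0) (nat_lit 167997611760) (nat_lit 1) (nat_lit 5) (nat_lit 3) (nat_lit 4) (nat_lit 1) (nat_lit 4) (nat_lit 305) (nat_lit 253) (nat_lit 222)) (XT.nd (nat_lit 78) (nat_lit 0) (nat_lit 0) (XT.lf (nat_lit 0) (nat_lit 207082223718) (nat_lit 152) (nat_lit 149995667163) (nat_lit 0) (nat_lit 202858413206) (nat_lit 1) (nat_lit 5) (nat_lit 3) (nat_lit 4) (nat_lit 1) (nat_lit 4) (nat_lit 306) (nat_lit 253) (nat_lit 221)) (XT.lf (nat_lit 0) (nat_lit 247150313846) (nat_lit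 152) (nat_lit 153083373749) (nat_lit 0) (nat_lit 242920138967) (nat_lit 1) (nat_lit 5) (nat_lit 3) (nat_lit 4) (nat_lit 1) (nat_lit 4) (nat_lit 307) (nat_lit 253) (nat_lit 220)))) (XT.nd (nat_lit 156) (nat_lit 0) (nat_lit 0) (XT.nd (nat_lit 78) (nat_lit 0) (nat_lit 0) (XT.lf (nat_lit 0) (nat_lit 293202314528) (nat_lit 152) (nat_lit 156687164947) (nat_lit 0) (nat_lit 288966605418) (nat_lit 1) (nat_lit 5) (nat_lit 3) (nat_lit 4) (nat_lit 1) (nat_lit 4) (nat_lit 308) (nat_lit 253) (nat_lit 219)) (XT.lf (nat_lit 0) (nat_lit 346139243170) (nat_lit 152) (nat_lit 160877549716) (nat_lit 0) (nat_lit 341898721684) (nat_lit 1) (nat_lit 5) (nat_lit 3) (nat_lit 4) (nat_lit 1) (nat_lit 4) (nat_lit 309) (nat_lit 253) (nat_lit 218))) (XT.nd (nat_lit 78) (nat_lit 0) (nat_lit 0) (XT.lf (nat_lit 0) (nat_lit 406996822288) (nat_lit 152) (nat_lit 165736513845) (nat_lit 0) (nat_lit 402752116128) (nat_lit 1)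 (nat_lit 5) (nat_lit 3) (nat_lit 4) (nat_lit 1) (nat_lit 4) (nat_lit 310) (nat_lit 253) (nat_lit 217)) (XT.lf (nat_lit 0) (nat_lit 476965743647) (nat_lit 152) (nat_lit 171359124024) (nat_lit 0) (nat_lit 472717398640) (nat_lit 1) (nat_lit 5) (nat_lit 3) (nat_lit 4) (nat_lit 1) (nat_lit 4) (nat_lit 311) (nat_lit 253) (nat_lit 216))))) (XT.nd (nat_lit 234) (nat_lit 0) (nat_lit 0) (XT.nd (nat_lit 78) (nat_lit 0) (nat_lit 0) (XT.lf (nat_lit 0) (nat_lit 557414964405) (nat_lit 152) (nat_lit 177855387843) (nat_lit 0) (nat_lit 553163455183) (nat_lit 1) (nat_lit 5) (nat_lit 3) (nat_lit 4) (nat_lit 1) (nat_lit 4) (nat_lit 312) (nat_lit 253) (nat_lit 215)) (XT.nd (nat_lit 78) (nat_lit 0) (nat_lit 0) (XT.lf (nat_lit 0) (nat_lit 649918491054) (nat_lit 152) (nat_lit 185352406116) (nat_lit 0) (nat_lit 645664230341) (nat_lit 1) (nat_lit 5) (nat_lit 3) (nat_lit 4) (nat_lit 1) (nat_lit 4) (nat_lit 313) (nat_lit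 253) (nat_lit 214)) (XT.lf (nat_lit 0) (nat_lit 756286175203) (nat_lit 152) (nat_lit 193996859635) (nat_lit 0) (nat_lit 752029521889) (nat_lit 1) (nat_lit 5) (nat_lit 3) (nat_lit 4) (nat_lit 1) (nat_lit 4) (nat_lit 314) (nat_lit 253) (nat_lit 213)))) (XT.nd (nat_lit 156) (nat_lit 0) (nat_lit 0) (XT.nd (nat_lit 78) (nat_lit 0) (nat_lit 0) (XT.lf (nat_lit 0) (nat_lit 878599123716) (nat_lit 152) (nat_lit 203957879013) (nat_lit 0) (nat_lit 874340389880) (nat_lit 1) (nat_lit 5) (nat_lit 3) (nat_lit 4) (nat_lit 1) (nat_lit 4) (nat_lit 315) (nat_lit 253) (nat_lit 212)) (XT.lf (nat_lit 0) (nat_lit 1019250416020) (nat_lit 152) (nat_lit 215430353759) (nat_lit 0) (nat_lit 1014989873034) (nat_lit 1) (nat_lit 5) (nat_lit 3) (nat_lit 4) (nat_lit 1) (nat_lit 4) (nat_lit 316) (nat_lit 253) (nat_lit 211))) (XT.nd (nat_lit 78) (nat_lit 0) (nat_lit 0) (XT.lf (nat_lit 0) (nat_lit 1180991925226) (nat_lit 152)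 (nat_lit 228638745335) (nat_lit 0) (nat_lit 1176729809065) (nat_lit 1) (nat_lit 5) (nat_lit 3) (nat_lit 4) (nat_lit 1) (nat_lit 4) (nat_lit 317) (nat_lit 253) (nat_lit 210)) (XT.lf (nat_lit 0) (nat_lit 1366988159122) (nat_lit 152) (nat_lit 243841478794) (nat_lit 0) (nat_lit 1362724674984) (nat_lit 1) (nat_lit 5) (nat_lit 3) (nat_lit 4) (nat_lit 1) (nat_lit 4) (nat_lit 318) (nat_lit 253) (nat_lit 209)))))) (XT.nd (nat_lit 546) (nat_lit 0) (nat_lit 0) (XT.nd (nat_lit 234) (nat_lit 0) (nat_lit 0) (XT.nd (nat_lit 78) (nat_lit 0) (nat_lit 0) (XT.lf (nat_lit 0) (nat_lit 1580878174458) (nat_lit 152) (nat_lit 261335998921) (nat_lit 0) (nat_lit 1576613500775) (nat_lit 1) (nat_lit 5) (nat_lit 3) (nat_lit 4) (nat_lit 1) (nat_lit 4) (nat_lit 319) (nat_lit 253) (nat_lit 208)) (XT.nd (nat_lit 78) (nat_lit 0) (nat_lit 0) (XT.lf (nat_lit 0) (nat_lit 1826846775883) (nat_lit 152) (nat_lit 281464589806)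 (nat_lit 0) (nat_lit 1822581067812) (nat_lit 1) (nat_lit 5) (nat_lit 3) (nat_lit 4) (nat_lit 1) (nat_lit 4) (nat_lit 320) (nat_lit 253) (nat_lit 207)) (XT.lf (nat_lit 0) (nat_lit 2109706392554) (nat_lit 152) (nat_lit 304621071705) (nat_lit 0) (nat_lit 2105439785016) (nat_lit 1) (nat_lit 5) (nat_lit 3) (nat_lit 4) (nat_lit 1) (nat_lit 4) (nat_lit 321) (nat_lit 253) (nat_lit 206)))) (XT.nd (nat_lit 156) (nat_lit 0) (nat_lit 0) (XT.nd (nat_lit 78) (nat_lit 0) (nat_lit 0) (XT.lf (nat_lit 0) (nat_lit 2434991234364) (nat_lit 152) (nat_lit 331258506220) (nat_lit 0) (nat_lit 2430723844680) (nat_lit 1) (nat_lit 5) (nat_lit 3) (nat_lit 4) (nat_lit 1) (nat_lit 4) (nat_lit 322) (nat_lit 253) (nat_lit 205)) (XT.lf (nat_lit 0) (nat_lit 2809065569955) (nat_lit 152) (nat_lit 361898060548) (nat_lit 0) (nat_lit 2804797500145) (nat_lit 1) (nat_lit 5) (nat_lit 3) (nat_lit 4) (nat_lit 1) (nat_lit 4) (nat_lit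 323) (nat_lit 253) (nat_lit 204))) (XT.nd (nat_lit 78) (nat_lit 0) (nat_lit 0) (XT.lf (nat_lit 0) (nat_lit 3239248245025) (nat_lit 152) (nat_lit 397139204232) (nat_lit 0) (nat_lit 3234979583800) (nat_lit 1) (nat_lit 5) (nat_lit 3) (nat_lit 4) (nat_lit 1) (nat_lit 4) (nat_lit 324) (nat_lit 253) (nat_lit 203)) (XT.lf (nat_lit 0) (nat_lit 3733955877129) (nat_lit 152) (nat_lit 437671437907) (nat_lit 0) (nat_lit 3729686701631) (nat_lit 1) (nat_lit 5) (nat_lit 3) (nat_lit 4) (nat_lit 1) (nat_lit 4) (nat_lit 325) (nat_lit 253) (nat_lit 202))))) (XT.nd (nat_lit 234) (nat_lit 0) (nat_lit 0) (XT.nd (nat_lit 78) (nat_lit 0) (nat_lit 0) (XT.lf (nat_lit 0) (nat_lit 4302867528634) (nat_lit 152) (nat_lit 484287783537) (nat_lit 0) (nat_lit 4298597905942) (nat_lit 1) (nat_lit 5) (nat_lit 3) (nat_lit 4) (nat_lit 1) (nat_lit 4) (nat_lit 326) (nat_lit 253) (nat_lit 201)) (XT.nd (nat_lit 78) (nat_lit 0) (nat_lit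 0) (XT.lf (nat_lit 0) (nat_lit 4957114079679) (nat_lit 152) (nat_lit 537900300058) (nat_lit 0) (nat_lit 4952844068122) (nat_lit 1) (nat_lit 5) (nat_lit 3) (nat_lit 4) (nat_lit 1) (nat_lit 4) (nat_lit 327) (nat_lit 253) (nat_lit 200)) (XT.lf (nat_lit 0) (nat_lit 5709496006263) (nat_lit 152) (nat_lit 599557928012) (nat_lit 0) (nat_lit 5705225656562) (nat_lit 1) (nat_lit 5) (nat_lit 3) (nat_lit 4) (nat_lit 1) (nat_lit 4) (nat_lit 328) (nat_lit 253) (nat_lit 199)))) (XT.nd (nat_lit 36192) (nat_lit 0) (nat_lit 1976) (XT.nd (nat_lit 78) (nat_lit 0) (nat_lit 0) (XT.lf (nat_lit 0) (nat_lit 6574733824339) (nat_lit 152) (nat_lit 670467012292) (nat_lit 0) (nat_lit 6570463180601) (nat_lit 1) (nat_lit 5) (nat_lit 3) (nat_lit 4) (nat_lit 1) (nat_lit 4) (nat_lit 329) (nat_lit 253) (nat_lit 198)) (XT.lf (nat_lit 0) (nat_lit 7569756099914) (nat_lit 152) (nat_lit 752014904548) (nat_lit 0) (nat_lit 7565485200492)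 (nat_lit 1) (nat_lit 5) (nat_lit 3) (nat_lit 4) (nat_lit 1) (nat_lit 4) (nat_lit 330) (nat_lit 253) (nat_lit 197))) (XT.nd (nat_lit 78) (nat_lit 152) (nat_lit 0) (XT.lf (nat_lit 0) (nat_lit 1830681155) (nat_lit 152) (nat_lit 1637672584) (nat_lit 152) (nat_lit 1637672584) (nat_lit 29) (nat_lit 4) (nat_lit 31) (nat_lit 5) (nat_lit 31) (nat_lit 4) (nat_lit 272) (nat_lit 254) (nat_lit 254)) (XT.lf (nat_lit 0) (nat_lit 4913356534) (nat_lit 152) (nat_lit 2315052591) (nat_lit 0) (nat_lit 3727112764) (nat_lit 27) (nat_lit 5) (nat_lit 29) (nat_lit 4) (nat_lit 27) (nat_lit 4) (nat_lit 273) (nat_lit 254) (nat_lit 253))))))))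
noncomputable def xc16 : XT := (XT.nd (nat_lit 2106) (nat_lit 0) (nat_lit 0) (XT.nd (nat_lit 1014) (nat_lit 380) (nat_lit 0) (XT.nd (nat_lit 468) (nat_lit 608) (nat_lit 0) (XT.nd (nat_lit 234) (nat_lit 380) (nat_lit 0) (XT.nd (nat_lit 78) (nat_lit 304) (nat_lit 0) (XT.lf (nat_lit 0) (nat_lit 1978602607) (nat_lit 76) (nat_lit 38879458) (nat_lit 152) (nat_lit 9798179733) (nat_lit 23) (nat_lit 5) (nat_lit 24) (nat_lit 5) (nat_lit 25) (nat_lit 4) (nat_lit 274) (nat_lit 254) (nat_lit 252)) (XT.nd (nat_lit 78) (nat_lit 152) (nat_lit 0) (XT.lf (nat_lit 0) (nat_lit 6126550908) (nat_lit 152) (nat_lit 4776132261) (nat_lit 152) (nat_lit 1892122257) (nat_lit 21) (nat_lit 4) (nat_lit 23) (nat_lit 5) (nat_lit 23) (nat_lit 4) (nat_lit 275) (nat_lit 254) (nat_lit 251)) (XT.lf (nat_lit 0) (nat_lit 6666760666) (nat_lit 152) (nat_lit 3926754767) (nat_lit 0) (nat_lit 3327678585) (nat_lit 19) (nat_lit 5) (nat_lit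 21) (nat_lit 4) (nat_lit 19) (nat_lit 4) (nat_lit 276) (nat_lit 254) (nat_lit 250)))) (XT.nd (nat_lit 78) (nat_lit 228) (nat_lit 0) (XT.lf (nat_lit 0) (nat_lit 1046281263) (nat_lit 152) (nat_lit 1744297441) (nat_lit 76) (nat_lit 12426409380) (nat_lit 17) (nat_lit 5) (nat_lit 19) (nat_lit 5) (nat_lit 18) (nat_lit 4) (nat_lit 277) (nat_lit 254) (nat_lit 249)) (XT.nd (nat_lit 78) (nat_lit 152) (nat_lit 0) (XT.lf (nat_lit 0) (nat_lit 10151650665) (nat_lit 152) (nat_lit 488254412) (nat_lit 0) (nat_lit 6053319563) (nat_lit 16) (nat_lit 5) (nat_lit 18) (nat_lit 4) (nat_lit 16) (nat_lit 4) (nat_lit 278) (nat_lit 254) (nat_lit 248)) (XT.lf (nat_lit 0) (nat_lit 2046761120) (nat_lit 152) (nat_lit 248181594) (nat_lit 76) (nat_lit 16097762396) (nat_lit 14) (nat_lit 5) (nat_lit 16) (nat_lit 5) (nat_lit 15) (nat_lit 4) (nat_lit 279) (nat_lit 254) (nat_lit 247))))) (XT.nd (nat_lit 234) (nat_lit 304) (nat_lit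 0) (XT.nd (nat_lit 78) (nat_lit 228) (nat_lit 0) (XT.lf (nat_lit 0) (nat_lit 11598887139) (nat_lit 152) (nat_lit 1630399734) (nat_lit 0) (nat_lit 7099390313) (nat_lit 13) (nat_lit 5) (nat_lit 15) (nat_lit 4) (nat_lit 13) (nat_lit 4) (nat_lit 280) (nat_lit 254) (nat_lit 246)) (XT.nd (nat_lit 78) (nat_lit 152) (nat_lit 0) (XT.lf (nat_lit 0) (nat_lit 17705583161) (nat_lit 76) (nat_lit 4819432523) (nat_lit 76) (nat_lit 34902004) (nat_lit 12) (nat_lit 4) (nat_lit 13) (nat_lit 5) (nat_lit 13) (nat_lit 4) (nat_lit 281) (nat_lit 254) (nat_lit 245)) (XT.lf (nat_lit 0) (nat_lit 9462531067) (nat_lit 152) (nat_lit 10841621247) (nat_lit 0) (nat_lit 4802914489) (nat_lit 10) (nat_lit 5) (nat_lit 12) (nat_lit 4) (nat_lit 10) (nat_lit 4) (nat_lit 282) (nat_lit 254) (nat_lit 244)))) (XT.nd (nat_lit 156) (nat_lit 152) (nat_lit 0) (XT.nd (nat_lit 78) (nat_lit 76) (nat_lit 0) (XT.lf (nat_lit 0) (nat_lit 7832196129)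 (nat_lit 76) (nat_lit 12532375077) (nat_lit 76) (nat_lit 7673196997) (nat_lit 9) (nat_lit 4) (nat_lit 10) (nat_lit 5) (nat_lit 10) (nat_lit 4) (nat_lit 283) (nat_lit 254) (nat_lit 243)) (XT.lf (nat_lit 0) (nat_lit 1289152482) (nat_lit 152) (nat_lit 2351272656) (nat_lit 76) (nat_lit 27775266792) (nat_lit 8) (nat_lit 5) (nat_lit 10) (nat_lit 5) (nat_lit 9) (nat_lit 4) (nat_lit 284) (nat_lit 254) (nat_lit 242))) (XT.nd (nat_lit 78) (nat_lit 76) (nat_lit 0) (XT.lf (nat_lit 0) (nat_lit 11361303106) (nat_lit 152) (nat_lit 17343888801) (nat_lit 0) (nat_lit 6561667007) (nat_lit 7) (nat_lit 5) (nat_lit 9) (nat_lit 4) (nat_lit 7) (nat_lit 4) (nat_lit 285) (nat_lit 254) (nat_lit 241)) (XT.lf (nat_lit 0) (nat_lit 906056357) (nat_lit 76) (nat_lit 21862454279) (nat_lit 76) (nat_lit 16941322878) (nat_lit 6) (nat_lit 4) (nat_lit 7) (nat_lit 5) (nat_lit 7) (nat_lit 4) (nat_lit 286) (nat_lit 254) (nat_lit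 240)))))) (XT.nd (nat_lit 546) (nat_lit 152) (nat_lit 0) (XT.nd (nat_lit 234) (nat_lit 76) (nat_lit 0) (XT.nd (nat_lit 78) (nat_lit 152) (nat_lit 0) (XT.lf (nat_lit 0) (nat_lit 22278034446) (nat_lit 76) (nat_lit 13777289686) (nat_lit 76) (nat_lit 8750510196) (nat_lit 6) (nat_lit 4) (nat_lit 7) (nat_lit 5) (nat_lit 7) (nat_lit 4) (nat_lit 287) (nat_lit 254) (nat_lit 239)) (XT.nd (nat_lit 78) (nat_lit 76) (nat_lit 0) (XT.lf (nat_lit 0) (nat_lit 335269891) (nat_lit 152) (nat_lit 4421286018) (nat_lit 76) (nat_lit 45932457650) (nat_lit 5) (nat_lit 5) (nat_lit 7) (nat_lit 5) (nat_lit 6) (nat_lit 4) (nat_lit 288) (nat_lit 254) (nat_lit 238)) (XT.lf (nat_lit 0) (nat_lit 10560991020) (nat_lit 152) (nat_lit 41104388066) (nat_lit 0) (nat_lit 5747534976) (nat_lit 4) (nat_lit 5) (nat_lit 6) (nat_lit 4) (nat_lit 4) (nat_lit 4) (nat_lit 289) (nat_lit 254) (nat_lit 237)))) (XT.nd (nat_lit 156) (nat_lit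 76) (nat_lit 0) (XT.nd (nat_lit 78) (nat_lit 0) (nat_lit 0) (XT.lf (nat_lit 0) (nat_lit 22340162454) (nat_lit 152) (nat_lit 25341320912) (nat_lit 0) (nat_lit 17462386657) (nat_lit 4) (nat_lit 5) (nat_lit 6) (nat_lit 4) (nat_lit 4) (nat_lit 4) (nat_lit 290) (nat_lit 254) (nat_lit 236)) (XT.lf (nat_lit 0) (nat_lit 35674012361) (nat_lit 152) (nat_lit 7637159283) (nat_lit 0) (nat_lit 30740306344) (nat_lit 4) (nat_lit 5) (nat_lit 6) (nat_lit 4) (nat_lit 4) (nat_lit 4) (nat_lit 291) (nat_lit 254) (nat_lit 235))) (XT.nd (nat_lit 78) (nat_lit 0) (nat_lit 0) (XT.lf (nat_lit 0) (nat_lit 13005047753) (nat_lit 76) (nat_lit 38131144371) (nat_lit 76) (nat_lit 33148803380) (nat_lit 3) (nat_lit 4) (nat_lit 4) (nat_lit 5) (nat_lit 4) (nat_lit 4) (nat_lit 292) (nat_lit 254) (nat_lit 234)) (XT.lf (nat_lit 0) (nat_lit 36869086569) (nat_lit 76) (nat_lit 32102403923) (nat_lit 76) (nat_lit 27077771649) (nat_lit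 3) (nat_lit 4) (nat_lit 4) (nat_lit 5) (nat_lit 4) (nat_lit 4) (nat_lit 293) (nat_lit 254) (nat_lit 233))))) (XT.nd (nat_lit 234) (nat_lit 152) (nat_lit 0) (XT.nd (nat_lit 78) (nat_lit 0) (nat_lit 0) (XT.lf (nat_lit 0) (nat_lit 64019702997) (nat_lit 76) (nat_lit 25315810150) (nat_lit 76) (nat_lit 20254402849) (nat_lit 3) (nat_lit 4) (nat_lit 4) (nat_lit 5) (nat_lit 4) (nat_lit 4) (nat_lit 294) (nat_lit 254) (nat_lit 232)) (XT.nd (nat_lit 78) (nat_lit 0) (nat_lit 0) (XT.lf (nat_lit 0) (nat_lit 94988104751) (nat_lit 76) (nat_lit 17638581871) (nat_lit 76) (nat_lit 12545196285) (nat_lit 3) (nat_lit 4) (nat_lit 4) (nat_lit 5) (nat_lit 4) (nat_lit 4) (nat_lit 295) (nat_lit 254) (nat_lit 231)) (XT.lf (nat_lit 0) (nat_lit 130380195342) (nat_lit 76) (nat_lit 8920512445) (nat_lit 76) (nat_lit 3799319655) (nat_lit 3) (nat_lit 4) (nat_lit 4) (nat_lit 5) (nat_lit 4) (nat_lit 4) (nat_lit 296) (nat_lit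 254) (nat_lit 230)))) (XT.nd (nat_lit 156) (nat_lit 0) (nat_lit 0) (XT.nd (nat_lit 78) (nat_lit 0) (nat_lit 0) (XT.lf (nat_lit 0) (nat_lit 6056802663) (nat_lit 152) (nat_lit 156347079524) (nat_lit 0) (nat_lit 1292568433) (nat_lit 1) (nat_lit 5) (nat_lit 3) (nat_lit 4) (nat_lit 1) (nat_lit 4) (nat_lit 297) (nat_lit 254) (nat_lit 229)) (XT.lf (nat_lit 0) (nat_lit 17706909150) (nat_lit 152) (nat_lit 156701096449) (nat_lit 0) (nat_lit 12923206179) (nat_lit 1) (nat_lit 5) (nat_lit 3) (nat_lit 4) (nat_lit 1) (nat_lit 4) (nat_lit 298) (nat_lit 254) (nat_lit 228))) (XT.nd (nat_lit 78) (nat_lit 0) (nat_lit 0) (XT.lf (nat_lit 0) (nat_lit 31024070241) (nat_lit 152) (nat_lit 157270125787) (nat_lit 0) (nat_lit 26223437928) (nat_lit 1) (nat_lit 5) (nat_lit 3) (nat_lit 4) (nat_lit 1) (nat_lit 4) (nat_lit 299) (nat_lit 254) (nat_lit 227)) (XT.lf (nat_lit 0) (nat_lit 46268839086) (nat_lit 152) (nat_lit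 158065300721) (nat_lit 0) (nat_lit 41453485608) (nat_lit 1) (nat_lit 5) (nat_lit 3) (nat_lit 4) (nat_lit 1) (nat_lit 4) (nat_lit 300) (nat_lit 254) (nat_lit 226))))))) (XT.nd (nat_lit 1014) (nat_lit 0) (nat_lit 0) (XT.nd (nat_lit 468) (nat_lit 0) (nat_lit 0) (XT.nd (nat_lit 234) (nat_lit 0) (nat_lit 0) (XT.nd (nat_lit 78) (nat_lit 0) (nat_lit 0) (XT.lf (nat_lit 0) (nat_lit 63739482903) (nat_lit 152) (nat_lit 159102179020) (nat_lit 0) (nat_lit 58911328410) (nat_lit 1) (nat_lit 5) (nat_lit 3) (nat_lit 4) (nat_lit 1) (nat_lit 4) (nat_lit 301) (nat_lit 254) (nat_lit 225)) (XT.nd (nat_lit 78) (nat_lit 0) (nat_lit 0) (XT.lf (nat_lit 0) (nat_lit 83777818635) (nat_lit 152) (nat_lit 160401047436) (nat_lit 0) (nat_lit 78938532826) (nat_lit 1) (nat_lit 5) (nat_lit 3) (nat_lit 4) (nat_lit 1) (nat_lit 4) (nat_lit 302) (nat_lit 254) (nat_lit 224)) (XT.lf (nat_lit 0) (nat_lit 106775900678) (nat_lit 152)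 (nat_lit 161987318609) (nat_lit 0) (nat_lit 101926935464) (nat_lit 1) (nat_lit 5) (nat_lit 3) (nat_lit 4) (nat_lit 1) (nat_lit 4) (nat_lit 303) (nat_lit 254) (nat_lit 223)))) (XT.nd (nat_lit 78) (nat_lit 0) (nat_lit 0) (XT.lf (nat_lit 0) (nat_lit 133183691506) (nat_lit 152) (nat_lit 163892028281) (nat_lit 0) (nat_lit 128326309417) (nat_lit 1) (nat_lit 5) (nat_lit 3) (nat_lit 4) (nat_lit 1) (nat_lit 4) (nat_lit 304) (nat_lit 254) (nat_lit 222)) (XT.nd (nat_lit 78) (nat_lit 0) (nat_lit 0) (XT.lf (nat_lit 0) (nat_lit 163517865288) (nat_lit 152) (nat_lit 166152442511) (nat_lit 0) (nat_lit 158653164177) (nat_lit 1) (nat_lit 5) (nat_lit 3) (nat_lit 4) (nat_lit 1) (nat_lit 4) (nat_lit 305) (nat_lit 254) (nat_lit 221)) (XT.lf (nat_lit 0) (nat_lit 198371916727) (nat_lit 152) (nat_lit 168812786794) (nat_lit 0) (nat_lit 193500851250) (nat_lit 1) (nat_lit 5) (nat_lit 3) (nat_lit 4) (nat_lit 1) (nat_lit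 4) (nat_lit 306) (nat_lit 254) (nat_lit 220))))) (XT.nd (nat_lit 234) (nat_lit 0) (nat_lit 0) (XT.nd (nat_lit 78) (nat_lit 0) (nat_lit 0) (XT.lf (nat_lit 0) (nat_lit 238427772918) (nat_lit 152) (nat_lit 171925111344) (nat_lit 0) (nat_lit 233551173210) (nat_lit 1) (nat_lit 5) (nat_lit 3) (nat_lit 4) (nat_lit 1) (nat_lit 4) (nat_lit 307) (nat_lit 254) (nat_lit 219)) (XT.nd (nat_lit 78) (nat_lit 0) (nat_lit 0) (XT.lf (nat_lit 0) (nat_lit 284469135394) (nat_lit 152) (nat_lit 175550309469) (nat_lit 0) (nat_lit 279587723311) (nat_lit 1) (nat_lit 5) (nat_lit 3) (nat_lit 4) (nat_lit 1) (nat_lit 4) (nat_lit 308) (nat_lit 254) (nat_lit 218)) (XT.lf (nat_lit 0) (nat_lit 337396813422) (nat_lit 152) (nat_lit 179759308957) (nat_lit 0) (nat_lit 332511216664) (nat_lit 1) (nat_lit 5) (nat_lit 3) (nat_lit 4) (nat_lit 1) (nat_lit 4) (nat_lit 309) (nat_lit 254) (nat_lit 217)))) (XT.nd (nat_lit 156) (nat_lit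 0) (nat_lit 0) (XT.nd (nat_lit 78) (nat_lit 0) (nat_lit 0) (XT.lf (nat_lit 0) (nat_lit 398246348527) (nat_lit 152) (nat_lit 184634459798) (nat_lit 0) (nat_lit 393357112922) (nat_lit 1) (nat_lit 5) (nat_lit 3) (nat_lit 4) (nat_lit 1) (nat_lit 4) (nat_lit 310) (nat_lit 254) (nat_lit 216)) (XT.lf (nat_lit 0) (nat_lit 468208275093) (nat_lit 152) (nat_lit 190271145378) (nat_lit 0) (nat_lit 463315875274) (nat_lit 1) (nat_lit 5) (nat_lit 3) (nat_lit 4) (nat_lit 1) (nat_lit 4) (nat_lit 311) (nat_lit 254) (nat_lit 215))) (XT.nd (nat_lit 78) (nat_lit 0) (nat_lit 0) (XT.lf (nat_lit 0) (nat_lit 548651413422) (nat_lit 152) (nat_lit 196779648677) (nat_lit 0) (nat_lit 543756262111) (nat_lit 1) (nat_lit 5) (nat_lit 3) (nat_lit 4) (nat_lit 1) (nat_lit 4) (nat_lit 312) (nat_lit 254) (nat_lit 214)) (XT.lf (nat_lit 0) (nat_lit 641149651003) (nat_lit 152) (nat_lit 204287309975) (nat_lit 0) (nat_lit 636252107091)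 (nat_lit 1) (nat_lit 5) (nat_lit 3) (nat_lit 4) (nat_lit 1) (nat_lit 4) (nat_lit 313) (nat_lit 254) (nat_lit 213)))))) (XT.nd (nat_lit 546) (nat_lit 0) (nat_lit 0) (XT.nd (nat_lit 234) (nat_lit 0) (nat_lit 0) (XT.nd (nat_lit 78) (nat_lit 0) (nat_lit 0) (XT.lf (nat_lit 0) (nat_lit 747512735962) (nat_lit 152) (nat_lit 212941018299) (nat_lit 0) (nat_lit 742613111528) (nat_lit 1) (nat_lit 5) (nat_lit 3) (nat_lit 4) (nat_lit 1) (nat_lit 4) (nat_lit 314) (nat_lit 254) (nat_lit 212)) (XT.nd (nat_lit 78) (nat_lit 0) (nat_lit 0) (XT.lf (nat_lit 0) (nat_lit 869821685179) (nat_lit 152) (nat_lit 222910085333) (nat_lit 0) (nat_lit 864920251595) (nat_lit 1) (nat_lit 5) (nat_lit 3) (nat_lit 4) (nat_lit 1) (nat_lit 4) (nat_lit 315) (nat_lit 254) (nat_lit 211)) (XT.lf (nat_lit 0) (nat_lit 1010469499835) (nat_lit 152) (nat_lit 234389558041) (nat_lit 0) (nat_lit 1005566493077) (nat_lit 1) (nat_lit 5) (nat_lit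 3) (nat_lit 4) (nat_lit 1) (nat_lit 4) (nat_lit 316) (nat_lit 254) (nat_lit 210)))) (XT.nd (nat_lit 156) (nat_lit 0) (nat_lit 0) (XT.nd (nat_lit 78) (nat_lit 0) (nat_lit 0) (XT.lf (nat_lit 0) (nat_lit 1172207984999) (nat_lit 152) (nat_lit 247604034802) (nat_lit 0) (nat_lit 1167303610263) (nat_lit 1) (nat_lit 5) (nat_lit 3) (nat_lit 4) (nat_lit 1) (nat_lit 4) (nat_lit 317) (nat_lit 254) (nat_lit 209)) (XT.lf (nat_lit 0) (nat_lit 1358201589293) (nat_lit 152) (nat_lit 262812059725) (nat_lit 0) (nat_lit 1353296025011) (nat_lit 1) (nat_lit 5) (nat_lit 3) (nat_lit 4) (nat_lit 1) (nat_lit 4) (nat_lit 318) (nat_lit 254) (nat_lit 208))) (XT.nd (nat_lit 78) (nat_lit 0) (nat_lit 0) (XT.lf (nat_lit 0) (nat_lit 1572089318019) (nat_lit 152) (nat_lit 280311181126) (nat_lit 0) (nat_lit 1567182719350) (nat_lit 1) (nat_lit 5) (nat_lit 3) (nat_lit 4) (nat_lit 1) (nat_lit 4) (nat_lit 319) (nat_lit 254) (nat_lit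 207)) (XT.lf (nat_lit 0) (nat_lit 1818055931087) (nat_lit 152) (nat_lit 300443773119) (nat_lit 0) (nat_lit 1813148432950) (nat_lit 1) (nat_lit 5) (nat_lit 3) (nat_lit 4) (nat_lit 1) (nat_lit 4) (nat_lit 320) (nat_lit 254) (nat_lit 206))))) (XT.nd (nat_lit 234) (nat_lit 0) (nat_lit 0) (XT.nd (nat_lit 78) (nat_lit 0) (nat_lit 0) (XT.lf (nat_lit 0) (nat_lit 2100913818752) (nat_lit 152) (nat_lit 323603734242) (nat_lit 0) (nat_lit 2096005538470) (nat_lit 1) (nat_lit 5) (nat_lit 3) (nat_lit 4) (nat_lit 1) (nat_lit 4) (nat_lit 321) (nat_lit 254) (nat_lit 205)) (XT.nd (nat_lit 78) (nat_lit 0) (nat_lit 0) (XT.lf (nat_lit 0) (nat_lit 2426197157078) (nat_lit 152) (nat_lit 350244194169) (nat_lit 0) (nat_lit 2421288196670) (nat_lit 1) (nat_lit 5) (nat_lit 3) (nat_lit 4) (nat_lit 1) (nat_lit 4) (nat_lit 322) (nat_lit 254) (nat_lit 204)) (XT.lf (nat_lit 0) (nat_lit 2800270185293) (nat_lit 152) (nat_lit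 380886379291) (nat_lit 0) (nat_lit 2795360633470) (nat_lit 1) (nat_lit 5) (nat_lit 3) (nat_lit 4) (nat_lit 1) (nat_lit 4) (nat_lit 323) (nat_lit 254) (nat_lit 203)))) (XT.nd (nat_lit 156) (nat_lit 0) (nat_lit 0) (XT.nd (nat_lit 78) (nat_lit 0) (nat_lit 0) (XT.lf (nat_lit 0) (nat_lit 3230451723513) (nat_lit 152) (nat_lit 416129810620) (nat_lit 0) (nat_lit 3225541657417) (nat_lit 1) (nat_lit 5) (nat_lit 3) (nat_lit 4) (nat_lit 1) (nat_lit 4) (nat_lit 324) (nat_lit 254) (nat_lit 202)) (XT.lf (nat_lit 0) (nat_lit 3725158367052) (nat_lit 152) (nat_lit 456664033553) (nat_lit 0) (nat_lit 3720247853762) (nat_lit 1) (nat_lit 5) (nat_lit 3) (nat_lit 4) (nat_lit 1) (nat_lit 4) (nat_lit 325) (nat_lit 254) (nat_lit 201))) (XT.nd (nat_lit 78) (nat_lit 0) (nat_lit 0) (XT.lf (nat_lit 0) (nat_lit 4294069158936) (nat_lit 152) (nat_lit 503282108972) (nat_lit 0) (nat_lit 4289158256781) (nat_lit 1) (nat_lit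 5) (nat_lit 3) (nat_lit 4) (nat_lit 1) (nat_lit 4) (nat_lit 326) (nat_lit 254) (nat_lit 200)) (XT.lf (nat_lit 0) (nat_lit 4948314962484) (nat_lit 152) (nat_lit 556896129658) (nat_lit 0) (nat_lit 4943403722186) (nat_lit 1) (nat_lit 5) (nat_lit 3) (nat_lit 4) (nat_lit 1) (nat_lit 4) (nat_lit 327) (nat_lit 254) (nat_lit 199))))))))
noncomputable def xc17 : XT := (XT.nd (nat_lit 37986) (nat_lit 0) (nat_lit 0) (XT.nd (nat_lit 36894) (nat_lit 0) (nat_lit 152) (XT.nd (nat_lit 36348) (nat_lit 0) (nat_lit 1064) (XT.nd (nat_lit 36114) (nat_lit 0) (nat_lit 2128) (XT.nd (nat_lit 78) (nat_lit 0) (nat_lit 0) (XT.lf (nat_lit 0) (nat_lit 5700696239070) (nat_lit 152) (nat_lit 618555065581) (nat_lit 0) (nat_lit 5695784704734) (nat_lit 1) (nat_lit 5) (nat_lit 3) (nat_lit 4) (nat_lit 1) (nat_lit 4) (nat_lit 328) (nat_lit 254) (nat_lit 198)) (XT.nd (nat_lit 78) (nat_lit 0) (nat_lit 0) (XT.lf (nat_lit 0) (nat_lit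 6565933491931) (nat_lit 152) (nat_lit 689465287226) (nat_lit 0) (nat_lit 6561021701911) (nat_lit 1) (nat_lit 5) (nat_lit 3) (nat_lit 4) (nat_lit 1) (nat_lit 4) (nat_lit 329) (nat_lit 254) (nat_lit 197)) (XT.lf (nat_lit 0) (nat_lit 7560955276016) (nat_lit 152) (nat_lit 771014168495) (nat_lit 0) (nat_lit 7556043263661) (nat_lit 1) (nat_lit 5) (nat_lit 3) (nat_lit 4) (nat_lit 1) (nat_lit 4) (nat_lit 330) (nat_lit 254) (nat_lit 196)))) (XT.nd (nat_lit 78) (nat_lit 532) (nat_lit 0) (XT.lf (nat_lit 0) (nat_lit 971146271) (nat_lit 228) (nat_lit 2551089939) (nat_lit 0) (nat_lit 971146271) (nat_lit 36) (nat_lit 5) (nat_lit 39) (nat_lit 4) (nat_lit 36) (nat_lit 4) (nat_lit 270) (nat_lit 255) (nat_lit 255)) (XT.nd (nat_lit 78) (nat_lit 304) (nat_lit 0) (XT.lf (nat_lit 0) (nat_lit 209255590) (nat_lit 228) (nat_lit 1155928313) (nat_lit 76) (nat_lit 8208376681) (nat_lit 33) (nat_lit 5) (nat_lit 36)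 (nat_lit 5) (nat_lit 34) (nat_lit 4) (nat_lit 271) (nat_lit 255) (nat_lit 254)) (XT.lf (nat_lit 0) (nat_lit 2970435875) (nat_lit 152) (nat_lit 5015188211) (nat_lit 152) (nat_lit 2260730178) (nat_lit 29) (nat_lit 4) (nat_lit 31) (nat_lit 5) (nat_lit 31) (nat_lit 4) (nat_lit 272) (nat_lit 255) (nat_lit 253))))) (XT.nd (nat_lit 234) (nat_lit 456) (nat_lit 0) (XT.nd (nat_lit 78) (nat_lit 456) (nat_lit 0) (XT.lf (nat_lit 0) (nat_lit 5415665706) (nat_lit 152) (nat_lit 3775686065) (nat_lit 0) (nat_lit 1833725280) (nat_lit 27) (nat_lit 5) (nat_lit 29) (nat_lit 4) (nat_lit 27) (nat_lit 4) (nat_lit 273) (nat_lit 255) (nat_lit 252)) (XT.nd (nat_lit 78) (nat_lit 228) (nat_lit 0) (XT.lf (nat_lit 0) (nat_lit 1969850188) (nat_lit 228) (nat_lit 381622748) (nat_lit 76) (nat_lit 9569837170) (nat_lit 24) (nat_lit 5) (nat_lit 27) (nat_lit 5) (nat_lit 25) (nat_lit 4) (nat_lit 274) (nat_lit 255) (nat_lit 251))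 (XT.lf (nat_lit 0) (nat_lit 2926891172) (nat_lit 152) (nat_lit 7441034194) (nat_lit 152) (nat_lit 2571695607) (nat_lit 21) (nat_lit 4) (nat_lit 23) (nat_lit 5) (nat_lit 23) (nat_lit 4) (nat_lit 275) (nat_lit 255) (nat_lit 250)))) (XT.nd (nat_lit 156) (nat_lit 228) (nat_lit 0) (XT.nd (nat_lit 78) (nat_lit 76) (nat_lit 0) (XT.lf (nat_lit 0) (nat_lit 5527837173) (nat_lit 152) (nat_lit 8141396311) (nat_lit 0) (nat_lit 437709945) (nat_lit 19) (nat_lit 5) (nat_lit 21) (nat_lit 4) (nat_lit 19) (nat_lit 4) (nat_lit 276) (nat_lit 255) (nat_lit 249)) (XT.lf (nat_lit 0) (nat_lit 8492535178) (nat_lit 76) (nat_lit 6270838347) (nat_lit 76) (nat_lit 675075998) (nat_lit 18) (nat_lit 4) (nat_lit 19) (nat_lit 5) (nat_lit 19) (nat_lit 4) (nat_lit 277) (nat_lit 255) (nat_lit 248))) (XT.nd (nat_lit 78) (nat_lit 76) (nat_lit 0) (XT.lf (nat_lit 0) (nat_lit 7948307290) (nat_lit 152) (nat_lit 6649117042) (nat_lit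 0) (nat_lit 2359932232) (nat_lit 16) (nat_lit 5) (nat_lit 18) (nat_lit 4) (nat_lit 16) (nat_lit 4) (nat_lit 278) (nat_lit 255) (nat_lit 247)) (XT.lf (nat_lit 0) (nat_lit 11205626762) (nat_lit 76) (nat_lit 6715977300) (nat_lit 76) (nat_lit 773590396) (nat_lit 15) (nat_lit 4) (nat_lit 16) (nat_lit 5) (nat_lit 16) (nat_lit 4) (nat_lit 279) (nat_lit 255) (nat_lit 246)))))) (XT.nd (nat_lit 546) (nat_lit 304) (nat_lit 0) (XT.nd (nat_lit 234) (nat_lit 228) (nat_lit 0) (XT.nd (nat_lit 78) (nat_lit 228) (nat_lit 0) (XT.lf (nat_lit 0) (nat_lit 8264437606) (nat_lit 152) (nat_lit 9935325009) (nat_lit 0) (nat_lit 2477193816) (nat_lit 13) (nat_lit 5) (nat_lit 15) (nat_lit 4) (nat_lit 13) (nat_lit 4) (nat_lit 280) (nat_lit 255) (nat_lit 245)) (XT.nd (nat_lit 78) (nat_lit 152) (nat_lit 0) (XT.lf (nat_lit 0) (nat_lit 8510456274) (nat_lit 76) (nat_lit 10234286679) (nat_lit 76) (nat_lit 4199187504) (nat_lit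 12) (nat_lit 4) (nat_lit 13) (nat_lit 5) (nat_lit 13) (nat_lit 4) (nat_lit 281) (nat_lit 255) (nat_lit 244)) (XT.lf (nat_lit 0) (nat_lit 3992375335) (nat_lit 76) (nat_lit 932144343) (nat_lit 152) (nat_lit 20621189694) (nat_lit 10) (nat_lit 5) (nat_lit 11) (nat_lit 5) (nat_lit 12) (nat_lit 4) (nat_lit 282) (nat_lit 255) (nat_lit 243)))) (XT.nd (nat_lit 156) (nat_lit 152) (nat_lit 0) (XT.nd (nat_lit 78) (nat_lit 76) (nat_lit 0) (XT.lf (nat_lit 0) (nat_lit 15419757902) (nat_lit 152) (nat_lit 3630634530) (nat_lit 0) (nat_lit 9458609868) (nat_lit 10) (nat_lit 5) (nat_lit 12) (nat_lit 4) (nat_lit 10) (nat_lit 4) (nat_lit 283) (nat_lit 255) (nat_lit 242)) (XT.lf (nat_lit 0) (nat_lit 17096227957) (nat_lit 76) (nat_lit 10463528507) (nat_lit 76) (nat_lit 4351483308) (nat_lit 9) (nat_lit 4) (nat_lit 10) (nat_lit 5) (nat_lit 10) (nat_lit 4) (nat_lit 284) (nat_lit 255) (nat_lit 241))) (XT.nd (nat_lit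 78) (nat_lit 0) (nat_lit 0) (XT.lf (nat_lit 0) (nat_lit 4763754100) (nat_lit 76) (nat_lit 528079662) (nat_lit 152) (nat_lit 30530699415) (nat_lit 7) (nat_lit 5) (nat_lit 8) (nat_lit 5) (nat_lit 9) (nat_lit 4) (nat_lit 285) (nat_lit 255) (nat_lit 240)) (XT.lf (nat_lit 0) (nat_lit 16515521231) (nat_lit 152) (nat_lit 13135620266) (nat_lit 0) (nat_lit 10629076728) (nat_lit 7) (nat_lit 5) (nat_lit 9) (nat_lit 4) (nat_lit 7) (nat_lit 4) (nat_lit 286) (nat_lit 255) (nat_lit 239))))) (XT.nd (nat_lit 234) (nat_lit 152) (nat_lit 0) (XT.nd (nat_lit 78) (nat_lit 76) (nat_lit 0) (XT.lf (nat_lit 0) (nat_lit 7275396624) (nat_lit 76) (nat_lit 22058324496) (nat_lit 76) (nat_lit 16080012090) (nat_lit 6) (nat_lit 4) (nat_lit 7) (nat_lit 5) (nat_lit 7) (nat_lit 4) (nat_lit 287) (nat_lit 255) (nat_lit 238)) (XT.nd (nat_lit 78) (nat_lit 76) (nat_lit 0) (XT.lf (nat_lit 0) (nat_lit 31040115103) (nat_lit 76) (nat_lit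 13162580596) (nat_lit 76) (nat_lit 7104383056) (nat_lit 6) (nat_lit 4) (nat_lit 7) (nat_lit 5) (nat_lit 7) (nat_lit 4) (nat_lit 288) (nat_lit 255) (nat_lit 237)) (XT.lf (nat_lit 0) (nat_lit 2829645009) (nat_lit 152) (nat_lit 242001252) (nat_lit 76) (nat_lit 55024786049) (nat_lit 5) (nat_lit 5) (nat_lit 7) (nat_lit 5) (nat_lit 6) (nat_lit 4) (nat_lit 289) (nat_lit 255) (nat_lit 236)))) (XT.nd (nat_lit 156) (nat_lit 76) (nat_lit 0) (XT.nd (nat_lit 78) (nat_lit 0) (nat_lit 0) (XT.lf (nat_lit 0) (nat_lit 14429961139) (nat_lit 152) (nat_lit 42711481829) (nat_lit 0) (nat_lit 8700268998) (nat_lit 4) (nat_lit 5) (nat_lit 6) (nat_lit 4) (nat_lit 4) (nat_lit 4) (nat_lit 290) (nat_lit 255) (nat_lit 235)) (XT.lf (nat_lit 0) (nat_lit 27677988096) (nat_lit 152) (nat_lit 25178549966) (nat_lit 0) (nat_lit 21899660982) (nat_lit 4) (nat_lit 5) (nat_lit 6) (nat_lit 4) (nat_lit 4) (nat_lit 4) (nat_lit 291)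 (nat_lit 255) (nat_lit 234))) (XT.nd (nat_lit 78) (nat_lit 76) (nat_lit 0) (XT.lf (nat_lit 0) (nat_lit 42752767497) (nat_lit 152) (nat_lit 5335803537) (nat_lit 0) (nat_lit 36932149101) (nat_lit 4) (nat_lit 5) (nat_lit 6) (nat_lit 4) (nat_lit 4) (nat_lit 4) (nat_lit 292) (nat_lit 255) (nat_lit 233)) (XT.lf (nat_lit 0) (nat_lit 18110969129) (nat_lit 76) (nat_lit 42273840792) (nat_lit 76) (nat_lit 36416447368) (nat_lit 3) (nat_lit 4) (nat_lit 4) (nat_lit 5) (nat_lit 4) (nat_lit 4) (nat_lit 293) (nat_lit 255) (nat_lit 232))))))) (XT.nd (nat_lit 1014) (nat_lit 0) (nat_lit 0) (XT.nd (nat_lit 468) (nat_lit 0) (nat_lit 0) (XT.nd (nat_lit 234) (nat_lit 152) (nat_lit 0) (XT.nd (nat_lit 78) (nat_lit 0) (nat_lit 0) (XT.lf (nat_lit 0) (nat_lit 45143070608) (nat_lit 76) (nat_lit 35546481698) (nat_lit 76) (nat_lit 29657109989) (nat_lit 3) (nat_lit 4) (nat_lit 4) (nat_lit 5) (nat_lit 4) (nat_lit 4) (nat_lit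 294) (nat_lit 255) (nat_lit 231)) (XT.nd (nat_lit 78) (nat_lit 0) (nat_lit 0) (XT.lf (nat_lit 0) (nat_lit 76008415885) (nat_lit 76) (nat_lit 27920761835) (nat_lit 76) (nat_lit 22003582922) (nat_lit 3) (nat_lit 4) (nat_lit 4) (nat_lit 5) (nat_lit 4) (nat_lit 4) (nat_lit 295) (nat_lit 255) (nat_lit 230)) (XT.lf (nat_lit 0) (nat_lit 111310892149) (nat_lit 76) (nat_lit 19247482336) (nat_lit 76) (nat_lit 13306123245) (nat_lit 3) (nat_lit 4) (nat_lit 4) (nat_lit 5) (nat_lit 4) (nat_lit 4) (nat_lit 296) (nat_lit 255) (nat_lit 229)))) (XT.nd (nat_lit 78) (nat_lit 152) (nat_lit 0) (XT.lf (nat_lit 0) (nat_lit 151741200022) (nat_lit 76) (nat_lit 9356948603) (nat_lit 76) (nat_lit 3394563270) (nat_lit 3) (nat_lit 4) (nat_lit 4) (nat_lit 5) (nat_lit 4) (nat_lit 4) (nat_lit 297) (nat_lit 255) (nat_lit 228)) (XT.nd (nat_lit 78) (nat_lit 0) (nat_lit 0) (XT.lf (nat_lit 0) (nat_lit 7831686186) (nat_lit 152)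 (nat_lit 178055786296) (nat_lit 0) (nat_lit 2294029686) (nat_lit 1) (nat_lit 5) (nat_lit 3) (nat_lit 4) (nat_lit 1) (nat_lit 4) (nat_lit 298) (nat_lit 255) (nat_lit 227)) (XT.lf (nat_lit 0) (nat_lit 21116304761) (nat_lit 152) (nat_lit 178690299910) (nat_lit 0) (nat_lit 15563927095) (nat_lit 1) (nat_lit 5) (nat_lit 3) (nat_lit 4) (nat_lit 1) (nat_lit 4) (nat_lit 299) (nat_lit 255) (nat_lit 226))))) (XT.nd (nat_lit 234) (nat_lit 0) (nat_lit 0) (XT.nd (nat_lit 78) (nat_lit 0) (nat_lit 0) (XT.lf (nat_lit 0) (nat_lit 36332775767) (nat_lit 152) (nat_lit 179542417693) (nat_lit 0) (nat_lit 30767597086) (nat_lit 1) (nat_lit 5) (nat_lit 3) (nat_lit 4) (nat_lit 1) (nat_lit 4) (nat_lit 300) (nat_lit 255) (nat_lit 225)) (XT.nd (nat_lit 78) (nat_lit 0) (nat_lit 0) (XT.lf (nat_lit 0) (nat_lit 53778812766) (nat_lit 152) (nat_lit 180628811514) (nat_lit 0) (nat_lit 48202502769) (nat_lit 1) (nat_lit 5) (nat_lit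 3) (nat_lit 4) (nat_lit 1) (nat_lit 4) (nat_lit 301) (nat_lit 255) (nat_lit 224)) (XT.lf (nat_lit 0) (nat_lit 73795751266) (nat_lit 152) (nat_lit 181970736904) (nat_lit 0) (nat_lit 68209761864) (nat_lit 1) (nat_lit 5) (nat_lit 3) (nat_lit 4) (nat_lit 1) (nat_lit 4) (nat_lit 302) (nat_lit 255) (nat_lit 223)))) (XT.nd (nat_lit 156) (nat_lit 0) (nat_lit 0) (XT.nd (nat_lit 78) (nat_lit 0) (nat_lit 0) (XT.lf (nat_lit 0) (nat_lit 96775227020) (nat_lit 152) (nat_lit 183594448925) (nat_lit 0) (nat_lit 91180820743) (nat_lit 1) (nat_lit 5) (nat_lit 3) (nat_lit 4) (nat_lit 1) (nat_lit 4) (nat_lit 303) (nat_lit 255) (nat_lit 222)) (XT.lf (nat_lit 0) (nat_lit 123166838467) (nat_lit 152) (nat_lit 185531715857) (nat_lit 0) (nat_lit 117565113168) (nat_lit 1) (nat_lit 5) (nat_lit 3) (nat_lit 4) (nat_lit 1) (nat_lit 4) (nat_lit 304) (nat_lit 255) (nat_lit 221))) (XT.nd (nat_lit 78) (nat_lit 0) (nat_lit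 0) (XT.lf (nat_lit 0) (nat_lit 153486943220) (nat_lit 152) (nat_lit 187820440746) (nat_lit 0) (nat_lit 147878853556) (nat_lit 1) (nat_lit 5) (nat_lit 3) (nat_lit 4) (nat_lit 1) (nat_lit 4) (nat_lit 305) (nat_lit 255) (nat_lit 220)) (XT.lf (nat_lit 0) (nat_lit 188328760723) (nat_lit 152) (nat_lit 190505402994) (nat_lit 0) (nat_lit 182715136827) (nat_lit 1) (nat_lit 5) (nat_lit 3) (nat_lit 4) (nat_lit 1) (nat_lit 4) (nat_lit 306) (nat_lit 255) (nat_lit 219)))))) (XT.nd (nat_lit 546) (nat_lit 0) (nat_lit 0) (XT.nd (nat_lit 234) (nat_lit 0) (nat_lit 0) (XT.nd (nat_lit 78) (nat_lit 0) (nat_lit 0) (XT.lf (nat_lit 0) (nat_lit 228373978708) (nat_lit 152) (nat_lit 193639134471) (nat_lit 0) (nat_lit 222755542436) (nat_lit 1) (nat_lit 5) (nat_lit 3) (nat_lit 4) (nat_lit 1) (nat_lit 4) (nat_lit 307) (nat_lit 255) (nat_lit 218)) (XT.nd (nat_lit 78) (nat_lit 0) (nat_lit 0) (XT.lf (nat_lit 0) (nat_lit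 274406090570) (nat_lit 152) (nat_lit 197282947314) (nat_lit 0) (nat_lit 268783469624) (nat_lit 1) (nat_lit 5) (nat_lit 3) (nat_lit 4) (nat_lit 1) (nat_lit 4) (nat_lit 308) (nat_lit 255) (nat_lit 217)) (XT.lf (nat_lit 0) (nat_lit 327325724585) (nat_lit 152) (nat_lit 201508133513) (nat_lit 0) (nat_lit 321699464793) (nat_lit 1) (nat_lit 5) (nat_lit 3) (nat_lit 4) (nat_lit 1) (nat_lit 4) (nat_lit 309) (nat_lit 255) (nat_lit 216)))) (XT.nd (nat_lit 156) (nat_lit 0) (nat_lit 0) (XT.nd (nat_lit 78) (nat_lit 0) (nat_lit 0) (XT.lf (nat_lit 0) (nat_lit 388168264898) (nat_lit 152) (nat_lit 206397359756) (nat_lit 0) (nat_lit 382538840890) (nat_lit 1) (nat_lit 5) (nat_lit 3) (nat_lit 4) (nat_lit 1) (nat_lit 4) (nat_lit 310) (nat_lit 255) (nat_lit 215)) (XT.lf (nat_lit 0) (nat_lit 458124109035) (nat_lit 152) (nat_lit 212046284816) (nat_lit 0) (nat_lit 452491933536) (nat_lit 1) (nat_lit 5) (nat_lit 3)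 (nat_lit 4) (nat_lit 1) (nat_lit 4) (nat_lit 311) (nat_lit 255) (nat_lit 214))) (XT.nd (nat_lit 78) (nat_lit 0) (nat_lit 0) (XT.lf (nat_lit 0) (nat_lit 538561958295) (nat_lit 152) (nat_lit 218565431140) (nat_lit 0) (nat_lit 532927390195) (nat_lit 1) (nat_lit 5) (nat_lit 3) (nat_lit 4) (nat_lit 1) (nat_lit 4) (nat_lit 312) (nat_lit 255) (nat_lit 213)) (XT.lf (nat_lit 0) (nat_lit 631055596686) (nat_lit 152) (nat_lit 226082347244) (nat_lit 0) (nat_lit 625418948063) (nat_lit 1) (nat_lit 5) (nat_lit 3) (nat_lit 4) (nat_lit 1) (nat_lit 4) (nat_lit 313) (nat_lit 255) (nat_lit 212))))) (XT.nd (nat_lit 234) (nat_lit 0) (nat_lit 0) (XT.nd (nat_lit 78) (nat_lit 0) (nat_lit 0) (XT.lf (nat_lit 0) (nat_lit 737414682349) (nat_lit 152) (nat_lit 234744103224) (nat_lit 0) (nat_lit 731776224577) (nat_lit 1) (nat_lit 5) (nat_lit 3) (nat_lit 4) (nat_lit 1) (nat_lit 4) (nat_lit 314) (nat_lit 255) (nat_lit 211))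 (XT.nd (nat_lit 78) (nat_lit 0) (nat_lit 0) (XT.lf (nat_lit 0) (nat_lit 859720153918) (nat_lit 152) (nat_lit 244720168220) (nat_lit 0) (nat_lit 854080122972) (nat_lit 1) (nat_lit 5) (nat_lit 3) (nat_lit 4) (nat_lit 1) (nat_lit 4) (nat_lit 315) (nat_lit 255) (nat_lit 210)) (XT.lf (nat_lit 0) (nat_lit 1000364944532) (nat_lit 152) (nat_lit 256205726113) (nat_lit 0) (nat_lit 994723545608) (nat_lit 1) (nat_lit 5) (nat_lit 3) (nat_lit 4) (nat_lit 1) (nat_lit 4) (nat_lit 316) (nat_lit 255) (nat_lit 209)))) (XT.nd (nat_lit 156) (nat_lit 0) (nat_lit 0) (XT.nd (nat_lit 78) (nat_lit 0) (nat_lit 0) (XT.lf (nat_lit 0) (nat_lit 1162100800093) (nat_lit 152) (nat_lit 269425494338) (nat_lit 0) (nat_lit 1156458211624) (nat_lit 1) (nat_lit 5) (nat_lit 3) (nat_lit 4) (nat_lit 1) (nat_lit 4) (nat_lit 317) (nat_lit 255) (nat_lit 208)) (XT.lf (nat_lit 0) (nat_lit 1348092117777) (nat_lit 152) (nat_lit 284638120536)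 (nat_lit 0) (nat_lit 1342448494920) (nat_lit 1) (nat_lit 5) (nat_lit 3) (nat_lit 4) (nat_lit 1) (nat_lit 4) (nat_lit 318) (nat_lit 255) (nat_lit 207))) (XT.nd (nat_lit 78) (nat_lit 0) (nat_lit 0) (XT.lf (nat_lit 0) (nat_lit 1561977858146) (nat_lit 152) (nat_lit 302141243044) (nat_lit 0) (nat_lit 1556333335822) (nat_lit 1) (nat_lit 5) (nat_lit 3) (nat_lit 4) (nat_lit 1) (nat_lit 4) (nat_lit 319) (nat_lit 255) (nat_lit 206)) (XT.lf (nat_lit 0) (nat_lit 1807942742208) (nat_lit 152) (nat_lit 322277314260) (nat_lit 0) (nat_lit 1802297437739) (nat_lit 1) (nat_lit 5) (nat_lit 3) (nat_lit 4) (nat_lit 1) (nat_lit 4) (nat_lit 320) (nat_lit 255) (nat_lit 205))))))))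
noncomputable def xc18 : XT := (XT.nd (nat_lit 37830) (nat_lit 0) (nat_lit 0) (XT.nd (nat_lit 36738) (nat_lit 0) (nat_lit 608) (XT.nd (nat_lit 468) (nat_lit 0) (nat_lit 0) (XT.nd (nat_lit 234) (nat_lit 0) (nat_lit 0) (XT.nd (nat_lit 78) (nat_lit 0) (nat_lit 0) (XT.lf (nat_lit 0) (nat_lit 2090799126390) (nat_lit 152) (nat_lit 345440300795) (nat_lit 0) (nat_lit 2085153141794) (nat_lit 1) (nat_lit 5) (nat_lit 3) (nat_lit 4) (nat_lit 1) (nat_lit 4) (nat_lit 321) (nat_lit 255) (nat_lit 204)) (XT.nd (nat_lit 78) (nat_lit 0) (nat_lit 0) (XT.lf (nat_lit 0) (nat_lit 2416081157339) (nat_lit 152) (nat_lit 372083391516) (nat_lit 0) (nat_lit 2410434581329) (nat_lit 1) (nat_lit 5) (nat_lit 3) (nat_lit 4) (nat_lit 1) (nat_lit 4) (nat_lit 322) (nat_lit 255) (nat_lit 203)) (XT.lf (nat_lit 0) (nat_lit 2790153048705) (nat_lit 152) (nat_lit 402727864284) (nat_lit 0) (nat_lit 2784505958420) (nat_lit 1) (nat_lit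 5) (nat_lit 3) (nat_lit 4) (nat_lit 1) (nat_lit 4) (nat_lit 323) (nat_lit 255) (nat_lit 202)))) (XT.nd (nat_lit 78) (nat_lit 0) (nat_lit 0) (XT.lf (nat_lit 0) (nat_lit 3220333598360) (nat_lit 152) (nat_lit 437973284871) (nat_lit 0) (nat_lit 3214686060882) (nat_lit 1) (nat_lit 5) (nat_lit 3) (nat_lit 4) (nat_lit 1) (nat_lit 4) (nat_lit 324) (nat_lit 255) (nat_lit 201)) (XT.nd (nat_lit 78) (nat_lit 0) (nat_lit 0) (XT.lf (nat_lit 0) (nat_lit 3715039382278) (nat_lit 152) (nat_lit 478509237593) (nat_lit 0) (nat_lit 3709391455935) (nat_lit 1) (nat_lit 5) (nat_lit 3) (nat_lit 4) (nat_lit 1) (nat_lit 4) (nat_lit 325) (nat_lit 255) (nat_lit 200)) (XT.lf (nat_lit 0) (nat_lit 4283949426665) (nat_lit 152) (nat_lit 525128817177) (nat_lit 0) (nat_lit 4278301162179) (nat_lit 1) (nat_lit 5) (nat_lit 3) (nat_lit 4) (nat_lit 1) (nat_lit 4) (nat_lit 326) (nat_lit 255) (nat_lit 199))))) (XT.nd (nat_lit 234)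 (nat_lit 0) (nat_lit 0) (XT.nd (nat_lit 78) (nat_lit 0) (nat_lit 0) (XT.lf (nat_lit 0) (nat_lit 4938194580216) (nat_lit 152) (nat_lit 578744145832) (nat_lit 0) (nat_lit 4932546021692) (nat_lit 1) (nat_lit 5) (nat_lit 3) (nat_lit 4) (nat_lit 1) (nat_lit 4) (nat_lit 327) (nat_lit 255) (nat_lit 198)) (XT.nd (nat_lit 78) (nat_lit 0) (nat_lit 0) (XT.lf (nat_lit 0) (nat_lit 5690575291586) (nat_lit 152) (nat_lit 640404219119) (nat_lit 0) (nat_lit 5684926477378) (nat_lit 1) (nat_lit 5) (nat_lit 3) (nat_lit 4) (nat_lit 1) (nat_lit 4) (nat_lit 328) (nat_lit 255) (nat_lit 197)) (XT.lf (nat_lit 0) (nat_lit 6555812052956) (nat_lit 152) (nat_lit 711315429777) (nat_lit 0) (nat_lit 6550163016414) (nat_lit 1) (nat_lit 5) (nat_lit 3) (nat_lit 4) (nat_lit 1) (nat_lit 4) (nat_lit 329) (nat_lit 255) (nat_lit 196)))) (XT.nd (nat_lit 35880) (nat_lit 0) (nat_lit 2660) (XT.nd (nat_lit 35802) (nat_lit 0) (nat_lit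 3344) (XT.lf (nat_lit 0) (nat_lit 7550833409657) (nat_lit 152) (nat_lit 792865171056) (nat_lit 0) (nat_lit 7545184179779) (nat_lit 1) (nat_lit 5) (nat_lit 3) (nat_lit 4) (nat_lit 1) (nat_lit 4) (nat_lit 330) (nat_lit 255) (nat_lit 195)) (XT.lf (nat_lit 0) (nat_lit 2168105132) (nat_lit 228) (nat_lit 925165886) (nat_lit 228) (nat_lit 925165886) (nat_lit 45) (nat_lit 4) (nat_lit 48) (nat_lit 5) (nat_lit 48) (nat_lit 4) (nat_lit 268) (nat_lit 256) (nat_lit 256))) (XT.nd (nat_lit 78) (nat_lit 456) (nat_lit 0) (XT.lf (nat_lit 0) (nat_lit 5028693697) (nat_lit 228) (nat_lit 407662305) (nat_lit 0) (nat_lit 3052448208) (nat_lit 42) (nat_lit 5) (nat_lit 45) (nat_lit 4) (nat_lit 42) (nat_lit 4) (nat_lit 269) (nat_lit 256) (nat_lit 255)) (XT.lf (nat_lit 0) (nat_lit 3286179902) (nat_lit 152) (nat_lit 70021890) (nat_lit 228) (nat_lit 5664273393) (nat_lit 36) (nat_lit 5) (nat_lit 38) (nat_lit 5) (nat_lit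 39) (nat_lit 4) (nat_lit 270) (nat_lit 256) (nat_lit 254)))))) (XT.nd (nat_lit 546) (nat_lit 684) (nat_lit 0) (XT.nd (nat_lit 234) (nat_lit 684) (nat_lit 0) (XT.nd (nat_lit 78) (nat_lit 456) (nat_lit 0) (XT.lf (nat_lit 0) (nat_lit 1115120336) (nat_lit 228) (nat_lit 2485221308) (nat_lit 76) (nat_lit 6037046711) (nat_lit 33) (nat_lit 5) (nat_lit 36) (nat_lit 5) (nat_lit 34) (nat_lit 4) (nat_lit 271) (nat_lit 256) (nat_lit 253)) (XT.nd (nat_lit 78) (nat_lit 152) (nat_lit 0) (XT.lf (nat_lit 0) (nat_lit 884138444) (nat_lit 152) (nat_lit 7514299712) (nat_lit 152) (nat_lit 1951492076) (nat_lit 29) (nat_lit 4) (nat_lit 31) (nat_lit 5) (nat_lit 31) (nat_lit 4) (nat_lit 272) (nat_lit 256) (nat_lit 252)) (XT.lf (nat_lit 0) (nat_lit 4418038917) (nat_lit 76) (nat_lit 846179796) (nat_lit 152) (nat_lit 5899701473) (nat_lit 27) (nat_lit 5) (nat_lit 28) (nat_lit 5) (nat_lit 29) (nat_lit 4) (nat_lit 273)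 (nat_lit 256) (nat_lit 251)))) (XT.nd (nat_lit 156) (nat_lit 380) (nat_lit 0) (XT.nd (nat_lit 78) (nat_lit 76) (nat_lit 0) (XT.lf (nat_lit 0) (nat_lit 1272049231) (nat_lit 228) (nat_lit 4181830658) (nat_lit 76) (nat_lit 6640791622) (nat_lit 24) (nat_lit 5) (nat_lit 27) (nat_lit 5) (nat_lit 25) (nat_lit 4) (nat_lit 274) (nat_lit 256) (nat_lit 250)) (XT.lf (nat_lit 0) (nat_lit 9126722665) (nat_lit 152) (nat_lit 1853117476) (nat_lit 0) (nat_lit 2176785828) (nat_lit 23) (nat_lit 5) (nat_lit 25) (nat_lit 4) (nat_lit 23) (nat_lit 4) (nat_lit 275) (nat_lit 256) (nat_lit 249))) (XT.nd (nat_lit 78) (nat_lit 76) (nat_lit 0) (XT.lf (nat_lit 0) (nat_lit 123222565) (nat_lit 76) (nat_lit 3539876152) (nat_lit 152) (nat_lit 10702151442) (nat_lit 19) (nat_lit 5) (nat_lit 20) (nat_lit 5) (nat_lit 21) (nat_lit 4) (nat_lit 276) (nat_lit 256) (nat_lit 248)) (XT.lf (nat_lit 0) (nat_lit 1662719928) (nat_lit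 76) (nat_lit 10727631783) (nat_lit 76) (nat_lit 3347187248) (nat_lit 18) (nat_lit 4) (nat_lit 19) (nat_lit 5) (nat_lit 19) (nat_lit 4) (nat_lit 277) (nat_lit 256) (nat_lit 247))))) (XT.nd (nat_lit 234) (nat_lit 304) (nat_lit 0) (XT.nd (nat_lit 78) (nat_lit 228) (nat_lit 0) (XT.lf (nat_lit 0) (nat_lit 2467173197) (nat_lit 76) (nat_lit 2451072248) (nat_lit 152) (nat_lit 12382767984) (nat_lit 16) (nat_lit 5) (nat_lit 17) (nat_lit 5) (nat_lit 18) (nat_lit 4) (nat_lit 278) (nat_lit 256) (nat_lit 246)) (XT.nd (nat_lit 78) (nat_lit 152) (nat_lit 0) (XT.lf (nat_lit 0) (nat_lit 2208853369) (nat_lit 76) (nat_lit 12182831865) (nat_lit 76) (nat_lit 4687238690) (nat_lit 15) (nat_lit 4) (nat_lit 16) (nat_lit 5) (nat_lit 16) (nat_lit 4) (nat_lit 279) (nat_lit 256) (nat_lit 245)) (XT.lf (nat_lit 0) (nat_lit 616669802) (nat_lit 76) (nat_lit 3412150771) (nat_lit 152) (nat_lit 17080882480) (nat_lit 13) (nat_lit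 5) (nat_lit 14) (nat_lit 5) (nat_lit 15) (nat_lit 4) (nat_lit 280) (nat_lit 256) (nat_lit 244)))) (XT.nd (nat_lit 156) (nat_lit 228) (nat_lit 0) (XT.nd (nat_lit 78) (nat_lit 76) (nat_lit 0) (XT.lf (nat_lit 0) (nat_lit 14027012869) (nat_lit 152) (nat_lit 2765025084) (nat_lit 0) (nat_lit 6623267011) (nat_lit 13) (nat_lit 5) (nat_lit 15) (nat_lit 4) (nat_lit 13) (nat_lit 4) (nat_lit 281) (nat_lit 256) (nat_lit 243)) (XT.lf (nat_lit 0) (nat_lit 17714546850) (nat_lit 76) (nat_lit 7965529533) (nat_lit 76) (nat_lit 374369395) (nat_lit 12) (nat_lit 4) (nat_lit 13) (nat_lit 5) (nat_lit 13) (nat_lit 4) (nat_lit 282) (nat_lit 256) (nat_lit 242))) (XT.nd (nat_lit 78) (nat_lit 76) (nat_lit 0) (XT.lf (nat_lit 0) (nat_lit 9583370887) (nat_lit 152) (nat_lit 17076005593) (nat_lit 0) (nat_lit 2403621742) (nat_lit 10) (nat_lit 5) (nat_lit 12) (nat_lit 4) (nat_lit 10) (nat_lit 4) (nat_lit 283) (nat_lit 256)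 (nat_lit 241)) (XT.lf (nat_lit 0) (nat_lit 2638999142) (nat_lit 76) (nat_lit 18588454842) (nat_lit 76) (nat_lit 11277490770) (nat_lit 9) (nat_lit 4) (nat_lit 10) (nat_lit 5) (nat_lit 10) (nat_lit 4) (nat_lit 284) (nat_lit 256) (nat_lit 240))))))) (XT.nd (nat_lit 1014) (nat_lit 152) (nat_lit 0) (XT.nd (nat_lit 468) (nat_lit 76) (nat_lit 0) (XT.nd (nat_lit 234) (nat_lit 228) (nat_lit 0) (XT.nd (nat_lit 78) (nat_lit 152) (nat_lit 0) (XT.lf (nat_lit 0) (nat_lit 25777261325) (nat_lit 76) (nat_lit 9047271144) (nat_lit 76) (nat_lit 1622207136) (nat_lit 9) (nat_lit 4) (nat_lit 10) (nat_lit 5) (nat_lit 10) (nat_lit 4) (nat_lit 285) (nat_lit 256) (nat_lit 239)) (XT.nd (nat_lit 78) (nat_lit 0) (nat_lit 0) (XT.lf (nat_lit 0) (nat_lit 9071023153) (nat_lit 152) (nat_lit 29781380253) (nat_lit 0) (nat_lit 2104095982) (nat_lit 7) (nat_lit 5) (nat_lit 9) (nat_lit 4) (nat_lit 7) (nat_lit 4) (nat_lit 286)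 (nat_lit 256) (nat_lit 238)) (XT.lf (nat_lit 0) (nat_lit 21601562201) (nat_lit 152) (nat_lit 9956736951) (nat_lit 0) (nat_lit 14554749897) (nat_lit 7) (nat_lit 5) (nat_lit 9) (nat_lit 4) (nat_lit 7) (nat_lit 4) (nat_lit 287) (nat_lit 256) (nat_lit 237)))) (XT.nd (nat_lit 78) (nat_lit 152) (nat_lit 0) (XT.lf (nat_lit 0) (nat_lit 13080076109) (nat_lit 76) (nat_lit 23035505741) (nat_lit 76) (nat_lit 15919228103) (nat_lit 6) (nat_lit 4) (nat_lit 7) (nat_lit 5) (nat_lit 7) (nat_lit 4) (nat_lit 288) (nat_lit 256) (nat_lit 236)) (XT.nd (nat_lit 78) (nat_lit 152) (nat_lit 0) (XT.lf (nat_lit 0) (nat_lit 39794714969) (nat_lit 76) (nat_lit 13109517748) (nat_lit 76) (nat_lit 5932835472) (nat_lit 6) (nat_lit 4) (nat_lit 7) (nat_lit 5) (nat_lit 7) (nat_lit 4) (nat_lit 289) (nat_lit 256) (nat_lit 235)) (XT.lf (nat_lit 0) (nat_lit 3561466353) (nat_lit 76) (nat_lit 1626357878) (nat_lit 152) (nat_lit 61468066949)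 (nat_lit 4) (nat_lit 5) (nat_lit 5) (nat_lit 5) (nat_lit 6) (nat_lit 4) (nat_lit 290) (nat_lit 256) (nat_lit 234))))) (XT.nd (nat_lit 234) (nat_lit 76) (nat_lit 0) (XT.nd (nat_lit 78) (nat_lit 0) (nat_lit 0) (XT.lf (nat_lit 0) (nat_lit 18322108591) (nat_lit 152) (nat_lit 45671274466) (nat_lit 0) (nat_lit 11586106154) (nat_lit 4) (nat_lit 5) (nat_lit 6) (nat_lit 4) (nat_lit 4) (nat_lit 4) (nat_lit 291) (nat_lit 256) (nat_lit 233)) (XT.nd (nat_lit 78) (nat_lit 0) (nat_lit 0) (XT.lf (nat_lit 0) (nat_lit 33331993513) (nat_lit 152) (nat_lit 25958002341) (nat_lit 0) (nat_lit 26559216047) (nat_lit 4) (nat_lit 5) (nat_lit 6) (nat_lit 4) (nat_lit 4) (nat_lit 4) (nat_lit 292) (nat_lit 256) (nat_lit 232)) (XT.lf (nat_lit 0) (nat_lit 50472036711) (nat_lit 152) (nat_lit 3529800050) (nat_lit 0) (nat_lit 43667280960) (nat_lit 4) (nat_lit 5) (nat_lit 6) (nat_lit 4) (nat_lit 4) (nat_lit 4) (nat_lit 293)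 (nat_lit 256) (nat_lit 231)))) (XT.nd (nat_lit 156) (nat_lit 0) (nat_lit 0) (XT.nd (nat_lit 78) (nat_lit 0) (nat_lit 0) (XT.lf (nat_lit 0) (nat_lit 23213371936) (nat_lit 76) (nat_lit 47422497073) (nat_lit 76) (nat_lit 40589934118) (nat_lit 3) (nat_lit 4) (nat_lit 4) (nat_lit 5) (nat_lit 4) (nat_lit 4) (nat_lit 294) (nat_lit 256) (nat_lit 230)) (XT.lf (nat_lit 0) (nat_lit 53989102885) (nat_lit 76) (nat_lit 39841567137) (nat_lit 76) (nat_lit 32984824005) (nat_lit 3) (nat_lit 4) (nat_lit 4) (nat_lit 5) (nat_lit 4) (nat_lit 4) (nat_lit 295) (nat_lit 256) (nat_lit 229))) (XT.nd (nat_lit 78) (nat_lit 0) (nat_lit 0) (XT.lf (nat_lit 0) (nat_lit 89213653647) (nat_lit 76) (nat_lit 31207235401) (nat_lit 76) (nat_lit 24329466028) (nat_lit 3) (nat_lit 4) (nat_lit 4) (nat_lit 5) (nat_lit 4) (nat_lit 4) (nat_lit 296) (nat_lit 256) (nat_lit 228)) (XT.lf (nat_lit 0) (nat_lit 129576200214) (nat_lit 76)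 (nat_lit 21350569287) (nat_lit 76) (nat_lit 14454516226) (nat_lit 3) (nat_lit 4) (nat_lit 4) (nat_lit 5) (nat_lit 4) (nat_lit 4) (nat_lit 297) (nat_lit 256) (nat_lit 227)))))) (XT.nd (nat_lit 546) (nat_lit 0) (nat_lit 0) (XT.nd (nat_lit 234) (nat_lit 0) (nat_lit 0) (XT.nd (nat_lit 78) (nat_lit 152) (nat_lit 0) (XT.lf (nat_lit 0) (nat_lit 175866444584) (nat_lit 76) (nat_lit 10078720981) (nat_lit 76) (nat_lit 3166769060) (nat_lit 3) (nat_lit 4) (nat_lit 4) (nat_lit 5) (nat_lit 4) (nat_lit 4) (nat_lit 298) (nat_lit 256) (nat_lit 226)) (XT.nd (nat_lit 78) (nat_lit 0) (nat_lit 0) (XT.lf (nat_lit 0) (nat_lit 9661534104) (nat_lit 152) (nat_lit 203445927278) (nat_lit 0) (nat_lit 3248777607) (nat_lit 1) (nat_lit 5) (nat_lit 3) (nat_lit 4) (nat_lit 1) (nat_lit 4) (nat_lit 299) (nat_lit 256) (nat_lit 225)) (XT.lf (nat_lit 0) (nat_lit 24853398292) (nat_lit 152) (nat_lit 204347560582) (nat_lit 0) (nat_lit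 18429510480) (nat_lit 1) (nat_lit 5) (nat_lit 3) (nat_lit 4) (nat_lit 1) (nat_lit 4) (nat_lit 300) (nat_lit 256) (nat_lit 224)))) (XT.nd (nat_lit 156) (nat_lit 0) (nat_lit 0) (XT.nd (nat_lit 78) (nat_lit 0) (nat_lit 0) (XT.lf (nat_lit 0) (nat_lit 42278038060) (nat_lit 152) (nat_lit 205477011378) (nat_lit 0) (nat_lit 35844470841) (nat_lit 1) (nat_lit 5) (nat_lit 3) (nat_lit 4) (nat_lit 1) (nat_lit 4) (nat_lit 301) (nat_lit 256) (nat_lit 223)) (XT.lf (nat_lit 0) (nat_lit 62276370271) (nat_lit 152) (nat_lit 206856377616) (nat_lit 0) (nat_lit 55834386178) (nat_lit 1) (nat_lit 5) (nat_lit 3) (nat_lit 4) (nat_lit 1) (nat_lit 4) (nat_lit 302) (nat_lit 256) (nat_lit 222))) (XT.nd (nat_lit 78) (nat_lit 0) (nat_lit 0) (XT.lf (nat_lit 0) (nat_lit 85239666643) (nat_lit 152) (nat_lit 208512646896) (nat_lit 0) (nat_lit 78790363529) (nat_lit 1) (nat_lit 5) (nat_lit 3) (nat_lit 4) (nat_lit 1) (nat_lit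 4) (nat_lit 303) (nat_lit 256) (nat_lit 221)) (XT.lf (nat_lit 0) (nat_lit 111617209062) (nat_lit 152) (nat_lit 210478224487) (nat_lit 0) (nat_lit 105161541581) (nat_lit 1) (nat_lit 5) (nat_lit 3) (nat_lit 4) (nat_lit 1) (nat_lit 4) (nat_lit 304) (nat_lit 256) (nat_lit 220))))) (XT.nd (nat_lit 234) (nat_lit 0) (nat_lit 0) (XT.nd (nat_lit 78) (nat_lit 0) (nat_lit 0) (XT.lf (nat_lit 0) (nat_lit 141925079879) (nat_lit 152) (nat_lit 212791567342) (nat_lit 0) (nat_lit 135463878166) (nat_lit 1) (nat_lit 5) (nat_lit 3) (nat_lit 4) (nat_lit 1) (nat_lit 4) (nat_lit 305) (nat_lit 256) (nat_lit 219)) (XT.nd (nat_lit 78) (nat_lit 0) (nat_lit 0) (XT.lf (nat_lit 0) (nat_lit 176756259175) (nat_lit 152) (nat_lit 215497936516) (nat_lit 0) (nat_lit 170290245087) (nat_lit 1) (nat_lit 5) (nat_lit 3) (nat_lit 4) (nat_lit 1) (nat_lit 4) (nat_lit 306) (nat_lit 256) (nat_lit 218)) (XT.lf (nat_lit 0) (nat_lit 216792226546)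 (nat_lit 152) (nat_lit 218650282711) (nat_lit 0) (nat_lit 210322027784) (nat_lit 1) (nat_lit 5) (nat_lit 3) (nat_lit 4) (nat_lit 1) (nat_lit 4) (nat_lit 307) (nat_lit 256) (nat_lit 217)))) (XT.nd (nat_lit 156) (nat_lit 0) (nat_lit 0) (XT.nd (nat_lit 78) (nat_lit 0) (nat_lit 0) (XT.lf (nat_lit 0) (nat_lit 262816294396) (nat_lit 152) (nat_lit 222310282266) (nat_lit 0) (nat_lit 256342456787) (nat_lit 1) (nat_lit 5) (nat_lit 3) (nat_lit 4) (nat_lit 1) (nat_lit 4) (nat_lit 308) (nat_lit 256) (nat_lit 216)) (XT.lf (nat_lit 0) (nat_lit 315728933618) (nat_lit 152) (nat_lit 226549543867) (nat_lit 0) (nat_lit 309251931794) (nat_lit 1) (nat_lit 5) (nat_lit 3) (nat_lit 4) (nat_lit 1) (nat_lit 4) (nat_lit 309) (nat_lit 256) (nat_lit 215))) (XT.nd (nat_lit 78) (nat_lit 0) (nat_lit 0) (XT.lf (nat_lit 0) (nat_lit 376565391501) (nat_lit 152) (nat_lit 231451009589) (nat_lit 0) (nat_lit 370085638187) (nat_lit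 1) (nat_lit 5) (nat_lit 3) (nat_lit 4) (nat_lit 1) (nat_lit 4) (nat_lit 310) (nat_lit 256) (nat_lit 214)) (XT.lf (nat_lit 0) (nat_lit 446515946570) (nat_lit 152) (nat_lit 237110577675) (nat_lit 0) (nat_lit 440033800654) (nat_lit 1) (nat_lit 5) (nat_lit 3) (nat_lit 4) (nat_lit 1) (nat_lit 4) (nat_lit 311) (nat_lit 256) (nat_lit 213))))))))
noncomputable def xc19 : XT := (XT.nd (nat_lit 37674) (nat_lit 0) (nat_lit 0) (XT.nd (nat_lit 1014) (nat_lit 0) (nat_lit 0) (XT.nd (nat_lit 468) (nat_lit 0) (nat_lit 0) (XT.nd (nat_lit 234) (nat_lit 0) (nat_lit 0) (XT.nd (nat_lit 78) (nat_lit 0) (nat_lit 0) (XT.lf (nat_lit 0) (nat_lit 526949196640) (nat_lit 152) (nat_lit 243638978804) (nat_lit 0) (nat_lit 520464970202) (nat_lit 1) (nat_lit 5) (nat_lit 3) (nat_lit 4) (nat_lit 1) (nat_lit 4) (nat_lit 312) (nat_lit 256) (nat_lit 212)) (XT.nd (nat_lit 78) (nat_lit 0) (nat_lit 0) (XT.lf (nat_lit 0) (nat_lit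 619438835735) (nat_lit 152) (nat_lit 251163942564) (nat_lit 0) (nat_lit 612952800147) (nat_lit 1) (nat_lit 5) (nat_lit 3) (nat_lit 4) (nat_lit 1) (nat_lit 4) (nat_lit 313) (nat_lit 256) (nat_lit 211)) (XT.lf (nat_lit 0) (nat_lit 725794443750) (nat_lit 152) (nat_lit 259832696506) (nat_lit 0) (nat_lit 719306834988) (nat_lit 1) (nat_lit 5) (nat_lit 3) (nat_lit 4) (nat_lit 1) (nat_lit 4) (nat_lit 314) (nat_lit 256) (nat_lit 210)))) (XT.nd (nat_lit 78) (nat_lit 0) (nat_lit 0) (XT.lf (nat_lit 0) (nat_lit 848096891277) (nat_lit 152) (nat_lit 269814846687) (nat_lit 0) (nat_lit 841607914537) (nat_lit 1) (nat_lit 5) (nat_lit 3) (nat_lit 4) (nat_lit 1) (nat_lit 4) (nat_lit 315) (nat_lit 256) (nat_lit 209)) (XT.nd (nat_lit 78) (nat_lit 0) (nat_lit 0) (XT.lf (nat_lit 0) (nat_lit 988739052289) (nat_lit 152) (nat_lit 281305696044) (nat_lit 0) (nat_lit 982248886003) (nat_lit 1) (nat_lit 5) (nat_lit 3)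 (nat_lit 4) (nat_lit 1) (nat_lit 4) (nat_lit 316) (nat_lit 256) (nat_lit 208)) (XT.lf (nat_lit 0) (nat_lit 1150472621240) (nat_lit 152) (nat_lit 294530065543) (nat_lit 0) (nat_lit 1143981420567) (nat_lit 1) (nat_lit 5) (nat_lit 3) (nat_lit 4) (nat_lit 1) (nat_lit 4) (nat_lit 317) (nat_lit 256) (nat_lit 207))))) (XT.nd (nat_lit 234) (nat_lit 0) (nat_lit 0) (XT.nd (nat_lit 78) (nat_lit 0) (nat_lit 0) (XT.lf (nat_lit 0) (nat_lit 1336461950567) (nat_lit 152) (nat_lit 309746692848) (nat_lit 0) (nat_lit 1329969850427) (nat_lit 1) (nat_lit 5) (nat_lit 3) (nat_lit 4) (nat_lit 1) (nat_lit 4) (nat_lit 318) (nat_lit 256) (nat_lit 206)) (XT.nd (nat_lit 78) (nat_lit 0) (nat_lit 0) (XT.lf (nat_lit 0) (nat_lit 1550345961930) (nat_lit 152) (nat_lit 327253294581) (nat_lit 0) (nat_lit 1543853079645) (nat_lit 1) (nat_lit 5) (nat_lit 3) (nat_lit 4) (nat_lit 1) (nat_lit 4) (nat_lit 319) (nat_lit 256) (nat_lit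 205)) (XT.lf (nat_lit 0) (nat_lit 1796309342509) (nat_lit 152) (nat_lit 347392391209) (nat_lit 0) (nat_lit 1789815780097) (nat_lit 1) (nat_lit 5) (nat_lit 3) (nat_lit 4) (nat_lit 1) (nat_lit 4) (nat_lit 320) (nat_lit 256) (nat_lit 204)))) (XT.nd (nat_lit 156) (nat_lit 0) (nat_lit 0) (XT.nd (nat_lit 78) (nat_lit 0) (nat_lit 0) (XT.lf (nat_lit 0) (nat_lit 2079164419314) (nat_lit 152) (nat_lit 370558008537) (nat_lit 0) (nat_lit 2072670265487) (nat_lit 1) (nat_lit 5) (nat_lit 3) (nat_lit 4) (nat_lit 1) (nat_lit 4) (nat_lit 321) (nat_lit 256) (nat_lit 203)) (XT.lf (nat_lit 0) (nat_lit 2404445313414) (nat_lit 152) (nat_lit 397203386904) (nat_lit 0) (nat_lit 2397950645314) (nat_lit 1) (nat_lit 5) (nat_lit 3) (nat_lit 4) (nat_lit 1) (nat_lit 4) (nat_lit 322) (nat_lit 256) (nat_lit 202))) (XT.nd (nat_lit 78) (nat_lit 0) (nat_lit 0) (XT.lf (nat_lit 0) (nat_lit 2778516216214) (nat_lit 152) (nat_lit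 427849848930) (nat_lit 0) (nat_lit 2772021100920) (nat_lit 1) (nat_lit 5) (nat_lit 3) (nat_lit 4) (nat_lit 1) (nat_lit 4) (nat_lit 323) (nat_lit 256) (nat_lit 201)) (XT.lf (nat_lit 0) (nat_lit 3208695906248) (nat_lit 152) (nat_lit 463096999306) (nat_lit 0) (nat_lit 3202200402089) (nat_lit 1) (nat_lit 5) (nat_lit 3) (nat_lit 4) (nat_lit 1) (nat_lit 4) (nat_lit 324) (nat_lit 256) (nat_lit 200)))))) (XT.nd (nat_lit 36114) (nat_lit 0) (nat_lit 1976) (XT.nd (nat_lit 234) (nat_lit 0) (nat_lit 0) (XT.nd (nat_lit 78) (nat_lit 0) (nat_lit 0) (XT.lf (nat_lit 0) (nat_lit 3703400942669) (nat_lit 152) (nat_lit 503634456193) (nat_lit 0) (nat_lit 3696905100367) (nat_lit 1) (nat_lit 5) (nat_lit 3) (nat_lit 4) (nat_lit 1) (nat_lit 4) (nat_lit 325) (nat_lit 256) (nat_lit 199)) (XT.nd (nat_lit 78) (nat_lit 0) (nat_lit 0) (XT.lf (nat_lit 0) (nat_lit 4272310337059) (nat_lit 152) (nat_lit 550255343746) (nat_lit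 0) (nat_lit 4265814200719) (nat_lit 1) (nat_lit 5) (nat_lit 3) (nat_lit 4) (nat_lit 1) (nat_lit 4) (nat_lit 326) (nat_lit 256) (nat_lit 198)) (XT.lf (nat_lit 0) (nat_lit 4926554925394) (nat_lit 152) (nat_lit 603871809766) (nat_lit 0) (nat_lit 4920058533370) (nat_lit 1) (nat_lit 5) (nat_lit 3) (nat_lit 4) (nat_lit 1) (nat_lit 4) (nat_lit 327) (nat_lit 256) (nat_lit 197)))) (XT.nd (nat_lit 156) (nat_lit 0) (nat_lit 0) (XT.nd (nat_lit 78) (nat_lit 0) (nat_lit 0) (XT.lf (nat_lit 0) (nat_lit 5678935145274) (nat_lit 152) (nat_lit 665532872065) (nat_lit 0) (nat_lit 5672438530915) (nat_lit 1) (nat_lit 5) (nat_lit 3) (nat_lit 4) (nat_lit 1) (nat_lit 4) (nat_lit 328) (nat_lit 256) (nat_lit 196)) (XT.lf (nat_lit 0) (nat_lit 6544171479260) (nat_lit 152) (nat_lit 736444942734) (nat_lit 0) (nat_lit 6537674671567) (nat_lit 1) (nat_lit 5) (nat_lit 3) (nat_lit 4) (nat_lit 1) (nat_lit 4) (nat_lit 329) (nat_lit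 256) (nat_lit 195))) (XT.nd (nat_lit 35646) (nat_lit 0) (nat_lit 4256) (XT.lf (nat_lit 0) (nat_lit 7539192464322) (nat_lit 152) (nat_lit 817995431849) (nat_lit 0) (nat_lit 7532695488512) (nat_lit 1) (nat_lit 5) (nat_lit 3) (nat_lit 4) (nat_lit 1) (nat_lit 4) (nat_lit 330) (nat_lit 256) (nat_lit 194)) (XT.lf (nat_lit 0) (nat_lit 1405511697) (nat_lit 532) (nat_lit 851301881) (nat_lit 0) (nat_lit 1405511697) (nat_lit 57) (nat_lit 5) (nat_lit 64) (nat_lit 4) (nat_lit 57) (nat_lit 4) (nat_lit 266) (nat_lit 257) (nat_lit 257))))) (XT.nd (nat_lit 234) (nat_lit 1140) (nat_lit 0) (XT.nd (nat_lit 78) (nat_lit 456) (nat_lit 0) (XT.lf (nat_lit 0) (nat_lit 878128009) (nat_lit 228) (nat_lit 818499230) (nat_lit 304) (nat_lit 5965940625) (nat_lit 48) (nat_lit 5) (nat_lit 51) (nat_lit 5) (nat_lit 52) (nat_lit 4) (nat_lit 267) (nat_lit 257) (nat_lit 256)) (XT.nd (nat_lit 78) (nat_lit 152) (nat_lit 0) (XT.lf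 (nat_lit 0) (nat_lit 159932929) (nat_lit 304) (nat_lit 4256181531) (nat_lit 76) (nat_lit 3653257220) (nat_lit 44) (nat_lit 5) (nat_lit 48) (nat_lit 5) (nat_lit 45) (nat_lit 4) (nat_lit 268) (nat_lit 257) (nat_lit 255)) (XT.lf (nat_lit 0) (nat_lit 6495378639) (nat_lit 228) (nat_lit 1530937555) (nat_lit 0) (nat_lit 527976499) (nat_lit 42) (nat_lit 5) (nat_lit 45) (nat_lit 4) (nat_lit 42) (nat_lit 4) (nat_lit 269) (nat_lit 257) (nat_lit 254)))) (XT.nd (nat_lit 156) (nat_lit 456) (nat_lit 0) (XT.nd (nat_lit 78) (nat_lit 228) (nat_lit 0) (XT.lf (nat_lit 0) (nat_lit 1412437450) (nat_lit 152) (nat_lit 2853988078) (nat_lit 228) (nat_lit 4850890316) (nat_lit 36) (nat_lit 5) (nat_lit 38) (nat_lit 5) (nat_lit 39) (nat_lit 4) (nat_lit 270) (nat_lit 257) (nat_lit 253)) (XT.lf (nat_lit 0) (nat_lit 1432990592) (nat_lit 228) (nat_lit 5131547289) (nat_lit 76) (nat_lit 3204816255) (nat_lit 33) (nat_lit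 5) (nat_lit 36) (nat_lit 5) (nat_lit 34) (nat_lit 4) (nat_lit 271) (nat_lit 257) (nat_lit 252))) (XT.nd (nat_lit 78) (nat_lit 304) (nat_lit 0) (XT.lf (nat_lit 0) (nat_lit 8006983629) (nat_lit 152) (nat_lit 245601943) (nat_lit 228) (nat_lit 2266672739) (nat_lit 31) (nat_lit 5) (nat_lit 33) (nat_lit 5) (nat_lit 34) (nat_lit 4) (nat_lit 272) (nat_lit 257) (nat_lit 251)) (XT.lf (nat_lit 0) (nat_lit 41530095) (nat_lit 76) (nat_lit 4460343641) (nat_lit 152) (nat_lit 6869228351) (nat_lit 27) (nat_lit 5) (nat_lit 28) (nat_lit 5) (nat_lit 29) (nat_lit 4) (nat_lit 273) (nat_lit 257) (nat_lit 250))))))) (XT.nd (nat_lit 1092) (nat_lit 456) (nat_lit 0) (XT.nd (nat_lit 546) (nat_lit 608) (nat_lit 0) (XT.nd (nat_lit 234) (nat_lit 380) (nat_lit 0) (XT.nd (nat_lit 78) (nat_lit 380) (nat_lit 0) (XT.lf (nat_lit 0) (nat_lit 2743843806) (nat_lit 152) (nat_lit 9454441693) (nat_lit 152) (nat_lit 144381415) (nat_lit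 25) (nat_lit 4) (nat_lit 27) (nat_lit 5) (nat_lit 27) (nat_lit 4) (nat_lit 274) (nat_lit 257) (nat_lit 249)) (XT.nd (nat_lit 78) (nat_lit 228) (nat_lit 0) (XT.lf (nat_lit 0) (nat_lit 5220266000) (nat_lit 76) (nat_lit 2049012404) (nat_lit 152) (nat_lit 6171628737) (nat_lit 23) (nat_lit 5) (nat_lit 24) (nat_lit 5) (nat_lit 25) (nat_lit 4) (nat_lit 275) (nat_lit 257) (nat_lit 248)) (XT.lf (nat_lit 0) (nat_lit 1167864486) (nat_lit 228) (nat_lit 7212211311) (nat_lit 76) (nat_lit 6310547982) (nat_lit 20) (nat_lit 5) (nat_lit 23) (nat_lit 5) (nat_lit 21) (nat_lit 4) (nat_lit 276) (nat_lit 257) (nat_lit 247)))) (XT.nd (nat_lit 156) (nat_lit 152) (nat_lit 0) (XT.nd (nat_lit 78) (nat_lit 152) (nat_lit 0) (XT.lf (nat_lit 0) (nat_lit 9326268440) (nat_lit 152) (nat_lit 6765514727) (nat_lit 0) (nat_lit 16741716) (nat_lit 19) (nat_lit 5) (nat_lit 21) (nat_lit 4) (nat_lit 19) (nat_lit 4) (nat_lit 277)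 (nat_lit 257) (nat_lit 246)) (XT.lf (nat_lit 0) (nat_lit 1209735487) (nat_lit 152) (nat_lit 7125740209) (nat_lit 76) (nat_lit 9378838926) (nat_lit 17) (nat_lit 5) (nat_lit 19) (nat_lit 5) (nat_lit 18) (nat_lit 4) (nat_lit 278) (nat_lit 257) (nat_lit 245))) (XT.nd (nat_lit 78) (nat_lit 76) (nat_lit 0) (XT.lf (nat_lit 0) (nat_lit 10108199380) (nat_lit 152) (nat_lit 8517349864) (nat_lit 0) (nat_lit 912747024) (nat_lit 16) (nat_lit 5) (nat_lit 18) (nat_lit 4) (nat_lit 16) (nat_lit 4) (nat_lit 279) (nat_lit 257) (nat_lit 244)) (XT.lf (nat_lit 0) (nat_lit 10296694263) (nat_lit 76) (nat_lit 10370729570) (nat_lit 76) (nat_lit 942508678) (nat_lit 15) (nat_lit 4) (nat_lit 16) (nat_lit 5) (nat_lit 16) (nat_lit 4) (nat_lit 280) (nat_lit 257) (nat_lit 243))))) (XT.nd (nat_lit 234) (nat_lit 304) (nat_lit 0) (XT.nd (nat_lit 78) (nat_lit 152) (nat_lit 0) (XT.lf (nat_lit 0) (nat_lit 8014044274) (nat_lit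 76) (nat_lit 468971392) (nat_lit 152) (nat_lit 15483968594) (nat_lit 13) (nat_lit 5) (nat_lit 14) (nat_lit 5) (nat_lit 15) (nat_lit 4) (nat_lit 281) (nat_lit 257) (nat_lit 242)) (XT.nd (nat_lit 78) (nat_lit 76) (nat_lit 0) (XT.lf (nat_lit 0) (nat_lit 3546277142) (nat_lit 76) (nat_lit 16090045176) (nat_lit 76) (nat_lit 7009827798) (nat_lit 12) (nat_lit 4) (nat_lit 13) (nat_lit 5) (nat_lit 13) (nat_lit 4) (nat_lit 282) (nat_lit 257) (nat_lit 241)) (XT.lf (nat_lit 0) (nat_lit 2790901610) (nat_lit 152) (nat_lit 3416854148) (nat_lit 76) (nat_lit 23498864731) (nat_lit 11) (nat_lit 5) (nat_lit 13) (nat_lit 5) (nat_lit 12) (nat_lit 4) (nat_lit 283) (nat_lit 257) (nat_lit 240)))) (XT.nd (nat_lit 156) (nat_lit 152) (nat_lit 0) (XT.nd (nat_lit 78) (nat_lit 76) (nat_lit 0) (XT.lf (nat_lit 0) (nat_lit 14004584698) (nat_lit 152) (nat_lit 13826784321) (nat_lit 0) (nat_lit 5351661152) (nat_lit 10) (nat_lit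 5) (nat_lit 12) (nat_lit 4) (nat_lit 10) (nat_lit 4) (nat_lit 284) (nat_lit 257) (nat_lit 239)) (XT.lf (nat_lit 0) (nat_lit 8353630904) (nat_lit 76) (nat_lit 18780386860) (nat_lit 76) (nat_lit 10028245978) (nat_lit 9) (nat_lit 4) (nat_lit 10) (nat_lit 5) (nat_lit 10) (nat_lit 4) (nat_lit 285) (nat_lit 257) (nat_lit 238))) (XT.nd (nat_lit 78) (nat_lit 76) (nat_lit 0) (XT.lf (nat_lit 0) (nat_lit 657135099) (nat_lit 152) (nat_lit 7471575819) (nat_lit 76) (nat_lit 33593775917) (nat_lit 8) (nat_lit 5) (nat_lit 10) (nat_lit 5) (nat_lit 9) (nat_lit 4) (nat_lit 286) (nat_lit 257) (nat_lit 237)) (XT.lf (nat_lit 0) (nat_lit 12700122526) (nat_lit 152) (nat_lit 29770999156) (nat_lit 0) (nat_lit 4446937909) (nat_lit 7) (nat_lit 5) (nat_lit 9) (nat_lit 4) (nat_lit 7) (nat_lit 4) (nat_lit 287) (nat_lit 257) (nat_lit 236)))))) (XT.nd (nat_lit 546) (nat_lit 228) (nat_lit 0) (XT.nd (nat_lit 234) (nat_lit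 152) (nat_lit 0) (XT.nd (nat_lit 78) (nat_lit 76) (nat_lit 0) (XT.lf (nat_lit 0) (nat_lit 26814358184) (nat_lit 152) (nat_lit 7556692593) (nat_lit 0) (nat_lit 18500768929) (nat_lit 7) (nat_lit 5) (nat_lit 9) (nat_lit 4) (nat_lit 7) (nat_lit 4) (nat_lit 288) (nat_lit 257) (nat_lit 235)) (XT.nd (nat_lit 78) (nat_lit 0) (nat_lit 0) (XT.lf (nat_lit 0) (nat_lit 18606072396) (nat_lit 76) (nat_lit 24727831656) (nat_lit 76) (nat_lit 16361716629) (nat_lit 6) (nat_lit 4) (nat_lit 7) (nat_lit 5) (nat_lit 7) (nat_lit 4) (nat_lit 289) (nat_lit 257) (nat_lit 234)) (XT.lf (nat_lit 0) (nat_lit 48863039494) (nat_lit 76) (nat_lit 13542901978) (nat_lit 76) (nat_lit 5131112367) (nat_lit 6) (nat_lit 4) (nat_lit 7) (nat_lit 5) (nat_lit 7) (nat_lit 4) (nat_lit 290) (nat_lit 257) (nat_lit 233)))) (XT.nd (nat_lit 156) (nat_lit 0) (nat_lit 0) (XT.nd (nat_lit 78) (nat_lit 0) (nat_lit 0) (XT.lf (nat_lit 0) (nat_lit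 7010183587) (nat_lit 76) (nat_lit 423321330) (nat_lit 152) (nat_lit 69103136951) (nat_lit 4) (nat_lit 5) (nat_lit 5) (nat_lit 5) (nat_lit 6) (nat_lit 4) (nat_lit 291) (nat_lit 257) (nat_lit 232)) (XT.lf (nat_lit 0) (nat_lit 22376778968) (nat_lit 152) (nat_lit 49915591619) (nat_lit 0) (nat_lit 14519331571) (nat_lit 4) (nat_lit 5) (nat_lit 6) (nat_lit 4) (nat_lit 4) (nat_lit 4) (nat_lit 292) (nat_lit 257) (nat_lit 231))) (XT.nd (nat_lit 78) (nat_lit 0) (nat_lit 0) (XT.lf (nat_lit 0) (nat_lit 39467752616) (nat_lit 152) (nat_lit 27585290503) (nat_lit 0) (nat_lit 31582498015) (nat_lit 4) (nat_lit 5) (nat_lit 6) (nat_lit 4) (nat_lit 4) (nat_lit 4) (nat_lit 293) (nat_lit 257) (nat_lit 230)) (XT.lf (nat_lit 0) (nat_lit 59030633588) (nat_lit 152) (nat_lit 2088476850) (nat_lit 0) (nat_lit 51121198809) (nat_lit 4) (nat_lit 5) (nat_lit 6) (nat_lit 4) (nat_lit 4) (nat_lit 4) (nat_lit 294) (nat_lit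 257) (nat_lit 229))))) (XT.nd (nat_lit 234) (nat_lit 152) (nat_lit 0) (XT.nd (nat_lit 78) (nat_lit 0) (nat_lit 0) (XT.lf (nat_lit 0) (nat_lit 28499353106) (nat_lit 76) (nat_lit 53634230924) (nat_lit 76) (nat_lit 45703769903) (nat_lit 3) (nat_lit 4) (nat_lit 4) (nat_lit 5) (nat_lit 4) (nat_lit 4) (nat_lit 295) (nat_lit 257) (nat_lit 228)) (XT.nd (nat_lit 78) (nat_lit 0) (nat_lit 0) (XT.lf (nat_lit 0) (nat_lit 63656142561) (nat_lit 76) (nat_lit 45033766808) (nat_lit 76) (nat_lit 37085022099) (nat_lit 3) (nat_lit 4) (nat_lit 4) (nat_lit 5) (nat_lit 4) (nat_lit 4) (nat_lit 296) (nat_lit 257) (nat_lit 227)) (XT.lf (nat_lit 0) (nat_lit 103959766253) (nat_lit 76) (nat_lit 35206550799) (nat_lit 76) (nat_lit 27241907230) (nat_lit 3) (nat_lit 4) (nat_lit 4) (nat_lit 5) (nat_lit 4) (nat_lit 4) (nat_lit 297) (nat_lit 257) (nat_lit 226)))) (XT.nd (nat_lit 156) (nat_lit 152) (nat_lit 0) (XT.nd (nat_lit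 78) (nat_lit 0) (nat_lit 0) (XT.lf (nat_lit 0) (nat_lit 150198773340) (nat_lit 76) (nat_lit 23960311279) (nat_lit 76) (nat_lit 15981842615) (nat_lit 3) (nat_lit 4) (nat_lit 4) (nat_lit 5) (nat_lit 4) (nat_lit 4) (nat_lit 298) (nat_lit 257) (nat_lit 225)) (XT.lf (nat_lit 0) (nat_lit 203277840050) (nat_lit 76) (nat_lit 11075013126) (nat_lit 76) (nat_lit 3084522641) (nat_lit 3) (nat_lit 4) (nat_lit 4) (nat_lit 5) (nat_lit 4) (nat_lit 4) (nat_lit 299) (nat_lit 257) (nat_lit 224))) (XT.nd (nat_lit 78) (nat_lit 0) (nat_lit 0) (XT.lf (nat_lit 0) (nat_lit 11606110147) (nat_lit 152) (nat_lit 232966047401) (nat_lit 0) (nat_lit 4197828441) (nat_lit 1) (nat_lit 5) (nat_lit 3) (nat_lit 4) (nat_lit 1) (nat_lit 4) (nat_lit 300) (nat_lit 257) (nat_lit 223)) (XT.lf (nat_lit 0) (nat_lit 29012143626) (nat_lit 152) (nat_lit 234132939044) (nat_lit 0) (nat_lit 21595445044) (nat_lit 1) (nat_lit 5) (nat_lit 3)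 (nat_lit 4) (nat_lit 1) (nat_lit 4) (nat_lit 301) (nat_lit 257) (nat_lit 222))))))))
noncomputable def xc20 : XT := (XT.nd (nat_lit 2106) (nat_lit 0) (nat_lit 0) (XT.nd (nat_lit 1014) (nat_lit 0) (nat_lit 0) (XT.nd (nat_lit 468) (nat_lit 0) (nat_lit 0) (XT.nd (nat_lit 234) (nat_lit 0) (nat_lit 0) (XT.nd (nat_lit 78) (nat_lit 0) (nat_lit 0) (XT.lf (nat_lit 0) (nat_lit 48994296455) (nat_lit 152) (nat_lit 235544862541) (nat_lit 0) (nat_lit 41570278853) (nat_lit 1) (nat_lit 5) (nat_lit 3) (nat_lit 4) (nat_lit 1) (nat_lit 4) (nat_lit 302) (nat_lit 257) (nat_lit 221)) (XT.nd (nat_lit 78) (nat_lit 0) (nat_lit 0) (XT.lf (nat_lit 0) (nat_lit 71943523800) (nat_lit 152) (nat_lit 237229442481) (nat_lit 0) (nat_lit 64513141831) (nat_lit 1) (nat_lit 5) (nat_lit 3) (nat_lit 4) (nat_lit 1) (nat_lit 4) (nat_lit 303) (nat_lit 257) (nat_lit 220)) (XT.lf (nat_lit 0) (nat_lit 98308832281) (nat_lit 152) (nat_lit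 239219638037) (nat_lit 0) (nat_lit 90872916081) (nat_lit 1) (nat_lit 5) (nat_lit 3) (nat_lit 4) (nat_lit 1) (nat_lit 4) (nat_lit 304) (nat_lit 257) (nat_lit 219)))) (XT.nd (nat_lit 78) (nat_lit 0) (nat_lit 0) (XT.lf (nat_lit 0) (nat_lit 128606064892) (nat_lit 152) (nat_lit 241554387818) (nat_lit 0) (nat_lit 121165336316) (nat_lit 1) (nat_lit 5) (nat_lit 3) (nat_lit 4) (nat_lit 1) (nat_lit 4) (nat_lit 305) (nat_lit 257) (nat_lit 218)) (XT.nd (nat_lit 78) (nat_lit 0) (nat_lit 0) (XT.lf (nat_lit 0) (nat_lit 163427993575) (nat_lit 152) (nat_lit 244279371711) (nat_lit 0) (nat_lit 155983080325) (nat_lit 1) (nat_lit 5) (nat_lit 3) (nat_lit 4) (nat_lit 1) (nat_lit 4) (nat_lit 306) (nat_lit 257) (nat_lit 217)) (XT.lf (nat_lit 0) (nat_lit 203455916933) (nat_lit 152) (nat_lit 247447904618) (nat_lit 0) (nat_lit 196007364836) (nat_lit 1) (nat_lit 5) (nat_lit 3) (nat_lit 4) (nat_lit 1) (nat_lit 4) (nat_lit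 307) (nat_lit 257) (nat_lit 216))))) (XT.nd (nat_lit 234) (nat_lit 0) (nat_lit 0) (XT.nd (nat_lit 78) (nat_lit 0) (nat_lit 0) (XT.lf (nat_lit 0) (nat_lit 249472989990) (nat_lit 152) (nat_lit 251121979574) (nat_lit 0) (nat_lit 242021273678) (nat_lit 1) (nat_lit 5) (nat_lit 3) (nat_lit 4) (nat_lit 1) (nat_lit 4) (nat_lit 308) (nat_lit 257) (nat_lit 215)) (XT.nd (nat_lit 78) (nat_lit 0) (nat_lit 0) (XT.lf (nat_lit 0) (nat_lit 302379546783) (nat_lit 152) (nat_lit 255373480654) (nat_lit 0) (nat_lit 294925078980) (nat_lit 1) (nat_lit 5) (nat_lit 3) (nat_lit 4) (nat_lit 1) (nat_lit 4) (nat_lit 309) (nat_lit 257) (nat_lit 214)) (XT.lf (nat_lit 0) (nat_lit 363210715598) (nat_lit 152) (nat_lit 260285589402) (nat_lit 0) (nat_lit 355753855194) (nat_lit 1) (nat_lit 5) (nat_lit 3) (nat_lit 4) (nat_lit 1) (nat_lit 4) (nat_lit 310) (nat_lit 257) (nat_lit 213)))) (XT.nd (nat_lit 156) (nat_lit 0) (nat_lit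 0) (XT.nd (nat_lit 78) (nat_lit 0) (nat_lit 0) (XT.lf (nat_lit 0) (nat_lit 433156671477) (nat_lit 152) (nat_lit 265954412293) (nat_lit 0) (nat_lit 425697730550) (nat_lit 1) (nat_lit 5) (nat_lit 3) (nat_lit 4) (nat_lit 1) (nat_lit 4) (nat_lit 311) (nat_lit 257) (nat_lit 212)) (XT.lf (nat_lit 0) (nat_lit 513585922251) (nat_lit 152) (nat_lit 272490861078) (nat_lit 0) (nat_lit 506125172174) (nat_lit 1) (nat_lit 5) (nat_lit 3) (nat_lit 4) (nat_lit 1) (nat_lit 4) (nat_lit 312) (nat_lit 257) (nat_lit 211))) (XT.nd (nat_lit 78) (nat_lit 0) (nat_lit 0) (XT.lf (nat_lit 0) (nat_lit 606072083698) (nat_lit 152) (nat_lit 280022822801) (nat_lit 0) (nat_lit 598609760447) (nat_lit 1) (nat_lit 5) (nat_lit 3) (nat_lit 4) (nat_lit 1) (nat_lit 4) (nat_lit 313) (nat_lit 257) (nat_lit 210)) (XT.lf (nat_lit 0) (nat_lit 712424667671) (nat_lit 152) (nat_lit 288697661928) (nat_lit 0) (nat_lit 704960976442) (nat_lit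 1) (nat_lit 5) (nat_lit 3) (nat_lit 4) (nat_lit 1) (nat_lit 4) (nat_lit 314) (nat_lit 257) (nat_lit 209)))))) (XT.nd (nat_lit 546) (nat_lit 0) (nat_lit 0) (XT.nd (nat_lit 234) (nat_lit 0) (nat_lit 0) (XT.nd (nat_lit 78) (nat_lit 0) (nat_lit 0) (XT.lf (nat_lit 0) (nat_lit 834724485596) (nat_lit 152) (nat_lit 298685103573) (nat_lit 0) (nat_lit 827259604822) (nat_lit 1) (nat_lit 5) (nat_lit 3) (nat_lit 4) (nat_lit 1) (nat_lit 4) (nat_lit 315) (nat_lit 257) (nat_lit 208)) (XT.nd (nat_lit 78) (nat_lit 0) (nat_lit 0) (XT.lf (nat_lit 0) (nat_lit 975364359997) (nat_lit 152) (nat_lit 310180554204) (nat_lit 0) (nat_lit 967898444836) (nat_lit 1) (nat_lit 5) (nat_lit 3) (nat_lit 4) (nat_lit 1) (nat_lit 4) (nat_lit 316) (nat_lit 257) (nat_lit 207)) (XT.lf (nat_lit 0) (nat_lit 1137095940592) (nat_lit 152) (nat_lit 323408924810) (nat_lit 0) (nat_lit 1129629125963) (nat_lit 1) (nat_lit 5) (nat_lit 3)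 (nat_lit 4) (nat_lit 1) (nat_lit 4) (nat_lit 317) (nat_lit 257) (nat_lit 206)))) (XT.nd (nat_lit 156) (nat_lit 0) (nat_lit 0) (XT.nd (nat_lit 78) (nat_lit 0) (nat_lit 0) (XT.lf (nat_lit 0) (nat_lit 1323083540913) (nat_lit 152) (nat_lit 338629031340) (nat_lit 0) (nat_lit 1315615944138) (nat_lit 1) (nat_lit 5) (nat_lit 3) (nat_lit 4) (nat_lit 1) (nat_lit 4) (nat_lit 318) (nat_lit 257) (nat_lit 205)) (XT.lf (nat_lit 0) (nat_lit 1536966048793) (nat_lit 152) (nat_lit 356138658484) (nat_lit 0) (nat_lit 1529497771892) (nat_lit 1) (nat_lit 5) (nat_lit 3) (nat_lit 4) (nat_lit 1) (nat_lit 4) (nat_lit 319) (nat_lit 257) (nat_lit 204))) (XT.nd (nat_lit 78) (nat_lit 0) (nat_lit 0) (XT.lf (nat_lit 0) (nat_lit 1782928121994) (nat_lit 152) (nat_lit 376280385906) (nat_lit 0) (nat_lit 1775459253679) (nat_lit 1) (nat_lit 5) (nat_lit 3) (nat_lit 4) (nat_lit 1) (nat_lit 4) (nat_lit 320) (nat_lit 257) (nat_lit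 203)) (XT.lf (nat_lit 0) (nat_lit 2065782061950) (nat_lit 152) (nat_lit 399448290880) (nat_lit 0) (nat_lit 2058312679362) (nat_lit 1) (nat_lit 5) (nat_lit 3) (nat_lit 4) (nat_lit 1) (nat_lit 4) (nat_lit 321) (nat_lit 257) (nat_lit 202))))) (XT.nd (nat_lit 234) (nat_lit 0) (nat_lit 0) (XT.nd (nat_lit 78) (nat_lit 0) (nat_lit 0) (XT.lf (nat_lit 0) (nat_lit 2391061967485) (nat_lit 152) (nat_lit 426095658505) (nat_lit 0) (nat_lit 2383592137702) (nat_lit 1) (nat_lit 5) (nat_lit 3) (nat_lit 4) (nat_lit 1) (nat_lit 4) (nat_lit 322) (nat_lit 257) (nat_lit 201)) (XT.nd (nat_lit 78) (nat_lit 0) (nat_lit 0) (XT.lf (nat_lit 0) (nat_lit 2765132010664) (nat_lit 152) (nat_lit 456743850320) (nat_lit 0) (nat_lit 2757661792016) (nat_lit 1) (nat_lit 5) (nat_lit 3) (nat_lit 4) (nat_lit 1) (nat_lit 4) (nat_lit 323) (nat_lit 257) (nat_lit 200)) (XT.lf (nat_lit 0) (nat_lit 3195310953201) (nat_lit 152) (nat_lit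 491992504860) (nat_lit 0) (nat_lit 3187840396411) (nat_lit 1) (nat_lit 5) (nat_lit 3) (nat_lit 4) (nat_lit 1) (nat_lit 4) (nat_lit 324) (nat_lit 257) (nat_lit 199)))) (XT.nd (nat_lit 156) (nat_lit 0) (nat_lit 0) (XT.nd (nat_lit 78) (nat_lit 0) (nat_lit 0) (XT.lf (nat_lit 0) (nat_lit 3690015339624) (nat_lit 152) (nat_lit 532531269716) (nat_lit 0) (nat_lit 3682544488797) (nat_lit 1) (nat_lit 5) (nat_lit 3) (nat_lit 4) (nat_lit 1) (nat_lit 4) (nat_lit 325) (nat_lit 257) (nat_lit 198)) (XT.lf (nat_lit 0) (nat_lit 4258924168799) (nat_lit 152) (nat_lit 579153294634) (nat_lit 0) (nat_lit 4251453062286) (nat_lit 1) (nat_lit 5) (nat_lit 3) (nat_lit 4) (nat_lit 1) (nat_lit 4) (nat_lit 326) (nat_lit 257) (nat_lit 197))) (XT.nd (nat_lit 78) (nat_lit 0) (nat_lit 0) (XT.lf (nat_lit 0) (nat_lit 4913168265643) (nat_lit 152) (nat_lit 632770749666) (nat_lit 0) (nat_lit 4905696936796) (nat_lit 1) (nat_lit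 5) (nat_lit 3) (nat_lit 4) (nat_lit 1) (nat_lit 4) (nat_lit 327) (nat_lit 257) (nat_lit 196)) (XT.lf (nat_lit 0) (nat_lit 5665548058139) (nat_lit 152) (nat_lit 694432671977) (nat_lit 0) (nat_lit 5658076535957) (nat_lit 1) (nat_lit 5) (nat_lit 3) (nat_lit 4) (nat_lit 1) (nat_lit 4) (nat_lit 328) (nat_lit 257) (nat_lit 195))))))) (XT.nd (nat_lit 36426) (nat_lit 0) (nat_lit 456) (XT.nd (nat_lit 35880) (nat_lit 0) (nat_lit 1976) (XT.nd (nat_lit 35646) (nat_lit 0) (nat_lit 3800) (XT.nd (nat_lit 78) (nat_lit 0) (nat_lit 0) (XT.lf (nat_lit 0) (nat_lit 6530784020487) (nat_lit 152) (nat_lit 765345490481) (nat_lit 0) (nat_lit 6523312330188) (nat_lit 1) (nat_lit 5) (nat_lit 3) (nat_lit 4) (nat_lit 1) (nat_lit 4) (nat_lit 329) (nat_lit 257) (nat_lit 194)) (XT.nd (nat_lit 35490) (nat_lit 0) (nat_lit 5168) (XT.lf (nat_lit 0) (nat_lit 7525804682385) (nat_lit 152) (nat_lit 846896629888) (nat_lit 0) (nat_lit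 7518332845898) (nat_lit 1) (nat_lit 5) (nat_lit 3) (nat_lit 4) (nat_lit 1) (nat_lit 4) (nat_lit 330) (nat_lit 257) (nat_lit 193)) (XT.lf (nat_lit 0) (nat_lit 361669021) (nat_lit 380) (nat_lit 2691860871) (nat_lit 0) (nat_lit 361669021) (nat_lit 69) (nat_lit 5) (nat_lit 74) (nat_lit 4) (nat_lit 69) (nat_lit 4) (nat_lit 264) (nat_lit 258) (nat_lit 258)))) (XT.nd (nat_lit 78) (nat_lit 988) (nat_lit 0) (XT.lf (nat_lit 0) (nat_lit 3138556874) (nat_lit 380) (nat_lit 3606516846) (nat_lit 380) (nat_lit 314152888) (nat_lit 64) (nat_lit 4) (nat_lit 69) (nat_lit 5) (nat_lit 69) (nat_lit 4) (nat_lit 265) (nat_lit 258) (nat_lit 257)) (XT.nd (nat_lit 78) (nat_lit 456) (nat_lit 0) (XT.lf (nat_lit 0) (nat_lit 5190844086) (nat_lit 456) (nat_lit 264027656) (nat_lit 532) (nat_lit 1902873461) (nat_lit 57) (nat_lit 5) (nat_lit 63) (nat_lit 5) (nat_lit 64) (nat_lit 4) (nat_lit 266) (nat_lit 258) (nat_lit 256))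 (XT.lf (nat_lit 0) (nat_lit 3759648534) (nat_lit 456) (nat_lit 184365581) (nat_lit 76) (nat_lit 3780578556) (nat_lit 51) (nat_lit 5) (nat_lit 57) (nat_lit 5) (nat_lit 52) (nat_lit 4) (nat_lit 267) (nat_lit 258) (nat_lit 255))))) (XT.nd (nat_lit 234) (nat_lit 836) (nat_lit 0) (XT.nd (nat_lit 78) (nat_lit 456) (nat_lit 0) (XT.lf (nat_lit 0) (nat_lit 1591274495) (nat_lit 304) (nat_lit 5957614790) (nat_lit 76) (nat_lit 616690999) (nat_lit 44) (nat_lit 5) (nat_lit 48) (nat_lit 5) (nat_lit 45) (nat_lit 4) (nat_lit 268) (nat_lit 258) (nat_lit 254)) (XT.nd (nat_lit 78) (nat_lit 304) (nat_lit 0) (XT.lf (nat_lit 0) (nat_lit 4816158122) (nat_lit 152) (nat_lit 2730714673) (nat_lit 228) (nat_lit 1134424259) (nat_lit 42) (nat_lit 5) (nat_lit 44) (nat_lit 5) (nat_lit 45) (nat_lit 4) (nat_lit 269) (nat_lit 258) (nat_lit 253)) (XT.lf (nat_lit 0) (nat_lit 4682971287) (nat_lit 304) (nat_lit 1634145520) (nat_lit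 76) (nat_lit 2962688938) (nat_lit 38) (nat_lit 5) (nat_lit 42) (nat_lit 5) (nat_lit 39) (nat_lit 4) (nat_lit 270) (nat_lit 258) (nat_lit 252)))) (XT.nd (nat_lit 156) (nat_lit 304) (nat_lit 0) (XT.nd (nat_lit 78) (nat_lit 152) (nat_lit 0) (XT.lf (nat_lit 0) (nat_lit 815959536) (nat_lit 152) (nat_lit 361827992) (nat_lit 228) (nat_lit 8793556177) (nat_lit 33) (nat_lit 5) (nat_lit 35) (nat_lit 5) (nat_lit 36) (nat_lit 5) (nat_lit 271) (nat_lit 258) (nat_lit 251)) (XT.lf (nat_lit 0) (nat_lit 3366652822) (nat_lit 152) (nat_lit 4255844906) (nat_lit 228) (nat_lit 3128970911) (nat_lit 31) (nat_lit 5) (nat_lit 33) (nat_lit 5) (nat_lit 34) (nat_lit 4) (nat_lit 272) (nat_lit 258) (nat_lit 250))) (XT.nd (nat_lit 78) (nat_lit 76) (nat_lit 0) (XT.lf (nat_lit 0) (nat_lit 3209562841) (nat_lit 228) (nat_lit 5619701978) (nat_lit 76) (nat_lit 2813743694) (nat_lit 28) (nat_lit 5) (nat_lit 31) (nat_lit 5) (nat_lit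 29) (nat_lit 4) (nat_lit 273) (nat_lit 258) (nat_lit 249)) (XT.lf (nat_lit 0) (nat_lit 8700761239) (nat_lit 76) (nat_lit 1699867874) (nat_lit 152) (nat_lit 2254532880) (nat_lit 27) (nat_lit 5) (nat_lit 28) (nat_lit 5) (nat_lit 29) (nat_lit 4) (nat_lit 274) (nat_lit 258) (nat_lit 248)))))) (XT.nd (nat_lit 546) (nat_lit 532) (nat_lit 0) (XT.nd (nat_lit 234) (nat_lit 456) (nat_lit 0) (XT.nd (nat_lit 78) (nat_lit 304) (nat_lit 0) (XT.lf (nat_lit 0) (nat_lit 4782157962) (nat_lit 228) (nat_lit 2540538203) (nat_lit 76) (nat_lit 6473497815) (nat_lit 24) (nat_lit 5) (nat_lit 27) (nat_lit 5) (nat_lit 25) (nat_lit 4) (nat_lit 275) (nat_lit 258) (nat_lit 247)) (XT.nd (nat_lit 78) (nat_lit 228) (nat_lit 0) (XT.lf (nat_lit 0) (nat_lit 12864735390) (nat_lit 152) (nat_lit 1339909105) (nat_lit 0) (nat_lit 889383781) (nat_lit 23) (nat_lit 5) (nat_lit 25) (nat_lit 4) (nat_lit 23) (nat_lit 4) (nat_lit 276)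 (nat_lit 258) (nat_lit 246)) (XT.lf (nat_lit 0) (nat_lit 5596938488) (nat_lit 228) (nat_lit 692779916) (nat_lit 76) (nat_lit 10262086172) (nat_lit 20) (nat_lit 5) (nat_lit 23) (nat_lit 5) (nat_lit 21) (nat_lit 4) (nat_lit 277) (nat_lit 258) (nat_lit 245)))) (XT.nd (nat_lit 156) (nat_lit 228) (nat_lit 0) (XT.nd (nat_lit 78) (nat_lit 152) (nat_lit 0) (XT.lf (nat_lit 0) (nat_lit 14665933952) (nat_lit 152) (nat_lit 585700889) (nat_lit 0) (nat_lit 2956083604) (nat_lit 19) (nat_lit 5) (nat_lit 21) (nat_lit 4) (nat_lit 19) (nat_lit 4) (nat_lit 278) (nat_lit 258) (nat_lit 244)) (XT.lf (nat_lit 0) (nat_lit 5070927365) (nat_lit 152) (nat_lit 1413711446) (nat_lit 76) (nat_lit 13590973345) (nat_lit 17) (nat_lit 5) (nat_lit 19) (nat_lit 5) (nat_lit 18) (nat_lit 4) (nat_lit 279) (nat_lit 258) (nat_lit 243))) (XT.nd (nat_lit 78) (nat_lit 152) (nat_lit 0) (XT.lf (nat_lit 0) (nat_lit 15042204498) (nat_lit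 152) (nat_lit 3387560430) (nat_lit 0) (nat_lit 3764574515) (nat_lit 16) (nat_lit 5) (nat_lit 18) (nat_lit 4) (nat_lit 16) (nat_lit 4) (nat_lit 280) (nat_lit 258) (nat_lit 242)) (XT.lf (nat_lit 0) (nat_lit 2165282824) (nat_lit 152) (nat_lit 6949848161) (nat_lit 76) (nat_lit 15481751010) (nat_lit 14) (nat_lit 5) (nat_lit 16) (nat_lit 5) (nat_lit 15) (nat_lit 4) (nat_lit 281) (nat_lit 258) (nat_lit 241))))) (XT.nd (nat_lit 234) (nat_lit 228) (nat_lit 0) (XT.nd (nat_lit 78) (nat_lit 228) (nat_lit 0) (XT.lf (nat_lit 0) (nat_lit 12716383923) (nat_lit 152) (nat_lit 12638426183) (nat_lit 0) (nat_lit 1969452878) (nat_lit 13) (nat_lit 5) (nat_lit 15) (nat_lit 4) (nat_lit 13) (nat_lit 4) (nat_lit 282) (nat_lit 258) (nat_lit 240)) (XT.nd (nat_lit 78) (nat_lit 152) (nat_lit 0) (XT.lf (nat_lit 0) (nat_lit 9290693200) (nat_lit 76) (nat_lit 16002425858) (nat_lit 76) (nat_lit 5132266883) (nat_lit 12) (nat_lit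 4) (nat_lit 13) (nat_lit 5) (nat_lit 13) (nat_lit 4) (nat_lit 283) (nat_lit 258) (nat_lit 239)) (XT.lf (nat_lit 0) (nat_lit 769747819) (nat_lit 76) (nat_lit 4877877910) (nat_lit 152) (nat_lit 28319313654) (nat_lit 10) (nat_lit 5) (nat_lit 11) (nat_lit 5) (nat_lit 12) (nat_lit 4) (nat_lit 284) (nat_lit 258) (nat_lit 238)))) (XT.nd (nat_lit 156) (nat_lit 152) (nat_lit 0) (XT.nd (nat_lit 78) (nat_lit 76) (nat_lit 0) (XT.lf (nat_lit 0) (nat_lit 18361384447) (nat_lit 152) (nat_lit 11507136857) (nat_lit 0) (nat_lit 8110929152) (nat_lit 10) (nat_lit 5) (nat_lit 12) (nat_lit 4) (nat_lit 10) (nat_lit 4) (nat_lit 285) (nat_lit 258) (nat_lit 237)) (XT.lf (nat_lit 0) (nat_lit 13628438784) (nat_lit 76) (nat_lit 19634241707) (nat_lit 76) (nat_lit 9308763853) (nat_lit 9) (nat_lit 4) (nat_lit 10) (nat_lit 5) (nat_lit 10) (nat_lit 4) (nat_lit 286) (nat_lit 258) (nat_lit 236))) (XT.nd (nat_lit 78) (nat_lit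 76) (nat_lit 0) (XT.lf (nat_lit 0) (nat_lit 2592644139) (nat_lit 152) (nat_lit 4998015054) (nat_lit 76) (nat_lit 40242863798) (nat_lit 8) (nat_lit 5) (nat_lit 10) (nat_lit 5) (nat_lit 9) (nat_lit 4) (nat_lit 287) (nat_lit 258) (nat_lit 235)) (XT.lf (nat_lit 0) (nat_lit 16320411908) (nat_lit 152) (nat_lit 30850949116) (nat_lit 0) (nat_lit 6646853854) (nat_lit 7) (nat_lit 5) (nat_lit 9) (nat_lit 4) (nat_lit 7) (nat_lit 4) (nat_lit 288) (nat_lit 258) (nat_lit 234))))))))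
noncomputable def xc21 : XT := (XT.nd (nat_lit 2106) (nat_lit 0) (nat_lit 0) (XT.nd (nat_lit 1014) (nat_lit 0) (nat_lit 0) (XT.nd (nat_lit 468) (nat_lit 228) (nat_lit 0) (XT.nd (nat_lit 234) (nat_lit 152) (nat_lit 0) (XT.nd (nat_lit 78) (nat_lit 76) (nat_lit 0) (XT.lf (nat_lit 0) (nat_lit 32328051914) (nat_lit 152) (nat_lit 5746109602) (nat_lit 0) (nat_lit 22608819276) (nat_lit 7) (nat_lit 5) (nat_lit 9) (nat_lit 4) (nat_lit 7) (nat_lit 4) (nat_lit 289) (nat_lit 258) (nat_lit 233)) (XT.nd (nat_lit 78) (nat_lit 0) (nat_lit 0) (XT.lf (nat_lit 0) (nat_lit 24091867845) (nat_lit 76) (nat_lit 27103925160) (nat_lit 76) (nat_lit 17344975492) (nat_lit 6) (nat_lit 4) (nat_lit 7) (nat_lit 5) (nat_lit 7) (nat_lit 4) (nat_lit 290) (nat_lit 258) (nat_lit 232)) (XT.lf (nat_lit 0) (nat_lit 58535873322) (nat_lit 76) (nat_lit 14415136193) (nat_lit 76) (nat_lit 4621649977) (nat_lit 6) (nat_lit 4) (nat_lit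 7) (nat_lit 5) (nat_lit 7) (nat_lit 4) (nat_lit 291) (nat_lit 258) (nat_lit 231)))) (XT.nd (nat_lit 78) (nat_lit 0) (nat_lit 0) (XT.lf (nat_lit 0) (nat_lit 9672782710) (nat_lit 152) (nat_lit 77677306814) (nat_lit 0) (nat_lit 576932714) (nat_lit 4) (nat_lit 5) (nat_lit 6) (nat_lit 4) (nat_lit 4) (nat_lit 4) (nat_lit 292) (nat_lit 258) (nat_lit 230)) (XT.nd (nat_lit 78) (nat_lit 0) (nat_lit 0) (XT.lf (nat_lit 0) (nat_lit 26721087185) (nat_lit 152) (nat_lit 55432137154) (nat_lit 0) (nat_lit 17601057011) (nat_lit 4) (nat_lit 5) (nat_lit 6) (nat_lit 4) (nat_lit 4) (nat_lit 4) (nat_lit 293) (nat_lit 258) (nat_lit 229)) (XT.lf (nat_lit 0) (nat_lit 46246864527) (nat_lit 152) (nat_lit 30009350854) (nat_lit 0) (nat_lit 37105808112) (nat_lit 4) (nat_lit 5) (nat_lit 6) (nat_lit 4) (nat_lit 4) (nat_lit 4) (nat_lit 294) (nat_lit 258) (nat_lit 228))))) (XT.nd (nat_lit 234) (nat_lit 152) (nat_lit 0) (XT.nd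 (nat_lit 78) (nat_lit 76) (nat_lit 0) (XT.lf (nat_lit 0) (nat_lit 68632140817) (nat_lit 152) (nat_lit 911545574) (nat_lit 0) (nat_lit 59472800713) (nat_lit 4) (nat_lit 5) (nat_lit 6) (nat_lit 4) (nat_lit 4) (nat_lit 4) (nat_lit 295) (nat_lit 258) (nat_lit 227)) (XT.nd (nat_lit 78) (nat_lit 0) (nat_lit 0) (XT.lf (nat_lit 0) (nat_lit 34138320630) (nat_lit 76) (nat_lit 60997595651) (nat_lit 76) (nat_lit 51822356688) (nat_lit 3) (nat_lit 4) (nat_lit 4) (nat_lit 5) (nat_lit 4) (nat_lit 4) (nat_lit 296) (nat_lit 258) (nat_lit 226)) (XT.lf (nat_lit 0) (nat_lit 74390707039) (nat_lit 76) (nat_lit 51195988428) (nat_lit 76) (nat_lit 42006924369) (nat_lit 3) (nat_lit 4) (nat_lit 4) (nat_lit 5) (nat_lit 4) (nat_lit 4) (nat_lit 297) (nat_lit 258) (nat_lit 225)))) (XT.nd (nat_lit 156) (nat_lit 152) (nat_lit 0) (XT.nd (nat_lit 78) (nat_lit 0) (nat_lit 0) (XT.lf (nat_lit 0) (nat_lit 120585159968) (nat_lit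 76) (nat_lit 39972017417) (nat_lit 76) (nat_lit 30770931537) (nat_lit 3) (nat_lit 4) (nat_lit 4) (nat_lit 5) (nat_lit 4) (nat_lit 4) (nat_lit 298) (nat_lit 258) (nat_lit 224)) (XT.lf (nat_lit 0) (nat_lit 173625483931) (nat_lit 76) (nat_lit 27106083186) (nat_lit 76) (nat_lit 17894543548) (nat_lit 3) (nat_lit 4) (nat_lit 4) (nat_lit 5) (nat_lit 4) (nat_lit 4) (nat_lit 299) (nat_lit 258) (nat_lit 223))) (XT.nd (nat_lit 78) (nat_lit 152) (nat_lit 0) (XT.lf (nat_lit 0) (nat_lit 234549424396) (nat_lit 76) (nat_lit 12346460935) (nat_lit 76) (nat_lit 3125831073) (nat_lit 3) (nat_lit 4) (nat_lit 4) (nat_lit 5) (nat_lit 4) (nat_lit 4) (nat_lit 300) (nat_lit 258) (nat_lit 222)) (XT.lf (nat_lit 0) (nat_lit 13721579356) (nat_lit 152) (nat_lit 267157253967) (nat_lit 0) (nat_lit 5176640092) (nat_lit 1) (nat_lit 5) (nat_lit 3) (nat_lit 4) (nat_lit 1) (nat_lit 4) (nat_lit 301) (nat_lit 258) (nat_lit 221))))))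 (XT.nd (nat_lit 546) (nat_lit 0) (nat_lit 0) (XT.nd (nat_lit 234) (nat_lit 0) (nat_lit 0) (XT.nd (nat_lit 78) (nat_lit 0) (nat_lit 0) (XT.lf (nat_lit 0) (nat_lit 33689663158) (nat_lit 152) (nat_lit 268597488123) (nat_lit 0) (nat_lit 25138359527) (nat_lit 1) (nat_lit 5) (nat_lit 3) (nat_lit 4) (nat_lit 1) (nat_lit 4) (nat_lit 302) (nat_lit 258) (nat_lit 220)) (XT.nd (nat_lit 78) (nat_lit 0) (nat_lit 0) (XT.lf (nat_lit 0) (nat_lit 56626656566) (nat_lit 152) (nat_lit 270306686029) (nat_lit 0) (nat_lit 48069818703) (nat_lit 1) (nat_lit 5) (nat_lit 3) (nat_lit 4) (nat_lit 1) (nat_lit 4) (nat_lit 303) (nat_lit 258) (nat_lit 219)) (XT.lf (nat_lit 0) (nat_lit 82981326841) (nat_lit 152) (nat_lit 272318288511) (nat_lit 0) (nat_lit 74419676604) (nat_lit 1) (nat_lit 5) (nat_lit 3) (nat_lit 4) (nat_lit 1) (nat_lit 4) (nat_lit 304) (nat_lit 258) (nat_lit 218)))) (XT.nd (nat_lit 156) (nat_lit 0) (nat_lit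 0) (XT.nd (nat_lit 78) (nat_lit 0) (nat_lit 0) (XT.lf (nat_lit 0) (nat_lit 113269308838) (nat_lit 152) (nat_lit 274671653011) (nat_lit 0) (nat_lit 104703473926) (nat_lit 1) (nat_lit 5) (nat_lit 3) (nat_lit 4) (nat_lit 1) (nat_lit 4) (nat_lit 305) (nat_lit 258) (nat_lit 217)) (XT.lf (nat_lit 0) (nat_lit 148083193508) (nat_lit 152) (nat_lit 277412823615) (nat_lit 0) (nat_lit 139513719749) (nat_lit 1) (nat_lit 5) (nat_lit 3) (nat_lit 4) (nat_lit 1) (nat_lit 4) (nat_lit 306) (nat_lit 258) (nat_lit 216))) (XT.nd (nat_lit 78) (nat_lit 0) (nat_lit 0) (XT.lf (nat_lit 0) (nat_lit 188104122073) (nat_lit 152) (nat_lit 280595431923) (nat_lit 0) (nat_lit 179531484100) (nat_lit 1) (nat_lit 5) (nat_lit 3) (nat_lit 4) (nat_lit 1) (nat_lit 4) (nat_lit 307) (nat_lit 258) (nat_lit 215)) (XT.lf (nat_lit 0) (nat_lit 234115112701) (nat_lit 152) (nat_lit 284281746359) (nat_lit 0) (nat_lit 225539723237) (nat_lit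 1) (nat_lit 5) (nat_lit 3) (nat_lit 4) (nat_lit 1) (nat_lit 4) (nat_lit 308) (nat_lit 258) (nat_lit 214))))) (XT.nd (nat_lit 234) (nat_lit 0) (nat_lit 0) (XT.nd (nat_lit 78) (nat_lit 0) (nat_lit 0) (XT.lf (nat_lit 0) (nat_lit 287016380426) (nat_lit 152) (nat_lit 288543890465) (nat_lit 0) (nat_lit 278438598360) (nat_lit 1) (nat_lit 5) (nat_lit 3) (nat_lit 4) (nat_lit 1) (nat_lit 4) (nat_lit 309) (nat_lit 258) (nat_lit 213)) (XT.nd (nat_lit 78) (nat_lit 0) (nat_lit 0) (XT.lf (nat_lit 0) (nat_lit 347842950051) (nat_lit 152) (nat_lit 293465254018) (nat_lit 0) (nat_lit 339263087462) (nat_lit 1) (nat_lit 5) (nat_lit 3) (nat_lit 4) (nat_lit 1) (nat_lit 4) (nat_lit 310) (nat_lit 258) (nat_lit 212)) (XT.lf (nat_lit 0) (nat_lit 417784906634) (nat_lit 152) (nat_lit 299142124565) (nat_lit 0) (nat_lit 409203234895) (nat_lit 1) (nat_lit 5) (nat_lit 3) (nat_lit 4) (nat_lit 1) (nat_lit 4) (nat_lit 311)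 (nat_lit 258) (nat_lit 211)))) (XT.nd (nat_lit 156) (nat_lit 0) (nat_lit 0) (XT.nd (nat_lit 78) (nat_lit 0) (nat_lit 0) (XT.lf (nat_lit 0) (nat_lit 498210679760) (nat_lit 152) (nat_lit 305685571313) (nat_lit 0) (nat_lit 489627434847) (nat_lit 1) (nat_lit 5) (nat_lit 3) (nat_lit 4) (nat_lit 1) (nat_lit 4) (nat_lit 312) (nat_lit 258) (nat_lit 210)) (XT.lf (nat_lit 0) (nat_lit 590693817164) (nat_lit 152) (nat_lit 313223618220) (nat_lit 0) (nat_lit 582109204274) (nat_lit 1) (nat_lit 5) (nat_lit 3) (nat_lit 4) (nat_lit 1) (nat_lit 4) (nat_lit 313) (nat_lit 258) (nat_lit 209))) (XT.nd (nat_lit 78) (nat_lit 0) (nat_lit 0) (XT.lf (nat_lit 0) (nat_lit 697043771535) (nat_lit 152) (nat_lit 321903748811) (nat_lit 0) (nat_lit 688457969100) (nat_lit 1) (nat_lit 5) (nat_lit 3) (nat_lit 4) (nat_lit 1) (nat_lit 4) (nat_lit 314) (nat_lit 258) (nat_lit 208)) (XT.lf (nat_lit 0) (nat_lit 819341302850) (nat_lit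 152) (nat_lit 331895791731) (nat_lit 0) (nat_lit 810754466027) (nat_lit 1) (nat_lit 5) (nat_lit 3) (nat_lit 4) (nat_lit 1) (nat_lit 4) (nat_lit 315) (nat_lit 258) (nat_lit 207))))))) (XT.nd (nat_lit 1092) (nat_lit 0) (nat_lit 0) (XT.nd (nat_lit 546) (nat_lit 0) (nat_lit 0) (XT.nd (nat_lit 234) (nat_lit 0) (nat_lit 0) (XT.nd (nat_lit 78) (nat_lit 0) (nat_lit 0) (XT.lf (nat_lit 0) (nat_lit 959979188895) (nat_lit 152) (nat_lit 343395243469) (nat_lit 0) (nat_lit 951391452604) (nat_lit 1) (nat_lit 5) (nat_lit 3) (nat_lit 4) (nat_lit 1) (nat_lit 4) (nat_lit 316) (nat_lit 258) (nat_lit 206)) (XT.nd (nat_lit 78) (nat_lit 0) (nat_lit 0) (XT.lf (nat_lit 0) (nat_lit 1121709040483) (nat_lit 152) (nat_lit 356627093299) (nat_lit 0) (nat_lit 1113120522047) (nat_lit 1) (nat_lit 5) (nat_lit 3) (nat_lit 4) (nat_lit 1) (nat_lit 4) (nat_lit 317) (nat_lit 258) (nat_lit 205)) (XT.lf (nat_lit 0) (nat_lit 1307695137321)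 (nat_lit 152) (nat_lit 371850225241) (nat_lit 0) (nat_lit 1299105938759) (nat_lit 1) (nat_lit 5) (nat_lit 3) (nat_lit 4) (nat_lit 1) (nat_lit 4) (nat_lit 318) (nat_lit 258) (nat_lit 204)))) (XT.nd (nat_lit 156) (nat_lit 0) (nat_lit 0) (XT.nd (nat_lit 78) (nat_lit 0) (nat_lit 0) (XT.lf (nat_lit 0) (nat_lit 1521576337824) (nat_lit 152) (nat_lit 389362483179) (nat_lit 0) (nat_lit 1512986547847) (nat_lit 1) (nat_lit 5) (nat_lit 3) (nat_lit 4) (nat_lit 1) (nat_lit 4) (nat_lit 319) (nat_lit 258) (nat_lit 203)) (XT.lf (nat_lit 0) (nat_lit 1767537274176) (nat_lit 152) (nat_lit 409506498246) (nat_lit 0) (nat_lit 1758946969926) (nat_lit 1) (nat_lit 5) (nat_lit 3) (nat_lit 4) (nat_lit 1) (nat_lit 4) (nat_lit 320) (nat_lit 258) (nat_lit 202))) (XT.nd (nat_lit 78) (nat_lit 0) (nat_lit 0) (XT.lf (nat_lit 0) (nat_lit 2050390225567) (nat_lit 152) (nat_lit 432676392478) (nat_lit 0) (nat_lit 2041799474123)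 (nat_lit 1) (nat_lit 5) (nat_lit 3) (nat_lit 4) (nat_lit 1) (nat_lit 4) (nat_lit 321) (nat_lit 258) (nat_lit 201)) (XT.lf (nat_lit 0) (nat_lit 2375669271481) (nat_lit 152) (nat_lit 459325489892) (nat_lit 0) (nat_lit 2367078131172) (nat_lit 1) (nat_lit 5) (nat_lit 3) (nat_lit 4) (nat_lit 1) (nat_lit 4) (nat_lit 322) (nat_lit 258) (nat_lit 200))))) (XT.nd (nat_lit 234) (nat_lit 0) (nat_lit 0) (XT.nd (nat_lit 78) (nat_lit 0) (nat_lit 0) (XT.lf (nat_lit 0) (nat_lit 2749738567163) (nat_lit 152) (nat_lit 489975185871) (nat_lit 0) (nat_lit 2741147088710) (nat_lit 1) (nat_lit 5) (nat_lit 3) (nat_lit 4) (nat_lit 1) (nat_lit 4) (nat_lit 323) (nat_lit 258) (nat_lit 199)) (XT.nd (nat_lit 78) (nat_lit 0) (nat_lit 0) (XT.lf (nat_lit 0) (nat_lit 3179916859702) (nat_lit 152) (nat_lit 525225148381) (nat_lit 0) (nat_lit 3171325087213) (nat_lit 1) (nat_lit 5) (nat_lit 3) (nat_lit 4) (nat_lit 1) (nat_lit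 4) (nat_lit 324) (nat_lit 258) (nat_lit 198)) (XT.lf (nat_lit 0) (nat_lit 3674620680911) (nat_lit 152) (nat_lit 565765050602) (nat_lit 0) (nat_lit 3666028652736) (nat_lit 1) (nat_lit 5) (nat_lit 3) (nat_lit 4) (nat_lit 1) (nat_lit 4) (nat_lit 325) (nat_lit 258) (nat_lit 197)))) (XT.nd (nat_lit 156) (nat_lit 0) (nat_lit 0) (XT.nd (nat_lit 78) (nat_lit 0) (nat_lit 0) (XT.lf (nat_lit 0) (nat_lit 4243529018594) (nat_lit 152) (nat_lit 612388064532) (nat_lit 0) (nat_lit 4234936768085) (nat_lit 1) (nat_lit 5) (nat_lit 3) (nat_lit 4) (nat_lit 1) (nat_lit 4) (nat_lit 326) (nat_lit 258) (nat_lit 196)) (XT.lf (nat_lit 0) (nat_lit 4897772688054) (nat_lit 152) (nat_lit 666006379575) (nat_lit 0) (nat_lit 4889180244211) (nat_lit 1) (nat_lit 5) (nat_lit 3) (nat_lit 4) (nat_lit 1) (nat_lit 4) (nat_lit 327) (nat_lit 258) (nat_lit 195))) (XT.nd (nat_lit 78) (nat_lit 0) (nat_lit 0) (XT.lf (nat_lit 0) (nat_lit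 5650152108912) (nat_lit 152) (nat_lit 727669049721) (nat_lit 0) (nat_lit 5641559496951) (nat_lit 1) (nat_lit 5) (nat_lit 3) (nat_lit 4) (nat_lit 1) (nat_lit 4) (nat_lit 328) (nat_lit 258) (nat_lit 194)) (XT.lf (nat_lit 0) (nat_lit 6515387748096) (nat_lit 152) (nat_lit 798582518517) (nat_lit 0) (nat_lit 6506794989947) (nat_lit 1) (nat_lit 5) (nat_lit 3) (nat_lit 4) (nat_lit 1) (nat_lit 4) (nat_lit 329) (nat_lit 258) (nat_lit 193)))))) (XT.nd (nat_lit 35802) (nat_lit 0) (nat_lit 1976) (XT.nd (nat_lit 35490) (nat_lit 0) (nat_lit 3800) (XT.nd (nat_lit 35334) (nat_lit 0) (nat_lit 5548) (XT.lf (nat_lit 0) (nat_lit 7510408128983) (nat_lit 152) (nat_lit 880134223395) (nat_lit 0) (nat_lit 7501815243714) (nat_lit 1) (nat_lit 5) (nat_lit 3) (nat_lit 4) (nat_lit 1) (nat_lit 4) (nat_lit 330) (nat_lit 258) (nat_lit 192)) (XT.nd (nat_lit 78) (nat_lit 456) (nat_lit 0) (XT.lf (nat_lit 0) (nat_lit 3061940271)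 (nat_lit 76) (nat_lit 103676988) (nat_lit 76) (nat_lit 103676988) (nat_lit 80) (nat_lit 4) (nat_lit 81) (nat_lit 5) (nat_lit 81) (nat_lit 4) (nat_lit 262) (nat_lit 259) (nat_lit 259)) (XT.lf (nat_lit 0) (nat_lit 93594230) (nat_lit 228) (nat_lit 5331244619) (nat_lit 228) (nat_lit 1242128583) (nat_lit 74) (nat_lit 4) (nat_lit 77) (nat_lit 5) (nat_lit 77) (nat_lit 4) (nat_lit 263) (nat_lit 259) (nat_lit 258)))) (XT.nd (nat_lit 156) (nat_lit 912) (nat_lit 0) (XT.nd (nat_lit 78) (nat_lit 456) (nat_lit 0) (XT.lf (nat_lit 0) (nat_lit 983421743) (nat_lit 304) (nat_lit 3164795013) (nat_lit 380) (nat_lit 2711987106) (nat_lit 69) (nat_lit 5) (nat_lit 73) (nat_lit 5) (nat_lit 74) (nat_lit 4) (nat_lit 264) (nat_lit 259) (nat_lit 257)) (XT.lf (nat_lit 0) (nat_lit 2246267613) (nat_lit 380) (nat_lit 195888865) (nat_lit 456) (nat_lit 4680443635) (nat_lit 63) (nat_lit 5) (nat_lit 68) (nat_lit 5) (nat_lit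 69) (nat_lit 5) (nat_lit 265) (nat_lit 259) (nat_lit 256))) (XT.nd (nat_lit 78) (nat_lit 380) (nat_lit 0) (XT.lf (nat_lit 0) (nat_lit 339497204) (nat_lit 532) (nat_lit 3648072799) (nat_lit 76) (nat_lit 3463771017) (nat_lit 56) (nat_lit 5) (nat_lit 63) (nat_lit 5) (nat_lit 57) (nat_lit 5) (nat_lit 266) (nat_lit 259) (nat_lit 255)) (XT.lf (nat_lit 0) (nat_lit 5450455719) (nat_lit 456) (nat_lit 2177673023) (nat_lit 76) (nat_lit 223415230) (nat_lit 51) (nat_lit 5) (nat_lit 57) (nat_lit 5) (nat_lit 52) (nat_lit 4) (nat_lit 267) (nat_lit 259) (nat_lit 254))))) (XT.nd (nat_lit 234) (nat_lit 836) (nat_lit 0) (XT.nd (nat_lit 78) (nat_lit 684) (nat_lit 0) (XT.lf (nat_lit 0) (nat_lit 2654014257) (nat_lit 304) (nat_lit 518283238) (nat_lit 76) (nat_lit 5151464052) (nat_lit 47) (nat_lit 5) (nat_lit 51) (nat_lit 5) (nat_lit 48) (nat_lit 5) (nat_lit 268) (nat_lit 259) (nat_lit 253)) (XT.nd (nat_lit 78)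 (nat_lit 304) (nat_lit 0) (XT.lf (nat_lit 0) (nat_lit 1456236031) (nat_lit 152) (nat_lit 6710596679) (nat_lit 228) (nat_lit 708422745) (nat_lit 42) (nat_lit 5) (nat_lit 44) (nat_lit 5) (nat_lit 45) (nat_lit 4) (nat_lit 269) (nat_lit 259) (nat_lit 252)) (XT.lf (nat_lit 0) (nat_lit 3617889962) (nat_lit 228) (nat_lit 1044764905) (nat_lit 304) (nat_lit 4844575890) (nat_lit 38) (nat_lit 5) (nat_lit 41) (nat_lit 5) (nat_lit 42) (nat_lit 5) (nat_lit 270) (nat_lit 259) (nat_lit 251)))) (XT.nd (nat_lit 156) (nat_lit 456) (nat_lit 0) (XT.nd (nat_lit 78) (nat_lit 152) (nat_lit 0) (XT.lf (nat_lit 0) (nat_lit 544601342) (nat_lit 228) (nat_lit 4263185296) (nat_lit 76) (nat_lit 5423515732) (nat_lit 35) (nat_lit 5) (nat_lit 38) (nat_lit 5) (nat_lit 36) (nat_lit 5) (nat_lit 271) (nat_lit 259) (nat_lit 250)) (XT.lf (nat_lit 0) (nat_lit 6469309666) (nat_lit 228) (nat_lit 2606059661) (nat_lit 76) (nat_lit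 1977858106) (nat_lit 33) (nat_lit 5) (nat_lit 36) (nat_lit 5) (nat_lit 34) (nat_lit 4) (nat_lit 272) (nat_lit 259) (nat_lit 249))) (XT.nd (nat_lit 78) (nat_lit 228) (nat_lit 0) (XT.lf (nat_lit 0) (nat_lit 1336377297) (nat_lit 228) (nat_lit 909036919) (nat_lit 76) (nat_lit 9741595107) (nat_lit 30) (nat_lit 5) (nat_lit 33) (nat_lit 5) (nat_lit 31) (nat_lit 5) (nat_lit 273) (nat_lit 259) (nat_lit 248)) (XT.lf (nat_lit 0) (nat_lit 721379888) (nat_lit 76) (nat_lit 7348157381) (nat_lit 152) (nat_lit 4966398049) (nat_lit 27) (nat_lit 5) (nat_lit 28) (nat_lit 5) (nat_lit 29) (nat_lit 4) (nat_lit 274) (nat_lit 259) (nat_lit 247))))))))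
noncomputable def xc22 : XT := (XT.nd (nat_lit 2106) (nat_lit 152) (nat_lit 0) (XT.nd (nat_lit 1014) (nat_lit 456) (nat_lit 0) (XT.nd (nat_lit 468) (nat_lit 532) (nat_lit 0) (XT.nd (nat_lit 234) (nat_lit 304) (nat_lit 0) (XT.nd (nat_lit 78) (nat_lit 304) (nat_lit 0) (XT.lf (nat_lit 0) (nat_lit 1667409676) (nat_lit 228) (nat_lit 11851127541) (nat_lit 76) (nat_lit 706843781) (nat_lit 24) (nat_lit 5) (nat_lit 27) (nat_lit 5) (nat_lit 25) (nat_lit 4) (nat_lit 275) (nat_lit 259) (nat_lit 246)) (XT.nd (nat_lit 78) (nat_lit 228) (nat_lit 0) (XT.lf (nat_lit 0) (nat_lit 3685516920) (nat_lit 76) (nat_lit 5637868551) (nat_lit 152) (nat_lit 6234055980) (nat_lit 23) (nat_lit 5) (nat_lit 24) (nat_lit 5) (nat_lit 25) (nat_lit 4) (nat_lit 276) (nat_lit 259) (nat_lit 245)) (XT.lf (nat_lit 0) (nat_lit 1223574465) (nat_lit 228) (nat_lit 12310825646) (nat_lit 76) (nat_lit 3534116571) (nat_lit 20) (nat_lit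 5) (nat_lit 23) (nat_lit 5) (nat_lit 21) (nat_lit 4) (nat_lit 277) (nat_lit 259) (nat_lit 244)))) (XT.nd (nat_lit 78) (nat_lit 228) (nat_lit 0) (XT.lf (nat_lit 0) (nat_lit 5211658301) (nat_lit 76) (nat_lit 4566716725) (nat_lit 152) (nat_lit 8987259749) (nat_lit 19) (nat_lit 5) (nat_lit 20) (nat_lit 5) (nat_lit 21) (nat_lit 4) (nat_lit 278) (nat_lit 259) (nat_lit 243)) (XT.nd (nat_lit 78) (nat_lit 152) (nat_lit 0) (XT.lf (nat_lit 0) (nat_lit 5017628333) (nat_lit 76) (nat_lit 14948624233) (nat_lit 76) (nat_lit 723207777) (nat_lit 18) (nat_lit 4) (nat_lit 19) (nat_lit 5) (nat_lit 19) (nat_lit 4) (nat_lit 279) (nat_lit 259) (nat_lit 242)) (XT.lf (nat_lit 0) (nat_lit 3685944590) (nat_lit 76) (nat_lit 5016674648) (nat_lit 152) (nat_lit 14153538130) (nat_lit 16) (nat_lit 5) (nat_lit 17) (nat_lit 5) (nat_lit 18) (nat_lit 4) (nat_lit 280) (nat_lit 259) (nat_lit 241))))) (XT.nd (nat_lit 234) (nat_lit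 304) (nat_lit 0) (XT.nd (nat_lit 78) (nat_lit 152) (nat_lit 0) (XT.lf (nat_lit 0) (nat_lit 999198268) (nat_lit 76) (nat_lit 18907696729) (nat_lit 76) (nat_lit 5406959281) (nat_lit 15) (nat_lit 4) (nat_lit 16) (nat_lit 5) (nat_lit 16) (nat_lit 4) (nat_lit 281) (nat_lit 259) (nat_lit 240)) (XT.nd (nat_lit 78) (nat_lit 76) (nat_lit 0) (XT.lf (nat_lit 0) (nat_lit 4905914559) (nat_lit 152) (nat_lit 3429521329) (nat_lit 76) (nat_lit 19756932442) (nat_lit 14) (nat_lit 5) (nat_lit 16) (nat_lit 5) (nat_lit 15) (nat_lit 4) (nat_lit 282) (nat_lit 259) (nat_lit 239)) (XT.lf (nat_lit 0) (nat_lit 16872526951) (nat_lit 152) (nat_lit 10228341935) (nat_lit 0) (nat_lit 4141461475) (nat_lit 13) (nat_lit 5) (nat_lit 15) (nat_lit 4) (nat_lit 13) (nat_lit 4) (nat_lit 283) (nat_lit 259) (nat_lit 238)))) (XT.nd (nat_lit 156) (nat_lit 76) (nat_lit 0) (XT.nd (nat_lit 78) (nat_lit 152) (nat_lit 0) (XT.lf (nat_lit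 0) (nat_lit 14625676755) (nat_lit 76) (nat_lit 16511579080) (nat_lit 76) (nat_lit 3687335584) (nat_lit 12) (nat_lit 4) (nat_lit 13) (nat_lit 5) (nat_lit 13) (nat_lit 4) (nat_lit 284) (nat_lit 259) (nat_lit 237)) (XT.lf (nat_lit 0) (nat_lit 4594884394) (nat_lit 76) (nat_lit 3818650343) (nat_lit 152) (nat_lit 30494470186) (nat_lit 10) (nat_lit 5) (nat_lit 11) (nat_lit 5) (nat_lit 12) (nat_lit 4) (nat_lit 285) (nat_lit 259) (nat_lit 236))) (XT.nd (nat_lit 78) (nat_lit 76) (nat_lit 0) (XT.lf (nat_lit 0) (nat_lit 22821536949) (nat_lit 152) (nat_lit 9910965334) (nat_lit 0) (nat_lit 10806977846) (nat_lit 10) (nat_lit 5) (nat_lit 12) (nat_lit 4) (nat_lit 10) (nat_lit 4) (nat_lit 286) (nat_lit 259) (nat_lit 235)) (XT.lf (nat_lit 0) (nat_lit 18713735411) (nat_lit 76) (nat_lit 21094914310) (nat_lit 76) (nat_lit 9023627374) (nat_lit 9) (nat_lit 4) (nat_lit 10) (nat_lit 5) (nat_lit 10) (nat_lit 4)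 (nat_lit 287) (nat_lit 259) (nat_lit 234)))))) (XT.nd (nat_lit 546) (nat_lit 76) (nat_lit 0) (XT.nd (nat_lit 234) (nat_lit 228) (nat_lit 0) (XT.nd (nat_lit 78) (nat_lit 76) (nat_lit 0) (XT.lf (nat_lit 0) (nat_lit 4370530381) (nat_lit 152) (nat_lit 3029912293) (nat_lit 76) (nat_lit 47496700925) (nat_lit 8) (nat_lit 5) (nat_lit 10) (nat_lit 5) (nat_lit 9) (nat_lit 4) (nat_lit 288) (nat_lit 259) (nat_lit 233)) (XT.nd (nat_lit 78) (nat_lit 0) (nat_lit 0) (XT.lf (nat_lit 0) (nat_lit 20065465000) (nat_lit 152) (nat_lit 32918515935) (nat_lit 0) (nat_lit 8802955852) (nat_lit 7) (nat_lit 5) (nat_lit 9) (nat_lit 4) (nat_lit 7) (nat_lit 4) (nat_lit 289) (nat_lit 259) (nat_lit 232)) (XT.lf (nat_lit 0) (nat_lit 38305078228) (nat_lit 152) (nat_lit 4381873391) (nat_lit 0) (nat_lit 27008032532) (nat_lit 7) (nat_lit 5) (nat_lit 9) (nat_lit 4) (nat_lit 7) (nat_lit 4) (nat_lit 290) (nat_lit 259) (nat_lit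 231)))) (XT.nd (nat_lit 156) (nat_lit 152) (nat_lit 0) (XT.nd (nat_lit 78) (nat_lit 0) (nat_lit 0) (XT.lf (nat_lit 0) (nat_lit 29743367939) (nat_lit 76) (nat_lit 30161512993) (nat_lit 76) (nat_lit 18834435517) (nat_lit 6) (nat_lit 4) (nat_lit 7) (nat_lit 5) (nat_lit 7) (nat_lit 4) (nat_lit 291) (nat_lit 259) (nat_lit 230)) (XT.lf (nat_lit 0) (nat_lit 69088184683) (nat_lit 76) (nat_lit 15700884064) (nat_lit 76) (nat_lit 4347691996) (nat_lit 6) (nat_lit 4) (nat_lit 7) (nat_lit 5) (nat_lit 7) (nat_lit 4) (nat_lit 292) (nat_lit 259) (nat_lit 229))) (XT.nd (nat_lit 78) (nat_lit 0) (nat_lit 0) (XT.lf (nat_lit 0) (nat_lit 11982649135) (nat_lit 152) (nat_lit 87615169612) (nat_lit 0) (nat_lit 1449408016) (nat_lit 4) (nat_lit 5) (nat_lit 6) (nat_lit 4) (nat_lit 4) (nat_lit 4) (nat_lit 293) (nat_lit 259) (nat_lit 228)) (XT.lf (nat_lit 0) (nat_lit 31476162453) (nat_lit 152) (nat_lit 62256754923) (nat_lit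 0) (nat_lit 20924637645) (nat_lit 4) (nat_lit 5) (nat_lit 6) (nat_lit 4) (nat_lit 4) (nat_lit 4) (nat_lit 294) (nat_lit 259) (nat_lit 227))))) (XT.nd (nat_lit 234) (nat_lit 0) (nat_lit 0) (XT.nd (nat_lit 78) (nat_lit 76) (nat_lit 0) (XT.lf (nat_lit 0) (nat_lit 53833383067) (nat_lit 152) (nat_lit 33214924958) (nat_lit 0) (nat_lit 43265959400) (nat_lit 4) (nat_lit 5) (nat_lit 6) (nat_lit 4) (nat_lit 4) (nat_lit 4) (nat_lit 295) (nat_lit 259) (nat_lit 226)) (XT.nd (nat_lit 78) (nat_lit 0) (nat_lit 0) (XT.lf (nat_lit 0) (nat_lit 82665252) (nat_lit 76) (nat_lit 79411057710) (nat_lit 76) (nat_lit 68829808948) (nat_lit 3) (nat_lit 4) (nat_lit 4) (nat_lit 5) (nat_lit 4) (nat_lit 4) (nat_lit 296) (nat_lit 259) (nat_lit 225)) (XT.lf (nat_lit 0) (nat_lit 40290497503) (nat_lit 76) (nat_lit 69631718997) (nat_lit 76) (nat_lit 59038448413) (nat_lit 3) (nat_lit 4) (nat_lit 4) (nat_lit 5) (nat_lit 4) (nat_lit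 4) (nat_lit 297) (nat_lit 259) (nat_lit 224)))) (XT.nd (nat_lit 156) (nat_lit 0) (nat_lit 0) (XT.nd (nat_lit 78) (nat_lit 0) (nat_lit 0) (XT.lf (nat_lit 0) (nat_lit 86446207685) (nat_lit 76) (nat_lit 58427111908) (nat_lit 76) (nat_lit 47823387566) (nat_lit 3) (nat_lit 4) (nat_lit 4) (nat_lit 5) (nat_lit 4) (nat_lit 4) (nat_lit 298) (nat_lit 259) (nat_lit 223)) (XT.lf (nat_lit 0) (nat_lit 139452842302) (nat_lit 76) (nat_lit 45578015870) (nat_lit 76) (nat_lit 34965201303) (nat_lit 3) (nat_lit 4) (nat_lit 4) (nat_lit 5) (nat_lit 4) (nat_lit 4) (nat_lit 299) (nat_lit 259) (nat_lit 222))) (XT.nd (nat_lit 78) (nat_lit 0) (nat_lit 0) (XT.lf (nat_lit 0) (nat_lit 200347487685) (nat_lit 76) (nat_lit 30833035525) (nat_lit 76) (nat_lit 20212316416) (nat_lit 3) (nat_lit 4) (nat_lit 4) (nat_lit 5) (nat_lit 4) (nat_lit 4) (nat_lit 300) (nat_lit 259) (nat_lit 221)) (XT.lf (nat_lit 0) (nat_lit 270321560807)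 (nat_lit 76) (nat_lit 13903682128) (nat_lit 76) (nat_lit 3276089503) (nat_lit 3) (nat_lit 4) (nat_lit 4) (nat_lit 5) (nat_lit 4) (nat_lit 4) (nat_lit 301) (nat_lit 259) (nat_lit 220))))))) (XT.nd (nat_lit 1014) (nat_lit 0) (nat_lit 0) (XT.nd (nat_lit 468) (nat_lit 0) (nat_lit 0) (XT.nd (nat_lit 234) (nat_lit 0) (nat_lit 0) (XT.nd (nat_lit 78) (nat_lit 0) (nat_lit 0) (XT.lf (nat_lit 0) (nat_lit 16063031902) (nat_lit 152) (nat_lit 306660936169) (nat_lit 0) (nat_lit 6217134128) (nat_lit 1) (nat_lit 5) (nat_lit 3) (nat_lit 4) (nat_lit 1) (nat_lit 4) (nat_lit 302) (nat_lit 259) (nat_lit 219)) (XT.nd (nat_lit 78) (nat_lit 0) (nat_lit 0) (XT.lf (nat_lit 0) (nat_lit 38989387103) (nat_lit 152) (nat_lit 308391541000) (nat_lit 0) (nat_lit 29138676955) (nat_lit 1) (nat_lit 5) (nat_lit 3) (nat_lit 4) (nat_lit 1) (nat_lit 4) (nat_lit 303) (nat_lit 259) (nat_lit 218)) (XT.lf (nat_lit 0) (nat_lit 65334806765)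 (nat_lit 152) (nat_lit 310421758201) (nat_lit 0) (nat_lit 55479911942) (nat_lit 1) (nat_lit 5) (nat_lit 3) (nat_lit 4) (nat_lit 1) (nat_lit 4) (nat_lit 304) (nat_lit 259) (nat_lit 217)))) (XT.nd (nat_lit 78) (nat_lit 0) (nat_lit 0) (XT.lf (nat_lit 0) (nat_lit 95614744749) (nat_lit 152) (nat_lit 312791309412) (nat_lit 0) (nat_lit 85756211080) (nat_lit 1) (nat_lit 5) (nat_lit 3) (nat_lit 4) (nat_lit 1) (nat_lit 4) (nat_lit 305) (nat_lit 259) (nat_lit 216)) (XT.nd (nat_lit 78) (nat_lit 0) (nat_lit 0) (XT.lf (nat_lit 0) (nat_lit 130421634626) (nat_lit 152) (nat_lit 315546555418) (nat_lit 0) (nat_lit 120559936742) (nat_lit 1) (nat_lit 5) (nat_lit 3) (nat_lit 4) (nat_lit 1) (nat_lit 4) (nat_lit 306) (nat_lit 259) (nat_lit 215)) (XT.lf (nat_lit 0) (nat_lit 170436480763) (nat_lit 152) (nat_lit 318741403206) (nat_lit 0) (nat_lit 160572031387) (nat_lit 1) (nat_lit 5) (nat_lit 3) (nat_lit 4) (nat_lit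 1) (nat_lit 4) (nat_lit 307) (nat_lit 259) (nat_lit 214))))) (XT.nd (nat_lit 234) (nat_lit 0) (nat_lit 0) (XT.nd (nat_lit 78) (nat_lit 0) (nat_lit 0) (XT.lf (nat_lit 0) (nat_lit 216442182322) (nat_lit 152) (nat_lit 322438360667) (nat_lit 0) (nat_lit 206575340345) (nat_lit 1) (nat_lit 5) (nat_lit 3) (nat_lit 4) (nat_lit 1) (nat_lit 4) (nat_lit 308) (nat_lit 259) (nat_lit 213)) (XT.nd (nat_lit 78) (nat_lit 0) (nat_lit 0) (XT.lf (nat_lit 0) (nat_lit 269338850857) (nat_lit 152) (nat_lit 326709759578) (nat_lit 0) (nat_lit 259469928357) (nat_lit 1) (nat_lit 5) (nat_lit 3) (nat_lit 4) (nat_lit 1) (nat_lit 4) (nat_lit 309) (nat_lit 259) (nat_lit 212)) (XT.lf (nat_lit 0) (nat_lit 330161421186) (nat_lit 152) (nat_lit 331639170788) (nat_lit 0) (nat_lit 320290689536) (nat_lit 1) (nat_lit 5) (nat_lit 3) (nat_lit 4) (nat_lit 1) (nat_lit 4) (nat_lit 310) (nat_lit 259) (nat_lit 211)))) (XT.nd (nat_lit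 156) (nat_lit 0) (nat_lit 0) (XT.nd (nat_lit 78) (nat_lit 0) (nat_lit 0) (XT.lf (nat_lit 0) (nat_lit 400099900120) (nat_lit 152) (nat_lit 337323039297) (nat_lit 0) (nat_lit 390227595297) (nat_lit 1) (nat_lit 5) (nat_lit 3) (nat_lit 4) (nat_lit 1) (nat_lit 4) (nat_lit 311) (nat_lit 259) (nat_lit 210)) (XT.lf (nat_lit 0) (nat_lit 480522649204) (nat_lit 152) (nat_lit 343872571229) (nat_lit 0) (nat_lit 470648976403) (nat_lit 1) (nat_lit 5) (nat_lit 3) (nat_lit 4) (nat_lit 1) (nat_lit 4) (nat_lit 312) (nat_lit 259) (nat_lit 209))) (XT.nd (nat_lit 78) (nat_lit 0) (nat_lit 0) (XT.lf (nat_lit 0) (nat_lit 573003157007) (nat_lit 152) (nat_lit 351415909601) (nat_lit 0) (nat_lit 563128294660) (nat_lit 1) (nat_lit 5) (nat_lit 3) (nat_lit 4) (nat_lit 1) (nat_lit 4) (nat_lit 313) (nat_lit 259) (nat_lit 208)) (XT.lf (nat_lit 0) (nat_lit 679350824767) (nat_lit 152) (nat_lit 360100641466) (nat_lit 0) (nat_lit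 669474928033) (nat_lit 1) (nat_lit 5) (nat_lit 3) (nat_lit 4) (nat_lit 1) (nat_lit 4) (nat_lit 314) (nat_lit 259) (nat_lit 207)))))) (XT.nd (nat_lit 546) (nat_lit 0) (nat_lit 0) (XT.nd (nat_lit 234) (nat_lit 0) (nat_lit 0) (XT.nd (nat_lit 78) (nat_lit 0) (nat_lit 0) (XT.lf (nat_lit 0) (nat_lit 801646367725) (nat_lit 152) (nat_lit 370096685493) (nat_lit 0) (nat_lit 791769571524) (nat_lit 1) (nat_lit 5) (nat_lit 3) (nat_lit 4) (nat_lit 1) (nat_lit 4) (nat_lit 315) (nat_lit 259) (nat_lit 206)) (XT.nd (nat_lit 78) (nat_lit 0) (nat_lit 0) (XT.lf (nat_lit 0) (nat_lit 942282524764) (nat_lit 152) (nat_lit 381599616455) (nat_lit 0) (nat_lit 932404946417) (nat_lit 1) (nat_lit 5) (nat_lit 3) (nat_lit 4) (nat_lit 1) (nat_lit 4) (nat_lit 316) (nat_lit 259) (nat_lit 205)) (XT.lf (nat_lit 0) (nat_lit 1104010872869) (nat_lit 152) (nat_lit 394834491698) (nat_lit 0) (nat_lit 1094132614396) (nat_lit 1) (nat_lit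 5) (nat_lit 3) (nat_lit 4) (nat_lit 1) (nat_lit 4) (nat_lit 317) (nat_lit 259) (nat_lit 204)))) (XT.nd (nat_lit 156) (nat_lit 0) (nat_lit 0) (XT.nd (nat_lit 78) (nat_lit 0) (nat_lit 0) (XT.lf (nat_lit 0) (nat_lit 1289995662330) (nat_lit 152) (nat_lit 410060254432) (nat_lit 0) (nat_lit 1280116812442) (nat_lit 1) (nat_lit 5) (nat_lit 3) (nat_lit 4) (nat_lit 1) (nat_lit 4) (nat_lit 318) (nat_lit 259) (nat_lit 203)) (XT.lf (nat_lit 0) (nat_lit 1503875725984) (nat_lit 152) (nat_lit 427574800016) (nat_lit 0) (nat_lit 1493996361823) (nat_lit 1) (nat_lit 5) (nat_lit 3) (nat_lit 4) (nat_lit 1) (nat_lit 4) (nat_lit 319) (nat_lit 259) (nat_lit 202))) (XT.nd (nat_lit 78) (nat_lit 0) (nat_lit 0) (XT.lf (nat_lit 0) (nat_lit 1749835673771) (nat_lit 152) (nat_lit 447720804342) (nat_lit 0) (nat_lit 1739955862416) (nat_lit 1) (nat_lit 5) (nat_lit 3) (nat_lit 4) (nat_lit 1) (nat_lit 4) (nat_lit 320) (nat_lit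 259) (nat_lit 201)) (XT.lf (nat_lit 0) (nat_lit 2032687765541) (nat_lit 152) (nat_lit 470892428363) (nat_lit 0) (nat_lit 2022807565321) (nat_lit 1) (nat_lit 5) (nat_lit 3) (nat_lit 4) (nat_lit 1) (nat_lit 4) (nat_lit 321) (nat_lit 259) (nat_lit 200))))) (XT.nd (nat_lit 234) (nat_lit 0) (nat_lit 0) (XT.nd (nat_lit 78) (nat_lit 0) (nat_lit 0) (XT.lf (nat_lit 0) (nat_lit 2357966063957) (nat_lit 152) (nat_lit 497543029941) (nat_lit 0) (nat_lit 2348085525594) (nat_lit 1) (nat_lit 5) (nat_lit 3) (nat_lit 4) (nat_lit 1) (nat_lit 4) (nat_lit 322) (nat_lit 259) (nat_lit 199)) (XT.nd (nat_lit 78) (nat_lit 0) (nat_lit 0) (XT.lf (nat_lit 0) (nat_lit 2732034709642) (nat_lit 152) (nat_lit 528194033890) (nat_lit 0) (nat_lit 2722153877241) (nat_lit 1) (nat_lit 5) (nat_lit 3) (nat_lit 4) (nat_lit 1) (nat_lit 4) (nat_lit 323) (nat_lit 259) (nat_lit 198)) (XT.lf (nat_lit 0) (nat_lit 3162212436966) (nat_lit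 152) (nat_lit 563445133764) (nat_lit 0) (nat_lit 3152331348881) (nat_lit 1) (nat_lit 5) (nat_lit 3) (nat_lit 4) (nat_lit 1) (nat_lit 4) (nat_lit 324) (nat_lit 259) (nat_lit 197)))) (XT.nd (nat_lit 156) (nat_lit 0) (nat_lit 0) (XT.nd (nat_lit 78) (nat_lit 0) (nat_lit 0) (XT.lf (nat_lit 0) (nat_lit 3656915766683) (nat_lit 152) (nat_lit 603986024997) (nat_lit 0) (nat_lit 3647034456264) (nat_lit 1) (nat_lit 5) (nat_lit 3) (nat_lit 4) (nat_lit 1) (nat_lit 4) (nat_lit 325) (nat_lit 259) (nat_lit 196)) (XT.lf (nat_lit 0) (nat_lit 4225823676983) (nat_lit 152) (nat_lit 650609898938) (nat_lit 0) (nat_lit 4215942173228) (nat_lit 1) (nat_lit 5) (nat_lit 3) (nat_lit 4) (nat_lit 1) (nat_lit 4) (nat_lit 326) (nat_lit 259) (nat_lit 195))) (XT.nd (nat_lit 78) (nat_lit 0) (nat_lit 0) (XT.lf (nat_lit 0) (nat_lit 4880066974805) (nat_lit 152) (nat_lit 704228961817) (nat_lit 0) (nat_lit 4870185302934) (nat_lit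 1) (nat_lit 5) (nat_lit 3) (nat_lit 4) (nat_lit 1) (nat_lit 4) (nat_lit 327) (nat_lit 259) (nat_lit 194)) (XT.lf (nat_lit 0) (nat_lit 5632446072499) (nat_lit 152) (nat_lit 765892282255) (nat_lit 0) (nat_lit 5622564254439) (nat_lit 1) (nat_lit 5) (nat_lit 3) (nat_lit 4) (nat_lit 1) (nat_lit 4) (nat_lit 328) (nat_lit 259) (nat_lit 193))))))))
noncomputable def xc23 : XT := (XT.nd (nat_lit 37206) (nat_lit 0) (nat_lit 0) (XT.nd (nat_lit 36114) (nat_lit 0) (nat_lit 912) (XT.nd (nat_lit 35568) (nat_lit 0) (nat_lit 3040) (XT.nd (nat_lit 35334) (nat_lit 0) (nat_lit 5700) (XT.nd (nat_lit 78) (nat_lit 0) (nat_lit 0) (XT.lf (nat_lit 0) (nat_lit 6497681430672) (nat_lit 152) (nat_lit 836806316522) (nat_lit 0) (nat_lit 6487799485491) (nat_lit 1) (nat_lit 5) (nat_lit 3) (nat_lit 4) (nat_lit 1) (nat_lit 4) (nat_lit 329) (nat_lit 259) (nat_lit 192)) (XT.nd (nat_lit 35178) (nat_lit 0) (nat_lit 6156) (XT.lf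 (nat_lit 0) (nat_lit 7492701567200) (nat_lit 152) (nat_lit 918358513115) (nat_lit 0) (nat_lit 7482819511480) (nat_lit 1) (nat_lit 5) (nat_lit 3) (nat_lit 4) (nat_lit 1) (nat_lit 4) (nat_lit 330) (nat_lit 259) (nat_lit 191)) (XT.lf (nat_lit 0) (nat_lit 1073741823) (nat_lit 0) (nat_lit 0) (nat_lit 0) (nat_lit 0) (nat_lit 82) (nat_lit 0) (nat_lit 1) (nat_lit 0) (nat_lit 1) (nat_lit 0) (nat_lit 260) (nat_lit 260) (nat_lit 260)))) (XT.nd (nat_lit 78) (nat_lit 380) (nat_lit 0) (XT.lf (nat_lit 0) (nat_lit 5477721425) (nat_lit 76) (nat_lit 596097777) (nat_lit 0) (nat_lit 399039309) (nat_lit 81) (nat_lit 5) (nat_lit 82) (nat_lit 0) (nat_lit 81) (nat_lit 4) (nat_lit 261) (nat_lit 260) (nat_lit 259)) (XT.nd (nat_lit 78) (nat_lit 228) (nat_lit 0) (XT.lf (nat_lit 0) (nat_lit 4160525339) (nat_lit 152) (nat_lit 841034729) (nat_lit 76) (nat_lit 1566141889) (nat_lit 79) (nat_lit 5) (nat_lit 81) (nat_lit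 5) (nat_lit 80) (nat_lit 4) (nat_lit 262) (nat_lit 260) (nat_lit 258)) (XT.lf (nat_lit 0) (nat_lit 2459461914) (nat_lit 228) (nat_lit 740219635) (nat_lit 76) (nat_lit 3528784030) (nat_lit 76) (nat_lit 5) (nat_lit 79) (nat_lit 5) (nat_lit 77) (nat_lit 5) (nat_lit 263) (nat_lit 260) (nat_lit 257))))) (XT.nd (nat_lit 234) (nat_lit 1140) (nat_lit 0) (XT.nd (nat_lit 78) (nat_lit 1216) (nat_lit 0) (XT.lf (nat_lit 0) (nat_lit 333467257) (nat_lit 304) (nat_lit 291181328) (nat_lit 76) (nat_lit 6333032769) (nat_lit 72) (nat_lit 5) (nat_lit 76) (nat_lit 5) (nat_lit 73) (nat_lit 5) (nat_lit 264) (nat_lit 260) (nat_lit 256)) (XT.nd (nat_lit 78) (nat_lit 532) (nat_lit 0) (XT.lf (nat_lit 0) (nat_lit 410885800) (nat_lit 380) (nat_lit 4533211019) (nat_lit 456) (nat_lit 2304020184) (nat_lit 63) (nat_lit 5) (nat_lit 68) (nat_lit 5) (nat_lit 69) (nat_lit 5) (nat_lit 265) (nat_lit 260) (nat_lit 255)) (XT.lf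 (nat_lit 0) (nat_lit 1461420417) (nat_lit 456) (nat_lit 677578268) (nat_lit 532) (nat_lit 5470437167) (nat_lit 56) (nat_lit 5) (nat_lit 62) (nat_lit 5) (nat_lit 63) (nat_lit 5) (nat_lit 266) (nat_lit 260) (nat_lit 254)))) (XT.nd (nat_lit 156) (nat_lit 456) (nat_lit 0) (XT.nd (nat_lit 78) (nat_lit 304) (nat_lit 0) (XT.lf (nat_lit 0) (nat_lit 2755744977) (nat_lit 380) (nat_lit 4124459167) (nat_lit 456) (nat_lit 1159455505) (nat_lit 51) (nat_lit 5) (nat_lit 56) (nat_lit 5) (nat_lit 57) (nat_lit 5) (nat_lit 267) (nat_lit 260) (nat_lit 253)) (XT.lf (nat_lit 0) (nat_lit 3391058888) (nat_lit 304) (nat_lit 4229609219) (nat_lit 76) (nat_lit 924573094) (nat_lit 47) (nat_lit 5) (nat_lit 51) (nat_lit 5) (nat_lit 48) (nat_lit 5) (nat_lit 268) (nat_lit 260) (nat_lit 252))) (XT.nd (nat_lit 78) (nat_lit 228) (nat_lit 0) (XT.lf (nat_lit 0) (nat_lit 6121391693) (nat_lit 228) (nat_lit 2364230210) (nat_lit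 304) (nat_lit 644882123) (nat_lit 44) (nat_lit 5) (nat_lit 47) (nat_lit 5) (nat_lit 48) (nat_lit 5) (nat_lit 269) (nat_lit 260) (nat_lit 251)) (XT.lf (nat_lit 0) (nat_lit 4282564834) (nat_lit 228) (nat_lit 1685807068) (nat_lit 76) (nat_lit 3829469714) (nat_lit 41) (nat_lit 5) (nat_lit 44) (nat_lit 5) (nat_lit 42) (nat_lit 5) (nat_lit 270) (nat_lit 260) (nat_lit 250)))))) (XT.nd (nat_lit 546) (nat_lit 760) (nat_lit 0) (XT.nd (nat_lit 234) (nat_lit 608) (nat_lit 0) (XT.nd (nat_lit 78) (nat_lit 532) (nat_lit 0) (XT.lf (nat_lit 0) (nat_lit 9921310521) (nat_lit 304) (nat_lit 167341495) (nat_lit 76) (nat_lit 474922892) (nat_lit 38) (nat_lit 5) (nat_lit 42) (nat_lit 5) (nat_lit 39) (nat_lit 4) (nat_lit 271) (nat_lit 260) (nat_lit 249)) (XT.nd (nat_lit 78) (nat_lit 152) (nat_lit 0) (XT.lf (nat_lit 0) (nat_lit 1415599577) (nat_lit 152) (nat_lit 3490731870) (nat_lit 228) (nat_lit 6513237428) (nat_lit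 33) (nat_lit 5) (nat_lit 35) (nat_lit 5) (nat_lit 36) (nat_lit 5) (nat_lit 272) (nat_lit 260) (nat_lit 248)) (XT.lf (nat_lit 0) (nat_lit 3143355969) (nat_lit 152) (nat_lit 8247079332) (nat_lit 228) (nat_lit 1001217340) (nat_lit 31) (nat_lit 5) (nat_lit 33) (nat_lit 5) (nat_lit 34) (nat_lit 4) (nat_lit 273) (nat_lit 260) (nat_lit 247)))) (XT.nd (nat_lit 156) (nat_lit 304) (nat_lit 0) (XT.nd (nat_lit 78) (nat_lit 76) (nat_lit 0) (XT.lf (nat_lit 0) (nat_lit 4866847032) (nat_lit 152) (nat_lit 382264498) (nat_lit 228) (nat_lit 8236148484) (nat_lit 28) (nat_lit 5) (nat_lit 30) (nat_lit 5) (nat_lit 31) (nat_lit 5) (nat_lit 274) (nat_lit 260) (nat_lit 246)) (XT.lf (nat_lit 0) (nat_lit 6519075902) (nat_lit 76) (nat_lit 6195411111) (nat_lit 152) (nat_lit 1999626205) (nat_lit 27) (nat_lit 5) (nat_lit 28) (nat_lit 5) (nat_lit 29) (nat_lit 4) (nat_lit 275) (nat_lit 260) (nat_lit 245))) (XT.nd (nat_lit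 78) (nat_lit 76) (nat_lit 0) (XT.lf (nat_lit 0) (nat_lit 5165579428) (nat_lit 228) (nat_lit 8043778088) (nat_lit 76) (nat_lit 2888012646) (nat_lit 24) (nat_lit 5) (nat_lit 27) (nat_lit 5) (nat_lit 25) (nat_lit 4) (nat_lit 276) (nat_lit 260) (nat_lit 244)) (XT.lf (nat_lit 0) (nat_lit 9350619037) (nat_lit 76) (nat_lit 4318623103) (nat_lit 152) (nat_lit 3984311688) (nat_lit 23) (nat_lit 5) (nat_lit 24) (nat_lit 5) (nat_lit 25) (nat_lit 4) (nat_lit 277) (nat_lit 260) (nat_lit 243))))) (XT.nd (nat_lit 234) (nat_lit 304) (nat_lit 0) (XT.nd (nat_lit 78) (nat_lit 228) (nat_lit 0) (XT.lf (nat_lit 0) (nat_lit 4204115207) (nat_lit 228) (nat_lit 9159495623) (nat_lit 76) (nat_lit 6040041400) (nat_lit 20) (nat_lit 5) (nat_lit 23) (nat_lit 5) (nat_lit 21) (nat_lit 4) (nat_lit 278) (nat_lit 260) (nat_lit 242)) (XT.nd (nat_lit 78) (nat_lit 152) (nat_lit 0) (XT.lf (nat_lit 0) (nat_lit 10568309014) (nat_lit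 76) (nat_lit 3219026657) (nat_lit 152) (nat_lit 7588566589) (nat_lit 19) (nat_lit 5) (nat_lit 20) (nat_lit 5) (nat_lit 21) (nat_lit 4) (nat_lit 279) (nat_lit 260) (nat_lit 241)) (XT.lf (nat_lit 0) (nat_lit 1629398733) (nat_lit 152) (nat_lit 13544059562) (nat_lit 76) (nat_lit 8426495316) (nat_lit 17) (nat_lit 5) (nat_lit 19) (nat_lit 5) (nat_lit 18) (nat_lit 4) (nat_lit 280) (nat_lit 260) (nat_lit 240)))) (XT.nd (nat_lit 156) (nat_lit 152) (nat_lit 0) (XT.nd (nat_lit 78) (nat_lit 76) (nat_lit 0) (XT.lf (nat_lit 0) (nat_lit 8319987752) (nat_lit 76) (nat_lit 3890074622) (nat_lit 152) (nat_lit 13897513452) (nat_lit 16) (nat_lit 5) (nat_lit 17) (nat_lit 5) (nat_lit 18) (nat_lit 4) (nat_lit 281) (nat_lit 260) (nat_lit 239)) (XT.lf (nat_lit 0) (nat_lit 5005435764) (nat_lit 76) (nat_lit 19934363049) (nat_lit 76) (nat_lit 4006652628) (nat_lit 15) (nat_lit 4) (nat_lit 16) (nat_lit 5) (nat_lit 16)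 (nat_lit 4) (nat_lit 282) (nat_lit 260) (nat_lit 238))) (XT.nd (nat_lit 78) (nat_lit 76) (nat_lit 0) (XT.lf (nat_lit 0) (nat_lit 7468523339) (nat_lit 152) (nat_lit 493814136) (nat_lit 76) (nat_lit 24197159476) (nat_lit 14) (nat_lit 5) (nat_lit 16) (nat_lit 5) (nat_lit 15) (nat_lit 4) (nat_lit 283) (nat_lit 260) (nat_lit 237)) (XT.lf (nat_lit 0) (nat_lit 21103735249) (nat_lit 152) (nat_lit 8506753395) (nat_lit 0) (nat_lit 6181652844) (nat_lit 13) (nat_lit 5) (nat_lit 15) (nat_lit 4) (nat_lit 13) (nat_lit 4) (nat_lit 284) (nat_lit 260) (nat_lit 236))))))) (XT.nd (nat_lit 1092) (nat_lit 152) (nat_lit 0) (XT.nd (nat_lit 546) (nat_lit 304) (nat_lit 0) (XT.nd (nat_lit 234) (nat_lit 228) (nat_lit 0) (XT.nd (nat_lit 78) (nat_lit 152) (nat_lit 0) (XT.lf (nat_lit 0) (nat_lit 19799777473) (nat_lit 76) (nat_lit 17558288980) (nat_lit 76) (nat_lit 2565750605) (nat_lit 12) (nat_lit 4) (nat_lit 13) (nat_lit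 5) (nat_lit 13) (nat_lit 4) (nat_lit 285) (nat_lit 260) (nat_lit 235)) (XT.nd (nat_lit 78) (nat_lit 0) (nat_lit 0) (XT.lf (nat_lit 0) (nat_lit 8089163861) (nat_lit 76) (nat_lit 3037263204) (nat_lit 152) (nat_lit 33501351098) (nat_lit 10) (nat_lit 5) (nat_lit 11) (nat_lit 5) (nat_lit 12) (nat_lit 4) (nat_lit 286) (nat_lit 260) (nat_lit 234)) (XT.lf (nat_lit 0) (nat_lit 27534706874) (nat_lit 152) (nat_lit 8885517846) (nat_lit 0) (nat_lit 13546670513) (nat_lit 10) (nat_lit 5) (nat_lit 12) (nat_lit 4) (nat_lit 10) (nat_lit 4) (nat_lit 287) (nat_lit 260) (nat_lit 233)))) (XT.nd (nat_lit 156) (nat_lit 76) (nat_lit 0) (XT.nd (nat_lit 78) (nat_lit 76) (nat_lit 0) (XT.lf (nat_lit 0) (nat_lit 23820251910) (nat_lit 76) (nat_lit 23136683666) (nat_lit 76) (nat_lit 9105752912) (nat_lit 9) (nat_lit 4) (nat_lit 10) (nat_lit 5) (nat_lit 10) (nat_lit 4) (nat_lit 288) (nat_lit 260) (nat_lit 232)) (XT.lf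 (nat_lit 0) (nat_lit 6076385645) (nat_lit 152) (nat_lit 1429348083) (nat_lit 76) (nat_lit 55541741078) (nat_lit 8) (nat_lit 5) (nat_lit 10) (nat_lit 5) (nat_lit 9) (nat_lit 4) (nat_lit 289) (nat_lit 260) (nat_lit 231))) (XT.nd (nat_lit 78) (nat_lit 0) (nat_lit 0) (XT.lf (nat_lit 0) (nat_lit 24055996513) (nat_lit 152) (nat_lit 35920508411) (nat_lit 0) (nat_lit 10999825634) (nat_lit 7) (nat_lit 5) (nat_lit 9) (nat_lit 4) (nat_lit 7) (nat_lit 4) (nat_lit 290) (nat_lit 260) (nat_lit 230)) (XT.lf (nat_lit 0) (nat_lit 44903632800) (nat_lit 152) (nat_lit 3355863170) (nat_lit 0) (nat_lit 31821347329) (nat_lit 7) (nat_lit 5) (nat_lit 9) (nat_lit 4) (nat_lit 7) (nat_lit 4) (nat_lit 291) (nat_lit 260) (nat_lit 229))))) (XT.nd (nat_lit 234) (nat_lit 76) (nat_lit 0) (XT.nd (nat_lit 78) (nat_lit 152) (nat_lit 0) (XT.lf (nat_lit 0) (nat_lit 35745682141) (nat_lit 76) (nat_lit 33923546414) (nat_lit 76)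 (nat_lit 20818552603) (nat_lit 6) (nat_lit 4) (nat_lit 7) (nat_lit 5) (nat_lit 7) (nat_lit 4) (nat_lit 292) (nat_lit 260) (nat_lit 228)) (XT.nd (nat_lit 78) (nat_lit 152) (nat_lit 0) (XT.lf (nat_lit 0) (nat_lit 80791246308) (nat_lit 76) (nat_lit 17393239693) (nat_lit 76) (nat_lit 4268499498) (nat_lit 6) (nat_lit 4) (nat_lit 7) (nat_lit 5) (nat_lit 7) (nat_lit 4) (nat_lit 293) (nat_lit 260) (nat_lit 227)) (XT.lf (nat_lit 0) (nat_lit 14429535367) (nat_lit 152) (nat_lit 99461616528) (nat_lit 0) (nat_lit 2261099290) (nat_lit 4) (nat_lit 5) (nat_lit 6) (nat_lit 4) (nat_lit 4) (nat_lit 4) (nat_lit 294) (nat_lit 260) (nat_lit 226)))) (XT.nd (nat_lit 156) (nat_lit 76) (nat_lit 0) (XT.nd (nat_lit 78) (nat_lit 0) (nat_lit 0) (XT.lf (nat_lit 0) (nat_lit 36762359743) (nat_lit 152) (nat_lit 70468460749) (nat_lit 0) (nat_lit 24580098572) (nat_lit 4) (nat_lit 5) (nat_lit 6) (nat_lit 4) (nat_lit 4) (nat_lit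 4) (nat_lit 295) (nat_lit 260) (nat_lit 225)) (XT.lf (nat_lit 0) (nat_lit 62399497417) (nat_lit 152) (nat_lit 37217331168) (nat_lit 0) (nat_lit 50205214423) (nat_lit 4) (nat_lit 5) (nat_lit 6) (nat_lit 4) (nat_lit 4) (nat_lit 4) (nat_lit 296) (nat_lit 260) (nat_lit 224))) (XT.nd (nat_lit 78) (nat_lit 0) (nat_lit 0) (XT.lf (nat_lit 0) (nat_lit 991959630) (nat_lit 76) (nat_lit 90874441582) (nat_lit 76) (nat_lit 78669704831) (nat_lit 3) (nat_lit 4) (nat_lit 4) (nat_lit 5) (nat_lit 4) (nat_lit 4) (nat_lit 297) (nat_lit 260) (nat_lit 223)) (XT.lf (nat_lit 0) (nat_lit 47113980467) (nat_lit 76) (nat_lit 79686672686) (nat_lit 76) (nat_lit 67472845711) (nat_lit 3) (nat_lit 4) (nat_lit 4) (nat_lit 5) (nat_lit 4) (nat_lit 4) (nat_lit 298) (nat_lit 260) (nat_lit 222)))))) (XT.nd (nat_lit 546) (nat_lit 0) (nat_lit 0) (XT.nd (nat_lit 234) (nat_lit 152) (nat_lit 0) (XT.nd (nat_lit 78) (nat_lit 0) (nat_lit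 0) (XT.lf (nat_lit 0) (nat_lit 100091320001) (nat_lit 76) (nat_lit 66852218555) (nat_lit 76) (nat_lit 54630487036) (nat_lit 3) (nat_lit 4) (nat_lit 4) (nat_lit 5) (nat_lit 4) (nat_lit 4) (nat_lit 299) (nat_lit 260) (nat_lit 221)) (XT.nd (nat_lit 78) (nat_lit 0) (nat_lit 0) (XT.lf (nat_lit 0) (nat_lit 160960491399) (nat_lit 76) (nat_lit 52119970303) (nat_lit 76) (nat_lit 39891365269) (nat_lit 3) (nat_lit 4) (nat_lit 4) (nat_lit 5) (nat_lit 4) (nat_lit 4) (nat_lit 300) (nat_lit 260) (nat_lit 220)) (XT.lf (nat_lit 0) (nat_lit 230912413230) (nat_lit 76) (nat_lit 35201688291) (nat_lit 76) (nat_lit 22967106287) (nat_lit 3) (nat_lit 4) (nat_lit 4) (nat_lit 5) (nat_lit 4) (nat_lit 4) (nat_lit 301) (nat_lit 260) (nat_lit 219)))) (XT.nd (nat_lit 156) (nat_lit 0) (nat_lit 0) (XT.nd (nat_lit 78) (nat_lit 152) (nat_lit 0) (XT.lf (nat_lit 0) (nat_lit 311315710052) (nat_lit 76) (nat_lit 15766362654)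 (nat_lit 76) (nat_lit 3526583284) (nat_lit 3) (nat_lit 4) (nat_lit 4) (nat_lit 5) (nat_lit 4) (nat_lit 4) (nat_lit 302) (nat_lit 260) (nat_lit 218)) (XT.lf (nat_lit 0) (nat_lit 18686638401) (nat_lit 152) (nat_lit 352229145862) (nat_lit 0) (nat_lit 7349324681) (nat_lit 1) (nat_lit 5) (nat_lit 3) (nat_lit 4) (nat_lit 1) (nat_lit 4) (nat_lit 303) (nat_lit 260) (nat_lit 217))) (XT.nd (nat_lit 78) (nat_lit 0) (nat_lit 0) (XT.lf (nat_lit 0) (nat_lit 45024014050) (nat_lit 152) (nat_lit 354275549774) (nat_lit 0) (nat_lit 33683061483) (nat_lit 1) (nat_lit 5) (nat_lit 3) (nat_lit 4) (nat_lit 1) (nat_lit 4) (nat_lit 304) (nat_lit 260) (nat_lit 216)) (XT.lf (nat_lit 0) (nat_lit 75296957242) (nat_lit 152) (nat_lit 356659176387) (nat_lit 0) (nat_lit 63952840460) (nat_lit 1) (nat_lit 5) (nat_lit 3) (nat_lit 4) (nat_lit 1) (nat_lit 4) (nat_lit 305) (nat_lit 260) (nat_lit 215))))) (XT.nd (nat_lit 234)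 (nat_lit 0) (nat_lit 0) (XT.nd (nat_lit 78) (nat_lit 0) (nat_lit 0) (XT.lf (nat_lit 0) (nat_lit 110097764690) (nat_lit 152) (nat_lit 359426661872) (nat_lit 0) (nat_lit 98750896417) (nat_lit 1) (nat_lit 5) (nat_lit 3) (nat_lit 4) (nat_lit 1) (nat_lit 4) (nat_lit 306) (nat_lit 260) (nat_lit 214)) (XT.nd (nat_lit 78) (nat_lit 0) (nat_lit 0) (XT.lf (nat_lit 0) (nat_lit 150107321758) (nat_lit 152) (nat_lit 362632152686) (nat_lit 0) (nat_lit 138758060883) (nat_lit 1) (nat_lit 5) (nat_lit 3) (nat_lit 4) (nat_lit 1) (nat_lit 4) (nat_lit 307) (nat_lit 260) (nat_lit 213)) (XT.lf (nat_lit 0) (nat_lit 196108424127) (nat_lit 152) (nat_lit 366338364952) (nat_lit 0) (nat_lit 184757082730) (nat_lit 1) (nat_lit 5) (nat_lit 3) (nat_lit 4) (nat_lit 1) (nat_lit 4) (nat_lit 308) (nat_lit 260) (nat_lit 212)))) (XT.nd (nat_lit 156) (nat_lit 0) (nat_lit 0) (XT.nd (nat_lit 78) (nat_lit 0) (nat_lit 0) (XT.lf (nat_lit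 0) (nat_lit 249001093366) (nat_lit 152) (nat_lit 370617811520) (nat_lit 0) (nat_lit 237647942819) (nat_lit 1) (nat_lit 5) (nat_lit 3) (nat_lit 4) (nat_lit 1) (nat_lit 4) (nat_lit 309) (nat_lit 260) (nat_lit 211)) (XT.lf (nat_lit 0) (nat_lit 309820186047) (nat_lit 152) (nat_lit 375554220691) (nat_lit 0) (nat_lit 298465462326) (nat_lit 1) (nat_lit 5) (nat_lit 3) (nat_lit 4) (nat_lit 1) (nat_lit 4) (nat_lit 310) (nat_lit 260) (nat_lit 210))) (XT.nd (nat_lit 78) (nat_lit 0) (nat_lit 0) (XT.lf (nat_lit 0) (nat_lit 379755640939) (nat_lit 152) (nat_lit 381244174385) (nat_lit 0) (nat_lit 368399549241) (nat_lit 1) (nat_lit 5) (nat_lit 3) (nat_lit 4) (nat_lit 1) (nat_lit 4) (nat_lit 311) (nat_lit 260) (nat_lit 209)) (XT.lf (nat_lit 0) (nat_lit 460175760421) (nat_lit 152) (nat_lit 387798997782) (nat_lit 0) (nat_lit 448818479177) (nat_lit 1) (nat_lit 5) (nat_lit 3) (nat_lit 4) (nat_lit 1) (nat_lit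 4) (nat_lit 312) (nat_lit 260) (nat_lit 208))))))))
noncomputable def xc24 : XT := (XT.nd (nat_lit 37284) (nat_lit 0) (nat_lit 228) (XT.nd (nat_lit 1014) (nat_lit 0) (nat_lit 0) (XT.nd (nat_lit 468) (nat_lit 0) (nat_lit 0) (XT.nd (nat_lit 234) (nat_lit 0) (nat_lit 0) (XT.nd (nat_lit 78) (nat_lit 0) (nat_lit 0) (XT.lf (nat_lit 0) (nat_lit 552653981613) (nat_lit 152) (nat_lit 395346937427) (nat_lit 0) (nat_lit 541295665982) (nat_lit 1) (nat_lit 5) (nat_lit 3) (nat_lit 4) (nat_lit 1) (nat_lit 4) (nat_lit 313) (nat_lit 260) (nat_lit 207)) (XT.nd (nat_lit 78) (nat_lit 0) (nat_lit 0) (XT.lf (nat_lit 0) (nat_lit 658999661017) (nat_lit 152) (nat_lit 404035670400) (nat_lit 0) (nat_lit 647640445918) (nat_lit 1) (nat_lit 5) (nat_lit 3) (nat_lit 4) (nat_lit 1) (nat_lit 4) (nat_lit 314) (nat_lit 260) (nat_lit 206)) (XT.lf (nat_lit 0) (nat_lit 781293474969) (nat_lit 152) (nat_lit 414035193651) (nat_lit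 0) (nat_lit 769933477725) (nat_lit 1) (nat_lit 5) (nat_lit 3) (nat_lit 4) (nat_lit 1) (nat_lit 4) (nat_lit 315) (nat_lit 260) (nat_lit 205)))) (XT.nd (nat_lit 78) (nat_lit 0) (nat_lit 0) (XT.lf (nat_lit 0) (nat_lit 921928128525) (nat_lit 152) (nat_lit 425541150025) (nat_lit 0) (nat_lit 910567451154) (nat_lit 1) (nat_lit 5) (nat_lit 3) (nat_lit 4) (nat_lit 1) (nat_lit 4) (nat_lit 316) (nat_lit 260) (nat_lit 204)) (XT.nd (nat_lit 78) (nat_lit 0) (nat_lit 0) (XT.lf (nat_lit 0) (nat_lit 1083655169253) (nat_lit 152) (nat_lit 438778656061) (nat_lit 0) (nat_lit 1072293900468) (nat_lit 1) (nat_lit 5) (nat_lit 3) (nat_lit 4) (nat_lit 1) (nat_lit 4) (nat_lit 317) (nat_lit 260) (nat_lit 203)) (XT.lf (nat_lit 0) (nat_lit 1269638821865) (nat_lit 152) (nat_lit 454006706442) (nat_lit 0) (nat_lit 1258277038806) (nat_lit 1) (nat_lit 5) (nat_lit 3) (nat_lit 4) (nat_lit 1) (nat_lit 4) (nat_lit 318) (nat_lit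 260) (nat_lit 202))))) (XT.nd (nat_lit 234) (nat_lit 0) (nat_lit 0) (XT.nd (nat_lit 78) (nat_lit 0) (nat_lit 0) (XT.lf (nat_lit 0) (nat_lit 1483517896953) (nat_lit 152) (nat_lit 471523241284) (nat_lit 0) (nat_lit 1472155666701) (nat_lit 1) (nat_lit 5) (nat_lit 3) (nat_lit 4) (nat_lit 1) (nat_lit 4) (nat_lit 319) (nat_lit 260) (nat_lit 201)) (XT.nd (nat_lit 78) (nat_lit 0) (nat_lit 0) (XT.lf (nat_lit 0) (nat_lit 1729476985119) (nat_lit 152) (nat_lit 491670975399) (nat_lit 0) (nat_lit 1718114366002) (nat_lit 1) (nat_lit 5) (nat_lit 3) (nat_lit 4) (nat_lit 1) (nat_lit 4) (nat_lit 320) (nat_lit 260) (nat_lit 200)) (XT.lf (nat_lit 0) (nat_lit 2012328329392) (nat_lit 152) (nat_lit 514844103584) (nat_lit 0) (nat_lit 2000965372131) (nat_lit 1) (nat_lit 5) (nat_lit 3) (nat_lit 4) (nat_lit 1) (nat_lit 4) (nat_lit 321) (nat_lit 260) (nat_lit 199)))) (XT.nd (nat_lit 156) (nat_lit 0) (nat_lit 0) (XT.nd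 (nat_lit 78) (nat_lit 0) (nat_lit 0) (XT.lf (nat_lit 0) (nat_lit 2337605977811) (nat_lit 152) (nat_lit 541496013132) (nat_lit 0) (nat_lit 2326242726513) (nat_lit 1) (nat_lit 5) (nat_lit 3) (nat_lit 4) (nat_lit 1) (nat_lit 4) (nat_lit 322) (nat_lit 260) (nat_lit 198)) (XT.lf (nat_lit 0) (nat_lit 2711674058280) (nat_lit 152) (nat_lit 572148154445) (nat_lit 0) (nat_lit 2700310551298) (nat_lit 1) (nat_lit 5) (nat_lit 3) (nat_lit 4) (nat_lit 1) (nat_lit 4) (nat_lit 323) (nat_lit 260) (nat_lit 197))) (XT.nd (nat_lit 78) (nat_lit 0) (nat_lit 0) (XT.lf (nat_lit 0) (nat_lit 3141851294114) (nat_lit 152) (nat_lit 607400243332) (nat_lit 0) (nat_lit 3130487564796) (nat_lit 1) (nat_lit 5) (nat_lit 3) (nat_lit 4) (nat_lit 1) (nat_lit 4) (nat_lit 324) (nat_lit 260) (nat_lit 196)) (XT.lf (nat_lit 0) (nat_lit 3636554196447) (nat_lit 152) (nat_lit 647941994575) (nat_lit 0) (nat_lit 3625190273795) (nat_lit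 1) (nat_lit 5) (nat_lit 3) (nat_lit 4) (nat_lit 1) (nat_lit 4) (nat_lit 325) (nat_lit 260) (nat_lit 195)))))) (XT.nd (nat_lit 35724) (nat_lit 0) (nat_lit 3268) (XT.nd (nat_lit 234) (nat_lit 0) (nat_lit 0) (XT.nd (nat_lit 78) (nat_lit 0) (nat_lit 0) (XT.lf (nat_lit 0) (nat_lit 4205461735108) (nat_lit 152) (nat_lit 694566616352) (nat_lit 0) (nat_lit 4194097644339) (nat_lit 1) (nat_lit 5) (nat_lit 3) (nat_lit 4) (nat_lit 1) (nat_lit 4) (nat_lit 326) (nat_lit 260) (nat_lit 194)) (XT.nd (nat_lit 78) (nat_lit 0) (nat_lit 0) (XT.lf (nat_lit 0) (nat_lit 4859704709767) (nat_lit 152) (nat_lit 748186329523) (nat_lit 0) (nat_lit 4848340472809) (nat_lit 1) (nat_lit 5) (nat_lit 3) (nat_lit 4) (nat_lit 1) (nat_lit 4) (nat_lit 327) (nat_lit 260) (nat_lit 193)) (XT.lf (nat_lit 0) (nat_lit 5612083526449) (nat_lit 152) (nat_lit 809850215432) (nat_lit 0) (nat_lit 5600719162371) (nat_lit 1) (nat_lit 5) (nat_lit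 3) (nat_lit 4) (nat_lit 1) (nat_lit 4) (nat_lit 328) (nat_lit 260) (nat_lit 192)))) (XT.nd (nat_lit 35334) (nat_lit 0) (nat_lit 5624) (XT.nd (nat_lit 78) (nat_lit 0) (nat_lit 0) (XT.lf (nat_lit 0) (nat_lit 6477318640264) (nat_lit 152) (nat_lit 880764741413) (nat_lit 0) (nat_lit 6465954165646) (nat_lit 1) (nat_lit 5) (nat_lit 3) (nat_lit 4) (nat_lit 1) (nat_lit 4) (nat_lit 329) (nat_lit 260) (nat_lit 191)) (XT.lf (nat_lit 0) (nat_lit 7472338564307) (nat_lit 152) (nat_lit 962317365583) (nat_lit 0) (nat_lit 7460973993568) (nat_lit 1) (nat_lit 5) (nat_lit 3) (nat_lit 4) (nat_lit 1) (nat_lit 4) (nat_lit 330) (nat_lit 260) (nat_lit 190))) (XT.nd (nat_lit 78) (nat_lit 228) (nat_lit 0) (XT.lf (nat_lit 0) (nat_lit 1871510056) (nat_lit 228) (nat_lit 697927899) (nat_lit 228) (nat_lit 697927899) (nat_lit 78) (nat_lit 3) (nat_lit 81) (nat_lit 3) (nat_lit 81) (nat_lit 5) (nat_lit 261) (nat_lit 261)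 (nat_lit 258)) (XT.lf (nat_lit 0) (nat_lit 1636316913) (nat_lit 228) (nat_lit 2046125744) (nat_lit 304) (nat_lit 2979747734) (nat_lit 75) (nat_lit 5) (nat_lit 78) (nat_lit 3) (nat_lit 79) (nat_lit 5) (nat_lit 262) (nat_lit 261) (nat_lit 257))))) (XT.nd (nat_lit 234) (nat_lit 1824) (nat_lit 0) (XT.nd (nat_lit 78) (nat_lit 532) (nat_lit 0) (XT.lf (nat_lit 76) (nat_lit 4480069595) (nat_lit 0) (nat_lit 1448176325) (nat_lit 304) (nat_lit 927201710) (nat_lit 76) (nat_lit 5) (nat_lit 75) (nat_lit 5) (nat_lit 79) (nat_lit 5) (nat_lit 263) (nat_lit 261) (nat_lit 256)) (XT.nd (nat_lit 78) (nat_lit 304) (nat_lit 0) (XT.lf (nat_lit 0) (nat_lit 3094704123) (nat_lit 304) (nat_lit 2449304053) (nat_lit 76) (nat_lit 1567926475) (nat_lit 72) (nat_lit 5) (nat_lit 76) (nat_lit 5) (nat_lit 73) (nat_lit 5) (nat_lit 264) (nat_lit 261) (nat_lit 255)) (XT.lf (nat_lit 0) (nat_lit 5201519599) (nat_lit 304) (nat_lit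 2072788779) (nat_lit 380) (nat_lit 163091176) (nat_lit 68) (nat_lit 5) (nat_lit 72) (nat_lit 5) (nat_lit 73) (nat_lit 5) (nat_lit 265) (nat_lit 261) (nat_lit 254)))) (XT.nd (nat_lit 156) (nat_lit 912) (nat_lit 0) (XT.nd (nat_lit 78) (nat_lit 456) (nat_lit 0) (XT.lf (nat_lit 0) (nat_lit 3758666638) (nat_lit 456) (nat_lit 1828094882) (nat_lit 76) (nat_lit 2241411382) (nat_lit 62) (nat_lit 5) (nat_lit 68) (nat_lit 5) (nat_lit 63) (nat_lit 5) (nat_lit 266) (nat_lit 261) (nat_lit 253)) (XT.lf (nat_lit 0) (nat_lit 7146215782) (nat_lit 456) (nat_lit 902249628) (nat_lit 532) (nat_lit 246426957) (nat_lit 56) (nat_lit 5) (nat_lit 62) (nat_lit 5) (nat_lit 63) (nat_lit 5) (nat_lit 267) (nat_lit 261) (nat_lit 252))) (XT.nd (nat_lit 78) (nat_lit 456) (nat_lit 0) (XT.lf (nat_lit 0) (nat_lit 3857717276) (nat_lit 456) (nat_lit 344430854) (nat_lit 76) (nat_lit 4628933341) (nat_lit 50) (nat_lit 5) (nat_lit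 56) (nat_lit 5) (nat_lit 51) (nat_lit 5) (nat_lit 268) (nat_lit 261) (nat_lit 251)) (XT.lf (nat_lit 0) (nat_lit 748341526) (nat_lit 228) (nat_lit 7766144166) (nat_lit 304) (nat_lit 937150415) (nat_lit 44) (nat_lit 5) (nat_lit 47) (nat_lit 5) (nat_lit 48) (nat_lit 5) (nat_lit 269) (nat_lit 261) (nat_lit 250))))))) (XT.nd (nat_lit 1014) (nat_lit 912) (nat_lit 0) (XT.nd (nat_lit 468) (nat_lit 912) (nat_lit 0) (XT.nd (nat_lit 234) (nat_lit 532) (nat_lit 0) (XT.nd (nat_lit 78) (nat_lit 456) (nat_lit 0) (XT.lf (nat_lit 0) (nat_lit 1987707240) (nat_lit 152) (nat_lit 1587642366) (nat_lit 228) (nat_lit 6578767784) (nat_lit 41) (nat_lit 5) (nat_lit 43) (nat_lit 5) (nat_lit 44) (nat_lit 5) (nat_lit 270) (nat_lit 261) (nat_lit 249)) (XT.nd (nat_lit 78) (nat_lit 228) (nat_lit 0) (XT.lf (nat_lit 0) (nat_lit 3392839030) (nat_lit 228) (nat_lit 5437146643) (nat_lit 304) (nat_lit 2120781585) (nat_lit 38)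 (nat_lit 5) (nat_lit 41) (nat_lit 5) (nat_lit 42) (nat_lit 5) (nat_lit 271) (nat_lit 261) (nat_lit 248)) (XT.lf (nat_lit 0) (nat_lit 2985514711) (nat_lit 228) (nat_lit 6900623288) (nat_lit 76) (nat_lit 1964919986) (nat_lit 35) (nat_lit 5) (nat_lit 38) (nat_lit 5) (nat_lit 36) (nat_lit 5) (nat_lit 272) (nat_lit 261) (nat_lit 247)))) (XT.nd (nat_lit 78) (nat_lit 380) (nat_lit 0) (XT.lf (nat_lit 0) (nat_lit 6600664065) (nat_lit 152) (nat_lit 2371793249) (nat_lit 228) (nat_lit 3890588825) (nat_lit 33) (nat_lit 5) (nat_lit 35) (nat_lit 5) (nat_lit 36) (nat_lit 5) (nat_lit 273) (nat_lit 261) (nat_lit 246)) (XT.nd (nat_lit 78) (nat_lit 152) (nat_lit 0) (XT.lf (nat_lit 0) (nat_lit 2032484574) (nat_lit 228) (nat_lit 5678475984) (nat_lit 76) (nat_lit 6289101462) (nat_lit 30) (nat_lit 5) (nat_lit 33) (nat_lit 5) (nat_lit 31) (nat_lit 5) (nat_lit 274) (nat_lit 261) (nat_lit 245)) (XT.lf (nat_lit 0)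 (nat_lit 8893459513) (nat_lit 228) (nat_lit 5200708746) (nat_lit 76) (nat_lit 1183191069) (nat_lit 28) (nat_lit 5) (nat_lit 31) (nat_lit 5) (nat_lit 29) (nat_lit 4) (nat_lit 275) (nat_lit 261) (nat_lit 244))))) (XT.nd (nat_lit 234) (nat_lit 532) (nat_lit 0) (XT.nd (nat_lit 78) (nat_lit 228) (nat_lit 0) (XT.lf (nat_lit 0) (nat_lit 481668368) (nat_lit 152) (nat_lit 4924803549) (nat_lit 76) (nat_lit 11304170353) (nat_lit 26) (nat_lit 5) (nat_lit 28) (nat_lit 5) (nat_lit 27) (nat_lit 5) (nat_lit 276) (nat_lit 261) (nat_lit 243)) (XT.nd (nat_lit 78) (nat_lit 76) (nat_lit 0) (XT.lf (nat_lit 0) (nat_lit 8396415056) (nat_lit 228) (nat_lit 5027268367) (nat_lit 76) (nat_lit 4890320250) (nat_lit 24) (nat_lit 5) (nat_lit 27) (nat_lit 5) (nat_lit 25) (nat_lit 4) (nat_lit 277) (nat_lit 261) (nat_lit 242)) (XT.lf (nat_lit 0) (nat_lit 14618825941) (nat_lit 76) (nat_lit 3329421688) (nat_lit 152) (nat_lit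 2173752250) (nat_lit 23) (nat_lit 5) (nat_lit 24) (nat_lit 5) (nat_lit 25) (nat_lit 4) (nat_lit 278) (nat_lit 261) (nat_lit 241)))) (XT.nd (nat_lit 156) (nat_lit 228) (nat_lit 0) (XT.nd (nat_lit 78) (nat_lit 76) (nat_lit 0) (XT.lf (nat_lit 0) (nat_lit 6949669782) (nat_lit 228) (nat_lit 6754248799) (nat_lit 76) (nat_lit 8440041821) (nat_lit 20) (nat_lit 5) (nat_lit 23) (nat_lit 5) (nat_lit 21) (nat_lit 4) (nat_lit 279) (nat_lit 261) (nat_lit 240)) (XT.lf (nat_lit 0) (nat_lit 15612838517) (nat_lit 76) (nat_lit 2164869255) (nat_lit 152) (nat_lit 6649889669) (nat_lit 19) (nat_lit 5) (nat_lit 20) (nat_lit 5) (nat_lit 21) (nat_lit 4) (nat_lit 280) (nat_lit 261) (nat_lit 239))) (XT.nd (nat_lit 78) (nat_lit 76) (nat_lit 0) (XT.lf (nat_lit 0) (nat_lit 3703285464) (nat_lit 152) (nat_lit 12204367846) (nat_lit 76) (nat_lit 11085203775) (nat_lit 17) (nat_lit 5) (nat_lit 19) (nat_lit 5) (nat_lit 18)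 (nat_lit 4) (nat_lit 281) (nat_lit 261) (nat_lit 238)) (XT.lf (nat_lit 0) (nat_lit 12653922757) (nat_lit 76) (nat_lit 3052715325) (nat_lit 152) (nat_lit 14183232797) (nat_lit 16) (nat_lit 5) (nat_lit 17) (nat_lit 5) (nat_lit 18) (nat_lit 4) (nat_lit 282) (nat_lit 261) (nat_lit 237)))))) (XT.nd (nat_lit 546) (nat_lit 380) (nat_lit 0) (XT.nd (nat_lit 234) (nat_lit 304) (nat_lit 0) (XT.nd (nat_lit 78) (nat_lit 152) (nat_lit 0) (XT.lf (nat_lit 0) (nat_lit 8672211624) (nat_lit 76) (nat_lit 21556284472) (nat_lit 76) (nat_lit 2935551810) (nat_lit 15) (nat_lit 4) (nat_lit 16) (nat_lit 5) (nat_lit 16) (nat_lit 4) (nat_lit 283) (nat_lit 261) (nat_lit 236)) (XT.nd (nat_lit 78) (nat_lit 0) (nat_lit 0) (XT.lf (nat_lit 0) (nat_lit 2148382568) (nat_lit 76) (nat_lit 7873351891) (nat_lit 152) (nat_lit 26846607132) (nat_lit 13) (nat_lit 5) (nat_lit 14) (nat_lit 5) (nat_lit 15) (nat_lit 4) (nat_lit 284)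 (nat_lit 261) (nat_lit 235)) (XT.lf (nat_lit 0) (nat_lit 25554988735) (nat_lit 152) (nat_lit 7320883734) (nat_lit 0) (nat_lit 8181847574) (nat_lit 13) (nat_lit 5) (nat_lit 15) (nat_lit 4) (nat_lit 13) (nat_lit 4) (nat_lit 285) (nat_lit 261) (nat_lit 234)))) (XT.nd (nat_lit 156) (nat_lit 76) (nat_lit 0) (XT.nd (nat_lit 78) (nat_lit 152) (nat_lit 0) (XT.lf (nat_lit 0) (nat_lit 25023240658) (nat_lit 76) (nat_lit 19110726496) (nat_lit 76) (nat_lit 1684310500) (nat_lit 12) (nat_lit 4) (nat_lit 13) (nat_lit 5) (nat_lit 13) (nat_lit 4) (nat_lit 286) (nat_lit 261) (nat_lit 233)) (XT.lf (nat_lit 0) (nat_lit 11423556820) (nat_lit 76) (nat_lit 2468894506) (nat_lit 152) (nat_lit 37341457646) (nat_lit 10) (nat_lit 5) (nat_lit 11) (nat_lit 5) (nat_lit 12) (nat_lit 4) (nat_lit 287) (nat_lit 261) (nat_lit 232))) (XT.nd (nat_lit 78) (nat_lit 76) (nat_lit 0) (XT.lf (nat_lit 0) (nat_lit 32640292402) (nat_lit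 152) (nat_lit 8318842848) (nat_lit 0) (nat_lit 16424528171) (nat_lit 10) (nat_lit 5) (nat_lit 12) (nat_lit 4) (nat_lit 10) (nat_lit 4) (nat_lit 288) (nat_lit 261) (nat_lit 231)) (XT.lf (nat_lit 0) (nat_lit 29132008932) (nat_lit 76) (nat_lit 25758439303) (nat_lit 76) (nat_lit 9510240749) (nat_lit 9) (nat_lit 4) (nat_lit 10) (nat_lit 5) (nat_lit 10) (nat_lit 4) (nat_lit 289) (nat_lit 261) (nat_lit 230))))) (XT.nd (nat_lit 234) (nat_lit 228) (nat_lit 0) (XT.nd (nat_lit 78) (nat_lit 76) (nat_lit 0) (XT.lf (nat_lit 0) (nat_lit 7782002816) (nat_lit 152) (nat_lit 89836455) (nat_lit 76) (nat_lit 64569058962) (nat_lit 8) (nat_lit 5) (nat_lit 10) (nat_lit 5) (nat_lit 9) (nat_lit 4) (nat_lit 290) (nat_lit 261) (nat_lit 229)) (XT.nd (nat_lit 78) (nat_lit 0) (nat_lit 0) (XT.lf (nat_lit 0) (nat_lit 28405954979) (nat_lit 152) (nat_lit 39844853169) (nat_lit 0) (nat_lit 13312503755) (nat_lit 7) (nat_lit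 5) (nat_lit 9) (nat_lit 4) (nat_lit 7) (nat_lit 4) (nat_lit 291) (nat_lit 261) (nat_lit 228)) (XT.lf (nat_lit 0) (nat_lit 52284011623) (nat_lit 152) (nat_lit 2586432642) (nat_lit 0) (nat_lit 37170814016) (nat_lit 7) (nat_lit 5) (nat_lit 9) (nat_lit 4) (nat_lit 7) (nat_lit 4) (nat_lit 292) (nat_lit 261) (nat_lit 227)))) (XT.nd (nat_lit 156) (nat_lit 152) (nat_lit 0) (XT.nd (nat_lit 78) (nat_lit 0) (nat_lit 0) (XT.lf (nat_lit 0) (nat_lit 42272607438) (nat_lit 76) (nat_lit 38435750566) (nat_lit 76) (nat_lit 23305382191) (nat_lit 6) (nat_lit 4) (nat_lit 7) (nat_lit 5) (nat_lit 7) (nat_lit 4) (nat_lit 293) (nat_lit 261) (nat_lit 226)) (XT.lf (nat_lit 0) (nat_lit 93923040190) (nat_lit 76) (nat_lit 19501071029) (nat_lit 76) (nat_lit 4355771552) (nat_lit 6) (nat_lit 4) (nat_lit 7) (nat_lit 5) (nat_lit 7) (nat_lit 4) (nat_lit 294) (nat_lit 261) (nat_lit 225))) (XT.nd (nat_lit 78) (nat_lit 0) (nat_lit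 0) (XT.lf (nat_lit 0) (nat_lit 17085072561) (nat_lit 152) (nat_lit 113401026475) (nat_lit 0) (nat_lit 3049625297) (nat_lit 4) (nat_lit 5) (nat_lit 6) (nat_lit 4) (nat_lit 4) (nat_lit 4) (nat_lit 295) (nat_lit 261) (nat_lit 224)) (XT.lf (nat_lit 0) (nat_lit 42703763173) (nat_lit 152) (nat_lit 80186701572) (nat_lit 0) (nat_lit 28657862151) (nat_lit 4) (nat_lit 5) (nat_lit 6) (nat_lit 4) (nat_lit 4) (nat_lit 4) (nat_lit 296) (nat_lit 261) (nat_lit 223))))))))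
noncomputable def xc25 : XT := (XT.nd (nat_lit 2106) (nat_lit 0) (nat_lit 0) (XT.nd (nat_lit 1014) (nat_lit 0) (nat_lit 0) (XT.nd (nat_lit 468) (nat_lit 152) (nat_lit 0) (XT.nd (nat_lit 234) (nat_lit 0) (nat_lit 0) (XT.nd (nat_lit 78) (nat_lit 76) (nat_lit 0) (XT.lf (nat_lit 0) (nat_lit 72130769393) (nat_lit 152) (nat_lit 42059036679) (nat_lit 0) (nat_lit 58075778147) (nat_lit 4) (nat_lit 5) (nat_lit 6) (nat_lit 4) (nat_lit 4) (nat_lit 4) (nat_lit 297) (nat_lit 261) (nat_lit 222)) (XT.nd (nat_lit 78) (nat_lit 0) (nat_lit 0) (XT.lf (nat_lit 0) (nat_lit 1818934738) (nat_lit 76) (nat_lit 104166647681) (nat_lit 76) (nat_lit 90103751891) (nat_lit 3) (nat_lit 4) (nat_lit 4) (nat_lit 5) (nat_lit 4) (nat_lit 4) (nat_lit 298) (nat_lit 261) (nat_lit 221)) (XT.lf (nat_lit 0) (nat_lit 54770800288) (nat_lit 76) (nat_lit 91344925642) (nat_lit 76) (nat_lit 77275156337) (nat_lit 3) (nat_lit 4) (nat_lit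 4) (nat_lit 5) (nat_lit 4) (nat_lit 4) (nat_lit 299) (nat_lit 261) (nat_lit 220)))) (XT.nd (nat_lit 78) (nat_lit 0) (nat_lit 0) (XT.lf (nat_lit 0) (nat_lit 115617820394) (nat_lit 76) (nat_lit 76623748775) (nat_lit 76) (nat_lit 62548002500) (nat_lit 3) (nat_lit 4) (nat_lit 4) (nat_lit 5) (nat_lit 4) (nat_lit 4) (nat_lit 300) (nat_lit 261) (nat_lit 219)) (XT.nd (nat_lit 78) (nat_lit 0) (nat_lit 0) (XT.lf (nat_lit 0) (nat_lit 185550480233) (nat_lit 76) (nat_lit 59715094055) (nat_lit 76) (nat_lit 45634150414) (nat_lit 3) (nat_lit 4) (nat_lit 4) (nat_lit 5) (nat_lit 4) (nat_lit 4) (nat_lit 301) (nat_lit 261) (nat_lit 218)) (XT.lf (nat_lit 0) (nat_lit 265937027496) (nat_lit 76) (nat_lit 40288139975) (nat_lit 76) (nat_lit 26202676887) (nat_lit 3) (nat_lit 4) (nat_lit 4) (nat_lit 5) (nat_lit 4) (nat_lit 4) (nat_lit 302) (nat_lit 261) (nat_lit 217))))) (XT.nd (nat_lit 234) (nat_lit 0) (nat_lit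 0) (XT.nd (nat_lit 78) (nat_lit 152) (nat_lit 0) (XT.lf (nat_lit 0) (nat_lit 358350242456) (nat_lit 76) (nat_lit 17962793956) (nat_lit 76) (nat_lit 3873400913) (nat_lit 3) (nat_lit 4) (nat_lit 4) (nat_lit 5) (nat_lit 4) (nat_lit 4) (nat_lit 303) (nat_lit 261) (nat_lit 216)) (XT.nd (nat_lit 78) (nat_lit 0) (nat_lit 0) (XT.lf (nat_lit 0) (nat_lit 21651563624) (nat_lit 152) (nat_lit 404737672197) (nat_lit 0) (nat_lit 8602665109) (nat_lit 1) (nat_lit 5) (nat_lit 3) (nat_lit 4) (nat_lit 1) (nat_lit 4) (nat_lit 304) (nat_lit 261) (nat_lit 215)) (XT.lf (nat_lit 0) (nat_lit 51918424386) (nat_lit 152) (nat_lit 407133538289) (nat_lit 0) (nat_lit 38866774381) (nat_lit 1) (nat_lit 5) (nat_lit 3) (nat_lit 4) (nat_lit 1) (nat_lit 4) (nat_lit 305) (nat_lit 261) (nat_lit 214)))) (XT.nd (nat_lit 156) (nat_lit 0) (nat_lit 0) (XT.nd (nat_lit 78) (nat_lit 0) (nat_lit 0) (XT.lf (nat_lit 0) (nat_lit 86713942766)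 (nat_lit 152) (nat_lit 409911666800) (nat_lit 0) (nat_lit 73659900159) (nat_lit 1) (nat_lit 5) (nat_lit 3) (nat_lit 4) (nat_lit 1) (nat_lit 4) (nat_lit 306) (nat_lit 261) (nat_lit 213)) (XT.lf (nat_lit 0) (nat_lit 126718900644) (nat_lit 152) (nat_lit 413126412419) (nat_lit 0) (nat_lit 113662777514) (nat_lit 1) (nat_lit 5) (nat_lit 3) (nat_lit 4) (nat_lit 1) (nat_lit 4) (nat_lit 307) (nat_lit 261) (nat_lit 212))) (XT.nd (nat_lit 78) (nat_lit 0) (nat_lit 0) (XT.lf (nat_lit 0) (nat_lit 172716003717) (nat_lit 152) (nat_lit 416840672341) (nat_lit 0) (nat_lit 159658071438) (nat_lit 1) (nat_lit 5) (nat_lit 3) (nat_lit 4) (nat_lit 1) (nat_lit 4) (nat_lit 308) (nat_lit 261) (nat_lit 211)) (XT.lf (nat_lit 0) (nat_lit 225605195308) (nat_lit 152) (nat_lit 421127116871) (nat_lit 0) (nat_lit 212545689854) (nat_lit 1) (nat_lit 5) (nat_lit 3) (nat_lit 4) (nat_lit 1) (nat_lit 4) (nat_lit 309) (nat_lit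 261) (nat_lit 210)))))) (XT.nd (nat_lit 546) (nat_lit 0) (nat_lit 0) (XT.nd (nat_lit 234) (nat_lit 0) (nat_lit 0) (XT.nd (nat_lit 78) (nat_lit 0) (nat_lit 0) (XT.lf (nat_lit 0) (nat_lit 286421263946) (nat_lit 152) (nat_lit 426069611227) (nat_lit 0) (nat_lit 273360390516) (nat_lit 1) (nat_lit 5) (nat_lit 3) (nat_lit 4) (nat_lit 1) (nat_lit 4) (nat_lit 310) (nat_lit 261) (nat_lit 209)) (XT.nd (nat_lit 78) (nat_lit 0) (nat_lit 0) (XT.lf (nat_lit 0) (nat_lit 356354089237) (nat_lit 152) (nat_lit 431764856386) (nat_lit 0) (nat_lit 343292026260) (nat_lit 1) (nat_lit 5) (nat_lit 3) (nat_lit 4) (nat_lit 1) (nat_lit 4) (nat_lit 311) (nat_lit 261) (nat_lit 208)) (XT.lf (nat_lit 0) (nat_lit 436771922108) (nat_lit 152) (nat_lit 438324281056) (nat_lit 0) (nat_lit 423708824745) (nat_lit 1) (nat_lit 5) (nat_lit 3) (nat_lit 4) (nat_lit 1) (nat_lit 4) (nat_lit 312) (nat_lit 261) (nat_lit 207)))) (XT.nd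 (nat_lit 156) (nat_lit 0) (nat_lit 0) (XT.nd (nat_lit 78) (nat_lit 0) (nat_lit 0) (XT.lf (nat_lit 0) (nat_lit 529248154944) (nat_lit 152) (nat_lit 445876221809) (nat_lit 0) (nat_lit 516184158113) (nat_lit 1) (nat_lit 5) (nat_lit 3) (nat_lit 4) (nat_lit 1) (nat_lit 4) (nat_lit 313) (nat_lit 261) (nat_lit 206)) (XT.lf (nat_lit 0) (nat_lit 635592105342) (nat_lit 152) (nat_lit 454568434006) (nat_lit 0) (nat_lit 622527326365) (nat_lit 1) (nat_lit 5) (nat_lit 3) (nat_lit 4) (nat_lit 1) (nat_lit 4) (nat_lit 314) (nat_lit 261) (nat_lit 205))) (XT.nd (nat_lit 78) (nat_lit 0) (nat_lit 0) (XT.lf (nat_lit 0) (nat_lit 757884415811) (nat_lit 152) (nat_lit 464570982669) (nat_lit 0) (nat_lit 744818956707) (nat_lit 1) (nat_lit 5) (nat_lit 3) (nat_lit 4) (nat_lit 1) (nat_lit 4) (nat_lit 315) (nat_lit 261) (nat_lit 204)) (XT.lf (nat_lit 0) (nat_lit 898517761989) (nat_lit 152) (nat_lit 476079569837) (nat_lit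 0) (nat_lit 885451711472) (nat_lit 1) (nat_lit 5) (nat_lit 3) (nat_lit 4) (nat_lit 1) (nat_lit 4) (nat_lit 316) (nat_lit 261) (nat_lit 203))))) (XT.nd (nat_lit 234) (nat_lit 0) (nat_lit 0) (XT.nd (nat_lit 78) (nat_lit 0) (nat_lit 0) (XT.lf (nat_lit 0) (nat_lit 1060243665868) (nat_lit 152) (nat_lit 489319363519) (nat_lit 0) (nat_lit 1047177101077) (nat_lit 1) (nat_lit 5) (nat_lit 3) (nat_lit 4) (nat_lit 1) (nat_lit 4) (nat_lit 317) (nat_lit 261) (nat_lit 202)) (XT.nd (nat_lit 78) (nat_lit 0) (nat_lit 0) (XT.lf (nat_lit 0) (nat_lit 1246226329915) (nat_lit 152) (nat_lit 504549403157) (nat_lit 0) (nat_lit 1233159317930) (nat_lit 1) (nat_lit 5) (nat_lit 3) (nat_lit 4) (nat_lit 1) (nat_lit 4) (nat_lit 318) (nat_lit 261) (nat_lit 201)) (XT.lf (nat_lit 0) (nat_lit 1460104545382) (nat_lit 152) (nat_lit 522067667788) (nat_lit 0) (nat_lit 1447037144533) (nat_lit 1) (nat_lit 5) (nat_lit 3) (nat_lit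 4) (nat_lit 1) (nat_lit 4) (nat_lit 319) (nat_lit 261) (nat_lit 200)))) (XT.nd (nat_lit 156) (nat_lit 0) (nat_lit 0) (XT.nd (nat_lit 78) (nat_lit 0) (nat_lit 0) (XT.lf (nat_lit 0) (nat_lit 1706062886051) (nat_lit 152) (nat_lit 542216906067) (nat_lit 0) (nat_lit 1692995147058) (nat_lit 1) (nat_lit 5) (nat_lit 3) (nat_lit 4) (nat_lit 1) (nat_lit 4) (nat_lit 320) (nat_lit 261) (nat_lit 199)) (XT.lf (nat_lit 0) (nat_lit 1988913580326) (nat_lit 152) (nat_lit 565391342222) (nat_lit 0) (nat_lit 1975845547296) (nat_lit 1) (nat_lit 5) (nat_lit 3) (nat_lit 4) (nat_lit 1) (nat_lit 4) (nat_lit 321) (nat_lit 261) (nat_lit 198))) (XT.nd (nat_lit 78) (nat_lit 0) (nat_lit 0) (XT.lf (nat_lit 0) (nat_lit 2314190663530) (nat_lit 152) (nat_lit 592044389134) (nat_lit 0) (nat_lit 2301122374815) (nat_lit 1) (nat_lit 5) (nat_lit 3) (nat_lit 4) (nat_lit 1) (nat_lit 4) (nat_lit 322) (nat_lit 261) (nat_lit 197))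 (XT.lf (nat_lit 0) (nat_lit 2688258252508) (nat_lit 152) (nat_lit 622697519460) (nat_lit 0) (nat_lit 2675189741459) (nat_lit 1) (nat_lit 5) (nat_lit 3) (nat_lit 4) (nat_lit 1) (nat_lit 4) (nat_lit 323) (nat_lit 261) (nat_lit 196))))))) (XT.nd (nat_lit 36348) (nat_lit 0) (nat_lit 1216) (XT.nd (nat_lit 35802) (nat_lit 0) (nat_lit 3724) (XT.nd (nat_lit 234) (nat_lit 0) (nat_lit 0) (XT.nd (nat_lit 78) (nat_lit 0) (nat_lit 0) (XT.lf (nat_lit 0) (nat_lit 3118435060958) (nat_lit 152) (nat_lit 657950468358) (nat_lit 0) (nat_lit 3105366356574) (nat_lit 1) (nat_lit 5) (nat_lit 3) (nat_lit 4) (nat_lit 1) (nat_lit 4) (nat_lit 324) (nat_lit 261) (nat_lit 195)) (XT.nd (nat_lit 78) (nat_lit 0) (nat_lit 0) (XT.lf (nat_lit 0) (nat_lit 3613137591653) (nat_lit 152) (nat_lit 698492967437) (nat_lit 0) (nat_lit 3600068719152) (nat_lit 1) (nat_lit 5) (nat_lit 3) (nat_lit 4) (nat_lit 1) (nat_lit 4) (nat_lit 325)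 (nat_lit 261) (nat_lit 194)) (XT.lf (nat_lit 0) (nat_lit 4182044807151) (nat_lit 152) (nat_lit 745118239506) (nat_lit 0) (nat_lit 4168975788461) (nat_lit 1) (nat_lit 5) (nat_lit 3) (nat_lit 4) (nat_lit 1) (nat_lit 4) (nat_lit 326) (nat_lit 261) (nat_lit 193)))) (XT.nd (nat_lit 156) (nat_lit 0) (nat_lit 0) (XT.nd (nat_lit 78) (nat_lit 0) (nat_lit 0) (XT.lf (nat_lit 0) (nat_lit 4836287500797) (nat_lit 152) (nat_lit 798738518148) (nat_lit 0) (nat_lit 4823218354987) (nat_lit 1) (nat_lit 5) (nat_lit 3) (nat_lit 4) (nat_lit 1) (nat_lit 4) (nat_lit 327) (nat_lit 261) (nat_lit 192)) (XT.lf (nat_lit 0) (nat_lit 5588666073121) (nat_lit 152) (nat_lit 860402895771) (nat_lit 0) (nat_lit 5575596816772) (nat_lit 1) (nat_lit 5) (nat_lit 3) (nat_lit 4) (nat_lit 1) (nat_lit 4) (nat_lit 328) (nat_lit 261) (nat_lit 191))) (XT.nd (nat_lit 78) (nat_lit 0) (nat_lit 0) (XT.lf (nat_lit 0) (nat_lit 6453900974451)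 (nat_lit 152) (nat_lit 931317849330) (nat_lit 0) (nat_lit 6440831621980) (nat_lit 1) (nat_lit 5) (nat_lit 3) (nat_lit 4) (nat_lit 1) (nat_lit 4) (nat_lit 329) (nat_lit 261) (nat_lit 190)) (XT.lf (nat_lit 0) (nat_lit 7448920713724) (nat_lit 152) (nat_lit 1012870845306) (nat_lit 0) (nat_lit 7435851277670) (nat_lit 1) (nat_lit 5) (nat_lit 3) (nat_lit 4) (nat_lit 1) (nat_lit 4) (nat_lit 330) (nat_lit 261) (nat_lit 189))))) (XT.nd (nat_lit 234) (nat_lit 1520) (nat_lit 0) (XT.nd (nat_lit 78) (nat_lit 380) (nat_lit 0) (XT.lf (nat_lit 0) (nat_lit 1367821261) (nat_lit 0) (nat_lit 1367821261) (nat_lit 228) (nat_lit 675023492) (nat_lit 75) (nat_lit 5) (nat_lit 75) (nat_lit 3) (nat_lit 78) (nat_lit 3) (nat_lit 262) (nat_lit 262) (nat_lit 256)) (XT.nd (nat_lit 78) (nat_lit 0) (nat_lit 76) (XT.lf (nat_lit 76) (nat_lit 2140790688) (nat_lit 0) (nat_lit 18934939) (nat_lit 380) (nat_lit 4886316741) (nat_lit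 71) (nat_lit 5) (nat_lit 70) (nat_lit 3) (nat_lit 75) (nat_lit 5) (nat_lit 263) (nat_lit 262) (nat_lit 255)) (XT.lf (nat_lit 76) (nat_lit 1817842654) (nat_lit 0) (nat_lit 3918165632) (nat_lit 380) (nat_lit 1597223656) (nat_lit 72) (nat_lit 5) (nat_lit 71) (nat_lit 5) (nat_lit 76) (nat_lit 5) (nat_lit 264) (nat_lit 262) (nat_lit 254)))) (XT.nd (nat_lit 156) (nat_lit 912) (nat_lit 0) (XT.nd (nat_lit 78) (nat_lit 380) (nat_lit 0) (XT.lf (nat_lit 0) (nat_lit 1703808871) (nat_lit 380) (nat_lit 5872043965) (nat_lit 76) (nat_lit 114158842) (nat_lit 67) (nat_lit 5) (nat_lit 72) (nat_lit 5) (nat_lit 68) (nat_lit 5) (nat_lit 265) (nat_lit 262) (nat_lit 253)) (XT.lf (nat_lit 0) (nat_lit 2025392132) (nat_lit 380) (nat_lit 3206609604) (nat_lit 456) (nat_lit 2879685152) (nat_lit 62) (nat_lit 5) (nat_lit 67) (nat_lit 5) (nat_lit 68) (nat_lit 5) (nat_lit 266) (nat_lit 262) (nat_lit 252))) (XT.nd (nat_lit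 78) (nat_lit 380) (nat_lit 0) (XT.lf (nat_lit 0) (nat_lit 492790329) (nat_lit 532) (nat_lit 6082979141) (nat_lit 76) (nat_lit 2033403185) (nat_lit 55) (nat_lit 5) (nat_lit 62) (nat_lit 5) (nat_lit 56) (nat_lit 5) (nat_lit 267) (nat_lit 262) (nat_lit 251)) (XT.lf (nat_lit 0) (nat_lit 3214240397) (nat_lit 380) (nat_lit 935776919) (nat_lit 456) (nat_lit 5029905759) (nat_lit 50) (nat_lit 5) (nat_lit 55) (nat_lit 5) (nat_lit 56) (nat_lit 5) (nat_lit 268) (nat_lit 262) (nat_lit 250)))))) (XT.nd (nat_lit 546) (nat_lit 988) (nat_lit 0) (XT.nd (nat_lit 234) (nat_lit 836) (nat_lit 0) (XT.nd (nat_lit 78) (nat_lit 456) (nat_lit 0) (XT.lf (nat_lit 0) (nat_lit 4120026356) (nat_lit 228) (nat_lit 4290210556) (nat_lit 304) (nat_lit 1422197960) (nat_lit 47) (nat_lit 5) (nat_lit 50) (nat_lit 5) (nat_lit 51) (nat_lit 5) (nat_lit 269) (nat_lit 262) (nat_lit 249)) (XT.nd (nat_lit 78) (nat_lit 152) (nat_lit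 0) (XT.lf (nat_lit 0) (nat_lit 2656242206) (nat_lit 304) (nat_lit 5347289147) (nat_lit 76) (nat_lit 2569171751) (nat_lit 43) (nat_lit 5) (nat_lit 47) (nat_lit 5) (nat_lit 44) (nat_lit 5) (nat_lit 270) (nat_lit 262) (nat_lit 248)) (XT.lf (nat_lit 0) (nat_lit 6529064895) (nat_lit 152) (nat_lit 884682439) (nat_lit 228) (nat_lit 3995539423) (nat_lit 41) (nat_lit 5) (nat_lit 43) (nat_lit 5) (nat_lit 44) (nat_lit 5) (nat_lit 271) (nat_lit 262) (nat_lit 247)))) (XT.nd (nat_lit 156) (nat_lit 380) (nat_lit 0) (XT.nd (nat_lit 78) (nat_lit 152) (nat_lit 0) (XT.lf (nat_lit 0) (nat_lit 753767246) (nat_lit 304) (nat_lit 4359636623) (nat_lit 76) (nat_lit 7235973950) (nat_lit 37) (nat_lit 5) (nat_lit 41) (nat_lit 5) (nat_lit 38) (nat_lit 5) (nat_lit 272) (nat_lit 262) (nat_lit 246)) (XT.lf (nat_lit 0) (nat_lit 6225152356) (nat_lit 228) (nat_lit 3827917886) (nat_lit 76) (nat_lit 3349654670) (nat_lit 35)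 (nat_lit 5) (nat_lit 38) (nat_lit 5) (nat_lit 36) (nat_lit 5) (nat_lit 273) (nat_lit 262) (nat_lit 245))) (XT.nd (nat_lit 78) (nat_lit 228) (nat_lit 0) (XT.lf (nat_lit 0) (nat_lit 11350857853) (nat_lit 152) (nat_lit 1485559664) (nat_lit 228) (nat_lit 1752336531) (nat_lit 33) (nat_lit 5) (nat_lit 35) (nat_lit 5) (nat_lit 36) (nat_lit 5) (nat_lit 274) (nat_lit 262) (nat_lit 244)) (XT.lf (nat_lit 0) (nat_lit 4701279246) (nat_lit 228) (nat_lit 2802932454) (nat_lit 76) (nat_lit 8404892657) (nat_lit 30) (nat_lit 5) (nat_lit 33) (nat_lit 5) (nat_lit 31) (nat_lit 5) (nat_lit 275) (nat_lit 262) (nat_lit 243))))) (XT.nd (nat_lit 234) (nat_lit 532) (nat_lit 0) (XT.nd (nat_lit 78) (nat_lit 304) (nat_lit 0) (XT.lf (nat_lit 0) (nat_lit 12395761043) (nat_lit 228) (nat_lit 2427020205) (nat_lit 76) (nat_lit 2571107886) (nat_lit 28) (nat_lit 5) (nat_lit 31) (nat_lit 5) (nat_lit 29) (nat_lit 4) (nat_lit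 276) (nat_lit 262) (nat_lit 242)) (XT.nd (nat_lit 78) (nat_lit 152) (nat_lit 0) (XT.lf (nat_lit 0) (nat_lit 2569952418) (nat_lit 152) (nat_lit 2303082004) (nat_lit 76) (nat_lit 14181623994) (nat_lit 26) (nat_lit 5) (nat_lit 28) (nat_lit 5) (nat_lit 27) (nat_lit 5) (nat_lit 277) (nat_lit 262) (nat_lit 241)) (XT.lf (nat_lit 0) (nat_lit 11512965189) (nat_lit 228) (nat_lit 2588106120) (nat_lit 76) (nat_lit 6810337632) (nat_lit 24) (nat_lit 5) (nat_lit 27) (nat_lit 5) (nat_lit 25) (nat_lit 4) (nat_lit 278) (nat_lit 262) (nat_lit 240)))) (XT.nd (nat_lit 156) (nat_lit 228) (nat_lit 0) (XT.nd (nat_lit 78) (nat_lit 228) (nat_lit 0) (XT.lf (nat_lit 0) (nat_lit 19734609415) (nat_lit 76) (nat_lit 2591031628) (nat_lit 152) (nat_lit 678865226) (nat_lit 23) (nat_lit 5) (nat_lit 24) (nat_lit 5) (nat_lit 25) (nat_lit 4) (nat_lit 279) (nat_lit 262) (nat_lit 239)) (XT.lf (nat_lit 0) (nat_lit 9591316692)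 (nat_lit 228) (nat_lit 4909789773) (nat_lit 76) (nat_lit 10835722356) (nat_lit 20) (nat_lit 5) (nat_lit 23) (nat_lit 5) (nat_lit 21) (nat_lit 4) (nat_lit 280) (nat_lit 262) (nat_lit 238))) (XT.nd (nat_lit 78) (nat_lit 152) (nat_lit 0) (XT.lf (nat_lit 0) (nat_lit 20570479344) (nat_lit 76) (nat_lit 1327398207) (nat_lit 152) (nat_lit 6076891525) (nat_lit 19) (nat_lit 5) (nat_lit 20) (nat_lit 5) (nat_lit 21) (nat_lit 4) (nat_lit 281) (nat_lit 262) (nat_lit 237)) (XT.lf (nat_lit 0) (nat_lit 5642125672) (nat_lit 152) (nat_lit 11485835386) (nat_lit 76) (nat_lit 13802603745) (nat_lit 17) (nat_lit 5) (nat_lit 19) (nat_lit 5) (nat_lit 18) (nat_lit 4) (nat_lit 282) (nat_lit 262) (nat_lit 236))))))))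
noncomputable def xc26 : XT := (XT.nd (nat_lit 2106) (nat_lit 0) (nat_lit 0) (XT.nd (nat_lit 1014) (nat_lit 380) (nat_lit 0) (XT.nd (nat_lit 468) (nat_lit 304) (nat_lit 0) (XT.nd (nat_lit 234) (nat_lit 228) (nat_lit 0) (XT.nd (nat_lit 78) (nat_lit 228) (nat_lit 0) (XT.lf (nat_lit 0) (nat_lit 16885422772) (nat_lit 76) (nat_lit 2436240400) (nat_lit 152) (nat_lit 14950485072) (nat_lit 16) (nat_lit 5) (nat_lit 17) (nat_lit 5) (nat_lit 18) (nat_lit 4) (nat_lit 283) (nat_lit 262) (nat_lit 235)) (XT.nd (nat_lit 78) (nat_lit 152) (nat_lit 0) (XT.lf (nat_lit 0) (nat_lit 12177928431) (nat_lit 76) (nat_lit 23755146397) (nat_lit 76) (nat_lit 2111537730) (nat_lit 15) (nat_lit 4) (nat_lit 16) (nat_lit 5) (nat_lit 16) (nat_lit 4) (nat_lit 284) (nat_lit 262) (nat_lit 234)) (XT.lf (nat_lit 0) (nat_lit 4547141057) (nat_lit 76) (nat_lit 8072227474) (nat_lit 152) (nat_lit 29691337681) (nat_lit 13) (nat_lit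 5) (nat_lit 14) (nat_lit 5) (nat_lit 15) (nat_lit 4) (nat_lit 285) (nat_lit 262) (nat_lit 233)))) (XT.nd (nat_lit 78) (nat_lit 228) (nat_lit 0) (XT.lf (nat_lit 0) (nat_lit 30360405816) (nat_lit 152) (nat_lit 6557479304) (nat_lit 0) (nat_lit 10220426641) (nat_lit 13) (nat_lit 5) (nat_lit 15) (nat_lit 4) (nat_lit 13) (nat_lit 4) (nat_lit 286) (nat_lit 262) (nat_lit 232)) (XT.nd (nat_lit 78) (nat_lit 152) (nat_lit 0) (XT.lf (nat_lit 0) (nat_lit 30480693913) (nat_lit 76) (nat_lit 21159712914) (nat_lit 76) (nat_lit 979450310) (nat_lit 12) (nat_lit 4) (nat_lit 13) (nat_lit 5) (nat_lit 13) (nat_lit 4) (nat_lit 287) (nat_lit 262) (nat_lit 231)) (XT.lf (nat_lit 0) (nat_lit 14740884959) (nat_lit 76) (nat_lit 2064969190) (nat_lit 152) (nat_lit 42046573369) (nat_lit 10) (nat_lit 5) (nat_lit 11) (nat_lit 5) (nat_lit 12) (nat_lit 4) (nat_lit 288) (nat_lit 262) (nat_lit 230))))) (XT.nd (nat_lit 234)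 (nat_lit 76) (nat_lit 0) (XT.nd (nat_lit 78) (nat_lit 228) (nat_lit 0) (XT.lf (nat_lit 0) (nat_lit 38273863291) (nat_lit 152) (nat_lit 8130372356) (nat_lit 0) (nat_lit 19527796871) (nat_lit 10) (nat_lit 5) (nat_lit 12) (nat_lit 4) (nat_lit 10) (nat_lit 4) (nat_lit 289) (nat_lit 262) (nat_lit 229)) (XT.nd (nat_lit 78) (nat_lit 152) (nat_lit 0) (XT.lf (nat_lit 0) (nat_lit 34816531810) (nat_lit 76) (nat_lit 28980430596) (nat_lit 76) (nat_lit 10209839169) (nat_lit 9) (nat_lit 4) (nat_lit 10) (nat_lit 5) (nat_lit 10) (nat_lit 4) (nat_lit 290) (nat_lit 262) (nat_lit 228)) (XT.lf (nat_lit 0) (nat_lit 1128102439) (nat_lit 76) (nat_lit 8448830234) (nat_lit 152) (nat_lit 73679765140) (nat_lit 7) (nat_lit 5) (nat_lit 8) (nat_lit 5) (nat_lit 9) (nat_lit 4) (nat_lit 291) (nat_lit 262) (nat_lit 227)))) (XT.nd (nat_lit 156) (nat_lit 76) (nat_lit 0) (XT.nd (nat_lit 78) (nat_lit 0) (nat_lit 0) (XT.lf (nat_lit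 0) (nat_lit 33227573359) (nat_lit 152) (nat_lit 44714789837) (nat_lit 0) (nat_lit 15810478960) (nat_lit 7) (nat_lit 5) (nat_lit 9) (nat_lit 4) (nat_lit 7) (nat_lit 4) (nat_lit 292) (nat_lit 262) (nat_lit 226)) (XT.lf (nat_lit 0) (nat_lit 60614200439) (nat_lit 152) (nat_lit 2011970315) (nat_lit 0) (nat_lit 43182174937) (nat_lit 7) (nat_lit 5) (nat_lit 9) (nat_lit 4) (nat_lit 7) (nat_lit 4) (nat_lit 293) (nat_lit 262) (nat_lit 225))) (XT.nd (nat_lit 78) (nat_lit 0) (nat_lit 0) (XT.lf (nat_lit 0) (nat_lit 49494461107) (nat_lit 76) (nat_lit 43765326528) (nat_lit 76) (nat_lit 26320317458) (nat_lit 6) (nat_lit 4) (nat_lit 7) (nat_lit 5) (nat_lit 7) (nat_lit 4) (nat_lit 294) (nat_lit 262) (nat_lit 224)) (XT.lf (nat_lit 0) (nat_lit 108777550613) (nat_lit 76) (nat_lit 22047286794) (nat_lit 76) (nat_lit 4590987666) (nat_lit 6) (nat_lit 4) (nat_lit 7) (nat_lit 5) (nat_lit 7) (nat_lit 4) (nat_lit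 295) (nat_lit 262) (nat_lit 223)))))) (XT.nd (nat_lit 546) (nat_lit 152) (nat_lit 0) (XT.nd (nat_lit 234) (nat_lit 76) (nat_lit 0) (XT.nd (nat_lit 78) (nat_lit 0) (nat_lit 0) (XT.lf (nat_lit 0) (nat_lit 20019180809) (nat_lit 152) (nat_lit 129670286281) (nat_lit 0) (nat_lit 3846850651) (nat_lit 4) (nat_lit 5) (nat_lit 6) (nat_lit 4) (nat_lit 4) (nat_lit 4) (nat_lit 296) (nat_lit 262) (nat_lit 222)) (XT.nd (nat_lit 78) (nat_lit 0) (nat_lit 0) (XT.lf (nat_lit 0) (nat_lit 49432238401) (nat_lit 152) (nat_lit 91570451012) (nat_lit 0) (nat_lit 33252003700) (nat_lit 4) (nat_lit 5) (nat_lit 6) (nat_lit 4) (nat_lit 4) (nat_lit 4) (nat_lit 297) (nat_lit 262) (nat_lit 221)) (XT.lf (nat_lit 0) (nat_lit 83231176760) (nat_lit 152) (nat_lit 47807669750) (nat_lit 0) (nat_lit 67044068544) (nat_lit 4) (nat_lit 5) (nat_lit 6) (nat_lit 4) (nat_lit 4) (nat_lit 4) (nat_lit 298) (nat_lit 262) (nat_lit 220))))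 (XT.nd (nat_lit 156) (nat_lit 0) (nat_lit 0) (XT.nd (nat_lit 78) (nat_lit 0) (nat_lit 0) (XT.lf (nat_lit 0) (nat_lit 2604577341) (nat_lit 76) (nat_lit 119535342270) (nat_lit 76) (nat_lit 103342257084) (nat_lit 3) (nat_lit 4) (nat_lit 4) (nat_lit 5) (nat_lit 4) (nat_lit 4) (nat_lit 299) (nat_lit 262) (nat_lit 219)) (XT.lf (nat_lit 0) (nat_lit 63432335455) (nat_lit 76) (nat_lit 104823792695) (nat_lit 76) (nat_lit 88625510143) (nat_lit 3) (nat_lit 4) (nat_lit 4) (nat_lit 5) (nat_lit 4) (nat_lit 4) (nat_lit 300) (nat_lit 262) (nat_lit 218))) (XT.nd (nat_lit 78) (nat_lit 0) (nat_lit 0) (XT.lf (nat_lit 0) (nat_lit 133348245735) (nat_lit 76) (nat_lit 87923509532) (nat_lit 76) (nat_lit 71720707532) (nat_lit 3) (nat_lit 4) (nat_lit 4) (nat_lit 5) (nat_lit 4) (nat_lit 4) (nat_lit 301) (nat_lit 262) (nat_lit 217)) (XT.lf (nat_lit 0) (nat_lit 213720228165) (nat_lit 76) (nat_lit 68503835067) (nat_lit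 76) (nat_lit 52297103113) (nat_lit 3) (nat_lit 4) (nat_lit 4) (nat_lit 5) (nat_lit 4) (nat_lit 4) (nat_lit 302) (nat_lit 262) (nat_lit 216))))) (XT.nd (nat_lit 234) (nat_lit 0) (nat_lit 0) (XT.nd (nat_lit 78) (nat_lit 152) (nat_lit 0) (XT.lf (nat_lit 0) (nat_lit 306120778053) (nat_lit 76) (nat_lit 46184819149) (nat_lit 76) (nat_lit 29974669842) (nat_lit 3) (nat_lit 4) (nat_lit 4) (nat_lit 5) (nat_lit 4) (nat_lit 4) (nat_lit 303) (nat_lit 262) (nat_lit 215)) (XT.nd (nat_lit 78) (nat_lit 152) (nat_lit 0) (XT.lf (nat_lit 0) (nat_lit 412357732244) (nat_lit 76) (nat_lit 20529785379) (nat_lit 76) (nat_lit 4316664461) (nat_lit 3) (nat_lit 4) (nat_lit 4) (nat_lit 5) (nat_lit 4) (nat_lit 4) (nat_lit 304) (nat_lit 262) (nat_lit 214)) (XT.lf (nat_lit 0) (nat_lit 25021740105) (nat_lit 152) (nat_lit 465201936982) (nat_lit 0) (nat_lit 10007198506) (nat_lit 1) (nat_lit 5) (nat_lit 3) (nat_lit 4) (nat_lit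 1) (nat_lit 4) (nat_lit 305) (nat_lit 262) (nat_lit 213)))) (XT.nd (nat_lit 156) (nat_lit 0) (nat_lit 0) (XT.nd (nat_lit 78) (nat_lit 0) (nat_lit 0) (XT.lf (nat_lit 0) (nat_lit 59812659294) (nat_lit 152) (nat_lit 467989320298) (nat_lit 0) (nat_lit 44796037173) (nat_lit 1) (nat_lit 5) (nat_lit 3) (nat_lit 4) (nat_lit 1) (nat_lit 4) (nat_lit 306) (nat_lit 262) (nat_lit 212)) (XT.lf (nat_lit 0) (nat_lit 99813617876) (nat_lit 152) (nat_lit 471212113573) (nat_lit 0) (nat_lit 84795186605) (nat_lit 1) (nat_lit 5) (nat_lit 3) (nat_lit 4) (nat_lit 1) (nat_lit 4) (nat_lit 307) (nat_lit 262) (nat_lit 211))) (XT.nd (nat_lit 78) (nat_lit 0) (nat_lit 0) (XT.lf (nat_lit 0) (nat_lit 145807243302) (nat_lit 152) (nat_lit 474933371458) (nat_lit 0) (nat_lit 130787238856) (nat_lit 1) (nat_lit 5) (nat_lit 3) (nat_lit 4) (nat_lit 1) (nat_lit 4) (nat_lit 308) (nat_lit 262) (nat_lit 210)) (XT.lf (nat_lit 0) (nat_lit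 198693410850) (nat_lit 152) (nat_lit 479225901172) (nat_lit 0) (nat_lit 183672038427) (nat_lit 1) (nat_lit 5) (nat_lit 3) (nat_lit 4) (nat_lit 1) (nat_lit 4) (nat_lit 309) (nat_lit 262) (nat_lit 209))))))) (XT.nd (nat_lit 1014) (nat_lit 0) (nat_lit 0) (XT.nd (nat_lit 468) (nat_lit 0) (nat_lit 0) (XT.nd (nat_lit 234) (nat_lit 0) (nat_lit 0) (XT.nd (nat_lit 78) (nat_lit 0) (nat_lit 0) (XT.lf (nat_lit 0) (nat_lit 259506849887) (nat_lit 152) (nat_lit 484173686993) (nat_lit 0) (nat_lit 244484287919) (nat_lit 1) (nat_lit 5) (nat_lit 3) (nat_lit 4) (nat_lit 1) (nat_lit 4) (nat_lit 310) (nat_lit 262) (nat_lit 208)) (XT.nd (nat_lit 78) (nat_lit 0) (nat_lit 0) (XT.lf (nat_lit 0) (nat_lit 329437388567) (nat_lit 152) (nat_lit 489873533425) (nat_lit 0) (nat_lit 314413792211) (nat_lit 1) (nat_lit 5) (nat_lit 3) (nat_lit 4) (nat_lit 1) (nat_lit 4) (nat_lit 311) (nat_lit 262) (nat_lit 207)) (XT.lf (nat_lit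 0) (nat_lit 409853233082) (nat_lit 152) (nat_lit 496436959203) (nat_lit 0) (nat_lit 394828737259) (nat_lit 1) (nat_lit 5) (nat_lit 3) (nat_lit 4) (nat_lit 1) (nat_lit 4) (nat_lit 312) (nat_lit 262) (nat_lit 206)))) (XT.nd (nat_lit 78) (nat_lit 0) (nat_lit 0) (XT.lf (nat_lit 0) (nat_lit 502327736911) (nat_lit 152) (nat_lit 503992379180) (nat_lit 0) (nat_lit 487302458943) (nat_lit 1) (nat_lit 5) (nat_lit 3) (nat_lit 4) (nat_lit 1) (nat_lit 4) (nat_lit 313) (nat_lit 262) (nat_lit 205)) (XT.nd (nat_lit 78) (nat_lit 0) (nat_lit 0) (XT.lf (nat_lit 0) (nat_lit 608670183826) (nat_lit 152) (nat_lit 512687616789) (nat_lit 0) (nat_lit 593644225731) (nat_lit 1) (nat_lit 5) (nat_lit 3) (nat_lit 4) (nat_lit 1) (nat_lit 4) (nat_lit 314) (nat_lit 262) (nat_lit 204)) (XT.lf (nat_lit 0) (nat_lit 730961186918) (nat_lit 152) (nat_lit 522692796245) (nat_lit 0) (nat_lit 715934637408) (nat_lit 1) (nat_lit 5)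 (nat_lit 3) (nat_lit 4) (nat_lit 1) (nat_lit 4) (nat_lit 315) (nat_lit 262) (nat_lit 203))))) (XT.nd (nat_lit 234) (nat_lit 0) (nat_lit 0) (XT.nd (nat_lit 78) (nat_lit 0) (nat_lit 0) (XT.lf (nat_lit 0) (nat_lit 871593396247) (nat_lit 152) (nat_lit 534203671059) (nat_lit 0) (nat_lit 856566332464) (nat_lit 1) (nat_lit 5) (nat_lit 3) (nat_lit 4) (nat_lit 1) (nat_lit 4) (nat_lit 316) (nat_lit 262) (nat_lit 202)) (XT.nd (nat_lit 78) (nat_lit 0) (nat_lit 0) (XT.lf (nat_lit 0) (nat_lit 1033318311561) (nat_lit 152) (nat_lit 547445453999) (nat_lit 0) (nat_lit 1018290800584) (nat_lit 1) (nat_lit 5) (nat_lit 3) (nat_lit 4) (nat_lit 1) (nat_lit 4) (nat_lit 317) (nat_lit 262) (nat_lit 201)) (XT.lf (nat_lit 0) (nat_lit 1219300115986) (nat_lit 152) (nat_lit 562677223426) (nat_lit 0) (nat_lit 1204272216145) (nat_lit 1) (nat_lit 5) (nat_lit 3) (nat_lit 4) (nat_lit 1) (nat_lit 4) (nat_lit 318) (nat_lit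 262) (nat_lit 200)))) (XT.nd (nat_lit 156) (nat_lit 0) (nat_lit 0) (XT.nd (nat_lit 78) (nat_lit 0) (nat_lit 0) (XT.lf (nat_lit 0) (nat_lit 1433177583957) (nat_lit 152) (nat_lit 580196992222) (nat_lit 0) (nat_lit 1418149345972) (nat_lit 1) (nat_lit 5) (nat_lit 3) (nat_lit 4) (nat_lit 1) (nat_lit 4) (nat_lit 319) (nat_lit 262) (nat_lit 199)) (XT.lf (nat_lit 0) (nat_lit 1679135274628) (nat_lit 152) (nat_lit 600347538470) (nat_lit 0) (nat_lit 1664106742606) (nat_lit 1) (nat_lit 5) (nat_lit 3) (nat_lit 4) (nat_lit 1) (nat_lit 4) (nat_lit 320) (nat_lit 262) (nat_lit 198))) (XT.nd (nat_lit 78) (nat_lit 0) (nat_lit 0) (XT.lf (nat_lit 0) (nat_lit 1961985403689) (nat_lit 152) (nat_lit 623523111990) (nat_lit 0) (nat_lit 1946956615981) (nat_lit 1) (nat_lit 5) (nat_lit 3) (nat_lit 4) (nat_lit 1) (nat_lit 4) (nat_lit 321) (nat_lit 262) (nat_lit 197)) (XT.lf (nat_lit 0) (nat_lit 2287261995401) (nat_lit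 152) (nat_lit 650177147914) (nat_lit 0) (nat_lit 2272232985359) (nat_lit 1) (nat_lit 5) (nat_lit 3) (nat_lit 4) (nat_lit 1) (nat_lit 4) (nat_lit 322) (nat_lit 262) (nat_lit 196)))))) (XT.nd (nat_lit 546) (nat_lit 0) (nat_lit 0) (XT.nd (nat_lit 234) (nat_lit 0) (nat_lit 0) (XT.nd (nat_lit 78) (nat_lit 0) (nat_lit 0) (XT.lf (nat_lit 0) (nat_lit 2661329156995) (nat_lit 152) (nat_lit 680831138251) (nat_lit 0) (nat_lit 2646299953619) (nat_lit 1) (nat_lit 5) (nat_lit 3) (nat_lit 4) (nat_lit 1) (nat_lit 4) (nat_lit 323) (nat_lit 262) (nat_lit 195)) (XT.nd (nat_lit 78) (nat_lit 0) (nat_lit 0) (XT.lf (nat_lit 0) (nat_lit 3091505593807) (nat_lit 152) (nat_lit 716084834984) (nat_lit 0) (nat_lit 3076476222314) (nat_lit 1) (nat_lit 5) (nat_lit 3) (nat_lit 4) (nat_lit 1) (nat_lit 4) (nat_lit 324) (nat_lit 262) (nat_lit 194)) (XT.lf (nat_lit 0) (nat_lit 3586207801338) (nat_lit 152) (nat_lit 756627984355)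 (nat_lit 0) (nat_lit 3571178283657) (nat_lit 1) (nat_lit 5) (nat_lit 3) (nat_lit 4) (nat_lit 1) (nat_lit 4) (nat_lit 325) (nat_lit 262) (nat_lit 193)))) (XT.nd (nat_lit 156) (nat_lit 0) (nat_lit 0) (XT.nd (nat_lit 78) (nat_lit 0) (nat_lit 0) (XT.lf (nat_lit 0) (nat_lit 4155114735824) (nat_lit 152) (nat_lit 803253821895) (nat_lit 0) (nat_lit 4140085091022) (nat_lit 1) (nat_lit 5) (nat_lit 3) (nat_lit 4) (nat_lit 1) (nat_lit 4) (nat_lit 326) (nat_lit 262) (nat_lit 192)) (XT.lf (nat_lit 0) (nat_lit 4809357185113) (nat_lit 152) (nat_lit 856874592251) (nat_lit 0) (nat_lit 4794327429771) (nat_lit 1) (nat_lit 5) (nat_lit 3) (nat_lit 4) (nat_lit 1) (nat_lit 4) (nat_lit 327) (nat_lit 262) (nat_lit 191))) (XT.nd (nat_lit 78) (nat_lit 0) (nat_lit 0) (XT.lf (nat_lit 0) (nat_lit 5561735544952) (nat_lit 152) (nat_lit 918539397452) (nat_lit 0) (nat_lit 5546705693489) (nat_lit 1) (nat_lit 5) (nat_lit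 3) (nat_lit 4) (nat_lit 1) (nat_lit 4) (nat_lit 328) (nat_lit 262) (nat_lit 190)) (XT.lf (nat_lit 0) (nat_lit 6426970261511) (nat_lit 152) (nat_lit 989454722817) (nat_lit 0) (nat_lit 6411940326464) (nat_lit 1) (nat_lit 5) (nat_lit 3) (nat_lit 4) (nat_lit 1) (nat_lit 4) (nat_lit 329) (nat_lit 262) (nat_lit 189))))) (XT.nd (nat_lit 35568) (nat_lit 0) (nat_lit 4104) (XT.nd (nat_lit 35412) (nat_lit 0) (nat_lit 4864) (XT.lf (nat_lit 0) (nat_lit 7421989840115) (nat_lit 152) (nat_lit 1071008042103) (nat_lit 0) (nat_lit 7406959832387) (nat_lit 1) (nat_lit 5) (nat_lit 3) (nat_lit 4) (nat_lit 1) (nat_lit 4) (nat_lit 330) (nat_lit 262) (nat_lit 188)) (XT.nd (nat_lit 78) (nat_lit 380) (nat_lit 0) (XT.lf (nat_lit 0) (nat_lit 2605108888) (nat_lit 380) (nat_lit 522456079) (nat_lit 380) (nat_lit 522456079) (nat_lit 70) (nat_lit 3) (nat_lit 75) (nat_lit 3) (nat_lit 75) (nat_lit 5) (nat_lit 263) (nat_lit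 263) (nat_lit 254)) (XT.lf (nat_lit 0) (nat_lit 718103809) (nat_lit 380) (nat_lit 1866592903) (nat_lit 456) (nat_lit 5034361976) (nat_lit 65) (nat_lit 5) (nat_lit 70) (nat_lit 3) (nat_lit 71) (nat_lit 5) (nat_lit 264) (nat_lit 263) (nat_lit 253)))) (XT.nd (nat_lit 156) (nat_lit 836) (nat_lit 0) (XT.nd (nat_lit 78) (nat_lit 0) (nat_lit 0) (XT.lf (nat_lit 0) (nat_lit 3553050333) (nat_lit 380) (nat_lit 2482218424) (nat_lit 456) (nat_lit 1968774648) (nat_lit 66) (nat_lit 5) (nat_lit 71) (nat_lit 5) (nat_lit 72) (nat_lit 5) (nat_lit 265) (nat_lit 263) (nat_lit 252)) (XT.lf (nat_lit 76) (nat_lit 5587525247) (nat_lit 0) (nat_lit 1059477686) (nat_lit 456) (nat_lit 1813788062) (nat_lit 67) (nat_lit 5) (nat_lit 66) (nat_lit 5) (nat_lit 72) (nat_lit 5) (nat_lit 266) (nat_lit 263) (nat_lit 251))) (XT.nd (nat_lit 78) (nat_lit 456) (nat_lit 0) (XT.lf (nat_lit 0) (nat_lit 1107931388) (nat_lit 456) (nat_lit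 3114859967) (nat_lit 76) (nat_lit 4765497705) (nat_lit 61) (nat_lit 5) (nat_lit 67) (nat_lit 5) (nat_lit 62) (nat_lit 5) (nat_lit 267) (nat_lit 263) (nat_lit 250)) (XT.lf (nat_lit 0) (nat_lit 4342299655) (nat_lit 532) (nat_lit 3197501152) (nat_lit 76) (nat_lit 2053300626) (nat_lit 55) (nat_lit 5) (nat_lit 62) (nat_lit 5) (nat_lit 56) (nat_lit 5) (nat_lit 268) (nat_lit 263) (nat_lit 249))))))))
noncomputable def xc27 : XT := (XT.nd (nat_lit 2106) (nat_lit 380) (nat_lit 0) (XT.nd (nat_lit 1014) (nat_lit 1064) (nat_lit 0) (XT.nd (nat_lit 468) (nat_lit 1140) (nat_lit 0) (XT.nd (nat_lit 234) (nat_lit 608) (nat_lit 0) (XT.nd (nat_lit 78) (nat_lit 532) (nat_lit 0) (XT.lf (nat_lit 0) (nat_lit 7172825894) (nat_lit 380) (nat_lit 966425127) (nat_lit 456) (nat_lit 2143626499) (nat_lit 50) (nat_lit 5) (nat_lit 55) (nat_lit 5) (nat_lit 56) (nat_lit 5) (nat_lit 269) (nat_lit 263) (nat_lit 248)) (XT.nd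 (nat_lit 78) (nat_lit 228) (nat_lit 0) (XT.lf (nat_lit 0) (nat_lit 1540803880) (nat_lit 304) (nat_lit 2932594640) (nat_lit 76) (nat_lit 6585706456) (nat_lit 46) (nat_lit 5) (nat_lit 50) (nat_lit 5) (nat_lit 47) (nat_lit 5) (nat_lit 270) (nat_lit 263) (nat_lit 247)) (XT.lf (nat_lit 0) (nat_lit 5837327396) (nat_lit 304) (nat_lit 2644217787) (nat_lit 76) (nat_lit 3451163984) (nat_lit 43) (nat_lit 5) (nat_lit 47) (nat_lit 5) (nat_lit 44) (nat_lit 5) (nat_lit 271) (nat_lit 263) (nat_lit 246)))) (XT.nd (nat_lit 78) (nat_lit 456) (nat_lit 0) (XT.lf (nat_lit 0) (nat_lit 10716894626) (nat_lit 152) (nat_lit 305773250) (nat_lit 228) (nat_lit 1895404529) (nat_lit 41) (nat_lit 5) (nat_lit 43) (nat_lit 5) (nat_lit 44) (nat_lit 5) (nat_lit 272) (nat_lit 263) (nat_lit 245)) (XT.nd (nat_lit 78) (nat_lit 152) (nat_lit 0) (XT.lf (nat_lit 0) (nat_lit 3188694317) (nat_lit 304) (nat_lit 1782334280) (nat_lit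 76) (nat_lit 9042705254) (nat_lit 37) (nat_lit 5) (nat_lit 41) (nat_lit 5) (nat_lit 38) (nat_lit 5) (nat_lit 273) (nat_lit 263) (nat_lit 244)) (XT.lf (nat_lit 0) (nat_lit 9269934992) (nat_lit 228) (nat_lit 1296019448) (nat_lit 76) (nat_lit 4676296962) (nat_lit 35) (nat_lit 5) (nat_lit 38) (nat_lit 5) (nat_lit 36) (nat_lit 5) (nat_lit 274) (nat_lit 263) (nat_lit 243))))) (XT.nd (nat_lit 234) (nat_lit 608) (nat_lit 0) (XT.nd (nat_lit 78) (nat_lit 304) (nat_lit 0) (XT.lf (nat_lit 0) (nat_lit 40768726) (nat_lit 228) (nat_lit 727377819) (nat_lit 76) (nat_lit 15854774517) (nat_lit 32) (nat_lit 5) (nat_lit 35) (nat_lit 5) (nat_lit 33) (nat_lit 5) (nat_lit 275) (nat_lit 263) (nat_lit 242)) (XT.nd (nat_lit 78) (nat_lit 152) (nat_lit 0) (XT.lf (nat_lit 0) (nat_lit 7193935773) (nat_lit 228) (nat_lit 404986743) (nat_lit 76) (nat_lit 10552149033) (nat_lit 30) (nat_lit 5) (nat_lit 33) (nat_lit 5) (nat_lit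 31) (nat_lit 5) (nat_lit 276) (nat_lit 263) (nat_lit 241)) (XT.lf (nat_lit 0) (nat_lit 15894658360) (nat_lit 228) (nat_lit 103893763) (nat_lit 76) (nat_lit 3872039216) (nat_lit 28) (nat_lit 5) (nat_lit 31) (nat_lit 5) (nat_lit 29) (nat_lit 4) (nat_lit 277) (nat_lit 263) (nat_lit 240)))) (XT.nd (nat_lit 156) (nat_lit 304) (nat_lit 0) (XT.nd (nat_lit 78) (nat_lit 152) (nat_lit 0) (XT.lf (nat_lit 0) (nat_lit 4479856467) (nat_lit 152) (nat_lit 107567309) (nat_lit 76) (nat_lit 17202499417) (nat_lit 26) (nat_lit 5) (nat_lit 28) (nat_lit 5) (nat_lit 27) (nat_lit 5) (nat_lit 278) (nat_lit 263) (nat_lit 239)) (XT.lf (nat_lit 0) (nat_lit 14644135204) (nat_lit 228) (nat_lit 561764380) (nat_lit 76) (nat_lit 8729029558) (nat_lit 24) (nat_lit 5) (nat_lit 27) (nat_lit 5) (nat_lit 25) (nat_lit 4) (nat_lit 279) (nat_lit 263) (nat_lit 238))) (XT.nd (nat_lit 78) (nat_lit 152) (nat_lit 0) (XT.lf (nat_lit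 0) (nat_lit 566380122) (nat_lit 152) (nat_lit 1461863277) (nat_lit 76) (nat_lit 24323112246) (nat_lit 22) (nat_lit 5) (nat_lit 24) (nat_lit 5) (nat_lit 23) (nat_lit 5) (nat_lit 280) (nat_lit 263) (nat_lit 237)) (XT.lf (nat_lit 0) (nat_lit 12239236458) (nat_lit 228) (nat_lit 3485504858) (nat_lit 76) (nat_lit 13315276748) (nat_lit 20) (nat_lit 5) (nat_lit 23) (nat_lit 5) (nat_lit 21) (nat_lit 4) (nat_lit 281) (nat_lit 263) (nat_lit 236)))))) (XT.nd (nat_lit 546) (nat_lit 456) (nat_lit 0) (XT.nd (nat_lit 234) (nat_lit 304) (nat_lit 0) (XT.nd (nat_lit 78) (nat_lit 228) (nat_lit 0) (XT.lf (nat_lit 0) (nat_lit 25633907614) (nat_lit 76) (nat_lit 647716681) (nat_lit 152) (nat_lit 5800915542) (nat_lit 19) (nat_lit 5) (nat_lit 20) (nat_lit 5) (nat_lit 21) (nat_lit 4) (nat_lit 282) (nat_lit 263) (nat_lit 235)) (XT.nd (nat_lit 78) (nat_lit 76) (nat_lit 0) (XT.lf (nat_lit 0) (nat_lit 7534453890) (nat_lit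 152) (nat_lit 11281158605) (nat_lit 76) (nat_lit 16670438090) (nat_lit 17) (nat_lit 5) (nat_lit 19) (nat_lit 5) (nat_lit 18) (nat_lit 4) (nat_lit 283) (nat_lit 263) (nat_lit 234)) (XT.lf (nat_lit 0) (nat_lit 21182630593) (nat_lit 76) (nat_lit 1989289146) (nat_lit 152) (nat_lit 16164526533) (nat_lit 16) (nat_lit 5) (nat_lit 17) (nat_lit 5) (nat_lit 18) (nat_lit 4) (nat_lit 284) (nat_lit 263) (nat_lit 233)))) (XT.nd (nat_lit 156) (nat_lit 76) (nat_lit 0) (XT.nd (nat_lit 78) (nat_lit 152) (nat_lit 0) (XT.lf (nat_lit 0) (nat_lit 15671827573) (nat_lit 76) (nat_lit 26536126678) (nat_lit 76) (nat_lit 1472240524) (nat_lit 15) (nat_lit 4) (nat_lit 16) (nat_lit 5) (nat_lit 16) (nat_lit 4) (nat_lit 285) (nat_lit 263) (nat_lit 232)) (XT.lf (nat_lit 0) (nat_lit 6799345376) (nat_lit 76) (nat_lit 8540432332) (nat_lit 152) (nat_lit 33251079527) (nat_lit 13) (nat_lit 5) (nat_lit 14) (nat_lit 5) (nat_lit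 15) (nat_lit 4) (nat_lit 286) (nat_lit 263) (nat_lit 231))) (XT.nd (nat_lit 78) (nat_lit 76) (nat_lit 0) (XT.lf (nat_lit 0) (nat_lit 35649565947) (nat_lit 152) (nat_lit 6133511793) (nat_lit 0) (nat_lit 12366951454) (nat_lit 13) (nat_lit 5) (nat_lit 15) (nat_lit 4) (nat_lit 13) (nat_lit 4) (nat_lit 287) (nat_lit 263) (nat_lit 230)) (XT.lf (nat_lit 0) (nat_lit 36341241974) (nat_lit 76) (nat_lit 23715429732) (nat_lit 76) (nat_lit 402355179) (nat_lit 12) (nat_lit 4) (nat_lit 13) (nat_lit 5) (nat_lit 13) (nat_lit 4) (nat_lit 288) (nat_lit 263) (nat_lit 229))))) (XT.nd (nat_lit 234) (nat_lit 228) (nat_lit 0) (XT.nd (nat_lit 78) (nat_lit 76) (nat_lit 0) (XT.lf (nat_lit 0) (nat_lit 18164716845) (nat_lit 76) (nat_lit 1789263157) (nat_lit 152) (nat_lit 47675976823) (nat_lit 10) (nat_lit 5) (nat_lit 11) (nat_lit 5) (nat_lit 12) (nat_lit 4) (nat_lit 289) (nat_lit 263) (nat_lit 228)) (XT.nd (nat_lit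 78) (nat_lit 76) (nat_lit 0) (XT.lf (nat_lit 0) (nat_lit 44572619177) (nat_lit 152) (nat_lit 8263881390) (nat_lit 0) (nat_lit 22940587933) (nat_lit 10) (nat_lit 5) (nat_lit 12) (nat_lit 4) (nat_lit 10) (nat_lit 4) (nat_lit 290) (nat_lit 263) (nat_lit 227)) (XT.lf (nat_lit 0) (nat_lit 41033129948) (nat_lit 76) (nat_lit 32842221384) (nat_lit 76) (nat_lit 11191645711) (nat_lit 9) (nat_lit 4) (nat_lit 10) (nat_lit 5) (nat_lit 10) (nat_lit 4) (nat_lit 291) (nat_lit 263) (nat_lit 226)))) (XT.nd (nat_lit 156) (nat_lit 76) (nat_lit 0) (XT.nd (nat_lit 78) (nat_lit 0) (nat_lit 0) (XT.lf (nat_lit 0) (nat_lit 2232557567) (nat_lit 76) (nat_lit 9257470716) (nat_lit 152) (nat_lit 84216955378) (nat_lit 7) (nat_lit 5) (nat_lit 8) (nat_lit 5) (nat_lit 9) (nat_lit 4) (nat_lit 292) (nat_lit 263) (nat_lit 225)) (XT.lf (nat_lit 0) (nat_lit 38635698121) (nat_lit 152) (nat_lit 50585115075) (nat_lit 0) (nat_lit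 18560954124) (nat_lit 7) (nat_lit 5) (nat_lit 9) (nat_lit 4) (nat_lit 7) (nat_lit 4) (nat_lit 293) (nat_lit 263) (nat_lit 224))) (XT.nd (nat_lit 78) (nat_lit 76) (nat_lit 0) (XT.lf (nat_lit 0) (nat_lit 70075016382) (nat_lit 152) (nat_lit 1586032612) (nat_lit 0) (nat_lit 49988982326) (nat_lit 7) (nat_lit 5) (nat_lit 9) (nat_lit 4) (nat_lit 7) (nat_lit 4) (nat_lit 294) (nat_lit 263) (nat_lit 223)) (XT.lf (nat_lit 0) (nat_lit 57584764529) (nat_lit 76) (nat_lit 50000608211) (nat_lit 76) (nat_lit 29904756713) (nat_lit 6) (nat_lit 4) (nat_lit 7) (nat_lit 5) (nat_lit 7) (nat_lit 4) (nat_lit 295) (nat_lit 263) (nat_lit 222))))))) (XT.nd (nat_lit 1092) (nat_lit 0) (nat_lit 0) (XT.nd (nat_lit 546) (nat_lit 152) (nat_lit 0) (XT.nd (nat_lit 234) (nat_lit 76) (nat_lit 0) (XT.nd (nat_lit 78) (nat_lit 152) (nat_lit 0) (XT.lf (nat_lit 0) (nat_lit 125673430384) (nat_lit 76) (nat_lit 25067843034) (nat_lit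 76) (nat_lit 4963454629) (nat_lit 6) (nat_lit 4) (nat_lit 7) (nat_lit 5) (nat_lit 7) (nat_lit 4) (nat_lit 296) (nat_lit 263) (nat_lit 221)) (XT.nd (nat_lit 78) (nat_lit 0) (nat_lit 0) (XT.lf (nat_lit 0) (nat_lit 23302849888) (nat_lit 152) (nat_lit 148560606793) (nat_lit 0) (nat_lit 4680801924) (nat_lit 4) (nat_lit 5) (nat_lit 6) (nat_lit 4) (nat_lit 4) (nat_lit 4) (nat_lit 297) (nat_lit 263) (nat_lit 220)) (XT.lf (nat_lit 0) (nat_lit 57091241081) (nat_lit 152) (nat_lit 104818868724) (nat_lit 0) (nat_lit 38463216146) (nat_lit 4) (nat_lit 5) (nat_lit 6) (nat_lit 4) (nat_lit 4) (nat_lit 4) (nat_lit 298) (nat_lit 263) (nat_lit 219)))) (XT.nd (nat_lit 156) (nat_lit 0) (nat_lit 0) (XT.nd (nat_lit 78) (nat_lit 76) (nat_lit 0) (XT.lf (nat_lit 0) (nat_lit 95928172335) (nat_lit 152) (nat_lit 54555211569) (nat_lit 0) (nat_lit 77294950035) (nat_lit 4) (nat_lit 5) (nat_lit 6) (nat_lit 4) (nat_lit 4)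 (nat_lit 4) (nat_lit 299) (nat_lit 263) (nat_lit 218)) (XT.lf (nat_lit 0) (nat_lit 3383016224) (nat_lit 76) (nat_lit 137271842051) (nat_lit 76) (nat_lit 118634100303) (nat_lit 3) (nat_lit 4) (nat_lit 4) (nat_lit 5) (nat_lit 4) (nat_lit 4) (nat_lit 300) (nat_lit 263) (nat_lit 217))) (XT.nd (nat_lit 78) (nat_lit 0) (nat_lit 0) (XT.lf (nat_lit 0) (nat_lit 73284361670) (nat_lit 76) (nat_lit 120378838503) (nat_lit 76) (nat_lit 101737166801) (nat_lit 3) (nat_lit 4) (nat_lit 4) (nat_lit 5) (nat_lit 4) (nat_lit 4) (nat_lit 301) (nat_lit 263) (nat_lit 216)) (XT.lf (nat_lit 0) (nat_lit 153643679027) (nat_lit 76) (nat_lit 100965494139) (nat_lit 76) (nat_lit 82320405085) (nat_lit 3) (nat_lit 4) (nat_lit 4) (nat_lit 5) (nat_lit 4) (nat_lit 4) (nat_lit 302) (nat_lit 263) (nat_lit 215))))) (XT.nd (nat_lit 234) (nat_lit 152) (nat_lit 0) (XT.nd (nat_lit 78) (nat_lit 0) (nat_lit 0) (XT.lf (nat_lit 0) (nat_lit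 246033215809) (nat_lit 76) (nat_lit 78651982656) (nat_lit 76) (nat_lit 60003921991) (nat_lit 3) (nat_lit 4) (nat_lit 4) (nat_lit 5) (nat_lit 4) (nat_lit 4) (nat_lit 303) (nat_lit 263) (nat_lit 214)) (XT.nd (nat_lit 78) (nat_lit 0) (nat_lit 0) (XT.lf (nat_lit 0) (nat_lit 352260593386) (nat_lit 76) (nat_lit 53001735351) (nat_lit 76) (nat_lit 34351090676) (nat_lit 3) (nat_lit 4) (nat_lit 4) (nat_lit 5) (nat_lit 4) (nat_lit 4) (nat_lit 304) (nat_lit 263) (nat_lit 213)) (XT.lf (nat_lit 0) (nat_lit 474404173494) (nat_lit 76) (nat_lit 23512899559) (nat_lit 76) (nat_lit 4860007920) (nat_lit 3) (nat_lit 4) (nat_lit 4) (nat_lit 5) (nat_lit 4) (nat_lit 4) (nat_lit 305) (nat_lit 263) (nat_lit 212)))) (XT.nd (nat_lit 156) (nat_lit 0) (nat_lit 0) (XT.nd (nat_lit 78) (nat_lit 0) (nat_lit 0) (XT.lf (nat_lit 0) (nat_lit 28867584817) (nat_lit 152) (nat_lit 534795924282) (nat_lit 0) (nat_lit 11594579704)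 (nat_lit 1) (nat_lit 5) (nat_lit 3) (nat_lit 4) (nat_lit 1) (nat_lit 4) (nat_lit 306) (nat_lit 263) (nat_lit 211)) (XT.lf (nat_lit 0) (nat_lit 68865065750) (nat_lit 152) (nat_lit 538025715519) (nat_lit 0) (nat_lit 51590487464) (nat_lit 1) (nat_lit 5) (nat_lit 3) (nat_lit 4) (nat_lit 1) (nat_lit 4) (nat_lit 307) (nat_lit 263) (nat_lit 210))) (XT.nd (nat_lit 78) (nat_lit 0) (nat_lit 0) (XT.lf (nat_lit 0) (nat_lit 114855667133) (nat_lit 152) (nat_lit 541753058588) (nat_lit 0) (nat_lit 97579720870) (nat_lit 1) (nat_lit 5) (nat_lit 3) (nat_lit 4) (nat_lit 1) (nat_lit 4) (nat_lit 308) (nat_lit 263) (nat_lit 209)) (XT.lf (nat_lit 0) (nat_lit 167739205080) (nat_lit 152) (nat_lit 546050879767) (nat_lit 0) (nat_lit 150462069271) (nat_lit 1) (nat_lit 5) (nat_lit 3) (nat_lit 4) (nat_lit 1) (nat_lit 4) (nat_lit 309) (nat_lit 263) (nat_lit 208)))))) (XT.nd (nat_lit 546) (nat_lit 0) (nat_lit 0) (XT.nd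 (nat_lit 234) (nat_lit 0) (nat_lit 0) (XT.nd (nat_lit 78) (nat_lit 0) (nat_lit 0) (XT.lf (nat_lit 0) (nat_lit 228550357506) (nat_lit 152) (nat_lit 551003266861) (nat_lit 0) (nat_lit 211272187310) (nat_lit 1) (nat_lit 5) (nat_lit 3) (nat_lit 4) (nat_lit 1) (nat_lit 4) (nat_lit 310) (nat_lit 263) (nat_lit 207)) (XT.nd (nat_lit 78) (nat_lit 0) (nat_lit 0) (XT.lf (nat_lit 0) (nat_lit 298478907830) (nat_lit 152) (nat_lit 556707114401) (nat_lit 0) (nat_lit 281199838166) (nat_lit 1) (nat_lit 5) (nat_lit 3) (nat_lit 4) (nat_lit 1) (nat_lit 4) (nat_lit 311) (nat_lit 263) (nat_lit 206)) (XT.lf (nat_lit 0) (nat_lit 378893023339) (nat_lit 152) (nat_lit 563274019404) (nat_lit 0) (nat_lit 361613171529) (nat_lit 1) (nat_lit 5) (nat_lit 3) (nat_lit 4) (nat_lit 1) (nat_lit 4) (nat_lit 312) (nat_lit 263) (nat_lit 205)))) (XT.nd (nat_lit 156) (nat_lit 0) (nat_lit 0) (XT.nd (nat_lit 78) (nat_lit 0) (nat_lit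 0) (XT.lf (nat_lit 0) (nat_lit 471366023685) (nat_lit 152) (nat_lit 570832464792) (nat_lit 0) (nat_lit 454085491749) (nat_lit 1) (nat_lit 5) (nat_lit 3) (nat_lit 4) (nat_lit 1) (nat_lit 4) (nat_lit 313) (nat_lit 263) (nat_lit 204)) (XT.lf (nat_lit 0) (nat_lit 577707163223) (nat_lit 152) (nat_lit 579530333195) (nat_lit 0) (nat_lit 560426039872) (nat_lit 1) (nat_lit 5) (nat_lit 3) (nat_lit 4) (nat_lit 1) (nat_lit 4) (nat_lit 314) (nat_lit 263) (nat_lit 203))) (XT.nd (nat_lit 78) (nat_lit 0) (nat_lit 0) (XT.lf (nat_lit 0) (nat_lit 699997029465) (nat_lit 152) (nat_lit 589537800297) (nat_lit 0) (nat_lit 682715391841) (nat_lit 1) (nat_lit 5) (nat_lit 3) (nat_lit 4) (nat_lit 1) (nat_lit 4) (nat_lit 315) (nat_lit 263) (nat_lit 202)) (XT.lf (nat_lit 0) (nat_lit 840628250229) (nat_lit 152) (nat_lit 601050664369) (nat_lit 0) (nat_lit 823346165411) (nat_lit 1) (nat_lit 5) (nat_lit 3) (nat_lit 4) (nat_lit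 1) (nat_lit 4) (nat_lit 316) (nat_lit 263) (nat_lit 201))))) (XT.nd (nat_lit 234) (nat_lit 0) (nat_lit 0) (XT.nd (nat_lit 78) (nat_lit 0) (nat_lit 0) (XT.lf (nat_lit 0) (nat_lit 1002352305922) (nat_lit 152) (nat_lit 614294177098) (nat_lit 0) (nat_lit 985069832239) (nat_lit 1) (nat_lit 5) (nat_lit 3) (nat_lit 4) (nat_lit 1) (nat_lit 4) (nat_lit 317) (nat_lit 263) (nat_lit 200)) (XT.nd (nat_lit 78) (nat_lit 0) (nat_lit 0) (XT.lf (nat_lit 0) (nat_lit 1188333362850) (nat_lit 152) (nat_lit 629527450690) (nat_lit 0) (nat_lit 1171050551025) (nat_lit 1) (nat_lit 5) (nat_lit 3) (nat_lit 4) (nat_lit 1) (nat_lit 4) (nat_lit 318) (nat_lit 263) (nat_lit 199)) (XT.lf (nat_lit 0) (nat_lit 1402210180823) (nat_lit 152) (nat_lit 647048527454) (nat_lit 0) (nat_lit 1384927074960) (nat_lit 1) (nat_lit 5) (nat_lit 3) (nat_lit 4) (nat_lit 1) (nat_lit 4) (nat_lit 319) (nat_lit 263) (nat_lit 198)))) (XT.nd (nat_lit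 156) (nat_lit 0) (nat_lit 0) (XT.nd (nat_lit 78) (nat_lit 0) (nat_lit 0) (XT.lf (nat_lit 0) (nat_lit 1648167306280) (nat_lit 152) (nat_lit 667200211067) (nat_lit 0) (nat_lit 1630883944732) (nat_lit 1) (nat_lit 5) (nat_lit 3) (nat_lit 4) (nat_lit 1) (nat_lit 4) (nat_lit 320) (nat_lit 263) (nat_lit 197)) (XT.lf (nat_lit 0) (nat_lit 1931016943848) (nat_lit 152) (nat_lit 690376773599) (nat_lit 0) (nat_lit 1913733359966) (nat_lit 1) (nat_lit 5) (nat_lit 3) (nat_lit 4) (nat_lit 1) (nat_lit 4) (nat_lit 321) (nat_lit 263) (nat_lit 196))) (XT.nd (nat_lit 78) (nat_lit 0) (nat_lit 0) (XT.lf (nat_lit 0) (nat_lit 2256293108177) (nat_lit 152) (nat_lit 717031669534) (nat_lit 0) (nat_lit 2239009330960) (nat_lit 1) (nat_lit 5) (nat_lit 3) (nat_lit 4) (nat_lit 1) (nat_lit 4) (nat_lit 322) (nat_lit 263) (nat_lit 195)) (XT.lf (nat_lit 0) (nat_lit 2630359898133) (nat_lit 152) (nat_lit 747686407707) (nat_lit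 0) (nat_lit 2613075952800) (nat_lit 1) (nat_lit 5) (nat_lit 3) (nat_lit 4) (nat_lit 1) (nat_lit 4) (nat_lit 323) (nat_lit 263) (nat_lit 194))))))))
noncomputable def xc28 : XT := (XT.nd (nat_lit 37518) (nat_lit 0) (nat_lit 0) (XT.nd (nat_lit 36426) (nat_lit 0) (nat_lit 1368) (XT.nd (nat_lit 468) (nat_lit 0) (nat_lit 0) (XT.nd (nat_lit 234) (nat_lit 0) (nat_lit 0) (XT.nd (nat_lit 78) (nat_lit 0) (nat_lit 0) (XT.lf (nat_lit 0) (nat_lit 3060536011781) (nat_lit 152) (nat_lit 782940754732) (nat_lit 0) (nat_lit 3043251920259) (nat_lit 1) (nat_lit 5) (nat_lit 3) (nat_lit 4) (nat_lit 1) (nat_lit 4) (nat_lit 324) (nat_lit 263) (nat_lit 193)) (XT.nd (nat_lit 78) (nat_lit 0) (nat_lit 0) (XT.lf (nat_lit 0) (nat_lit 3555237938301) (nat_lit 152) (nat_lit 823484469574) (nat_lit 0) (nat_lit 3537953719658) (nat_lit 1) (nat_lit 5) (nat_lit 3) (nat_lit 4) (nat_lit 1) (nat_lit 4) (nat_lit 325) (nat_lit 263)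 (nat_lit 192)) (XT.lf (nat_lit 0) (nat_lit 4124144628429) (nat_lit 152) (nat_lit 870110798828) (nat_lit 0) (nat_lit 4106860299246) (nat_lit 1) (nat_lit 5) (nat_lit 3) (nat_lit 4) (nat_lit 1) (nat_lit 4) (nat_lit 326) (nat_lit 263) (nat_lit 191)))) (XT.nd (nat_lit 78) (nat_lit 0) (nat_lit 0) (XT.lf (nat_lit 0) (nat_lit 4778386865232) (nat_lit 152) (nat_lit 923731996762) (nat_lit 0) (nat_lit 4761102439928) (nat_lit 1) (nat_lit 5) (nat_lit 3) (nat_lit 4) (nat_lit 1) (nat_lit 4) (nat_lit 327) (nat_lit 263) (nat_lit 190)) (XT.nd (nat_lit 78) (nat_lit 0) (nat_lit 0) (XT.lf (nat_lit 0) (nat_lit 5530765040301) (nat_lit 152) (nat_lit 985397173769) (nat_lit 0) (nat_lit 5513480531414) (nat_lit 1) (nat_lit 5) (nat_lit 3) (nat_lit 4) (nat_lit 1) (nat_lit 4) (nat_lit 328) (nat_lit 263) (nat_lit 189)) (XT.lf (nat_lit 0) (nat_lit 6395999596191) (nat_lit 152) (nat_lit 1056312822444) (nat_lit 0) (nat_lit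 6378715014622) (nat_lit 1) (nat_lit 5) (nat_lit 3) (nat_lit 4) (nat_lit 1) (nat_lit 4) (nat_lit 329) (nat_lit 263) (nat_lit 188))))) (XT.nd (nat_lit 35646) (nat_lit 0) (nat_lit 4104) (XT.nd (nat_lit 35490) (nat_lit 0) (nat_lit 4864) (XT.lf (nat_lit 0) (nat_lit 7391019035083) (nat_lit 152) (nat_lit 1137866422869) (nat_lit 0) (nat_lit 7373734390312) (nat_lit 1) (nat_lit 5) (nat_lit 3) (nat_lit 4) (nat_lit 1) (nat_lit 4) (nat_lit 330) (nat_lit 263) (nat_lit 187)) (XT.nd (nat_lit 78) (nat_lit 0) (nat_lit 0) (XT.lf (nat_lit 0) (nat_lit 746991217) (nat_lit 0) (nat_lit 746991217) (nat_lit 380) (nat_lit 2490577384) (nat_lit 65) (nat_lit 5) (nat_lit 65) (nat_lit 3) (nat_lit 70) (nat_lit 3) (nat_lit 264) (nat_lit 264) (nat_lit 252)) (XT.lf (nat_lit 76) (nat_lit 637125756) (nat_lit 0) (nat_lit 4783426499) (nat_lit 456) (nat_lit 2966073989) (nat_lit 66) (nat_lit 5) (nat_lit 65) (nat_lit 5) (nat_lit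 71) (nat_lit 5) (nat_lit 265) (nat_lit 264) (nat_lit 251)))) (XT.nd (nat_lit 156) (nat_lit 380) (nat_lit 0) (XT.nd (nat_lit 78) (nat_lit 456) (nat_lit 0) (XT.lf (nat_lit 76) (nat_lit 32761791) (nat_lit 0) (nat_lit 8060062749) (nat_lit 456) (nat_lit 784573421) (nat_lit 67) (nat_lit 5) (nat_lit 66) (nat_lit 5) (nat_lit 72) (nat_lit 5) (nat_lit 266) (nat_lit 264) (nat_lit 250)) (XT.lf (nat_lit 0) (nat_lit 1663186823) (nat_lit 456) (nat_lit 415351248) (nat_lit 532) (nat_lit 7358408898) (nat_lit 60) (nat_lit 5) (nat_lit 66) (nat_lit 5) (nat_lit 67) (nat_lit 5) (nat_lit 267) (nat_lit 264) (nat_lit 249))) (XT.nd (nat_lit 78) (nat_lit 456) (nat_lit 0) (XT.lf (nat_lit 0) (nat_lit 4490686520) (nat_lit 456) (nat_lit 705163420) (nat_lit 76) (nat_lit 4878661718) (nat_lit 61) (nat_lit 5) (nat_lit 67) (nat_lit 5) (nat_lit 62) (nat_lit 5) (nat_lit 268) (nat_lit 264) (nat_lit 248)) (XT.lf (nat_lit 0) (nat_lit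 7848533660) (nat_lit 532) (nat_lit 805349493) (nat_lit 76) (nat_lit 2145709303) (nat_lit 55) (nat_lit 5) (nat_lit 62) (nat_lit 5) (nat_lit 56) (nat_lit 5) (nat_lit 269) (nat_lit 264) (nat_lit 247)))))) (XT.nd (nat_lit 546) (nat_lit 836) (nat_lit 0) (XT.nd (nat_lit 234) (nat_lit 988) (nat_lit 0) (XT.nd (nat_lit 78) (nat_lit 456) (nat_lit 0) (XT.lf (nat_lit 0) (nat_lit 273375547) (nat_lit 456) (nat_lit 747575957) (nat_lit 76) (nat_lit 10596594886) (nat_lit 49) (nat_lit 5) (nat_lit 55) (nat_lit 5) (nat_lit 50) (nat_lit 5) (nat_lit 270) (nat_lit 264) (nat_lit 246)) (XT.nd (nat_lit 78) (nat_lit 228) (nat_lit 0) (XT.lf (nat_lit 0) (nat_lit 4111823002) (nat_lit 304) (nat_lit 652377466) (nat_lit 76) (nat_lit 7763719682) (nat_lit 46) (nat_lit 5) (nat_lit 50) (nat_lit 5) (nat_lit 47) (nat_lit 5) (nat_lit 271) (nat_lit 264) (nat_lit 245)) (XT.lf (nat_lit 0) (nat_lit 8817008819) (nat_lit 304) (nat_lit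 390442340) (nat_lit 76) (nat_lit 4344351981) (nat_lit 43) (nat_lit 5) (nat_lit 47) (nat_lit 5) (nat_lit 44) (nat_lit 5) (nat_lit 272) (nat_lit 264) (nat_lit 244)))) (XT.nd (nat_lit 156) (nat_lit 380) (nat_lit 0) (XT.nd (nat_lit 78) (nat_lit 228) (nat_lit 0) (XT.lf (nat_lit 0) (nat_lit 45712925) (nat_lit 228) (nat_lit 14523922146) (nat_lit 304) (nat_lit 132501253) (nat_lit 38) (nat_lit 5) (nat_lit 41) (nat_lit 5) (nat_lit 42) (nat_lit 5) (nat_lit 273) (nat_lit 264) (nat_lit 243)) (XT.lf (nat_lit 0) (nat_lit 414329612) (nat_lit 152) (nat_lit 5018294725) (nat_lit 228) (nat_lit 10540179118) (nat_lit 35) (nat_lit 5) (nat_lit 37) (nat_lit 5) (nat_lit 38) (nat_lit 5) (nat_lit 274) (nat_lit 264) (nat_lit 242))) (XT.nd (nat_lit 78) (nat_lit 228) (nat_lit 0) (XT.lf (nat_lit 0) (nat_lit 903417591) (nat_lit 152) (nat_lit 11374961544) (nat_lit 228) (nat_lit 5119260272) (nat_lit 33) (nat_lit 5) (nat_lit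 35) (nat_lit 5) (nat_lit 36) (nat_lit 5) (nat_lit 275) (nat_lit 264) (nat_lit 241)) (XT.lf (nat_lit 0) (nat_lit 1465751379) (nat_lit 152) (nat_lit 94756730) (nat_lit 228) (nat_lit 17433542671) (nat_lit 30) (nat_lit 5) (nat_lit 32) (nat_lit 5) (nat_lit 33) (nat_lit 5) (nat_lit 276) (nat_lit 264) (nat_lit 240))))) (XT.nd (nat_lit 234) (nat_lit 380) (nat_lit 0) (XT.nd (nat_lit 78) (nat_lit 304) (nat_lit 0) (XT.lf (nat_lit 0) (nat_lit 1753065066) (nat_lit 152) (nat_lit 7913702398) (nat_lit 228) (nat_lit 11094405934) (nat_lit 28) (nat_lit 5) (nat_lit 30) (nat_lit 5) (nat_lit 31) (nat_lit 5) (nat_lit 277) (nat_lit 264) (nat_lit 239)) (XT.nd (nat_lit 78) (nat_lit 228) (nat_lit 0) (XT.lf (nat_lit 0) (nat_lit 2013120346) (nat_lit 76) (nat_lit 17553874976) (nat_lit 152) (nat_lit 3180212289) (nat_lit 27) (nat_lit 5) (nat_lit 28) (nat_lit 5) (nat_lit 29) (nat_lit 4) (nat_lit 278) (nat_lit 264) (nat_lit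 238)) (XT.lf (nat_lit 0) (nat_lit 1892301861) (nat_lit 152) (nat_lit 4457716846) (nat_lit 228) (nat_lit 18611796418) (nat_lit 24) (nat_lit 5) (nat_lit 26) (nat_lit 5) (nat_lit 27) (nat_lit 5) (nat_lit 279) (nat_lit 264) (nat_lit 237)))) (XT.nd (nat_lit 156) (nat_lit 76) (nat_lit 0) (XT.nd (nat_lit 78) (nat_lit 228) (nat_lit 0) (XT.lf (nat_lit 0) (nat_lit 1241845590) (nat_lit 76) (nat_lit 16690572330) (nat_lit 152) (nat_lit 9504772516) (nat_lit 23) (nat_lit 5) (nat_lit 24) (nat_lit 5) (nat_lit 25) (nat_lit 4) (nat_lit 280) (nat_lit 264) (nat_lit 236)) (XT.lf (nat_lit 0) (nat_lit 44916913) (nat_lit 152) (nat_lit 1596552733) (nat_lit 228) (nat_lit 28582859355) (nat_lit 20) (nat_lit 5) (nat_lit 22) (nat_lit 5) (nat_lit 23) (nat_lit 5) (nat_lit 281) (nat_lit 264) (nat_lit 235))) (XT.nd (nat_lit 78) (nat_lit 76) (nat_lit 0) (XT.lf (nat_lit 0) (nat_lit 14989467683) (nat_lit 228) (nat_lit 2374490602)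 (nat_lit 76) (nat_lit 15958463185) (nat_lit 20) (nat_lit 5) (nat_lit 23) (nat_lit 5) (nat_lit 21) (nat_lit 4) (nat_lit 282) (nat_lit 264) (nat_lit 234)) (XT.lf (nat_lit 0) (nat_lit 30974537325) (nat_lit 76) (nat_lit 80381740) (nat_lit 152) (nat_lit 5773124925) (nat_lit 19) (nat_lit 5) (nat_lit 20) (nat_lit 5) (nat_lit 21) (nat_lit 4) (nat_lit 283) (nat_lit 264) (nat_lit 233))))))) (XT.nd (nat_lit 1014) (nat_lit 380) (nat_lit 0) (XT.nd (nat_lit 468) (nat_lit 380) (nat_lit 0) (XT.nd (nat_lit 234) (nat_lit 304) (nat_lit 0) (XT.nd (nat_lit 78) (nat_lit 152) (nat_lit 0) (XT.lf (nat_lit 0) (nat_lit 9455555333) (nat_lit 152) (nat_lit 11515826090) (nat_lit 76) (nat_lit 19773985871) (nat_lit 17) (nat_lit 5) (nat_lit 19) (nat_lit 5) (nat_lit 18) (nat_lit 4) (nat_lit 284) (nat_lit 264) (nat_lit 232)) (XT.nd (nat_lit 78) (nat_lit 76) (nat_lit 0) (XT.lf (nat_lit 0) (nat_lit 25694160838) (nat_lit 76)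 (nat_lit 1673400995) (nat_lit 152) (nat_lit 17811488083) (nat_lit 16) (nat_lit 5) (nat_lit 17) (nat_lit 5) (nat_lit 18) (nat_lit 4) (nat_lit 285) (nat_lit 264) (nat_lit 231)) (XT.lf (nat_lit 0) (nat_lit 19283251900) (nat_lit 76) (nat_lit 29925020781) (nat_lit 76) (nat_lit 970182187) (nat_lit 15) (nat_lit 4) (nat_lit 16) (nat_lit 5) (nat_lit 16) (nat_lit 4) (nat_lit 286) (nat_lit 264) (nat_lit 230)))) (XT.nd (nat_lit 78) (nat_lit 152) (nat_lit 0) (XT.lf (nat_lit 0) (nat_lit 9006493428) (nat_lit 76) (nat_lit 9259962767) (nat_lit 152) (nat_lit 37562780166) (nat_lit 13) (nat_lit 5) (nat_lit 14) (nat_lit 5) (nat_lit 15) (nat_lit 4) (nat_lit 287) (nat_lit 264) (nat_lit 229)) (XT.nd (nat_lit 78) (nat_lit 152) (nat_lit 0) (XT.lf (nat_lit 0) (nat_lit 41552841489) (nat_lit 152) (nat_lit 5989198747) (nat_lit 0) (nat_lit 14685858684) (nat_lit 13) (nat_lit 5) (nat_lit 15) (nat_lit 4) (nat_lit 13) (nat_lit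 4) (nat_lit 288) (nat_lit 264) (nat_lit 228)) (XT.lf (nat_lit 0) (nat_lit 80509648) (nat_lit 152) (nat_lit 26722554917) (nat_lit 76) (nat_lit 42683966097) (nat_lit 11) (nat_lit 5) (nat_lit 13) (nat_lit 5) (nat_lit 12) (nat_lit 4) (nat_lit 289) (nat_lit 264) (nat_lit 227))))) (XT.nd (nat_lit 234) (nat_lit 228) (nat_lit 0) (XT.nd (nat_lit 78) (nat_lit 76) (nat_lit 0) (XT.lf (nat_lit 0) (nat_lit 21806399149) (nat_lit 76) (nat_lit 1614967254) (nat_lit 152) (nat_lit 54315023591) (nat_lit 10) (nat_lit 5) (nat_lit 11) (nat_lit 5) (nat_lit 12) (nat_lit 4) (nat_lit 290) (nat_lit 264) (nat_lit 226)) (XT.nd (nat_lit 78) (nat_lit 76) (nat_lit 0) (XT.lf (nat_lit 0) (nat_lit 51680195526) (nat_lit 152) (nat_lit 8682256173) (nat_lit 0) (nat_lit 26747363482) (nat_lit 10) (nat_lit 5) (nat_lit 12) (nat_lit 4) (nat_lit 10) (nat_lit 4) (nat_lit 291) (nat_lit 264) (nat_lit 225)) (XT.lf (nat_lit 0) (nat_lit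 47939795747) (nat_lit 76) (nat_lit 37401617880) (nat_lit 76) (nat_lit 12454763583) (nat_lit 9) (nat_lit 4) (nat_lit 10) (nat_lit 5) (nat_lit 10) (nat_lit 4) (nat_lit 292) (nat_lit 264) (nat_lit 224)))) (XT.nd (nat_lit 156) (nat_lit 76) (nat_lit 0) (XT.nd (nat_lit 78) (nat_lit 0) (nat_lit 0) (XT.lf (nat_lit 0) (nat_lit 3274616826) (nat_lit 76) (nat_lit 10299260282) (nat_lit 152) (nat_lit 96460255181) (nat_lit 7) (nat_lit 5) (nat_lit 8) (nat_lit 5) (nat_lit 9) (nat_lit 4) (nat_lit 293) (nat_lit 264) (nat_lit 223)) (XT.lf (nat_lit 0) (nat_lit 44751649254) (nat_lit 152) (nat_lit 57540070814) (nat_lit 0) (nat_lit 21631602589) (nat_lit 7) (nat_lit 5) (nat_lit 9) (nat_lit 4) (nat_lit 7) (nat_lit 4) (nat_lit 294) (nat_lit 264) (nat_lit 222))) (XT.nd (nat_lit 78) (nat_lit 76) (nat_lit 0) (XT.lf (nat_lit 0) (nat_lit 80865048330) (nat_lit 152) (nat_lit 1273666615) (nat_lit 0) (nat_lit 57736464758)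 (nat_lit 7) (nat_lit 5) (nat_lit 9) (nat_lit 4) (nat_lit 7) (nat_lit 4) (nat_lit 295) (nat_lit 264) (nat_lit 221)) (XT.lf (nat_lit 0) (nat_lit 66726172407) (nat_lit 76) (nat_lit 57251537026) (nat_lit 76) (nat_lit 34115530058) (nat_lit 6) (nat_lit 4) (nat_lit 7) (nat_lit 5) (nat_lit 7) (nat_lit 4) (nat_lit 296) (nat_lit 264) (nat_lit 220)))))) (XT.nd (nat_lit 546) (nat_lit 152) (nat_lit 0) (XT.nd (nat_lit 234) (nat_lit 76) (nat_lit 0) (XT.nd (nat_lit 78) (nat_lit 152) (nat_lit 0) (XT.lf (nat_lit 0) (nat_lit 144962439027) (nat_lit 76) (nat_lit 28611356518) (nat_lit 76) (nat_lit 5468894422) (nat_lit 6) (nat_lit 4) (nat_lit 7) (nat_lit 5) (nat_lit 7) (nat_lit 4) (nat_lit 297) (nat_lit 264) (nat_lit 219)) (XT.nd (nat_lit 78) (nat_lit 0) (nat_lit 0) (XT.lf (nat_lit 0) (nat_lit 27010596432) (nat_lit 152) (nat_lit 170421089168) (nat_lit 0) (nat_lit 5577193422) (nat_lit 4) (nat_lit 5) (nat_lit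 6) (nat_lit 4) (nat_lit 4) (nat_lit 4) (nat_lit 298) (nat_lit 264) (nat_lit 218)) (XT.lf (nat_lit 0) (nat_lit 65839552513) (nat_lit 152) (nat_lit 120173343691) (nat_lit 0) (nat_lit 44401630055) (nat_lit 4) (nat_lit 5) (nat_lit 6) (nat_lit 4) (nat_lit 4) (nat_lit 4) (nat_lit 299) (nat_lit 264) (nat_lit 217)))) (XT.nd (nat_lit 156) (nat_lit 0) (nat_lit 0) (XT.nd (nat_lit 78) (nat_lit 76) (nat_lit 0) (XT.lf (nat_lit 0) (nat_lit 110477941898) (nat_lit 152) (nat_lit 62418184311) (nat_lit 0) (nat_lit 89036089485) (nat_lit 4) (nat_lit 5) (nat_lit 6) (nat_lit 4) (nat_lit 4) (nat_lit 4) (nat_lit 300) (nat_lit 264) (nat_lit 216)) (XT.lf (nat_lit 0) (nat_lit 4183665090) (nat_lit 76) (nat_lit 157716076537) (nat_lit 76) (nat_lit 136270806771) (nat_lit 3) (nat_lit 4) (nat_lit 4) (nat_lit 5) (nat_lit 4) (nat_lit 4) (nat_lit 301) (nat_lit 264) (nat_lit 215))) (XT.nd (nat_lit 78) (nat_lit 0) (nat_lit 0)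 (XT.lf (nat_lit 0) (nat_lit 84531969340) (nat_lit 76) (nat_lit 138308236608) (nat_lit 76) (nat_lit 116859995232) (nat_lit 3) (nat_lit 4) (nat_lit 4) (nat_lit 5) (nat_lit 4) (nat_lit 4) (nat_lit 302) (nat_lit 264) (nat_lit 214)) (XT.lf (nat_lit 0) (nat_lit 176911929507) (nat_lit 76) (nat_lit 115999511590) (nat_lit 76) (nat_lit 94548686205) (nat_lit 3) (nat_lit 4) (nat_lit 4) (nat_lit 5) (nat_lit 4) (nat_lit 4) (nat_lit 303) (nat_lit 264) (nat_lit 213))))) (XT.nd (nat_lit 234) (nat_lit 152) (nat_lit 0) (XT.nd (nat_lit 78) (nat_lit 0) (nat_lit 0) (XT.lf (nat_lit 0) (nat_lit 283130979594) (nat_lit 76) (nat_lit 90353426428) (nat_lit 76) (nat_lit 68900354079) (nat_lit 3) (nat_lit 4) (nat_lit 4) (nat_lit 5) (nat_lit 4) (nat_lit 4) (nat_lit 304) (nat_lit 264) (nat_lit 212)) (XT.nd (nat_lit 78) (nat_lit 0) (nat_lit 0) (XT.lf (nat_lit 0) (nat_lit 405267318406) (nat_lit 76) (nat_lit 60868209891)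 (nat_lit 76) (nat_lit 39413183660) (nat_lit 3) (nat_lit 4) (nat_lit 4) (nat_lit 5) (nat_lit 4) (nat_lit 4) (nat_lit 305) (nat_lit 264) (nat_lit 211)) (XT.lf (nat_lit 0) (nat_lit 545710569964) (nat_lit 76) (nat_lit 26966977308) (nat_lit 76) (nat_lit 5510252049) (nat_lit 3) (nat_lit 4) (nat_lit 4) (nat_lit 5) (nat_lit 4) (nat_lit 4) (nat_lit 306) (nat_lit 264) (nat_lit 210)))) (XT.nd (nat_lit 156) (nat_lit 0) (nat_lit 0) (XT.nd (nat_lit 78) (nat_lit 0) (nat_lit 0) (XT.lf (nat_lit 0) (nat_lit 33267729114) (nat_lit 152) (nat_lit 614874440903) (nat_lit 0) (nat_lit 13399022934) (nat_lit 1) (nat_lit 5) (nat_lit 3) (nat_lit 4) (nat_lit 1) (nat_lit 4) (nat_lit 307) (nat_lit 264) (nat_lit 209)) (XT.lf (nat_lit 0) (nat_lit 79255700896) (nat_lit 152) (nat_lit 618607075437) (nat_lit 0) (nat_lit 59385805170) (nat_lit 1) (nat_lit 5) (nat_lit 3) (nat_lit 4) (nat_lit 1) (nat_lit 4) (nat_lit 308) (nat_lit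 264) (nat_lit 208))) (XT.nd (nat_lit 78) (nat_lit 0) (nat_lit 0) (XT.lf (nat_lit 0) (nat_lit 132136952232) (nat_lit 152) (nat_lit 622909497890) (nat_lit 0) (nat_lit 112266022118) (nat_lit 1) (nat_lit 5) (nat_lit 3) (nat_lit 4) (nat_lit 1) (nat_lit 4) (nat_lit 309) (nat_lit 264) (nat_lit 207)) (XT.lf (nat_lit 0) (nat_lit 192946116301) (nat_lit 152) (nat_lit 627865886092) (nat_lit 0) (nat_lit 173074286721) (nat_lit 1) (nat_lit 5) (nat_lit 3) (nat_lit 4) (nat_lit 1) (nat_lit 4) (nat_lit 310) (nat_lit 264) (nat_lit 206))))))))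
noncomputable def xc29 : XT := (XT.nd (nat_lit 37596) (nat_lit 0) (nat_lit 228) (XT.nd (nat_lit 1014) (nat_lit 0) (nat_lit 0) (XT.nd (nat_lit 468) (nat_lit 0) (nat_lit 0) (XT.nd (nat_lit 234) (nat_lit 0) (nat_lit 0) (XT.nd (nat_lit 78) (nat_lit 0) (nat_lit 0) (XT.lf (nat_lit 0) (nat_lit 262872937619) (nat_lit 152) (nat_lit 633573212856) (nat_lit 0) (nat_lit 243000325892) (nat_lit 1) (nat_lit 5) (nat_lit 3) (nat_lit 4) (nat_lit 1) (nat_lit 4) (nat_lit 311) (nat_lit 264) (nat_lit 205)) (XT.nd (nat_lit 78) (nat_lit 0) (nat_lit 0) (XT.lf (nat_lit 0) (nat_lit 343285549645) (nat_lit 152) (nat_lit 640143143270) (nat_lit 0) (nat_lit 323412257792) (nat_lit 1) (nat_lit 5) (nat_lit 3) (nat_lit 4) (nat_lit 1) (nat_lit 4) (nat_lit 312) (nat_lit 264) (nat_lit 204)) (XT.lf (nat_lit 0) (nat_lit 435757242614) (nat_lit 152) (nat_lit 647704219452) (nat_lit 0) (nat_lit 415883359347) (nat_lit 1) (nat_lit 5)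 (nat_lit 3) (nat_lit 4) (nat_lit 1) (nat_lit 4) (nat_lit 313) (nat_lit 264) (nat_lit 203)))) (XT.nd (nat_lit 78) (nat_lit 0) (nat_lit 0) (XT.lf (nat_lit 0) (nat_lit 542097245302) (nat_lit 152) (nat_lit 656404375501) (nat_lit 0) (nat_lit 522222847762) (nat_lit 1) (nat_lit 5) (nat_lit 3) (nat_lit 4) (nat_lit 1) (nat_lit 4) (nat_lit 314) (nat_lit 264) (nat_lit 202)) (XT.nd (nat_lit 78) (nat_lit 0) (nat_lit 0) (XT.lf (nat_lit 0) (nat_lit 664386122980) (nat_lit 152) (nat_lit 666413831861) (nat_lit 0) (nat_lit 644511278245) (nat_lit 1) (nat_lit 5) (nat_lit 3) (nat_lit 4) (nat_lit 1) (nat_lit 4) (nat_lit 315) (nat_lit 264) (nat_lit 201)) (XT.lf (nat_lit 0) (nat_lit 805016484123) (nat_lit 152) (nat_lit 677928425721) (nat_lit 0) (nat_lit 785141250523) (nat_lit 1) (nat_lit 5) (nat_lit 3) (nat_lit 4) (nat_lit 1) (nat_lit 4) (nat_lit 316) (nat_lit 264) (nat_lit 200))))) (XT.nd (nat_lit 234) (nat_lit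 0) (nat_lit 0) (XT.nd (nat_lit 78) (nat_lit 0) (nat_lit 0) (XT.lf (nat_lit 0) (nat_lit 966739792318) (nat_lit 152) (nat_lit 691173442615) (nat_lit 0) (nat_lit 946864220576) (nat_lit 1) (nat_lit 5) (nat_lit 3) (nat_lit 4) (nat_lit 1) (nat_lit 4) (nat_lit 317) (nat_lit 264) (nat_lit 199)) (XT.nd (nat_lit 78) (nat_lit 0) (nat_lit 0) (XT.lf (nat_lit 0) (nat_lit 1152720199249) (nat_lit 152) (nat_lit 706408024176) (nat_lit 0) (nat_lit 1132844333469) (nat_lit 1) (nat_lit 5) (nat_lit 3) (nat_lit 4) (nat_lit 1) (nat_lit 4) (nat_lit 318) (nat_lit 264) (nat_lit 198)) (XT.lf (nat_lit 0) (nat_lit 1366596452007) (nat_lit 152) (nat_lit 723930238305) (nat_lit 0) (nat_lit 1346720330542) (nat_lit 1) (nat_lit 5) (nat_lit 3) (nat_lit 4) (nat_lit 1) (nat_lit 4) (nat_lit 319) (nat_lit 264) (nat_lit 197)))) (XT.nd (nat_lit 156) (nat_lit 0) (nat_lit 0) (XT.nd (nat_lit 78) (nat_lit 0) (nat_lit 0) (XT.lf (nat_lit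 0) (nat_lit 1612553085972) (nat_lit 152) (nat_lit 744082910931) (nat_lit 0) (nat_lit 1592676742173) (nat_lit 1) (nat_lit 5) (nat_lit 3) (nat_lit 4) (nat_lit 1) (nat_lit 4) (nat_lit 320) (nat_lit 264) (nat_lit 196)) (XT.lf (nat_lit 0) (nat_lit 1895402296157) (nat_lit 152) (nat_lit 767260333474) (nat_lit 0) (nat_lit 1875525759023) (nat_lit 1) (nat_lit 5) (nat_lit 3) (nat_lit 4) (nat_lit 1) (nat_lit 4) (nat_lit 321) (nat_lit 264) (nat_lit 195))) (XT.nd (nat_lit 78) (nat_lit 0) (nat_lit 0) (XT.lf (nat_lit 0) (nat_lit 2220678088848) (nat_lit 152) (nat_lit 793915977245) (nat_lit 0) (nat_lit 2200801383597) (nat_lit 1) (nat_lit 5) (nat_lit 3) (nat_lit 4) (nat_lit 1) (nat_lit 4) (nat_lit 322) (nat_lit 264) (nat_lit 194)) (XT.lf (nat_lit 0) (nat_lit 2594744555640) (nat_lit 152) (nat_lit 824571365709) (nat_lit 0) (nat_lit 2574867704201) (nat_lit 1) (nat_lit 5) (nat_lit 3) (nat_lit 4) (nat_lit 1)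 (nat_lit 4) (nat_lit 323) (nat_lit 264) (nat_lit 193)))))) (XT.nd (nat_lit 36036) (nat_lit 0) (nat_lit 3420) (XT.nd (nat_lit 234) (nat_lit 0) (nat_lit 0) (XT.nd (nat_lit 78) (nat_lit 0) (nat_lit 0) (XT.lf (nat_lit 0) (nat_lit 3024920388276) (nat_lit 152) (nat_lit 859826278205) (nat_lit 0) (nat_lit 3005043409717) (nat_lit 1) (nat_lit 5) (nat_lit 3) (nat_lit 4) (nat_lit 1) (nat_lit 4) (nat_lit 324) (nat_lit 264) (nat_lit 192)) (XT.nd (nat_lit 78) (nat_lit 0) (nat_lit 0) (XT.lf (nat_lit 0) (nat_lit 3519622070438) (nat_lit 152) (nat_lit 900370484762) (nat_lit 0) (nat_lit 3499744981339) (nat_lit 1) (nat_lit 5) (nat_lit 3) (nat_lit 4) (nat_lit 1) (nat_lit 4) (nat_lit 325) (nat_lit 264) (nat_lit 191)) (XT.lf (nat_lit 0) (nat_lit 4088528548080) (nat_lit 152) (nat_lit 946997241593) (nat_lit 0) (nat_lit 4068651362860) (nat_lit 1) (nat_lit 5) (nat_lit 3) (nat_lit 4) (nat_lit 1) (nat_lit 4) (nat_lit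 326) (nat_lit 264) (nat_lit 190)))) (XT.nd (nat_lit 156) (nat_lit 0) (nat_lit 0) (XT.nd (nat_lit 78) (nat_lit 0) (nat_lit 0) (XT.lf (nat_lit 0) (nat_lit 4742770600114) (nat_lit 152) (nat_lit 1000618811333) (nat_lit 0) (nat_lit 4722893331310) (nat_lit 1) (nat_lit 5) (nat_lit 3) (nat_lit 4) (nat_lit 1) (nat_lit 4) (nat_lit 327) (nat_lit 264) (nat_lit 189)) (XT.lf (nat_lit 0) (nat_lit 5495148614514) (nat_lit 152) (nat_lit 1062284311650) (nat_lit 0) (nat_lit 5475271273028) (nat_lit 1) (nat_lit 5) (nat_lit 3) (nat_lit 4) (nat_lit 1) (nat_lit 4) (nat_lit 328) (nat_lit 264) (nat_lit 188))) (XT.nd (nat_lit 78) (nat_lit 0) (nat_lit 0) (XT.lf (nat_lit 0) (nat_lit 6360383030691) (nat_lit 152) (nat_lit 1133200241464) (nat_lit 0) (nat_lit 6340505626004) (nat_lit 1) (nat_lit 5) (nat_lit 3) (nat_lit 4) (nat_lit 1) (nat_lit 4) (nat_lit 329) (nat_lit 264) (nat_lit 187)) (XT.lf (nat_lit 0) (nat_lit 7355402348094)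 (nat_lit 152) (nat_lit 1214754086358) (nat_lit 0) (nat_lit 7335524888449) (nat_lit 1) (nat_lit 5) (nat_lit 3) (nat_lit 4) (nat_lit 1) (nat_lit 4) (nat_lit 330) (nat_lit 264) (nat_lit 186))))) (XT.nd (nat_lit 234) (nat_lit 988) (nat_lit 0) (XT.nd (nat_lit 78) (nat_lit 456) (nat_lit 0) (XT.lf (nat_lit 0) (nat_lit 1866680702) (nat_lit 0) (nat_lit 1866680702) (nat_lit 380) (nat_lit 684306546) (nat_lit 65) (nat_lit 5) (nat_lit 65) (nat_lit 3) (nat_lit 70) (nat_lit 3) (nat_lit 265) (nat_lit 265) (nat_lit 250)) (XT.nd (nat_lit 78) (nat_lit 0) (nat_lit 0) (XT.lf (nat_lit 0) (nat_lit 371864544) (nat_lit 456) (nat_lit 6443924697) (nat_lit 532) (nat_lit 2541016357) (nat_lit 59) (nat_lit 5) (nat_lit 65) (nat_lit 5) (nat_lit 66) (nat_lit 5) (nat_lit 266) (nat_lit 265) (nat_lit 249)) (XT.lf (nat_lit 76) (nat_lit 2270223976) (nat_lit 0) (nat_lit 42989610) (nat_lit 532) (nat_lit 7639207422) (nat_lit 60)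 (nat_lit 5) (nat_lit 59) (nat_lit 5) (nat_lit 66) (nat_lit 5) (nat_lit 267) (nat_lit 265) (nat_lit 248)))) (XT.nd (nat_lit 156) (nat_lit 684) (nat_lit 0) (XT.nd (nat_lit 78) (nat_lit 380) (nat_lit 0) (XT.lf (nat_lit 76) (nat_lit 1756719142) (nat_lit 0) (nat_lit 2954111754) (nat_lit 532) (nat_lit 5913721766) (nat_lit 61) (nat_lit 5) (nat_lit 60) (nat_lit 5) (nat_lit 67) (nat_lit 5) (nat_lit 268) (nat_lit 265) (nat_lit 247)) (XT.lf (nat_lit 0) (nat_lit 1436279620) (nat_lit 456) (nat_lit 6194738013) (nat_lit 532) (nat_lit 3753782030) (nat_lit 55) (nat_lit 5) (nat_lit 61) (nat_lit 5) (nat_lit 62) (nat_lit 5) (nat_lit 269) (nat_lit 265) (nat_lit 246))) (XT.nd (nat_lit 78) (nat_lit 304) (nat_lit 0) (XT.lf (nat_lit 0) (nat_lit 1310900499) (nat_lit 380) (nat_lit 9905146679) (nat_lit 456) (nat_lit 1025178083) (nat_lit 50) (nat_lit 5) (nat_lit 55) (nat_lit 5) (nat_lit 56) (nat_lit 5) (nat_lit 270)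 (nat_lit 265) (nat_lit 245)) (XT.lf (nat_lit 0) (nat_lit 1299586313) (nat_lit 228) (nat_lit 1023538896) (nat_lit 304) (nat_lit 10873867853) (nat_lit 46) (nat_lit 5) (nat_lit 49) (nat_lit 5) (nat_lit 50) (nat_lit 5) (nat_lit 271) (nat_lit 265) (nat_lit 244))))))) (XT.nd (nat_lit 1092) (nat_lit 988) (nat_lit 0) (XT.nd (nat_lit 546) (nat_lit 836) (nat_lit 0) (XT.nd (nat_lit 234) (nat_lit 684) (nat_lit 0) (XT.nd (nat_lit 78) (nat_lit 456) (nat_lit 0) (XT.lf (nat_lit 0) (nat_lit 1375358101) (nat_lit 228) (nat_lit 5155615208) (nat_lit 304) (nat_lit 7729783133) (nat_lit 43) (nat_lit 5) (nat_lit 46) (nat_lit 5) (nat_lit 47) (nat_lit 5) (nat_lit 272) (nat_lit 265) (nat_lit 243)) (XT.nd (nat_lit 78) (nat_lit 304) (nat_lit 0) (XT.lf (nat_lit 0) (nat_lit 1636968409) (nat_lit 152) (nat_lit 10132949378) (nat_lit 228) (nat_lit 3682347576) (nat_lit 41) (nat_lit 5) (nat_lit 43) (nat_lit 5) (nat_lit 44)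 (nat_lit 5) (nat_lit 273) (nat_lit 265) (nat_lit 242)) (XT.lf (nat_lit 0) (nat_lit 1381907988) (nat_lit 304) (nat_lit 14726624349) (nat_lit 76) (nat_lit 675571259) (nat_lit 37) (nat_lit 5) (nat_lit 41) (nat_lit 5) (nat_lit 38) (nat_lit 5) (nat_lit 274) (nat_lit 265) (nat_lit 241)))) (XT.nd (nat_lit 156) (nat_lit 380) (nat_lit 0) (XT.nd (nat_lit 78) (nat_lit 152) (nat_lit 0) (XT.lf (nat_lit 0) (nat_lit 2421240327) (nat_lit 152) (nat_lit 5200581340) (nat_lit 228) (nat_lit 10635642016) (nat_lit 35) (nat_lit 5) (nat_lit 37) (nat_lit 5) (nat_lit 38) (nat_lit 5) (nat_lit 275) (nat_lit 265) (nat_lit 240)) (XT.lf (nat_lit 0) (nat_lit 2908361578) (nat_lit 152) (nat_lit 12463710991) (nat_lit 228) (nat_lit 4533913481) (nat_lit 33) (nat_lit 5) (nat_lit 35) (nat_lit 5) (nat_lit 36) (nat_lit 5) (nat_lit 276) (nat_lit 265) (nat_lit 239))) (XT.nd (nat_lit 78) (nat_lit 152) (nat_lit 0) (XT.lf (nat_lit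 0) (nat_lit 2967250606) (nat_lit 228) (nat_lit 18301789308) (nat_lit 76) (nat_lit 479383811) (nat_lit 30) (nat_lit 5) (nat_lit 33) (nat_lit 5) (nat_lit 31) (nat_lit 5) (nat_lit 277) (nat_lit 265) (nat_lit 238)) (XT.lf (nat_lit 0) (nat_lit 3712300508) (nat_lit 152) (nat_lit 8467266256) (nat_lit 228) (nat_lit 11609958717) (nat_lit 28) (nat_lit 5) (nat_lit 30) (nat_lit 5) (nat_lit 31) (nat_lit 5) (nat_lit 278) (nat_lit 265) (nat_lit 237))))) (XT.nd (nat_lit 234) (nat_lit 456) (nat_lit 0) (XT.nd (nat_lit 78) (nat_lit 304) (nat_lit 0) (XT.lf (nat_lit 0) (nat_lit 3932396273) (nat_lit 76) (nat_lit 19545953046) (nat_lit 152) (nat_lit 2602138368) (nat_lit 27) (nat_lit 5) (nat_lit 28) (nat_lit 5) (nat_lit 29) (nat_lit 4) (nat_lit 279) (nat_lit 265) (nat_lit 236)) (XT.nd (nat_lit 78) (nat_lit 76) (nat_lit 0) (XT.lf (nat_lit 0) (nat_lit 3705461482) (nat_lit 152) (nat_lit 4505427122) (nat_lit 228)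 (nat_lit 20421968482) (nat_lit 24) (nat_lit 5) (nat_lit 26) (nat_lit 5) (nat_lit 27) (nat_lit 5) (nat_lit 280) (nat_lit 265) (nat_lit 235)) (XT.lf (nat_lit 0) (nat_lit 2881349931) (nat_lit 76) (nat_lit 18578751170) (nat_lit 152) (nat_lit 10025154486) (nat_lit 23) (nat_lit 5) (nat_lit 24) (nat_lit 5) (nat_lit 25) (nat_lit 4) (nat_lit 281) (nat_lit 265) (nat_lit 234)))) (XT.nd (nat_lit 156) (nat_lit 228) (nat_lit 0) (XT.nd (nat_lit 78) (nat_lit 0) (nat_lit 0) (XT.lf (nat_lit 0) (nat_lit 1423741923) (nat_lit 152) (nat_lit 1244812506) (nat_lit 228) (nat_lit 32026562042) (nat_lit 20) (nat_lit 5) (nat_lit 22) (nat_lit 5) (nat_lit 23) (nat_lit 5) (nat_lit 282) (nat_lit 265) (nat_lit 233)) (XT.lf (nat_lit 0) (nat_lit 17929264588) (nat_lit 228) (nat_lit 1495246433) (nat_lit 76) (nat_lit 18840622021) (nat_lit 20) (nat_lit 5) (nat_lit 23) (nat_lit 5) (nat_lit 21) (nat_lit 4) (nat_lit 283) (nat_lit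 265) (nat_lit 232))) (XT.nd (nat_lit 78) (nat_lit 152) (nat_lit 0) (XT.lf (nat_lit 0) (nat_lit 36351411787) (nat_lit 152) (nat_lit 5559979197) (nat_lit 0) (nat_lit 389502253) (nat_lit 19) (nat_lit 5) (nat_lit 21) (nat_lit 4) (nat_lit 19) (nat_lit 4) (nat_lit 284) (nat_lit 265) (nat_lit 231)) (XT.lf (nat_lit 0) (nat_lit 11471947884) (nat_lit 152) (nat_lit 12141115841) (nat_lit 76) (nat_lit 23196024823) (nat_lit 17) (nat_lit 5) (nat_lit 19) (nat_lit 5) (nat_lit 18) (nat_lit 4) (nat_lit 285) (nat_lit 265) (nat_lit 230)))))) (XT.nd (nat_lit 546) (nat_lit 456) (nat_lit 0) (XT.nd (nat_lit 234) (nat_lit 228) (nat_lit 0) (XT.nd (nat_lit 78) (nat_lit 228) (nat_lit 0) (XT.lf (nat_lit 0) (nat_lit 30557083191) (nat_lit 76) (nat_lit 1459926061) (nat_lit 152) (nat_lit 19895145187) (nat_lit 16) (nat_lit 5) (nat_lit 17) (nat_lit 5) (nat_lit 18) (nat_lit 4) (nat_lit 286) (nat_lit 265) (nat_lit 229)) (XT.nd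 (nat_lit 78) (nat_lit 152) (nat_lit 0) (XT.lf (nat_lit 0) (nat_lit 23128972344) (nat_lit 76) (nat_lit 33966496092) (nat_lit 76) (nat_lit 569097480) (nat_lit 15) (nat_lit 4) (nat_lit 16) (nat_lit 5) (nat_lit 16) (nat_lit 4) (nat_lit 287) (nat_lit 265) (nat_lit 228)) (XT.lf (nat_lit 0) (nat_lit 11255196172) (nat_lit 76) (nat_lit 10224356491) (nat_lit 152) (nat_lit 42686073342) (nat_lit 13) (nat_lit 5) (nat_lit 14) (nat_lit 5) (nat_lit 15) (nat_lit 4) (nat_lit 288) (nat_lit 265) (nat_lit 227)))) (XT.nd (nat_lit 156) (nat_lit 76) (nat_lit 0) (XT.nd (nat_lit 78) (nat_lit 152) (nat_lit 0) (XT.lf (nat_lit 0) (nat_lit 48206063100) (nat_lit 152) (nat_lit 6082784747) (nat_lit 0) (nat_lit 17239485700) (nat_lit 13) (nat_lit 5) (nat_lit 15) (nat_lit 4) (nat_lit 13) (nat_lit 4) (nat_lit 289) (nat_lit 265) (nat_lit 226)) (XT.lf (nat_lit 0) (nat_lit 485834907) (nat_lit 152) (nat_lit 29973456429) (nat_lit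 76) (nat_lit 49419232104) (nat_lit 11) (nat_lit 5) (nat_lit 13) (nat_lit 5) (nat_lit 12) (nat_lit 4) (nat_lit 290) (nat_lit 265) (nat_lit 225))) (XT.nd (nat_lit 78) (nat_lit 0) (nat_lit 0) (XT.lf (nat_lit 0) (nat_lit 25770723692) (nat_lit 76) (nat_lit 1522478597) (nat_lit 152) (nat_lit 62074867106) (nat_lit 10) (nat_lit 5) (nat_lit 11) (nat_lit 5) (nat_lit 12) (nat_lit 4) (nat_lit 291) (nat_lit 265) (nat_lit 224)) (XT.lf (nat_lit 0) (nat_lit 59751078143) (nat_lit 152) (nat_lit 9363643805) (nat_lit 0) (nat_lit 31035980184) (nat_lit 10) (nat_lit 5) (nat_lit 12) (nat_lit 4) (nat_lit 10) (nat_lit 4) (nat_lit 292) (nat_lit 265) (nat_lit 223))))) (XT.nd (nat_lit 234) (nat_lit 228) (nat_lit 0) (XT.nd (nat_lit 78) (nat_lit 152) (nat_lit 0) (XT.lf (nat_lit 0) (nat_lit 55699155511) (nat_lit 76) (nat_lit 42734403691) (nat_lit 76) (nat_lit 14008702895) (nat_lit 9) (nat_lit 4) (nat_lit 10) (nat_lit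 5) (nat_lit 10) (nat_lit 4) (nat_lit 293) (nat_lit 265) (nat_lit 222)) (XT.nd (nat_lit 78) (nat_lit 0) (nat_lit 0) (XT.lf (nat_lit 0) (nat_lit 4300535719) (nat_lit 76) (nat_lit 11581895229) (nat_lit 152) (nat_lit 110634969448) (nat_lit 7) (nat_lit 5) (nat_lit 8) (nat_lit 5) (nat_lit 9) (nat_lit 4) (nat_lit 294) (nat_lit 265) (nat_lit 221)) (XT.lf (nat_lit 0) (nat_lit 51706813592) (nat_lit 152) (nat_lit 65692585011) (nat_lit 0) (nat_lit 25092982181) (nat_lit 7) (nat_lit 5) (nat_lit 9) (nat_lit 4) (nat_lit 7) (nat_lit 4) (nat_lit 295) (nat_lit 265) (nat_lit 220)))) (XT.nd (nat_lit 156) (nat_lit 152) (nat_lit 0) (XT.nd (nat_lit 78) (nat_lit 76) (nat_lit 0) (XT.lf (nat_lit 0) (nat_lit 93205602927) (nat_lit 152) (nat_lit 1048632759) (nat_lit 0) (nat_lit 66585316388) (nat_lit 7) (nat_lit 5) (nat_lit 9) (nat_lit 4) (nat_lit 7) (nat_lit 4) (nat_lit 296) (nat_lit 265) (nat_lit 219)) (XT.lf (nat_lit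 0) (nat_lit 77115962690) (nat_lit 76) (nat_lit 65650864997) (nat_lit 76) (nat_lit 39024965304) (nat_lit 6) (nat_lit 4) (nat_lit 7) (nat_lit 5) (nat_lit 7) (nat_lit 4) (nat_lit 297) (nat_lit 265) (nat_lit 218))) (XT.nd (nat_lit 78) (nat_lit 152) (nat_lit 0) (XT.lf (nat_lit 0) (nat_lit 167037991336) (nat_lit 76) (nat_lit 32739231663) (nat_lit 76) (nat_lit 6108450966) (nat_lit 6) (nat_lit 4) (nat_lit 7) (nat_lit 5) (nat_lit 7) (nat_lit 4) (nat_lit 298) (nat_lit 265) (nat_lit 217)) (XT.lf (nat_lit 0) (nat_lit 31222729610) (nat_lit 152) (nat_lit 195663943550) (nat_lit 0) (nat_lit 6560669380) (nat_lit 4) (nat_lit 5) (nat_lit 6) (nat_lit 4) (nat_lit 4) (nat_lit 4) (nat_lit 299) (nat_lit 265) (nat_lit 216))))))))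
noncomputable def xc30 : XT := (XT.nd (nat_lit 2106) (nat_lit 0) (nat_lit 0) (XT.nd (nat_lit 1014) (nat_lit 0) (nat_lit 0) (XT.nd (nat_lit 468) (nat_lit 152) (nat_lit 0) (XT.nd (nat_lit 234) (nat_lit 0) (nat_lit 0) (XT.nd (nat_lit 78) (nat_lit 76) (nat_lit 0) (XT.lf (nat_lit 0) (nat_lit 75855088619) (nat_lit 152) (nat_lit 137920815685) (nat_lit 0) (nat_lit 51189611037) (nat_lit 4) (nat_lit 5) (nat_lit 6) (nat_lit 4) (nat_lit 4) (nat_lit 4) (nat_lit 300) (nat_lit 265) (nat_lit 215)) (XT.nd (nat_lit 78) (nat_lit 76) (nat_lit 0) (XT.lf (nat_lit 0) (nat_lit 127171027295) (nat_lit 152) (nat_lit 71538712341) (nat_lit 0) (nat_lit 102502578103) (nat_lit 4) (nat_lit 5) (nat_lit 6) (nat_lit 4) (nat_lit 4) (nat_lit 4) (nat_lit 301) (nat_lit 265) (nat_lit 214)) (XT.lf (nat_lit 0) (nat_lit 5032913479) (nat_lit 76) (nat_lit 181262681346) (nat_lit 76) (nat_lit 156591648145) (nat_lit 3) (nat_lit 4) (nat_lit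 4) (nat_lit 5) (nat_lit 4) (nat_lit 4) (nat_lit 302) (nat_lit 265) (nat_lit 213)))) (XT.nd (nat_lit 78) (nat_lit 0) (nat_lit 0) (XT.lf (nat_lit 0) (nat_lit 97404546155) (nat_lit 76) (nat_lit 158958118472) (nat_lit 76) (nat_lit 134284838306) (nat_lit 3) (nat_lit 4) (nat_lit 4) (nat_lit 5) (nat_lit 4) (nat_lit 4) (nat_lit 303) (nat_lit 265) (nat_lit 212)) (XT.nd (nat_lit 78) (nat_lit 0) (nat_lit 0) (XT.lf (nat_lit 0) (nat_lit 203616354945) (nat_lit 76) (nat_lit 133315652566) (nat_lit 76) (nat_lit 108640418518) (nat_lit 3) (nat_lit 4) (nat_lit 4) (nat_lit 5) (nat_lit 4) (nat_lit 4) (nat_lit 304) (nat_lit 265) (nat_lit 211)) (XT.lf (nat_lit 0) (nat_lit 325746396978) (nat_lit 76) (nat_lit 103833583208) (nat_lit 76) (nat_lit 79156650132) (nat_lit 3) (nat_lit 4) (nat_lit 4) (nat_lit 5) (nat_lit 4) (nat_lit 4) (nat_lit 305) (nat_lit 265) (nat_lit 210))))) (XT.nd (nat_lit 234) (nat_lit 0) (nat_lit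 0) (XT.nd (nat_lit 78) (nat_lit 152) (nat_lit 0) (XT.lf (nat_lit 0) (nat_lit 466184173075) (nat_lit 76) (nat_lit 69935087301) (nat_lit 76) (nat_lit 45256676810) (nat_lit 3) (nat_lit 4) (nat_lit 4) (nat_lit 5) (nat_lit 4) (nat_lit 4) (nat_lit 306) (nat_lit 265) (nat_lit 209)) (XT.nd (nat_lit 78) (nat_lit 152) (nat_lit 0) (XT.lf (nat_lit 0) (nat_lit 627677378857) (nat_lit 76) (nat_lit 30956933405) (nat_lit 76) (nat_lit 6277238204) (nat_lit 3) (nat_lit 4) (nat_lit 4) (nat_lit 5) (nat_lit 4) (nat_lit 4) (nat_lit 307) (nat_lit 265) (nat_lit 208)) (XT.lf (nat_lit 0) (nat_lit 38310823510) (nat_lit 152) (nat_lit 706999087552) (nat_lit 0) (nat_lit 15458219492) (nat_lit 1) (nat_lit 5) (nat_lit 3) (nat_lit 4) (nat_lit 1) (nat_lit 4) (nat_lit 308) (nat_lit 265) (nat_lit 207)))) (XT.nd (nat_lit 156) (nat_lit 0) (nat_lit 0) (XT.nd (nat_lit 78) (nat_lit 0) (nat_lit 0) (XT.lf (nat_lit 0) (nat_lit 91190086490)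 (nat_lit 152) (nat_lit 711305511112) (nat_lit 0) (nat_lit 68336583004) (nat_lit 1) (nat_lit 5) (nat_lit 3) (nat_lit 4) (nat_lit 1) (nat_lit 4) (nat_lit 309) (nat_lit 265) (nat_lit 206)) (XT.lf (nat_lit 0) (nat_lit 151997521553) (nat_lit 152) (nat_lit 716265378538) (nat_lit 0) (nat_lit 129143235922) (nat_lit 1) (nat_lit 5) (nat_lit 3) (nat_lit 4) (nat_lit 1) (nat_lit 4) (nat_lit 310) (nat_lit 265) (nat_lit 205))) (XT.nd (nat_lit 78) (nat_lit 0) (nat_lit 0) (XT.lf (nat_lit 0) (nat_lit 221922839387) (nat_lit 152) (nat_lit 721975730714) (nat_lit 0) (nat_lit 199067873630) (nat_lit 1) (nat_lit 5) (nat_lit 3) (nat_lit 4) (nat_lit 1) (nat_lit 4) (nat_lit 311) (nat_lit 265) (nat_lit 204)) (XT.lf (nat_lit 0) (nat_lit 302334144036) (nat_lit 152) (nat_lit 728548291922) (nat_lit 0) (nat_lit 279478586864) (nat_lit 1) (nat_lit 5) (nat_lit 3) (nat_lit 4) (nat_lit 1) (nat_lit 4) (nat_lit 312) (nat_lit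 265) (nat_lit 203)))))) (XT.nd (nat_lit 546) (nat_lit 0) (nat_lit 0) (XT.nd (nat_lit 234) (nat_lit 0) (nat_lit 0) (XT.nd (nat_lit 78) (nat_lit 0) (nat_lit 0) (XT.lf (nat_lit 0) (nat_lit 394804700156) (nat_lit 152) (nat_lit 736111655750) (nat_lit 0) (nat_lit 371948628711) (nat_lit 1) (nat_lit 5) (nat_lit 3) (nat_lit 4) (nat_lit 1) (nat_lit 4) (nat_lit 313) (nat_lit 265) (nat_lit 202)) (XT.nd (nat_lit 78) (nat_lit 0) (nat_lit 0) (XT.lf (nat_lit 0) (nat_lit 501143714280) (nat_lit 152) (nat_lit 744813801057) (nat_lit 0) (nat_lit 478287195640) (nat_lit 1) (nat_lit 5) (nat_lit 3) (nat_lit 4) (nat_lit 1) (nat_lit 4) (nat_lit 314) (nat_lit 265) (nat_lit 201)) (XT.lf (nat_lit 0) (nat_lit 623431732336) (nat_lit 152) (nat_lit 754824987206) (nat_lit 0) (nat_lit 600574824832) (nat_lit 1) (nat_lit 5) (nat_lit 3) (nat_lit 4) (nat_lit 1) (nat_lit 4) (nat_lit 315) (nat_lit 265) (nat_lit 200)))) (XT.nd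 (nat_lit 156) (nat_lit 0) (nat_lit 0) (XT.nd (nat_lit 78) (nat_lit 0) (nat_lit 0) (XT.lf (nat_lit 0) (nat_lit 764061345981) (nat_lit 152) (nat_lit 766341085231) (nat_lit 0) (nat_lit 741204100334) (nat_lit 1) (nat_lit 5) (nat_lit 3) (nat_lit 4) (nat_lit 1) (nat_lit 4) (nat_lit 316) (nat_lit 265) (nat_lit 199)) (XT.lf (nat_lit 0) (nat_lit 925784004180) (nat_lit 152) (nat_lit 779587410094) (nat_lit 0) (nat_lit 902926464495) (nat_lit 1) (nat_lit 5) (nat_lit 3) (nat_lit 4) (nat_lit 1) (nat_lit 4) (nat_lit 317) (nat_lit 265) (nat_lit 198))) (XT.nd (nat_lit 78) (nat_lit 0) (nat_lit 0) (XT.lf (nat_lit 0) (nat_lit 1111763845896) (nat_lit 152) (nat_lit 794823129019) (nat_lit 0) (nat_lit 1088906050526) (nat_lit 1) (nat_lit 5) (nat_lit 3) (nat_lit 4) (nat_lit 1) (nat_lit 4) (nat_lit 318) (nat_lit 265) (nat_lit 197)) (XT.lf (nat_lit 0) (nat_lit 1325639607162) (nat_lit 152) (nat_lit 812346332161) (nat_lit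 0) (nat_lit 1302781589458) (nat_lit 1) (nat_lit 5) (nat_lit 3) (nat_lit 4) (nat_lit 1) (nat_lit 4) (nat_lit 319) (nat_lit 265) (nat_lit 196))))) (XT.nd (nat_lit 234) (nat_lit 0) (nat_lit 0) (XT.nd (nat_lit 78) (nat_lit 0) (nat_lit 0) (XT.lf (nat_lit 0) (nat_lit 1571595813744) (nat_lit 152) (nat_lit 832499864797) (nat_lit 0) (nat_lit 1548737602705) (nat_lit 1) (nat_lit 5) (nat_lit 3) (nat_lit 4) (nat_lit 1) (nat_lit 4) (nat_lit 320) (nat_lit 265) (nat_lit 195)) (XT.nd (nat_lit 78) (nat_lit 0) (nat_lit 0) (XT.lf (nat_lit 0) (nat_lit 1854444652290) (nat_lit 152) (nat_lit 855678035176) (nat_lit 0) (nat_lit 1831586273135) (nat_lit 1) (nat_lit 5) (nat_lit 3) (nat_lit 4) (nat_lit 1) (nat_lit 4) (nat_lit 321) (nat_lit 265) (nat_lit 194)) (XT.lf (nat_lit 0) (nat_lit 2179720121817) (nat_lit 152) (nat_lit 882334329239) (nat_lit 0) (nat_lit 2156861596474) (nat_lit 1) (nat_lit 5) (nat_lit 3) (nat_lit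 4) (nat_lit 1) (nat_lit 4) (nat_lit 322) (nat_lit 265) (nat_lit 193)))) (XT.nd (nat_lit 156) (nat_lit 0) (nat_lit 0) (XT.nd (nat_lit 78) (nat_lit 0) (nat_lit 0) (XT.lf (nat_lit 0) (nat_lit 2553786307598) (nat_lit 152) (nat_lit 912990283174) (nat_lit 0) (nat_lit 2530927655134) (nat_lit 1) (nat_lit 5) (nat_lit 3) (nat_lit 4) (nat_lit 1) (nat_lit 4) (nat_lit 323) (nat_lit 265) (nat_lit 192)) (XT.lf (nat_lit 0) (nat_lit 2983961895876) (nat_lit 152) (nat_lit 948245687385) (nat_lit 0) (nat_lit 2961103132872) (nat_lit 1) (nat_lit 5) (nat_lit 3) (nat_lit 4) (nat_lit 1) (nat_lit 4) (nat_lit 324) (nat_lit 265) (nat_lit 191))) (XT.nd (nat_lit 78) (nat_lit 0) (nat_lit 0) (XT.lf (nat_lit 0) (nat_lit 3478663365552) (nat_lit 152) (nat_lit 988790321518) (nat_lit 0) (nat_lit 3455804506427) (nat_lit 1) (nat_lit 5) (nat_lit 3) (nat_lit 4) (nat_lit 1) (nat_lit 4) (nat_lit 325) (nat_lit 265) (nat_lit 190))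 (XT.lf (nat_lit 0) (nat_lit 4047569658425) (nat_lit 152) (nat_lit 1035417450156) (nat_lit 0) (nat_lit 4024710715716) (nat_lit 1) (nat_lit 5) (nat_lit 3) (nat_lit 4) (nat_lit 1) (nat_lit 4) (nat_lit 326) (nat_lit 265) (nat_lit 189))))))) (XT.nd (nat_lit 36660) (nat_lit 0) (nat_lit 912) (XT.nd (nat_lit 36114) (nat_lit 0) (nat_lit 2736) (XT.nd (nat_lit 35880) (nat_lit 0) (nat_lit 4332) (XT.nd (nat_lit 78) (nat_lit 0) (nat_lit 0) (XT.lf (nat_lit 0) (nat_lit 4701811549789) (nat_lit 152) (nat_lit 1089039343206) (nat_lit 0) (nat_lit 4678952534399) (nat_lit 1) (nat_lit 5) (nat_lit 3) (nat_lit 4) (nat_lit 1) (nat_lit 4) (nat_lit 327) (nat_lit 265) (nat_lit 188)) (XT.nd (nat_lit 78) (nat_lit 0) (nat_lit 0) (XT.lf (nat_lit 0) (nat_lit 5454189424476) (nat_lit 152) (nat_lit 1150705124663) (nat_lit 0) (nat_lit 5431330345885) (nat_lit 1) (nat_lit 5) (nat_lit 3) (nat_lit 4) (nat_lit 1) (nat_lit 4) (nat_lit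 328) (nat_lit 265) (nat_lit 187)) (XT.lf (nat_lit 0) (nat_lit 6319423719165) (nat_lit 152) (nat_lit 1221621298945) (nat_lit 0) (nat_lit 6296564585615) (nat_lit 1) (nat_lit 5) (nat_lit 3) (nat_lit 4) (nat_lit 1) (nat_lit 4) (nat_lit 329) (nat_lit 265) (nat_lit 186)))) (XT.nd (nat_lit 78) (nat_lit 0) (nat_lit 76) (XT.lf (nat_lit 0) (nat_lit 818245515) (nat_lit 532) (nat_lit 2067986221) (nat_lit 532) (nat_lit 2067986221) (nat_lit 58) (nat_lit 3) (nat_lit 65) (nat_lit 3) (nat_lit 65) (nat_lit 5) (nat_lit 266) (nat_lit 266) (nat_lit 248)) (XT.nd (nat_lit 78) (nat_lit 0) (nat_lit 0) (XT.lf (nat_lit 0) (nat_lit 3159000251) (nat_lit 456) (nat_lit 5606379873) (nat_lit 532) (nat_lit 1772354764) (nat_lit 59) (nat_lit 5) (nat_lit 65) (nat_lit 5) (nat_lit 66) (nat_lit 5) (nat_lit 267) (nat_lit 266) (nat_lit 247)) (XT.lf (nat_lit 76) (nat_lit 4262180184) (nat_lit 0) (nat_lit 812824390) (nat_lit 532)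 (nat_lit 6173544376) (nat_lit 60) (nat_lit 5) (nat_lit 59) (nat_lit 5) (nat_lit 66) (nat_lit 5) (nat_lit 268) (nat_lit 266) (nat_lit 246))))) (XT.nd (nat_lit 234) (nat_lit 912) (nat_lit 0) (XT.nd (nat_lit 78) (nat_lit 836) (nat_lit 0) (XT.lf (nat_lit 76) (nat_lit 3728752904) (nat_lit 0) (nat_lit 3813661838) (nat_lit 532) (nat_lit 4502736698) (nat_lit 61) (nat_lit 5) (nat_lit 60) (nat_lit 5) (nat_lit 67) (nat_lit 5) (nat_lit 269) (nat_lit 266) (nat_lit 245)) (XT.nd (nat_lit 78) (nat_lit 456) (nat_lit 0) (XT.lf (nat_lit 0) (nat_lit 3383230152) (nat_lit 456) (nat_lit 7273164670) (nat_lit 532) (nat_lit 2282982143) (nat_lit 55) (nat_lit 5) (nat_lit 61) (nat_lit 5) (nat_lit 62) (nat_lit 5) (nat_lit 270) (nat_lit 266) (nat_lit 244)) (XT.lf (nat_lit 0) (nat_lit 599576297) (nat_lit 456) (nat_lit 10720399504) (nat_lit 76) (nat_lit 2619975580) (nat_lit 49) (nat_lit 5) (nat_lit 55) (nat_lit 5) (nat_lit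 50) (nat_lit 5) (nat_lit 271) (nat_lit 266) (nat_lit 243)))) (XT.nd (nat_lit 156) (nat_lit 456) (nat_lit 0) (XT.nd (nat_lit 78) (nat_lit 228) (nat_lit 0) (XT.lf (nat_lit 0) (nat_lit 3161495598) (nat_lit 228) (nat_lit 1045454312) (nat_lit 304) (nat_lit 10844884005) (nat_lit 46) (nat_lit 5) (nat_lit 49) (nat_lit 5) (nat_lit 50) (nat_lit 5) (nat_lit 272) (nat_lit 266) (nat_lit 242)) (XT.lf (nat_lit 0) (nat_lit 3218787099) (nat_lit 228) (nat_lit 5669049694) (nat_lit 304) (nat_lit 7400221252) (nat_lit 43) (nat_lit 5) (nat_lit 46) (nat_lit 5) (nat_lit 47) (nat_lit 5) (nat_lit 273) (nat_lit 266) (nat_lit 241))) (XT.nd (nat_lit 78) (nat_lit 304) (nat_lit 0) (XT.lf (nat_lit 0) (nat_lit 3477690309) (nat_lit 152) (nat_lit 11299095075) (nat_lit 228) (nat_lit 2892588116) (nat_lit 41) (nat_lit 5) (nat_lit 43) (nat_lit 5) (nat_lit 44) (nat_lit 5) (nat_lit 274) (nat_lit 266) (nat_lit 240)) (XT.lf (nat_lit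 0) (nat_lit 2743569948) (nat_lit 304) (nat_lit 15329116750) (nat_lit 76) (nat_lit 1135538033) (nat_lit 37) (nat_lit 5) (nat_lit 41) (nat_lit 5) (nat_lit 38) (nat_lit 5) (nat_lit 275) (nat_lit 266) (nat_lit 239)))))) (XT.nd (nat_lit 546) (nat_lit 760) (nat_lit 0) (XT.nd (nat_lit 234) (nat_lit 532) (nat_lit 0) (XT.nd (nat_lit 78) (nat_lit 380) (nat_lit 0) (XT.lf (nat_lit 0) (nat_lit 4254945298) (nat_lit 152) (nat_lit 5549320645) (nat_lit 228) (nat_lit 11107688531) (nat_lit 35) (nat_lit 5) (nat_lit 37) (nat_lit 5) (nat_lit 38) (nat_lit 5) (nat_lit 276) (nat_lit 266) (nat_lit 238)) (XT.nd (nat_lit 78) (nat_lit 228) (nat_lit 0) (XT.lf (nat_lit 0) (nat_lit 4758174490) (nat_lit 152) (nat_lit 13866352869) (nat_lit 228) (nat_lit 4190759798) (nat_lit 33) (nat_lit 5) (nat_lit 35) (nat_lit 5) (nat_lit 36) (nat_lit 5) (nat_lit 277) (nat_lit 266) (nat_lit 237)) (XT.lf (nat_lit 0) (nat_lit 4301024031)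 (nat_lit 228) (nat_lit 19645821963) (nat_lit 76) (nat_lit 992049733) (nat_lit 30) (nat_lit 5) (nat_lit 33) (nat_lit 5) (nat_lit 31) (nat_lit 5) (nat_lit 278) (nat_lit 266) (nat_lit 236)))) (XT.nd (nat_lit 156) (nat_lit 304) (nat_lit 0) (XT.nd (nat_lit 78) (nat_lit 76) (nat_lit 0) (XT.lf (nat_lit 0) (nat_lit 5551773699) (nat_lit 152) (nat_lit 9258345607) (nat_lit 228) (nat_lit 12482939778) (nat_lit 28) (nat_lit 5) (nat_lit 30) (nat_lit 5) (nat_lit 31) (nat_lit 5) (nat_lit 279) (nat_lit 266) (nat_lit 235)) (XT.lf (nat_lit 0) (nat_lit 5745172822) (nat_lit 76) (nat_lit 21993155510) (nat_lit 152) (nat_lit 2194647582) (nat_lit 27) (nat_lit 5) (nat_lit 28) (nat_lit 5) (nat_lit 29) (nat_lit 4) (nat_lit 280) (nat_lit 266) (nat_lit 234))) (XT.nd (nat_lit 78) (nat_lit 76) (nat_lit 0) (XT.lf (nat_lit 0) (nat_lit 5417662060) (nat_lit 152) (nat_lit 4711715858) (nat_lit 228) (nat_lit 22743035097) (nat_lit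 24) (nat_lit 5) (nat_lit 26) (nat_lit 5) (nat_lit 27) (nat_lit 5) (nat_lit 281) (nat_lit 266) (nat_lit 233)) (XT.lf (nat_lit 0) (nat_lit 4412401194) (nat_lit 76) (nat_lit 20900227732) (nat_lit 152) (nat_lit 10844365158) (nat_lit 23) (nat_lit 5) (nat_lit 24) (nat_lit 5) (nat_lit 25) (nat_lit 4) (nat_lit 282) (nat_lit 266) (nat_lit 232))))) (XT.nd (nat_lit 234) (nat_lit 456) (nat_lit 0) (XT.nd (nat_lit 78) (nat_lit 76) (nat_lit 0) (XT.lf (nat_lit 0) (nat_lit 2674798465) (nat_lit 152) (nat_lit 984484752) (nat_lit 228) (nat_lit 36192568114) (nat_lit 20) (nat_lit 5) (nat_lit 22) (nat_lit 5) (nat_lit 23) (nat_lit 5) (nat_lit 283) (nat_lit 266) (nat_lit 231)) (XT.nd (nat_lit 78) (nat_lit 76) (nat_lit 0) (XT.lf (nat_lit 0) (nat_lit 21141434430) (nat_lit 228) (nat_lit 785380084) (nat_lit 76) (nat_lit 22036007844) (nat_lit 20) (nat_lit 5) (nat_lit 23) (nat_lit 5) (nat_lit 21) (nat_lit 4) (nat_lit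 284) (nat_lit 266) (nat_lit 230)) (XT.lf (nat_lit 0) (nat_lit 42288416956) (nat_lit 152) (nat_lit 5509794369) (nat_lit 0) (nat_lit 808847879) (nat_lit 19) (nat_lit 5) (nat_lit 21) (nat_lit 4) (nat_lit 19) (nat_lit 4) (nat_lit 285) (nat_lit 266) (nat_lit 229)))) (XT.nd (nat_lit 156) (nat_lit 228) (nat_lit 0) (XT.nd (nat_lit 78) (nat_lit 76) (nat_lit 0) (XT.lf (nat_lit 0) (nat_lit 13644958782) (nat_lit 152) (nat_lit 13128949256) (nat_lit 76) (nat_lit 27020185500) (nat_lit 17) (nat_lit 5) (nat_lit 19) (nat_lit 5) (nat_lit 18) (nat_lit 4) (nat_lit 286) (nat_lit 266) (nat_lit 228)) (XT.lf (nat_lit 0) (nat_lit 35903442062) (nat_lit 76) (nat_lit 1327697515) (nat_lit 152) (nat_lit 22434754500) (nat_lit 16) (nat_lit 5) (nat_lit 17) (nat_lit 5) (nat_lit 18) (nat_lit 4) (nat_lit 287) (nat_lit 266) (nat_lit 227))) (XT.nd (nat_lit 78) (nat_lit 152) (nat_lit 0) (XT.lf (nat_lit 0) (nat_lit 27319099034)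 (nat_lit 76) (nat_lit 38723264226) (nat_lit 76) (nat_lit 241144873) (nat_lit 15) (nat_lit 4) (nat_lit 16) (nat_lit 5) (nat_lit 16) (nat_lit 4) (nat_lit 288) (nat_lit 266) (nat_lit 226)) (XT.lf (nat_lit 0) (nat_lit 13622287492) (nat_lit 76) (nat_lit 11436950841) (nat_lit 152) (nat_lit 48702501282) (nat_lit 13) (nat_lit 5) (nat_lit 14) (nat_lit 5) (nat_lit 15) (nat_lit 4) (nat_lit 289) (nat_lit 266) (nat_lit 225))))))))
noncomputable def xc31 : XT := (XT.nd (nat_lit 2106) (nat_lit 0) (nat_lit 0) (XT.nd (nat_lit 1014) (nat_lit 228) (nat_lit 0) (XT.nd (nat_lit 468) (nat_lit 228) (nat_lit 0) (XT.nd (nat_lit 234) (nat_lit 228) (nat_lit 0) (XT.nd (nat_lit 78) (nat_lit 228) (nat_lit 0) (XT.lf (nat_lit 0) (nat_lit 55754776260) (nat_lit 152) (nat_lit 6386662715) (nat_lit 0) (nat_lit 20090624596) (nat_lit 13) (nat_lit 5) (nat_lit 15) (nat_lit 4) (nat_lit 13) (nat_lit 4) (nat_lit 290) (nat_lit 266)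 (nat_lit 224)) (XT.nd (nat_lit 78) (nat_lit 76) (nat_lit 0) (XT.lf (nat_lit 0) (nat_lit 856062742) (nat_lit 152) (nat_lit 33896709883) (nat_lit 76) (nat_lit 57083664059) (nat_lit 11) (nat_lit 5) (nat_lit 13) (nat_lit 5) (nat_lit 12) (nat_lit 4) (nat_lit 291) (nat_lit 266) (nat_lit 223)) (XT.lf (nat_lit 0) (nat_lit 30160615551) (nat_lit 76) (nat_lit 1497743585) (nat_lit 152) (nat_lit 71093159537) (nat_lit 10) (nat_lit 5) (nat_lit 11) (nat_lit 5) (nat_lit 12) (nat_lit 4) (nat_lit 292) (nat_lit 266) (nat_lit 222)))) (XT.nd (nat_lit 78) (nat_lit 228) (nat_lit 0) (XT.lf (nat_lit 0) (nat_lit 68954838758) (nat_lit 152) (nat_lit 10298662366) (nat_lit 0) (nat_lit 35900460146) (nat_lit 10) (nat_lit 5) (nat_lit 12) (nat_lit 4) (nat_lit 10) (nat_lit 4) (nat_lit 293) (nat_lit 266) (nat_lit 221)) (XT.nd (nat_lit 78) (nat_lit 152) (nat_lit 0) (XT.lf (nat_lit 0) (nat_lit 64483813641) (nat_lit 76) (nat_lit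 48934766989) (nat_lit 76) (nat_lit 15872371108) (nat_lit 9) (nat_lit 4) (nat_lit 10) (nat_lit 5) (nat_lit 10) (nat_lit 4) (nat_lit 294) (nat_lit 266) (nat_lit 220)) (XT.lf (nat_lit 0) (nat_lit 5349946035) (nat_lit 76) (nat_lit 13120877740) (nat_lit 152) (nat_lit 127007663628) (nat_lit 7) (nat_lit 5) (nat_lit 8) (nat_lit 5) (nat_lit 9) (nat_lit 4) (nat_lit 295) (nat_lit 266) (nat_lit 219))))) (XT.nd (nat_lit 234) (nat_lit 152) (nat_lit 0) (XT.nd (nat_lit 78) (nat_lit 76) (nat_lit 0) (XT.lf (nat_lit 0) (nat_lit 59646137671) (nat_lit 152) (nat_lit 75184660721) (nat_lit 0) (nat_lit 29020739869) (nat_lit 7) (nat_lit 5) (nat_lit 9) (nat_lit 4) (nat_lit 7) (nat_lit 4) (nat_lit 296) (nat_lit 266) (nat_lit 218)) (XT.nd (nat_lit 78) (nat_lit 76) (nat_lit 0) (XT.lf (nat_lit 0) (nat_lit 107345836445) (nat_lit 152) (nat_lit 891308507) (nat_lit 0) (nat_lit 76715557639) (nat_lit 7) (nat_lit 5) (nat_lit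 9) (nat_lit 4) (nat_lit 7) (nat_lit 4) (nat_lit 297) (nat_lit 266) (nat_lit 217)) (XT.lf (nat_lit 0) (nat_lit 88971345315) (nat_lit 76) (nat_lit 75356035327) (nat_lit 76) (nat_lit 44721512170) (nat_lit 6) (nat_lit 4) (nat_lit 7) (nat_lit 5) (nat_lit 7) (nat_lit 4) (nat_lit 298) (nat_lit 266) (nat_lit 216)))) (XT.nd (nat_lit 156) (nat_lit 0) (nat_lit 0) (XT.nd (nat_lit 78) (nat_lit 152) (nat_lit 0) (XT.lf (nat_lit 0) (nat_lit 192344114576) (nat_lit 76) (nat_lit 37526238656) (nat_lit 76) (nat_lit 6888024759) (nat_lit 6) (nat_lit 4) (nat_lit 7) (nat_lit 5) (nat_lit 7) (nat_lit 4) (nat_lit 299) (nat_lit 266) (nat_lit 215)) (XT.lf (nat_lit 0) (nat_lit 36027533164) (nat_lit 152) (nat_lit 224771335466) (nat_lit 0) (nat_lit 7655844982) (nat_lit 4) (nat_lit 5) (nat_lit 6) (nat_lit 4) (nat_lit 4) (nat_lit 4) (nat_lit 300) (nat_lit 266) (nat_lit 214))) (XT.nd (nat_lit 78) (nat_lit 0) (nat_lit 0)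 (XT.lf (nat_lit 0) (nat_lit 87338912009) (nat_lit 152) (nat_lit 158398329676) (nat_lit 0) (nat_lit 58964639818) (nat_lit 4) (nat_lit 5) (nat_lit 6) (nat_lit 4) (nat_lit 4) (nat_lit 4) (nat_lit 301) (nat_lit 266) (nat_lit 213)) (XT.lf (nat_lit 0) (nat_lit 146338472779) (nat_lit 152) (nat_lit 82086381486) (nat_lit 0) (nat_lit 117961953623) (nat_lit 4) (nat_lit 5) (nat_lit 6) (nat_lit 4) (nat_lit 4) (nat_lit 4) (nat_lit 302) (nat_lit 266) (nat_lit 212)))))) (XT.nd (nat_lit 546) (nat_lit 0) (nat_lit 0) (XT.nd (nat_lit 234) (nat_lit 152) (nat_lit 0) (XT.nd (nat_lit 78) (nat_lit 0) (nat_lit 0) (XT.lf (nat_lit 0) (nat_lit 5955486513) (nat_lit 76) (nat_lit 208368297786) (nat_lit 76) (nat_lit 179989824748) (nat_lit 3) (nat_lit 4) (nat_lit 4) (nat_lit 5) (nat_lit 4) (nat_lit 4) (nat_lit 303) (nat_lit 266) (nat_lit 211)) (XT.nd (nat_lit 78) (nat_lit 0) (nat_lit 0) (XT.lf (nat_lit 0) (nat_lit 112160998523)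 (nat_lit 76) (nat_lit 182728979058) (nat_lit 76) (nat_lit 154348806993) (nat_lit 3) (nat_lit 4) (nat_lit 4) (nat_lit 5) (nat_lit 4) (nat_lit 4) (nat_lit 304) (nat_lit 266) (nat_lit 210)) (XT.lf (nat_lit 0) (nat_lit 234285565096) (nat_lit 76) (nat_lit 153249646377) (nat_lit 76) (nat_lit 124867996896) (nat_lit 3) (nat_lit 4) (nat_lit 4) (nat_lit 5) (nat_lit 4) (nat_lit 4) (nat_lit 305) (nat_lit 266) (nat_lit 209)))) (XT.nd (nat_lit 156) (nat_lit 152) (nat_lit 0) (XT.nd (nat_lit 78) (nat_lit 0) (nat_lit 0) (XT.lf (nat_lit 0) (nat_lit 374718579923) (nat_lit 76) (nat_lit 119353530190) (nat_lit 76) (nat_lit 90970596000) (nat_lit 3) (nat_lit 4) (nat_lit 4) (nat_lit 5) (nat_lit 4) (nat_lit 4) (nat_lit 306) (nat_lit 266) (nat_lit 208)) (XT.lf (nat_lit 0) (nat_lit 536207645470) (nat_lit 76) (nat_lit 80377445615) (nat_lit 76) (nat_lit 51993394286) (nat_lit 3) (nat_lit 4) (nat_lit 4) (nat_lit 5) (nat_lit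 4) (nat_lit 4) (nat_lit 307) (nat_lit 266) (nat_lit 207))) (XT.nd (nat_lit 78) (nat_lit 152) (nat_lit 0) (XT.lf (nat_lit 0) (nat_lit 721912330411) (nat_lit 76) (nat_lit 35558817084) (nat_lit 76) (nat_lit 7173794331) (nat_lit 3) (nat_lit 4) (nat_lit 4) (nat_lit 5) (nat_lit 4) (nat_lit 4) (nat_lit 308) (nat_lit 266) (nat_lit 206)) (XT.lf (nat_lit 0) (nat_lit 44097473523) (nat_lit 152) (nat_lit 812968406650) (nat_lit 0) (nat_lit 17814262902) (nat_lit 1) (nat_lit 5) (nat_lit 3) (nat_lit 4) (nat_lit 1) (nat_lit 4) (nat_lit 309) (nat_lit 266) (nat_lit 205))))) (XT.nd (nat_lit 234) (nat_lit 0) (nat_lit 0) (XT.nd (nat_lit 78) (nat_lit 0) (nat_lit 0) (XT.lf (nat_lit 0) (nat_lit 104903405104) (nat_lit 152) (nat_lit 817931299488) (nat_lit 0) (nat_lit 78619514356) (nat_lit 1) (nat_lit 5) (nat_lit 3) (nat_lit 4) (nat_lit 1) (nat_lit 4) (nat_lit 310) (nat_lit 266) (nat_lit 204)) (XT.nd (nat_lit 78)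 (nat_lit 0) (nat_lit 0) (XT.lf (nat_lit 0) (nat_lit 174827415561) (nat_lit 152) (nat_lit 823644282457) (nat_lit 0) (nat_lit 148542933399) (nat_lit 1) (nat_lit 5) (nat_lit 3) (nat_lit 4) (nat_lit 1) (nat_lit 4) (nat_lit 311) (nat_lit 266) (nat_lit 203)) (XT.lf (nat_lit 0) (nat_lit 255237583360) (nat_lit 152) (nat_lit 830219131311) (nat_lit 0) (nat_lit 228952586925) (nat_lit 1) (nat_lit 5) (nat_lit 3) (nat_lit 4) (nat_lit 1) (nat_lit 4) (nat_lit 312) (nat_lit 266) (nat_lit 202)))) (XT.nd (nat_lit 156) (nat_lit 0) (nat_lit 0) (XT.nd (nat_lit 78) (nat_lit 0) (nat_lit 0) (XT.lf (nat_lit 0) (nat_lit 347707150915) (nat_lit 152) (nat_lit 837784484397) (nat_lit 0) (nat_lit 321421707286) (nat_lit 1) (nat_lit 5) (nat_lit 3) (nat_lit 4) (nat_lit 1) (nat_lit 4) (nat_lit 313) (nat_lit 266) (nat_lit 201)) (XT.lf (nat_lit 0) (nat_lit 454045305417) (nat_lit 152) (nat_lit 846488359492) (nat_lit 0) (nat_lit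 427759472923) (nat_lit 1) (nat_lit 5) (nat_lit 3) (nat_lit 4) (nat_lit 1) (nat_lit 4) (nat_lit 314) (nat_lit 266) (nat_lit 200))) (XT.nd (nat_lit 78) (nat_lit 0) (nat_lit 0) (XT.lf (nat_lit 0) (nat_lit 576332575976) (nat_lit 152) (nat_lit 856501049806) (nat_lit 0) (nat_lit 550046405339) (nat_lit 1) (nat_lit 5) (nat_lit 3) (nat_lit 4) (nat_lit 1) (nat_lit 4) (nat_lit 315) (nat_lit 266) (nat_lit 199)) (XT.lf (nat_lit 0) (nat_lit 716961539625) (nat_lit 152) (nat_lit 868018455800) (nat_lit 0) (nat_lit 690675074950) (nat_lit 1) (nat_lit 5) (nat_lit 3) (nat_lit 4) (nat_lit 1) (nat_lit 4) (nat_lit 316) (nat_lit 266) (nat_lit 198))))))) (XT.nd (nat_lit 36816) (nat_lit 0) (nat_lit 1976) (XT.nd (nat_lit 546) (nat_lit 0) (nat_lit 0) (XT.nd (nat_lit 234) (nat_lit 0) (nat_lit 0) (XT.nd (nat_lit 78) (nat_lit 0) (nat_lit 0) (XT.lf (nat_lit 0) (nat_lit 878683632608) (nat_lit 152) (nat_lit 881265918028)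 (nat_lit 0) (nat_lit 852396912249) (nat_lit 1) (nat_lit 5) (nat_lit 3) (nat_lit 4) (nat_lit 1) (nat_lit 4) (nat_lit 317) (nat_lit 266) (nat_lit 197)) (XT.nd (nat_lit 78) (nat_lit 0) (nat_lit 0) (XT.lf (nat_lit 0) (nat_lit 1064662982833) (nat_lit 152) (nat_lit 896502625966) (nat_lit 0) (nat_lit 1038376040139) (nat_lit 1) (nat_lit 5) (nat_lit 3) (nat_lit 4) (nat_lit 1) (nat_lit 4) (nat_lit 318) (nat_lit 266) (nat_lit 196)) (XT.lf (nat_lit 0) (nat_lit 1278538316715) (nat_lit 152) (nat_lit 914026689119) (nat_lit 0) (nat_lit 1252251180687) (nat_lit 1) (nat_lit 5) (nat_lit 3) (nat_lit 4) (nat_lit 1) (nat_lit 4) (nat_lit 319) (nat_lit 266) (nat_lit 195)))) (XT.nd (nat_lit 156) (nat_lit 0) (nat_lit 0) (XT.nd (nat_lit 78) (nat_lit 0) (nat_lit 0) (XT.lf (nat_lit 0) (nat_lit 1524494151659) (nat_lit 152) (nat_lit 934180969591) (nat_lit 0) (nat_lit 1498206847513) (nat_lit 1) (nat_lit 5) (nat_lit 3)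 (nat_lit 4) (nat_lit 1) (nat_lit 4) (nat_lit 320) (nat_lit 266) (nat_lit 194)) (XT.lf (nat_lit 0) (nat_lit 1807342667042) (nat_lit 152) (nat_lit 957359790261) (nat_lit 0) (nat_lit 1781055216708) (nat_lit 1) (nat_lit 5) (nat_lit 3) (nat_lit 4) (nat_lit 1) (nat_lit 4) (nat_lit 321) (nat_lit 266) (nat_lit 193))) (XT.nd (nat_lit 78) (nat_lit 0) (nat_lit 0) (XT.lf (nat_lit 0) (nat_lit 2132617855557) (nat_lit 152) (nat_lit 984016649795) (nat_lit 0) (nat_lit 2106330278103) (nat_lit 1) (nat_lit 5) (nat_lit 3) (nat_lit 4) (nat_lit 1) (nat_lit 4) (nat_lit 322) (nat_lit 266) (nat_lit 192)) (XT.lf (nat_lit 0) (nat_lit 2506683796980) (nat_lit 152) (nat_lit 1014673095444) (nat_lit 0) (nat_lit 2480396108986) (nat_lit 1) (nat_lit 5) (nat_lit 3) (nat_lit 4) (nat_lit 1) (nat_lit 4) (nat_lit 323) (nat_lit 266) (nat_lit 191))))) (XT.nd (nat_lit 234) (nat_lit 0) (nat_lit 0) (XT.nd (nat_lit 78) (nat_lit 0)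 (nat_lit 0) (XT.lf (nat_lit 0) (nat_lit 2936859172772) (nat_lit 152) (nat_lit 1049928927232) (nat_lit 0) (nat_lit 2910571388657) (nat_lit 1) (nat_lit 5) (nat_lit 3) (nat_lit 4) (nat_lit 1) (nat_lit 4) (nat_lit 324) (nat_lit 266) (nat_lit 190)) (XT.nd (nat_lit 78) (nat_lit 0) (nat_lit 0) (XT.lf (nat_lit 0) (nat_lit 3431560457679) (nat_lit 152) (nat_lit 1090473933173) (nat_lit 0) (nat_lit 3405272589980) (nat_lit 1) (nat_lit 5) (nat_lit 3) (nat_lit 4) (nat_lit 1) (nat_lit 4) (nat_lit 325) (nat_lit 266) (nat_lit 189)) (XT.lf (nat_lit 0) (nat_lit 4000466589882) (nat_lit 152) (nat_lit 1137101385120) (nat_lit 0) (nat_lit 3974178649501) (nat_lit 1) (nat_lit 5) (nat_lit 3) (nat_lit 4) (nat_lit 1) (nat_lit 4) (nat_lit 326) (nat_lit 266) (nat_lit 188)))) (XT.nd (nat_lit 156) (nat_lit 0) (nat_lit 0) (XT.nd (nat_lit 78) (nat_lit 0) (nat_lit 0) (XT.lf (nat_lit 0) (nat_lit 4654708341534) (nat_lit 152)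 (nat_lit 1190723559309) (nat_lit 0) (nat_lit 4628420337952) (nat_lit 1) (nat_lit 5) (nat_lit 3) (nat_lit 4) (nat_lit 1) (nat_lit 4) (nat_lit 327) (nat_lit 266) (nat_lit 187)) (XT.lf (nat_lit 0) (nat_lit 5407086094732) (nat_lit 152) (nat_lit 1252389585235) (nat_lit 0) (nat_lit 5380798036192) (nat_lit 1) (nat_lit 5) (nat_lit 3) (nat_lit 4) (nat_lit 1) (nat_lit 4) (nat_lit 328) (nat_lit 266) (nat_lit 186))) (XT.nd (nat_lit 35802) (nat_lit 0) (nat_lit 4332) (XT.lf (nat_lit 0) (nat_lit 6272320283777) (nat_lit 152) (nat_lit 1323305972099) (nat_lit 0) (nat_lit 6246032177448) (nat_lit 1) (nat_lit 5) (nat_lit 3) (nat_lit 4) (nat_lit 1) (nat_lit 4) (nat_lit 329) (nat_lit 266) (nat_lit 185)) (XT.lf (nat_lit 0) (nat_lit 2124975909) (nat_lit 532) (nat_lit 1737940005) (nat_lit 532) (nat_lit 1737940005) (nat_lit 58) (nat_lit 3) (nat_lit 65) (nat_lit 3) (nat_lit 65) (nat_lit 5) (nat_lit 267) (nat_lit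 267) (nat_lit 246)))))) (XT.nd (nat_lit 546) (nat_lit 1216) (nat_lit 0) (XT.nd (nat_lit 234) (nat_lit 1216) (nat_lit 0) (XT.nd (nat_lit 78) (nat_lit 0) (nat_lit 0) (XT.lf (nat_lit 0) (nat_lit 5698147850) (nat_lit 456) (nat_lit 5083152711) (nat_lit 532) (nat_lit 1168783369) (nat_lit 59) (nat_lit 5) (nat_lit 65) (nat_lit 5) (nat_lit 66) (nat_lit 5) (nat_lit 268) (nat_lit 267) (nat_lit 245)) (XT.nd (nat_lit 78) (nat_lit 0) (nat_lit 76) (XT.lf (nat_lit 76) (nat_lit 6150219961) (nat_lit 0) (nat_lit 1511977794) (nat_lit 532) (nat_lit 5124873454) (nat_lit 60) (nat_lit 5) (nat_lit 59) (nat_lit 5) (nat_lit 66) (nat_lit 5) (nat_lit 269) (nat_lit 267) (nat_lit 244)) (XT.lf (nat_lit 76) (nat_lit 5579956871) (nat_lit 0) (nat_lit 4700594532) (nat_lit 532) (nat_lit 3440496289) (nat_lit 61) (nat_lit 5) (nat_lit 60) (nat_lit 5) (nat_lit 67) (nat_lit 5) (nat_lit 270) (nat_lit 267) (nat_lit 243)))) (XT.nd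 (nat_lit 156) (nat_lit 456) (nat_lit 0) (XT.nd (nat_lit 78) (nat_lit 456) (nat_lit 0) (XT.lf (nat_lit 0) (nat_lit 5199983929) (nat_lit 456) (nat_lit 8476968070) (nat_lit 532) (nat_lit 1087533668) (nat_lit 55) (nat_lit 5) (nat_lit 61) (nat_lit 5) (nat_lit 62) (nat_lit 5) (nat_lit 271) (nat_lit 267) (nat_lit 242)) (XT.lf (nat_lit 0) (nat_lit 1989743365) (nat_lit 456) (nat_lit 10951431013) (nat_lit 76) (nat_lit 2984116795) (nat_lit 49) (nat_lit 5) (nat_lit 55) (nat_lit 5) (nat_lit 50) (nat_lit 5) (nat_lit 272) (nat_lit 267) (nat_lit 241))) (XT.nd (nat_lit 78) (nat_lit 228) (nat_lit 0) (XT.lf (nat_lit 0) (nat_lit 4896189758) (nat_lit 228) (nat_lit 1102752293) (nat_lit 304) (nat_lit 11216369704) (nat_lit 46) (nat_lit 5) (nat_lit 49) (nat_lit 5) (nat_lit 50) (nat_lit 5) (nat_lit 273) (nat_lit 267) (nat_lit 240)) (XT.lf (nat_lit 0) (nat_lit 4939507079) (nat_lit 228) (nat_lit 6322879514) (nat_lit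 304) (nat_lit 7384334326) (nat_lit 43) (nat_lit 5) (nat_lit 46) (nat_lit 5) (nat_lit 47) (nat_lit 5) (nat_lit 274) (nat_lit 267) (nat_lit 239))))) (XT.nd (nat_lit 234) (nat_lit 608) (nat_lit 0) (XT.nd (nat_lit 78) (nat_lit 456) (nat_lit 0) (XT.lf (nat_lit 0) (nat_lit 5205526568) (nat_lit 152) (nat_lit 12726438195) (nat_lit 228) (nat_lit 2311647148) (nat_lit 41) (nat_lit 5) (nat_lit 43) (nat_lit 5) (nat_lit 44) (nat_lit 5) (nat_lit 275) (nat_lit 267) (nat_lit 238)) (XT.nd (nat_lit 78) (nat_lit 152) (nat_lit 0) (XT.lf (nat_lit 0) (nat_lit 4027979361) (nat_lit 304) (nat_lit 16413738516) (nat_lit 76) (nat_lit 1577045362) (nat_lit 37) (nat_lit 5) (nat_lit 41) (nat_lit 5) (nat_lit 38) (nat_lit 5) (nat_lit 276) (nat_lit 267) (nat_lit 237)) (XT.lf (nat_lit 0) (nat_lit 6005110662) (nat_lit 152) (nat_lit 6055557762) (nat_lit 228) (nat_lit 11924465789) (nat_lit 35) (nat_lit 5) (nat_lit 37) (nat_lit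 5) (nat_lit 38) (nat_lit 5) (nat_lit 277) (nat_lit 267) (nat_lit 236)))) (XT.nd (nat_lit 156) (nat_lit 228) (nat_lit 0) (XT.nd (nat_lit 78) (nat_lit 228) (nat_lit 0) (XT.lf (nat_lit 0) (nat_lit 6540754104) (nat_lit 152) (nat_lit 15593251152) (nat_lit 228) (nat_lit 4045656788) (nat_lit 33) (nat_lit 5) (nat_lit 35) (nat_lit 5) (nat_lit 36) (nat_lit 5) (nat_lit 278) (nat_lit 267) (nat_lit 235)) (XT.lf (nat_lit 0) (nat_lit 5618151801) (nat_lit 228) (nat_lit 21533159726) (nat_lit 76) (nat_lit 1474133829) (nat_lit 30) (nat_lit 5) (nat_lit 33) (nat_lit 5) (nat_lit 31) (nat_lit 5) (nat_lit 279) (nat_lit 267) (nat_lit 234))) (XT.nd (nat_lit 78) (nat_lit 76) (nat_lit 0) (XT.lf (nat_lit 0) (nat_lit 7354390880) (nat_lit 152) (nat_lit 10284896627) (nat_lit 228) (nat_lit 13698660332) (nat_lit 28) (nat_lit 5) (nat_lit 30) (nat_lit 5) (nat_lit 31) (nat_lit 5) (nat_lit 280) (nat_lit 267) (nat_lit 233))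 (XT.lf (nat_lit 0) (nat_lit 7531649772) (nat_lit 76) (nat_lit 24925633190) (nat_lit 152) (nat_lit 1920584575) (nat_lit 27) (nat_lit 5) (nat_lit 28) (nat_lit 5) (nat_lit 29) (nat_lit 4) (nat_lit 281) (nat_lit 267) (nat_lit 232))))))))
noncomputable def xc32 : XT := (XT.nd (nat_lit 2106) (nat_lit 152) (nat_lit 0) (XT.nd (nat_lit 1014) (nat_lit 532) (nat_lit 0) (XT.nd (nat_lit 468) (nat_lit 532) (nat_lit 0) (XT.nd (nat_lit 234) (nat_lit 228) (nat_lit 0) (XT.nd (nat_lit 78) (nat_lit 304) (nat_lit 0) (XT.lf (nat_lit 0) (nat_lit 7104701807) (nat_lit 152) (nat_lit 5063444631) (nat_lit 228) (nat_lit 25593258863) (nat_lit 24) (nat_lit 5) (nat_lit 26) (nat_lit 5) (nat_lit 27) (nat_lit 5) (nat_lit 282) (nat_lit 267) (nat_lit 231)) (XT.nd (nat_lit 78) (nat_lit 228) (nat_lit 0) (XT.lf (nat_lit 0) (nat_lit 5905148915) (nat_lit 76) (nat_lit 23683400936) (nat_lit 152) (nat_lit 11953392332) (nat_lit 23)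 (nat_lit 5) (nat_lit 24) (nat_lit 5) (nat_lit 25) (nat_lit 4) (nat_lit 283) (nat_lit 267) (nat_lit 230)) (XT.lf (nat_lit 0) (nat_lit 3860513700) (nat_lit 152) (nat_lit 794123717) (nat_lit 228) (nat_lit 41139050128) (nat_lit 20) (nat_lit 5) (nat_lit 22) (nat_lit 5) (nat_lit 23) (nat_lit 5) (nat_lit 284) (nat_lit 267) (nat_lit 229)))) (XT.nd (nat_lit 78) (nat_lit 228) (nat_lit 0) (XT.lf (nat_lit 0) (nat_lit 24707946497) (nat_lit 228) (nat_lit 196832984) (nat_lit 76) (nat_lit 25620647221) (nat_lit 20) (nat_lit 5) (nat_lit 23) (nat_lit 5) (nat_lit 21) (nat_lit 4) (nat_lit 285) (nat_lit 267) (nat_lit 228)) (XT.nd (nat_lit 78) (nat_lit 152) (nat_lit 0) (XT.lf (nat_lit 0) (nat_lit 48997874887) (nat_lit 152) (nat_lit 5667695125) (nat_lit 0) (nat_lit 1203082652) (nat_lit 19) (nat_lit 5) (nat_lit 21) (nat_lit 4) (nat_lit 19) (nat_lit 4) (nat_lit 286) (nat_lit 267) (nat_lit 227)) (XT.lf (nat_lit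 0) (nat_lit 16033644917) (nat_lit 152) (nat_lit 14468171448) (nat_lit 76) (nat_lit 31333899112) (nat_lit 17) (nat_lit 5) (nat_lit 19) (nat_lit 5) (nat_lit 18) (nat_lit 4) (nat_lit 287) (nat_lit 267) (nat_lit 226))))) (XT.nd (nat_lit 234) (nat_lit 228) (nat_lit 0) (XT.nd (nat_lit 78) (nat_lit 228) (nat_lit 0) (XT.lf (nat_lit 0) (nat_lit 41865742032) (nat_lit 76) (nat_lit 1261281289) (nat_lit 152) (nat_lit 25463738969) (nat_lit 16) (nat_lit 5) (nat_lit 17) (nat_lit 5) (nat_lit 18) (nat_lit 4) (nat_lit 288) (nat_lit 267) (nat_lit 225)) (XT.nd (nat_lit 78) (nat_lit 76) (nat_lit 0) (XT.lf (nat_lit 0) (nat_lit 33449223) (nat_lit 152) (nat_lit 44241657538) (nat_lit 76) (nat_lit 31927613971) (nat_lit 14) (nat_lit 5) (nat_lit 16) (nat_lit 5) (nat_lit 15) (nat_lit 4) (nat_lit 289) (nat_lit 267) (nat_lit 224)) (XT.lf (nat_lit 0) (nat_lit 16178909931) (nat_lit 76) (nat_lit 12909726644) (nat_lit 152)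 (nat_lit 55715639755) (nat_lit 13) (nat_lit 5) (nat_lit 14) (nat_lit 5) (nat_lit 15) (nat_lit 4) (nat_lit 290) (nat_lit 267) (nat_lit 223)))) (XT.nd (nat_lit 156) (nat_lit 76) (nat_lit 0) (XT.nd (nat_lit 78) (nat_lit 152) (nat_lit 0) (XT.lf (nat_lit 0) (nat_lit 64358297951) (nat_lit 152) (nat_lit 6884518648) (nat_lit 0) (nat_lit 23304759715) (nat_lit 13) (nat_lit 5) (nat_lit 15) (nat_lit 4) (nat_lit 13) (nat_lit 4) (nat_lit 291) (nat_lit 267) (nat_lit 222)) (XT.lf (nat_lit 0) (nat_lit 1209313439) (nat_lit 152) (nat_lit 38548123730) (nat_lit 76) (nat_lit 65836419445) (nat_lit 11) (nat_lit 5) (nat_lit 13) (nat_lit 5) (nat_lit 12) (nat_lit 4) (nat_lit 292) (nat_lit 267) (nat_lit 221))) (XT.nd (nat_lit 78) (nat_lit 0) (nat_lit 0) (XT.lf (nat_lit 0) (nat_lit 35081141384) (nat_lit 76) (nat_lit 1531020018) (nat_lit 152) (nat_lit 81535630530) (nat_lit 10) (nat_lit 5) (nat_lit 11) (nat_lit 5) (nat_lit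 12) (nat_lit 4) (nat_lit 293) (nat_lit 267) (nat_lit 220)) (XT.lf (nat_lit 0) (nat_lit 79480369974) (nat_lit 152) (nat_lit 11488431089) (nat_lit 0) (nat_lit 41443625904) (nat_lit 10) (nat_lit 5) (nat_lit 12) (nat_lit 4) (nat_lit 10) (nat_lit 4) (nat_lit 294) (nat_lit 267) (nat_lit 219)))))) (XT.nd (nat_lit 546) (nat_lit 76) (nat_lit 0) (XT.nd (nat_lit 234) (nat_lit 228) (nat_lit 0) (XT.nd (nat_lit 78) (nat_lit 152) (nat_lit 0) (XT.lf (nat_lit 0) (nat_lit 74481364744) (nat_lit 76) (nat_lit 56116345171) (nat_lit 76) (nat_lit 18073538894) (nat_lit 9) (nat_lit 4) (nat_lit 10) (nat_lit 5) (nat_lit 10) (nat_lit 4) (nat_lit 295) (nat_lit 267) (nat_lit 218)) (XT.nd (nat_lit 78) (nat_lit 0) (nat_lit 0) (XT.lf (nat_lit 0) (nat_lit 6458169478) (nat_lit 76) (nat_lit 14939064771) (nat_lit 152) (nat_lit 145890532464) (nat_lit 7) (nat_lit 5) (nat_lit 8) (nat_lit 5) (nat_lit 9) (nat_lit 4) (nat_lit 296)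 (nat_lit 267) (nat_lit 217)) (XT.lf (nat_lit 0) (nat_lit 68731660999) (nat_lit 152) (nat_lit 86188777946) (nat_lit 0) (nat_lit 33497715017) (nat_lit 7) (nat_lit 5) (nat_lit 9) (nat_lit 4) (nat_lit 7) (nat_lit 4) (nat_lit 297) (nat_lit 267) (nat_lit 216)))) (XT.nd (nat_lit 156) (nat_lit 152) (nat_lit 0) (XT.nd (nat_lit 78) (nat_lit 76) (nat_lit 0) (XT.lf (nat_lit 0) (nat_lit 123568235979) (nat_lit 152) (nat_lit 787107492) (nat_lit 0) (nat_lit 88330599257) (nat_lit 7) (nat_lit 5) (nat_lit 9) (nat_lit 4) (nat_lit 7) (nat_lit 4) (nat_lit 298) (nat_lit 267) (nat_lit 215)) (XT.lf (nat_lit 0) (nat_lit 102534807582) (nat_lit 76) (nat_lit 86551720837) (nat_lit 76) (nat_lit 51310874776) (nat_lit 6) (nat_lit 4) (nat_lit 7) (nat_lit 5) (nat_lit 7) (nat_lit 4) (nat_lit 299) (nat_lit 267) (nat_lit 214))) (XT.nd (nat_lit 78) (nat_lit 152) (nat_lit 0) (XT.lf (nat_lit 0) (nat_lit 221385088693) (nat_lit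 76) (nat_lit 43061505073) (nat_lit 76) (nat_lit 7817868282) (nat_lit 6) (nat_lit 4) (nat_lit 7) (nat_lit 5) (nat_lit 7) (nat_lit 4) (nat_lit 300) (nat_lit 267) (nat_lit 213)) (XT.lf (nat_lit 0) (nat_lit 41523454528) (nat_lit 152) (nat_lit 258303898080) (nat_lit 0) (nat_lit 8888210535) (nat_lit 4) (nat_lit 5) (nat_lit 6) (nat_lit 4) (nat_lit 4) (nat_lit 4) (nat_lit 301) (nat_lit 267) (nat_lit 212))))) (XT.nd (nat_lit 234) (nat_lit 0) (nat_lit 0) (XT.nd (nat_lit 78) (nat_lit 76) (nat_lit 0) (XT.lf (nat_lit 0) (nat_lit 100519567410) (nat_lit 152) (nat_lit 181998828948) (nat_lit 0) (nat_lit 67882369534) (nat_lit 4) (nat_lit 5) (nat_lit 6) (nat_lit 4) (nat_lit 4) (nat_lit 4) (nat_lit 302) (nat_lit 267) (nat_lit 211)) (XT.nd (nat_lit 78) (nat_lit 76) (nat_lit 0) (XT.lf (nat_lit 0) (nat_lit 168358651173) (nat_lit 152) (nat_lit 94260860292) (nat_lit 0) (nat_lit 135719754270) (nat_lit 4) (nat_lit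 5) (nat_lit 6) (nat_lit 4) (nat_lit 4) (nat_lit 4) (nat_lit 303) (nat_lit 267) (nat_lit 210)) (XT.lf (nat_lit 0) (nat_lit 6975566398) (nat_lit 76) (nat_lit 239560188380) (nat_lit 76) (nat_lit 206919814061) (nat_lit 3) (nat_lit 4) (nat_lit 4) (nat_lit 5) (nat_lit 4) (nat_lit 4) (nat_lit 304) (nat_lit 267) (nat_lit 209)))) (XT.nd (nat_lit 156) (nat_lit 0) (nat_lit 0) (XT.nd (nat_lit 78) (nat_lit 0) (nat_lit 0) (XT.lf (nat_lit 0) (nat_lit 129095371701) (nat_lit 76) (nat_lit 210083235418) (nat_lit 76) (nat_lit 177441576390) (nat_lit 3) (nat_lit 4) (nat_lit 4) (nat_lit 5) (nat_lit 4) (nat_lit 4) (nat_lit 305) (nat_lit 267) (nat_lit 208)) (XT.lf (nat_lit 0) (nat_lit 269524246294) (nat_lit 76) (nat_lit 176189188552) (nat_lit 76) (nat_lit 143546412386) (nat_lit 3) (nat_lit 4) (nat_lit 4) (nat_lit 5) (nat_lit 4) (nat_lit 4) (nat_lit 306) (nat_lit 267) (nat_lit 207))) (XT.nd (nat_lit 78) (nat_lit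 0) (nat_lit 0) (XT.lf (nat_lit 0) (nat_lit 431009711637) (nat_lit 76) (nat_lit 137214903387) (nat_lit 76) (nat_lit 104571155796) (nat_lit 3) (nat_lit 4) (nat_lit 4) (nat_lit 5) (nat_lit 4) (nat_lit 4) (nat_lit 307) (nat_lit 267) (nat_lit 206)) (XT.lf (nat_lit 0) (nat_lit 616711265965) (nat_lit 76) (nat_lit 92397839560) (nat_lit 76) (nat_lit 59753247252) (nat_lit 3) (nat_lit 4) (nat_lit 4) (nat_lit 5) (nat_lit 4) (nat_lit 4) (nat_lit 308) (nat_lit 267) (nat_lit 205))))))) (XT.nd (nat_lit 1014) (nat_lit 0) (nat_lit 0) (XT.nd (nat_lit 468) (nat_lit 0) (nat_lit 0) (XT.nd (nat_lit 234) (nat_lit 0) (nat_lit 0) (XT.nd (nat_lit 78) (nat_lit 152) (nat_lit 0) (XT.lf (nat_lit 0) (nat_lit 830262200559) (nat_lit 76) (nat_lit 40861141476) (nat_lit 76) (nat_lit 8215814631) (nat_lit 3) (nat_lit 4) (nat_lit 4) (nat_lit 5) (nat_lit 4) (nat_lit 4) (nat_lit 309) (nat_lit 267) (nat_lit 204)) (XT.nd (nat_lit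 78) (nat_lit 0) (nat_lit 0) (XT.lf (nat_lit 0) (nat_lit 50742360326) (nat_lit 152) (nat_lit 934852764785) (nat_lit 0) (nat_lit 20514614426) (nat_lit 1) (nat_lit 5) (nat_lit 3) (nat_lit 4) (nat_lit 1) (nat_lit 4) (nat_lit 310) (nat_lit 267) (nat_lit 203)) (XT.lf (nat_lit 0) (nat_lit 120665233934) (nat_lit 152) (nat_lit 940568035401) (nat_lit 0) (nat_lit 90436973760) (nat_lit 1) (nat_lit 5) (nat_lit 3) (nat_lit 4) (nat_lit 1) (nat_lit 4) (nat_lit 311) (nat_lit 267) (nat_lit 202)))) (XT.nd (nat_lit 78) (nat_lit 0) (nat_lit 0) (XT.lf (nat_lit 0) (nat_lit 201074413168) (nat_lit 152) (nat_lit 947144873512) (nat_lit 0) (nat_lit 170845705800) (nat_lit 1) (nat_lit 5) (nat_lit 3) (nat_lit 4) (nat_lit 1) (nat_lit 4) (nat_lit 312) (nat_lit 267) (nat_lit 201)) (XT.nd (nat_lit 78) (nat_lit 0) (nat_lit 0) (XT.lf (nat_lit 0) (nat_lit 293543121102) (nat_lit 152) (nat_lit 954711956387) (nat_lit 0) (nat_lit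 263314024869) (nat_lit 1) (nat_lit 5) (nat_lit 3) (nat_lit 4) (nat_lit 1) (nat_lit 4) (nat_lit 313) (nat_lit 267) (nat_lit 200)) (XT.lf (nat_lit 0) (nat_lit 399880528107) (nat_lit 152) (nat_lit 963417335647) (nat_lit 0) (nat_lit 369651093731) (nat_lit 1) (nat_lit 5) (nat_lit 3) (nat_lit 4) (nat_lit 1) (nat_lit 4) (nat_lit 314) (nat_lit 267) (nat_lit 199))))) (XT.nd (nat_lit 234) (nat_lit 0) (nat_lit 0) (XT.nd (nat_lit 78) (nat_lit 0) (nat_lit 0) (XT.lf (nat_lit 0) (nat_lit 522167148669) (nat_lit 152) (nat_lit 973431333930) (nat_lit 0) (nat_lit 491937420256) (nat_lit 1) (nat_lit 5) (nat_lit 3) (nat_lit 4) (nat_lit 1) (nat_lit 4) (nat_lit 315) (nat_lit 267) (nat_lit 198)) (XT.nd (nat_lit 78) (nat_lit 0) (nat_lit 0) (XT.lf (nat_lit 0) (nat_lit 662795547102) (nat_lit 152) (nat_lit 984949877289) (nat_lit 0) (nat_lit 632565563004) (nat_lit 1) (nat_lit 5) (nat_lit 3) (nat_lit 4) (nat_lit 1) (nat_lit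 4) (nat_lit 316) (nat_lit 267) (nat_lit 197)) (XT.lf (nat_lit 0) (nat_lit 824517148594) (nat_lit 152) (nat_lit 998198328529) (nat_lit 0) (nat_lit 794286942162) (nat_lit 1) (nat_lit 5) (nat_lit 3) (nat_lit 4) (nat_lit 1) (nat_lit 4) (nat_lit 317) (nat_lit 267) (nat_lit 196)))) (XT.nd (nat_lit 156) (nat_lit 0) (nat_lit 0) (XT.nd (nat_lit 78) (nat_lit 0) (nat_lit 0) (XT.lf (nat_lit 0) (nat_lit 1010496071435) (nat_lit 152) (nat_lit 1013435896478) (nat_lit 0) (nat_lit 980265671668) (nat_lit 1) (nat_lit 5) (nat_lit 3) (nat_lit 4) (nat_lit 1) (nat_lit 4) (nat_lit 318) (nat_lit 267) (nat_lit 195)) (XT.lf (nat_lit 0) (nat_lit 1224371033680) (nat_lit 152) (nat_lit 1030960707466) (nat_lit 0) (nat_lit 1194140465796) (nat_lit 1) (nat_lit 5) (nat_lit 3) (nat_lit 4) (nat_lit 1) (nat_lit 4) (nat_lit 319) (nat_lit 267) (nat_lit 194))) (XT.nd (nat_lit 78) (nat_lit 0) (nat_lit 0) (XT.lf (nat_lit 0) (nat_lit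 1470326545459) (nat_lit 152) (nat_lit 1051115638230) (nat_lit 0) (nat_lit 1440095831387) (nat_lit 1) (nat_lit 5) (nat_lit 3) (nat_lit 4) (nat_lit 1) (nat_lit 4) (nat_lit 320) (nat_lit 267) (nat_lit 193)) (XT.lf (nat_lit 0) (nat_lit 1753174779831) (nat_lit 152) (nat_lit 1074295024372) (nat_lit 0) (nat_lit 1722943938638) (nat_lit 1) (nat_lit 5) (nat_lit 3) (nat_lit 4) (nat_lit 1) (nat_lit 4) (nat_lit 321) (nat_lit 267) (nat_lit 192)))))) (XT.nd (nat_lit 546) (nat_lit 0) (nat_lit 0) (XT.nd (nat_lit 234) (nat_lit 0) (nat_lit 0) (XT.nd (nat_lit 78) (nat_lit 0) (nat_lit 0) (XT.lf (nat_lit 0) (nat_lit 2078449723988) (nat_lit 152) (nat_lit 1100952375620) (nat_lit 0) (nat_lit 2048218772255) (nat_lit 1) (nat_lit 5) (nat_lit 3) (nat_lit 4) (nat_lit 1) (nat_lit 4) (nat_lit 322) (nat_lit 267) (nat_lit 191)) (XT.nd (nat_lit 78) (nat_lit 0) (nat_lit 0) (XT.lf (nat_lit 0) (nat_lit 2452515452925) (nat_lit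 152) (nat_lit 1131609248847) (nat_lit 0) (nat_lit 2422284405071) (nat_lit 1) (nat_lit 5) (nat_lit 3) (nat_lit 4) (nat_lit 1) (nat_lit 4) (nat_lit 323) (nat_lit 267) (nat_lit 190)) (XT.lf (nat_lit 0) (nat_lit 2882690643948) (nat_lit 152) (nat_lit 1166865452441) (nat_lit 0) (nat_lit 2852459512510) (nat_lit 1) (nat_lit 5) (nat_lit 3) (nat_lit 4) (nat_lit 1) (nat_lit 4) (nat_lit 324) (nat_lit 267) (nat_lit 189)))) (XT.nd (nat_lit 156) (nat_lit 0) (nat_lit 0) (XT.nd (nat_lit 78) (nat_lit 0) (nat_lit 0) (XT.lf (nat_lit 0) (nat_lit 3377391768185) (nat_lit 152) (nat_lit 1207410781691) (nat_lit 0) (nat_lit 3347160564066) (nat_lit 1) (nat_lit 5) (nat_lit 3) (nat_lit 4) (nat_lit 1) (nat_lit 4) (nat_lit 325) (nat_lit 267) (nat_lit 188)) (XT.lf (nat_lit 0) (nat_lit 3946297760676) (nat_lit 152) (nat_lit 1254038514778) (nat_lit 0) (nat_lit 3916066493355) (nat_lit 1) (nat_lit 5) (nat_lit 3) (nat_lit 4)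 (nat_lit 1) (nat_lit 4) (nat_lit 326) (nat_lit 267) (nat_lit 187))) (XT.nd (nat_lit 78) (nat_lit 0) (nat_lit 0) (XT.lf (nat_lit 0) (nat_lit 4600539390838) (nat_lit 152) (nat_lit 1307660933436) (nat_lit 0) (nat_lit 4570308068560) (nat_lit 1) (nat_lit 5) (nat_lit 3) (nat_lit 4) (nat_lit 1) (nat_lit 4) (nat_lit 327) (nat_lit 267) (nat_lit 186)) (XT.lf (nat_lit 0) (nat_lit 5352917038394) (nat_lit 152) (nat_lit 1369327171943) (nat_lit 0) (nat_lit 5322685668326) (nat_lit 1) (nat_lit 5) (nat_lit 3) (nat_lit 4) (nat_lit 1) (nat_lit 4) (nat_lit 328) (nat_lit 267) (nat_lit 185))))) (XT.nd (nat_lit 36036) (nat_lit 0) (nat_lit 3648) (XT.nd (nat_lit 35880) (nat_lit 0) (nat_lit 4332) (XT.lf (nat_lit 0) (nat_lit 6218151135576) (nat_lit 152) (nat_lit 1440243743661) (nat_lit 0) (nat_lit 6187919723952) (nat_lit 1) (nat_lit 5) (nat_lit 3) (nat_lit 4) (nat_lit 1) (nat_lit 4) (nat_lit 329) (nat_lit 267) (nat_lit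 184)) (XT.nd (nat_lit 78) (nat_lit 0) (nat_lit 76) (XT.lf (nat_lit 0) (nat_lit 3338991533) (nat_lit 532) (nat_lit 1514514447) (nat_lit 532) (nat_lit 1514514447) (nat_lit 58) (nat_lit 3) (nat_lit 65) (nat_lit 3) (nat_lit 65) (nat_lit 5) (nat_lit 268) (nat_lit 268) (nat_lit 244)) (XT.lf (nat_lit 0) (nat_lit 8114531699) (nat_lit 456) (nat_lit 4814106418) (nat_lit 532) (nat_lit 686690961) (nat_lit 59) (nat_lit 5) (nat_lit 65) (nat_lit 5) (nat_lit 66) (nat_lit 5) (nat_lit 269) (nat_lit 268) (nat_lit 243)))) (XT.nd (nat_lit 156) (nat_lit 760) (nat_lit 0) (XT.nd (nat_lit 78) (nat_lit 0) (nat_lit 76) (XT.lf (nat_lit 76) (nat_lit 8016959193) (nat_lit 0) (nat_lit 2175243080) (nat_lit 532) (nat_lit 4400445623) (nat_lit 60) (nat_lit 5) (nat_lit 59) (nat_lit 5) (nat_lit 66) (nat_lit 5) (nat_lit 270) (nat_lit 268) (nat_lit 242)) (XT.lf (nat_lit 76) (nat_lit 7393805624) (nat_lit 0) (nat_lit 5643780814)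 (nat_lit 532) (nat_lit 2642656999) (nat_lit 61) (nat_lit 5) (nat_lit 60) (nat_lit 5) (nat_lit 67) (nat_lit 5) (nat_lit 271) (nat_lit 268) (nat_lit 241))) (XT.nd (nat_lit 78) (nat_lit 456) (nat_lit 0) (XT.lf (nat_lit 0) (nat_lit 6969977173) (nat_lit 456) (nat_lit 9833827987) (nat_lit 532) (nat_lit 87793551) (nat_lit 55) (nat_lit 5) (nat_lit 61) (nat_lit 5) (nat_lit 62) (nat_lit 5) (nat_lit 272) (nat_lit 268) (nat_lit 240)) (XT.lf (nat_lit 0) (nat_lit 3271366022) (nat_lit 456) (nat_lit 11552914348) (nat_lit 76) (nat_lit 3409915697) (nat_lit 49) (nat_lit 5) (nat_lit 55) (nat_lit 5) (nat_lit 50) (nat_lit 5) (nat_lit 273) (nat_lit 268) (nat_lit 239))))))))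
noncomputable def xc33 : XT := (XT.nd (nat_lit 2106) (nat_lit 380) (nat_lit 0) (XT.nd (nat_lit 1014) (nat_lit 988) (nat_lit 0) (XT.nd (nat_lit 468) (nat_lit 1064) (nat_lit 0) (XT.nd (nat_lit 234) (nat_lit 608) (nat_lit 0) (XT.nd (nat_lit 78) (nat_lit 380) (nat_lit 0) (XT.lf (nat_lit 0) (nat_lit 6583714494) (nat_lit 228) (nat_lit 1192913593) (nat_lit 304) (nat_lit 11949678165) (nat_lit 46) (nat_lit 5) (nat_lit 49) (nat_lit 5) (nat_lit 50) (nat_lit 5) (nat_lit 274) (nat_lit 268) (nat_lit 238)) (XT.nd (nat_lit 78) (nat_lit 152) (nat_lit 0) (XT.lf (nat_lit 0) (nat_lit 6616464834) (nat_lit 228) (nat_lit 7122708316) (nat_lit 304) (nat_lit 7640627110) (nat_lit 43) (nat_lit 5) (nat_lit 46) (nat_lit 5) (nat_lit 47) (nat_lit 5) (nat_lit 275) (nat_lit 268) (nat_lit 237)) (XT.lf (nat_lit 0) (nat_lit 6898402974) (nat_lit 152) (nat_lit 14433119507) (nat_lit 228) (nat_lit 1891037559) (nat_lit 41) (nat_lit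 5) (nat_lit 43) (nat_lit 5) (nat_lit 44) (nat_lit 5) (nat_lit 276) (nat_lit 268) (nat_lit 236)))) (XT.nd (nat_lit 78) (nat_lit 304) (nat_lit 0) (XT.lf (nat_lit 0) (nat_lit 5292194353) (nat_lit 304) (nat_lit 17957276989) (nat_lit 76) (nat_lit 2018650654) (nat_lit 37) (nat_lit 5) (nat_lit 41) (nat_lit 5) (nat_lit 38) (nat_lit 5) (nat_lit 277) (nat_lit 268) (nat_lit 235)) (XT.nd (nat_lit 78) (nat_lit 152) (nat_lit 0) (XT.lf (nat_lit 0) (nat_lit 7746651228) (nat_lit 152) (nat_lit 6717266866) (nat_lit 228) (nat_lit 13070885358) (nat_lit 35) (nat_lit 5) (nat_lit 37) (nat_lit 5) (nat_lit 38) (nat_lit 5) (nat_lit 278) (nat_lit 268) (nat_lit 234)) (XT.lf (nat_lit 0) (nat_lit 8330073981) (nat_lit 152) (nat_lit 17665278790) (nat_lit 228) (nat_lit 4067464112) (nat_lit 33) (nat_lit 5) (nat_lit 35) (nat_lit 5) (nat_lit 36) (nat_lit 5) (nat_lit 279) (nat_lit 268) (nat_lit 233))))) (XT.nd (nat_lit 234)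 (nat_lit 608) (nat_lit 0) (XT.nd (nat_lit 78) (nat_lit 228) (nat_lit 0) (XT.lf (nat_lit 0) (nat_lit 6968983582) (nat_lit 228) (nat_lit 23961972602) (nat_lit 76) (nat_lit 1947258921) (nat_lit 30) (nat_lit 5) (nat_lit 33) (nat_lit 5) (nat_lit 31) (nat_lit 5) (nat_lit 280) (nat_lit 268) (nat_lit 232)) (XT.nd (nat_lit 78) (nat_lit 76) (nat_lit 0) (XT.lf (nat_lit 0) (nat_lit 9190896300) (nat_lit 152) (nat_lit 11553755263) (nat_lit 228) (nat_lit 15256884400) (nat_lit 28) (nat_lit 5) (nat_lit 30) (nat_lit 5) (nat_lit 31) (nat_lit 5) (nat_lit 281) (nat_lit 268) (nat_lit 231)) (XT.lf (nat_lit 0) (nat_lit 9360604064) (nat_lit 76) (nat_lit 28387354806) (nat_lit 152) (nat_lit 1752520923) (nat_lit 27) (nat_lit 5) (nat_lit 28) (nat_lit 5) (nat_lit 29) (nat_lit 4) (nat_lit 282) (nat_lit 268) (nat_lit 230)))) (XT.nd (nat_lit 156) (nat_lit 304) (nat_lit 0) (XT.nd (nat_lit 78) (nat_lit 76) (nat_lit 0) (XT.lf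 (nat_lit 0) (nat_lit 8831571871) (nat_lit 152) (nat_lit 5554508693) (nat_lit 228) (nat_lit 29007876049) (nat_lit 24) (nat_lit 5) (nat_lit 26) (nat_lit 5) (nat_lit 27) (nat_lit 5) (nat_lit 283) (nat_lit 268) (nat_lit 229)) (XT.lf (nat_lit 0) (nat_lit 7419191605) (nat_lit 76) (nat_lit 26969853644) (nat_lit 152) (nat_lit 13355000350) (nat_lit 23) (nat_lit 5) (nat_lit 24) (nat_lit 5) (nat_lit 25) (nat_lit 4) (nat_lit 284) (nat_lit 268) (nat_lit 228))) (XT.nd (nat_lit 78) (nat_lit 76) (nat_lit 0) (XT.lf (nat_lit 0) (nat_lit 5032782033) (nat_lit 152) (nat_lit 657640197) (nat_lit 228) (nat_lit 46945141521) (nat_lit 20) (nat_lit 5) (nat_lit 22) (nat_lit 5) (nat_lit 23) (nat_lit 5) (nat_lit 285) (nat_lit 268) (nat_lit 227)) (XT.lf (nat_lit 0) (nat_lit 323952682) (nat_lit 76) (nat_lit 28396878108) (nat_lit 152) (nat_lit 29358726888) (nat_lit 19) (nat_lit 5) (nat_lit 20) (nat_lit 5) (nat_lit 21)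 (nat_lit 4) (nat_lit 286) (nat_lit 268) (nat_lit 226)))))) (XT.nd (nat_lit 546) (nat_lit 380) (nat_lit 0) (XT.nd (nat_lit 234) (nat_lit 380) (nat_lit 0) (XT.nd (nat_lit 78) (nat_lit 228) (nat_lit 0) (XT.lf (nat_lit 0) (nat_lit 56624452444) (nat_lit 152) (nat_lit 6012315633) (nat_lit 0) (nat_lit 1589902396) (nat_lit 19) (nat_lit 5) (nat_lit 21) (nat_lit 4) (nat_lit 19) (nat_lit 4) (nat_lit 287) (nat_lit 268) (nat_lit 225)) (XT.nd (nat_lit 78) (nat_lit 76) (nat_lit 0) (XT.lf (nat_lit 0) (nat_lit 18697249172) (nat_lit 152) (nat_lit 16161935768) (nat_lit 76) (nat_lit 36231099887) (nat_lit 17) (nat_lit 5) (nat_lit 19) (nat_lit 5) (nat_lit 18) (nat_lit 4) (nat_lit 288) (nat_lit 268) (nat_lit 224)) (XT.lf (nat_lit 0) (nat_lit 48581734649) (nat_lit 76) (nat_lit 1249663763) (nat_lit 152) (nat_lit 29029062607) (nat_lit 16) (nat_lit 5) (nat_lit 17) (nat_lit 5) (nat_lit 18) (nat_lit 4) (nat_lit 289)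 (nat_lit 268) (nat_lit 223)))) (XT.nd (nat_lit 156) (nat_lit 152) (nat_lit 0) (XT.nd (nat_lit 78) (nat_lit 76) (nat_lit 0) (XT.lf (nat_lit 0) (nat_lit 262960617) (nat_lit 152) (nat_lit 50453903555) (nat_lit 76) (nat_lit 36898232776) (nat_lit 14) (nat_lit 5) (nat_lit 16) (nat_lit 5) (nat_lit 15) (nat_lit 4) (nat_lit 290) (nat_lit 268) (nat_lit 222)) (XT.lf (nat_lit 0) (nat_lit 18993859324) (nat_lit 76) (nat_lit 14662619044) (nat_lit 152) (nat_lit 63852012773) (nat_lit 13) (nat_lit 5) (nat_lit 14) (nat_lit 5) (nat_lit 15) (nat_lit 4) (nat_lit 291) (nat_lit 268) (nat_lit 221))) (XT.nd (nat_lit 78) (nat_lit 152) (nat_lit 0) (XT.lf (nat_lit 0) (nat_lit 74193747938) (nat_lit 152) (nat_lit 7569261872) (nat_lit 0) (nat_lit 26952111804) (nat_lit 13) (nat_lit 5) (nat_lit 15) (nat_lit 4) (nat_lit 13) (nat_lit 4) (nat_lit 292) (nat_lit 268) (nat_lit 220)) (XT.lf (nat_lit 0) (nat_lit 1560722768) (nat_lit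 152) (nat_lit 44002862036) (nat_lit 76) (nat_lit 75855705256) (nat_lit 11) (nat_lit 5) (nat_lit 13) (nat_lit 5) (nat_lit 12) (nat_lit 4) (nat_lit 293) (nat_lit 268) (nat_lit 219))))) (XT.nd (nat_lit 234) (nat_lit 228) (nat_lit 0) (XT.nd (nat_lit 78) (nat_lit 76) (nat_lit 0) (XT.lf (nat_lit 0) (nat_lit 40643073273) (nat_lit 76) (nat_lit 1615958386) (nat_lit 152) (nat_lit 93598487065) (nat_lit 10) (nat_lit 5) (nat_lit 11) (nat_lit 5) (nat_lit 12) (nat_lit 4) (nat_lit 294) (nat_lit 268) (nat_lit 218)) (XT.nd (nat_lit 78) (nat_lit 76) (nat_lit 0) (XT.lf (nat_lit 0) (nat_lit 91540274545) (nat_lit 152) (nat_lit 12943241588) (nat_lit 0) (nat_lit 47779713636) (nat_lit 10) (nat_lit 5) (nat_lit 12) (nat_lit 4) (nat_lit 10) (nat_lit 4) (nat_lit 295) (nat_lit 268) (nat_lit 217)) (XT.lf (nat_lit 0) (nat_lit 85899300312) (nat_lit 76) (nat_lit 64413844684) (nat_lit 76) (nat_lit 20648699876) (nat_lit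 9) (nat_lit 4) (nat_lit 10) (nat_lit 5) (nat_lit 10) (nat_lit 4) (nat_lit 296) (nat_lit 268) (nat_lit 216)))) (XT.nd (nat_lit 156) (nat_lit 76) (nat_lit 0) (XT.nd (nat_lit 78) (nat_lit 0) (nat_lit 0) (XT.lf (nat_lit 0) (nat_lit 7658071866) (nat_lit 76) (nat_lit 17066544804) (nat_lit 152) (nat_lit 167646867942) (nat_lit 7) (nat_lit 5) (nat_lit 8) (nat_lit 5) (nat_lit 9) (nat_lit 4) (nat_lit 297) (nat_lit 268) (nat_lit 215)) (XT.lf (nat_lit 0) (nat_lit 79146213686) (nat_lit 152) (nat_lit 98910227428) (nat_lit 0) (nat_lit 38616031376) (nat_lit 7) (nat_lit 5) (nat_lit 9) (nat_lit 4) (nat_lit 7) (nat_lit 4) (nat_lit 298) (nat_lit 268) (nat_lit 214))) (XT.nd (nat_lit 78) (nat_lit 76) (nat_lit 0) (XT.lf (nat_lit 0) (nat_lit 142194604886) (nat_lit 152) (nat_lit 725289087) (nat_lit 0) (nat_lit 101661631846) (nat_lit 7) (nat_lit 5) (nat_lit 9) (nat_lit 4) (nat_lit 7) (nat_lit 4) (nat_lit 299) (nat_lit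 268) (nat_lit 213)) (XT.lf (nat_lit 0) (nat_lit 118079686920) (nat_lit 76) (nat_lit 99453027327) (nat_lit 76) (nat_lit 58917627566) (nat_lit 6) (nat_lit 4) (nat_lit 7) (nat_lit 5) (nat_lit 7) (nat_lit 4) (nat_lit 300) (nat_lit 268) (nat_lit 212))))))) (XT.nd (nat_lit 1014) (nat_lit 0) (nat_lit 0) (XT.nd (nat_lit 468) (nat_lit 152) (nat_lit 0) (XT.nd (nat_lit 234) (nat_lit 76) (nat_lit 0) (XT.nd (nat_lit 78) (nat_lit 152) (nat_lit 0) (XT.lf (nat_lit 0) (nat_lit 254736033041) (nat_lit 76) (nat_lit 49449903324) (nat_lit 76) (nat_lit 8912393371) (nat_lit 6) (nat_lit 4) (nat_lit 7) (nat_lit 5) (nat_lit 7) (nat_lit 4) (nat_lit 301) (nat_lit 268) (nat_lit 211)) (XT.nd (nat_lit 78) (nat_lit 0) (nat_lit 0) (XT.lf (nat_lit 0) (nat_lit 47821380185) (nat_lit 152) (nat_lit 296911004375) (nat_lit 0) (nat_lit 10284949718) (nat_lit 4) (nat_lit 5) (nat_lit 6) (nat_lit 4) (nat_lit 4) (nat_lit 4) (nat_lit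 302) (nat_lit 268) (nat_lit 210)) (XT.lf (nat_lit 0) (nat_lit 115657856850) (nat_lit 152) (nat_lit 209178237275) (nat_lit 0) (nat_lit 78119948967) (nat_lit 4) (nat_lit 5) (nat_lit 6) (nat_lit 4) (nat_lit 4) (nat_lit 4) (nat_lit 303) (nat_lit 268) (nat_lit 209)))) (XT.nd (nat_lit 78) (nat_lit 76) (nat_lit 0) (XT.lf (nat_lit 0) (nat_lit 193664930874) (nat_lit 152) (nat_lit 108295279758) (nat_lit 0) (nat_lit 156125738282) (nat_lit 4) (nat_lit 5) (nat_lit 6) (nat_lit 4) (nat_lit 4) (nat_lit 4) (nat_lit 304) (nat_lit 268) (nat_lit 208)) (XT.nd (nat_lit 78) (nat_lit 0) (nat_lit 0) (XT.lf (nat_lit 0) (nat_lit 8117747792) (nat_lit 76) (nat_lit 275446311856) (nat_lit 76) (nat_lit 237906002126) (nat_lit 3) (nat_lit 4) (nat_lit 4) (nat_lit 5) (nat_lit 4) (nat_lit 4) (nat_lit 305) (nat_lit 268) (nat_lit 207)) (XT.lf (nat_lit 0) (nat_lit 148543022181) (nat_lit 76) (nat_lit 241554064399) (nat_lit 76)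 (nat_lit 204012783245) (nat_lit 3) (nat_lit 4) (nat_lit 4) (nat_lit 5) (nat_lit 4) (nat_lit 4) (nat_lit 306) (nat_lit 268) (nat_lit 206))))) (XT.nd (nat_lit 234) (nat_lit 152) (nat_lit 0) (XT.nd (nat_lit 78) (nat_lit 0) (nat_lit 0) (XT.lf (nat_lit 0) (nat_lit 310025356912) (nat_lit 76) (nat_lit 202581343938) (nat_lit 76) (nat_lit 165039218066) (nat_lit 3) (nat_lit 4) (nat_lit 4) (nat_lit 5) (nat_lit 4) (nat_lit 4) (nat_lit 307) (nat_lit 268) (nat_lit 205)) (XT.nd (nat_lit 78) (nat_lit 0) (nat_lit 0) (XT.lf (nat_lit 0) (nat_lit 495724188968) (nat_lit 76) (nat_lit 157765640723) (nat_lit 76) (nat_lit 120222780315) (nat_lit 3) (nat_lit 4) (nat_lit 4) (nat_lit 5) (nat_lit 4) (nat_lit 4) (nat_lit 308) (nat_lit 268) (nat_lit 204)) (XT.lf (nat_lit 0) (nat_lit 709272756369) (nat_lit 76) (nat_lit 106230125780) (nat_lit 76) (nat_lit 68686626644) (nat_lit 3) (nat_lit 4) (nat_lit 4) (nat_lit 5) (nat_lit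 4) (nat_lit 4) (nat_lit 309) (nat_lit 268) (nat_lit 203)))) (XT.nd (nat_lit 156) (nat_lit 0) (nat_lit 0) (XT.nd (nat_lit 78) (nat_lit 152) (nat_lit 0) (XT.lf (nat_lit 0) (nat_lit 954849183260) (nat_lit 76) (nat_lit 46966495554) (nat_lit 76) (nat_lit 9422441003) (nat_lit 3) (nat_lit 4) (nat_lit 4) (nat_lit 5) (nat_lit 4) (nat_lit 4) (nat_lit 310) (nat_lit 268) (nat_lit 202)) (XT.lf (nat_lit 0) (nat_lit 58376599649) (nat_lit 152) (nat_lit 1075034628190) (nat_lit 0) (nat_lit 23613138981) (nat_lit 1) (nat_lit 5) (nat_lit 3) (nat_lit 4) (nat_lit 1) (nat_lit 4) (nat_lit 311) (nat_lit 268) (nat_lit 201))) (XT.nd (nat_lit 78) (nat_lit 0) (nat_lit 0) (XT.lf (nat_lit 0) (nat_lit 138784919262) (nat_lit 152) (nat_lit 1081613196091) (nat_lit 0) (nat_lit 104021069730) (nat_lit 1) (nat_lit 5) (nat_lit 3) (nat_lit 4) (nat_lit 1) (nat_lit 4) (nat_lit 312) (nat_lit 268) (nat_lit 200)) (XT.lf (nat_lit 0)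 (nat_lit 231252879699) (nat_lit 152) (nat_lit 1089181783130) (nat_lit 0) (nat_lit 196488692023) (nat_lit 1) (nat_lit 5) (nat_lit 3) (nat_lit 4) (nat_lit 1) (nat_lit 4) (nat_lit 313) (nat_lit 268) (nat_lit 199)))))) (XT.nd (nat_lit 546) (nat_lit 0) (nat_lit 0) (XT.nd (nat_lit 234) (nat_lit 0) (nat_lit 0) (XT.nd (nat_lit 78) (nat_lit 0) (nat_lit 0) (XT.lf (nat_lit 0) (nat_lit 337589636706) (nat_lit 152) (nat_lit 1097888470359) (nat_lit 0) (nat_lit 302825154994) (nat_lit 1) (nat_lit 5) (nat_lit 3) (nat_lit 4) (nat_lit 1) (nat_lit 4) (nat_lit 314) (nat_lit 268) (nat_lit 198)) (XT.nd (nat_lit 78) (nat_lit 0) (nat_lit 0) (XT.lf (nat_lit 0) (nat_lit 459875692053) (nat_lit 152) (nat_lit 1107903606007) (nat_lit 0) (nat_lit 425110954655) (nat_lit 1) (nat_lit 5) (nat_lit 3) (nat_lit 4) (nat_lit 1) (nat_lit 4) (nat_lit 315) (nat_lit 268) (nat_lit 197)) (XT.lf (nat_lit 0) (nat_lit 600503598995) (nat_lit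 152) (nat_lit 1119423138378) (nat_lit 0) (nat_lit 565738639263) (nat_lit 1) (nat_lit 5) (nat_lit 3) (nat_lit 4) (nat_lit 1) (nat_lit 4) (nat_lit 316) (nat_lit 268) (nat_lit 196)))) (XT.nd (nat_lit 156) (nat_lit 0) (nat_lit 0) (XT.nd (nat_lit 78) (nat_lit 0) (nat_lit 0) (XT.lf (nat_lit 0) (nat_lit 762224773103) (nat_lit 152) (nat_lit 1132672449629) (nat_lit 0) (nat_lit 727459620037) (nat_lit 1) (nat_lit 5) (nat_lit 3) (nat_lit 4) (nat_lit 1) (nat_lit 4) (nat_lit 317) (nat_lit 268) (nat_lit 195)) (XT.lf (nat_lit 0) (nat_lit 948203324306) (nat_lit 152) (nat_lit 1147910765414) (nat_lit 0) (nat_lit 913438003122) (nat_lit 1) (nat_lit 5) (nat_lit 3) (nat_lit 4) (nat_lit 1) (nat_lit 4) (nat_lit 318) (nat_lit 268) (nat_lit 194))) (XT.nd (nat_lit 78) (nat_lit 0) (nat_lit 0) (XT.lf (nat_lit 0) (nat_lit 1162077963387) (nat_lit 152) (nat_lit 1165436226694) (nat_lit 0) (nat_lit 1127312496015) (nat_lit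 1) (nat_lit 5) (nat_lit 3) (nat_lit 4) (nat_lit 1) (nat_lit 4) (nat_lit 319) (nat_lit 268) (nat_lit 193)) (XT.lf (nat_lit 0) (nat_lit 1408033194155) (nat_lit 152) (nat_lit 1185591722929) (nat_lit 0) (nat_lit 1373267599662) (nat_lit 1) (nat_lit 5) (nat_lit 3) (nat_lit 4) (nat_lit 1) (nat_lit 4) (nat_lit 320) (nat_lit 268) (nat_lit 192))))) (XT.nd (nat_lit 234) (nat_lit 0) (nat_lit 0) (XT.nd (nat_lit 78) (nat_lit 0) (nat_lit 0) (XT.lf (nat_lit 0) (nat_lit 1690881184168) (nat_lit 152) (nat_lit 1208771600785) (nat_lit 0) (nat_lit 1656115479136) (nat_lit 1) (nat_lit 5) (nat_lit 3) (nat_lit 4) (nat_lit 1) (nat_lit 4) (nat_lit 321) (nat_lit 268) (nat_lit 191)) (XT.nd (nat_lit 78) (nat_lit 0) (nat_lit 0) (XT.lf (nat_lit 0) (nat_lit 2016155915840) (nat_lit 152) (nat_lit 1235429379610) (nat_lit 0) (nat_lit 1981390114686) (nat_lit 1) (nat_lit 5) (nat_lit 3) (nat_lit 4) (nat_lit 1) (nat_lit 4) (nat_lit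 322) (nat_lit 268) (nat_lit 190)) (XT.lf (nat_lit 0) (nat_lit 2390221460007) (nat_lit 152) (nat_lit 1266086624643) (nat_lit 0) (nat_lit 2355455575270) (nat_lit 1) (nat_lit 5) (nat_lit 3) (nat_lit 4) (nat_lit 1) (nat_lit 4) (nat_lit 323) (nat_lit 268) (nat_lit 189)))) (XT.nd (nat_lit 156) (nat_lit 0) (nat_lit 0) (XT.nd (nat_lit 78) (nat_lit 0) (nat_lit 0) (XT.lf (nat_lit 0) (nat_lit 2820396490361) (nat_lit 152) (nat_lit 1301343151548) (nat_lit 0) (nat_lit 2785630532942) (nat_lit 1) (nat_lit 5) (nat_lit 3) (nat_lit 4) (nat_lit 1) (nat_lit 4) (nat_lit 324) (nat_lit 268) (nat_lit 188)) (XT.lf (nat_lit 0) (nat_lit 3315097474885) (nat_lit 152) (nat_lit 1341888761937) (nat_lit 0) (nat_lit 3280331454265) (nat_lit 1) (nat_lit 5) (nat_lit 3) (nat_lit 4) (nat_lit 1) (nat_lit 4) (nat_lit 325) (nat_lit 268) (nat_lit 187))) (XT.nd (nat_lit 78) (nat_lit 0) (nat_lit 0) (XT.lf (nat_lit 0) (nat_lit 3884003345887)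 (nat_lit 152) (nat_lit 1388516739493) (nat_lit 0) (nat_lit 3849237270309) (nat_lit 1) (nat_lit 5) (nat_lit 3) (nat_lit 4) (nat_lit 1) (nat_lit 4) (nat_lit 326) (nat_lit 268) (nat_lit 186)) (XT.lf (nat_lit 0) (nat_lit 4538244870407) (nat_lit 152) (nat_lit 1442139370732) (nat_lit 0) (nat_lit 4503478747040) (nat_lit 1) (nat_lit 5) (nat_lit 3) (nat_lit 4) (nat_lit 1) (nat_lit 4) (nat_lit 327) (nat_lit 268) (nat_lit 185))))))))
noncomputable def xc34 : XT := (XT.nd (nat_lit 37986) (nat_lit 0) (nat_lit 0) (XT.nd (nat_lit 36894) (nat_lit 0) (nat_lit 912) (XT.nd (nat_lit 36348) (nat_lit 0) (nat_lit 2584) (XT.nd (nat_lit 36114) (nat_lit 0) (nat_lit 4408) (XT.nd (nat_lit 78) (nat_lit 0) (nat_lit 0) (XT.lf (nat_lit 0) (nat_lit 5290622426099) (nat_lit 152) (nat_lit 1503805794092) (nat_lit 0) (nat_lit 5255856261176) (nat_lit 1) (nat_lit 5) (nat_lit 3) (nat_lit 4) (nat_lit 1) (nat_lit 4) (nat_lit 328)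 (nat_lit 268) (nat_lit 184)) (XT.nd (nat_lit 35958) (nat_lit 0) (nat_lit 4332) (XT.lf (nat_lit 0) (nat_lit 6155856443400) (nat_lit 152) (nat_lit 1574722526553) (nat_lit 0) (nat_lit 6121090242341) (nat_lit 1) (nat_lit 5) (nat_lit 3) (nat_lit 4) (nat_lit 1) (nat_lit 4) (nat_lit 329) (nat_lit 268) (nat_lit 183)) (XT.lf (nat_lit 0) (nat_lit 4516792427) (nat_lit 532) (nat_lit 1375629944) (nat_lit 532) (nat_lit 1375629944) (nat_lit 58) (nat_lit 3) (nat_lit 65) (nat_lit 3) (nat_lit 65) (nat_lit 5) (nat_lit 269) (nat_lit 269) (nat_lit 242)))) (XT.nd (nat_lit 78) (nat_lit 0) (nat_lit 0) (XT.lf (nat_lit 0) (nat_lit 10512552038) (nat_lit 456) (nat_lit 4756245669) (nat_lit 532) (nat_lit 292598262) (nat_lit 59) (nat_lit 5) (nat_lit 65) (nat_lit 5) (nat_lit 66) (nat_lit 5) (nat_lit 270) (nat_lit 269) (nat_lit 241)) (XT.nd (nat_lit 78) (nat_lit 0) (nat_lit 76) (XT.lf (nat_lit 76) (nat_lit 9933458639)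 (nat_lit 0) (nat_lit 2831562522) (nat_lit 532) (nat_lit 3931469859) (nat_lit 60) (nat_lit 5) (nat_lit 59) (nat_lit 5) (nat_lit 66) (nat_lit 5) (nat_lit 271) (nat_lit 269) (nat_lit 240)) (XT.lf (nat_lit 76) (nat_lit 9241519358) (nat_lit 0) (nat_lit 6670383552) (nat_lit 532) (nat_lit 2045547999) (nat_lit 61) (nat_lit 5) (nat_lit 60) (nat_lit 5) (nat_lit 67) (nat_lit 5) (nat_lit 272) (nat_lit 269) (nat_lit 239))))) (XT.nd (nat_lit 234) (nat_lit 836) (nat_lit 0) (XT.nd (nat_lit 78) (nat_lit 608) (nat_lit 0) (XT.lf (nat_lit 0) (nat_lit 739398893) (nat_lit 532) (nat_lit 10613796991) (nat_lit 76) (nat_lit 8004437326) (nat_lit 54) (nat_lit 5) (nat_lit 61) (nat_lit 5) (nat_lit 55) (nat_lit 5) (nat_lit 273) (nat_lit 269) (nat_lit 238)) (XT.nd (nat_lit 78) (nat_lit 228) (nat_lit 0) (XT.lf (nat_lit 0) (nat_lit 4505482004) (nat_lit 456) (nat_lit 12498531033) (nat_lit 76) (nat_lit 3904905042) (nat_lit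 49) (nat_lit 5) (nat_lit 55) (nat_lit 5) (nat_lit 50) (nat_lit 5) (nat_lit 274) (nat_lit 269) (nat_lit 237)) (XT.lf (nat_lit 0) (nat_lit 8291949378) (nat_lit 228) (nat_lit 1314949655) (nat_lit 304) (nat_lit 13024438400) (nat_lit 46) (nat_lit 5) (nat_lit 49) (nat_lit 5) (nat_lit 50) (nat_lit 5) (nat_lit 275) (nat_lit 269) (nat_lit 236)))) (XT.nd (nat_lit 156) (nat_lit 456) (nat_lit 0) (XT.nd (nat_lit 78) (nat_lit 152) (nat_lit 0) (XT.lf (nat_lit 0) (nat_lit 8316708997) (nat_lit 228) (nat_lit 8078749251) (nat_lit 304) (nat_lit 8142972697) (nat_lit 43) (nat_lit 5) (nat_lit 46) (nat_lit 5) (nat_lit 47) (nat_lit 5) (nat_lit 276) (nat_lit 269) (nat_lit 235)) (XT.lf (nat_lit 0) (nat_lit 8622802301) (nat_lit 152) (nat_lit 16445131352) (nat_lit 228) (nat_lit 1594461313) (nat_lit 41) (nat_lit 5) (nat_lit 43) (nat_lit 5) (nat_lit 44) (nat_lit 5) (nat_lit 277) (nat_lit 269) (nat_lit 234))) (XT.nd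 (nat_lit 78) (nat_lit 152) (nat_lit 0) (XT.lf (nat_lit 0) (nat_lit 6585092004) (nat_lit 304) (nat_lit 19956333714) (nat_lit 76) (nat_lit 2476494367) (nat_lit 37) (nat_lit 5) (nat_lit 41) (nat_lit 5) (nat_lit 38) (nat_lit 5) (nat_lit 278) (nat_lit 269) (nat_lit 233)) (XT.lf (nat_lit 0) (nat_lit 9544394822) (nat_lit 152) (nat_lit 7538373297) (nat_lit 228) (nat_lit 14545884665) (nat_lit 35) (nat_lit 5) (nat_lit 37) (nat_lit 5) (nat_lit 38) (nat_lit 5) (nat_lit 279) (nat_lit 269) (nat_lit 232)))))) (XT.nd (nat_lit 546) (nat_lit 532) (nat_lit 0) (XT.nd (nat_lit 234) (nat_lit 608) (nat_lit 0) (XT.nd (nat_lit 78) (nat_lit 380) (nat_lit 0) (XT.lf (nat_lit 0) (nat_lit 10190705502) (nat_lit 152) (nat_lit 20113210468) (nat_lit 228) (nat_lit 4235208535) (nat_lit 33) (nat_lit 5) (nat_lit 35) (nat_lit 5) (nat_lit 36) (nat_lit 5) (nat_lit 280) (nat_lit 269) (nat_lit 231)) (XT.nd (nat_lit 78) (nat_lit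 152) (nat_lit 0) (XT.lf (nat_lit 0) (nat_lit 8398534529) (nat_lit 228) (nat_lit 26950475613) (nat_lit 76) (nat_lit 2429899757) (nat_lit 30) (nat_lit 5) (nat_lit 33) (nat_lit 5) (nat_lit 31) (nat_lit 5) (nat_lit 281) (nat_lit 269) (nat_lit 230)) (XT.lf (nat_lit 0) (nat_lit 11124046274) (nat_lit 152) (nat_lit 13079729057) (nat_lit 228) (nat_lit 17169935032) (nat_lit 28) (nat_lit 5) (nat_lit 30) (nat_lit 5) (nat_lit 31) (nat_lit 5) (nat_lit 282) (nat_lit 269) (nat_lit 229)))) (XT.nd (nat_lit 156) (nat_lit 304) (nat_lit 0) (XT.nd (nat_lit 78) (nat_lit 228) (nat_lit 0) (XT.lf (nat_lit 0) (nat_lit 11293395486) (nat_lit 76) (nat_lit 32435912952) (nat_lit 152) (nat_lit 1670483115) (nat_lit 27) (nat_lit 5) (nat_lit 28) (nat_lit 5) (nat_lit 29) (nat_lit 4) (nat_lit 283) (nat_lit 269) (nat_lit 228)) (XT.lf (nat_lit 0) (nat_lit 10656243223) (nat_lit 152) (nat_lit 6184696239) (nat_lit 228) (nat_lit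 33038171526) (nat_lit 24) (nat_lit 5) (nat_lit 26) (nat_lit 5) (nat_lit 27) (nat_lit 5) (nat_lit 284) (nat_lit 269) (nat_lit 227))) (XT.nd (nat_lit 78) (nat_lit 228) (nat_lit 0) (XT.lf (nat_lit 0) (nat_lit 9007132994) (nat_lit 76) (nat_lit 30814154047) (nat_lit 152) (nat_lit 15062295143) (nat_lit 23) (nat_lit 5) (nat_lit 24) (nat_lit 5) (nat_lit 25) (nat_lit 4) (nat_lit 285) (nat_lit 269) (nat_lit 226)) (XT.lf (nat_lit 0) (nat_lit 6236237167) (nat_lit 152) (nat_lit 563014335) (nat_lit 228) (nat_lit 53711097153) (nat_lit 20) (nat_lit 5) (nat_lit 22) (nat_lit 5) (nat_lit 23) (nat_lit 5) (nat_lit 286) (nat_lit 269) (nat_lit 225))))) (XT.nd (nat_lit 234) (nat_lit 304) (nat_lit 0) (XT.nd (nat_lit 78) (nat_lit 152) (nat_lit 0) (XT.lf (nat_lit 0) (nat_lit 797672407) (nat_lit 76) (nat_lit 32467519600) (nat_lit 152) (nat_lit 33507288757) (nat_lit 19) (nat_lit 5) (nat_lit 20) (nat_lit 5) (nat_lit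 21) (nat_lit 4) (nat_lit 287) (nat_lit 269) (nat_lit 224)) (XT.nd (nat_lit 78) (nat_lit 152) (nat_lit 0) (XT.lf (nat_lit 0) (nat_lit 65327493712) (nat_lit 152) (nat_lit 6531906826) (nat_lit 0) (nat_lit 1984423556) (nat_lit 19) (nat_lit 5) (nat_lit 21) (nat_lit 4) (nat_lit 19) (nat_lit 4) (nat_lit 288) (nat_lit 269) (nat_lit 223)) (XT.lf (nat_lit 0) (nat_lit 21697343178) (nat_lit 152) (nat_lit 18225952866) (nat_lit 76) (nat_lit 41814812815) (nat_lit 17) (nat_lit 5) (nat_lit 19) (nat_lit 5) (nat_lit 18) (nat_lit 4) (nat_lit 289) (nat_lit 269) (nat_lit 222)))) (XT.nd (nat_lit 156) (nat_lit 76) (nat_lit 0) (XT.nd (nat_lit 78) (nat_lit 152) (nat_lit 0) (XT.lf (nat_lit 0) (nat_lit 56198772777) (nat_lit 76) (nat_lit 1285272329) (nat_lit 152) (nat_lit 33191182144) (nat_lit 16) (nat_lit 5) (nat_lit 17) (nat_lit 5) (nat_lit 18) (nat_lit 4) (nat_lit 290) (nat_lit 269) (nat_lit 221)) (XT.lf (nat_lit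 0) (nat_lit 472154433) (nat_lit 152) (nat_lit 57701382198) (nat_lit 76) (nat_lit 42570190156) (nat_lit 14) (nat_lit 5) (nat_lit 16) (nat_lit 5) (nat_lit 15) (nat_lit 4) (nat_lit 291) (nat_lit 269) (nat_lit 220))) (XT.nd (nat_lit 78) (nat_lit 0) (nat_lit 0) (XT.lf (nat_lit 0) (nat_lit 22136407337) (nat_lit 76) (nat_lit 16723209181) (nat_lit 152) (nat_lit 73262727396) (nat_lit 13) (nat_lit 5) (nat_lit 14) (nat_lit 5) (nat_lit 15) (nat_lit 4) (nat_lit 292) (nat_lit 269) (nat_lit 219)) (XT.lf (nat_lit 0) (nat_lit 85460205437) (nat_lit 152) (nat_lit 8441562628) (nat_lit 0) (nat_lit 31109588787) (nat_lit 13) (nat_lit 5) (nat_lit 15) (nat_lit 4) (nat_lit 13) (nat_lit 4) (nat_lit 293) (nat_lit 269) (nat_lit 218))))))) (XT.nd (nat_lit 1014) (nat_lit 152) (nat_lit 0) (XT.nd (nat_lit 468) (nat_lit 304) (nat_lit 0) (XT.nd (nat_lit 234) (nat_lit 228) (nat_lit 0) (XT.nd (nat_lit 78) (nat_lit 76) (nat_lit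 0) (XT.lf (nat_lit 0) (nat_lit 1923384918) (nat_lit 152) (nat_lit 50355669222) (nat_lit 76) (nat_lit 87342811814) (nat_lit 11) (nat_lit 5) (nat_lit 13) (nat_lit 5) (nat_lit 12) (nat_lit 4) (nat_lit 294) (nat_lit 269) (nat_lit 217)) (XT.nd (nat_lit 78) (nat_lit 0) (nat_lit 0) (XT.lf (nat_lit 0) (nat_lit 46966196405) (nat_lit 76) (nat_lit 1748927089) (nat_lit 152) (nat_lit 107511615102) (nat_lit 10) (nat_lit 5) (nat_lit 11) (nat_lit 5) (nat_lit 12) (nat_lit 4) (nat_lit 295) (nat_lit 269) (nat_lit 216)) (XT.lf (nat_lit 0) (nat_lit 105375549433) (nat_lit 152) (nat_lit 14681737910) (nat_lit 0) (nat_lit 55037063004) (nat_lit 10) (nat_lit 5) (nat_lit 12) (nat_lit 4) (nat_lit 10) (nat_lit 4) (nat_lit 296) (nat_lit 269) (nat_lit 215)))) (XT.nd (nat_lit 78) (nat_lit 152) (nat_lit 0) (XT.lf (nat_lit 0) (nat_lit 98970003189) (nat_lit 76) (nat_lit 73985220244) (nat_lit 76) (nat_lit 23643267729) (nat_lit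 9) (nat_lit 4) (nat_lit 10) (nat_lit 5) (nat_lit 10) (nat_lit 4) (nat_lit 297) (nat_lit 269) (nat_lit 214)) (XT.nd (nat_lit 78) (nat_lit 0) (nat_lit 0) (XT.lf (nat_lit 0) (nat_lit 8981585644) (nat_lit 76) (nat_lit 19540795195) (nat_lit 152) (nat_lit 192697683092) (nat_lit 7) (nat_lit 5) (nat_lit 8) (nat_lit 5) (nat_lit 9) (nat_lit 4) (nat_lit 298) (nat_lit 269) (nat_lit 213)) (XT.lf (nat_lit 0) (nat_lit 91097392269) (nat_lit 152) (nat_lit 113590340213) (nat_lit 0) (nat_lit 44479255822) (nat_lit 7) (nat_lit 5) (nat_lit 9) (nat_lit 4) (nat_lit 7) (nat_lit 4) (nat_lit 299) (nat_lit 269) (nat_lit 212))))) (XT.nd (nat_lit 234) (nat_lit 228) (nat_lit 0) (XT.nd (nat_lit 78) (nat_lit 76) (nat_lit 0) (XT.lf (nat_lit 0) (nat_lit 163592705645) (nat_lit 152) (nat_lit 698063902) (nat_lit 0) (nat_lit 116972459006) (nat_lit 7) (nat_lit 5) (nat_lit 9) (nat_lit 4) (nat_lit 7) (nat_lit 4) (nat_lit 300)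 (nat_lit 269) (nat_lit 211)) (XT.nd (nat_lit 78) (nat_lit 0) (nat_lit 0) (XT.lf (nat_lit 0) (nat_lit 135916145213) (nat_lit 76) (nat_lit 114309392287) (nat_lit 76) (nat_lit 67687310697) (nat_lit 6) (nat_lit 4) (nat_lit 7) (nat_lit 5) (nat_lit 7) (nat_lit 4) (nat_lit 301) (nat_lit 269) (nat_lit 210)) (XT.lf (nat_lit 0) (nat_lit 293054703436) (nat_lit 76) (nat_lit 56813833050) (nat_lit 76) (nat_lit 10190155852) (nat_lit 6) (nat_lit 4) (nat_lit 7) (nat_lit 5) (nat_lit 7) (nat_lit 4) (nat_lit 302) (nat_lit 269) (nat_lit 209)))) (XT.nd (nat_lit 156) (nat_lit 76) (nat_lit 0) (XT.nd (nat_lit 78) (nat_lit 0) (nat_lit 0) (XT.lf (nat_lit 0) (nat_lit 55047069237) (nat_lit 152) (nat_lit 341342945454) (nat_lit 0) (nat_lit 11875713048) (nat_lit 4) (nat_lit 5) (nat_lit 6) (nat_lit 4) (nat_lit 4) (nat_lit 4) (nat_lit 303) (nat_lit 269) (nat_lit 208)) (XT.lf (nat_lit 0) (nat_lit 133052171920) (nat_lit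 152) (nat_lit 240463921060) (nat_lit 0) (nat_lit 89879698592) (nat_lit 4) (nat_lit 5) (nat_lit 6) (nat_lit 4) (nat_lit 4) (nat_lit 4) (nat_lit 304) (nat_lit 269) (nat_lit 207))) (XT.nd (nat_lit 78) (nat_lit 76) (nat_lit 0) (XT.lf (nat_lit 0) (nat_lit 222754354456) (nat_lit 152) (nat_lit 124460396238) (nat_lit 0) (nat_lit 179580909703) (nat_lit 4) (nat_lit 5) (nat_lit 6) (nat_lit 4) (nat_lit 4) (nat_lit 4) (nat_lit 305) (nat_lit 269) (nat_lit 206)) (XT.lf (nat_lit 0) (nat_lit 9407883635) (nat_lit 76) (nat_lit 316727035737) (nat_lit 76) (nat_lit 273552746267) (nat_lit 3) (nat_lit 4) (nat_lit 4) (nat_lit 5) (nat_lit 4) (nat_lit 4) (nat_lit 306) (nat_lit 269) (nat_lit 205)))))) (XT.nd (nat_lit 546) (nat_lit 0) (nat_lit 0) (XT.nd (nat_lit 234) (nat_lit 152) (nat_lit 0) (XT.nd (nat_lit 78) (nat_lit 0) (nat_lit 0) (XT.lf (nat_lit 0) (nat_lit 170887496094) (nat_lit 76) (nat_lit 277755675888) (nat_lit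 76) (nat_lit 234580651881) (nat_lit 3) (nat_lit 4) (nat_lit 4) (nat_lit 5) (nat_lit 4) (nat_lit 4) (nat_lit 307) (nat_lit 269) (nat_lit 204)) (XT.nd (nat_lit 78) (nat_lit 0) (nat_lit 0) (XT.lf (nat_lit 0) (nat_lit 356583960958) (nat_lit 76) (nat_lit 232941155814) (nat_lit 76) (nat_lit 189765493080) (nat_lit 3) (nat_lit 4) (nat_lit 4) (nat_lit 5) (nat_lit 4) (nat_lit 4) (nat_lit 308) (nat_lit 269) (nat_lit 203)) (XT.lf (nat_lit 0) (nat_lit 570130469931) (nat_lit 76) (nat_lit 181406669689) (nat_lit 76) (nat_lit 138230451540) (nat_lit 3) (nat_lit 4) (nat_lit 4) (nat_lit 5) (nat_lit 4) (nat_lit 4) (nat_lit 309) (nat_lit 269) (nat_lit 202)))) (XT.nd (nat_lit 156) (nat_lit 152) (nat_lit 0) (XT.nd (nat_lit 78) (nat_lit 0) (nat_lit 0) (XT.lf (nat_lit 0) (nat_lit 815705106883) (nat_lit 76) (nat_lit 122143934088) (nat_lit 76) (nat_lit 78967232969) (nat_lit 3) (nat_lit 4) (nat_lit 4) (nat_lit 5)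 (nat_lit 4) (nat_lit 4) (nat_lit 310) (nat_lit 269) (nat_lit 201)) (XT.lf (nat_lit 0) (nat_lit 1098112592973) (nat_lit 76) (nat_lit 53993460706) (nat_lit 76) (nat_lit 10816339613) (nat_lit 3) (nat_lit 4) (nat_lit 4) (nat_lit 5) (nat_lit 4) (nat_lit 4) (nat_lit 311) (nat_lit 269) (nat_lit 200))) (XT.nd (nat_lit 78) (nat_lit 0) (nat_lit 0) (XT.lf (nat_lit 0) (nat_lit 67150394151) (nat_lit 152) (nat_lit 1236255001009) (nat_lit 0) (nat_lit 27171240181) (nat_lit 1) (nat_lit 5) (nat_lit 3) (nat_lit 4) (nat_lit 1) (nat_lit 4) (nat_lit 312) (nat_lit 269) (nat_lit 199)) (XT.lf (nat_lit 0) (nat_lit 159617704590) (nat_lit 152) (nat_lit 1243824896018) (nat_lit 0) (nat_lit 119638256583) (nat_lit 1) (nat_lit 5) (nat_lit 3) (nat_lit 4) (nat_lit 1) (nat_lit 4) (nat_lit 313) (nat_lit 269) (nat_lit 198))))) (XT.nd (nat_lit 234) (nat_lit 0) (nat_lit 0) (XT.nd (nat_lit 78) (nat_lit 0) (nat_lit 0) (XT.lf (nat_lit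 0) (nat_lit 265953896383) (nat_lit 152) (nat_lit 1252532720612) (nat_lit 0) (nat_lit 225974192691) (nat_lit 1) (nat_lit 5) (nat_lit 3) (nat_lit 4) (nat_lit 1) (nat_lit 4) (nat_lit 314) (nat_lit 269) (nat_lit 197)) (XT.nd (nat_lit 78) (nat_lit 0) (nat_lit 0) (XT.lf (nat_lit 0) (nat_lit 388239460238) (nat_lit 152) (nat_lit 1262548845272) (nat_lit 0) (nat_lit 348259534212) (nat_lit 1) (nat_lit 5) (nat_lit 3) (nat_lit 4) (nat_lit 1) (nat_lit 4) (nat_lit 315) (nat_lit 269) (nat_lit 196)) (XT.lf (nat_lit 0) (nat_lit 528866939796) (nat_lit 152) (nat_lit 1274069237654) (nat_lit 0) (nat_lit 488886820435) (nat_lit 1) (nat_lit 5) (nat_lit 3) (nat_lit 4) (nat_lit 1) (nat_lit 4) (nat_lit 316) (nat_lit 269) (nat_lit 195)))) (XT.nd (nat_lit 156) (nat_lit 0) (nat_lit 0) (XT.nd (nat_lit 78) (nat_lit 0) (nat_lit 0) (XT.lf (nat_lit 0) (nat_lit 690587742266) (nat_lit 152) (nat_lit 1287319296741) (nat_lit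 0) (nat_lit 650607454789) (nat_lit 1) (nat_lit 5) (nat_lit 3) (nat_lit 4) (nat_lit 1) (nat_lit 4) (nat_lit 317) (nat_lit 269) (nat_lit 194)) (XT.lf (nat_lit 0) (nat_lit 876565970305) (nat_lit 152) (nat_lit 1302558262817) (nat_lit 0) (nat_lit 836585536639) (nat_lit 1) (nat_lit 5) (nat_lit 3) (nat_lit 4) (nat_lit 1) (nat_lit 4) (nat_lit 318) (nat_lit 269) (nat_lit 193))) (XT.nd (nat_lit 78) (nat_lit 0) (nat_lit 0) (XT.lf (nat_lit 0) (nat_lit 1090440328375) (nat_lit 152) (nat_lit 1320084289569) (nat_lit 0) (nat_lit 1050459767588) (nat_lit 1) (nat_lit 5) (nat_lit 3) (nat_lit 4) (nat_lit 1) (nat_lit 4) (nat_lit 319) (nat_lit 269) (nat_lit 192)) (XT.lf (nat_lit 0) (nat_lit 1336395314784) (nat_lit 152) (nat_lit 1340240277518) (nat_lit 0) (nat_lit 1296414643458) (nat_lit 1) (nat_lit 5) (nat_lit 3) (nat_lit 4) (nat_lit 1) (nat_lit 4) (nat_lit 320) (nat_lit 269) (nat_lit 191))))))))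
noncomputable def xc35 : XT := (XT.nd (nat_lit 38064) (nat_lit 0) (nat_lit 0) (XT.nd (nat_lit 36972) (nat_lit 0) (nat_lit 1444) (XT.nd (nat_lit 468) (nat_lit 0) (nat_lit 0) (XT.nd (nat_lit 234) (nat_lit 0) (nat_lit 0) (XT.nd (nat_lit 78) (nat_lit 0) (nat_lit 0) (XT.lf (nat_lit 0) (nat_lit 1619243092312) (nat_lit 152) (nat_lit 1363420582951) (nat_lit 0) (nat_lit 1579262324865) (nat_lit 1) (nat_lit 5) (nat_lit 3) (nat_lit 4) (nat_lit 1) (nat_lit 4) (nat_lit 321) (nat_lit 269) (nat_lit 190)) (XT.nd (nat_lit 78) (nat_lit 0) (nat_lit 0) (XT.lf (nat_lit 0) (nat_lit 1944517639214) (nat_lit 152) (nat_lit 1390078733583) (nat_lit 0) (nat_lit 1904536788183) (nat_lit 1) (nat_lit 5) (nat_lit 3) (nat_lit 4) (nat_lit 1) (nat_lit 4) (nat_lit 322) (nat_lit 269) (nat_lit 189)) (XT.lf (nat_lit 0) (nat_lit 2318583022713) (nat_lit 152) (nat_lit 1420736301926) (nat_lit 0) (nat_lit 2278602098999) (nat_lit 1)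 (nat_lit 5) (nat_lit 3) (nat_lit 4) (nat_lit 1) (nat_lit 4) (nat_lit 323) (nat_lit 269) (nat_lit 188)))) (XT.nd (nat_lit 78) (nat_lit 0) (nat_lit 0) (XT.lf (nat_lit 0) (nat_lit 2748757913353) (nat_lit 152) (nat_lit 1455993109969) (nat_lit 0) (nat_lit 2708776926439) (nat_lit 1) (nat_lit 5) (nat_lit 3) (nat_lit 4) (nat_lit 1) (nat_lit 4) (nat_lit 324) (nat_lit 269) (nat_lit 187)) (XT.nd (nat_lit 78) (nat_lit 0) (nat_lit 0) (XT.lf (nat_lit 0) (nat_lit 3243458776389) (nat_lit 152) (nat_lit 1496538964828) (nat_lit 0) (nat_lit 3203477734517) (nat_lit 1) (nat_lit 5) (nat_lit 3) (nat_lit 4) (nat_lit 1) (nat_lit 4) (nat_lit 325) (nat_lit 269) (nat_lit 186)) (XT.lf (nat_lit 0) (nat_lit 3812364541748) (nat_lit 152) (nat_lit 1543167154965) (nat_lit 0) (nat_lit 3772383452086) (nat_lit 1) (nat_lit 5) (nat_lit 3) (nat_lit 4) (nat_lit 1) (nat_lit 4) (nat_lit 326) (nat_lit 269) (nat_lit 185))))) (XT.nd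 (nat_lit 36192) (nat_lit 0) (nat_lit 4332) (XT.nd (nat_lit 78) (nat_lit 0) (nat_lit 0) (XT.lf (nat_lit 0) (nat_lit 4466605974404) (nat_lit 152) (nat_lit 1596789971058) (nat_lit 0) (nat_lit 4426624843187) (nat_lit 1) (nat_lit 5) (nat_lit 3) (nat_lit 4) (nat_lit 1) (nat_lit 4) (nat_lit 327) (nat_lit 269) (nat_lit 184)) (XT.nd (nat_lit 78) (nat_lit 0) (nat_lit 0) (XT.lf (nat_lit 0) (nat_lit 5218983450215) (nat_lit 152) (nat_lit 1658456555160) (nat_lit 0) (nat_lit 5179002282862) (nat_lit 1) (nat_lit 5) (nat_lit 3) (nat_lit 4) (nat_lit 1) (nat_lit 4) (nat_lit 328) (nat_lit 269) (nat_lit 183)) (XT.lf (nat_lit 0) (nat_lit 6084217398055) (nat_lit 152) (nat_lit 1729373427396) (nat_lit 0) (nat_lit 6044236199279) (nat_lit 1) (nat_lit 5) (nat_lit 3) (nat_lit 4) (nat_lit 1) (nat_lit 4) (nat_lit 329) (nat_lit 269) (nat_lit 182)))) (XT.nd (nat_lit 156) (nat_lit 0) (nat_lit 76) (XT.nd (nat_lit 78) (nat_lit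 0) (nat_lit 0) (XT.lf (nat_lit 0) (nat_lit 5706184383) (nat_lit 532) (nat_lit 1305179221) (nat_lit 532) (nat_lit 1305179221) (nat_lit 58) (nat_lit 3) (nat_lit 65) (nat_lit 3) (nat_lit 65) (nat_lit 5) (nat_lit 270) (nat_lit 270) (nat_lit 240)) (XT.lf (nat_lit 76) (nat_lit 12941854780) (nat_lit 0) (nat_lit 41462364) (nat_lit 532) (nat_lit 4839442876) (nat_lit 59) (nat_lit 5) (nat_lit 58) (nat_lit 3) (nat_lit 65) (nat_lit 5) (nat_lit 271) (nat_lit 270) (nat_lit 239))) (XT.nd (nat_lit 78) (nat_lit 0) (nat_lit 76) (XT.lf (nat_lit 76) (nat_lit 11963330416) (nat_lit 0) (nat_lit 3505849249) (nat_lit 532) (nat_lit 3667471920) (nat_lit 60) (nat_lit 5) (nat_lit 59) (nat_lit 5) (nat_lit 66) (nat_lit 5) (nat_lit 272) (nat_lit 270) (nat_lit 238)) (XT.lf (nat_lit 76) (nat_lit 11186267406) (nat_lit 0) (nat_lit 7807073876) (nat_lit 532) (nat_lit 1601145757) (nat_lit 61) (nat_lit 5) (nat_lit 60) (nat_lit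 5) (nat_lit 67) (nat_lit 5) (nat_lit 273) (nat_lit 270) (nat_lit 237)))))) (XT.nd (nat_lit 546) (nat_lit 1140) (nat_lit 0) (XT.nd (nat_lit 234) (nat_lit 836) (nat_lit 0) (XT.nd (nat_lit 78) (nat_lit 608) (nat_lit 0) (XT.lf (nat_lit 0) (nat_lit 1481923789) (nat_lit 532) (nat_lit 11605760963) (nat_lit 76) (nat_lit 9122251616) (nat_lit 54) (nat_lit 5) (nat_lit 61) (nat_lit 5) (nat_lit 55) (nat_lit 5) (nat_lit 274) (nat_lit 270) (nat_lit 236)) (XT.nd (nat_lit 78) (nat_lit 228) (nat_lit 0) (XT.lf (nat_lit 0) (nat_lit 5743429884) (nat_lit 456) (nat_lit 13777983303) (nat_lit 76) (nat_lit 4478165932) (nat_lit 49) (nat_lit 5) (nat_lit 55) (nat_lit 5) (nat_lit 50) (nat_lit 5) (nat_lit 275) (nat_lit 270) (nat_lit 235)) (XT.lf (nat_lit 0) (nat_lit 10080677672) (nat_lit 228) (nat_lit 1469166789) (nat_lit 304) (nat_lit 14435426285) (nat_lit 46) (nat_lit 5) (nat_lit 49) (nat_lit 5) (nat_lit 50) (nat_lit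 5) (nat_lit 276) (nat_lit 270) (nat_lit 234)))) (XT.nd (nat_lit 156) (nat_lit 456) (nat_lit 0) (XT.nd (nat_lit 78) (nat_lit 152) (nat_lit 0) (XT.lf (nat_lit 0) (nat_lit 10099394505) (nat_lit 228) (nat_lit 9205597319) (nat_lit 304) (nat_lit 8877652266) (nat_lit 43) (nat_lit 5) (nat_lit 46) (nat_lit 5) (nat_lit 47) (nat_lit 5) (nat_lit 277) (nat_lit 270) (nat_lit 233)) (XT.lf (nat_lit 0) (nat_lit 10437688718) (nat_lit 152) (nat_lit 18796244283) (nat_lit 228) (nat_lit 1394891848) (nat_lit 41) (nat_lit 5) (nat_lit 43) (nat_lit 5) (nat_lit 44) (nat_lit 5) (nat_lit 278) (nat_lit 270) (nat_lit 232))) (XT.nd (nat_lit 78) (nat_lit 152) (nat_lit 0) (XT.lf (nat_lit 0) (nat_lit 7950223289) (nat_lit 304) (nat_lit 22424615663) (nat_lit 76) (nat_lit 2965205660) (nat_lit 37) (nat_lit 5) (nat_lit 41) (nat_lit 5) (nat_lit 38) (nat_lit 5) (nat_lit 279) (nat_lit 270) (nat_lit 231)) (XT.lf (nat_lit 0) (nat_lit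 11456769289) (nat_lit 152) (nat_lit 8528120900) (nat_lit 228) (nat_lit 16360558672) (nat_lit 35) (nat_lit 5) (nat_lit 37) (nat_lit 5) (nat_lit 38) (nat_lit 5) (nat_lit 280) (nat_lit 270) (nat_lit 230))))) (XT.nd (nat_lit 234) (nat_lit 608) (nat_lit 0) (XT.nd (nat_lit 78) (nat_lit 380) (nat_lit 0) (XT.lf (nat_lit 0) (nat_lit 12181406165) (nat_lit 152) (nat_lit 22977556772) (nat_lit 228) (nat_lit 4535990614) (nat_lit 33) (nat_lit 5) (nat_lit 35) (nat_lit 5) (nat_lit 36) (nat_lit 5) (nat_lit 281) (nat_lit 270) (nat_lit 229)) (XT.nd (nat_lit 78) (nat_lit 152) (nat_lit 0) (XT.lf (nat_lit 0) (nat_lit 9948827684) (nat_lit 228) (nat_lit 30534980506) (nat_lit 76) (nat_lit 2938469408) (nat_lit 30) (nat_lit 5) (nat_lit 33) (nat_lit 5) (nat_lit 31) (nat_lit 5) (nat_lit 282) (nat_lit 270) (nat_lit 228)) (XT.lf (nat_lit 0) (nat_lit 13211946621) (nat_lit 152) (nat_lit 14885099005) (nat_lit 228) (nat_lit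 19461506930) (nat_lit 28) (nat_lit 5) (nat_lit 30) (nat_lit 5) (nat_lit 31) (nat_lit 5) (nat_lit 283) (nat_lit 270) (nat_lit 227)))) (XT.nd (nat_lit 156) (nat_lit 304) (nat_lit 0) (XT.nd (nat_lit 78) (nat_lit 228) (nat_lit 0) (XT.lf (nat_lit 0) (nat_lit 13387178581) (nat_lit 76) (nat_lit 37142853713) (nat_lit 152) (nat_lit 1660249575) (nat_lit 27) (nat_lit 5) (nat_lit 28) (nat_lit 5) (nat_lit 29) (nat_lit 4) (nat_lit 284) (nat_lit 270) (nat_lit 226)) (XT.lf (nat_lit 0) (nat_lit 12632702822) (nat_lit 152) (nat_lit 6958912012) (nat_lit 228) (nat_lit 37751261390) (nat_lit 24) (nat_lit 5) (nat_lit 26) (nat_lit 5) (nat_lit 27) (nat_lit 5) (nat_lit 285) (nat_lit 270) (nat_lit 225))) (XT.nd (nat_lit 78) (nat_lit 228) (nat_lit 0) (XT.lf (nat_lit 0) (nat_lit 10717418556) (nat_lit 76) (nat_lit 35284157953) (nat_lit 152) (nat_lit 17097854719) (nat_lit 23) (nat_lit 5) (nat_lit 24) (nat_lit 5) (nat_lit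 25) (nat_lit 4) (nat_lit 286) (nat_lit 270) (nat_lit 224)) (XT.lf (nat_lit 0) (nat_lit 7510831781) (nat_lit 152) (nat_lit 501325167) (nat_lit 228) (nat_lit 61559205509) (nat_lit 20) (nat_lit 5) (nat_lit 22) (nat_lit 5) (nat_lit 23) (nat_lit 5) (nat_lit 287) (nat_lit 270) (nat_lit 223))))))) (XT.nd (nat_lit 1092) (nat_lit 456) (nat_lit 0) (XT.nd (nat_lit 546) (nat_lit 456) (nat_lit 0) (XT.nd (nat_lit 234) (nat_lit 304) (nat_lit 0) (XT.nd (nat_lit 78) (nat_lit 152) (nat_lit 0) (XT.lf (nat_lit 0) (nat_lit 1238780222) (nat_lit 76) (nat_lit 37194819393) (nat_lit 152) (nat_lit 38340378543) (nat_lit 19) (nat_lit 5) (nat_lit 20) (nat_lit 5) (nat_lit 21) (nat_lit 4) (nat_lit 288) (nat_lit 270) (nat_lit 222)) (XT.nd (nat_lit 78) (nat_lit 152) (nat_lit 0) (XT.lf (nat_lit 0) (nat_lit 75284934141) (nat_lit 152) (nat_lit 7222652281) (nat_lit 0) (nat_lit 2400072572) (nat_lit 19) (nat_lit 5) (nat_lit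 21) (nat_lit 4) (nat_lit 19) (nat_lit 4) (nat_lit 289) (nat_lit 270) (nat_lit 221)) (XT.lf (nat_lit 0) (nat_lit 25099775755) (nat_lit 152) (nat_lit 20687427446) (nat_lit 76) (nat_lit 48199736397) (nat_lit 17) (nat_lit 5) (nat_lit 19) (nat_lit 5) (nat_lit 18) (nat_lit 4) (nat_lit 290) (nat_lit 270) (nat_lit 220)))) (XT.nd (nat_lit 156) (nat_lit 76) (nat_lit 0) (XT.nd (nat_lit 78) (nat_lit 152) (nat_lit 0) (XT.lf (nat_lit 0) (nat_lit 64877948187) (nat_lit 76) (nat_lit 1363249570) (nat_lit 152) (nat_lit 38024498517) (nat_lit 16) (nat_lit 5) (nat_lit 17) (nat_lit 5) (nat_lit 18) (nat_lit 4) (nat_lit 291) (nat_lit 270) (nat_lit 219)) (XT.lf (nat_lit 0) (nat_lit 671332778) (nat_lit 152) (nat_lit 66114164658) (nat_lit 76) (nat_lit 49059478578) (nat_lit 14) (nat_lit 5) (nat_lit 16) (nat_lit 5) (nat_lit 15) (nat_lit 4) (nat_lit 292) (nat_lit 270) (nat_lit 218))) (XT.nd (nat_lit 78) (nat_lit 0)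 (nat_lit 0) (XT.lf (nat_lit 0) (nat_lit 25678773250) (nat_lit 76) (nat_lit 19126735762) (nat_lit 152) (nat_lit 84125794507) (nat_lit 13) (nat_lit 5) (nat_lit 14) (nat_lit 5) (nat_lit 15) (nat_lit 4) (nat_lit 293) (nat_lit 270) (nat_lit 217)) (XT.lf (nat_lit 0) (nat_lit 98383126844) (nat_lit 152) (nat_lit 9508864300) (nat_lit 0) (nat_lit 35862726700) (nat_lit 13) (nat_lit 5) (nat_lit 15) (nat_lit 4) (nat_lit 13) (nat_lit 4) (nat_lit 294) (nat_lit 270) (nat_lit 216))))) (XT.nd (nat_lit 234) (nat_lit 228) (nat_lit 0) (XT.nd (nat_lit 78) (nat_lit 76) (nat_lit 0) (XT.lf (nat_lit 0) (nat_lit 2309097747) (nat_lit 152) (nat_lit 57721781707) (nat_lit 76) (nat_lit 100526464793) (nat_lit 11) (nat_lit 5) (nat_lit 13) (nat_lit 5) (nat_lit 12) (nat_lit 4) (nat_lit 295) (nat_lit 270) (nat_lit 215)) (XT.nd (nat_lit 78) (nat_lit 0) (nat_lit 0) (XT.lf (nat_lit 0) (nat_lit 54182515008) (nat_lit 76) (nat_lit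 1928525090) (nat_lit 152) (nat_lit 123542595534) (nat_lit 10) (nat_lit 5) (nat_lit 11) (nat_lit 5) (nat_lit 12) (nat_lit 4) (nat_lit 296) (nat_lit 270) (nat_lit 214)) (XT.lf (nat_lit 0) (nat_lit 121260697504) (nat_lit 152) (nat_lit 16730509057) (nat_lit 0) (nat_lit 63360972037) (nat_lit 10) (nat_lit 5) (nat_lit 12) (nat_lit 4) (nat_lit 10) (nat_lit 4) (nat_lit 297) (nat_lit 270) (nat_lit 213)))) (XT.nd (nat_lit 156) (nat_lit 0) (nat_lit 0) (XT.nd (nat_lit 78) (nat_lit 152) (nat_lit 0) (XT.lf (nat_lit 0) (nat_lit 113956001082) (nat_lit 76) (nat_lit 85014420185) (nat_lit 76) (nat_lit 27112073859) (nat_lit 9) (nat_lit 4) (nat_lit 10) (nat_lit 5) (nat_lit 10) (nat_lit 4) (nat_lit 298) (nat_lit 270) (nat_lit 212)) (XT.lf (nat_lit 0) (nat_lit 10460999671) (nat_lit 76) (nat_lit 22407089273) (nat_lit 152) (nat_lit 221529583162) (nat_lit 7) (nat_lit 5) (nat_lit 8) (nat_lit 5) (nat_lit 9) (nat_lit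 4) (nat_lit 299) (nat_lit 270) (nat_lit 211))) (XT.nd (nat_lit 78) (nat_lit 0) (nat_lit 0) (XT.lf (nat_lit 0) (nat_lit 104821922872) (nat_lit 152) (nat_lit 130510614246) (nat_lit 0) (nat_lit 51204694094) (nat_lit 7) (nat_lit 5) (nat_lit 9) (nat_lit 4) (nat_lit 7) (nat_lit 4) (nat_lit 300) (nat_lit 270) (nat_lit 210)) (XT.lf (nat_lit 0) (nat_lit 188183717372) (nat_lit 152) (nat_lit 699923923) (nat_lit 0) (nat_lit 134564892985) (nat_lit 7) (nat_lit 5) (nat_lit 9) (nat_lit 4) (nat_lit 7) (nat_lit 4) (nat_lit 301) (nat_lit 270) (nat_lit 209)))))) (XT.nd (nat_lit 546) (nat_lit 152) (nat_lit 0) (XT.nd (nat_lit 234) (nat_lit 76) (nat_lit 0) (XT.nd (nat_lit 78) (nat_lit 152) (nat_lit 0) (XT.lf (nat_lit 0) (nat_lit 156397710856) (nat_lit 76) (nat_lit 131409230893) (nat_lit 76) (nat_lit 77789019020) (nat_lit 6) (nat_lit 4) (nat_lit 7) (nat_lit 5) (nat_lit 7) (nat_lit 4) (nat_lit 302) (nat_lit 270)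 (nat_lit 208)) (XT.nd (nat_lit 78) (nat_lit 152) (nat_lit 0) (XT.lf (nat_lit 0) (nat_lit 337094773178) (nat_lit 76) (nat_lit 65295412149) (nat_lit 76) (nat_lit 11673993767) (nat_lit 6) (nat_lit 4) (nat_lit 7) (nat_lit 5) (nat_lit 7) (nat_lit 4) (nat_lit 303) (nat_lit 270) (nat_lit 207)) (XT.lf (nat_lit 0) (nat_lit 63343813573) (nat_lit 152) (nat_lit 392465211787) (nat_lit 0) (nat_lit 13693380683) (nat_lit 4) (nat_lit 5) (nat_lit 6) (nat_lit 4) (nat_lit 4) (nat_lit 4) (nat_lit 304) (nat_lit 270) (nat_lit 206)))) (XT.nd (nat_lit 156) (nat_lit 76) (nat_lit 0) (XT.nd (nat_lit 78) (nat_lit 0) (nat_lit 0) (XT.lf (nat_lit 0) (nat_lit 153044505491) (nat_lit 152) (nat_lit 276464660971) (nat_lit 0) (nat_lit 103393227884) (nat_lit 4) (nat_lit 5) (nat_lit 6) (nat_lit 4) (nat_lit 4) (nat_lit 4) (nat_lit 305) (nat_lit 270) (nat_lit 205)) (XT.lf (nat_lit 0) (nat_lit 256197514392) (nat_lit 152) (nat_lit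 143069587632) (nat_lit 0) (nat_lit 206545502248) (nat_lit 4) (nat_lit 5) (nat_lit 6) (nat_lit 4) (nat_lit 4) (nat_lit 4) (nat_lit 306) (nat_lit 270) (nat_lit 204))) (XT.nd (nat_lit 78) (nat_lit 0) (nat_lit 0) (XT.lf (nat_lit 0) (nat_lit 10873866690) (nat_lit 76) (nat_lit 364208701383) (nat_lit 76) (nat_lit 314556050512) (nat_lit 3) (nat_lit 4) (nat_lit 4) (nat_lit 5) (nat_lit 4) (nat_lit 4) (nat_lit 307) (nat_lit 270) (nat_lit 203)) (XT.lf (nat_lit 0) (nat_lit 196568273125) (nat_lit 76) (nat_lit 319395210128) (nat_lit 76) (nat_lit 269742003841) (nat_lit 3) (nat_lit 4) (nat_lit 4) (nat_lit 5) (nat_lit 4) (nat_lit 4) (nat_lit 308) (nat_lit 270) (nat_lit 202))))) (XT.nd (nat_lit 234) (nat_lit 152) (nat_lit 0) (XT.nd (nat_lit 78) (nat_lit 0) (nat_lit 0) (XT.lf (nat_lit 0) (nat_lit 410112992160) (nat_lit 76) (nat_lit 267861618627) (nat_lit 76) (nat_lit 218207929371) (nat_lit 3) (nat_lit 4)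 (nat_lit 4) (nat_lit 5) (nat_lit 4) (nat_lit 4) (nat_lit 309) (nat_lit 270) (nat_lit 201)) (XT.nd (nat_lit 78) (nat_lit 0) (nat_lit 0) (XT.lf (nat_lit 0) (nat_lit 655686072645) (nat_lit 76) (nat_lit 208599660961) (nat_lit 76) (nat_lit 158945551730) (nat_lit 3) (nat_lit 4) (nat_lit 4) (nat_lit 5) (nat_lit 4) (nat_lit 4) (nat_lit 310) (nat_lit 270) (nat_lit 200)) (XT.lf (nat_lit 0) (nat_lit 938092205285) (nat_lit 76) (nat_lit 140449864043) (nat_lit 76) (nat_lit 90795389618) (nat_lit 3) (nat_lit 4) (nat_lit 4) (nat_lit 5) (nat_lit 4) (nat_lit 4) (nat_lit 311) (nat_lit 270) (nat_lit 199)))) (XT.nd (nat_lit 156) (nat_lit 0) (nat_lit 0) (XT.nd (nat_lit 78) (nat_lit 152) (nat_lit 0) (XT.lf (nat_lit 0) (nat_lit 1262856727458) (nat_lit 76) (nat_lit 62078862283) (nat_lit 76) (nat_lit 12424070297) (nat_lit 3) (nat_lit 4) (nat_lit 4) (nat_lit 5) (nat_lit 4) (nat_lit 4) (nat_lit 312) (nat_lit 270)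 (nat_lit 198)) (XT.lf (nat_lit 0) (nat_lit 77236038003) (nat_lit 152) (nat_lit 1421666921173) (nat_lit 0) (nat_lit 31259123073) (nat_lit 1) (nat_lit 5) (nat_lit 3) (nat_lit 4) (nat_lit 1) (nat_lit 4) (nat_lit 313) (nat_lit 270) (nat_lit 197))) (XT.nd (nat_lit 78) (nat_lit 0) (nat_lit 0) (XT.lf (nat_lit 0) (nat_lit 183571738304) (nat_lit 152) (nat_lit 1430375734779) (nat_lit 0) (nat_lit 137594601039) (nat_lit 1) (nat_lit 5) (nat_lit 3) (nat_lit 4) (nat_lit 1) (nat_lit 4) (nat_lit 314) (nat_lit 270) (nat_lit 196)) (XT.lf (nat_lit 0) (nat_lit 305856874776) (nat_lit 152) (nat_lit 1440392719450) (nat_lit 0) (nat_lit 259879544176) (nat_lit 1) (nat_lit 5) (nat_lit 3) (nat_lit 4) (nat_lit 1) (nat_lit 4) (nat_lit 315) (nat_lit 270) (nat_lit 195))))))))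
noncomputable def xc36 : XT := (XT.nd (nat_lit 38142) (nat_lit 0) (nat_lit 152) (XT.nd (nat_lit 1014) (nat_lit 0) (nat_lit 0) (XT.nd (nat_lit 468) (nat_lit 0) (nat_lit 0) (XT.nd (nat_lit 234) (nat_lit 0) (nat_lit 0) (XT.nd (nat_lit 78) (nat_lit 0) (nat_lit 0) (XT.lf (nat_lit 0) (nat_lit 446483982696) (nat_lit 152) (nat_lit 1451913859668) (nat_lit 0) (nat_lit 400506483980) (nat_lit 1) (nat_lit 5) (nat_lit 3) (nat_lit 4) (nat_lit 1) (nat_lit 4) (nat_lit 316) (nat_lit 270) (nat_lit 194)) (XT.nd (nat_lit 78) (nat_lit 0) (nat_lit 0) (XT.lf (nat_lit 0) (nat_lit 608204462002) (nat_lit 152) (nat_lit 1465164569046) (nat_lit 0) (nat_lit 562226817097) (nat_lit 1) (nat_lit 5) (nat_lit 3) (nat_lit 4) (nat_lit 1) (nat_lit 4) (nat_lit 317) (nat_lit 270) (nat_lit 193)) (XT.lf (nat_lit 0) (nat_lit 794182409029) (nat_lit 152) (nat_lit 1480404100594) (nat_lit 0) (nat_lit 748204637004) (nat_lit 1) (nat_lit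 5) (nat_lit 3) (nat_lit 4) (nat_lit 1) (nat_lit 4) (nat_lit 318) (nat_lit 270) (nat_lit 192)))) (XT.nd (nat_lit 78) (nat_lit 0) (nat_lit 0) (XT.lf (nat_lit 0) (nat_lit 1008056522741) (nat_lit 152) (nat_lit 1497930619060) (nat_lit 0) (nat_lit 962078640176) (nat_lit 1) (nat_lit 5) (nat_lit 3) (nat_lit 4) (nat_lit 1) (nat_lit 4) (nat_lit 319) (nat_lit 270) (nat_lit 191)) (XT.nd (nat_lit 78) (nat_lit 0) (nat_lit 0) (XT.lf (nat_lit 0) (nat_lit 1254011296665) (nat_lit 152) (nat_lit 1518087034586) (nat_lit 0) (nat_lit 1208033317979) (nat_lit 1) (nat_lit 5) (nat_lit 3) (nat_lit 4) (nat_lit 1) (nat_lit 4) (nat_lit 320) (nat_lit 270) (nat_lit 190)) (XT.lf (nat_lit 0) (nat_lit 1536858889423) (nat_lit 152) (nat_lit 1541267711826) (nat_lit 0) (nat_lit 1490880827153) (nat_lit 1) (nat_lit 5) (nat_lit 3) (nat_lit 4) (nat_lit 1) (nat_lit 4) (nat_lit 321) (nat_lit 270) (nat_lit 189))))) (XT.nd (nat_lit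 234) (nat_lit 0) (nat_lit 0) (XT.nd (nat_lit 78) (nat_lit 0) (nat_lit 0) (XT.lf (nat_lit 0) (nat_lit 1862133275656) (nat_lit 152) (nat_lit 1567926185768) (nat_lit 0) (nat_lit 1816155140704) (nat_lit 1) (nat_lit 5) (nat_lit 3) (nat_lit 4) (nat_lit 1) (nat_lit 4) (nat_lit 322) (nat_lit 270) (nat_lit 188)) (XT.nd (nat_lit 78) (nat_lit 0) (nat_lit 0) (XT.lf (nat_lit 0) (nat_lit 2236198519442) (nat_lit 152) (nat_lit 1598584035250) (nat_lit 0) (nat_lit 2190220321289) (nat_lit 1) (nat_lit 5) (nat_lit 3) (nat_lit 4) (nat_lit 1) (nat_lit 4) (nat_lit 323) (nat_lit 270) (nat_lit 187)) (XT.lf (nat_lit 0) (nat_lit 2666373288593) (nat_lit 152) (nat_lit 1633841087762) (nat_lit 0) (nat_lit 2620395035483) (nat_lit 1) (nat_lit 5) (nat_lit 3) (nat_lit 4) (nat_lit 1) (nat_lit 4) (nat_lit 324) (nat_lit 270) (nat_lit 186)))) (XT.nd (nat_lit 156) (nat_lit 0) (nat_lit 0) (XT.nd (nat_lit 78) (nat_lit 0) (nat_lit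 0) (XT.lf (nat_lit 0) (nat_lit 3161074045986) (nat_lit 152) (nat_lit 1674387155202) (nat_lit 0) (nat_lit 3115095745086) (nat_lit 1) (nat_lit 5) (nat_lit 3) (nat_lit 4) (nat_lit 1) (nat_lit 4) (nat_lit 325) (nat_lit 270) (nat_lit 185)) (XT.lf (nat_lit 0) (nat_lit 3729979719482) (nat_lit 152) (nat_lit 1721015530193) (nat_lit 0) (nat_lit 3684001377026) (nat_lit 1) (nat_lit 5) (nat_lit 3) (nat_lit 4) (nat_lit 1) (nat_lit 4) (nat_lit 326) (nat_lit 270) (nat_lit 184))) (XT.nd (nat_lit 78) (nat_lit 0) (nat_lit 0) (XT.lf (nat_lit 0) (nat_lit 4384221072257) (nat_lit 152) (nat_lit 1774638507028) (nat_lit 0) (nat_lit 4338242693666) (nat_lit 1) (nat_lit 5) (nat_lit 3) (nat_lit 4) (nat_lit 1) (nat_lit 4) (nat_lit 327) (nat_lit 270) (nat_lit 183)) (XT.lf (nat_lit 0) (nat_lit 5136598478606) (nat_lit 152) (nat_lit 1836305230906) (nat_lit 0) (nat_lit 5090620068592) (nat_lit 1) (nat_lit 5) (nat_lit 3) (nat_lit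 4) (nat_lit 1) (nat_lit 4) (nat_lit 328) (nat_lit 270) (nat_lit 182)))))) (XT.nd (nat_lit 36582) (nat_lit 0) (nat_lit 2204) (XT.nd (nat_lit 36270) (nat_lit 0) (nat_lit 3648) (XT.nd (nat_lit 36114) (nat_lit 0) (nat_lit 4332) (XT.lf (nat_lit 0) (nat_lit 6001832366044) (nat_lit 152) (nat_lit 1907222224686) (nat_lit 0) (nat_lit 5955853928706) (nat_lit 1) (nat_lit 5) (nat_lit 3) (nat_lit 4) (nat_lit 1) (nat_lit 4) (nat_lit 329) (nat_lit 270) (nat_lit 181)) (XT.nd (nat_lit 78) (nat_lit 0) (nat_lit 0) (XT.lf (nat_lit 0) (nat_lit 6949161638) (nat_lit 532) (nat_lit 1291659157) (nat_lit 532) (nat_lit 1291659157) (nat_lit 58) (nat_lit 3) (nat_lit 65) (nat_lit 3) (nat_lit 65) (nat_lit 5) (nat_lit 271) (nat_lit 271) (nat_lit 238)) (XT.lf (nat_lit 76) (nat_lit 15266295005) (nat_lit 0) (nat_lit 346864500) (nat_lit 532) (nat_lit 4827417662) (nat_lit 59) (nat_lit 5) (nat_lit 58) (nat_lit 3) (nat_lit 65)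 (nat_lit 5) (nat_lit 272) (nat_lit 271) (nat_lit 237)))) (XT.nd (nat_lit 156) (nat_lit 760) (nat_lit 0) (XT.nd (nat_lit 78) (nat_lit 0) (nat_lit 76) (XT.lf (nat_lit 76) (nat_lit 14166036391) (nat_lit 0) (nat_lit 4220424064) (nat_lit 532) (nat_lit 3572058932) (nat_lit 60) (nat_lit 5) (nat_lit 59) (nat_lit 5) (nat_lit 66) (nat_lit 5) (nat_lit 273) (nat_lit 271) (nat_lit 236)) (XT.lf (nat_lit 76) (nat_lit 13286528987) (nat_lit 0) (nat_lit 9081070906) (nat_lit 532) (nat_lit 1273276455) (nat_lit 61) (nat_lit 5) (nat_lit 60) (nat_lit 5) (nat_lit 67) (nat_lit 5) (nat_lit 274) (nat_lit 271) (nat_lit 235))) (XT.nd (nat_lit 78) (nat_lit 380) (nat_lit 0) (XT.lf (nat_lit 0) (nat_lit 2181804087) (nat_lit 532) (nat_lit 12892859076) (nat_lit 76) (nat_lit 10427941866) (nat_lit 54) (nat_lit 5) (nat_lit 61) (nat_lit 5) (nat_lit 55) (nat_lit 5) (nat_lit 275) (nat_lit 271) (nat_lit 234)) (XT.lf (nat_lit 0)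 (nat_lit 7029992064) (nat_lit 456) (nat_lit 15394527767) (nat_lit 76) (nat_lit 5140458032) (nat_lit 49) (nat_lit 5) (nat_lit 55) (nat_lit 5) (nat_lit 50) (nat_lit 5) (nat_lit 276) (nat_lit 271) (nat_lit 233))))) (XT.nd (nat_lit 234) (nat_lit 836) (nat_lit 0) (XT.nd (nat_lit 78) (nat_lit 380) (nat_lit 0) (XT.lf (nat_lit 0) (nat_lit 12004829143) (nat_lit 228) (nat_lit 1657008488) (nat_lit 304) (nat_lit 16190397789) (nat_lit 46) (nat_lit 5) (nat_lit 49) (nat_lit 5) (nat_lit 50) (nat_lit 5) (nat_lit 277) (nat_lit 271) (nat_lit 232)) (XT.nd (nat_lit 78) (nat_lit 152) (nat_lit 0) (XT.lf (nat_lit 0) (nat_lit 12018976013) (nat_lit 228) (nat_lit 10522191684) (nat_lit 304) (nat_lit 9841234823) (nat_lit 43) (nat_lit 5) (nat_lit 46) (nat_lit 5) (nat_lit 47) (nat_lit 5) (nat_lit 278) (nat_lit 271) (nat_lit 231)) (XT.lf (nat_lit 0) (nat_lit 12397645295) (nat_lit 152) (nat_lit 21528227789) (nat_lit 228)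 (nat_lit 1272376165) (nat_lit 41) (nat_lit 5) (nat_lit 43) (nat_lit 5) (nat_lit 44) (nat_lit 5) (nat_lit 279) (nat_lit 271) (nat_lit 230)))) (XT.nd (nat_lit 156) (nat_lit 380) (nat_lit 0) (XT.nd (nat_lit 78) (nat_lit 152) (nat_lit 0) (XT.lf (nat_lit 0) (nat_lit 9428100815) (nat_lit 304) (nat_lit 25391205473) (nat_lit 76) (nat_lit 3498634628) (nat_lit 37) (nat_lit 5) (nat_lit 41) (nat_lit 5) (nat_lit 38) (nat_lit 5) (nat_lit 280) (nat_lit 271) (nat_lit 229)) (XT.lf (nat_lit 0) (nat_lit 13538774470) (nat_lit 152) (nat_lit 9700716432) (nat_lit 228) (nat_lit 18536979944) (nat_lit 35) (nat_lit 5) (nat_lit 37) (nat_lit 5) (nat_lit 38) (nat_lit 5) (nat_lit 281) (nat_lit 271) (nat_lit 228))) (XT.nd (nat_lit 78) (nat_lit 228) (nat_lit 0) (XT.lf (nat_lit 0) (nat_lit 14358027176) (nat_lit 152) (nat_lit 26308776097) (nat_lit 228) (nat_lit 4963459753) (nat_lit 33) (nat_lit 5) (nat_lit 35) (nat_lit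 5) (nat_lit 36) (nat_lit 5) (nat_lit 282) (nat_lit 271) (nat_lit 227)) (XT.lf (nat_lit 0) (nat_lit 11660821384) (nat_lit 228) (nat_lit 34768863537) (nat_lit 76) (nat_lit 3488188542) (nat_lit 30) (nat_lit 5) (nat_lit 33) (nat_lit 5) (nat_lit 31) (nat_lit 5) (nat_lit 283) (nat_lit 271) (nat_lit 226))))))) (XT.nd (nat_lit 1014) (nat_lit 608) (nat_lit 0) (XT.nd (nat_lit 468) (nat_lit 608) (nat_lit 0) (XT.nd (nat_lit 234) (nat_lit 380) (nat_lit 0) (XT.nd (nat_lit 78) (nat_lit 304) (nat_lit 0) (XT.lf (nat_lit 0) (nat_lit 15510784668) (nat_lit 152) (nat_lit 16999459764) (nat_lit 228) (nat_lit 22166049902) (nat_lit 28) (nat_lit 5) (nat_lit 30) (nat_lit 5) (nat_lit 31) (nat_lit 5) (nat_lit 284) (nat_lit 271) (nat_lit 225)) (XT.nd (nat_lit 78) (nat_lit 228) (nat_lit 0) (XT.lf (nat_lit 0) (nat_lit 15697541775) (nat_lit 76) (nat_lit 42594473693) (nat_lit 152) (nat_lit 1712080199) (nat_lit 27) (nat_lit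 5) (nat_lit 28) (nat_lit 5) (nat_lit 29) (nat_lit 4) (nat_lit 285) (nat_lit 271) (nat_lit 224)) (XT.lf (nat_lit 0) (nat_lit 14813448031) (nat_lit 152) (nat_lit 7886689332) (nat_lit 228) (nat_lit 43230483026) (nat_lit 24) (nat_lit 5) (nat_lit 26) (nat_lit 5) (nat_lit 27) (nat_lit 5) (nat_lit 286) (nat_lit 271) (nat_lit 223)))) (XT.nd (nat_lit 78) (nat_lit 304) (nat_lit 0) (XT.lf (nat_lit 0) (nat_lit 12596649951) (nat_lit 76) (nat_lit 40461757676) (nat_lit 152) (nat_lit 19493319546) (nat_lit 23) (nat_lit 5) (nat_lit 24) (nat_lit 5) (nat_lit 25) (nat_lit 4) (nat_lit 287) (nat_lit 271) (nat_lit 222)) (XT.nd (nat_lit 78) (nat_lit 76) (nat_lit 0) (XT.lf (nat_lit 0) (nat_lit 8893909507) (nat_lit 152) (nat_lit 466020111) (nat_lit 228) (nat_lit 70635387873) (nat_lit 20) (nat_lit 5) (nat_lit 22) (nat_lit 5) (nat_lit 23) (nat_lit 5) (nat_lit 288) (nat_lit 271) (nat_lit 221)) (XT.lf (nat_lit 0) (nat_lit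 1667664896) (nat_lit 76) (nat_lit 42666043702) (nat_lit 152) (nat_lit 43945496930) (nat_lit 19) (nat_lit 5) (nat_lit 20) (nat_lit 5) (nat_lit 21) (nat_lit 4) (nat_lit 289) (nat_lit 271) (nat_lit 220))))) (XT.nd (nat_lit 234) (nat_lit 380) (nat_lit 0) (XT.nd (nat_lit 78) (nat_lit 228) (nat_lit 0) (XT.lf (nat_lit 0) (nat_lit 86697384184) (nat_lit 152) (nat_lit 8087493928) (nat_lit 0) (nat_lit 2849297433) (nat_lit 19) (nat_lit 5) (nat_lit 21) (nat_lit 4) (nat_lit 19) (nat_lit 4) (nat_lit 290) (nat_lit 271) (nat_lit 219)) (XT.nd (nat_lit 78) (nat_lit 76) (nat_lit 0) (XT.lf (nat_lit 0) (nat_lit 28976523669) (nat_lit 152) (nat_lit 23584554153) (nat_lit 76) (nat_lit 55514915503) (nat_lit 17) (nat_lit 5) (nat_lit 19) (nat_lit 5) (nat_lit 18) (nat_lit 4) (nat_lit 291) (nat_lit 271) (nat_lit 218)) (XT.lf (nat_lit 0) (nat_lit 74798192017) (nat_lit 76) (nat_lit 1480921422) (nat_lit 152) (nat_lit 43618259534)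 (nat_lit 16) (nat_lit 5) (nat_lit 17) (nat_lit 5) (nat_lit 18) (nat_lit 4) (nat_lit 292) (nat_lit 271) (nat_lit 217)))) (XT.nd (nat_lit 156) (nat_lit 152) (nat_lit 0) (XT.nd (nat_lit 78) (nat_lit 76) (nat_lit 0) (XT.lf (nat_lit 0) (nat_lit 869087650) (nat_lit 152) (nat_lit 75847981326) (nat_lit 76) (nat_lit 56496857754) (nat_lit 14) (nat_lit 5) (nat_lit 16) (nat_lit 5) (nat_lit 15) (nat_lit 4) (nat_lit 293) (nat_lit 271) (nat_lit 216)) (XT.lf (nat_lit 0) (nat_lit 29698381156) (nat_lit 76) (nat_lit 21916385221) (nat_lit 152) (nat_lit 96649130982) (nat_lit 13) (nat_lit 5) (nat_lit 14) (nat_lit 5) (nat_lit 15) (nat_lit 4) (nat_lit 294) (nat_lit 271) (nat_lit 215))) (XT.nd (nat_lit 78) (nat_lit 152) (nat_lit 0) (XT.lf (nat_lit 0) (nat_lit 113219152084) (nat_lit 152) (nat_lit 10784772228) (nat_lit 0) (nat_lit 41307693054) (nat_lit 13) (nat_lit 5) (nat_lit 15) (nat_lit 4) (nat_lit 13) (nat_lit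 4) (nat_lit 295) (nat_lit 271) (nat_lit 214)) (XT.lf (nat_lit 0) (nat_lit 2728963424) (nat_lit 152) (nat_lit 66238470213) (nat_lit 76) (nat_lit 115667613117) (nat_lit 11) (nat_lit 5) (nat_lit 13) (nat_lit 5) (nat_lit 12) (nat_lit 4) (nat_lit 296) (nat_lit 271) (nat_lit 213)))))) (XT.nd (nat_lit 546) (nat_lit 228) (nat_lit 0) (XT.nd (nat_lit 234) (nat_lit 228) (nat_lit 0) (XT.nd (nat_lit 78) (nat_lit 76) (nat_lit 0) (XT.lf (nat_lit 0) (nat_lit 62439487074) (nat_lit 76) (nat_lit 2155239723) (nat_lit 152) (nat_lit 142001575161) (nat_lit 10) (nat_lit 5) (nat_lit 11) (nat_lit 5) (nat_lit 12) (nat_lit 4) (nat_lit 297) (nat_lit 271) (nat_lit 212)) (XT.nd (nat_lit 78) (nat_lit 76) (nat_lit 0) (XT.lf (nat_lit 0) (nat_lit 139509398089) (nat_lit 152) (nat_lit 19124025273) (nat_lit 0) (nat_lit 72916799946) (nat_lit 10) (nat_lit 5) (nat_lit 12) (nat_lit 4) (nat_lit 10) (nat_lit 4) (nat_lit 298) (nat_lit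 271) (nat_lit 211)) (XT.lf (nat_lit 0) (nat_lit 131155637475) (nat_lit 76) (nat_lit 97714724540) (nat_lit 76) (nat_lit 31120144651) (nat_lit 9) (nat_lit 4) (nat_lit 10) (nat_lit 5) (nat_lit 10) (nat_lit 4) (nat_lit 299) (nat_lit 271) (nat_lit 210)))) (XT.nd (nat_lit 156) (nat_lit 76) (nat_lit 0) (XT.nd (nat_lit 78) (nat_lit 0) (nat_lit 0) (XT.lf (nat_lit 0) (nat_lit 12130093804) (nat_lit 76) (nat_lit 25719135498) (nat_lit 152) (nat_lit 254704009375) (nat_lit 7) (nat_lit 5) (nat_lit 8) (nat_lit 5) (nat_lit 9) (nat_lit 4) (nat_lit 300) (nat_lit 271) (nat_lit 209)) (XT.lf (nat_lit 0) (nat_lit 120590520764) (nat_lit 152) (nat_lit 149997771980) (nat_lit 0) (nat_lit 58925889624) (nat_lit 7) (nat_lit 5) (nat_lit 9) (nat_lit 4) (nat_lit 7) (nat_lit 4) (nat_lit 301) (nat_lit 271) (nat_lit 208))) (XT.nd (nat_lit 78) (nat_lit 76) (nat_lit 0) (XT.lf (nat_lit 0) (nat_lit 216450674510) (nat_lit 152)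 (nat_lit 727143466) (nat_lit 0) (nat_lit 154784836860) (nat_lit 7) (nat_lit 5) (nat_lit 9) (nat_lit 4) (nat_lit 7) (nat_lit 4) (nat_lit 302) (nat_lit 271) (nat_lit 207)) (XT.lf (nat_lit 0) (nat_lit 179928553768) (nat_lit 76) (nat_lit 151085401737) (nat_lit 76) (nat_lit 89418514949) (nat_lit 6) (nat_lit 4) (nat_lit 7) (nat_lit 5) (nat_lit 7) (nat_lit 4) (nat_lit 303) (nat_lit 271) (nat_lit 206))))) (XT.nd (nat_lit 234) (nat_lit 76) (nat_lit 0) (XT.nd (nat_lit 78) (nat_lit 152) (nat_lit 0) (XT.lf (nat_lit 0) (nat_lit 387720890271) (nat_lit 76) (nat_lit 75059103285) (nat_lit 76) (nat_lit 13391304202) (nat_lit 6) (nat_lit 4) (nat_lit 7) (nat_lit 5) (nat_lit 7) (nat_lit 4) (nat_lit 304) (nat_lit 271) (nat_lit 205)) (XT.nd (nat_lit 78) (nat_lit 0) (nat_lit 0) (XT.lf (nat_lit 0) (nat_lit 72875392377) (nat_lit 152) (nat_lit 451275125514) (nat_lit 0) (nat_lit 15774843875) (nat_lit 4) (nat_lit 5)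 (nat_lit 6) (nat_lit 4) (nat_lit 4) (nat_lit 4) (nat_lit 305) (nat_lit 271) (nat_lit 204)) (XT.lf (nat_lit 0) (nat_lit 176027274157) (nat_lit 152) (nat_lit 317882300951) (nat_lit 0) (nat_lit 118926086927) (nat_lit 4) (nat_lit 5) (nat_lit 6) (nat_lit 4) (nat_lit 4) (nat_lit 4) (nat_lit 306) (nat_lit 271) (nat_lit 203)))) (XT.nd (nat_lit 156) (nat_lit 0) (nat_lit 0) (XT.nd (nat_lit 78) (nat_lit 76) (nat_lit 0) (XT.lf (nat_lit 0) (nat_lit 294649830978) (nat_lit 152) (nat_lit 164484756937) (nat_lit 0) (nat_lit 237548088333) (nat_lit 4) (nat_lit 5) (nat_lit 6) (nat_lit 4) (nat_lit 4) (nat_lit 4) (nat_lit 307) (nat_lit 271) (nat_lit 202)) (XT.lf (nat_lit 0) (nat_lit 12546383752) (nat_lit 76) (nat_lit 418819296032) (nat_lit 76) (nat_lit 361717070417) (nat_lit 3) (nat_lit 4) (nat_lit 4) (nat_lit 5) (nat_lit 4) (nat_lit 4) (nat_lit 308) (nat_lit 271) (nat_lit 201))) (XT.nd (nat_lit 78) (nat_lit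 0) (nat_lit 0) (XT.lf (nat_lit 0) (nat_lit 226089546319) (nat_lit 76) (nat_lit 367286482465) (nat_lit 76) (nat_lit 310183836877) (nat_lit 3) (nat_lit 4) (nat_lit 4) (nat_lit 5) (nat_lit 4) (nat_lit 4) (nat_lit 309) (nat_lit 271) (nat_lit 200)) (XT.lf (nat_lit 0) (nat_lit 471661273354) (nat_lit 76) (nat_lit 308025201263) (nat_lit 76) (nat_lit 250922190480) (nat_lit 3) (nat_lit 4) (nat_lit 4) (nat_lit 5) (nat_lit 4) (nat_lit 4) (nat_lit 310) (nat_lit 271) (nat_lit 199))))))))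
noncomputable def xc37 : XT := (XT.nd (nat_lit 38220) (nat_lit 0) (nat_lit 228) (XT.nd (nat_lit 1014) (nat_lit 0) (nat_lit 0) (XT.nd (nat_lit 468) (nat_lit 0) (nat_lit 0) (XT.nd (nat_lit 234) (nat_lit 152) (nat_lit 0) (XT.nd (nat_lit 78) (nat_lit 0) (nat_lit 0) (XT.lf (nat_lit 0) (nat_lit 754066229080) (nat_lit 76) (nat_lit 239875992576) (nat_lit 76) (nat_lit 182772664232) (nat_lit 3) (nat_lit 4) (nat_lit 4) (nat_lit 5) (nat_lit 4) (nat_lit 4) (nat_lit 311) (nat_lit 271) (nat_lit 198)) (XT.nd (nat_lit 78) (nat_lit 0) (nat_lit 0) (XT.lf (nat_lit 0) (nat_lit 1078829727850) (nat_lit 76) (nat_lit 161505502320) (nat_lit 76) (nat_lit 104401897837) (nat_lit 3) (nat_lit 4) (nat_lit 4) (nat_lit 5) (nat_lit 4) (nat_lit 4) (nat_lit 312) (nat_lit 271) (nat_lit 197)) (XT.lf (nat_lit 0) (nat_lit 1452305838118) (nat_lit 76) (nat_lit 71380394817) (nat_lit 76) (nat_lit 14276550213) (nat_lit 3) (nat_lit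 4) (nat_lit 4) (nat_lit 5) (nat_lit 4) (nat_lit 4) (nat_lit 313) (nat_lit 271) (nat_lit 196)))) (XT.nd (nat_lit 78) (nat_lit 0) (nat_lit 0) (XT.lf (nat_lit 0) (nat_lit 88831337639) (nat_lit 152) (nat_lit 1634897050095) (nat_lit 0) (nat_lit 35957214115) (nat_lit 1) (nat_lit 5) (nat_lit 3) (nat_lit 4) (nat_lit 1) (nat_lit 4) (nat_lit 314) (nat_lit 271) (nat_lit 195)) (XT.nd (nat_lit 78) (nat_lit 0) (nat_lit 0) (XT.lf (nat_lit 0) (nat_lit 211116102472) (nat_lit 152) (nat_lit 1644914782602) (nat_lit 0) (nat_lit 158241810831) (nat_lit 1) (nat_lit 5) (nat_lit 3) (nat_lit 4) (nat_lit 1) (nat_lit 4) (nat_lit 315) (nat_lit 271) (nat_lit 194)) (XT.lf (nat_lit 0) (nat_lit 351742887229) (nat_lit 152) (nat_lit 1656436573112) (nat_lit 0) (nat_lit 298868449399) (nat_lit 1) (nat_lit 5) (nat_lit 3) (nat_lit 4) (nat_lit 1) (nat_lit 4) (nat_lit 316) (nat_lit 271) (nat_lit 193))))) (XT.nd (nat_lit 234) (nat_lit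 0) (nat_lit 0) (XT.nd (nat_lit 78) (nat_lit 0) (nat_lit 0) (XT.lf (nat_lit 0) (nat_lit 513463085523) (nat_lit 152) (nat_lit 1669687847961) (nat_lit 0) (nat_lit 460588520574) (nat_lit 1) (nat_lit 5) (nat_lit 3) (nat_lit 4) (nat_lit 1) (nat_lit 4) (nat_lit 317) (nat_lit 271) (nat_lit 192)) (XT.nd (nat_lit 78) (nat_lit 0) (nat_lit 0) (XT.lf (nat_lit 0) (nat_lit 699440788192) (nat_lit 152) (nat_lit 1684927871223) (nat_lit 0) (nat_lit 646566112703) (nat_lit 1) (nat_lit 5) (nat_lit 3) (nat_lit 4) (nat_lit 1) (nat_lit 4) (nat_lit 318) (nat_lit 271) (nat_lit 191)) (XT.lf (nat_lit 0) (nat_lit 913314689418) (nat_lit 152) (nat_lit 1702454817266) (nat_lit 0) (nat_lit 860439917808) (nat_lit 1) (nat_lit 5) (nat_lit 3) (nat_lit 4) (nat_lit 1) (nat_lit 4) (nat_lit 319) (nat_lit 271) (nat_lit 190)))) (XT.nd (nat_lit 156) (nat_lit 0) (nat_lit 0) (XT.nd (nat_lit 78) (nat_lit 0) (nat_lit 0) (XT.lf (nat_lit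 0) (nat_lit 1159269278573) (nat_lit 152) (nat_lit 1722611604599) (nat_lit 0) (nat_lit 1106394423379) (nat_lit 1) (nat_lit 5) (nat_lit 3) (nat_lit 4) (nat_lit 1) (nat_lit 4) (nat_lit 320) (nat_lit 271) (nat_lit 189)) (XT.lf (nat_lit 0) (nat_lit 1442116710662) (nat_lit 152) (nat_lit 1745792605148) (nat_lit 0) (nat_lit 1389241782786) (nat_lit 1) (nat_lit 5) (nat_lit 3) (nat_lit 4) (nat_lit 1) (nat_lit 4) (nat_lit 321) (nat_lit 271) (nat_lit 188))) (XT.nd (nat_lit 78) (nat_lit 0) (nat_lit 0) (XT.lf (nat_lit 0) (nat_lit 1767390957182) (nat_lit 152) (nat_lit 1772451360229) (nat_lit 0) (nat_lit 1714515966105) (nat_lit 1) (nat_lit 5) (nat_lit 3) (nat_lit 4) (nat_lit 1) (nat_lit 4) (nat_lit 322) (nat_lit 271) (nat_lit 187)) (XT.lf (nat_lit 0) (nat_lit 2141456079478) (nat_lit 152) (nat_lit 1803109454180) (nat_lit 0) (nat_lit 2088581033443) (nat_lit 1) (nat_lit 5) (nat_lit 3) (nat_lit 4) (nat_lit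 1) (nat_lit 4) (nat_lit 323) (nat_lit 271) (nat_lit 186)))))) (XT.nd (nat_lit 36660) (nat_lit 0) (nat_lit 3192) (XT.nd (nat_lit 234) (nat_lit 0) (nat_lit 0) (XT.nd (nat_lit 78) (nat_lit 0) (nat_lit 0) (XT.lf (nat_lit 0) (nat_lit 2571630742987) (nat_lit 152) (nat_lit 1838366719274) (nat_lit 0) (nat_lit 2518755649163) (nat_lit 1) (nat_lit 5) (nat_lit 3) (nat_lit 4) (nat_lit 1) (nat_lit 4) (nat_lit 324) (nat_lit 271) (nat_lit 185)) (XT.nd (nat_lit 78) (nat_lit 0) (nat_lit 0) (XT.lf (nat_lit 0) (nat_lit 3066331408517) (nat_lit 152) (nat_lit 1878912971568) (nat_lit 0) (nat_lit 3013456273137) (nat_lit 1) (nat_lit 5) (nat_lit 3) (nat_lit 4) (nat_lit 1) (nat_lit 4) (nat_lit 325) (nat_lit 271) (nat_lit 184)) (XT.lf (nat_lit 0) (nat_lit 3635237002131) (nat_lit 152) (nat_lit 1925541507300) (nat_lit 0) (nat_lit 3582361830615) (nat_lit 1) (nat_lit 5) (nat_lit 3) (nat_lit 4) (nat_lit 1) (nat_lit 4)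 (nat_lit 326) (nat_lit 271) (nat_lit 183)))) (XT.nd (nat_lit 156) (nat_lit 0) (nat_lit 0) (XT.nd (nat_lit 78) (nat_lit 0) (nat_lit 0) (XT.lf (nat_lit 0) (nat_lit 4289478285445) (nat_lit 152) (nat_lit 1979164623911) (nat_lit 0) (nat_lit 4236603082507) (nat_lit 1) (nat_lit 5) (nat_lit 3) (nat_lit 4) (nat_lit 1) (nat_lit 4) (nat_lit 327) (nat_lit 271) (nat_lit 182)) (XT.lf (nat_lit 0) (nat_lit 5041855631392) (nat_lit 152) (nat_lit 2040831469334) (nat_lit 0) (nat_lit 4988980401131) (nat_lit 1) (nat_lit 5) (nat_lit 3) (nat_lit 4) (nat_lit 1) (nat_lit 4) (nat_lit 328) (nat_lit 271) (nat_lit 181))) (XT.nd (nat_lit 36192) (nat_lit 0) (nat_lit 4332) (XT.lf (nat_lit 0) (nat_lit 5907089466307) (nat_lit 152) (nat_lit 2111748568805) (nat_lit 0) (nat_lit 5854214212286) (nat_lit 1) (nat_lit 5) (nat_lit 3) (nat_lit 4) (nat_lit 1) (nat_lit 4) (nat_lit 329) (nat_lit 271) (nat_lit 180)) (XT.lf (nat_lit 0)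 (nat_lit 8284200985) (nat_lit 532) (nat_lit 1327149468) (nat_lit 532) (nat_lit 1327149468) (nat_lit 58) (nat_lit 3) (nat_lit 65) (nat_lit 3) (nat_lit 65) (nat_lit 5) (nat_lit 272) (nat_lit 272) (nat_lit 236))))) (XT.nd (nat_lit 234) (nat_lit 1140) (nat_lit 0) (XT.nd (nat_lit 78) (nat_lit 0) (nat_lit 76) (XT.lf (nat_lit 76) (nat_lit 17845964782) (nat_lit 0) (nat_lit 625119341) (nat_lit 532) (nat_lit 4993540411) (nat_lit 59) (nat_lit 5) (nat_lit 58) (nat_lit 3) (nat_lit 65) (nat_lit 5) (nat_lit 273) (nat_lit 272) (nat_lit 235)) (XT.nd (nat_lit 78) (nat_lit 0) (nat_lit 76) (XT.lf (nat_lit 76) (nat_lit 16599604544) (nat_lit 0) (nat_lit 4996170038) (nat_lit 532) (nat_lit 3619751496) (nat_lit 60) (nat_lit 5) (nat_lit 59) (nat_lit 5) (nat_lit 66) (nat_lit 5) (nat_lit 274) (nat_lit 272) (nat_lit 234)) (XT.lf (nat_lit 76) (nat_lit 15598844040) (nat_lit 0) (nat_lit 10521065907) (nat_lit 532) (nat_lit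 1034747193) (nat_lit 61) (nat_lit 5) (nat_lit 60) (nat_lit 5) (nat_lit 67) (nat_lit 5) (nat_lit 275) (nat_lit 272) (nat_lit 233)))) (XT.nd (nat_lit 156) (nat_lit 456) (nat_lit 0) (XT.nd (nat_lit 78) (nat_lit 380) (nat_lit 0) (XT.lf (nat_lit 0) (nat_lit 2870202662) (nat_lit 532) (nat_lit 14483675625) (nat_lit 76) (nat_lit 11944762641) (nat_lit 54) (nat_lit 5) (nat_lit 61) (nat_lit 5) (nat_lit 55) (nat_lit 5) (nat_lit 276) (nat_lit 272) (nat_lit 232)) (XT.lf (nat_lit 0) (nat_lit 8405887999) (nat_lit 456) (nat_lit 17363326567) (nat_lit 76) (nat_lit 5904394192) (nat_lit 49) (nat_lit 5) (nat_lit 55) (nat_lit 5) (nat_lit 50) (nat_lit 5) (nat_lit 277) (nat_lit 272) (nat_lit 231))) (XT.nd (nat_lit 78) (nat_lit 228) (nat_lit 0) (XT.lf (nat_lit 0) (nat_lit 14117122377) (nat_lit 228) (nat_lit 1880959899) (nat_lit 304) (nat_lit 18308679621) (nat_lit 46) (nat_lit 5) (nat_lit 49) (nat_lit 5) (nat_lit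 50) (nat_lit 5) (nat_lit 278) (nat_lit 272) (nat_lit 230)) (XT.lf (nat_lit 0) (nat_lit 14127812836) (nat_lit 228) (nat_lit 12051941812) (nat_lit 304) (nat_lit 11039109814) (nat_lit 43) (nat_lit 5) (nat_lit 46) (nat_lit 5) (nat_lit 47) (nat_lit 5) (nat_lit 279) (nat_lit 272) (nat_lit 229))))))) (XT.nd (nat_lit 1092) (nat_lit 912) (nat_lit 0) (XT.nd (nat_lit 546) (nat_lit 836) (nat_lit 0) (XT.nd (nat_lit 234) (nat_lit 608) (nat_lit 0) (XT.nd (nat_lit 78) (nat_lit 456) (nat_lit 0) (XT.lf (nat_lit 0) (nat_lit 14555442008) (nat_lit 152) (nat_lit 24691334823) (nat_lit 228) (nat_lit 1212382336) (nat_lit 41) (nat_lit 5) (nat_lit 43) (nat_lit 5) (nat_lit 44) (nat_lit 5) (nat_lit 280) (nat_lit 272) (nat_lit 228)) (XT.nd (nat_lit 78) (nat_lit 152) (nat_lit 0) (XT.lf (nat_lit 0) (nat_lit 11058077021) (nat_lit 304) (nat_lit 28899619724) (nat_lit 76) (nat_lit 4090460537) (nat_lit 37) (nat_lit 5) (nat_lit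 41) (nat_lit 5) (nat_lit 38) (nat_lit 5) (nat_lit 281) (nat_lit 272) (nat_lit 227)) (XT.lf (nat_lit 0) (nat_lit 15844441141) (nat_lit 152) (nat_lit 11075201890) (nat_lit 228) (nat_lit 21107574174) (nat_lit 35) (nat_lit 5) (nat_lit 37) (nat_lit 5) (nat_lit 38) (nat_lit 5) (nat_lit 282) (nat_lit 272) (nat_lit 226)))) (XT.nd (nat_lit 156) (nat_lit 228) (nat_lit 0) (XT.nd (nat_lit 78) (nat_lit 228) (nat_lit 0) (XT.lf (nat_lit 0) (nat_lit 16775935476) (nat_lit 152) (nat_lit 30167822803) (nat_lit 228) (nat_lit 5516727712) (nat_lit 33) (nat_lit 5) (nat_lit 35) (nat_lit 5) (nat_lit 36) (nat_lit 5) (nat_lit 283) (nat_lit 272) (nat_lit 225)) (XT.lf (nat_lit 0) (nat_lit 13576046328) (nat_lit 228) (nat_lit 39722292088) (nat_lit 76) (nat_lit 4093797711) (nat_lit 30) (nat_lit 5) (nat_lit 33) (nat_lit 5) (nat_lit 31) (nat_lit 5) (nat_lit 284) (nat_lit 272) (nat_lit 224))) (XT.nd (nat_lit 78) (nat_lit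 76) (nat_lit 0) (XT.lf (nat_lit 0) (nat_lit 18077134734) (nat_lit 152) (nat_lit 19459848225) (nat_lit 228) (nat_lit 25328626144) (nat_lit 28) (nat_lit 5) (nat_lit 30) (nat_lit 5) (nat_lit 31) (nat_lit 5) (nat_lit 285) (nat_lit 272) (nat_lit 223)) (XT.lf (nat_lit 0) (nat_lit 18280744992) (nat_lit 76) (nat_lit 48893052628) (nat_lit 152) (nat_lit 1819775548) (nat_lit 27) (nat_lit 5) (nat_lit 28) (nat_lit 5) (nat_lit 29) (nat_lit 4) (nat_lit 286) (nat_lit 272) (nat_lit 222))))) (XT.nd (nat_lit 234) (nat_lit 304) (nat_lit 0) (XT.nd (nat_lit 78) (nat_lit 304) (nat_lit 0) (XT.lf (nat_lit 0) (nat_lit 17251601179) (nat_lit 152) (nat_lit 8981935090) (nat_lit 228) (nat_lit 49576327637) (nat_lit 24) (nat_lit 5) (nat_lit 26) (nat_lit 5) (nat_lit 27) (nat_lit 5) (nat_lit 287) (nat_lit 272) (nat_lit 221)) (XT.nd (nat_lit 78) (nat_lit 228) (nat_lit 0) (XT.lf (nat_lit 0) (nat_lit 14691530136) (nat_lit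 76) (nat_lit 46444046681) (nat_lit 152) (nat_lit 22289367852) (nat_lit 23) (nat_lit 5) (nat_lit 24) (nat_lit 5) (nat_lit 25) (nat_lit 4) (nat_lit 288) (nat_lit 272) (nat_lit 220)) (XT.lf (nat_lit 0) (nat_lit 10421911215) (nat_lit 152) (nat_lit 452366355) (nat_lit 228) (nat_lit 81111453360) (nat_lit 20) (nat_lit 5) (nat_lit 22) (nat_lit 5) (nat_lit 23) (nat_lit 5) (nat_lit 289) (nat_lit 272) (nat_lit 219)))) (XT.nd (nat_lit 156) (nat_lit 228) (nat_lit 0) (XT.nd (nat_lit 78) (nat_lit 0) (nat_lit 0) (XT.lf (nat_lit 0) (nat_lit 2101608687) (nat_lit 76) (nat_lit 48984287801) (nat_lit 152) (nat_lit 50426971076) (nat_lit 19) (nat_lit 5) (nat_lit 20) (nat_lit 5) (nat_lit 21) (nat_lit 4) (nat_lit 290) (nat_lit 272) (nat_lit 218)) (XT.lf (nat_lit 0) (nat_lit 99792509711) (nat_lit 152) (nat_lit 9135358134) (nat_lit 0) (nat_lit 3344150631) (nat_lit 19) (nat_lit 5) (nat_lit 21) (nat_lit 4) (nat_lit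 19) (nat_lit 4) (nat_lit 291) (nat_lit 272) (nat_lit 217))) (XT.nd (nat_lit 78) (nat_lit 76) (nat_lit 0) (XT.lf (nat_lit 0) (nat_lit 33407525131) (nat_lit 152) (nat_lit 26966481200) (nat_lit 76) (nat_lit 63906590368) (nat_lit 17) (nat_lit 5) (nat_lit 19) (nat_lit 5) (nat_lit 18) (nat_lit 4) (nat_lit 292) (nat_lit 272) (nat_lit 216)) (XT.lf (nat_lit 0) (nat_lit 86160492919) (nat_lit 76) (nat_lit 1637414582) (nat_lit 152) (nat_lit 50077887870) (nat_lit 16) (nat_lit 5) (nat_lit 17) (nat_lit 5) (nat_lit 18) (nat_lit 4) (nat_lit 293) (nat_lit 272) (nat_lit 215)))))) (XT.nd (nat_lit 546) (nat_lit 380) (nat_lit 0) (XT.nd (nat_lit 234) (nat_lit 304) (nat_lit 0) (XT.nd (nat_lit 78) (nat_lit 76) (nat_lit 0) (XT.lf (nat_lit 0) (nat_lit 1072838288) (nat_lit 152) (nat_lit 87086571319) (nat_lit 76) (nat_lit 65030711475) (nat_lit 14) (nat_lit 5) (nat_lit 16) (nat_lit 5) (nat_lit 15) (nat_lit 4) (nat_lit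 294) (nat_lit 272) (nat_lit 214)) (XT.nd (nat_lit 78) (nat_lit 0) (nat_lit 0) (XT.lf (nat_lit 0) (nat_lit 34280013126) (nat_lit 76) (nat_lit 25143834758) (nat_lit 152) (nat_lit 111074264181) (nat_lit 13) (nat_lit 5) (nat_lit 14) (nat_lit 5) (nat_lit 15) (nat_lit 4) (nat_lit 295) (nat_lit 272) (nat_lit 213)) (XT.lf (nat_lit 0) (nat_lit 130261424679) (nat_lit 152) (nat_lit 12288747633) (nat_lit 0) (nat_lit 47553417786) (nat_lit 13) (nat_lit 5) (nat_lit 15) (nat_lit 4) (nat_lit 13) (nat_lit 4) (nat_lit 296) (nat_lit 272) (nat_lit 212)))) (XT.nd (nat_lit 156) (nat_lit 76) (nat_lit 0) (XT.nd (nat_lit 78) (nat_lit 76) (nat_lit 0) (XT.lf (nat_lit 0) (nat_lit 3193885265) (nat_lit 152) (nat_lit 76067186869) (nat_lit 76) (nat_lit 133064771044) (nat_lit 11) (nat_lit 5) (nat_lit 13) (nat_lit 5) (nat_lit 12) (nat_lit 4) (nat_lit 297) (nat_lit 272) (nat_lit 211)) (XT.lf (nat_lit 0) (nat_lit 71903402434)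 (nat_lit 76) (nat_lit 2431218210) (nat_lit 152) (nat_lit 163247059297) (nat_lit 10) (nat_lit 5) (nat_lit 11) (nat_lit 5) (nat_lit 12) (nat_lit 4) (nat_lit 298) (nat_lit 272) (nat_lit 210))) (XT.nd (nat_lit 78) (nat_lit 76) (nat_lit 0) (XT.lf (nat_lit 0) (nat_lit 160480870909) (nat_lit 152) (nat_lit 21904870921) (nat_lit 0) (nat_lit 83893399033) (nat_lit 10) (nat_lit 5) (nat_lit 12) (nat_lit 4) (nat_lit 10) (nat_lit 4) (nat_lit 299) (nat_lit 272) (nat_lit 209)) (XT.lf (nat_lit 0) (nat_lit 150909312949) (nat_lit 76) (nat_lit 112332720614) (nat_lit 76) (nat_lit 35743750253) (nat_lit 9) (nat_lit 4) (nat_lit 10) (nat_lit 5) (nat_lit 10) (nat_lit 4) (nat_lit 300) (nat_lit 272) (nat_lit 208))))) (XT.nd (nat_lit 234) (nat_lit 228) (nat_lit 0) (XT.nd (nat_lit 78) (nat_lit 0) (nat_lit 0) (XT.lf (nat_lit 0) (nat_lit 14025180035) (nat_lit 76) (nat_lit 29539941804) (nat_lit 152) (nat_lit 292868014363)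 (nat_lit 7) (nat_lit 5) (nat_lit 8) (nat_lit 5) (nat_lit 9) (nat_lit 4) (nat_lit 301) (nat_lit 272) (nat_lit 207)) (XT.nd (nat_lit 78) (nat_lit 0) (nat_lit 0) (XT.lf (nat_lit 0) (nat_lit 138713359341) (nat_lit 152) (nat_lit 172429812520) (nat_lit 0) (nat_lit 67795390395) (nat_lit 7) (nat_lit 5) (nat_lit 9) (nat_lit 4) (nat_lit 7) (nat_lit 4) (nat_lit 302) (nat_lit 272) (nat_lit 206)) (XT.lf (nat_lit 0) (nat_lit 248948067392) (nat_lit 152) (nat_lit 777410414) (nat_lit 0) (nat_lit 178029186152) (nat_lit 7) (nat_lit 5) (nat_lit 9) (nat_lit 4) (nat_lit 7) (nat_lit 4) (nat_lit 303) (nat_lit 272) (nat_lit 205)))) (XT.nd (nat_lit 156) (nat_lit 152) (nat_lit 0) (XT.nd (nat_lit 78) (nat_lit 0) (nat_lit 0) (XT.lf (nat_lit 0) (nat_lit 206971663891) (nat_lit 76) (nat_lit 173721585314) (nat_lit 76) (nat_lit 102801910774) (nat_lit 6) (nat_lit 4) (nat_lit 7) (nat_lit 5) (nat_lit 7) (nat_lit 4) (nat_lit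 304) (nat_lit 272) (nat_lit 204)) (XT.lf (nat_lit 0) (nat_lit 445925829949) (nat_lit 76) (nat_lit 86294815139) (nat_lit 76) (nat_lit 15374450774) (nat_lit 6) (nat_lit 4) (nat_lit 7) (nat_lit 5) (nat_lit 7) (nat_lit 4) (nat_lit 305) (nat_lit 272) (nat_lit 203))) (XT.nd (nat_lit 78) (nat_lit 0) (nat_lit 0) (XT.lf (nat_lit 0) (nat_lit 83829390661) (nat_lit 152) (nat_lit 518921125501) (nat_lit 0) (nat_lit 18161831204) (nat_lit 4) (nat_lit 5) (nat_lit 6) (nat_lit 4) (nat_lit 4) (nat_lit 4) (nat_lit 306) (nat_lit 272) (nat_lit 202)) (XT.lf (nat_lit 0) (nat_lit 202451095218) (nat_lit 152) (nat_lit 365525281885) (nat_lit 0) (nat_lit 136783052791) (nat_lit 4) (nat_lit 5) (nat_lit 6) (nat_lit 4) (nat_lit 4) (nat_lit 4) (nat_lit 307) (nat_lit 272) (nat_lit 201))))))))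
noncomputable def xc38 : XT := (XT.nd (nat_lit 38298) (nat_lit 0) (nat_lit 456) (XT.nd (nat_lit 1014) (nat_lit 0) (nat_lit 0) (XT.nd (nat_lit 468) (nat_lit 152) (nat_lit 0) (XT.nd (nat_lit 234) (nat_lit 0) (nat_lit 0) (XT.nd (nat_lit 78) (nat_lit 76) (nat_lit 0) (XT.lf (nat_lit 0) (nat_lit 338864462092) (nat_lit 152) (nat_lit 189123240731) (nat_lit 0) (nat_lit 273195999691) (nat_lit 4) (nat_lit 5) (nat_lit 6) (nat_lit 4) (nat_lit 4) (nat_lit 4) (nat_lit 308) (nat_lit 272) (nat_lit 200)) (XT.nd (nat_lit 78) (nat_lit 0) (nat_lit 0) (XT.lf (nat_lit 0) (nat_lit 14459673684) (nat_lit 76) (nat_lit 481626530278) (nat_lit 76) (nat_lit 415957702683) (nat_lit 3) (nat_lit 4) (nat_lit 4) (nat_lit 5) (nat_lit 4) (nat_lit 4) (nat_lit 309) (nat_lit 272) (nat_lit 199)) (XT.lf (nat_lit 0) (nat_lit 260030223805) (nat_lit 76) (nat_lit 422365837307) (nat_lit 76) (nat_lit 356696692151) (nat_lit 3) (nat_lit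 4) (nat_lit 4) (nat_lit 5) (nat_lit 4) (nat_lit 4) (nat_lit 310) (nat_lit 272) (nat_lit 198)))) (XT.nd (nat_lit 78) (nat_lit 0) (nat_lit 0) (XT.lf (nat_lit 0) (nat_lit 542434156129) (nat_lit 76) (nat_lit 354217140124) (nat_lit 76) (nat_lit 288547718829) (nat_lit 3) (nat_lit 4) (nat_lit 4) (nat_lit 5) (nat_lit 4) (nat_lit 4) (nat_lit 311) (nat_lit 272) (nat_lit 197)) (XT.nd (nat_lit 78) (nat_lit 0) (nat_lit 0) (XT.lf (nat_lit 0) (nat_lit 867196764984) (nat_lit 76) (nat_lit 275847094654) (nat_lit 76) (nat_lit 210177433238) (nat_lit 3) (nat_lit 4) (nat_lit 4) (nat_lit 5) (nat_lit 4) (nat_lit 4) (nat_lit 312) (nat_lit 272) (nat_lit 196)) (XT.lf (nat_lit 0) (nat_lit 1240672101412) (nat_lit 76) (nat_lit 185722373922) (nat_lit 76) (nat_lit 120052503704) (nat_lit 3) (nat_lit 4) (nat_lit 4) (nat_lit 5) (nat_lit 4) (nat_lit 4) (nat_lit 313) (nat_lit 272) (nat_lit 195))))) (XT.nd (nat_lit 234) (nat_lit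 0) (nat_lit 0) (XT.nd (nat_lit 78) (nat_lit 152) (nat_lit 0) (XT.lf (nat_lit 0) (nat_lit 1670167291560) (nat_lit 76) (nat_lit 82079668173) (nat_lit 76) (nat_lit 16409616389) (nat_lit 3) (nat_lit 4) (nat_lit 4) (nat_lit 5) (nat_lit 4) (nat_lit 4) (nat_lit 314) (nat_lit 272) (nat_lit 194)) (XT.nd (nat_lit 78) (nat_lit 0) (nat_lit 0) (XT.lf (nat_lit 0) (nat_lit 102163519521) (nat_lit 152) (nat_lit 1880116553354) (nat_lit 0) (nat_lit 41357769829) (nat_lit 1) (nat_lit 5) (nat_lit 3) (nat_lit 4) (nat_lit 1) (nat_lit 4) (nat_lit 315) (nat_lit 272) (nat_lit 193)) (XT.lf (nat_lit 0) (nat_lit 242790023266) (nat_lit 152) (nat_lit 1891638909335) (nat_lit 0) (nat_lit 181984146453) (nat_lit 1) (nat_lit 5) (nat_lit 3) (nat_lit 4) (nat_lit 1) (nat_lit 4) (nat_lit 316) (nat_lit 272) (nat_lit 192)))) (XT.nd (nat_lit 156) (nat_lit 0) (nat_lit 0) (XT.nd (nat_lit 78) (nat_lit 0) (nat_lit 0) (XT.lf (nat_lit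 0) (nat_lit 404509977203) (nat_lit 152) (nat_lit 1904890675898) (nat_lit 0) (nat_lit 343703989850) (nat_lit 1) (nat_lit 5) (nat_lit 3) (nat_lit 4) (nat_lit 1) (nat_lit 4) (nat_lit 317) (nat_lit 272) (nat_lit 191)) (XT.lf (nat_lit 0) (nat_lit 590487467386) (nat_lit 152) (nat_lit 1920131126737) (nat_lit 0) (nat_lit 529681383913) (nat_lit 1) (nat_lit 5) (nat_lit 3) (nat_lit 4) (nat_lit 1) (nat_lit 4) (nat_lit 318) (nat_lit 272) (nat_lit 190))) (XT.nd (nat_lit 78) (nat_lit 0) (nat_lit 0) (XT.lf (nat_lit 0) (nat_lit 804361183843) (nat_lit 152) (nat_lit 1937658444587) (nat_lit 0) (nat_lit 743555016785) (nat_lit 1) (nat_lit 5) (nat_lit 3) (nat_lit 4) (nat_lit 1) (nat_lit 4) (nat_lit 319) (nat_lit 272) (nat_lit 189)) (XT.lf (nat_lit 0) (nat_lit 1050315612328) (nat_lit 152) (nat_lit 1957815555230) (nat_lit 0) (nat_lit 989509372589) (nat_lit 1) (nat_lit 5) (nat_lit 3) (nat_lit 4) (nat_lit 1) (nat_lit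 4) (nat_lit 320) (nat_lit 272) (nat_lit 188)))))) (XT.nd (nat_lit 546) (nat_lit 0) (nat_lit 0) (XT.nd (nat_lit 234) (nat_lit 0) (nat_lit 0) (XT.nd (nat_lit 78) (nat_lit 0) (nat_lit 0) (XT.lf (nat_lit 0) (nat_lit 1333162904704) (nat_lit 152) (nat_lit 1980996836918) (nat_lit 0) (nat_lit 1272356601764) (nat_lit 1) (nat_lit 5) (nat_lit 3) (nat_lit 4) (nat_lit 1) (nat_lit 4) (nat_lit 321) (nat_lit 272) (nat_lit 187)) (XT.nd (nat_lit 78) (nat_lit 0) (nat_lit 0) (XT.lf (nat_lit 0) (nat_lit 1658437029735) (nat_lit 152) (nat_lit 2007655836468) (nat_lit 0) (nat_lit 1597630671837) (nat_lit 1) (nat_lit 5) (nat_lit 3) (nat_lit 4) (nat_lit 1) (nat_lit 4) (nat_lit 322) (nat_lit 272) (nat_lit 186)) (XT.lf (nat_lit 0) (nat_lit 2032502046389) (nat_lit 152) (nat_lit 2038314143001) (nat_lit 0) (nat_lit 1971695640701) (nat_lit 1) (nat_lit 5) (nat_lit 3) (nat_lit 4) (nat_lit 1) (nat_lit 4) (nat_lit 323) (nat_lit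 272) (nat_lit 185)))) (XT.nd (nat_lit 156) (nat_lit 0) (nat_lit 0) (XT.nd (nat_lit 78) (nat_lit 0) (nat_lit 0) (XT.lf (nat_lit 0) (nat_lit 2462676618035) (nat_lit 152) (nat_lit 2073571592948) (nat_lit 0) (nat_lit 2401870170791) (nat_lit 1) (nat_lit 5) (nat_lit 3) (nat_lit 4) (nat_lit 1) (nat_lit 4) (nat_lit 324) (nat_lit 272) (nat_lit 184)) (XT.lf (nat_lit 0) (nat_lit 2957377203683) (nat_lit 152) (nat_lit 2114118005984) (nat_lit 0) (nat_lit 2896570720304) (nat_lit 1) (nat_lit 5) (nat_lit 3) (nat_lit 4) (nat_lit 1) (nat_lit 4) (nat_lit 325) (nat_lit 272) (nat_lit 183))) (XT.nd (nat_lit 78) (nat_lit 0) (nat_lit 0) (XT.lf (nat_lit 0) (nat_lit 3526282727836) (nat_lit 152) (nat_lit 2160746681492) (nat_lit 0) (nat_lit 3465476213034) (nat_lit 1) (nat_lit 5) (nat_lit 3) (nat_lit 4) (nat_lit 1) (nat_lit 4) (nat_lit 326) (nat_lit 272) (nat_lit 182)) (XT.lf (nat_lit 0) (nat_lit 4180523950748) (nat_lit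 152) (nat_lit 2214369919648) (nat_lit 0) (nat_lit 4119717408623) (nat_lit 1) (nat_lit 5) (nat_lit 3) (nat_lit 4) (nat_lit 1) (nat_lit 4) (nat_lit 327) (nat_lit 272) (nat_lit 181))))) (XT.nd (nat_lit 36426) (nat_lit 0) (nat_lit 4028) (XT.nd (nat_lit 78) (nat_lit 0) (nat_lit 0) (XT.lf (nat_lit 0) (nat_lit 4932901244172) (nat_lit 152) (nat_lit 2276036870761) (nat_lit 0) (nat_lit 4872094678287) (nat_lit 1) (nat_lit 5) (nat_lit 3) (nat_lit 4) (nat_lit 1) (nat_lit 4) (nat_lit 328) (nat_lit 272) (nat_lit 180)) (XT.nd (nat_lit 36270) (nat_lit 0) (nat_lit 4332) (XT.lf (nat_lit 0) (nat_lit 5798135033414) (nat_lit 152) (nat_lit 2346954062136) (nat_lit 0) (nat_lit 5737328446869) (nat_lit 1) (nat_lit 5) (nat_lit 3) (nat_lit 4) (nat_lit 1) (nat_lit 4) (nat_lit 329) (nat_lit 272) (nat_lit 179)) (XT.lf (nat_lit 0) (nat_lit 9748127996) (nat_lit 532) (nat_lit 1406555679) (nat_lit 532) (nat_lit 1406555679)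 (nat_lit 58) (nat_lit 3) (nat_lit 65) (nat_lit 3) (nat_lit 65) (nat_lit 5) (nat_lit 273) (nat_lit 273) (nat_lit 234)))) (XT.nd (nat_lit 156) (nat_lit 304) (nat_lit 0) (XT.nd (nat_lit 78) (nat_lit 0) (nat_lit 76) (XT.lf (nat_lit 76) (nat_lit 20741933621) (nat_lit 0) (nat_lit 889945969) (nat_lit 532) (nat_lit 5320650942) (nat_lit 59) (nat_lit 5) (nat_lit 58) (nat_lit 3) (nat_lit 65) (nat_lit 5) (nat_lit 274) (nat_lit 273) (nat_lit 233)) (XT.lf (nat_lit 76) (nat_lit 19322938567) (nat_lit 0) (nat_lit 5853483911) (nat_lit 532) (nat_lit 3793628189) (nat_lit 60) (nat_lit 5) (nat_lit 59) (nat_lit 5) (nat_lit 66) (nat_lit 5) (nat_lit 275) (nat_lit 273) (nat_lit 232))) (XT.nd (nat_lit 78) (nat_lit 456) (nat_lit 0) (XT.lf (nat_lit 76) (nat_lit 18180134317) (nat_lit 0) (nat_lit 12158079756) (nat_lit 532) (nat_lit 865179892) (nat_lit 61) (nat_lit 5) (nat_lit 60) (nat_lit 5) (nat_lit 67) (nat_lit 5)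 (nat_lit 276) (nat_lit 273) (nat_lit 231)) (XT.lf (nat_lit 0) (nat_lit 3573797683) (nat_lit 532) (nat_lit 16396784768) (nat_lit 76) (nat_lit 13700658131) (nat_lit 54) (nat_lit 5) (nat_lit 61) (nat_lit 5) (nat_lit 55) (nat_lit 5) (nat_lit 277) (nat_lit 273) (nat_lit 230))))))) (XT.nd (nat_lit 1014) (nat_lit 988) (nat_lit 0) (XT.nd (nat_lit 468) (nat_lit 1140) (nat_lit 0) (XT.nd (nat_lit 234) (nat_lit 608) (nat_lit 0) (XT.nd (nat_lit 78) (nat_lit 456) (nat_lit 0) (XT.lf (nat_lit 0) (nat_lit 9909793599) (nat_lit 456) (nat_lit 19710449095) (nat_lit 76) (nat_lit 6784660092) (nat_lit 49) (nat_lit 5) (nat_lit 55) (nat_lit 5) (nat_lit 50) (nat_lit 5) (nat_lit 278) (nat_lit 273) (nat_lit 229)) (XT.nd (nat_lit 78) (nat_lit 228) (nat_lit 0) (XT.lf (nat_lit 0) (nat_lit 16470281556) (nat_lit 228) (nat_lit 2144502853) (nat_lit 304) (nat_lit 20820366943) (nat_lit 46) (nat_lit 5) (nat_lit 49) (nat_lit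 5) (nat_lit 50) (nat_lit 5) (nat_lit 279) (nat_lit 273) (nat_lit 228)) (XT.lf (nat_lit 0) (nat_lit 16478357481) (nat_lit 228) (nat_lit 13823000664) (nat_lit 304) (nat_lit 12484533766) (nat_lit 43) (nat_lit 5) (nat_lit 46) (nat_lit 5) (nat_lit 47) (nat_lit 5) (nat_lit 280) (nat_lit 273) (nat_lit 227)))) (XT.nd (nat_lit 78) (nat_lit 456) (nat_lit 0) (XT.lf (nat_lit 0) (nat_lit 16964202483) (nat_lit 152) (nat_lit 28345033432) (nat_lit 228) (nat_lit 1204560855) (nat_lit 41) (nat_lit 5) (nat_lit 43) (nat_lit 5) (nat_lit 44) (nat_lit 5) (nat_lit 281) (nat_lit 273) (nat_lit 226)) (XT.nd (nat_lit 78) (nat_lit 152) (nat_lit 0) (XT.lf (nat_lit 0) (nat_lit 12879934951) (nat_lit 304) (nat_lit 33007518016) (nat_lit 76) (nat_lit 4754714468) (nat_lit 37) (nat_lit 5) (nat_lit 41) (nat_lit 5) (nat_lit 38) (nat_lit 5) (nat_lit 282) (nat_lit 273) (nat_lit 225)) (XT.lf (nat_lit 0) (nat_lit 18428933778) (nat_lit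 152) (nat_lit 12675520355) (nat_lit 228) (nat_lit 24114955848) (nat_lit 35) (nat_lit 5) (nat_lit 37) (nat_lit 5) (nat_lit 38) (nat_lit 5) (nat_lit 283) (nat_lit 273) (nat_lit 224))))) (XT.nd (nat_lit 234) (nat_lit 608) (nat_lit 0) (XT.nd (nat_lit 78) (nat_lit 380) (nat_lit 0) (XT.lf (nat_lit 0) (nat_lit 19492102148) (nat_lit 152) (nat_lit 34627007785) (nat_lit 228) (nat_lit 6199623634) (nat_lit 33) (nat_lit 5) (nat_lit 35) (nat_lit 5) (nat_lit 36) (nat_lit 5) (nat_lit 284) (nat_lit 273) (nat_lit 223)) (XT.nd (nat_lit 78) (nat_lit 152) (nat_lit 0) (XT.lf (nat_lit 0) (nat_lit 15738050053) (nat_lit 228) (nat_lit 45482601135) (nat_lit 76) (nat_lit 4770159154) (nat_lit 30) (nat_lit 5) (nat_lit 33) (nat_lit 5) (nat_lit 31) (nat_lit 5) (nat_lit 285) (nat_lit 273) (nat_lit 222)) (XT.lf (nat_lit 0) (nat_lit 20969977055) (nat_lit 152) (nat_lit 22311127536) (nat_lit 228) (nat_lit 29005174325) (nat_lit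 28) (nat_lit 5) (nat_lit 30) (nat_lit 5) (nat_lit 31) (nat_lit 5) (nat_lit 286) (nat_lit 273) (nat_lit 221)))) (XT.nd (nat_lit 156) (nat_lit 304) (nat_lit 0) (XT.nd (nat_lit 78) (nat_lit 228) (nat_lit 0) (XT.lf (nat_lit 0) (nat_lit 21195689975) (nat_lit 76) (nat_lit 56158509866) (nat_lit 152) (nat_lit 1979988245) (nat_lit 27) (nat_lit 5) (nat_lit 28) (nat_lit 5) (nat_lit 29) (nat_lit 4) (nat_lit 287) (nat_lit 273) (nat_lit 220)) (XT.lf (nat_lit 0) (nat_lit 20002771181) (nat_lit 152) (nat_lit 10262867969) (nat_lit 228) (nat_lit 56907878603) (nat_lit 24) (nat_lit 5) (nat_lit 26) (nat_lit 5) (nat_lit 27) (nat_lit 5) (nat_lit 288) (nat_lit 273) (nat_lit 219))) (XT.nd (nat_lit 78) (nat_lit 228) (nat_lit 0) (XT.lf (nat_lit 0) (nat_lit 17050558479) (nat_lit 76) (nat_lit 53344888354) (nat_lit 152) (nat_lit 25536024730) (nat_lit 23) (nat_lit 5) (nat_lit 24) (nat_lit 5) (nat_lit 25) (nat_lit 4)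 (nat_lit 289) (nat_lit 273) (nat_lit 218)) (XT.lf (nat_lit 0) (nat_lit 12131825709) (nat_lit 152) (nat_lit 457040384) (nat_lit 228) (nat_lit 93188006757) (nat_lit 20) (nat_lit 5) (nat_lit 22) (nat_lit 5) (nat_lit 23) (nat_lit 5) (nat_lit 290) (nat_lit 273) (nat_lit 217)))))) (XT.nd (nat_lit 546) (nat_lit 456) (nat_lit 0) (XT.nd (nat_lit 234) (nat_lit 304) (nat_lit 0) (XT.nd (nat_lit 78) (nat_lit 152) (nat_lit 0) (XT.lf (nat_lit 0) (nat_lit 2555824703) (nat_lit 76) (nat_lit 56270182422) (nat_lit 152) (nat_lit 57907575987) (nat_lit 19) (nat_lit 5) (nat_lit 20) (nat_lit 5) (nat_lit 21) (nat_lit 4) (nat_lit 291) (nat_lit 273) (nat_lit 216)) (XT.nd (nat_lit 78) (nat_lit 152) (nat_lit 0) (XT.lf (nat_lit 0) (nat_lit 114829830704) (nat_lit 152) (nat_lit 10380701640) (nat_lit 0) (nat_lit 3896781605) (nat_lit 19) (nat_lit 5) (nat_lit 21) (nat_lit 4) (nat_lit 19) (nat_lit 4) (nat_lit 292) (nat_lit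 273) (nat_lit 215)) (XT.lf (nat_lit 0) (nat_lit 38482565364) (nat_lit 152) (nat_lit 30893679410) (nat_lit 76) (nat_lit 73541302961) (nat_lit 17) (nat_lit 5) (nat_lit 19) (nat_lit 5) (nat_lit 18) (nat_lit 4) (nat_lit 293) (nat_lit 273) (nat_lit 214)))) (XT.nd (nat_lit 156) (nat_lit 76) (nat_lit 0) (XT.nd (nat_lit 78) (nat_lit 152) (nat_lit 0) (XT.lf (nat_lit 0) (nat_lit 99192371847) (nat_lit 76) (nat_lit 1833389678) (nat_lit 152) (nat_lit 57526727502) (nat_lit 16) (nat_lit 5) (nat_lit 17) (nat_lit 5) (nat_lit 18) (nat_lit 4) (nat_lit 294) (nat_lit 273) (nat_lit 213)) (XT.lf (nat_lit 0) (nat_lit 1289255517) (nat_lit 152) (nat_lit 100044750055) (nat_lit 76) (nat_lit 74830176464) (nat_lit 14) (nat_lit 5) (nat_lit 16) (nat_lit 5) (nat_lit 15) (nat_lit 4) (nat_lit 295) (nat_lit 273) (nat_lit 212))) (XT.nd (nat_lit 78) (nat_lit 0) (nat_lit 0) (XT.lf (nat_lit 0) (nat_lit 39517950669) (nat_lit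 76) (nat_lit 28870035117) (nat_lit 152) (nat_lit 127680782676) (nat_lit 13) (nat_lit 5) (nat_lit 14) (nat_lit 5) (nat_lit 15) (nat_lit 4) (nat_lit 296) (nat_lit 273) (nat_lit 211)) (XT.lf (nat_lit 0) (nat_lit 149845553151) (nat_lit 152) (nat_lit 14046055672) (nat_lit 0) (nat_lit 54723913081) (nat_lit 13) (nat_lit 5) (nat_lit 15) (nat_lit 4) (nat_lit 13) (nat_lit 4) (nat_lit 297) (nat_lit 273) (nat_lit 210))))) (XT.nd (nat_lit 234) (nat_lit 228) (nat_lit 0) (XT.nd (nat_lit 78) (nat_lit 76) (nat_lit 0) (XT.lf (nat_lit 0) (nat_lit 3714992499) (nat_lit 152) (nat_lit 87396316789) (nat_lit 76) (nat_lit 153060037521) (nat_lit 11) (nat_lit 5) (nat_lit 13) (nat_lit 5) (nat_lit 12) (nat_lit 4) (nat_lit 298) (nat_lit 273) (nat_lit 209)) (XT.nd (nat_lit 78) (nat_lit 0) (nat_lit 0) (XT.lf (nat_lit 0) (nat_lit 82763009055) (nat_lit 76) (nat_lit 2760129697) (nat_lit 152) (nat_lit 187692717708) (nat_lit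 10) (nat_lit 5) (nat_lit 11) (nat_lit 5) (nat_lit 12) (nat_lit 4) (nat_lit 299) (nat_lit 273) (nat_lit 208)) (XT.lf (nat_lit 0) (nat_lit 184587075729) (nat_lit 152) (nat_lit 25124243796) (nat_lit 0) (nat_lit 96506958299) (nat_lit 10) (nat_lit 5) (nat_lit 12) (nat_lit 4) (nat_lit 10) (nat_lit 4) (nat_lit 300) (nat_lit 273) (nat_lit 207)))) (XT.nd (nat_lit 156) (nat_lit 0) (nat_lit 0) (XT.nd (nat_lit 78) (nat_lit 152) (nat_lit 0) (XT.lf (nat_lit 0) (nat_lit 173606450800) (nat_lit 76) (nat_lit 129152978342) (nat_lit 76) (nat_lit 41071727842) (nat_lit 9) (nat_lit 4) (nat_lit 10) (nat_lit 5) (nat_lit 10) (nat_lit 4) (nat_lit 301) (nat_lit 273) (nat_lit 206)) (XT.lf (nat_lit 0) (nat_lit 16186100451) (nat_lit 76) (nat_lit 33942907351) (nat_lit 152) (nat_lit 336766763650) (nat_lit 7) (nat_lit 5) (nat_lit 8) (nat_lit 5) (nat_lit 9) (nat_lit 4) (nat_lit 302) (nat_lit 273) (nat_lit 205))) (XT.nd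 (nat_lit 78) (nat_lit 0) (nat_lit 0) (XT.lf (nat_lit 0) (nat_lit 159546269073) (nat_lit 152) (nat_lit 198243149988) (nat_lit 0) (nat_lit 77987850053) (nat_lit 7) (nat_lit 5) (nat_lit 9) (nat_lit 4) (nat_lit 7) (nat_lit 4) (nat_lit 303) (nat_lit 273) (nat_lit 204)) (XT.lf (nat_lit 0) (nat_lit 286312804311) (nat_lit 152) (nat_lit 849557271) (nat_lit 0) (nat_lit 204753695465) (nat_lit 7) (nat_lit 5) (nat_lit 9) (nat_lit 4) (nat_lit 7) (nat_lit 4) (nat_lit 304) (nat_lit 273) (nat_lit 203))))))))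
noncomputable def xc39 : XT := (XT.nd (nat_lit 38376) (nat_lit 0) (nat_lit 456) (XT.nd (nat_lit 1014) (nat_lit 0) (nat_lit 0) (XT.nd (nat_lit 468) (nat_lit 152) (nat_lit 0) (XT.nd (nat_lit 234) (nat_lit 76) (nat_lit 0) (XT.nd (nat_lit 78) (nat_lit 152) (nat_lit 0) (XT.lf (nat_lit 0) (nat_lit 238058114463) (nat_lit 76) (nat_lit 199759689512) (nat_lit 76) (nat_lit 118199980818) (nat_lit 6) (nat_lit 4) (nat_lit 7) (nat_lit 5) (nat_lit 7) (nat_lit 4) (nat_lit 305) (nat_lit 273) (nat_lit 202)) (XT.nd (nat_lit 78) (nat_lit 152) (nat_lit 0) (XT.lf (nat_lit 0) (nat_lit 512850096606) (nat_lit 76) (nat_lit 99221529933) (nat_lit 76) (nat_lit 17661299632) (nat_lit 6) (nat_lit 4) (nat_lit 7) (nat_lit 5) (nat_lit 7) (nat_lit 4) (nat_lit 306) (nat_lit 273) (nat_lit 201)) (XT.lf (nat_lit 0) (nat_lit 96420955728) (nat_lit 152) (nat_lit 596725064580) (nat_lit 0) (nat_lit 20901803993) (nat_lit 4) (nat_lit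 5) (nat_lit 6) (nat_lit 4) (nat_lit 4) (nat_lit 4) (nat_lit 307) (nat_lit 273) (nat_lit 200)))) (XT.nd (nat_lit 78) (nat_lit 76) (nat_lit 0) (XT.lf (nat_lit 0) (nat_lit 232833678167) (nat_lit 152) (nat_lit 420324309171) (nat_lit 0) (nat_lit 157314161238) (nat_lit 4) (nat_lit 5) (nat_lit 6) (nat_lit 4) (nat_lit 4) (nat_lit 4) (nat_lit 308) (nat_lit 273) (nat_lit 199)) (XT.nd (nat_lit 78) (nat_lit 76) (nat_lit 0) (XT.lf (nat_lit 0) (nat_lit 389707104160) (nat_lit 152) (nat_lit 217465844234) (nat_lit 0) (nat_lit 314187269670) (nat_lit 4) (nat_lit 5) (nat_lit 6) (nat_lit 4) (nat_lit 4) (nat_lit 4) (nat_lit 309) (nat_lit 273) (nat_lit 198)) (XT.lf (nat_lit 0) (nat_lit 16652316509) (nat_lit 76) (nat_lit 553858668491) (nat_lit 76) (nat_lit 478338557862) (nat_lit 3) (nat_lit 4) (nat_lit 4) (nat_lit 5) (nat_lit 4) (nat_lit 4) (nat_lit 310) (nat_lit 273) (nat_lit 197))))) (XT.nd (nat_lit 234) (nat_lit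 152) (nat_lit 0) (XT.nd (nat_lit 78) (nat_lit 0) (nat_lit 0) (XT.lf (nat_lit 0) (nat_lit 299055358918) (nat_lit 76) (nat_lit 485710416095) (nat_lit 76) (nat_lit 410190065344) (nat_lit 3) (nat_lit 4) (nat_lit 4) (nat_lit 5) (nat_lit 4) (nat_lit 4) (nat_lit 311) (nat_lit 273) (nat_lit 196)) (XT.nd (nat_lit 78) (nat_lit 0) (nat_lit 0) (XT.lf (nat_lit 0) (nat_lit 623817193933) (nat_lit 76) (nat_lit 407340757396) (nat_lit 76) (nat_lit 331820197845) (nat_lit 3) (nat_lit 4) (nat_lit 4) (nat_lit 5) (nat_lit 4) (nat_lit 4) (nat_lit 312) (nat_lit 273) (nat_lit 195)) (XT.lf (nat_lit 0) (nat_lit 997291857457) (nat_lit 76) (nat_lit 317216372986) (nat_lit 76) (nat_lit 241695631869) (nat_lit 3) (nat_lit 4) (nat_lit 4) (nat_lit 5) (nat_lit 4) (nat_lit 4) (nat_lit 313) (nat_lit 273) (nat_lit 194)))) (XT.nd (nat_lit 156) (nat_lit 152) (nat_lit 0) (XT.nd (nat_lit 78) (nat_lit 0) (nat_lit 0) (XT.lf (nat_lit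 0) (nat_lit 1426786462471) (nat_lit 76) (nat_lit 213573959692) (nat_lit 76) (nat_lit 138053060691) (nat_lit 3) (nat_lit 4) (nat_lit 4) (nat_lit 5) (nat_lit 4) (nat_lit 4) (nat_lit 314) (nat_lit 273) (nat_lit 193)) (XT.lf (nat_lit 0) (nat_lit 1920704164293) (nat_lit 76) (nat_lit 94385731166) (nat_lit 76) (nat_lit 18864694874) (nat_lit 3) (nat_lit 4) (nat_lit 4) (nat_lit 5) (nat_lit 4) (nat_lit 4) (nat_lit 315) (nat_lit 273) (nat_lit 192))) (XT.nd (nat_lit 78) (nat_lit 0) (nat_lit 0) (XT.lf (nat_lit 0) (nat_lit 117493704339) (nat_lit 152) (nat_lit 2162122653176) (nat_lit 0) (nat_lit 47566708345) (nat_lit 1) (nat_lit 5) (nat_lit 3) (nat_lit 4) (nat_lit 1) (nat_lit 4) (nat_lit 316) (nat_lit 273) (nat_lit 191)) (XT.lf (nat_lit 0) (nat_lit 279213445791) (nat_lit 152) (nat_lit 2175374847317) (nat_lit 0) (nat_lit 209286353674) (nat_lit 1) (nat_lit 5) (nat_lit 3) (nat_lit 4) (nat_lit 1) (nat_lit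 4) (nat_lit 317) (nat_lit 273) (nat_lit 190)))))) (XT.nd (nat_lit 546) (nat_lit 0) (nat_lit 0) (XT.nd (nat_lit 234) (nat_lit 0) (nat_lit 0) (XT.nd (nat_lit 78) (nat_lit 0) (nat_lit 0) (XT.lf (nat_lit 0) (nat_lit 465190751204) (nat_lit 152) (nat_lit 2190615669963) (nat_lit 0) (nat_lit 395263575505) (nat_lit 1) (nat_lit 5) (nat_lit 3) (nat_lit 4) (nat_lit 1) (nat_lit 4) (nat_lit 318) (nat_lit 273) (nat_lit 189)) (XT.nd (nat_lit 78) (nat_lit 0) (nat_lit 0) (XT.lf (nat_lit 0) (nat_lit 679064306991) (nat_lit 152) (nat_lit 2208143311122) (nat_lit 0) (nat_lit 609137058610) (nat_lit 1) (nat_lit 5) (nat_lit 3) (nat_lit 4) (nat_lit 1) (nat_lit 4) (nat_lit 319) (nat_lit 273) (nat_lit 188)) (XT.lf (nat_lit 0) (nat_lit 925018595764) (nat_lit 152) (nat_lit 2228300702904) (nat_lit 0) (nat_lit 855091284181) (nat_lit 1) (nat_lit 5) (nat_lit 3) (nat_lit 4) (nat_lit 1) (nat_lit 4) (nat_lit 320) (nat_lit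 273) (nat_lit 187)))) (XT.nd (nat_lit 156) (nat_lit 0) (nat_lit 0) (XT.nd (nat_lit 78) (nat_lit 0) (nat_lit 0) (XT.lf (nat_lit 0) (nat_lit 1207865766651) (nat_lit 152) (nat_lit 2251482229062) (nat_lit 0) (nat_lit 1137938400111) (nat_lit 1) (nat_lit 5) (nat_lit 3) (nat_lit 4) (nat_lit 1) (nat_lit 4) (nat_lit 321) (nat_lit 273) (nat_lit 186)) (XT.lf (nat_lit 0) (nat_lit 1533139786039) (nat_lit 152) (nat_lit 2278141441193) (nat_lit 0) (nat_lit 1463212371710) (nat_lit 1) (nat_lit 5) (nat_lit 3) (nat_lit 4) (nat_lit 1) (nat_lit 4) (nat_lit 322) (nat_lit 273) (nat_lit 185))) (XT.nd (nat_lit 78) (nat_lit 0) (nat_lit 0) (XT.lf (nat_lit 0) (nat_lit 1907204710830) (nat_lit 152) (nat_lit 2308799932579) (nat_lit 0) (nat_lit 1837277254944) (nat_lit 1) (nat_lit 5) (nat_lit 3) (nat_lit 4) (nat_lit 1) (nat_lit 4) (nat_lit 323) (nat_lit 273) (nat_lit 184)) (XT.lf (nat_lit 0) (nat_lit 2337379202594) (nat_lit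 152) (nat_lit 2344057543269) (nat_lit 0) (nat_lit 2267451710573) (nat_lit 1) (nat_lit 5) (nat_lit 3) (nat_lit 4) (nat_lit 1) (nat_lit 4) (nat_lit 324) (nat_lit 273) (nat_lit 183))))) (XT.nd (nat_lit 234) (nat_lit 0) (nat_lit 0) (XT.nd (nat_lit 78) (nat_lit 0) (nat_lit 0) (XT.lf (nat_lit 0) (nat_lit 2832079718781) (nat_lit 152) (nat_lit 2384604096080) (nat_lit 0) (nat_lit 2762152195337) (nat_lit 1) (nat_lit 5) (nat_lit 3) (nat_lit 4) (nat_lit 1) (nat_lit 4) (nat_lit 325) (nat_lit 273) (nat_lit 182)) (XT.nd (nat_lit 78) (nat_lit 0) (nat_lit 0) (XT.lf (nat_lit 0) (nat_lit 3400985182532) (nat_lit 152) (nat_lit 2431232893133) (nat_lit 0) (nat_lit 3331057631765) (nat_lit 1) (nat_lit 5) (nat_lit 3) (nat_lit 4) (nat_lit 1) (nat_lit 4) (nat_lit 326) (nat_lit 273) (nat_lit 181)) (XT.lf (nat_lit 0) (nat_lit 4055226352921) (nat_lit 152) (nat_lit 2484856236979) (nat_lit 0) (nat_lit 3985298778394) (nat_lit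 1) (nat_lit 5) (nat_lit 3) (nat_lit 4) (nat_lit 1) (nat_lit 4) (nat_lit 327) (nat_lit 273) (nat_lit 180)))) (XT.nd (nat_lit 36426) (nat_lit 0) (nat_lit 4332) (XT.nd (nat_lit 78) (nat_lit 0) (nat_lit 0) (XT.lf (nat_lit 0) (nat_lit 4807603600673) (nat_lit 152) (nat_lit 2546523279997) (nat_lit 0) (nat_lit 4737676005485) (nat_lit 1) (nat_lit 5) (nat_lit 3) (nat_lit 4) (nat_lit 1) (nat_lit 4) (nat_lit 328) (nat_lit 273) (nat_lit 179)) (XT.lf (nat_lit 0) (nat_lit 5672837350201) (nat_lit 152) (nat_lit 2617440551290) (nat_lit 0) (nat_lit 5602909737047) (nat_lit 1) (nat_lit 5) (nat_lit 3) (nat_lit 4) (nat_lit 1) (nat_lit 4) (nat_lit 329) (nat_lit 273) (nat_lit 178))) (XT.nd (nat_lit 78) (nat_lit 0) (nat_lit 0) (XT.lf (nat_lit 0) (nat_lit 11377679417) (nat_lit 532) (nat_lit 1527054185) (nat_lit 532) (nat_lit 1527054185) (nat_lit 58) (nat_lit 3) (nat_lit 65) (nat_lit 3) (nat_lit 65) (nat_lit 5) (nat_lit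 274) (nat_lit 274) (nat_lit 232)) (XT.lf (nat_lit 76) (nat_lit 24018875173) (nat_lit 0) (nat_lit 1152782837) (nat_lit 532) (nat_lit 5799716046) (nat_lit 59) (nat_lit 5) (nat_lit 58) (nat_lit 3) (nat_lit 65) (nat_lit 5) (nat_lit 275) (nat_lit 274) (nat_lit 231))))))) (XT.nd (nat_lit 1092) (nat_lit 1292) (nat_lit 0) (XT.nd (nat_lit 546) (nat_lit 1292) (nat_lit 0) (XT.nd (nat_lit 234) (nat_lit 988) (nat_lit 0) (XT.nd (nat_lit 78) (nat_lit 380) (nat_lit 0) (XT.lf (nat_lit 76) (nat_lit 22397858250) (nat_lit 0) (nat_lit 6813085603) (nat_lit 532) (nat_lit 4083590352) (nat_lit 60) (nat_lit 5) (nat_lit 59) (nat_lit 5) (nat_lit 66) (nat_lit 5) (nat_lit 276) (nat_lit 274) (nat_lit 230)) (XT.nd (nat_lit 78) (nat_lit 456) (nat_lit 0) (XT.lf (nat_lit 76) (nat_lit 21089735691) (nat_lit 0) (nat_lit 14026293770) (nat_lit 532) (nat_lit 749377004) (nat_lit 61) (nat_lit 5) (nat_lit 60) (nat_lit 5) (nat_lit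 67) (nat_lit 5) (nat_lit 277) (nat_lit 274) (nat_lit 229)) (XT.lf (nat_lit 0) (nat_lit 4316343420) (nat_lit 532) (nat_lit 18660126905) (nat_lit 76) (nat_lit 15728672611) (nat_lit 54) (nat_lit 5) (nat_lit 61) (nat_lit 5) (nat_lit 55) (nat_lit 5) (nat_lit 278) (nat_lit 274) (nat_lit 228)))) (XT.nd (nat_lit 156) (nat_lit 380) (nat_lit 0) (XT.nd (nat_lit 78) (nat_lit 228) (nat_lit 0) (XT.lf (nat_lit 0) (nat_lit 11580022488) (nat_lit 456) (nat_lit 22472402881) (nat_lit 76) (nat_lit 7798281050) (nat_lit 49) (nat_lit 5) (nat_lit 55) (nat_lit 5) (nat_lit 50) (nat_lit 5) (nat_lit 279) (nat_lit 274) (nat_lit 227)) (XT.lf (nat_lit 0) (nat_lit 19118964297) (nat_lit 228) (nat_lit 2452113229) (nat_lit 304) (nat_lit 23766019624) (nat_lit 46) (nat_lit 5) (nat_lit 49) (nat_lit 5) (nat_lit 50) (nat_lit 5) (nat_lit 280) (nat_lit 274) (nat_lit 226))) (XT.nd (nat_lit 78) (nat_lit 152) (nat_lit 0) (XT.lf (nat_lit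 0) (nat_lit 19125062119) (nat_lit 228) (nat_lit 15868675776) (nat_lit 304) (nat_lit 14198089053) (nat_lit 43) (nat_lit 5) (nat_lit 46) (nat_lit 5) (nat_lit 47) (nat_lit 5) (nat_lit 281) (nat_lit 274) (nat_lit 225)) (XT.lf (nat_lit 0) (nat_lit 19679301040) (nat_lit 152) (nat_lit 32558980043) (nat_lit 228) (nat_lit 1241820537) (nat_lit 41) (nat_lit 5) (nat_lit 43) (nat_lit 5) (nat_lit 44) (nat_lit 5) (nat_lit 282) (nat_lit 274) (nat_lit 224))))) (XT.nd (nat_lit 234) (nat_lit 684) (nat_lit 0) (XT.nd (nat_lit 78) (nat_lit 304) (nat_lit 0) (XT.lf (nat_lit 0) (nat_lit 14935287294) (nat_lit 304) (nat_lit 37786967333) (nat_lit 76) (nat_lit 5506246666) (nat_lit 37) (nat_lit 5) (nat_lit 41) (nat_lit 5) (nat_lit 38) (nat_lit 5) (nat_lit 283) (nat_lit 274) (nat_lit 223)) (XT.nd (nat_lit 78) (nat_lit 152) (nat_lit 0) (XT.lf (nat_lit 0) (nat_lit 21350420511) (nat_lit 152) (nat_lit 14530752514) (nat_lit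 228) (nat_lit 27612158053) (nat_lit 35) (nat_lit 5) (nat_lit 37) (nat_lit 5) (nat_lit 38) (nat_lit 5) (nat_lit 284) (nat_lit 274) (nat_lit 222)) (XT.lf (nat_lit 0) (nat_lit 22566977092) (nat_lit 152) (nat_lit 39771162214) (nat_lit 228) (nat_lit 7020218796) (nat_lit 33) (nat_lit 5) (nat_lit 35) (nat_lit 5) (nat_lit 36) (nat_lit 5) (nat_lit 285) (nat_lit 274) (nat_lit 221)))) (XT.nd (nat_lit 156) (nat_lit 304) (nat_lit 0) (XT.nd (nat_lit 78) (nat_lit 152) (nat_lit 0) (XT.lf (nat_lit 0) (nat_lit 18193726769) (nat_lit 228) (nat_lit 52155248571) (nat_lit 76) (nat_lit 5532784567) (nat_lit 30) (nat_lit 5) (nat_lit 33) (nat_lit 5) (nat_lit 31) (nat_lit 5) (nat_lit 286) (nat_lit 274) (nat_lit 220)) (XT.lf (nat_lit 0) (nat_lit 24252541371) (nat_lit 152) (nat_lit 25606607310) (nat_lit 228) (nat_lit 33263137059) (nat_lit 28) (nat_lit 5) (nat_lit 30) (nat_lit 5) (nat_lit 31) (nat_lit 5) (nat_lit 287)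 (nat_lit 274) (nat_lit 219))) (XT.nd (nat_lit 78) (nat_lit 228) (nat_lit 0) (XT.lf (nat_lit 0) (nat_lit 24505730226) (nat_lit 76) (nat_lit 64530490008) (nat_lit 152) (nat_lit 2191728536) (nat_lit 27) (nat_lit 5) (nat_lit 28) (nat_lit 5) (nat_lit 29) (nat_lit 4) (nat_lit 288) (nat_lit 274) (nat_lit 218)) (XT.lf (nat_lit 0) (nat_lit 23126763286) (nat_lit 152) (nat_lit 11752122448) (nat_lit 228) (nat_lit 65364742299) (nat_lit 24) (nat_lit 5) (nat_lit 26) (nat_lit 5) (nat_lit 27) (nat_lit 5) (nat_lit 289) (nat_lit 274) (nat_lit 217)))))) (XT.nd (nat_lit 546) (nat_lit 532) (nat_lit 0) (XT.nd (nat_lit 234) (nat_lit 380) (nat_lit 0) (XT.nd (nat_lit 78) (nat_lit 304) (nat_lit 0) (XT.lf (nat_lit 0) (nat_lit 19725570472) (nat_lit 76) (nat_lit 61296893571) (nat_lit 152) (nat_lit 29293272825) (nat_lit 23) (nat_lit 5) (nat_lit 24) (nat_lit 5) (nat_lit 25) (nat_lit 4) (nat_lit 290) (nat_lit 274) (nat_lit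 216)) (XT.nd (nat_lit 78) (nat_lit 76) (nat_lit 0) (XT.lf (nat_lit 0) (nat_lit 14062471256) (nat_lit 152) (nat_lit 477822586) (nat_lit 228) (nat_lit 107098030373) (nat_lit 20) (nat_lit 5) (nat_lit 22) (nat_lit 5) (nat_lit 23) (nat_lit 5) (nat_lit 291) (nat_lit 274) (nat_lit 215)) (XT.lf (nat_lit 0) (nat_lit 3044283257) (nat_lit 76) (nat_lit 64664019011) (nat_lit 152) (nat_lit 66530619190) (nat_lit 19) (nat_lit 5) (nat_lit 20) (nat_lit 5) (nat_lit 21) (nat_lit 4) (nat_lit 292) (nat_lit 274) (nat_lit 214)))) (XT.nd (nat_lit 156) (nat_lit 228) (nat_lit 0) (XT.nd (nat_lit 78) (nat_lit 152) (nat_lit 0) (XT.lf (nat_lit 0) (nat_lit 132106059212) (nat_lit 152) (nat_lit 11843319012) (nat_lit 0) (nat_lit 4519868510) (nat_lit 19) (nat_lit 5) (nat_lit 21) (nat_lit 4) (nat_lit 19) (nat_lit 4) (nat_lit 293) (nat_lit 274) (nat_lit 213)) (XT.lf (nat_lit 0) (nat_lit 44303276418) (nat_lit 152) (nat_lit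 35438677279) (nat_lit 76) (nat_lit 84609340777) (nat_lit 17) (nat_lit 5) (nat_lit 19) (nat_lit 5) (nat_lit 18) (nat_lit 4) (nat_lit 294) (nat_lit 274) (nat_lit 212))) (XT.nd (nat_lit 78) (nat_lit 152) (nat_lit 0) (XT.lf (nat_lit 0) (nat_lit 114152743685) (nat_lit 76) (nat_lit 2070865357) (nat_lit 152) (nat_lit 66108217875) (nat_lit 16) (nat_lit 5) (nat_lit 17) (nat_lit 5) (nat_lit 18) (nat_lit 4) (nat_lit 295) (nat_lit 274) (nat_lit 211)) (XT.lf (nat_lit 0) (nat_lit 1524603380) (nat_lit 152) (nat_lit 114972213444) (nat_lit 76) (nat_lit 86088622228) (nat_lit 14) (nat_lit 5) (nat_lit 16) (nat_lit 5) (nat_lit 15) (nat_lit 4) (nat_lit 296) (nat_lit 274) (nat_lit 210))))) (XT.nd (nat_lit 234) (nat_lit 304) (nat_lit 0) (XT.nd (nat_lit 78) (nat_lit 152) (nat_lit 0) (XT.lf (nat_lit 0) (nat_lit 45518184346) (nat_lit 76) (nat_lit 33166230475) (nat_lit 152) (nat_lit 146791598654) (nat_lit 13) (nat_lit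 5) (nat_lit 14) (nat_lit 5) (nat_lit 15) (nat_lit 4) (nat_lit 297) (nat_lit 274) (nat_lit 209)) (XT.nd (nat_lit 78) (nat_lit 152) (nat_lit 0) (XT.lf (nat_lit 0) (nat_lit 172356348143) (nat_lit 152) (nat_lit 16087932563) (nat_lit 0) (nat_lit 62960842294) (nat_lit 13) (nat_lit 5) (nat_lit 15) (nat_lit 4) (nat_lit 13) (nat_lit 4) (nat_lit 298) (nat_lit 274) (nat_lit 208)) (XT.lf (nat_lit 0) (nat_lit 4304017891) (nat_lit 152) (nat_lit 100444555907) (nat_lit 76) (nat_lit 176045924676) (nat_lit 11) (nat_lit 5) (nat_lit 13) (nat_lit 5) (nat_lit 12) (nat_lit 4) (nat_lit 299) (nat_lit 274) (nat_lit 207)))) (XT.nd (nat_lit 156) (nat_lit 228) (nat_lit 0) (XT.nd (nat_lit 78) (nat_lit 0) (nat_lit 0) (XT.lf (nat_lit 0) (nat_lit 95233487828) (nat_lit 76) (nat_lit 3147100952) (nat_lit 152) (nat_lit 215815320652) (nat_lit 10) (nat_lit 5) (nat_lit 11) (nat_lit 5) (nat_lit 12) (nat_lit 4) (nat_lit 300) (nat_lit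 274) (nat_lit 206)) (XT.lf (nat_lit 0) (nat_lit 212300902066) (nat_lit 152) (nat_lit 28842704363) (nat_lit 0) (nat_lit 111005345643) (nat_lit 10) (nat_lit 5) (nat_lit 12) (nat_lit 4) (nat_lit 10) (nat_lit 4) (nat_lit 301) (nat_lit 274) (nat_lit 205))) (XT.nd (nat_lit 78) (nat_lit 152) (nat_lit 0) (XT.lf (nat_lit 0) (nat_lit 199693347275) (nat_lit 76) (nat_lit 148503505157) (nat_lit 76) (nat_lit 47207091971) (nat_lit 9) (nat_lit 4) (nat_lit 10) (nat_lit 5) (nat_lit 10) (nat_lit 4) (nat_lit 302) (nat_lit 274) (nat_lit 204)) (XT.lf (nat_lit 0) (nat_lit 18657224146) (nat_lit 76) (nat_lit 39013151980) (nat_lit 152) (nat_lit 387257995311) (nat_lit 7) (nat_lit 5) (nat_lit 8) (nat_lit 5) (nat_lit 9) (nat_lit 4) (nat_lit 303) (nat_lit 274) (nat_lit 203))))))))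
noncomputable def xc40 : XT := (XT.nd (nat_lit 38454) (nat_lit 0) (nat_lit 684) (XT.nd (nat_lit 1014) (nat_lit 152) (nat_lit 0) (XT.nd (nat_lit 468) (nat_lit 76) (nat_lit 0) (XT.nd (nat_lit 234) (nat_lit 152) (nat_lit 0) (XT.nd (nat_lit 78) (nat_lit 76) (nat_lit 0) (XT.lf (nat_lit 0) (nat_lit 183497797965) (nat_lit 152) (nat_lit 227940957525) (nat_lit 0) (nat_lit 89703533118) (nat_lit 7) (nat_lit 5) (nat_lit 9) (nat_lit 4) (nat_lit 7) (nat_lit 4) (nat_lit 304) (nat_lit 274) (nat_lit 202)) (XT.nd (nat_lit 78) (nat_lit 76) (nat_lit 0) (XT.lf (nat_lit 0) (nat_lit 329276758463) (nat_lit 152) (nat_lit 943369157) (nat_lit 0) (nat_lit 235481972008) (nat_lit 7) (nat_lit 5) (nat_lit 9) (nat_lit 4) (nat_lit 7) (nat_lit 4) (nat_lit 305) (nat_lit 274) (nat_lit 201)) (XT.lf (nat_lit 0) (nat_lit 273797607428) (nat_lit 76) (nat_lit 229708419046) (nat_lit 76) (nat_lit 135913179020) (nat_lit 6) (nat_lit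 4) (nat_lit 7) (nat_lit 5) (nat_lit 7) (nat_lit 4) (nat_lit 306) (nat_lit 274) (nat_lit 200)))) (XT.nd (nat_lit 78) (nat_lit 152) (nat_lit 0) (XT.lf (nat_lit 0) (nat_lit 589804372657) (nat_lit 76) (nat_lit 114091521255) (nat_lit 76) (nat_lit 20295886819) (nat_lit 6) (nat_lit 4) (nat_lit 7) (nat_lit 5) (nat_lit 7) (nat_lit 4) (nat_lit 307) (nat_lit 274) (nat_lit 199)) (XT.nd (nat_lit 78) (nat_lit 0) (nat_lit 0) (XT.lf (nat_lit 0) (nat_lit 110897071841) (nat_lit 152) (nat_lit 686207941661) (nat_lit 0) (nat_lit 24048944617) (nat_lit 4) (nat_lit 5) (nat_lit 6) (nat_lit 4) (nat_lit 4) (nat_lit 4) (nat_lit 308) (nat_lit 274) (nat_lit 198)) (XT.lf (nat_lit 0) (nat_lit 267770010548) (nat_lit 152) (nat_lit 483350448932) (nat_lit 0) (nat_lit 180921607185) (nat_lit 4) (nat_lit 5) (nat_lit 6) (nat_lit 4) (nat_lit 4) (nat_lit 4) (nat_lit 309) (nat_lit 274) (nat_lit 197))))) (XT.nd (nat_lit 234) (nat_lit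 0) (nat_lit 0) (XT.nd (nat_lit 78) (nat_lit 76) (nat_lit 0) (XT.lf (nat_lit 0) (nat_lit 448172979049) (nat_lit 152) (nat_lit 250066149900) (nat_lit 0) (nat_lit 361324335565) (nat_lit 4) (nat_lit 5) (nat_lit 6) (nat_lit 4) (nat_lit 4) (nat_lit 4) (nat_lit 310) (nat_lit 274) (nat_lit 196)) (XT.nd (nat_lit 78) (nat_lit 0) (nat_lit 0) (XT.lf (nat_lit 0) (nat_lit 19168078369) (nat_lit 76) (nat_lit 636928515018) (nat_lit 76) (nat_lit 550079662733) (nat_lit 3) (nat_lit 4) (nat_lit 4) (nat_lit 5) (nat_lit 4) (nat_lit 4) (nat_lit 311) (nat_lit 274) (nat_lit 195)) (XT.lf (nat_lit 0) (nat_lit 343929240480) (nat_lit 76) (nat_lit 558559192643) (nat_lit 76) (nat_lit 471710158791) (nat_lit 3) (nat_lit 4) (nat_lit 4) (nat_lit 5) (nat_lit 4) (nat_lit 4) (nat_lit 312) (nat_lit 274) (nat_lit 194)))) (XT.nd (nat_lit 156) (nat_lit 0) (nat_lit 0) (XT.nd (nat_lit 78) (nat_lit 0) (nat_lit 0) (XT.lf (nat_lit 0)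 (nat_lit 717403318870) (nat_lit 76) (nat_lit 468435100687) (nat_lit 76) (nat_lit 381585908952) (nat_lit 3) (nat_lit 4) (nat_lit 4) (nat_lit 5) (nat_lit 4) (nat_lit 4) (nat_lit 313) (nat_lit 274) (nat_lit 193)) (XT.lf (nat_lit 0) (nat_lit 1146897415073) (nat_lit 76) (nat_lit 364792941701) (nat_lit 76) (nat_lit 277943612675) (nat_lit 3) (nat_lit 4) (nat_lit 4) (nat_lit 5) (nat_lit 4) (nat_lit 4) (nat_lit 314) (nat_lit 274) (nat_lit 192))) (XT.nd (nat_lit 78) (nat_lit 0) (nat_lit 0) (XT.lf (nat_lit 0) (nat_lit 1640814674449) (nat_lit 76) (nat_lit 245604934312) (nat_lit 76) (nat_lit 158755485904) (nat_lit 3) (nat_lit 4) (nat_lit 4) (nat_lit 5) (nat_lit 4) (nat_lit 4) (nat_lit 315) (nat_lit 274) (nat_lit 191)) (XT.lf (nat_lit 0) (nat_lit 2208818695552) (nat_lit 76) (nat_lit 108539139247) (nat_lit 76) (nat_lit 21689587027) (nat_lit 3) (nat_lit 4) (nat_lit 4) (nat_lit 5) (nat_lit 4) (nat_lit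 4) (nat_lit 316) (nat_lit 274) (nat_lit 190)))))) (XT.nd (nat_lit 546) (nat_lit 0) (nat_lit 0) (XT.nd (nat_lit 234) (nat_lit 0) (nat_lit 0) (XT.nd (nat_lit 78) (nat_lit 0) (nat_lit 0) (XT.lf (nat_lit 0) (nat_lit 135122037411) (nat_lit 152) (nat_lit 2486432443833) (nat_lit 0) (nat_lit 54705701773) (nat_lit 1) (nat_lit 5) (nat_lit 3) (nat_lit 4) (nat_lit 1) (nat_lit 4) (nat_lit 317) (nat_lit 274) (nat_lit 189)) (XT.nd (nat_lit 78) (nat_lit 0) (nat_lit 0) (XT.lf (nat_lit 0) (nat_lit 321099182156) (nat_lit 152) (nat_lit 2501673589789) (nat_lit 0) (nat_lit 240682773836) (nat_lit 1) (nat_lit 5) (nat_lit 3) (nat_lit 4) (nat_lit 1) (nat_lit 4) (nat_lit 318) (nat_lit 274) (nat_lit 188)) (XT.lf (nat_lit 0) (nat_lit 534972598230) (nat_lit 152) (nat_lit 2519201512087) (nat_lit 0) (nat_lit 454556126709) (nat_lit 1) (nat_lit 5) (nat_lit 3) (nat_lit 4) (nat_lit 1) (nat_lit 4) (nat_lit 319) (nat_lit 274)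 (nat_lit 187)))) (XT.nd (nat_lit 156) (nat_lit 0) (nat_lit 0) (XT.nd (nat_lit 78) (nat_lit 0) (nat_lit 0) (XT.lf (nat_lit 0) (nat_lit 780926765514) (nat_lit 152) (nat_lit 2539359148338) (nat_lit 0) (nat_lit 700510239035) (nat_lit 1) (nat_lit 5) (nat_lit 3) (nat_lit 4) (nat_lit 1) (nat_lit 4) (nat_lit 320) (nat_lit 274) (nat_lit 186)) (XT.lf (nat_lit 0) (nat_lit 1063773830758) (nat_lit 152) (nat_lit 2562540887077) (nat_lit 0) (nat_lit 983357256490) (nat_lit 1) (nat_lit 5) (nat_lit 3) (nat_lit 4) (nat_lit 1) (nat_lit 4) (nat_lit 321) (nat_lit 274) (nat_lit 185))) (XT.nd (nat_lit 78) (nat_lit 0) (nat_lit 0) (XT.lf (nat_lit 0) (nat_lit 1389047758283) (nat_lit 152) (nat_lit 2589200284062) (nat_lit 0) (nat_lit 1308631142459) (nat_lit 1) (nat_lit 5) (nat_lit 3) (nat_lit 4) (nat_lit 1) (nat_lit 4) (nat_lit 322) (nat_lit 274) (nat_lit 184)) (XT.lf (nat_lit 0) (nat_lit 1763112603193) (nat_lit 152)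 (nat_lit 2619858936190) (nat_lit 0) (nat_lit 1682695951232) (nat_lit 1) (nat_lit 5) (nat_lit 3) (nat_lit 4) (nat_lit 1) (nat_lit 4) (nat_lit 323) (nat_lit 274) (nat_lit 183))))) (XT.nd (nat_lit 234) (nat_lit 0) (nat_lit 0) (XT.nd (nat_lit 78) (nat_lit 0) (nat_lit 0) (XT.lf (nat_lit 0) (nat_lit 2193287025495) (nat_lit 152) (nat_lit 2655116686656) (nat_lit 0) (nat_lit 2112870342113) (nat_lit 1) (nat_lit 5) (nat_lit 3) (nat_lit 4) (nat_lit 1) (nat_lit 4) (nat_lit 324) (nat_lit 274) (nat_lit 182)) (XT.nd (nat_lit 78) (nat_lit 0) (nat_lit 0) (XT.lf (nat_lit 0) (nat_lit 2687987481280) (nat_lit 152) (nat_lit 2695663361011) (nat_lit 0) (nat_lit 2607570770574) (nat_lit 1) (nat_lit 5) (nat_lit 3) (nat_lit 4) (nat_lit 1) (nat_lit 4) (nat_lit 325) (nat_lit 274) (nat_lit 181)) (XT.lf (nat_lit 0) (nat_lit 3256892892508) (nat_lit 152) (nat_lit 2742292263755) (nat_lit 0) (nat_lit 3176476158043) (nat_lit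 1) (nat_lit 5) (nat_lit 3) (nat_lit 4) (nat_lit 1) (nat_lit 4) (nat_lit 326) (nat_lit 274) (nat_lit 180)))) (XT.nd (nat_lit 156) (nat_lit 0) (nat_lit 0) (XT.nd (nat_lit 78) (nat_lit 0) (nat_lit 0) (XT.lf (nat_lit 0) (nat_lit 3911134017225) (nat_lit 152) (nat_lit 2795915699505) (nat_lit 0) (nat_lit 3830717262099) (nat_lit 1) (nat_lit 5) (nat_lit 3) (nat_lit 4) (nat_lit 1) (nat_lit 4) (nat_lit 327) (nat_lit 274) (nat_lit 179)) (XT.lf (nat_lit 0) (nat_lit 4663511225262) (nat_lit 152) (nat_lit 2857582822441) (nat_lit 0) (nat_lit 4583094452170) (nat_lit 1) (nat_lit 5) (nat_lit 3) (nat_lit 4) (nat_lit 1) (nat_lit 4) (nat_lit 328) (nat_lit 274) (nat_lit 178))) (XT.nd (nat_lit 36426) (nat_lit 0) (nat_lit 4332) (XT.lf (nat_lit 0) (nat_lit 5528744940255) (nat_lit 152) (nat_lit 2928500163227) (nat_lit 0) (nat_lit 5448328151540) (nat_lit 1) (nat_lit 5) (nat_lit 3) (nat_lit 4) (nat_lit 1) (nat_lit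 4) (nat_lit 329) (nat_lit 274) (nat_lit 177)) (XT.lf (nat_lit 0) (nat_lit 13210858530) (nat_lit 532) (nat_lit 1687692769) (nat_lit 532) (nat_lit 1687692769) (nat_lit 58) (nat_lit 3) (nat_lit 65) (nat_lit 3) (nat_lit 65) (nat_lit 5) (nat_lit 275) (nat_lit 275) (nat_lit 230))))))) (XT.nd (nat_lit 1014) (nat_lit 1368) (nat_lit 0) (XT.nd (nat_lit 468) (nat_lit 1368) (nat_lit 0) (XT.nd (nat_lit 234) (nat_lit 912) (nat_lit 0) (XT.nd (nat_lit 78) (nat_lit 0) (nat_lit 76) (XT.lf (nat_lit 76) (nat_lit 27746962790) (nat_lit 0) (nat_lit 1423503645) (nat_lit 532) (nat_lit 6428439020) (nat_lit 59) (nat_lit 5) (nat_lit 58) (nat_lit 3) (nat_lit 65) (nat_lit 5) (nat_lit 276) (nat_lit 275) (nat_lit 229)) (XT.nd (nat_lit 78) (nat_lit 0) (nat_lit 76) (XT.lf (nat_lit 76) (nat_lit 25890980387) (nat_lit 0) (nat_lit 7896733967) (nat_lit 532) (nat_lit 4485102769) (nat_lit 60) (nat_lit 5) (nat_lit 59) (nat_lit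 5) (nat_lit 66) (nat_lit 5) (nat_lit 277) (nat_lit 275) (nat_lit 228)) (XT.lf (nat_lit 76) (nat_lit 24391253682) (nat_lit 0) (nat_lit 16163887779) (nat_lit 532) (nat_lit 676089890) (nat_lit 61) (nat_lit 5) (nat_lit 60) (nat_lit 5) (nat_lit 67) (nat_lit 5) (nat_lit 278) (nat_lit 275) (nat_lit 227)))) (XT.nd (nat_lit 78) (nat_lit 608) (nat_lit 0) (XT.lf (nat_lit 0) (nat_lit 5119920517) (nat_lit 532) (nat_lit 21310809021) (nat_lit 76) (nat_lit 18067493926) (nat_lit 54) (nat_lit 5) (nat_lit 61) (nat_lit 5) (nat_lit 55) (nat_lit 5) (nat_lit 279) (nat_lit 275) (nat_lit 226)) (XT.nd (nat_lit 78) (nat_lit 228) (nat_lit 0) (XT.lf (nat_lit 0) (nat_lit 13455974707) (nat_lit 456) (nat_lit 25696107489) (nat_lit 76) (nat_lit 8964939612) (nat_lit 49) (nat_lit 5) (nat_lit 55) (nat_lit 5) (nat_lit 50) (nat_lit 5) (nat_lit 280) (nat_lit 275) (nat_lit 225)) (XT.lf (nat_lit 0) (nat_lit 22121508759) (nat_lit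 228) (nat_lit 2809295014) (nat_lit 304) (nat_lit 27196780897) (nat_lit 46) (nat_lit 5) (nat_lit 49) (nat_lit 5) (nat_lit 50) (nat_lit 5) (nat_lit 281) (nat_lit 275) (nat_lit 224))))) (XT.nd (nat_lit 234) (nat_lit 684) (nat_lit 0) (XT.nd (nat_lit 78) (nat_lit 456) (nat_lit 0) (XT.lf (nat_lit 0) (nat_lit 22126109540) (nat_lit 228) (nat_lit 18227975263) (nat_lit 304) (nat_lit 16207481217) (nat_lit 43) (nat_lit 5) (nat_lit 46) (nat_lit 5) (nat_lit 47) (nat_lit 5) (nat_lit 282) (nat_lit 275) (nat_lit 223)) (XT.nd (nat_lit 78) (nat_lit 304) (nat_lit 0) (XT.lf (nat_lit 0) (nat_lit 22760094634) (nat_lit 152) (nat_lit 37414238465) (nat_lit 228) (nat_lit 1319644130) (nat_lit 41) (nat_lit 5) (nat_lit 43) (nat_lit 5) (nat_lit 44) (nat_lit 5) (nat_lit 283) (nat_lit 275) (nat_lit 222)) (XT.lf (nat_lit 0) (nat_lit 17268859859) (nat_lit 304) (nat_lit 43325198908) (nat_lit 76) (nat_lit 6361162894) (nat_lit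 37) (nat_lit 5) (nat_lit 41) (nat_lit 5) (nat_lit 38) (nat_lit 5) (nat_lit 284) (nat_lit 275) (nat_lit 221)))) (XT.nd (nat_lit 156) (nat_lit 380) (nat_lit 0) (XT.nd (nat_lit 78) (nat_lit 152) (nat_lit 0) (XT.lf (nat_lit 0) (nat_lit 24671809044) (nat_lit 152) (nat_lit 16675510274) (nat_lit 228) (nat_lit 31663213388) (nat_lit 35) (nat_lit 5) (nat_lit 37) (nat_lit 5) (nat_lit 38) (nat_lit 5) (nat_lit 285) (nat_lit 275) (nat_lit 220)) (XT.lf (nat_lit 0) (nat_lit 26066246433) (nat_lit 152) (nat_lit 45699107442) (nat_lit 228) (nat_lit 7990568529) (nat_lit 33) (nat_lit 5) (nat_lit 35) (nat_lit 5) (nat_lit 36) (nat_lit 5) (nat_lit 286) (nat_lit 275) (nat_lit 219))) (XT.nd (nat_lit 78) (nat_lit 152) (nat_lit 0) (XT.lf (nat_lit 0) (nat_lit 20994596148) (nat_lit 228) (nat_lit 59865308836) (nat_lit 76) (nat_lit 6398317783) (nat_lit 30) (nat_lit 5) (nat_lit 33) (nat_lit 5) (nat_lit 31) (nat_lit 5)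 (nat_lit 287) (nat_lit 275) (nat_lit 218)) (XT.lf (nat_lit 0) (nat_lit 27994065494) (nat_lit 152) (nat_lit 29408891899) (nat_lit 228) (nat_lit 38182427343) (nat_lit 28) (nat_lit 5) (nat_lit 30) (nat_lit 5) (nat_lit 31) (nat_lit 5) (nat_lit 288) (nat_lit 275) (nat_lit 217)))))) (XT.nd (nat_lit 546) (nat_lit 532) (nat_lit 0) (XT.nd (nat_lit 234) (nat_lit 456) (nat_lit 0) (XT.nd (nat_lit 78) (nat_lit 304) (nat_lit 0) (XT.lf (nat_lit 0) (nat_lit 28280407723) (nat_lit 76) (nat_lit 74170898036) (nat_lit 152) (nat_lit 2456020560) (nat_lit 27) (nat_lit 5) (nat_lit 28) (nat_lit 5) (nat_lit 29) (nat_lit 4) (nat_lit 289) (nat_lit 275) (nat_lit 216)) (XT.nd (nat_lit 78) (nat_lit 76) (nat_lit 0) (XT.lf (nat_lit 0) (nat_lit 26689219311) (nat_lit 152) (nat_lit 13477000765) (nat_lit 228) (nat_lit 75109477769) (nat_lit 24) (nat_lit 5) (nat_lit 26) (nat_lit 5) (nat_lit 27) (nat_lit 5) (nat_lit 290) (nat_lit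 275) (nat_lit 215)) (XT.lf (nat_lit 0) (nat_lit 22773198649) (nat_lit 76) (nat_lit 70453826067) (nat_lit 152) (nat_lit 33631947595) (nat_lit 23) (nat_lit 5) (nat_lit 24) (nat_lit 5) (nat_lit 25) (nat_lit 4) (nat_lit 291) (nat_lit 275) (nat_lit 214)))) (XT.nd (nat_lit 156) (nat_lit 152) (nat_lit 0) (XT.nd (nat_lit 78) (nat_lit 76) (nat_lit 0) (XT.lf (nat_lit 0) (nat_lit 16255676872) (nat_lit 152) (nat_lit 513372075) (nat_lit 228) (nat_lit 123111183022) (nat_lit 20) (nat_lit 5) (nat_lit 22) (nat_lit 5) (nat_lit 23) (nat_lit 5) (nat_lit 292) (nat_lit 275) (nat_lit 213)) (XT.lf (nat_lit 0) (nat_lit 3580384988) (nat_lit 76) (nat_lit 74328316929) (nat_lit 152) (nat_lit 76462504548) (nat_lit 19) (nat_lit 5) (nat_lit 20) (nat_lit 5) (nat_lit 21) (nat_lit 4) (nat_lit 293) (nat_lit 275) (nat_lit 212))) (XT.nd (nat_lit 78) (nat_lit 152) (nat_lit 0) (XT.lf (nat_lit 0) (nat_lit 151961101480) (nat_lit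 152) (nat_lit 13548370456) (nat_lit 0) (nat_lit 5227012993) (nat_lit 19) (nat_lit 5) (nat_lit 21) (nat_lit 4) (nat_lit 19) (nat_lit 4) (nat_lit 294) (nat_lit 275) (nat_lit 211)) (XT.lf (nat_lit 0) (nat_lit 50985309468) (nat_lit 152) (nat_lit 40687141222) (nat_lit 76) (nat_lit 97328600021) (nat_lit 17) (nat_lit 5) (nat_lit 19) (nat_lit 5) (nat_lit 18) (nat_lit 4) (nat_lit 295) (nat_lit 275) (nat_lit 210))))) (XT.nd (nat_lit 234) (nat_lit 228) (nat_lit 0) (XT.nd (nat_lit 78) (nat_lit 228) (nat_lit 0) (XT.lf (nat_lit 0) (nat_lit 131337293091) (nat_lit 76) (nat_lit 2353114993) (nat_lit 152) (nat_lit 75988519553) (nat_lit 16) (nat_lit 5) (nat_lit 17) (nat_lit 5) (nat_lit 18) (nat_lit 4) (nat_lit 296) (nat_lit 275) (nat_lit 209)) (XT.nd (nat_lit 78) (nat_lit 76) (nat_lit 0) (XT.lf (nat_lit 0) (nat_lit 1785021324) (nat_lit 152) (nat_lit 132158121740) (nat_lit 76) (nat_lit 99027563422) (nat_lit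 14) (nat_lit 5) (nat_lit 16) (nat_lit 5) (nat_lit 15) (nat_lit 4) (nat_lit 297) (nat_lit 275) (nat_lit 208)) (XT.lf (nat_lit 0) (nat_lit 52400763474) (nat_lit 76) (nat_lit 38115221825) (nat_lit 152) (nat_lit 168779108643) (nat_lit 13) (nat_lit 5) (nat_lit 14) (nat_lit 5) (nat_lit 15) (nat_lit 4) (nat_lit 298) (nat_lit 275) (nat_lit 207)))) (XT.nd (nat_lit 156) (nat_lit 76) (nat_lit 0) (XT.nd (nat_lit 78) (nat_lit 152) (nat_lit 0) (XT.lf (nat_lit 0) (nat_lit 198235480530) (nat_lit 152) (nat_lit 18451949322) (nat_lit 0) (nat_lit 72426399452) (nat_lit 13) (nat_lit 5) (nat_lit 15) (nat_lit 4) (nat_lit 13) (nat_lit 4) (nat_lit 299) (nat_lit 275) (nat_lit 206)) (XT.lf (nat_lit 0) (nat_lit 4973648186) (nat_lit 152) (nat_lit 115464956948) (nat_lit 76) (nat_lit 202473139674) (nat_lit 11) (nat_lit 5) (nat_lit 13) (nat_lit 5) (nat_lit 12) (nat_lit 4) (nat_lit 300) (nat_lit 275) (nat_lit 205))) (XT.nd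 (nat_lit 78) (nat_lit 0) (nat_lit 0) (XT.lf (nat_lit 0) (nat_lit 109560875777) (nat_lit 76) (nat_lit 3598713770) (nat_lit 152) (nat_lit 248163947889) (nat_lit 10) (nat_lit 5) (nat_lit 11) (nat_lit 5) (nat_lit 12) (nat_lit 4) (nat_lit 301) (nat_lit 275) (nat_lit 204)) (XT.lf (nat_lit 0) (nat_lit 244165519401) (nat_lit 152) (nat_lit 33131169750) (nat_lit 0) (nat_lit 127673042461) (nat_lit 10) (nat_lit 5) (nat_lit 12) (nat_lit 4) (nat_lit 10) (nat_lit 4) (nat_lit 302) (nat_lit 275) (nat_lit 203))))))))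
noncomputable def xc41 : XT := (XT.nd (nat_lit 38532) (nat_lit 0) (nat_lit 684) (XT.nd (nat_lit 1014) (nat_lit 152) (nat_lit 0) (XT.nd (nat_lit 468) (nat_lit 228) (nat_lit 0) (XT.nd (nat_lit 234) (nat_lit 76) (nat_lit 0) (XT.nd (nat_lit 78) (nat_lit 152) (nat_lit 0) (XT.lf (nat_lit 0) (nat_lit 229682078178) (nat_lit 76) (nat_lit 170762078239) (nat_lit 76) (nat_lit 54268953463) (nat_lit 9) (nat_lit 4) (nat_lit 10) (nat_lit 5) (nat_lit 10) (nat_lit 4) (nat_lit 303) (nat_lit 275) (nat_lit 202)) (XT.nd (nat_lit 78) (nat_lit 0) (nat_lit 0) (XT.lf (nat_lit 0) (nat_lit 21488479698) (nat_lit 76) (nat_lit 44849100979) (nat_lit 152) (nat_lit 445328711329) (nat_lit 7) (nat_lit 5) (nat_lit 8) (nat_lit 5) (nat_lit 9) (nat_lit 4) (nat_lit 304) (nat_lit 275) (nat_lit 201)) (XT.lf (nat_lit 0) (nat_lit 211037279403) (nat_lit 152) (nat_lit 262102864889) (nat_lit 0) (nat_lit 103172299801) (nat_lit 7) (nat_lit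 5) (nat_lit 9) (nat_lit 4) (nat_lit 7) (nat_lit 4) (nat_lit 305) (nat_lit 275) (nat_lit 200)))) (XT.nd (nat_lit 78) (nat_lit 76) (nat_lit 0) (XT.lf (nat_lit 0) (nat_lit 378681152009) (nat_lit 152) (nat_lit 1059451692) (nat_lit 0) (nat_lit 270815777997) (nat_lit 7) (nat_lit 5) (nat_lit 9) (nat_lit 4) (nat_lit 7) (nat_lit 4) (nat_lit 306) (nat_lit 275) (nat_lit 199)) (XT.nd (nat_lit 78) (nat_lit 0) (nat_lit 0) (XT.lf (nat_lit 0) (nat_lit 314890519465) (nat_lit 76) (nat_lit 264153170452) (nat_lit 76) (nat_lit 156287453476) (nat_lit 6) (nat_lit 4) (nat_lit 7) (nat_lit 5) (nat_lit 7) (nat_lit 4) (nat_lit 307) (nat_lit 275) (nat_lit 198)) (XT.lf (nat_lit 0) (nat_lit 678295264141) (nat_lit 76) (nat_lit 131195239487) (nat_lit 76) (nat_lit 23329224279) (nat_lit 6) (nat_lit 4) (nat_lit 7) (nat_lit 5) (nat_lit 7) (nat_lit 4) (nat_lit 308) (nat_lit 275) (nat_lit 197))))) (XT.nd (nat_lit 234) (nat_lit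 76) (nat_lit 0) (XT.nd (nat_lit 78) (nat_lit 0) (nat_lit 0) (XT.lf (nat_lit 0) (nat_lit 127541441882) (nat_lit 152) (nat_lit 789119561941) (nat_lit 0) (nat_lit 27665261754) (nat_lit 4) (nat_lit 5) (nat_lit 6) (nat_lit 4) (nat_lit 4) (nat_lit 4) (nat_lit 309) (nat_lit 275) (nat_lit 196)) (XT.nd (nat_lit 78) (nat_lit 0) (nat_lit 0) (XT.lf (nat_lit 0) (nat_lit 307944041926) (nat_lit 152) (nat_lit 555835998038) (nat_lit 0) (nat_lit 208067652997) (nat_lit 4) (nat_lit 5) (nat_lit 6) (nat_lit 4) (nat_lit 4) (nat_lit 4) (nat_lit 310) (nat_lit 275) (nat_lit 195)) (XT.lf (nat_lit 0) (nat_lit 515406343121) (nat_lit 152) (nat_lit 287561273921) (nat_lit 0) (nat_lit 415529772626) (nat_lit 4) (nat_lit 5) (nat_lit 6) (nat_lit 4) (nat_lit 4) (nat_lit 4) (nat_lit 311) (nat_lit 275) (nat_lit 194)))) (XT.nd (nat_lit 156) (nat_lit 0) (nat_lit 0) (XT.nd (nat_lit 78) (nat_lit 0) (nat_lit 0) (XT.lf (nat_lit 0)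 (nat_lit 22056835972) (nat_lit 76) (nat_lit 732461021953) (nat_lit 76) (nat_lit 632584293574) (nat_lit 3) (nat_lit 4) (nat_lit 4) (nat_lit 5) (nat_lit 4) (nat_lit 4) (nat_lit 312) (nat_lit 275) (nat_lit 193)) (XT.lf (nat_lit 0) (nat_lit 395530405551) (nat_lit 76) (nat_lit 642337184306) (nat_lit 76) (nat_lit 542460318636) (nat_lit 3) (nat_lit 4) (nat_lit 4) (nat_lit 5) (nat_lit 4) (nat_lit 4) (nat_lit 313) (nat_lit 275) (nat_lit 192))) (XT.nd (nat_lit 78) (nat_lit 0) (nat_lit 0) (XT.lf (nat_lit 0) (nat_lit 825024059308) (nat_lit 76) (nat_lit 538695246457) (nat_lit 76) (nat_lit 438818261405) (nat_lit 3) (nat_lit 4) (nat_lit 4) (nat_lit 5) (nat_lit 4) (nat_lit 4) (nat_lit 314) (nat_lit 275) (nat_lit 191)) (XT.lf (nat_lit 0) (nat_lit 1318940933949) (nat_lit 76) (nat_lit 419507431362) (nat_lit 76) (nat_lit 319630342499) (nat_lit 3) (nat_lit 4) (nat_lit 4) (nat_lit 5) (nat_lit 4) (nat_lit 4)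 (nat_lit 315) (nat_lit 275) (nat_lit 190)))))) (XT.nd (nat_lit 546) (nat_lit 0) (nat_lit 0) (XT.nd (nat_lit 234) (nat_lit 0) (nat_lit 0) (XT.nd (nat_lit 78) (nat_lit 152) (nat_lit 0) (XT.lf (nat_lit 0) (nat_lit 1886944620499) (nat_lit 76) (nat_lit 282441803508) (nat_lit 76) (nat_lit 182564624374) (nat_lit 3) (nat_lit 4) (nat_lit 4) (nat_lit 5) (nat_lit 4) (nat_lit 4) (nat_lit 316) (nat_lit 275) (nat_lit 189)) (XT.nd (nat_lit 78) (nat_lit 152) (nat_lit 0) (XT.lf (nat_lit 0) (nat_lit 2540148234565) (nat_lit 76) (nat_lit 124816644089) (nat_lit 76) (nat_lit 24939386459) (nat_lit 3) (nat_lit 4) (nat_lit 4) (nat_lit 5) (nat_lit 4) (nat_lit 4) (nat_lit 317) (nat_lit 275) (nat_lit 188)) (XT.lf (nat_lit 0) (nat_lit 155393577368) (nat_lit 152) (nat_lit 2859390802038) (nat_lit 0) (nat_lit 62914571917) (nat_lit 1) (nat_lit 5) (nat_lit 3) (nat_lit 4) (nat_lit 1) (nat_lit 4) (nat_lit 318) (nat_lit 275)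 (nat_lit 187)))) (XT.nd (nat_lit 156) (nat_lit 0) (nat_lit 0) (XT.nd (nat_lit 78) (nat_lit 0) (nat_lit 0) (XT.lf (nat_lit 0) (nat_lit 369266871953) (nat_lit 152) (nat_lit 2876918968805) (nat_lit 0) (nat_lit 276787811544) (nat_lit 1) (nat_lit 5) (nat_lit 3) (nat_lit 4) (nat_lit 1) (nat_lit 4) (nat_lit 319) (nat_lit 275) (nat_lit 186)) (XT.lf (nat_lit 0) (nat_lit 615220933594) (nat_lit 152) (nat_lit 2897076817637) (nat_lit 0) (nat_lit 522741825396) (nat_lit 1) (nat_lit 5) (nat_lit 3) (nat_lit 4) (nat_lit 1) (nat_lit 4) (nat_lit 320) (nat_lit 275) (nat_lit 185))) (XT.nd (nat_lit 78) (nat_lit 0) (nat_lit 0) (XT.lf (nat_lit 0) (nat_lit 898067906975) (nat_lit 152) (nat_lit 2920258741230) (nat_lit 0) (nat_lit 805588757221) (nat_lit 1) (nat_lit 5) (nat_lit 3) (nat_lit 4) (nat_lit 1) (nat_lit 4) (nat_lit 321) (nat_lit 275) (nat_lit 184)) (XT.lf (nat_lit 0) (nat_lit 1223341754619) (nat_lit 152)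 (nat_lit 2946918298957) (nat_lit 0) (nat_lit 1130862568730) (nat_lit 1) (nat_lit 5) (nat_lit 3) (nat_lit 4) (nat_lit 1) (nat_lit 4) (nat_lit 322) (nat_lit 275) (nat_lit 183))))) (XT.nd (nat_lit 234) (nat_lit 0) (nat_lit 0) (XT.nd (nat_lit 78) (nat_lit 0) (nat_lit 0) (XT.lf (nat_lit 0) (nat_lit 1597406530067) (nat_lit 152) (nat_lit 2977577090861) (nat_lit 0) (nat_lit 1504927312755) (nat_lit 1) (nat_lit 5) (nat_lit 3) (nat_lit 4) (nat_lit 1) (nat_lit 4) (nat_lit 323) (nat_lit 275) (nat_lit 182)) (XT.nd (nat_lit 78) (nat_lit 0) (nat_lit 0) (XT.lf (nat_lit 0) (nat_lit 2027580891968) (nat_lit 152) (nat_lit 3012834962871) (nat_lit 0) (nat_lit 1935101647332) (nat_lit 1) (nat_lit 5) (nat_lit 3) (nat_lit 4) (nat_lit 1) (nat_lit 4) (nat_lit 324) (nat_lit 275) (nat_lit 181)) (XT.lf (nat_lit 0) (nat_lit 2522281295230) (nat_lit 152) (nat_lit 3053381742917) (nat_lit 0) (nat_lit 2429802026835) (nat_lit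 1) (nat_lit 5) (nat_lit 3) (nat_lit 4) (nat_lit 1) (nat_lit 4) (nat_lit 325) (nat_lit 275) (nat_lit 180)))) (XT.nd (nat_lit 156) (nat_lit 0) (nat_lit 0) (XT.nd (nat_lit 78) (nat_lit 0) (nat_lit 0) (XT.lf (nat_lit 0) (nat_lit 3091186660786) (nat_lit 152) (nat_lit 3100010737565) (nat_lit 0) (nat_lit 2998707371730) (nat_lit 1) (nat_lit 5) (nat_lit 3) (nat_lit 4) (nat_lit 1) (nat_lit 4) (nat_lit 326) (nat_lit 275) (nat_lit 179)) (XT.lf (nat_lit 0) (nat_lit 3745427745787) (nat_lit 152) (nat_lit 3153634253233) (nat_lit 0) (nat_lit 3652948438766) (nat_lit 1) (nat_lit 5) (nat_lit 3) (nat_lit 4) (nat_lit 1) (nat_lit 4) (nat_lit 327) (nat_lit 275) (nat_lit 178))) (XT.nd (nat_lit 78) (nat_lit 0) (nat_lit 0) (XT.lf (nat_lit 0) (nat_lit 4497804919289) (nat_lit 152) (nat_lit 3215301445662) (nat_lit 0) (nat_lit 4405325596645) (nat_lit 1) (nat_lit 5) (nat_lit 3) (nat_lit 4) (nat_lit 1) (nat_lit 4) (nat_lit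 328) (nat_lit 275) (nat_lit 177)) (XT.lf (nat_lit 0) (nat_lit 5363038604252) (nat_lit 152) (nat_lit 3286218846877) (nat_lit 0) (nat_lit 5270559268023) (nat_lit 1) (nat_lit 5) (nat_lit 3) (nat_lit 4) (nat_lit 1) (nat_lit 4) (nat_lit 329) (nat_lit 275) (nat_lit 176))))))) (XT.nd (nat_lit 1092) (nat_lit 1368) (nat_lit 0) (XT.nd (nat_lit 546) (nat_lit 1368) (nat_lit 0) (XT.nd (nat_lit 234) (nat_lit 912) (nat_lit 0) (XT.nd (nat_lit 78) (nat_lit 0) (nat_lit 0) (XT.lf (nat_lit 0) (nat_lit 15288160050) (nat_lit 532) (nat_lit 1889111680) (nat_lit 532) (nat_lit 1889111680) (nat_lit 58) (nat_lit 3) (nat_lit 65) (nat_lit 3) (nat_lit 65) (nat_lit 5) (nat_lit 276) (nat_lit 276) (nat_lit 228)) (XT.nd (nat_lit 78) (nat_lit 0) (nat_lit 76) (XT.lf (nat_lit 76) (nat_lit 32003718996) (nat_lit 0) (nat_lit 1710982600) (nat_lit 532) (nat_lit 7210296985) (nat_lit 59) (nat_lit 5) (nat_lit 58) (nat_lit 3) (nat_lit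 65) (nat_lit 5) (nat_lit 277) (nat_lit 276) (nat_lit 227)) (XT.lf (nat_lit 76) (nat_lit 29875529828) (nat_lit 0) (nat_lit 9127887180) (nat_lit 532) (nat_lit 4998302108) (nat_lit 60) (nat_lit 5) (nat_lit 59) (nat_lit 5) (nat_lit 66) (nat_lit 5) (nat_lit 278) (nat_lit 276) (nat_lit 226)))) (XT.nd (nat_lit 156) (nat_lit 608) (nat_lit 0) (XT.nd (nat_lit 78) (nat_lit 456) (nat_lit 0) (XT.lf (nat_lit 76) (nat_lit 28154333143) (nat_lit 0) (nat_lit 18613915138) (nat_lit 532) (nat_lit 637092285) (nat_lit 61) (nat_lit 5) (nat_lit 60) (nat_lit 5) (nat_lit 67) (nat_lit 5) (nat_lit 279) (nat_lit 276) (nat_lit 225)) (XT.lf (nat_lit 0) (nat_lit 6005961966) (nat_lit 532) (nat_lit 24395266350) (nat_lit 76) (nat_lit 20762132513) (nat_lit 54) (nat_lit 5) (nat_lit 61) (nat_lit 5) (nat_lit 55) (nat_lit 5) (nat_lit 280) (nat_lit 276) (nat_lit 224))) (XT.nd (nat_lit 78) (nat_lit 228) (nat_lit 0) (XT.lf (nat_lit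 0) (nat_lit 15579436204) (nat_lit 456) (nat_lit 29439252667) (nat_lit 76) (nat_lit 10307348912) (nat_lit 49) (nat_lit 5) (nat_lit 55) (nat_lit 5) (nat_lit 50) (nat_lit 5) (nat_lit 281) (nat_lit 276) (nat_lit 223)) (XT.lf (nat_lit 0) (nat_lit 25541587487) (nat_lit 228) (nat_lit 3222647528) (nat_lit 304) (nat_lit 31174867657) (nat_lit 46) (nat_lit 5) (nat_lit 49) (nat_lit 5) (nat_lit 50) (nat_lit 5) (nat_lit 282) (nat_lit 276) (nat_lit 222))))) (XT.nd (nat_lit 234) (nat_lit 684) (nat_lit 0) (XT.nd (nat_lit 78) (nat_lit 456) (nat_lit 0) (XT.lf (nat_lit 0) (nat_lit 25545054783) (nat_lit 228) (nat_lit 20946291113) (nat_lit 304) (nat_lit 18547623291) (nat_lit 43) (nat_lit 5) (nat_lit 46) (nat_lit 5) (nat_lit 47) (nat_lit 5) (nat_lit 283) (nat_lit 276) (nat_lit 221)) (XT.nd (nat_lit 78) (nat_lit 304) (nat_lit 0) (XT.lf (nat_lit 0) (nat_lit 26271574567) (nat_lit 152) (nat_lit 43004757157) (nat_lit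 228) (nat_lit 1435587357) (nat_lit 41) (nat_lit 5) (nat_lit 43) (nat_lit 5) (nat_lit 44) (nat_lit 5) (nat_lit 284) (nat_lit 276) (nat_lit 220)) (XT.lf (nat_lit 0) (nat_lit 19929721519) (nat_lit 304) (nat_lit 49725821070) (nat_lit 76) (nat_lit 7337249787) (nat_lit 37) (nat_lit 5) (nat_lit 41) (nat_lit 5) (nat_lit 38) (nat_lit 5) (nat_lit 285) (nat_lit 276) (nat_lit 219)))) (XT.nd (nat_lit 156) (nat_lit 380) (nat_lit 0) (XT.nd (nat_lit 78) (nat_lit 152) (nat_lit 0) (XT.lf (nat_lit 0) (nat_lit 28462429516) (nat_lit 152) (nat_lit 19150481338) (nat_lit 228) (nat_lit 36344061465) (nat_lit 35) (nat_lit 5) (nat_lit 37) (nat_lit 5) (nat_lit 38) (nat_lit 5) (nat_lit 286) (nat_lit 276) (nat_lit 218)) (XT.lf (nat_lit 0) (nat_lit 30062552228) (nat_lit 152) (nat_lit 52525444936) (nat_lit 228) (nat_lit 9126633516) (nat_lit 33) (nat_lit 5) (nat_lit 35) (nat_lit 5) (nat_lit 36) (nat_lit 5) (nat_lit 287)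 (nat_lit 276) (nat_lit 217))) (XT.nd (nat_lit 78) (nat_lit 152) (nat_lit 0) (XT.lf (nat_lit 0) (nat_lit 24198084523) (nat_lit 228) (nat_lit 68759489266) (nat_lit 76) (nat_lit 7384995909) (nat_lit 30) (nat_lit 5) (nat_lit 33) (nat_lit 5) (nat_lit 31) (nat_lit 5) (nat_lit 288) (nat_lit 276) (nat_lit 216)) (XT.lf (nat_lit 0) (nat_lit 32271544254) (nat_lit 152) (nat_lit 33790958004) (nat_lit 228) (nat_lit 43856725073) (nat_lit 28) (nat_lit 5) (nat_lit 30) (nat_lit 5) (nat_lit 31) (nat_lit 5) (nat_lit 289) (nat_lit 276) (nat_lit 215)))))) (XT.nd (nat_lit 546) (nat_lit 532) (nat_lit 0) (XT.nd (nat_lit 234) (nat_lit 456) (nat_lit 0) (XT.nd (nat_lit 78) (nat_lit 304) (nat_lit 0) (XT.lf (nat_lit 0) (nat_lit 32597189458) (nat_lit 76) (nat_lit 85266918018) (nat_lit 152) (nat_lit 2775677136) (nat_lit 27) (nat_lit 5) (nat_lit 28) (nat_lit 5) (nat_lit 29) (nat_lit 4) (nat_lit 290) (nat_lit 276) (nat_lit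 214)) (XT.nd (nat_lit 78) (nat_lit 76) (nat_lit 0) (XT.lf (nat_lit 0) (nat_lit 30763257432) (nat_lit 152) (nat_lit 15469862751) (nat_lit 228) (nat_lit 86330549056) (nat_lit 24) (nat_lit 5) (nat_lit 26) (nat_lit 5) (nat_lit 27) (nat_lit 5) (nat_lit 291) (nat_lit 276) (nat_lit 213)) (XT.lf (nat_lit 0) (nat_lit 26256318413) (nat_lit 76) (nat_lit 80993467810) (nat_lit 152) (nat_lit 38634912775) (nat_lit 23) (nat_lit 5) (nat_lit 24) (nat_lit 5) (nat_lit 25) (nat_lit 4) (nat_lit 292) (nat_lit 276) (nat_lit 212)))) (XT.nd (nat_lit 156) (nat_lit 152) (nat_lit 0) (XT.nd (nat_lit 78) (nat_lit 76) (nat_lit 0) (XT.lf (nat_lit 0) (nat_lit 18757419652) (nat_lit 152) (nat_lit 563063030) (nat_lit 228) (nat_lit 141538879827) (nat_lit 20) (nat_lit 5) (nat_lit 22) (nat_lit 5) (nat_lit 23) (nat_lit 5) (nat_lit 293) (nat_lit 276) (nat_lit 211)) (XT.lf (nat_lit 0) (nat_lit 4177525340) (nat_lit 76) (nat_lit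 85450868866) (nat_lit 152) (nat_lit 87895806492) (nat_lit 19) (nat_lit 5) (nat_lit 20) (nat_lit 5) (nat_lit 21) (nat_lit 4) (nat_lit 294) (nat_lit 276) (nat_lit 210))) (XT.nd (nat_lit 78) (nat_lit 152) (nat_lit 0) (XT.lf (nat_lit 0) (nat_lit 174784857164) (nat_lit 152) (nat_lit 15526602275) (nat_lit 0) (nat_lit 6033117272) (nat_lit 19) (nat_lit 5) (nat_lit 21) (nat_lit 4) (nat_lit 19) (nat_lit 4) (nat_lit 295) (nat_lit 276) (nat_lit 209)) (XT.lf (nat_lit 0) (nat_lit 58660736578) (nat_lit 152) (nat_lit 46739295467) (nat_lit 76) (nat_lit 111948954770) (nat_lit 17) (nat_lit 5) (nat_lit 19) (nat_lit 5) (nat_lit 18) (nat_lit 4) (nat_lit 296) (nat_lit 276) (nat_lit 208))))) (XT.nd (nat_lit 234) (nat_lit 228) (nat_lit 0) (XT.nd (nat_lit 78) (nat_lit 228) (nat_lit 0) (XT.lf (nat_lit 0) (nat_lit 151084494127) (nat_lit 76) (nat_lit 2684622757) (nat_lit 152) (nat_lit 87359628485) (nat_lit 16) (nat_lit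 5) (nat_lit 17) (nat_lit 5) (nat_lit 18) (nat_lit 4) (nat_lit 297) (nat_lit 276) (nat_lit 207)) (XT.nd (nat_lit 78) (nat_lit 76) (nat_lit 0) (XT.lf (nat_lit 0) (nat_lit 2076765024) (nat_lit 152) (nat_lit 151936529059) (nat_lit 76) (nat_lit 113901091402) (nat_lit 14) (nat_lit 5) (nat_lit 16) (nat_lit 5) (nat_lit 15) (nat_lit 4) (nat_lit 298) (nat_lit 276) (nat_lit 206)) (XT.lf (nat_lit 0) (nat_lit 60302353591) (nat_lit 76) (nat_lit 43812888297) (nat_lit 152) (nat_lit 194072360717) (nat_lit 13) (nat_lit 5) (nat_lit 14) (nat_lit 5) (nat_lit 15) (nat_lit 4) (nat_lit 299) (nat_lit 276) (nat_lit 205)))) (XT.nd (nat_lit 156) (nat_lit 76) (nat_lit 0) (XT.nd (nat_lit 78) (nat_lit 152) (nat_lit 0) (XT.lf (nat_lit 0) (nat_lit 227990220504) (nat_lit 152) (nat_lit 21182559772) (nat_lit 0) (nat_lit 83306564144) (nat_lit 13) (nat_lit 5) (nat_lit 15) (nat_lit 4) (nat_lit 13) (nat_lit 4) (nat_lit 300)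 (nat_lit 276) (nat_lit 204)) (XT.lf (nat_lit 0) (nat_lit 5737863741) (nat_lit 152) (nat_lit 132749704389) (nat_lit 76) (nat_lit 232859480225) (nat_lit 11) (nat_lit 5) (nat_lit 13) (nat_lit 5) (nat_lit 12) (nat_lit 4) (nat_lit 301) (nat_lit 276) (nat_lit 203))) (XT.nd (nat_lit 78) (nat_lit 0) (nat_lit 0) (XT.lf (nat_lit 0) (nat_lit 126027041000) (nat_lit 76) (nat_lit 4123055939) (nat_lit 152) (nat_lit 285370641501) (nat_lit 10) (nat_lit 5) (nat_lit 11) (nat_lit 5) (nat_lit 12) (nat_lit 4) (nat_lit 302) (nat_lit 276) (nat_lit 202)) (XT.lf (nat_lit 0) (nat_lit 280805078521) (nat_lit 152) (nat_lit 38072156921) (nat_lit 0) (nat_lit 146836773856) (nat_lit 10) (nat_lit 5) (nat_lit 12) (nat_lit 4) (nat_lit 10) (nat_lit 4) (nat_lit 303) (nat_lit 276) (nat_lit 201))))))))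
noncomputable def xc42 : XT := (XT.nd (nat_lit 38688) (nat_lit 0) (nat_lit 608) (XT.nd (nat_lit 1014) (nat_lit 152) (nat_lit 0) (XT.nd (nat_lit 468) (nat_lit 228) (nat_lit 0) (XT.nd (nat_lit 234) (nat_lit 76) (nat_lit 0) (XT.nd (nat_lit 78) (nat_lit 152) (nat_lit 0) (XT.lf (nat_lit 0) (nat_lit 264160649876) (nat_lit 76) (nat_lit 196363571304) (nat_lit 76) (nat_lit 62394776782) (nat_lit 9) (nat_lit 4) (nat_lit 10) (nat_lit 5) (nat_lit 10) (nat_lit 4) (nat_lit 304) (nat_lit 276) (nat_lit 200)) (XT.nd (nat_lit 78) (nat_lit 0) (nat_lit 0) (XT.lf (nat_lit 0) (nat_lit 24736456326) (nat_lit 76) (nat_lit 51564349832) (nat_lit 152) (nat_lit 512114420086) (nat_lit 7) (nat_lit 5) (nat_lit 8) (nat_lit 5) (nat_lit 9) (nat_lit 4) (nat_lit 305) (nat_lit 276) (nat_lit 199)) (XT.lf (nat_lit 0) (nat_lit 242704071119) (nat_lit 152) (nat_lit 301396187806) (nat_lit 0) (nat_lit 118658153630) (nat_lit 7) (nat_lit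 5) (nat_lit 9) (nat_lit 4) (nat_lit 7) (nat_lit 4) (nat_lit 306) (nat_lit 276) (nat_lit 198)))) (XT.nd (nat_lit 78) (nat_lit 76) (nat_lit 0) (XT.lf (nat_lit 0) (nat_lit 435493063772) (nat_lit 152) (nat_lit 1199146127) (nat_lit 0) (nat_lit 311446848053) (nat_lit 7) (nat_lit 5) (nat_lit 9) (nat_lit 4) (nat_lit 7) (nat_lit 4) (nat_lit 307) (nat_lit 276) (nat_lit 197)) (XT.nd (nat_lit 78) (nat_lit 0) (nat_lit 0) (XT.lf (nat_lit 0) (nat_lit 362141693545) (nat_lit 76) (nat_lit 303767441710) (nat_lit 76) (nat_lit 179720966660) (nat_lit 6) (nat_lit 4) (nat_lit 7) (nat_lit 5) (nat_lit 7) (nat_lit 4) (nat_lit 308) (nat_lit 276) (nat_lit 196)) (XT.lf (nat_lit 0) (nat_lit 780054854771) (nat_lit 76) (nat_lit 150866956444) (nat_lit 76) (nat_lit 26820255889) (nat_lit 6) (nat_lit 4) (nat_lit 7) (nat_lit 5) (nat_lit 7) (nat_lit 4) (nat_lit 309) (nat_lit 276) (nat_lit 195))))) (XT.nd (nat_lit 234) (nat_lit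 76) (nat_lit 0) (XT.nd (nat_lit 78) (nat_lit 0) (nat_lit 0) (XT.lf (nat_lit 0) (nat_lit 146680075379) (nat_lit 152) (nat_lit 907472697768) (nat_lit 0) (nat_lit 31821837743) (nat_lit 4) (nat_lit 5) (nat_lit 6) (nat_lit 4) (nat_lit 4) (nat_lit 4) (nat_lit 310) (nat_lit 276) (nat_lit 194)) (XT.nd (nat_lit 78) (nat_lit 0) (nat_lit 0) (XT.lf (nat_lit 0) (nat_lit 354142097967) (nat_lit 152) (nat_lit 639198529514) (nat_lit 0) (nat_lit 239283702447) (nat_lit 4) (nat_lit 5) (nat_lit 6) (nat_lit 4) (nat_lit 4) (nat_lit 4) (nat_lit 311) (nat_lit 276) (nat_lit 193)) (XT.lf (nat_lit 0) (nat_lit 592722903069) (nat_lit 152) (nat_lit 330684275245) (nat_lit 0) (nat_lit 477864370259) (nat_lit 4) (nat_lit 5) (nat_lit 6) (nat_lit 4) (nat_lit 4) (nat_lit 4) (nat_lit 312) (nat_lit 276) (nat_lit 192)))) (XT.nd (nat_lit 156) (nat_lit 0) (nat_lit 0) (XT.nd (nat_lit 78) (nat_lit 0) (nat_lit 0) (XT.lf (nat_lit 0)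 (nat_lit 25375603975) (nat_lit 76) (nat_lit 842325055912) (nat_lit 76) (nat_lit 727466403720) (nat_lit 3) (nat_lit 4) (nat_lit 4) (nat_lit 5) (nat_lit 4) (nat_lit 4) (nat_lit 313) (nat_lit 276) (nat_lit 191)) (XT.lf (nat_lit 0) (nat_lit 454868872998) (nat_lit 76) (nat_lit 738683310357) (nat_lit 76) (nat_lit 623824554353) (nat_lit 3) (nat_lit 4) (nat_lit 4) (nat_lit 5) (nat_lit 4) (nat_lit 4) (nat_lit 314) (nat_lit 276) (nat_lit 190))) (XT.nd (nat_lit 78) (nat_lit 0) (nat_lit 0) (XT.lf (nat_lit 0) (nat_lit 948785413087) (nat_lit 76) (nat_lit 619495662474) (nat_lit 76) (nat_lit 504636816200) (nat_lit 3) (nat_lit 4) (nat_lit 4) (nat_lit 5) (nat_lit 4) (nat_lit 4) (nat_lit 315) (nat_lit 276) (nat_lit 189)) (XT.lf (nat_lit 0) (nat_lit 1516788808722) (nat_lit 76) (nat_lit 482430180021) (nat_lit 76) (nat_lit 367571255251) (nat_lit 3) (nat_lit 4) (nat_lit 4) (nat_lit 5) (nat_lit 4) (nat_lit 4)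 (nat_lit 316) (nat_lit 276) (nat_lit 188)))))) (XT.nd (nat_lit 546) (nat_lit 0) (nat_lit 0) (XT.nd (nat_lit 234) (nat_lit 0) (nat_lit 0) (XT.nd (nat_lit 78) (nat_lit 152) (nat_lit 0) (XT.lf (nat_lit 0) (nat_lit 2169992169818) (nat_lit 76) (nat_lit 324805147038) (nat_lit 76) (nat_lit 209946154011) (nat_lit 3) (nat_lit 4) (nat_lit 4) (nat_lit 5) (nat_lit 4) (nat_lit 4) (nat_lit 317) (nat_lit 276) (nat_lit 187)) (XT.nd (nat_lit 78) (nat_lit 152) (nat_lit 0) (XT.lf (nat_lit 0) (nat_lit 2921175562136) (nat_lit 76) (nat_lit 143536595489) (nat_lit 76) (nat_lit 28677543107) (nat_lit 3) (nat_lit 4) (nat_lit 4) (nat_lit 5) (nat_lit 4) (nat_lit 4) (nat_lit 318) (nat_lit 276) (nat_lit 186)) (XT.lf (nat_lit 0) (nat_lit 178705059603) (nat_lit 152) (nat_lit 3288294501081) (nat_lit 0) (nat_lit 72354037386) (nat_lit 1) (nat_lit 5) (nat_lit 3) (nat_lit 4) (nat_lit 1) (nat_lit 4) (nat_lit 319) (nat_lit 276)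 (nat_lit 185)))) (XT.nd (nat_lit 156) (nat_lit 0) (nat_lit 0) (XT.nd (nat_lit 78) (nat_lit 0) (nat_lit 0) (XT.lf (nat_lit 0) (nat_lit 424659029381) (nat_lit 152) (nat_lit 3308452534767) (nat_lit 0) (nat_lit 318307965608) (nat_lit 1) (nat_lit 5) (nat_lit 3) (nat_lit 4) (nat_lit 1) (nat_lit 4) (nat_lit 320) (nat_lit 276) (nat_lit 184)) (XT.lf (nat_lit 0) (nat_lit 707505922881) (nat_lit 152) (nat_lit 3331634619101) (nat_lit 0) (nat_lit 601154822972) (nat_lit 1) (nat_lit 5) (nat_lit 3) (nat_lit 4) (nat_lit 1) (nat_lit 4) (nat_lit 321) (nat_lit 276) (nat_lit 183))) (XT.nd (nat_lit 78) (nat_lit 0) (nat_lit 0) (XT.lf (nat_lit 0) (nat_lit 1032779701063) (nat_lit 152) (nat_lit 3358294316604) (nat_lit 0) (nat_lit 926428569732) (nat_lit 1) (nat_lit 5) (nat_lit 3) (nat_lit 4) (nat_lit 1) (nat_lit 4) (nat_lit 322) (nat_lit 276) (nat_lit 182)) (XT.lf (nat_lit 0) (nat_lit 1406844416109) (nat_lit 152)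 (nat_lit 3388953230053) (nat_lit 0) (nat_lit 1300493257454) (nat_lit 1) (nat_lit 5) (nat_lit 3) (nat_lit 4) (nat_lit 1) (nat_lit 4) (nat_lit 323) (nat_lit 276) (nat_lit 181))))) (XT.nd (nat_lit 234) (nat_lit 0) (nat_lit 0) (XT.nd (nat_lit 78) (nat_lit 0) (nat_lit 0) (XT.lf (nat_lit 0) (nat_lit 1837018725487) (nat_lit 152) (nat_lit 3424211207753) (nat_lit 0) (nat_lit 1730667543073) (nat_lit 1) (nat_lit 5) (nat_lit 3) (nat_lit 4) (nat_lit 1) (nat_lit 4) (nat_lit 324) (nat_lit 276) (nat_lit 180)) (XT.nd (nat_lit 78) (nat_lit 0) (nat_lit 0) (XT.lf (nat_lit 0) (nat_lit 2331719083077) (nat_lit 152) (nat_lit 3464758079704) (nat_lit 0) (nat_lit 2225367880001) (nat_lit 1) (nat_lit 5) (nat_lit 3) (nat_lit 4) (nat_lit 1) (nat_lit 4) (nat_lit 325) (nat_lit 276) (nat_lit 179)) (XT.lf (nat_lit 0) (nat_lit 2900624408917) (nat_lit 152) (nat_lit 3511387154269) (nat_lit 0) (nat_lit 2794273187876) (nat_lit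 1) (nat_lit 5) (nat_lit 3) (nat_lit 4) (nat_lit 1) (nat_lit 4) (nat_lit 326) (nat_lit 276) (nat_lit 178)))) (XT.nd (nat_lit 36738) (nat_lit 0) (nat_lit 4332) (XT.nd (nat_lit 78) (nat_lit 0) (nat_lit 0) (XT.lf (nat_lit 0) (nat_lit 3554865459384) (nat_lit 152) (nat_lit 3565010739431) (nat_lit 0) (nat_lit 3448514222721) (nat_lit 1) (nat_lit 5) (nat_lit 3) (nat_lit 4) (nat_lit 1) (nat_lit 4) (nat_lit 327) (nat_lit 276) (nat_lit 177)) (XT.lf (nat_lit 0) (nat_lit 4307242602856) (nat_lit 152) (nat_lit 3626677992288) (nat_lit 0) (nat_lit 4200891352608) (nat_lit 1) (nat_lit 5) (nat_lit 3) (nat_lit 4) (nat_lit 1) (nat_lit 4) (nat_lit 328) (nat_lit 276) (nat_lit 176))) (XT.nd (nat_lit 78) (nat_lit 0) (nat_lit 0) (XT.lf (nat_lit 0) (nat_lit 17653726395) (nat_lit 532) (nat_lit 2133359336) (nat_lit 532) (nat_lit 2133359336) (nat_lit 58) (nat_lit 3) (nat_lit 65) (nat_lit 3) (nat_lit 65) (nat_lit 5) (nat_lit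 277) (nat_lit 277) (nat_lit 226)) (XT.lf (nat_lit 76) (nat_lit 36875892565) (nat_lit 0) (nat_lit 2023549391) (nat_lit 532) (nat_lit 8153914963) (nat_lit 59) (nat_lit 5) (nat_lit 58) (nat_lit 3) (nat_lit 65) (nat_lit 5) (nat_lit 278) (nat_lit 277) (nat_lit 225))))))) (XT.nd (nat_lit 1014) (nat_lit 1368) (nat_lit 0) (XT.nd (nat_lit 468) (nat_lit 1216) (nat_lit 0) (XT.nd (nat_lit 234) (nat_lit 836) (nat_lit 0) (XT.nd (nat_lit 78) (nat_lit 380) (nat_lit 0) (XT.lf (nat_lit 76) (nat_lit 34433155999) (nat_lit 0) (nat_lit 10532339156) (nat_lit 532) (nat_lit 5627392546) (nat_lit 60) (nat_lit 5) (nat_lit 59) (nat_lit 5) (nat_lit 66) (nat_lit 5) (nat_lit 279) (nat_lit 277) (nat_lit 224)) (XT.nd (nat_lit 78) (nat_lit 456) (nat_lit 0) (XT.lf (nat_lit 76) (nat_lit 32456418017) (nat_lit 0) (nat_lit 21425241874) (nat_lit 532) (nat_lit 626485173) (nat_lit 61) (nat_lit 5) (nat_lit 60) (nat_lit 5) (nat_lit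 67) (nat_lit 5) (nat_lit 280) (nat_lit 277) (nat_lit 223)) (XT.lf (nat_lit 0) (nat_lit 6996121570) (nat_lit 532) (nat_lit 27969744187) (nat_lit 76) (nat_lit 23864743125) (nat_lit 54) (nat_lit 5) (nat_lit 61) (nat_lit 5) (nat_lit 55) (nat_lit 5) (nat_lit 281) (nat_lit 277) (nat_lit 222)))) (XT.nd (nat_lit 78) (nat_lit 456) (nat_lit 0) (XT.lf (nat_lit 0) (nat_lit 17995796088) (nat_lit 456) (nat_lit 33771003747) (nat_lit 76) (nat_lit 11851688193) (nat_lit 49) (nat_lit 5) (nat_lit 55) (nat_lit 5) (nat_lit 50) (nat_lit 5) (nat_lit 282) (nat_lit 277) (nat_lit 221)) (XT.nd (nat_lit 78) (nat_lit 228) (nat_lit 0) (XT.lf (nat_lit 0) (nat_lit 29449840667) (nat_lit 228) (nat_lit 3699963947) (nat_lit 304) (nat_lit 35774401869) (nat_lit 46) (nat_lit 5) (nat_lit 49) (nat_lit 5) (nat_lit 50) (nat_lit 5) (nat_lit 283) (nat_lit 277) (nat_lit 220)) (XT.lf (nat_lit 0) (nat_lit 29452449153) (nat_lit 228) (nat_lit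 24076226887) (nat_lit 304) (nat_lit 21260972751) (nat_lit 43) (nat_lit 5) (nat_lit 46) (nat_lit 5) (nat_lit 47) (nat_lit 5) (nat_lit 284) (nat_lit 277) (nat_lit 219))))) (XT.nd (nat_lit 234) (nat_lit 608) (nat_lit 0) (XT.nd (nat_lit 78) (nat_lit 456) (nat_lit 0) (XT.lf (nat_lit 0) (nat_lit 30286008852) (nat_lit 152) (nat_lit 49439125114) (nat_lit 228) (nat_lit 1588919114) (nat_lit 41) (nat_lit 5) (nat_lit 43) (nat_lit 5) (nat_lit 44) (nat_lit 5) (nat_lit 285) (nat_lit 277) (nat_lit 218)) (XT.nd (nat_lit 78) (nat_lit 152) (nat_lit 0) (XT.lf (nat_lit 0) (nat_lit 22972512587) (nat_lit 304) (nat_lit 57110472927) (nat_lit 76) (nat_lit 8454406223) (nat_lit 37) (nat_lit 5) (nat_lit 41) (nat_lit 5) (nat_lit 38) (nat_lit 5) (nat_lit 286) (nat_lit 277) (nat_lit 217)) (XT.lf (nat_lit 0) (nat_lit 32799732784) (nat_lit 152) (nat_lit 22003125012) (nat_lit 228) (nat_lit 41743773573) (nat_lit 35) (nat_lit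 5) (nat_lit 37) (nat_lit 5) (nat_lit 38) (nat_lit 5) (nat_lit 287) (nat_lit 277) (nat_lit 216)))) (XT.nd (nat_lit 156) (nat_lit 228) (nat_lit 0) (XT.nd (nat_lit 78) (nat_lit 228) (nat_lit 0) (XT.lf (nat_lit 0) (nat_lit 34637242305) (nat_lit 152) (nat_lit 60382689939) (nat_lit 228) (nat_lit 10448354220) (nat_lit 33) (nat_lit 5) (nat_lit 35) (nat_lit 5) (nat_lit 36) (nat_lit 5) (nat_lit 288) (nat_lit 277) (nat_lit 215)) (XT.lf (nat_lit 0) (nat_lit 27868855011) (nat_lit 228) (nat_lit 79008674740) (nat_lit 76) (nat_lit 8513108590) (nat_lit 30) (nat_lit 5) (nat_lit 33) (nat_lit 5) (nat_lit 31) (nat_lit 5) (nat_lit 289) (nat_lit 277) (nat_lit 214))) (XT.nd (nat_lit 78) (nat_lit 76) (nat_lit 0) (XT.lf (nat_lit 0) (nat_lit 37171534066) (nat_lit 152) (nat_lit 38837471133) (nat_lit 228) (nat_lit 50395108034) (nat_lit 28) (nat_lit 5) (nat_lit 30) (nat_lit 5) (nat_lit 31) (nat_lit 5) (nat_lit 290)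 (nat_lit 277) (nat_lit 213)) (XT.lf (nat_lit 0) (nat_lit 37543267367) (nat_lit 76) (nat_lit 98034562734) (nat_lit 152) (nat_lit 3155169343) (nat_lit 27) (nat_lit 5) (nat_lit 28) (nat_lit 5) (nat_lit 29) (nat_lit 4) (nat_lit 291) (nat_lit 277) (nat_lit 212)))))) (XT.nd (nat_lit 546) (nat_lit 532) (nat_lit 0) (XT.nd (nat_lit 234) (nat_lit 304) (nat_lit 0) (XT.nd (nat_lit 78) (nat_lit 304) (nat_lit 0) (XT.lf (nat_lit 0) (nat_lit 35431171546) (nat_lit 152) (nat_lit 17768649817) (nat_lit 228) (nat_lit 99245840013) (nat_lit 24) (nat_lit 5) (nat_lit 26) (nat_lit 5) (nat_lit 27) (nat_lit 5) (nat_lit 292) (nat_lit 277) (nat_lit 211)) (XT.nd (nat_lit 78) (nat_lit 228) (nat_lit 0) (XT.lf (nat_lit 0) (nat_lit 30245533635) (nat_lit 76) (nat_lit 93120989179) (nat_lit 152) (nat_lit 44398522500) (nat_lit 23) (nat_lit 5) (nat_lit 24) (nat_lit 5) (nat_lit 25) (nat_lit 4) (nat_lit 293) (nat_lit 277) (nat_lit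 210)) (XT.lf (nat_lit 0) (nat_lit 21618965492) (nat_lit 152) (nat_lit 626868528) (nat_lit 228) (nat_lit 162740236831) (nat_lit 20) (nat_lit 5) (nat_lit 22) (nat_lit 5) (nat_lit 23) (nat_lit 5) (nat_lit 294) (nat_lit 277) (nat_lit 209)))) (XT.nd (nat_lit 156) (nat_lit 228) (nat_lit 0) (XT.nd (nat_lit 78) (nat_lit 0) (nat_lit 0) (XT.lf (nat_lit 0) (nat_lit 4849585221) (nat_lit 76) (nat_lit 98248313486) (nat_lit 152) (nat_lit 101052900536) (nat_lit 19) (nat_lit 5) (nat_lit 20) (nat_lit 5) (nat_lit 21) (nat_lit 4) (nat_lit 295) (nat_lit 277) (nat_lit 208)) (XT.lf (nat_lit 0) (nat_lit 201024960379) (nat_lit 152) (nat_lit 17814742901) (nat_lit 0) (nat_lit 6954759593) (nat_lit 19) (nat_lit 5) (nat_lit 21) (nat_lit 4) (nat_lit 19) (nat_lit 4) (nat_lit 296) (nat_lit 277) (nat_lit 207))) (XT.nd (nat_lit 78) (nat_lit 76) (nat_lit 0) (XT.lf (nat_lit 0) (nat_lit 67480739836) (nat_lit 152) (nat_lit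 53711689268) (nat_lit 76) (nat_lit 128757225960) (nat_lit 17) (nat_lit 5) (nat_lit 19) (nat_lit 5) (nat_lit 18) (nat_lit 4) (nat_lit 297) (nat_lit 277) (nat_lit 206)) (XT.lf (nat_lit 0) (nat_lit 173782409889) (nat_lit 76) (nat_lit 3071089717) (nat_lit 152) (nat_lit 100443029091) (nat_lit 16) (nat_lit 5) (nat_lit 17) (nat_lit 5) (nat_lit 18) (nat_lit 4) (nat_lit 298) (nat_lit 277) (nat_lit 205))))) (XT.nd (nat_lit 234) (nat_lit 304) (nat_lit 0) (XT.nd (nat_lit 78) (nat_lit 76) (nat_lit 0) (XT.lf (nat_lit 0) (nat_lit 2406420043) (nat_lit 152) (nat_lit 174692746837) (nat_lit 76) (nat_lit 131000919359) (nat_lit 14) (nat_lit 5) (nat_lit 16) (nat_lit 5) (nat_lit 15) (nat_lit 4) (nat_lit 299) (nat_lit 277) (nat_lit 204)) (XT.nd (nat_lit 78) (nat_lit 0) (nat_lit 0) (XT.lf (nat_lit 0) (nat_lit 69379068140) (nat_lit 76) (nat_lit 50369988421) (nat_lit 152) (nat_lit 223165359079) (nat_lit 13) (nat_lit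 5) (nat_lit 14) (nat_lit 5) (nat_lit 15) (nat_lit 4) (nat_lit 300) (nat_lit 277) (nat_lit 203)) (XT.lf (nat_lit 0) (nat_lit 262203436297) (nat_lit 152) (nat_lit 24331828843) (nat_lit 0) (nat_lit 95814801903) (nat_lit 13) (nat_lit 5) (nat_lit 15) (nat_lit 4) (nat_lit 13) (nat_lit 4) (nat_lit 301) (nat_lit 277) (nat_lit 202)))) (XT.nd (nat_lit 156) (nat_lit 76) (nat_lit 0) (XT.nd (nat_lit 78) (nat_lit 76) (nat_lit 0) (XT.lf (nat_lit 0) (nat_lit 6612281168) (nat_lit 152) (nat_lit 152635697966) (nat_lit 76) (nat_lit 267800023885) (nat_lit 11) (nat_lit 5) (nat_lit 13) (nat_lit 5) (nat_lit 12) (nat_lit 4) (nat_lit 302) (nat_lit 277) (nat_lit 201)) (XT.lf (nat_lit 0) (nat_lit 144955319348) (nat_lit 76) (nat_lit 4729820647) (nat_lit 152) (nat_lit 328162703835) (nat_lit 10) (nat_lit 5) (nat_lit 11) (nat_lit 5) (nat_lit 12) (nat_lit 4) (nat_lit 303) (nat_lit 277) (nat_lit 200))) (XT.nd (nat_lit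 78) (nat_lit 76) (nat_lit 0) (XT.lf (nat_lit 0) (nat_lit 322936979210) (nat_lit 152) (nat_lit 43761287988) (nat_lit 0) (nat_lit 168871949689) (nat_lit 10) (nat_lit 5) (nat_lit 12) (nat_lit 4) (nat_lit 10) (nat_lit 4) (nat_lit 304) (nat_lit 277) (nat_lit 199)) (XT.lf (nat_lit 0) (nat_lit 303804603669) (nat_lit 76) (nat_lit 225808414243) (nat_lit 76) (nat_lit 71743014320) (nat_lit 9) (nat_lit 4) (nat_lit 10) (nat_lit 5) (nat_lit 10) (nat_lit 4) (nat_lit 305) (nat_lit 277) (nat_lit 198))))))))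
noncomputable def xc43 : XT := (XT.nd (nat_lit 38766) (nat_lit 0) (nat_lit 456) (XT.nd (nat_lit 1014) (nat_lit 152) (nat_lit 0) (XT.nd (nat_lit 468) (nat_lit 76) (nat_lit 0) (XT.nd (nat_lit 234) (nat_lit 228) (nat_lit 0) (XT.nd (nat_lit 78) (nat_lit 0) (nat_lit 0) (XT.lf (nat_lit 0) (nat_lit 28465605058) (nat_lit 76) (nat_lit 59289840648) (nat_lit 152) (nat_lit 588921301101) (nat_lit 7) (nat_lit 5) (nat_lit 8) (nat_lit 5) (nat_lit 9) (nat_lit 4) (nat_lit 306) (nat_lit 277) (nat_lit 197)) (XT.nd (nat_lit 78) (nat_lit 0) (nat_lit 0) (XT.lf (nat_lit 0) (nat_lit 279118150449) (nat_lit 152) (nat_lit 346588900047) (nat_lit 0) (nat_lit 136464444810) (nat_lit 7) (nat_lit 5) (nat_lit 9) (nat_lit 4) (nat_lit 7) (nat_lit 4) (nat_lit 307) (nat_lit 277) (nat_lit 196)) (XT.lf (nat_lit 0) (nat_lit 500824387392) (nat_lit 152) (nat_lit 1364482455) (nat_lit 0) (nat_lit 358170456248) (nat_lit 7) (nat_lit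 5) (nat_lit 9) (nat_lit 4) (nat_lit 7) (nat_lit 4) (nat_lit 308) (nat_lit 277) (nat_lit 195)))) (XT.nd (nat_lit 78) (nat_lit 152) (nat_lit 0) (XT.lf (nat_lit 0) (nat_lit 416476252802) (nat_lit 76) (nat_lit 349325976258) (nat_lit 76) (nat_lit 206671849022) (nat_lit 6) (nat_lit 4) (nat_lit 7) (nat_lit 5) (nat_lit 7) (nat_lit 4) (nat_lit 309) (nat_lit 277) (nat_lit 194)) (XT.nd (nat_lit 78) (nat_lit 152) (nat_lit 0) (XT.lf (nat_lit 0) (nat_lit 897074652748) (nat_lit 76) (nat_lit 173491276686) (nat_lit 76) (nat_lit 30836978936) (nat_lit 6) (nat_lit 4) (nat_lit 7) (nat_lit 5) (nat_lit 7) (nat_lit 4) (nat_lit 310) (nat_lit 277) (nat_lit 193)) (XT.lf (nat_lit 0) (nat_lit 168687695165) (nat_lit 152) (nat_lit 1043582412669) (nat_lit 0) (nat_lit 36600245144) (nat_lit 4) (nat_lit 5) (nat_lit 6) (nat_lit 4) (nat_lit 4) (nat_lit 4) (nat_lit 311) (nat_lit 277) (nat_lit 192))))) (XT.nd (nat_lit 234)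 (nat_lit 0) (nat_lit 0) (XT.nd (nat_lit 78) (nat_lit 76) (nat_lit 0) (XT.lf (nat_lit 0) (nat_lit 407268289600) (nat_lit 152) (nat_lit 735068578711) (nat_lit 0) (nat_lit 275180720196) (nat_lit 4) (nat_lit 5) (nat_lit 6) (nat_lit 4) (nat_lit 4) (nat_lit 4) (nat_lit 312) (nat_lit 277) (nat_lit 191)) (XT.nd (nat_lit 78) (nat_lit 76) (nat_lit 0) (XT.lf (nat_lit 0) (nat_lit 681635579345) (nat_lit 152) (nat_lit 380278455462) (nat_lit 0) (nat_lit 549547906130) (nat_lit 4) (nat_lit 5) (nat_lit 6) (nat_lit 4) (nat_lit 4) (nat_lit 4) (nat_lit 313) (nat_lit 277) (nat_lit 190)) (XT.lf (nat_lit 0) (nat_lit 29189689454) (nat_lit 76) (nat_lit 968669943348) (nat_lit 76) (nat_lit 836582179862) (nat_lit 3) (nat_lit 4) (nat_lit 4) (nat_lit 5) (nat_lit 4) (nat_lit 4) (nat_lit 314) (nat_lit 277) (nat_lit 189)))) (XT.nd (nat_lit 156) (nat_lit 0) (nat_lit 0) (XT.nd (nat_lit 78) (nat_lit 0) (nat_lit 0) (XT.lf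 (nat_lit 0) (nat_lit 523105938628) (nat_lit 76) (nat_lit 849482440866) (nat_lit 76) (nat_lit 717394598884) (nat_lit 3) (nat_lit 4) (nat_lit 4) (nat_lit 5) (nat_lit 4) (nat_lit 4) (nat_lit 315) (nat_lit 277) (nat_lit 188)) (XT.lf (nat_lit 0) (nat_lit 1091109081294) (nat_lit 76) (nat_lit 712417084849) (nat_lit 76) (nat_lit 580329174610) (nat_lit 3) (nat_lit 4) (nat_lit 4) (nat_lit 5) (nat_lit 4) (nat_lit 4) (nat_lit 316) (nat_lit 277) (nat_lit 187))) (XT.nd (nat_lit 78) (nat_lit 0) (nat_lit 0) (XT.lf (nat_lit 0) (nat_lit 1744312222416) (nat_lit 76) (nat_lit 554792161811) (nat_lit 76) (nat_lit 422704192217) (nat_lit 3) (nat_lit 4) (nat_lit 4) (nat_lit 5) (nat_lit 4) (nat_lit 4) (nat_lit 317) (nat_lit 277) (nat_lit 186)) (XT.lf (nat_lit 0) (nat_lit 2495495423453) (nat_lit 76) (nat_lit 373523705865) (nat_lit 76) (nat_lit 241435684659) (nat_lit 3) (nat_lit 4) (nat_lit 4) (nat_lit 5) (nat_lit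 4) (nat_lit 4) (nat_lit 318) (nat_lit 277) (nat_lit 185)))))) (XT.nd (nat_lit 546) (nat_lit 0) (nat_lit 0) (XT.nd (nat_lit 234) (nat_lit 0) (nat_lit 0) (XT.nd (nat_lit 78) (nat_lit 152) (nat_lit 0) (XT.lf (nat_lit 0) (nat_lit 3359355747031) (nat_lit 76) (nat_lit 165065160265) (nat_lit 76) (nat_lit 32977094178) (nat_lit 3) (nat_lit 4) (nat_lit 4) (nat_lit 5) (nat_lit 4) (nat_lit 4) (nat_lit 319) (nat_lit 277) (nat_lit 184)) (XT.nd (nat_lit 78) (nat_lit 0) (nat_lit 0) (XT.lf (nat_lit 0) (nat_lit 205512667791) (nat_lit 152) (nat_lit 3781534955061) (nat_lit 0) (nat_lit 83208866760) (nat_lit 1) (nat_lit 5) (nat_lit 3) (nat_lit 4) (nat_lit 1) (nat_lit 4) (nat_lit 320) (nat_lit 277) (nat_lit 183)) (XT.lf (nat_lit 0) (nat_lit 488359491829) (nat_lit 152) (nat_lit 3804717179171) (nat_lit 0) (nat_lit 366055659376) (nat_lit 1) (nat_lit 5) (nat_lit 3) (nat_lit 4) (nat_lit 1) (nat_lit 4) (nat_lit 321)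 (nat_lit 277) (nat_lit 182)))) (XT.nd (nat_lit 156) (nat_lit 0) (nat_lit 0) (XT.nd (nat_lit 78) (nat_lit 0) (nat_lit 0) (XT.lf (nat_lit 0) (nat_lit 813633209610) (nat_lit 152) (nat_lit 3831376998218) (nat_lit 0) (nat_lit 691329349833) (nat_lit 1) (nat_lit 5) (nat_lit 3) (nat_lit 4) (nat_lit 1) (nat_lit 4) (nat_lit 322) (nat_lit 277) (nat_lit 181)) (XT.lf (nat_lit 0) (nat_lit 1187697872132) (nat_lit 152) (nat_lit 3862036017357) (nat_lit 0) (nat_lit 1065393988596) (nat_lit 1) (nat_lit 5) (nat_lit 3) (nat_lit 4) (nat_lit 1) (nat_lit 4) (nat_lit 323) (nat_lit 277) (nat_lit 180))) (XT.nd (nat_lit 78) (nat_lit 0) (nat_lit 0) (XT.lf (nat_lit 0) (nat_lit 1617872135838) (nat_lit 152) (nat_lit 3897294086963) (nat_lit 0) (nat_lit 1495568231641) (nat_lit 1) (nat_lit 5) (nat_lit 3) (nat_lit 4) (nat_lit 1) (nat_lit 4) (nat_lit 324) (nat_lit 277) (nat_lit 179)) (XT.lf (nat_lit 0) (nat_lit 2112572453713)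 (nat_lit 152) (nat_lit 3937841038831) (nat_lit 0) (nat_lit 1990268531550) (nat_lit 1) (nat_lit 5) (nat_lit 3) (nat_lit 4) (nat_lit 1) (nat_lit 4) (nat_lit 325) (nat_lit 277) (nat_lit 178))))) (XT.nd (nat_lit 36894) (nat_lit 0) (nat_lit 4332) (XT.nd (nat_lit 78) (nat_lit 0) (nat_lit 0) (XT.lf (nat_lit 0) (nat_lit 2681477745019) (nat_lit 152) (nat_lit 3984470182890) (nat_lit 0) (nat_lit 2559173807234) (nat_lit 1) (nat_lit 5) (nat_lit 3) (nat_lit 4) (nat_lit 1) (nat_lit 4) (nat_lit 326) (nat_lit 277) (nat_lit 177)) (XT.nd (nat_lit 78) (nat_lit 0) (nat_lit 0) (XT.lf (nat_lit 0) (nat_lit 3335718765455) (nat_lit 152) (nat_lit 4038093828480) (nat_lit 0) (nat_lit 3213414814086) (nat_lit 1) (nat_lit 5) (nat_lit 3) (nat_lit 4) (nat_lit 1) (nat_lit 4) (nat_lit 327) (nat_lit 277) (nat_lit 176)) (XT.lf (nat_lit 0) (nat_lit 4088095882814) (nat_lit 152) (nat_lit 4099761133884) (nat_lit 0) (nat_lit 3965791919631)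 (nat_lit 1) (nat_lit 5) (nat_lit 3) (nat_lit 4) (nat_lit 1) (nat_lit 4) (nat_lit 328) (nat_lit 277) (nat_lit 175)))) (XT.nd (nat_lit 156) (nat_lit 0) (nat_lit 76) (XT.nd (nat_lit 78) (nat_lit 0) (nat_lit 0) (XT.lf (nat_lit 0) (nat_lit 20356486555) (nat_lit 532) (nat_lit 2423783579) (nat_lit 532) (nat_lit 2423783579) (nat_lit 58) (nat_lit 3) (nat_lit 65) (nat_lit 3) (nat_lit 65) (nat_lit 5) (nat_lit 278) (nat_lit 278) (nat_lit 224)) (XT.lf (nat_lit 76) (nat_lit 42461428222) (nat_lit 0) (nat_lit 2369364900) (nat_lit 532) (nat_lit 9272709905) (nat_lit 59) (nat_lit 5) (nat_lit 58) (nat_lit 3) (nat_lit 65) (nat_lit 5) (nat_lit 279) (nat_lit 278) (nat_lit 223))) (XT.nd (nat_lit 78) (nat_lit 0) (nat_lit 76) (XT.lf (nat_lit 76) (nat_lit 39655820664) (nat_lit 0) (nat_lit 12138858383) (nat_lit 532) (nat_lit 6380269006) (nat_lit 60) (nat_lit 5) (nat_lit 59) (nat_lit 5) (nat_lit 66) (nat_lit 5) (nat_lit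 280) (nat_lit 278) (nat_lit 222)) (XT.lf (nat_lit 76) (nat_lit 37384566846) (nat_lit 0) (nat_lit 24653575955) (nat_lit 532) (nat_lit 640177453) (nat_lit 61) (nat_lit 5) (nat_lit 60) (nat_lit 5) (nat_lit 67) (nat_lit 5) (nat_lit 281) (nat_lit 278) (nat_lit 221))))))) (XT.nd (nat_lit 1092) (nat_lit 988) (nat_lit 0) (XT.nd (nat_lit 546) (nat_lit 1140) (nat_lit 0) (XT.nd (nat_lit 234) (nat_lit 836) (nat_lit 0) (XT.nd (nat_lit 78) (nat_lit 608) (nat_lit 0) (XT.lf (nat_lit 0) (nat_lit 8113037204) (nat_lit 532) (nat_lit 32101075671) (nat_lit 76) (nat_lit 27435600708) (nat_lit 54) (nat_lit 5) (nat_lit 61) (nat_lit 5) (nat_lit 55) (nat_lit 5) (nat_lit 282) (nat_lit 278) (nat_lit 220)) (XT.nd (nat_lit 78) (nat_lit 228) (nat_lit 0) (XT.lf (nat_lit 0) (nat_lit 20755236922) (nat_lit 456) (nat_lit 38773034785) (nat_lit 76) (nat_lit 13628108298) (nat_lit 49) (nat_lit 5) (nat_lit 55) (nat_lit 5) (nat_lit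 50) (nat_lit 5) (nat_lit 283) (nat_lit 278) (nat_lit 219)) (XT.lf (nat_lit 0) (nat_lit 33925551216) (nat_lit 228) (nat_lit 4250360649) (nat_lit 304) (nat_lit 41082569004) (nat_lit 46) (nat_lit 5) (nat_lit 49) (nat_lit 5) (nat_lit 50) (nat_lit 5) (nat_lit 284) (nat_lit 278) (nat_lit 218)))) (XT.nd (nat_lit 156) (nat_lit 456) (nat_lit 0) (XT.nd (nat_lit 78) (nat_lit 152) (nat_lit 0) (XT.lf (nat_lit 0) (nat_lit 33927508323) (nat_lit 228) (nat_lit 27678581228) (nat_lit 304) (nat_lit 24398100492) (nat_lit 43) (nat_lit 5) (nat_lit 46) (nat_lit 5) (nat_lit 47) (nat_lit 5) (nat_lit 285) (nat_lit 278) (nat_lit 217)) (XT.lf (nat_lit 0) (nat_lit 34884636532) (nat_lit 152) (nat_lit 56842634247) (nat_lit 228) (nat_lit 1780371276) (nat_lit 41) (nat_lit 5) (nat_lit 43) (nat_lit 5) (nat_lit 44) (nat_lit 5) (nat_lit 286) (nat_lit 278) (nat_lit 216))) (XT.nd (nat_lit 78) (nat_lit 152) (nat_lit 0) (XT.lf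 (nat_lit 0) (nat_lit 26458716764) (nat_lit 304) (nat_lit 65620921897) (nat_lit 76) (nat_lit 9735095676) (nat_lit 37) (nat_lit 5) (nat_lit 41) (nat_lit 5) (nat_lit 38) (nat_lit 5) (nat_lit 287) (nat_lit 278) (nat_lit 215)) (XT.lf (nat_lit 0) (nat_lit 37771064226) (nat_lit 152) (nat_lit 25288524934) (nat_lit 228) (nat_lit 47966097937) (nat_lit 35) (nat_lit 5) (nat_lit 37) (nat_lit 5) (nat_lit 38) (nat_lit 5) (nat_lit 288) (nat_lit 278) (nat_lit 214))))) (XT.nd (nat_lit 234) (nat_lit 608) (nat_lit 0) (XT.nd (nat_lit 78) (nat_lit 380) (nat_lit 0) (XT.lf (nat_lit 0) (nat_lit 39882210310) (nat_lit 152) (nat_lit 69423782097) (nat_lit 228) (nat_lit 11979861173) (nat_lit 33) (nat_lit 5) (nat_lit 35) (nat_lit 5) (nat_lit 36) (nat_lit 5) (nat_lit 289) (nat_lit 278) (nat_lit 213)) (XT.nd (nat_lit 78) (nat_lit 152) (nat_lit 0) (XT.lf (nat_lit 0) (nat_lit 32080228864) (nat_lit 228) (nat_lit 90811024785)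 (nat_lit 76) (nat_lit 9805472456) (nat_lit 30) (nat_lit 5) (nat_lit 33) (nat_lit 5) (nat_lit 31) (nat_lit 5) (nat_lit 290) (nat_lit 278) (nat_lit 212)) (XT.lf (nat_lit 0) (nat_lit 42792071869) (nat_lit 152) (nat_lit 44646357912) (nat_lit 228) (nat_lit 57924033369) (nat_lit 28) (nat_lit 5) (nat_lit 30) (nat_lit 5) (nat_lit 31) (nat_lit 5) (nat_lit 291) (nat_lit 278) (nat_lit 211)))) (XT.nd (nat_lit 156) (nat_lit 304) (nat_lit 0) (XT.nd (nat_lit 78) (nat_lit 228) (nat_lit 0) (XT.lf (nat_lit 0) (nat_lit 43217479204) (nat_lit 76) (nat_lit 112722814829) (nat_lit 152) (nat_lit 3600573771) (nat_lit 27) (nat_lit 5) (nat_lit 28) (nat_lit 5) (nat_lit 29) (nat_lit 4) (nat_lit 292) (nat_lit 278) (nat_lit 210)) (XT.lf (nat_lit 0) (nat_lit 40786244631) (nat_lit 152) (nat_lit 20417544759) (nat_lit 228) (nat_lit 114106786790) (nat_lit 24) (nat_lit 5) (nat_lit 26) (nat_lit 5) (nat_lit 27) (nat_lit 5) (nat_lit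 293) (nat_lit 278) (nat_lit 209))) (XT.nd (nat_lit 78) (nat_lit 228) (nat_lit 0) (XT.lf (nat_lit 0) (nat_lit 34820751174) (nat_lit 76) (nat_lit 107072881373) (nat_lit 152) (nat_lit 51034386175) (nat_lit 23) (nat_lit 5) (nat_lit 24) (nat_lit 5) (nat_lit 25) (nat_lit 4) (nat_lit 294) (nat_lit 278) (nat_lit 208)) (XT.lf (nat_lit 0) (nat_lit 24898054469) (nat_lit 152) (nat_lit 705281449) (nat_lit 228) (nat_lit 187128985044) (nat_lit 20) (nat_lit 5) (nat_lit 22) (nat_lit 5) (nat_lit 23) (nat_lit 5) (nat_lit 295) (nat_lit 278) (nat_lit 207)))))) (XT.nd (nat_lit 546) (nat_lit 456) (nat_lit 0) (XT.nd (nat_lit 234) (nat_lit 304) (nat_lit 0) (XT.nd (nat_lit 78) (nat_lit 152) (nat_lit 0) (XT.lf (nat_lit 0) (nat_lit 5611375428) (nat_lit 76) (nat_lit 112970297211) (nat_lit 152) (nat_lit 116190210339) (nat_lit 19) (nat_lit 5) (nat_lit 20) (nat_lit 5) (nat_lit 21) (nat_lit 4) (nat_lit 296) (nat_lit 278)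 (nat_lit 206)) (XT.nd (nat_lit 78) (nat_lit 152) (nat_lit 0) (XT.lf (nat_lit 0) (nat_lit 231195622878) (nat_lit 152) (nat_lit 20456066082) (nat_lit 0) (nat_lit 8010582024) (nat_lit 19) (nat_lit 5) (nat_lit 21) (nat_lit 4) (nat_lit 19) (nat_lit 4) (nat_lit 297) (nat_lit 278) (nat_lit 205)) (XT.lf (nat_lit 0) (nat_lit 77618648747) (nat_lit 152) (nat_lit 61739330734) (nat_lit 76) (nat_lit 148082853691) (nat_lit 17) (nat_lit 5) (nat_lit 19) (nat_lit 5) (nat_lit 18) (nat_lit 4) (nat_lit 298) (nat_lit 278) (nat_lit 204)))) (XT.nd (nat_lit 156) (nat_lit 76) (nat_lit 0) (XT.nd (nat_lit 78) (nat_lit 152) (nat_lit 0) (XT.lf (nat_lit 0) (nat_lit 199876419117) (nat_lit 76) (nat_lit 3519483645) (nat_lit 152) (nat_lit 115493949490) (nat_lit 16) (nat_lit 5) (nat_lit 17) (nat_lit 5) (nat_lit 18) (nat_lit 4) (nat_lit 299) (nat_lit 278) (nat_lit 203)) (XT.lf (nat_lit 0) (nat_lit 2781099696) (nat_lit 152)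 (nat_lit 200870752184) (nat_lit 76) (nat_lit 150662145541) (nat_lit 14) (nat_lit 5) (nat_lit 16) (nat_lit 5) (nat_lit 15) (nat_lit 4) (nat_lit 300) (nat_lit 278) (nat_lit 202))) (XT.nd (nat_lit 78) (nat_lit 0) (nat_lit 0) (XT.lf (nat_lit 0) (nat_lit 79809642167) (nat_lit 76) (nat_lit 57914270714) (nat_lit 152) (nat_lit 256626661433) (nat_lit 13) (nat_lit 5) (nat_lit 14) (nat_lit 5) (nat_lit 15) (nat_lit 4) (nat_lit 301) (nat_lit 278) (nat_lit 201)) (XT.lf (nat_lit 0) (nat_lit 301545053986) (nat_lit 152) (nat_lit 27960344270) (nat_lit 0) (nat_lit 110196287321) (nat_lit 13) (nat_lit 5) (nat_lit 15) (nat_lit 4) (nat_lit 13) (nat_lit 4) (nat_lit 302) (nat_lit 278) (nat_lit 200))))) (XT.nd (nat_lit 234) (nat_lit 228) (nat_lit 0) (XT.nd (nat_lit 78) (nat_lit 76) (nat_lit 0) (XT.lf (nat_lit 0) (nat_lit 7614511143) (nat_lit 152) (nat_lit 175511043526) (nat_lit 76) (nat_lit 307978815087) (nat_lit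 11) (nat_lit 5) (nat_lit 13) (nat_lit 5) (nat_lit 12) (nat_lit 4) (nat_lit 303) (nat_lit 278) (nat_lit 199)) (XT.nd (nat_lit 78) (nat_lit 0) (nat_lit 0) (XT.lf (nat_lit 0) (nat_lit 166716932711) (nat_lit 76) (nat_lit 5430451639) (nat_lit 152) (nat_lit 377376875844) (nat_lit 10) (nat_lit 5) (nat_lit 11) (nat_lit 5) (nat_lit 12) (nat_lit 4) (nat_lit 304) (nat_lit 278) (nat_lit 198)) (XT.lf (nat_lit 0) (nat_lit 371385948708) (nat_lit 152) (nat_lit 50309078562) (nat_lit 0) (nat_lit 194210046305) (nat_lit 10) (nat_lit 5) (nat_lit 12) (nat_lit 4) (nat_lit 10) (nat_lit 4) (nat_lit 305) (nat_lit 278) (nat_lit 197)))) (XT.nd (nat_lit 156) (nat_lit 0) (nat_lit 0) (XT.nd (nat_lit 78) (nat_lit 152) (nat_lit 0) (XT.lf (nat_lit 0) (nat_lit 349390308443) (nat_lit 76) (nat_lit 259672347263) (nat_lit 76) (nat_lit 82496164782) (nat_lit 9) (nat_lit 4) (nat_lit 10) (nat_lit 5) (nat_lit 10) (nat_lit 4) (nat_lit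 306) (nat_lit 278) (nat_lit 196)) (XT.lf (nat_lit 0) (nat_lit 32749570794) (nat_lit 76) (nat_lit 68176389215) (nat_lit 152) (nat_lit 677251721598) (nat_lit 7) (nat_lit 5) (nat_lit 8) (nat_lit 5) (nat_lit 9) (nat_lit 4) (nat_lit 307) (nat_lit 278) (nat_lit 195))) (XT.nd (nat_lit 78) (nat_lit 0) (nat_lit 0) (XT.lf (nat_lit 0) (nat_lit 320992276542) (nat_lit 152) (nat_lit 398564595410) (nat_lit 0) (nat_lit 156939834129) (nat_lit 7) (nat_lit 5) (nat_lit 9) (nat_lit 4) (nat_lit 7) (nat_lit 4) (nat_lit 308) (nat_lit 278) (nat_lit 194)) (XT.lf (nat_lit 0) (nat_lit 575953613783) (nat_lit 152) (nat_lit 1558163829) (nat_lit 0) (nat_lit 411901000857) (nat_lit 7) (nat_lit 5) (nat_lit 9) (nat_lit 4) (nat_lit 7) (nat_lit 4) (nat_lit 309) (nat_lit 278) (nat_lit 193))))))))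
noncomputable def xc44 : XT := (XT.nd (nat_lit 38844) (nat_lit 0) (nat_lit 228) (XT.nd (nat_lit 1014) (nat_lit 0) (nat_lit 0) (XT.nd (nat_lit 468) (nat_lit 152) (nat_lit 0) (XT.nd (nat_lit 234) (nat_lit 76) (nat_lit 0) (XT.nd (nat_lit 78) (nat_lit 152) (nat_lit 0) (XT.lf (nat_lit 0) (nat_lit 478957751385) (nat_lit 76) (nat_lit 401719895979) (nat_lit 76) (nat_lit 237667134778) (nat_lit 6) (nat_lit 4) (nat_lit 7) (nat_lit 5) (nat_lit 7) (nat_lit 4) (nat_lit 310) (nat_lit 278) (nat_lit 192)) (XT.nd (nat_lit 78) (nat_lit 152) (nat_lit 0) (XT.lf (nat_lit 0) (nat_lit 1031644599062) (nat_lit 76) (nat_lit 199510640608) (nat_lit 76) (nat_lit 35457750475) (nat_lit 6) (nat_lit 4) (nat_lit 7) (nat_lit 5) (nat_lit 7) (nat_lit 4) (nat_lit 311) (nat_lit 278) (nat_lit 191)) (XT.lf (nat_lit 0) (nat_lit 193995090256) (nat_lit 152) (nat_lit 1200111313499) (nat_lit 0) (nat_lit 42094162248) (nat_lit 4) (nat_lit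 5) (nat_lit 6) (nat_lit 4) (nat_lit 4) (nat_lit 4) (nat_lit 312) (nat_lit 278) (nat_lit 190)))) (XT.nd (nat_lit 78) (nat_lit 76) (nat_lit 0) (XT.lf (nat_lit 0) (nat_lit 468362220707) (nat_lit 152) (nat_lit 845321508066) (nat_lit 0) (nat_lit 316461202428) (nat_lit 4) (nat_lit 5) (nat_lit 6) (nat_lit 4) (nat_lit 4) (nat_lit 4) (nat_lit 313) (nat_lit 278) (nat_lit 189)) (XT.nd (nat_lit 78) (nat_lit 76) (nat_lit 0) (XT.lf (nat_lit 0) (nat_lit 783884122914) (nat_lit 152) (nat_lit 437313825997) (nat_lit 0) (nat_lit 631983026138) (nat_lit 4) (nat_lit 5) (nat_lit 6) (nat_lit 4) (nat_lit 4) (nat_lit 4) (nat_lit 314) (nat_lit 278) (nat_lit 188)) (XT.lf (nat_lit 0) (nat_lit 33573999116) (nat_lit 76) (nat_lit 1113967507854) (nat_lit 76) (nat_lit 962066342822) (nat_lit 3) (nat_lit 4) (nat_lit 4) (nat_lit 5) (nat_lit 4) (nat_lit 4) (nat_lit 315) (nat_lit 278) (nat_lit 187))))) (XT.nd (nat_lit 234) (nat_lit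 152) (nat_lit 0) (XT.nd (nat_lit 78) (nat_lit 0) (nat_lit 0) (XT.lf (nat_lit 0) (nat_lit 601576921809) (nat_lit 76) (nat_lit 976902261782) (nat_lit 76) (nat_lit 825001037395) (nat_lit 3) (nat_lit 4) (nat_lit 4) (nat_lit 5) (nat_lit 4) (nat_lit 4) (nat_lit 316) (nat_lit 278) (nat_lit 186)) (XT.nd (nat_lit 78) (nat_lit 0) (nat_lit 0) (XT.lf (nat_lit 0) (nat_lit 1254779871650) (nat_lit 76) (nat_lit 819277434348) (nat_lit 76) (nat_lit 667376158348) (nat_lit 3) (nat_lit 4) (nat_lit 4) (nat_lit 5) (nat_lit 4) (nat_lit 4) (nat_lit 317) (nat_lit 278) (nat_lit 185)) (XT.lf (nat_lit 0) (nat_lit 2005962906354) (nat_lit 76) (nat_lit 638009061536) (nat_lit 76) (nat_lit 486107740656) (nat_lit 3) (nat_lit 4) (nat_lit 4) (nat_lit 5) (nat_lit 4) (nat_lit 4) (nat_lit 318) (nat_lit 278) (nat_lit 184)))) (XT.nd (nat_lit 156) (nat_lit 152) (nat_lit 0) (XT.nd (nat_lit 78) (nat_lit 0) (nat_lit 0) (XT.lf (nat_lit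 0) (nat_lit 2869823085297) (nat_lit 76) (nat_lit 429550588226) (nat_lit 76) (nat_lit 277649228319) (nat_lit 3) (nat_lit 4) (nat_lit 4) (nat_lit 5) (nat_lit 4) (nat_lit 4) (nat_lit 319) (nat_lit 278) (nat_lit 183)) (XT.lf (nat_lit 0) (nat_lit 3863262020674) (nat_lit 76) (nat_lit 189823479071) (nat_lit 76) (nat_lit 37922085228) (nat_lit 3) (nat_lit 4) (nat_lit 4) (nat_lit 5) (nat_lit 4) (nat_lit 4) (nat_lit 320) (nat_lit 278) (nat_lit 182))) (XT.nd (nat_lit 78) (nat_lit 0) (nat_lit 0) (XT.lf (nat_lit 0) (nat_lit 236340966256) (nat_lit 152) (nat_lit 4348762384572) (nat_lit 0) (nat_lit 95691500189) (nat_lit 1) (nat_lit 5) (nat_lit 3) (nat_lit 4) (nat_lit 1) (nat_lit 4) (nat_lit 321) (nat_lit 278) (nat_lit 181)) (XT.lf (nat_lit 0) (nat_lit 561614631514) (nat_lit 152) (nat_lit 4375422309310) (nat_lit 0) (nat_lit 420965141687) (nat_lit 1) (nat_lit 5) (nat_lit 3) (nat_lit 4) (nat_lit 1) (nat_lit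 4) (nat_lit 322) (nat_lit 278) (nat_lit 180)))))) (XT.nd (nat_lit 37284) (nat_lit 0) (nat_lit 3192) (XT.nd (nat_lit 234) (nat_lit 0) (nat_lit 0) (XT.nd (nat_lit 78) (nat_lit 0) (nat_lit 0) (XT.lf (nat_lit 0) (nat_lit 935679248364) (nat_lit 152) (nat_lit 4406081420354) (nat_lit 0) (nat_lit 795029737877) (nat_lit 1) (nat_lit 5) (nat_lit 3) (nat_lit 4) (nat_lit 1) (nat_lit 4) (nat_lit 323) (nat_lit 278) (nat_lit 179)) (XT.nd (nat_lit 78) (nat_lit 0) (nat_lit 0) (XT.lf (nat_lit 0) (nat_lit 1365853472355) (nat_lit 152) (nat_lit 4441339569876) (nat_lit 0) (nat_lit 1225203943902) (nat_lit 1) (nat_lit 5) (nat_lit 3) (nat_lit 4) (nat_lit 1) (nat_lit 4) (nat_lit 324) (nat_lit 278) (nat_lit 178)) (XT.lf (nat_lit 0) (nat_lit 1860553755695) (nat_lit 152) (nat_lit 4481886591238) (nat_lit 0) (nat_lit 1719904211619) (nat_lit 1) (nat_lit 5) (nat_lit 3) (nat_lit 4) (nat_lit 1) (nat_lit 4) (nat_lit 325)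 (nat_lit 278) (nat_lit 177)))) (XT.nd (nat_lit 156) (nat_lit 0) (nat_lit 0) (XT.nd (nat_lit 78) (nat_lit 0) (nat_lit 0) (XT.lf (nat_lit 0) (nat_lit 2429459016970) (nat_lit 152) (nat_lit 4528515795725) (nat_lit 0) (nat_lit 2288809459310) (nat_lit 1) (nat_lit 5) (nat_lit 3) (nat_lit 4) (nat_lit 1) (nat_lit 4) (nat_lit 326) (nat_lit 278) (nat_lit 176)) (XT.lf (nat_lit 0) (nat_lit 3083700011294) (nat_lit 152) (nat_lit 4582139493862) (nat_lit 0) (nat_lit 2943050441821) (nat_lit 1) (nat_lit 5) (nat_lit 3) (nat_lit 4) (nat_lit 1) (nat_lit 4) (nat_lit 327) (nat_lit 278) (nat_lit 175))) (XT.nd (nat_lit 36816) (nat_lit 0) (nat_lit 4332) (XT.lf (nat_lit 0) (nat_lit 3836077105945) (nat_lit 152) (nat_lit 4643806844960) (nat_lit 0) (nat_lit 3695427526200) (nat_lit 1) (nat_lit 5) (nat_lit 3) (nat_lit 4) (nat_lit 1) (nat_lit 4) (nat_lit 328) (nat_lit 278) (nat_lit 174)) (XT.lf (nat_lit 0) (nat_lit 23451321504)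 (nat_lit 532) (nat_lit 2764984646) (nat_lit 532) (nat_lit 2764984646) (nat_lit 58) (nat_lit 3) (nat_lit 65) (nat_lit 3) (nat_lit 65) (nat_lit 5) (nat_lit 279) (nat_lit 279) (nat_lit 222))))) (XT.nd (nat_lit 234) (nat_lit 1140) (nat_lit 0) (XT.nd (nat_lit 78) (nat_lit 0) (nat_lit 76) (XT.lf (nat_lit 76) (nat_lit 48871588975) (nat_lit 0) (nat_lit 2756741735) (nat_lit 532) (nat_lit 10584756427) (nat_lit 59) (nat_lit 5) (nat_lit 58) (nat_lit 3) (nat_lit 65) (nat_lit 5) (nat_lit 280) (nat_lit 279) (nat_lit 221)) (XT.nd (nat_lit 78) (nat_lit 0) (nat_lit 76) (XT.lf (nat_lit 76) (nat_lit 45647816648) (nat_lit 0) (nat_lit 13979852248) (nat_lit 532) (nat_lit 7268324538) (nat_lit 60) (nat_lit 5) (nat_lit 59) (nat_lit 5) (nat_lit 66) (nat_lit 5) (nat_lit 281) (nat_lit 279) (nat_lit 220)) (XT.lf (nat_lit 76) (nat_lit 43037383160) (nat_lit 0) (nat_lit 28362612574) (nat_lit 532) (nat_lit 675500483) (nat_lit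 61) (nat_lit 5) (nat_lit 60) (nat_lit 5) (nat_lit 67) (nat_lit 5) (nat_lit 282) (nat_lit 279) (nat_lit 219)))) (XT.nd (nat_lit 156) (nat_lit 456) (nat_lit 0) (XT.nd (nat_lit 78) (nat_lit 380) (nat_lit 0) (XT.lf (nat_lit 0) (nat_lit 9381030515) (nat_lit 532) (nat_lit 36867745419) (nat_lit 76) (nat_lit 31544246005) (nat_lit 54) (nat_lit 5) (nat_lit 61) (nat_lit 5) (nat_lit 55) (nat_lit 5) (nat_lit 283) (nat_lit 279) (nat_lit 218)) (XT.lf (nat_lit 0) (nat_lit 23913945084) (nat_lit 456) (nat_lit 44540884503) (nat_lit 76) (nat_lit 15671316510) (nat_lit 49) (nat_lit 5) (nat_lit 55) (nat_lit 5) (nat_lit 50) (nat_lit 5) (nat_lit 284) (nat_lit 279) (nat_lit 217))) (XT.nd (nat_lit 78) (nat_lit 228) (nat_lit 0) (XT.lf (nat_lit 0) (nat_lit 39058417507) (nat_lit 228) (nat_lit 4884438081) (nat_lit 304) (nat_lit 47201103204) (nat_lit 46) (nat_lit 5) (nat_lit 49) (nat_lit 5) (nat_lit 50) (nat_lit 5) (nat_lit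 285) (nat_lit 279) (nat_lit 216)) (XT.lf (nat_lit 0) (nat_lit 39059879788) (nat_lit 228) (nat_lit 31823502860) (nat_lit 304) (nat_lit 28018482354) (nat_lit 43) (nat_lit 5) (nat_lit 46) (nat_lit 5) (nat_lit 47) (nat_lit 5) (nat_lit 286) (nat_lit 279) (nat_lit 215))))))) (XT.nd (nat_lit 1014) (nat_lit 988) (nat_lit 0) (XT.nd (nat_lit 468) (nat_lit 836) (nat_lit 0) (XT.nd (nat_lit 234) (nat_lit 532) (nat_lit 0) (XT.nd (nat_lit 78) (nat_lit 456) (nat_lit 0) (XT.lf (nat_lit 0) (nat_lit 40159469139) (nat_lit 152) (nat_lit 65359683725) (nat_lit 228) (nat_lit 2011974637) (nat_lit 41) (nat_lit 5) (nat_lit 43) (nat_lit 5) (nat_lit 44) (nat_lit 5) (nat_lit 287) (nat_lit 279) (nat_lit 214)) (XT.nd (nat_lit 78) (nat_lit 152) (nat_lit 0) (XT.lf (nat_lit 0) (nat_lit 30458017503) (nat_lit 304) (nat_lit 75421623910) (nat_lit 76) (nat_lit 11204833388) (nat_lit 37) (nat_lit 5) (nat_lit 41) (nat_lit 5) (nat_lit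 38) (nat_lit 5) (nat_lit 288) (nat_lit 279) (nat_lit 213)) (XT.lf (nat_lit 0) (nat_lit 43475568112) (nat_lit 152) (nat_lit 29070409475) (nat_lit 228) (nat_lit 55131340286) (nat_lit 35) (nat_lit 5) (nat_lit 37) (nat_lit 5) (nat_lit 38) (nat_lit 5) (nat_lit 289) (nat_lit 279) (nat_lit 212)))) (XT.nd (nat_lit 78) (nat_lit 380) (nat_lit 0) (XT.lf (nat_lit 0) (nat_lit 45901881485) (nat_lit 152) (nat_lit 79825015701) (nat_lit 228) (nat_lit 13749811102) (nat_lit 33) (nat_lit 5) (nat_lit 35) (nat_lit 5) (nat_lit 36) (nat_lit 5) (nat_lit 290) (nat_lit 279) (nat_lit 211)) (XT.nd (nat_lit 78) (nat_lit 152) (nat_lit 0) (XT.lf (nat_lit 0) (nat_lit 36915738130) (nat_lit 228) (nat_lit 104395664389) (nat_lit 76) (nat_lit 11287936105) (nat_lit 30) (nat_lit 5) (nat_lit 33) (nat_lit 5) (nat_lit 31) (nat_lit 5) (nat_lit 291) (nat_lit 279) (nat_lit 210)) (XT.lf (nat_lit 0) (nat_lit 49244763703) (nat_lit 152)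 (nat_lit 51330658373) (nat_lit 228) (nat_lit 66589696318) (nat_lit 28) (nat_lit 5) (nat_lit 30) (nat_lit 5) (nat_lit 31) (nat_lit 5) (nat_lit 292) (nat_lit 279) (nat_lit 209))))) (XT.nd (nat_lit 234) (nat_lit 456) (nat_lit 0) (XT.nd (nat_lit 78) (nat_lit 304) (nat_lit 0) (XT.lf (nat_lit 0) (nat_lit 49732404852) (nat_lit 76) (nat_lit 129618433791) (nat_lit 152) (nat_lit 4119585376) (nat_lit 27) (nat_lit 5) (nat_lit 28) (nat_lit 5) (nat_lit 29) (nat_lit 4) (nat_lit 293) (nat_lit 279) (nat_lit 208)) (XT.nd (nat_lit 78) (nat_lit 76) (nat_lit 0) (XT.lf (nat_lit 0) (nat_lit 46934727529) (nat_lit 152) (nat_lit 23467773803) (nat_lit 228) (nat_lit 131203198588) (nat_lit 24) (nat_lit 5) (nat_lit 26) (nat_lit 5) (nat_lit 27) (nat_lit 5) (nat_lit 294) (nat_lit 279) (nat_lit 207)) (XT.lf (nat_lit 0) (nat_lit 40072890311) (nat_lit 76) (nat_lit 123121521569) (nat_lit 152) (nat_lit 58671461153) (nat_lit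 23) (nat_lit 5) (nat_lit 24) (nat_lit 5) (nat_lit 25) (nat_lit 4) (nat_lit 295) (nat_lit 279) (nat_lit 206)))) (XT.nd (nat_lit 156) (nat_lit 152) (nat_lit 0) (XT.nd (nat_lit 78) (nat_lit 76) (nat_lit 0) (XT.lf (nat_lit 0) (nat_lit 28660168425) (nat_lit 152) (nat_lit 799264700) (nat_lit 228) (nat_lit 215181480391) (nat_lit 20) (nat_lit 5) (nat_lit 22) (nat_lit 5) (nat_lit 23) (nat_lit 5) (nat_lit 296) (nat_lit 279) (nat_lit 205)) (XT.lf (nat_lit 0) (nat_lit 6479057109) (nat_lit 76) (nat_lit 129904300548) (nat_lit 152) (nat_lit 133603146217) (nat_lit 19) (nat_lit 5) (nat_lit 20) (nat_lit 5) (nat_lit 21) (nat_lit 4) (nat_lit 297) (nat_lit 279) (nat_lit 204))) (XT.nd (nat_lit 78) (nat_lit 152) (nat_lit 0) (XT.lf (nat_lit 0) (nat_lit 265887759083) (nat_lit 152) (nat_lit 23501120037) (nat_lit 0) (nat_lit 9221703158) (nat_lit 19) (nat_lit 5) (nat_lit 21) (nat_lit 4) (nat_lit 19) (nat_lit 4) (nat_lit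 298) (nat_lit 279) (nat_lit 203)) (XT.lf (nat_lit 0) (nat_lit 89273391569) (nat_lit 152) (nat_lit 70978217547) (nat_lit 76) (nat_lit 170304388616) (nat_lit 17) (nat_lit 5) (nat_lit 19) (nat_lit 5) (nat_lit 18) (nat_lit 4) (nat_lit 299) (nat_lit 279) (nat_lit 202)))))) (XT.nd (nat_lit 546) (nat_lit 456) (nat_lit 0) (XT.nd (nat_lit 234) (nat_lit 228) (nat_lit 0) (XT.nd (nat_lit 78) (nat_lit 228) (nat_lit 0) (XT.lf (nat_lit 0) (nat_lit 229878031508) (nat_lit 76) (nat_lit 4038128665) (nat_lit 152) (nat_lit 132806296005) (nat_lit 16) (nat_lit 5) (nat_lit 17) (nat_lit 5) (nat_lit 18) (nat_lit 4) (nat_lit 300) (nat_lit 279) (nat_lit 201)) (XT.nd (nat_lit 78) (nat_lit 76) (nat_lit 0) (XT.lf (nat_lit 0) (nat_lit 3208636406) (nat_lit 152) (nat_lit 230981775842) (nat_lit 76) (nat_lit 173269851703) (nat_lit 14) (nat_lit 5) (nat_lit 16) (nat_lit 5) (nat_lit 15) (nat_lit 4) (nat_lit 301) (nat_lit 279)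 (nat_lit 200)) (XT.lf (nat_lit 0) (nat_lit 91799019537) (nat_lit 76) (nat_lit 66592930437) (nat_lit 152) (nat_lit 295110451567) (nat_lit 13) (nat_lit 5) (nat_lit 14) (nat_lit 5) (nat_lit 15) (nat_lit 4) (nat_lit 302) (nat_lit 279) (nat_lit 199)))) (XT.nd (nat_lit 156) (nat_lit 76) (nat_lit 0) (XT.nd (nat_lit 78) (nat_lit 152) (nat_lit 0) (XT.lf (nat_lit 0) (nat_lit 346785206975) (nat_lit 152) (nat_lit 32138321128) (nat_lit 0) (nat_lit 126732736190) (nat_lit 13) (nat_lit 5) (nat_lit 15) (nat_lit 4) (nat_lit 13) (nat_lit 4) (nat_lit 303) (nat_lit 279) (nat_lit 198)) (XT.lf (nat_lit 0) (nat_lit 8764542483) (nat_lit 152) (nat_lit 201822570275) (nat_lit 76) (nat_lit 354182282053) (nat_lit 11) (nat_lit 5) (nat_lit 13) (nat_lit 5) (nat_lit 12) (nat_lit 4) (nat_lit 304) (nat_lit 279) (nat_lit 197))) (XT.nd (nat_lit 78) (nat_lit 0) (nat_lit 0) (XT.lf (nat_lit 0) (nat_lit 191738321738) (nat_lit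 76) (nat_lit 6238333484) (nat_lit 152) (nat_lit 433975669175) (nat_lit 10) (nat_lit 5) (nat_lit 11) (nat_lit 5) (nat_lit 12) (nat_lit 4) (nat_lit 305) (nat_lit 279) (nat_lit 196)) (XT.lf (nat_lit 0) (nat_lit 427100209723) (nat_lit 152) (nat_lit 57843037606) (nat_lit 0) (nat_lit 223347076247) (nat_lit 10) (nat_lit 5) (nat_lit 12) (nat_lit 4) (nat_lit 10) (nat_lit 4) (nat_lit 306) (nat_lit 279) (nat_lit 195))))) (XT.nd (nat_lit 234) (nat_lit 228) (nat_lit 0) (XT.nd (nat_lit 78) (nat_lit 152) (nat_lit 0) (XT.lf (nat_lit 0) (nat_lit 401810207620) (nat_lit 76) (nat_lit 298617657487) (nat_lit 76) (nat_lit 94864312232) (nat_lit 9) (nat_lit 4) (nat_lit 10) (nat_lit 5) (nat_lit 10) (nat_lit 4) (nat_lit 307) (nat_lit 279) (nat_lit 194)) (XT.nd (nat_lit 78) (nat_lit 0) (nat_lit 0) (XT.lf (nat_lit 0) (nat_lit 37672686925) (nat_lit 76) (nat_lit 78397609390) (nat_lit 152) (nat_lit 778833601072) (nat_lit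 7) (nat_lit 5) (nat_lit 8) (nat_lit 5) (nat_lit 9) (nat_lit 4) (nat_lit 308) (nat_lit 279) (nat_lit 193)) (XT.lf (nat_lit 0) (nat_lit 369145960008) (nat_lit 152) (nat_lit 458339727335) (nat_lit 0) (nat_lit 180485136355) (nat_lit 7) (nat_lit 5) (nat_lit 9) (nat_lit 4) (nat_lit 7) (nat_lit 4) (nat_lit 309) (nat_lit 279) (nat_lit 192)))) (XT.nd (nat_lit 156) (nat_lit 152) (nat_lit 0) (XT.nd (nat_lit 78) (nat_lit 76) (nat_lit 0) (XT.lf (nat_lit 0) (nat_lit 662350866273) (nat_lit 152) (nat_lit 1783577632) (nat_lit 0) (nat_lit 473689913686) (nat_lit 7) (nat_lit 5) (nat_lit 9) (nat_lit 4) (nat_lit 7) (nat_lit 4) (nat_lit 310) (nat_lit 279) (nat_lit 191)) (XT.lf (nat_lit 0) (nat_lit 550809021398) (nat_lit 76) (nat_lit 461974117262) (nat_lit 76) (nat_lit 273313052559) (nat_lit 6) (nat_lit 4) (nat_lit 7) (nat_lit 5) (nat_lit 7) (nat_lit 4) (nat_lit 311) (nat_lit 279) (nat_lit 190))) (XT.nd (nat_lit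 78) (nat_lit 152) (nat_lit 0) (XT.lf (nat_lit 0) (nat_lit 1186397903970) (nat_lit 76) (nat_lit 229433964427) (nat_lit 76) (nat_lit 40772802232) (nat_lit 6) (nat_lit 4) (nat_lit 7) (nat_lit 5) (nat_lit 7) (nat_lit 4) (nat_lit 312) (nat_lit 279) (nat_lit 189)) (XT.lf (nat_lit 0) (nat_lit 223097560461) (nat_lit 152) (nat_lit 1380121612740) (nat_lit 0) (nat_lit 48411220673) (nat_lit 4) (nat_lit 5) (nat_lit 6) (nat_lit 4) (nat_lit 4) (nat_lit 4) (nat_lit 313) (nat_lit 279) (nat_lit 188))))))))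
noncomputable def xc45 : XT := (XT.nd (nat_lit 38922) (nat_lit 0) (nat_lit 152) (XT.nd (nat_lit 1014) (nat_lit 0) (nat_lit 0) (XT.nd (nat_lit 468) (nat_lit 152) (nat_lit 0) (XT.nd (nat_lit 234) (nat_lit 0) (nat_lit 0) (XT.nd (nat_lit 78) (nat_lit 76) (nat_lit 0) (XT.lf (nat_lit 0) (nat_lit 538619342219) (nat_lit 152) (nat_lit 972114170985) (nat_lit 0) (nat_lit 363932934173) (nat_lit 4) (nat_lit 5) (nat_lit 6) (nat_lit 4) (nat_lit 4) (nat_lit 4) (nat_lit 314) (nat_lit 279) (nat_lit 187)) (XT.nd (nat_lit 78) (nat_lit 76) (nat_lit 0) (XT.lf (nat_lit 0) (nat_lit 901469166051) (nat_lit 152) (nat_lit 502906062252) (nat_lit 0) (nat_lit 726782698652) (nat_lit 4) (nat_lit 5) (nat_lit 6) (nat_lit 4) (nat_lit 4) (nat_lit 4) (nat_lit 315) (nat_lit 279) (nat_lit 186)) (XT.lf (nat_lit 0) (nat_lit 38614527146) (nat_lit 76) (nat_lit 1281060420804) (nat_lit 76) (nat_lit 1106373901791) (nat_lit 3) (nat_lit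 4) (nat_lit 4) (nat_lit 5) (nat_lit 4) (nat_lit 4) (nat_lit 316) (nat_lit 279) (nat_lit 185)))) (XT.nd (nat_lit 78) (nat_lit 0) (nat_lit 0) (XT.lf (nat_lit 0) (nat_lit 691817310655) (nat_lit 76) (nat_lit 1123435676503) (nat_lit 76) (nat_lit 948749112610) (nat_lit 3) (nat_lit 4) (nat_lit 4) (nat_lit 5) (nat_lit 4) (nat_lit 4) (nat_lit 317) (nat_lit 279) (nat_lit 184)) (XT.nd (nat_lit 78) (nat_lit 0) (nat_lit 0) (XT.lf (nat_lit 0) (nat_lit 1443000200724) (nat_lit 76) (nat_lit 942167375981) (nat_lit 76) (nat_lit 767480773062) (nat_lit 3) (nat_lit 4) (nat_lit 4) (nat_lit 5) (nat_lit 4) (nat_lit 4) (nat_lit 318) (nat_lit 279) (nat_lit 183)) (XT.lf (nat_lit 0) (nat_lit 2306860253896) (nat_lit 76) (nat_lit 733708965532) (nat_lit 76) (nat_lit 559022328677) (nat_lit 3) (nat_lit 4) (nat_lit 4) (nat_lit 5) (nat_lit 4) (nat_lit 4) (nat_lit 319) (nat_lit 279) (nat_lit 182))))) (XT.nd (nat_lit 234)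 (nat_lit 0) (nat_lit 0) (XT.nd (nat_lit 78) (nat_lit 152) (nat_lit 0) (XT.lf (nat_lit 0) (nat_lit 3300299079907) (nat_lit 76) (nat_lit 493981911039) (nat_lit 76) (nat_lit 319295244674) (nat_lit 3) (nat_lit 4) (nat_lit 4) (nat_lit 5) (nat_lit 4) (nat_lit 4) (nat_lit 320) (nat_lit 279) (nat_lit 181)) (XT.nd (nat_lit 78) (nat_lit 152) (nat_lit 0) (XT.lf (nat_lit 0) (nat_lit 4442753525354) (nat_lit 76) (nat_lit 218295900566) (nat_lit 76) (nat_lit 43609208540) (nat_lit 3) (nat_lit 4) (nat_lit 4) (nat_lit 5) (nat_lit 4) (nat_lit 4) (nat_lit 321) (nat_lit 279) (nat_lit 180)) (XT.lf (nat_lit 0) (nat_lit 271793168508) (nat_lit 152) (nat_lit 5001074614660) (nat_lit 0) (nat_lit 110046210787) (nat_lit 1) (nat_lit 5) (nat_lit 3) (nat_lit 4) (nat_lit 1) (nat_lit 4) (nat_lit 322) (nat_lit 279) (nat_lit 179)))) (XT.nd (nat_lit 156) (nat_lit 0) (nat_lit 0) (XT.nd (nat_lit 78) (nat_lit 0) (nat_lit 0) (XT.lf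 (nat_lit 0) (nat_lit 645857745643) (nat_lit 152) (nat_lit 5031733805621) (nat_lit 0) (nat_lit 484110769957) (nat_lit 1) (nat_lit 5) (nat_lit 3) (nat_lit 4) (nat_lit 1) (nat_lit 4) (nat_lit 323) (nat_lit 279) (nat_lit 178)) (XT.lf (nat_lit 0) (nat_lit 1076031935100) (nat_lit 152) (nat_lit 5066992024637) (nat_lit 0) (nat_lit 914284943790) (nat_lit 1) (nat_lit 5) (nat_lit 3) (nat_lit 4) (nat_lit 1) (nat_lit 4) (nat_lit 324) (nat_lit 279) (nat_lit 177))) (XT.nd (nat_lit 78) (nat_lit 0) (nat_lit 0) (XT.lf (nat_lit 0) (nat_lit 1570732188409) (nat_lit 152) (nat_lit 5107539106427) (nat_lit 0) (nat_lit 1408985183515) (nat_lit 1) (nat_lit 5) (nat_lit 3) (nat_lit 4) (nat_lit 1) (nat_lit 4) (nat_lit 325) (nat_lit 279) (nat_lit 176)) (XT.lf (nat_lit 0) (nat_lit 2139637423571) (nat_lit 152) (nat_lit 5154168363462) (nat_lit 0) (nat_lit 1977890406865) (nat_lit 1) (nat_lit 5) (nat_lit 3) (nat_lit 4) (nat_lit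 1) (nat_lit 4) (nat_lit 326) (nat_lit 279) (nat_lit 175)))))) (XT.nd (nat_lit 37362) (nat_lit 0) (nat_lit 2432) (XT.nd (nat_lit 37050) (nat_lit 0) (nat_lit 4028) (XT.nd (nat_lit 78) (nat_lit 0) (nat_lit 0) (XT.lf (nat_lit 0) (nat_lit 2793878395188) (nat_lit 152) (nat_lit 5207792107292) (nat_lit 0) (nat_lit 2632131368209) (nat_lit 1) (nat_lit 5) (nat_lit 3) (nat_lit 4) (nat_lit 1) (nat_lit 4) (nat_lit 327) (nat_lit 279) (nat_lit 174)) (XT.nd (nat_lit 36894) (nat_lit 0) (nat_lit 4332) (XT.lf (nat_lit 0) (nat_lit 3546255470094) (nat_lit 152) (nat_lit 5269459498123) (nat_lit 0) (nat_lit 3384508434183) (nat_lit 1) (nat_lit 5) (nat_lit 3) (nat_lit 4) (nat_lit 1) (nat_lit 4) (nat_lit 328) (nat_lit 279) (nat_lit 173)) (XT.lf (nat_lit 0) (nat_lit 27000295318) (nat_lit 532) (nat_lit 3162820079) (nat_lit 532) (nat_lit 3162820079) (nat_lit 58) (nat_lit 3) (nat_lit 65) (nat_lit 3) (nat_lit 65) (nat_lit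 5) (nat_lit 280) (nat_lit 280) (nat_lit 220)))) (XT.nd (nat_lit 156) (nat_lit 304) (nat_lit 0) (XT.nd (nat_lit 78) (nat_lit 0) (nat_lit 76) (XT.lf (nat_lit 76) (nat_lit 56233288773) (nat_lit 0) (nat_lit 3194428495) (nat_lit 532) (nat_lit 12112840429) (nat_lit 59) (nat_lit 5) (nat_lit 58) (nat_lit 3) (nat_lit 65) (nat_lit 5) (nat_lit 281) (nat_lit 280) (nat_lit 219)) (XT.lf (nat_lit 76) (nat_lit 52527974313) (nat_lit 0) (nat_lit 16092077804) (nat_lit 532) (nat_lit 8306410786) (nat_lit 60) (nat_lit 5) (nat_lit 59) (nat_lit 5) (nat_lit 66) (nat_lit 5) (nat_lit 282) (nat_lit 280) (nat_lit 218))) (XT.nd (nat_lit 78) (nat_lit 456) (nat_lit 0) (XT.lf (nat_lit 76) (nat_lit 49527116371) (nat_lit 0) (nat_lit 32625322212) (nat_lit 532) (nat_lit 730924921) (nat_lit 61) (nat_lit 5) (nat_lit 60) (nat_lit 5) (nat_lit 67) (nat_lit 5) (nat_lit 283) (nat_lit 280) (nat_lit 217)) (XT.lf (nat_lit 0) (nat_lit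 10826776949) (nat_lit 532) (nat_lit 42361240614) (nat_lit 76) (nat_lit 36270820668) (nat_lit 54) (nat_lit 5) (nat_lit 61) (nat_lit 5) (nat_lit 55) (nat_lit 5) (nat_lit 284) (nat_lit 280) (nat_lit 216))))) (XT.nd (nat_lit 234) (nat_lit 760) (nat_lit 0) (XT.nd (nat_lit 78) (nat_lit 456) (nat_lit 0) (XT.lf (nat_lit 0) (nat_lit 27535382877) (nat_lit 456) (nat_lit 51185642509) (nat_lit 76) (nat_lit 18021251769) (nat_lit 49) (nat_lit 5) (nat_lit 55) (nat_lit 5) (nat_lit 50) (nat_lit 5) (nat_lit 285) (nat_lit 280) (nat_lit 215)) (XT.nd (nat_lit 78) (nat_lit 228) (nat_lit 0) (XT.lf (nat_lit 0) (nat_lit 44950475868) (nat_lit 228) (nat_lit 5614474934) (nat_lit 304) (nat_lit 54248110915) (nat_lit 46) (nat_lit 5) (nat_lit 49) (nat_lit 5) (nat_lit 50) (nat_lit 5) (nat_lit 286) (nat_lit 280) (nat_lit 214)) (XT.lf (nat_lit 0) (nat_lit 44951561352) (nat_lit 228) (nat_lit 36591836946) (nat_lit 304) (nat_lit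 32191513148) (nat_lit 43) (nat_lit 5) (nat_lit 46) (nat_lit 5) (nat_lit 47) (nat_lit 5) (nat_lit 287) (nat_lit 280) (nat_lit 213)))) (XT.nd (nat_lit 156) (nat_lit 304) (nat_lit 0) (XT.nd (nat_lit 78) (nat_lit 304) (nat_lit 0) (XT.lf (nat_lit 0) (nat_lit 46215251233) (nat_lit 152) (nat_lit 75156569623) (nat_lit 228) (nat_lit 2286963778) (nat_lit 41) (nat_lit 5) (nat_lit 43) (nat_lit 5) (nat_lit 44) (nat_lit 5) (nat_lit 288) (nat_lit 280) (nat_lit 212)) (XT.lf (nat_lit 0) (nat_lit 35049777387) (nat_lit 304) (nat_lit 86702779578) (nat_lit 76) (nat_lit 12892721618) (nat_lit 37) (nat_lit 5) (nat_lit 41) (nat_lit 5) (nat_lit 38) (nat_lit 5) (nat_lit 289) (nat_lit 280) (nat_lit 211))) (XT.nd (nat_lit 78) (nat_lit 152) (nat_lit 0) (XT.lf (nat_lit 0) (nat_lit 50026275165) (nat_lit 152) (nat_lit 33422355244) (nat_lit 228) (nat_lit 63378604775) (nat_lit 35) (nat_lit 5) (nat_lit 37) (nat_lit 5) (nat_lit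 38) (nat_lit 5) (nat_lit 290) (nat_lit 280) (nat_lit 210)) (XT.lf (nat_lit 0) (nat_lit 52815397831) (nat_lit 152) (nat_lit 91789441999) (nat_lit 228) (nat_lit 15791844773) (nat_lit 33) (nat_lit 5) (nat_lit 35) (nat_lit 5) (nat_lit 36) (nat_lit 5) (nat_lit 291) (nat_lit 280) (nat_lit 209))))))) (XT.nd (nat_lit 1092) (nat_lit 608) (nat_lit 0) (XT.nd (nat_lit 546) (nat_lit 608) (nat_lit 0) (XT.nd (nat_lit 234) (nat_lit 608) (nat_lit 0) (XT.nd (nat_lit 78) (nat_lit 228) (nat_lit 0) (XT.lf (nat_lit 0) (nat_lit 42470849273) (nat_lit 228) (nat_lit 120027026060) (nat_lit 76) (nat_lit 12989930135) (nat_lit 30) (nat_lit 5) (nat_lit 33) (nat_lit 5) (nat_lit 31) (nat_lit 5) (nat_lit 292) (nat_lit 280) (nat_lit 208)) (XT.nd (nat_lit 78) (nat_lit 76) (nat_lit 0) (XT.lf (nat_lit 0) (nat_lit 56657097203) (nat_lit 152) (nat_lit 59020689472) (nat_lit 228) (nat_lit 76560803275) (nat_lit 28) (nat_lit 5) (nat_lit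 30) (nat_lit 5) (nat_lit 31) (nat_lit 5) (nat_lit 293) (nat_lit 280) (nat_lit 207)) (XT.lf (nat_lit 0) (nat_lit 57216691869) (nat_lit 76) (nat_lit 149051517754) (nat_lit 152) (nat_lit 4721587863) (nat_lit 27) (nat_lit 5) (nat_lit 28) (nat_lit 5) (nat_lit 29) (nat_lit 4) (nat_lit 294) (nat_lit 280) (nat_lit 206)))) (XT.nd (nat_lit 156) (nat_lit 304) (nat_lit 0) (XT.nd (nat_lit 78) (nat_lit 76) (nat_lit 0) (XT.lf (nat_lit 0) (nat_lit 53998033976) (nat_lit 152) (nat_lit 26978561673) (nat_lit 228) (nat_lit 150868853258) (nat_lit 24) (nat_lit 5) (nat_lit 26) (nat_lit 5) (nat_lit 27) (nat_lit 5) (nat_lit 295) (nat_lit 280) (nat_lit 205)) (XT.lf (nat_lit 0) (nat_lit 46105772032) (nat_lit 76) (nat_lit 141580455279) (nat_lit 152) (nat_lit 67458507018) (nat_lit 23) (nat_lit 5) (nat_lit 24) (nat_lit 5) (nat_lit 25) (nat_lit 4) (nat_lit 296) (nat_lit 280) (nat_lit 204))) (XT.nd (nat_lit 78) (nat_lit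 76) (nat_lit 0) (XT.lf (nat_lit 0) (nat_lit 32979916401) (nat_lit 152) (nat_lit 910225130) (nat_lit 228) (nat_lit 247445959606) (nat_lit 20) (nat_lit 5) (nat_lit 22) (nat_lit 5) (nat_lit 23) (nat_lit 5) (nat_lit 297) (nat_lit 280) (nat_lit 203)) (XT.lf (nat_lit 0) (nat_lit 7470556785) (nat_lit 76) (nat_lit 149381218790) (nat_lit 152) (nat_lit 153631825580) (nat_lit 19) (nat_lit 5) (nat_lit 20) (nat_lit 5) (nat_lit 21) (nat_lit 4) (nat_lit 298) (nat_lit 280) (nat_lit 202))))) (XT.nd (nat_lit 234) (nat_lit 380) (nat_lit 0) (XT.nd (nat_lit 78) (nat_lit 228) (nat_lit 0) (XT.lf (nat_lit 0) (nat_lit 305780596121) (nat_lit 152) (nat_lit 27008627583) (nat_lit 0) (nat_lit 10612167578) (nat_lit 19) (nat_lit 5) (nat_lit 21) (nat_lit 4) (nat_lit 19) (nat_lit 4) (nat_lit 299) (nat_lit 280) (nat_lit 201)) (XT.nd (nat_lit 78) (nat_lit 76) (nat_lit 0) (XT.lf (nat_lit 0) (nat_lit 102673432826) (nat_lit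 152) (nat_lit 81608305342) (nat_lit 76) (nat_lit 195856933011) (nat_lit 17) (nat_lit 5) (nat_lit 19) (nat_lit 5) (nat_lit 18) (nat_lit 4) (nat_lit 300) (nat_lit 280) (nat_lit 200)) (XT.lf (nat_lit 0) (nat_lit 264374972169) (nat_lit 76) (nat_lit 4636832821) (nat_lit 152) (nat_lit 152718358811) (nat_lit 16) (nat_lit 5) (nat_lit 17) (nat_lit 5) (nat_lit 18) (nat_lit 4) (nat_lit 301) (nat_lit 280) (nat_lit 199)))) (XT.nd (nat_lit 156) (nat_lit 152) (nat_lit 0) (XT.nd (nat_lit 78) (nat_lit 76) (nat_lit 0) (XT.lf (nat_lit 0) (nat_lit 3697774404) (nat_lit 152) (nat_lit 265614229991) (nat_lit 76) (nat_lit 199266669217) (nat_lit 14) (nat_lit 5) (nat_lit 16) (nat_lit 5) (nat_lit 15) (nat_lit 4) (nat_lit 302) (nat_lit 280) (nat_lit 198)) (XT.lf (nat_lit 0) (nat_lit 105582430914) (nat_lit 76) (nat_lit 76575457235) (nat_lit 152) (nat_lit 339369299771) (nat_lit 13) (nat_lit 5) (nat_lit 14) (nat_lit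 5) (nat_lit 15) (nat_lit 4) (nat_lit 303) (nat_lit 280) (nat_lit 197))) (XT.nd (nat_lit 78) (nat_lit 152) (nat_lit 0) (XT.lf (nat_lit 0) (nat_lit 398809335766) (nat_lit 152) (nat_lit 36946914453) (nat_lit 0) (nat_lit 145747943988) (nat_lit 13) (nat_lit 5) (nat_lit 15) (nat_lit 4) (nat_lit 13) (nat_lit 4) (nat_lit 304) (nat_lit 280) (nat_lit 196)) (XT.lf (nat_lit 0) (nat_lit 10085163114) (nat_lit 152) (nat_lit 232084515528) (nat_lit 76) (nat_lit 407314648710) (nat_lit 11) (nat_lit 5) (nat_lit 13) (nat_lit 5) (nat_lit 12) (nat_lit 4) (nat_lit 305) (nat_lit 280) (nat_lit 195)))))) (XT.nd (nat_lit 546) (nat_lit 228) (nat_lit 0) (XT.nd (nat_lit 234) (nat_lit 228) (nat_lit 0) (XT.nd (nat_lit 78) (nat_lit 76) (nat_lit 0) (XT.lf (nat_lit 0) (nat_lit 220509541923) (nat_lit 76) (nat_lit 7169028005) (nat_lit 152) (nat_lit 499066168476) (nat_lit 10) (nat_lit 5) (nat_lit 11) (nat_lit 5) (nat_lit 12)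 (nat_lit 4) (nat_lit 306) (nat_lit 280) (nat_lit 194)) (XT.nd (nat_lit 78) (nat_lit 76) (nat_lit 0) (XT.lf (nat_lit 0) (nat_lit 491170056840) (nat_lit 152) (nat_lit 66510114993) (nat_lit 0) (nat_lit 256853313862) (nat_lit 10) (nat_lit 5) (nat_lit 12) (nat_lit 4) (nat_lit 10) (nat_lit 4) (nat_lit 307) (nat_lit 280) (nat_lit 193)) (XT.lf (nat_lit 0) (nat_lit 462090323194) (nat_lit 76) (nat_lit 343406115664) (nat_lit 76) (nat_lit 109089212551) (nat_lit 9) (nat_lit 4) (nat_lit 10) (nat_lit 5) (nat_lit 10) (nat_lit 4) (nat_lit 308) (nat_lit 280) (nat_lit 192)))) (XT.nd (nat_lit 156) (nat_lit 76) (nat_lit 0) (XT.nd (nat_lit 78) (nat_lit 0) (nat_lit 0) (XT.lf (nat_lit 0) (nat_lit 43331665965) (nat_lit 76) (nat_lit 90153289960) (nat_lit 152) (nat_lit 895654196041) (nat_lit 7) (nat_lit 5) (nat_lit 8) (nat_lit 5) (nat_lit 9) (nat_lit 4) (nat_lit 309) (nat_lit 280) (nat_lit 191)) (XT.lf (nat_lit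 0) (nat_lit 424521515246) (nat_lit 152) (nat_lit 527083459678) (nat_lit 0) (nat_lit 207561178722) (nat_lit 7) (nat_lit 5) (nat_lit 9) (nat_lit 4) (nat_lit 7) (nat_lit 4) (nat_lit 310) (nat_lit 280) (nat_lit 190))) (XT.nd (nat_lit 78) (nat_lit 76) (nat_lit 0) (XT.lf (nat_lit 0) (nat_lit 761706679898) (nat_lit 152) (nat_lit 2044830140) (nat_lit 0) (nat_lit 544746245881) (nat_lit 7) (nat_lit 5) (nat_lit 9) (nat_lit 4) (nat_lit 7) (nat_lit 4) (nat_lit 311) (nat_lit 280) (nat_lit 189)) (XT.lf (nat_lit 0) (nat_lit 633436126824) (nat_lit 76) (nat_lit 531267389397) (nat_lit 76) (nat_lit 314306870604) (nat_lit 6) (nat_lit 4) (nat_lit 7) (nat_lit 5) (nat_lit 7) (nat_lit 4) (nat_lit 312) (nat_lit 280) (nat_lit 188))))) (XT.nd (nat_lit 234) (nat_lit 76) (nat_lit 0) (XT.nd (nat_lit 78) (nat_lit 152) (nat_lit 0) (XT.lf (nat_lit 0) (nat_lit 1364362591493) (nat_lit 76) (nat_lit 263846584783) (nat_lit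 76) (nat_lit 46885992272) (nat_lit 6) (nat_lit 4) (nat_lit 7) (nat_lit 5) (nat_lit 7) (nat_lit 4) (nat_lit 313) (nat_lit 280) (nat_lit 187)) (XT.nd (nat_lit 78) (nat_lit 0) (nat_lit 0) (XT.lf (nat_lit 0) (nat_lit 256564619231) (nat_lit 152) (nat_lit 1587135017006) (nat_lit 0) (nat_lit 55675122367) (nat_lit 4) (nat_lit 5) (nat_lit 6) (nat_lit 4) (nat_lit 4) (nat_lit 4) (nat_lit 314) (nat_lit 280) (nat_lit 186)) (XT.lf (nat_lit 0) (nat_lit 619414351987) (nat_lit 152) (nat_lit 1117927089986) (nat_lit 0) (nat_lit 418524803510) (nat_lit 4) (nat_lit 5) (nat_lit 6) (nat_lit 4) (nat_lit 4) (nat_lit 4) (nat_lit 315) (nat_lit 280) (nat_lit 185)))) (XT.nd (nat_lit 156) (nat_lit 0) (nat_lit 0) (XT.nd (nat_lit 78) (nat_lit 76) (nat_lit 0) (XT.lf (nat_lit 0) (nat_lit 1036691374381) (nat_lit 152) (nat_lit 578338313636) (nat_lit 0) (nat_lit 835801781024) (nat_lit 4) (nat_lit 5) (nat_lit 6) (nat_lit 4)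 (nat_lit 4) (nat_lit 4) (nat_lit 316) (nat_lit 280) (nat_lit 184)) (XT.lf (nat_lit 0) (nat_lit 44410054544) (nat_lit 76) (nat_lit 1473217810405) (nat_lit 76) (nat_lit 1272328178022) (nat_lit 3) (nat_lit 4) (nat_lit 4) (nat_lit 5) (nat_lit 4) (nat_lit 4) (nat_lit 317) (nat_lit 280) (nat_lit 183))) (XT.nd (nat_lit 78) (nat_lit 0) (nat_lit 0) (XT.lf (nat_lit 0) (nat_lit 795592818842) (nat_lit 76) (nat_lit 1291949572744) (nat_lit 76) (nat_lit 1091059906425) (nat_lit 3) (nat_lit 4) (nat_lit 4) (nat_lit 5) (nat_lit 4) (nat_lit 4) (nat_lit 318) (nat_lit 280) (nat_lit 182)) (XT.lf (nat_lit 0) (nat_lit 1659452762648) (nat_lit 76) (nat_lit 1083491216957) (nat_lit 76) (nat_lit 882601521128) (nat_lit 3) (nat_lit 4) (nat_lit 4) (nat_lit 5) (nat_lit 4) (nat_lit 4) (nat_lit 319) (nat_lit 280) (nat_lit 181))))))))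
noncomputable def xc46 : XT := (XT.nd (nat_lit 39000) (nat_lit 0) (nat_lit 0) (XT.nd (nat_lit 37908) (nat_lit 0) (nat_lit 1444) (XT.nd (nat_lit 468) (nat_lit 0) (nat_lit 0) (XT.nd (nat_lit 234) (nat_lit 152) (nat_lit 0) (XT.nd (nat_lit 78) (nat_lit 0) (nat_lit 0) (XT.lf (nat_lit 0) (nat_lit 2652891493559) (nat_lit 76) (nat_lit 843764209996) (nat_lit 76) (nat_lit 642874488507) (nat_lit 3) (nat_lit 4) (nat_lit 4) (nat_lit 5) (nat_lit 4) (nat_lit 4) (nat_lit 320) (nat_lit 280) (nat_lit 180)) (XT.nd (nat_lit 78) (nat_lit 0) (nat_lit 0) (XT.lf (nat_lit 0) (nat_lit 3795345856310) (nat_lit 76) (nat_lit 568078240855) (nat_lit 76) (nat_lit 367188497052) (nat_lit 3) (nat_lit 4) (nat_lit 4) (nat_lit 5) (nat_lit 4) (nat_lit 4) (nat_lit 321) (nat_lit 280) (nat_lit 179)) (XT.lf (nat_lit 0) (nat_lit 5109168218868) (nat_lit 76) (nat_lit 251039453616) (nat_lit 76) (nat_lit 50149690410) (nat_lit 3) (nat_lit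 4) (nat_lit 4) (nat_lit 5) (nat_lit 4) (nat_lit 4) (nat_lit 322) (nat_lit 280) (nat_lit 178)))) (XT.nd (nat_lit 78) (nat_lit 0) (nat_lit 0) (XT.lf (nat_lit 0) (nat_lit 312562943265) (nat_lit 152) (nat_lit 5751234198090) (nat_lit 0) (nat_lit 126553887637) (nat_lit 1) (nat_lit 5) (nat_lit 3) (nat_lit 4) (nat_lit 1) (nat_lit 4) (nat_lit 323) (nat_lit 280) (nat_lit 177)) (XT.nd (nat_lit 78) (nat_lit 0) (nat_lit 0) (XT.lf (nat_lit 0) (nat_lit 742737102691) (nat_lit 152) (nat_lit 5786492477534) (nat_lit 0) (nat_lit 556728033478) (nat_lit 1) (nat_lit 5) (nat_lit 3) (nat_lit 4) (nat_lit 1) (nat_lit 4) (nat_lit 324) (nat_lit 280) (nat_lit 176)) (XT.lf (nat_lit 0) (nat_lit 1237437329887) (nat_lit 152) (nat_lit 5827039611872) (nat_lit 0) (nat_lit 1051428248861) (nat_lit 1) (nat_lit 5) (nat_lit 3) (nat_lit 4) (nat_lit 1) (nat_lit 4) (nat_lit 325) (nat_lit 280) (nat_lit 175))))) (XT.nd (nat_lit 37128)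 (nat_lit 0) (nat_lit 4332) (XT.nd (nat_lit 78) (nat_lit 0) (nat_lit 0) (XT.lf (nat_lit 0) (nat_lit 1806342542342) (nat_lit 152) (nat_lit 5873668914599) (nat_lit 0) (nat_lit 1620333451045) (nat_lit 1) (nat_lit 5) (nat_lit 3) (nat_lit 4) (nat_lit 1) (nat_lit 4) (nat_lit 326) (nat_lit 280) (nat_lit 174)) (XT.nd (nat_lit 78) (nat_lit 0) (nat_lit 0) (XT.lf (nat_lit 0) (nat_lit 2460583494213) (nat_lit 152) (nat_lit 5927292698162) (nat_lit 0) (nat_lit 2274574393983) (nat_lit 1) (nat_lit 5) (nat_lit 3) (nat_lit 4) (nat_lit 1) (nat_lit 4) (nat_lit 327) (nat_lit 280) (nat_lit 173)) (XT.lf (nat_lit 0) (nat_lit 3212960551949) (nat_lit 152) (nat_lit 5988960123543) (nat_lit 0) (nat_lit 3026951443952) (nat_lit 1) (nat_lit 5) (nat_lit 3) (nat_lit 4) (nat_lit 1) (nat_lit 4) (nat_lit 328) (nat_lit 280) (nat_lit 172)))) (XT.nd (nat_lit 156) (nat_lit 0) (nat_lit 76) (XT.nd (nat_lit 78) (nat_lit 0) (nat_lit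 0) (XT.lf (nat_lit 0) (nat_lit 31073988454) (nat_lit 532) (nat_lit 3624454989) (nat_lit 532) (nat_lit 3624454989) (nat_lit 58) (nat_lit 3) (nat_lit 65) (nat_lit 3) (nat_lit 65) (nat_lit 5) (nat_lit 281) (nat_lit 281) (nat_lit 218)) (XT.lf (nat_lit 76) (nat_lit 64691693395) (nat_lit 0) (nat_lit 3691872921) (nat_lit 532) (nat_lit 13884678053) (nat_lit 59) (nat_lit 5) (nat_lit 58) (nat_lit 3) (nat_lit 65) (nat_lit 5) (nat_lit 282) (nat_lit 281) (nat_lit 217))) (XT.nd (nat_lit 78) (nat_lit 0) (nat_lit 76) (XT.lf (nat_lit 76) (nat_lit 60432111986) (nat_lit 0) (nat_lit 18517418940) (nat_lit 532) (nat_lit 9512930110) (nat_lit 60) (nat_lit 5) (nat_lit 59) (nat_lit 5) (nat_lit 66) (nat_lit 5) (nat_lit 283) (nat_lit 281) (nat_lit 216)) (XT.lf (nat_lit 76) (nat_lit 56981987786) (nat_lit 0) (nat_lit 37525409959) (nat_lit 532) (nat_lit 805856186) (nat_lit 61) (nat_lit 5) (nat_lit 60) (nat_lit 5) (nat_lit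 67) (nat_lit 5) (nat_lit 284) (nat_lit 281) (nat_lit 215)))))) (XT.nd (nat_lit 546) (nat_lit 1140) (nat_lit 0) (XT.nd (nat_lit 234) (nat_lit 836) (nat_lit 0) (XT.nd (nat_lit 78) (nat_lit 608) (nat_lit 0) (XT.lf (nat_lit 0) (nat_lit 12479974479) (nat_lit 532) (nat_lit 48687701475) (nat_lit 76) (nat_lit 41707615989) (nat_lit 54) (nat_lit 5) (nat_lit 61) (nat_lit 5) (nat_lit 55) (nat_lit 5) (nat_lit 285) (nat_lit 281) (nat_lit 214)) (XT.nd (nat_lit 78) (nat_lit 228) (nat_lit 0) (XT.lf (nat_lit 0) (nat_lit 31691660841) (nat_lit 456) (nat_lit 58835984410) (nat_lit 76) (nat_lit 20723863189) (nat_lit 49) (nat_lit 5) (nat_lit 55) (nat_lit 5) (nat_lit 50) (nat_lit 5) (nat_lit 286) (nat_lit 281) (nat_lit 213)) (XT.lf (nat_lit 0) (nat_lit 51718223607) (nat_lit 228) (nat_lit 6454658380) (nat_lit 304) (nat_lit 62360255515) (nat_lit 46) (nat_lit 5) (nat_lit 49) (nat_lit 5) (nat_lit 50) (nat_lit 5) (nat_lit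 287) (nat_lit 281) (nat_lit 212)))) (XT.nd (nat_lit 156) (nat_lit 456) (nat_lit 0) (XT.nd (nat_lit 78) (nat_lit 152) (nat_lit 0) (XT.lf (nat_lit 0) (nat_lit 51719021147) (nat_lit 228) (nat_lit 42076687086) (nat_lit 304) (nat_lit 36997751229) (nat_lit 43) (nat_lit 5) (nat_lit 46) (nat_lit 5) (nat_lit 47) (nat_lit 5) (nat_lit 288) (nat_lit 281) (nat_lit 211)) (XT.lf (nat_lit 0) (nat_lit 53171630958) (nat_lit 152) (nat_lit 86424711655) (nat_lit 228) (nat_lit 2609738361) (nat_lit 41) (nat_lit 5) (nat_lit 43) (nat_lit 5) (nat_lit 44) (nat_lit 5) (nat_lit 289) (nat_lit 281) (nat_lit 210))) (XT.nd (nat_lit 78) (nat_lit 152) (nat_lit 0) (XT.lf (nat_lit 0) (nat_lit 40324678596) (nat_lit 304) (nat_lit 99683933439) (nat_lit 76) (nat_lit 14832046286) (nat_lit 37) (nat_lit 5) (nat_lit 41) (nat_lit 5) (nat_lit 38) (nat_lit 5) (nat_lit 290) (nat_lit 281) (nat_lit 209)) (XT.lf (nat_lit 0) (nat_lit 57552425767)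 (nat_lit 152) (nat_lit 38429193860) (nat_lit 228) (nat_lit 72868430233) (nat_lit 35) (nat_lit 5) (nat_lit 37) (nat_lit 5) (nat_lit 38) (nat_lit 5) (nat_lit 291) (nat_lit 281) (nat_lit 208))))) (XT.nd (nat_lit 234) (nat_lit 608) (nat_lit 0) (XT.nd (nat_lit 78) (nat_lit 380) (nat_lit 0) (XT.lf (nat_lit 0) (nat_lit 60759056559) (nat_lit 152) (nat_lit 105550806459) (nat_lit 228) (nat_lit 18145167428) (nat_lit 33) (nat_lit 5) (nat_lit 35) (nat_lit 5) (nat_lit 36) (nat_lit 5) (nat_lit 292) (nat_lit 281) (nat_lit 207)) (XT.nd (nat_lit 78) (nat_lit 152) (nat_lit 0) (XT.lf (nat_lit 0) (nat_lit 48854898535) (nat_lit 228) (nat_lit 138009917029) (nat_lit 76) (nat_lit 14945076453) (nat_lit 30) (nat_lit 5) (nat_lit 33) (nat_lit 5) (nat_lit 31) (nat_lit 5) (nat_lit 293) (nat_lit 281) (nat_lit 206)) (XT.lf (nat_lit 0) (nat_lit 65175033386) (nat_lit 152) (nat_lit 67866558370) (nat_lit 228) (nat_lit 88031806571)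 (nat_lit 28) (nat_lit 5) (nat_lit 30) (nat_lit 5) (nat_lit 31) (nat_lit 5) (nat_lit 294) (nat_lit 281) (nat_lit 205)))) (XT.nd (nat_lit 156) (nat_lit 304) (nat_lit 0) (XT.nd (nat_lit 78) (nat_lit 228) (nat_lit 0) (XT.lf (nat_lit 0) (nat_lit 65817665433) (nat_lit 76) (nat_lit 171401925111) (nat_lit 152) (nat_lit 5417776651) (nat_lit 27) (nat_lit 5) (nat_lit 28) (nat_lit 5) (nat_lit 29) (nat_lit 4) (nat_lit 295) (nat_lit 281) (nat_lit 204)) (XT.lf (nat_lit 0) (nat_lit 62115203963) (nat_lit 152) (nat_lit 31018254658) (nat_lit 228) (nat_lit 173487971326) (nat_lit 24) (nat_lit 5) (nat_lit 26) (nat_lit 5) (nat_lit 27) (nat_lit 5) (nat_lit 296) (nat_lit 281) (nat_lit 203))) (XT.nd (nat_lit 78) (nat_lit 228) (nat_lit 0) (XT.lf (nat_lit 0) (nat_lit 53038233809) (nat_lit 76) (nat_lit 162810495574) (nat_lit 152) (nat_lit 77566944086) (nat_lit 23) (nat_lit 5) (nat_lit 24) (nat_lit 5) (nat_lit 25)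 (nat_lit 4) (nat_lit 297) (nat_lit 281) (nat_lit 202)) (XT.lf (nat_lit 0) (nat_lit 37942573209) (nat_lit 152) (nat_lit 1040007084) (nat_lit 228) (nat_lit 284553218127) (nat_lit 20) (nat_lit 5) (nat_lit 22) (nat_lit 5) (nat_lit 23) (nat_lit 5) (nat_lit 298) (nat_lit 281) (nat_lit 201))))))) (XT.nd (nat_lit 1014) (nat_lit 456) (nat_lit 0) (XT.nd (nat_lit 468) (nat_lit 456) (nat_lit 0) (XT.nd (nat_lit 234) (nat_lit 304) (nat_lit 0) (XT.nd (nat_lit 78) (nat_lit 152) (nat_lit 0) (XT.lf (nat_lit 0) (nat_lit 8605991804) (nat_lit 76) (nat_lit 171781802864) (nat_lit 152) (nat_lit 176667682541) (nat_lit 19) (nat_lit 5) (nat_lit 20) (nat_lit 5) (nat_lit 21) (nat_lit 4) (nat_lit 299) (nat_lit 281) (nat_lit 200)) (XT.nd (nat_lit 78) (nat_lit 152) (nat_lit 0) (XT.lf (nat_lit 0) (nat_lit 351654999848) (nat_lit 152) (nat_lit 31046567876) (nat_lit 0) (nat_lit 12209443714) (nat_lit 19) (nat_lit 5) (nat_lit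 21) (nat_lit 4) (nat_lit 19) (nat_lit 4) (nat_lit 300) (nat_lit 281) (nat_lit 199)) (XT.lf (nat_lit 0) (nat_lit 118081277634) (nat_lit 152) (nat_lit 93836965255) (nat_lit 76) (nat_lit 225240679846) (nat_lit 17) (nat_lit 5) (nat_lit 19) (nat_lit 5) (nat_lit 18) (nat_lit 4) (nat_lit 301) (nat_lit 281) (nat_lit 198)))) (XT.nd (nat_lit 78) (nat_lit 228) (nat_lit 0) (XT.lf (nat_lit 0) (nat_lit 304042738550) (nat_lit 76) (nat_lit 5327053288) (nat_lit 152) (nat_lit 175619396871) (nat_lit 16) (nat_lit 5) (nat_lit 17) (nat_lit 5) (nat_lit 18) (nat_lit 4) (nat_lit 302) (nat_lit 281) (nat_lit 197)) (XT.nd (nat_lit 78) (nat_lit 76) (nat_lit 0) (XT.lf (nat_lit 0) (nat_lit 4258370649) (nat_lit 152) (nat_lit 305445164318) (nat_lit 76) (nat_lit 229161463368) (nat_lit 14) (nat_lit 5) (nat_lit 16) (nat_lit 5) (nat_lit 15) (nat_lit 4) (nat_lit 303) (nat_lit 281) (nat_lit 196)) (XT.lf (nat_lit 0) (nat_lit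 121430047684) (nat_lit 76) (nat_lit 88056926847) (nat_lit 152) (nat_lit 390268857662) (nat_lit 13) (nat_lit 5) (nat_lit 14) (nat_lit 5) (nat_lit 15) (nat_lit 4) (nat_lit 304) (nat_lit 281) (nat_lit 195))))) (XT.nd (nat_lit 234) (nat_lit 228) (nat_lit 0) (XT.nd (nat_lit 78) (nat_lit 228) (nat_lit 0) (XT.lf (nat_lit 0) (nat_lit 458635535937) (nat_lit 152) (nat_lit 42479760812) (nat_lit 0) (nat_lit 167614141159) (nat_lit 13) (nat_lit 5) (nat_lit 15) (nat_lit 4) (nat_lit 13) (nat_lit 4) (nat_lit 305) (nat_lit 281) (nat_lit 194)) (XT.nd (nat_lit 78) (nat_lit 76) (nat_lit 0) (XT.lf (nat_lit 0) (nat_lit 11602428514) (nat_lit 152) (nat_lit 266888542356) (nat_lit 76) (nat_lit 468415645147) (nat_lit 11) (nat_lit 5) (nat_lit 13) (nat_lit 5) (nat_lit 12) (nat_lit 4) (nat_lit 306) (nat_lit 281) (nat_lit 193)) (XT.lf (nat_lit 0) (nat_lit 253593891491) (nat_lit 76) (nat_lit 8240559520) (nat_lit 152)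 (nat_lit 573921669495) (nat_lit 10) (nat_lit 5) (nat_lit 11) (nat_lit 5) (nat_lit 12) (nat_lit 4) (nat_lit 307) (nat_lit 281) (nat_lit 192)))) (XT.nd (nat_lit 156) (nat_lit 152) (nat_lit 0) (XT.nd (nat_lit 78) (nat_lit 76) (nat_lit 0) (XT.lf (nat_lit 0) (nat_lit 564849206696) (nat_lit 152) (nat_lit 76479540935) (nat_lit 0) (nat_lit 295384468732) (nat_lit 10) (nat_lit 5) (nat_lit 12) (nat_lit 4) (nat_lit 10) (nat_lit 4) (nat_lit 308) (nat_lit 281) (nat_lit 191)) (XT.lf (nat_lit 0) (nat_lit 531410362736) (nat_lit 76) (nat_lit 394913864434) (nat_lit 76) (nat_lit 125449005386) (nat_lit 9) (nat_lit 4) (nat_lit 10) (nat_lit 5) (nat_lit 10) (nat_lit 4) (nat_lit 309) (nat_lit 281) (nat_lit 190))) (XT.nd (nat_lit 78) (nat_lit 0) (nat_lit 0) (XT.lf (nat_lit 0) (nat_lit 49837522477) (nat_lit 76) (nat_lit 103673288492) (nat_lit 152) (nat_lit 1029998964244) (nat_lit 7) (nat_lit 5) (nat_lit 8) (nat_lit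 5) (nat_lit 9) (nat_lit 4) (nat_lit 310) (nat_lit 281) (nat_lit 189)) (XT.lf (nat_lit 0) (nat_lit 488202510954) (nat_lit 152) (nat_lit 606140514163) (nat_lit 0) (nat_lit 238697829567) (nat_lit 7) (nat_lit 5) (nat_lit 9) (nat_lit 4) (nat_lit 7) (nat_lit 4) (nat_lit 311) (nat_lit 281) (nat_lit 188)))))) (XT.nd (nat_lit 546) (nat_lit 152) (nat_lit 0) (XT.nd (nat_lit 234) (nat_lit 228) (nat_lit 0) (XT.nd (nat_lit 78) (nat_lit 76) (nat_lit 0) (XT.lf (nat_lit 0) (nat_lit 875965089205) (nat_lit 152) (nat_lit 2346802951) (nat_lit 0) (nat_lit 626460334100) (nat_lit 7) (nat_lit 5) (nat_lit 9) (nat_lit 4) (nat_lit 7) (nat_lit 4) (nat_lit 312) (nat_lit 281) (nat_lit 187)) (XT.nd (nat_lit 78) (nat_lit 0) (nat_lit 0) (XT.lf (nat_lit 0) (nat_lit 728455895350) (nat_lit 76) (nat_lit 610955346234) (nat_lit 76) (nat_lit 361450527026) (nat_lit 6) (nat_lit 4) (nat_lit 7) (nat_lit 5) (nat_lit 7) (nat_lit 4)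 (nat_lit 313) (nat_lit 281) (nat_lit 186)) (XT.lf (nat_lit 0) (nat_lit 1569020762393) (nat_lit 76) (nat_lit 303421701568) (nat_lit 76) (nat_lit 53916826619) (nat_lit 6) (nat_lit 4) (nat_lit 7) (nat_lit 5) (nat_lit 7) (nat_lit 4) (nat_lit 314) (nat_lit 281) (nat_lit 185)))) (XT.nd (nat_lit 156) (nat_lit 76) (nat_lit 0) (XT.nd (nat_lit 78) (nat_lit 0) (nat_lit 0) (XT.lf (nat_lit 0) (nat_lit 295051145538) (nat_lit 152) (nat_lit 1825201611603) (nat_lit 0) (nat_lit 64028068297) (nat_lit 4) (nat_lit 5) (nat_lit 6) (nat_lit 4) (nat_lit 4) (nat_lit 4) (nat_lit 315) (nat_lit 281) (nat_lit 184)) (XT.lf (nat_lit 0) (nat_lit 712328099065) (nat_lit 152) (nat_lit 1285612972654) (nat_lit 0) (nat_lit 481304982798) (nat_lit 4) (nat_lit 5) (nat_lit 6) (nat_lit 4) (nat_lit 4) (nat_lit 4) (nat_lit 316) (nat_lit 281) (nat_lit 183))) (XT.nd (nat_lit 78) (nat_lit 76) (nat_lit 0) (XT.lf (nat_lit 0) (nat_lit 1192196466868)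 (nat_lit 152) (nat_lit 665086294743) (nat_lit 0) (nat_lit 961173316665) (nat_lit 4) (nat_lit 5) (nat_lit 6) (nat_lit 4) (nat_lit 4) (nat_lit 4) (nat_lit 317) (nat_lit 281) (nat_lit 182)) (XT.lf (nat_lit 0) (nat_lit 51074094541) (nat_lit 76) (nat_lit 1694199216545) (nat_lit 76) (nat_lit 1463176036832) (nat_lit 3) (nat_lit 4) (nat_lit 4) (nat_lit 5) (nat_lit 4) (nat_lit 4) (nat_lit 318) (nat_lit 281) (nat_lit 181))))) (XT.nd (nat_lit 234) (nat_lit 152) (nat_lit 0) (XT.nd (nat_lit 78) (nat_lit 0) (nat_lit 0) (XT.lf (nat_lit 0) (nat_lit 914933943247) (nat_lit 76) (nat_lit 1485740908290) (nat_lit 76) (nat_lit 1254717702917) (nat_lit 3) (nat_lit 4) (nat_lit 4) (nat_lit 5) (nat_lit 4) (nat_lit 4) (nat_lit 319) (nat_lit 281) (nat_lit 180)) (XT.nd (nat_lit 78) (nat_lit 0) (nat_lit 0) (XT.lf (nat_lit 0) (nat_lit 1908372591462) (nat_lit 76) (nat_lit 1246013942661) (nat_lit 76) (nat_lit 1014990714974)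 (nat_lit 3) (nat_lit 4) (nat_lit 4) (nat_lit 5) (nat_lit 4) (nat_lit 4) (nat_lit 320) (nat_lit 281) (nat_lit 179)) (XT.lf (nat_lit 0) (nat_lit 3050826882303) (nat_lit 76) (nat_lit 970328009461) (nat_lit 76) (nat_lit 739304762371) (nat_lit 3) (nat_lit 4) (nat_lit 4) (nat_lit 5) (nat_lit 4) (nat_lit 4) (nat_lit 321) (nat_lit 281) (nat_lit 178)))) (XT.nd (nat_lit 156) (nat_lit 152) (nat_lit 0) (XT.nd (nat_lit 78) (nat_lit 0) (nat_lit 0) (XT.lf (nat_lit 0) (nat_lit 4364649182331) (nat_lit 76) (nat_lit 653289253475) (nat_lit 76) (nat_lit 422265989513) (nat_lit 3) (nat_lit 4) (nat_lit 4) (nat_lit 5) (nat_lit 4) (nat_lit 4) (nat_lit 322) (nat_lit 281) (nat_lit 177)) (XT.lf (nat_lit 0) (nat_lit 5875544710458) (nat_lit 76) (nat_lit 288694742520) (nat_lit 76) (nat_lit 57671463887) (nat_lit 3) (nat_lit 4) (nat_lit 4) (nat_lit 5) (nat_lit 4) (nat_lit 4) (nat_lit 323) (nat_lit 281) (nat_lit 176)))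 (XT.nd (nat_lit 78) (nat_lit 0) (nat_lit 0) (XT.lf (nat_lit 0) (nat_lit 359447989277) (nat_lit 152) (nat_lit 6613918111342) (nat_lit 0) (nat_lit 145537534285) (nat_lit 1) (nat_lit 5) (nat_lit 3) (nat_lit 4) (nat_lit 1) (nat_lit 4) (nat_lit 324) (nat_lit 281) (nat_lit 175)) (XT.lf (nat_lit 0) (nat_lit 854148193766) (nat_lit 152) (nat_lit 6654465291372) (nat_lit 0) (nat_lit 640237728502) (nat_lit 1) (nat_lit 5) (nat_lit 3) (nat_lit 4) (nat_lit 1) (nat_lit 4) (nat_lit 325) (nat_lit 281) (nat_lit 174))))))))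
noncomputable def xc47 : XT := (XT.nd (nat_lit 39078) (nat_lit 0) (nat_lit 0) (XT.nd (nat_lit 37986) (nat_lit 0) (nat_lit 912) (XT.nd (nat_lit 37440) (nat_lit 0) (nat_lit 2736) (XT.nd (nat_lit 37206) (nat_lit 0) (nat_lit 4332) (XT.nd (nat_lit 78) (nat_lit 0) (nat_lit 0) (XT.lf (nat_lit 0) (nat_lit 1423053386475) (nat_lit 152) (nat_lit 6701094633833) (nat_lit 0) (nat_lit 1209142912279) (nat_lit 1) (nat_lit 5) (nat_lit 3) (nat_lit 4) (nat_lit 1) (nat_lit 4) (nat_lit 326) (nat_lit 281) (nat_lit 173)) (XT.nd (nat_lit 78) (nat_lit 0) (nat_lit 0) (XT.lf (nat_lit 0) (nat_lit 2077294321176) (nat_lit 152) (nat_lit 6754718451947) (nat_lit 0) (nat_lit 1863383839213) (nat_lit 1) (nat_lit 5) (nat_lit 3) (nat_lit 4) (nat_lit 1) (nat_lit 4) (nat_lit 327) (nat_lit 281) (nat_lit 172)) (XT.lf (nat_lit 0) (nat_lit 2829671363982) (nat_lit 152) (nat_lit 6816385907371) (nat_lit 0) (nat_lit 2615760875265) (nat_lit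 1) (nat_lit 5) (nat_lit 3) (nat_lit 4) (nat_lit 1) (nat_lit 4) (nat_lit 328) (nat_lit 281) (nat_lit 171)))) (XT.nd (nat_lit 78) (nat_lit 0) (nat_lit 0) (XT.lf (nat_lit 0) (nat_lit 35752968642) (nat_lit 532) (nat_lit 4158453595) (nat_lit 532) (nat_lit 4158453595) (nat_lit 58) (nat_lit 3) (nat_lit 65) (nat_lit 3) (nat_lit 65) (nat_lit 5) (nat_lit 282) (nat_lit 282) (nat_lit 216)) (XT.nd (nat_lit 78) (nat_lit 0) (nat_lit 76) (XT.lf (nat_lit 76) (nat_lit 74413149714) (nat_lit 0) (nat_lit 4259476280) (nat_lit 532) (nat_lit 15933286422) (nat_lit 59) (nat_lit 5) (nat_lit 58) (nat_lit 3) (nat_lit 65) (nat_lit 5) (nat_lit 283) (nat_lit 282) (nat_lit 215)) (XT.lf (nat_lit 76) (nat_lit 69515788160) (nat_lit 0) (nat_lit 21303749713) (nat_lit 532) (nat_lit 10910045586) (nat_lit 60) (nat_lit 5) (nat_lit 59) (nat_lit 5) (nat_lit 66) (nat_lit 5) (nat_lit 284) (nat_lit 282) (nat_lit 214))))) (XT.nd (nat_lit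 234) (nat_lit 912) (nat_lit 0) (XT.nd (nat_lit 78) (nat_lit 836) (nat_lit 0) (XT.lf (nat_lit 76) (nat_lit 65548797455) (nat_lit 0) (nat_lit 43158977154) (nat_lit 532) (nat_lit 900490777) (nat_lit 61) (nat_lit 5) (nat_lit 60) (nat_lit 5) (nat_lit 67) (nat_lit 5) (nat_lit 285) (nat_lit 282) (nat_lit 213)) (XT.nd (nat_lit 78) (nat_lit 380) (nat_lit 0) (XT.lf (nat_lit 0) (nat_lit 14374035670) (nat_lit 532) (nat_lit 55969892438) (nat_lit 76) (nat_lit 47960864036) (nat_lit 54) (nat_lit 5) (nat_lit 61) (nat_lit 5) (nat_lit 55) (nat_lit 5) (nat_lit 286) (nat_lit 282) (nat_lit 212)) (XT.lf (nat_lit 0) (nat_lit 36465047422) (nat_lit 456) (nat_lit 67640584736) (nat_lit 76) (nat_lit 23832006866) (nat_lit 49) (nat_lit 5) (nat_lit 55) (nat_lit 5) (nat_lit 50) (nat_lit 5) (nat_lit 287) (nat_lit 282) (nat_lit 211)))) (XT.nd (nat_lit 156) (nat_lit 456) (nat_lit 0) (XT.nd (nat_lit 78) (nat_lit 228) (nat_lit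 0) (XT.lf (nat_lit 0) (nat_lit 59494994093) (nat_lit 228) (nat_lit 7421354078) (nat_lit 304) (nat_lit 71695335780) (nat_lit 46) (nat_lit 5) (nat_lit 49) (nat_lit 5) (nat_lit 50) (nat_lit 5) (nat_lit 288) (nat_lit 282) (nat_lit 210)) (XT.lf (nat_lit 0) (nat_lit 59495570419) (nat_lit 228) (nat_lit 48385221981) (nat_lit 304) (nat_lit 42530409081) (nat_lit 43) (nat_lit 5) (nat_lit 46) (nat_lit 5) (nat_lit 47) (nat_lit 5) (nat_lit 289) (nat_lit 282) (nat_lit 209))) (XT.nd (nat_lit 78) (nat_lit 304) (nat_lit 0) (XT.lf (nat_lit 0) (nat_lit 61165592644) (nat_lit 152) (nat_lit 99384378017) (nat_lit 228) (nat_lit 2985872094) (nat_lit 41) (nat_lit 5) (nat_lit 43) (nat_lit 5) (nat_lit 44) (nat_lit 5) (nat_lit 290) (nat_lit 282) (nat_lit 208)) (XT.lf (nat_lit 0) (nat_lit 46386563447) (nat_lit 304) (nat_lit 114618177084) (nat_lit 76) (nat_lit 17060948824) (nat_lit 37) (nat_lit 5) (nat_lit 41) (nat_lit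 5) (nat_lit 38) (nat_lit 5) (nat_lit 291) (nat_lit 282) (nat_lit 207)))))) (XT.nd (nat_lit 546) (nat_lit 760) (nat_lit 0) (XT.nd (nat_lit 234) (nat_lit 532) (nat_lit 0) (XT.nd (nat_lit 78) (nat_lit 380) (nat_lit 0) (XT.lf (nat_lit 0) (nat_lit 66202083074) (nat_lit 152) (nat_lit 44188646911) (nat_lit 228) (nat_lit 83785866596) (nat_lit 35) (nat_lit 5) (nat_lit 37) (nat_lit 5) (nat_lit 38) (nat_lit 5) (nat_lit 292) (nat_lit 282) (nat_lit 206)) (XT.nd (nat_lit 78) (nat_lit 228) (nat_lit 0) (XT.lf (nat_lit 0) (nat_lit 69889057995) (nat_lit 152) (nat_lit 121378095225) (nat_lit 228) (nat_lit 20855257053) (nat_lit 33) (nat_lit 5) (nat_lit 35) (nat_lit 5) (nat_lit 36) (nat_lit 5) (nat_lit 293) (nat_lit 282) (nat_lit 205)) (XT.lf (nat_lit 0) (nat_lit 56193282178) (nat_lit 228) (nat_lit 158695402361) (nat_lit 76) (nat_lit 17191871416) (nat_lit 30) (nat_lit 5) (nat_lit 33) (nat_lit 5) (nat_lit 31)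 (nat_lit 5) (nat_lit 294) (nat_lit 282) (nat_lit 204)))) (XT.nd (nat_lit 156) (nat_lit 304) (nat_lit 0) (XT.nd (nat_lit 78) (nat_lit 76) (nat_lit 0) (XT.lf (nat_lit 0) (nat_lit 74965936108) (nat_lit 152) (nat_lit 78041071787) (nat_lit 228) (nat_lit 101226659072) (nat_lit 28) (nat_lit 5) (nat_lit 30) (nat_lit 5) (nat_lit 31) (nat_lit 5) (nat_lit 295) (nat_lit 282) (nat_lit 203)) (XT.lf (nat_lit 0) (nat_lit 75704281058) (nat_lit 76) (nat_lit 197106678674) (nat_lit 152) (nat_lit 6221332078) (nat_lit 27) (nat_lit 5) (nat_lit 28) (nat_lit 5) (nat_lit 29) (nat_lit 4) (nat_lit 296) (nat_lit 282) (nat_lit 202))) (XT.nd (nat_lit 78) (nat_lit 76) (nat_lit 0) (XT.lf (nat_lit 0) (nat_lit 71445690524) (nat_lit 152) (nat_lit 35665630840) (nat_lit 228) (nat_lit 199502690716) (nat_lit 24) (nat_lit 5) (nat_lit 26) (nat_lit 5) (nat_lit 27) (nat_lit 5) (nat_lit 297) (nat_lit 282) (nat_lit 201)) (XT.lf (nat_lit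 0) (nat_lit 61006517821) (nat_lit 76) (nat_lit 187226755735) (nat_lit 152) (nat_lit 89194167942) (nat_lit 23) (nat_lit 5) (nat_lit 24) (nat_lit 5) (nat_lit 25) (nat_lit 4) (nat_lit 298) (nat_lit 282) (nat_lit 200))))) (XT.nd (nat_lit 234) (nat_lit 456) (nat_lit 0) (XT.nd (nat_lit 78) (nat_lit 76) (nat_lit 0) (XT.lf (nat_lit 0) (nat_lit 43645807468) (nat_lit 152) (nat_lit 1190902805) (nat_lit 228) (nat_lit 327228915085) (nat_lit 20) (nat_lit 5) (nat_lit 22) (nat_lit 5) (nat_lit 23) (nat_lit 5) (nat_lit 299) (nat_lit 282) (nat_lit 199)) (XT.nd (nat_lit 78) (nat_lit 0) (nat_lit 0) (XT.lf (nat_lit 0) (nat_lit 9908120442) (nat_lit 76) (nat_lit 197544083695) (nat_lit 152) (nat_lit 203161092482) (nat_lit 19) (nat_lit 5) (nat_lit 20) (nat_lit 5) (nat_lit 21) (nat_lit 4) (nat_lit 300) (nat_lit 282) (nat_lit 198)) (XT.lf (nat_lit 0) (nat_lit 404408780495) (nat_lit 152) (nat_lit 35693455633) (nat_lit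 0) (nat_lit 14044982009) (nat_lit 19) (nat_lit 5) (nat_lit 21) (nat_lit 4) (nat_lit 19) (nat_lit 4) (nat_lit 301) (nat_lit 282) (nat_lit 197)))) (XT.nd (nat_lit 156) (nat_lit 228) (nat_lit 0) (XT.nd (nat_lit 78) (nat_lit 76) (nat_lit 0) (XT.lf (nat_lit 0) (nat_lit 135798633653) (nat_lit 152) (nat_lit 107902993304) (nat_lit 76) (nat_lit 259030718974) (nat_lit 17) (nat_lit 5) (nat_lit 19) (nat_lit 5) (nat_lit 18) (nat_lit 4) (nat_lit 302) (nat_lit 282) (nat_lit 196)) (XT.lf (nat_lit 0) (nat_lit 349657860528) (nat_lit 76) (nat_lit 6122100350) (nat_lit 152) (nat_lit 201957228322) (nat_lit 16) (nat_lit 5) (nat_lit 17) (nat_lit 5) (nat_lit 18) (nat_lit 4) (nat_lit 303) (nat_lit 282) (nat_lit 195))) (XT.nd (nat_lit 78) (nat_lit 76) (nat_lit 0) (XT.lf (nat_lit 0) (nat_lit 4901610243) (nat_lit 152) (nat_lit 351253470027) (nat_lit 76) (nat_lit 263539307651) (nat_lit 14) (nat_lit 5) (nat_lit 16)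 (nat_lit 5) (nat_lit 15) (nat_lit 4) (nat_lit 304) (nat_lit 282) (nat_lit 194)) (XT.lf (nat_lit 0) (nat_lit 139652306922) (nat_lit 76) (nat_lit 101261799353) (nat_lit 152) (nat_lit 448804772644) (nat_lit 13) (nat_lit 5) (nat_lit 14) (nat_lit 5) (nat_lit 15) (nat_lit 4) (nat_lit 305) (nat_lit 282) (nat_lit 193))))))) (XT.nd (nat_lit 1092) (nat_lit 152) (nat_lit 0) (XT.nd (nat_lit 546) (nat_lit 304) (nat_lit 0) (XT.nd (nat_lit 234) (nat_lit 228) (nat_lit 0) (XT.nd (nat_lit 78) (nat_lit 228) (nat_lit 0) (XT.lf (nat_lit 0) (nat_lit 527434495671) (nat_lit 152) (nat_lit 48844775362) (nat_lit 0) (nat_lit 192759291121) (nat_lit 13) (nat_lit 5) (nat_lit 15) (nat_lit 4) (nat_lit 13) (nat_lit 4) (nat_lit 306) (nat_lit 282) (nat_lit 192)) (XT.nd (nat_lit 78) (nat_lit 76) (nat_lit 0) (XT.lf (nat_lit 0) (nat_lit 13346188581) (nat_lit 152) (nat_lit 306915282688) (nat_lit 76) (nat_lit 538680864607) (nat_lit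 11) (nat_lit 5) (nat_lit 13) (nat_lit 5) (nat_lit 12) (nat_lit 4) (nat_lit 307) (nat_lit 282) (nat_lit 191)) (XT.lf (nat_lit 0) (nat_lit 291638962571) (nat_lit 76) (nat_lit 9473752948) (nat_lit 152) (nat_lit 660006574548) (nat_lit 10) (nat_lit 5) (nat_lit 11) (nat_lit 5) (nat_lit 12) (nat_lit 4) (nat_lit 308) (nat_lit 282) (nat_lit 190)))) (XT.nd (nat_lit 156) (nat_lit 152) (nat_lit 0) (XT.nd (nat_lit 78) (nat_lit 76) (nat_lit 0) (XT.lf (nat_lit 0) (nat_lit 649579341069) (nat_lit 152) (nat_lit 87946110029) (nat_lit 0) (nat_lit 339694526786) (nat_lit 10) (nat_lit 5) (nat_lit 12) (nat_lit 4) (nat_lit 10) (nat_lit 4) (nat_lit 309) (nat_lit 282) (nat_lit 189)) (XT.lf (nat_lit 0) (nat_lit 611126825323) (nat_lit 76) (nat_lit 454148548198) (nat_lit 76) (nat_lit 144263642358) (nat_lit 9) (nat_lit 4) (nat_lit 10) (nat_lit 5) (nat_lit 10) (nat_lit 4) (nat_lit 310) (nat_lit 282) (nat_lit 188))) (XT.nd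 (nat_lit 78) (nat_lit 0) (nat_lit 0) (XT.lf (nat_lit 0) (nat_lit 57317768329) (nat_lit 76) (nat_lit 119222017144) (nat_lit 152) (nat_lit 1184496267328) (nat_lit 7) (nat_lit 5) (nat_lit 8) (nat_lit 5) (nat_lit 9) (nat_lit 4) (nat_lit 311) (nat_lit 282) (nat_lit 187)) (XT.lf (nat_lit 0) (nat_lit 561434980920) (nat_lit 152) (nat_lit 697057459365) (nat_lit 0) (nat_lit 274504374729) (nat_lit 7) (nat_lit 5) (nat_lit 9) (nat_lit 4) (nat_lit 7) (nat_lit 4) (nat_lit 312) (nat_lit 282) (nat_lit 186))))) (XT.nd (nat_lit 234) (nat_lit 228) (nat_lit 0) (XT.nd (nat_lit 78) (nat_lit 76) (nat_lit 0) (XT.lf (nat_lit 0) (nat_lit 1007361672867) (nat_lit 152) (nat_lit 2695230417) (nat_lit 0) (nat_lit 720431010934) (nat_lit 7) (nat_lit 5) (nat_lit 9) (nat_lit 4) (nat_lit 7) (nat_lit 4) (nat_lit 313) (nat_lit 282) (nat_lit 185)) (XT.nd (nat_lit 78) (nat_lit 0) (nat_lit 0) (XT.lf (nat_lit 0) (nat_lit 837727568500)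 (nat_lit 76) (nat_lit 702597021271) (nat_lit 76) (nat_lit 415666310868) (nat_lit 6) (nat_lit 4) (nat_lit 7) (nat_lit 5) (nat_lit 7) (nat_lit 4) (nat_lit 314) (nat_lit 282) (nat_lit 184)) (XT.lf (nat_lit 0) (nat_lit 1804376736620) (nat_lit 76) (nat_lit 348933542109) (nat_lit 76) (nat_lit 62002789557) (nat_lit 6) (nat_lit 4) (nat_lit 7) (nat_lit 5) (nat_lit 7) (nat_lit 4) (nat_lit 315) (nat_lit 282) (nat_lit 183)))) (XT.nd (nat_lit 156) (nat_lit 76) (nat_lit 0) (XT.nd (nat_lit 78) (nat_lit 0) (nat_lit 0) (XT.lf (nat_lit 0) (nat_lit 339310203699) (nat_lit 152) (nat_lit 2098979087405) (nat_lit 0) (nat_lit 73633547029) (nat_lit 4) (nat_lit 5) (nat_lit 6) (nat_lit 4) (nat_lit 4) (nat_lit 4) (nat_lit 316) (nat_lit 282) (nat_lit 182)) (XT.lf (nat_lit 0) (nat_lit 819178519429) (nat_lit 152) (nat_lit 1478452513388) (nat_lit 0) (nat_lit 553501833250) (nat_lit 4) (nat_lit 5) (nat_lit 6) (nat_lit 4)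 (nat_lit 4) (nat_lit 4) (nat_lit 317) (nat_lit 282) (nat_lit 181))) (XT.nd (nat_lit 78) (nat_lit 76) (nat_lit 0) (XT.lf (nat_lit 0) (nat_lit 1371026985164) (nat_lit 152) (nat_lit 764847147507) (nat_lit 0) (nat_lit 1105350273324) (nat_lit 4) (nat_lit 5) (nat_lit 6) (nat_lit 4) (nat_lit 4) (nat_lit 4) (nat_lit 318) (nat_lit 282) (nat_lit 180)) (XT.lf (nat_lit 0) (nat_lit 58737123139) (nat_lit 76) (nat_lit 1948328142187) (nat_lit 76) (nat_lit 1682651408033) (nat_lit 3) (nat_lit 4) (nat_lit 4) (nat_lit 5) (nat_lit 4) (nat_lit 4) (nat_lit 319) (nat_lit 282) (nat_lit 179)))))) (XT.nd (nat_lit 546) (nat_lit 0) (nat_lit 0) (XT.nd (nat_lit 234) (nat_lit 152) (nat_lit 0) (XT.nd (nat_lit 78) (nat_lit 0) (nat_lit 0) (XT.lf (nat_lit 0) (nat_lit 1052175699444) (nat_lit 76) (nat_lit 1708601212499) (nat_lit 76) (nat_lit 1442924458942) (nat_lit 3) (nat_lit 4) (nat_lit 4) (nat_lit 5) (nat_lit 4) (nat_lit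 4) (nat_lit 320) (nat_lit 282) (nat_lit 178)) (XT.nd (nat_lit 78) (nat_lit 0) (nat_lit 0) (XT.lf (nat_lit 0) (nat_lit 2194629927755) (nat_lit 76) (nat_lit 1432915310551) (nat_lit 76) (nat_lit 1167238540123) (nat_lit 3) (nat_lit 4) (nat_lit 4) (nat_lit 5) (nat_lit 4) (nat_lit 4) (nat_lit 321) (nat_lit 282) (nat_lit 177)) (XT.lf (nat_lit 0) (nat_lit 3508452173409) (nat_lit 76) (nat_lit 1115876581742) (nat_lit 76) (nat_lit 850199796642) (nat_lit 3) (nat_lit 4) (nat_lit 4) (nat_lit 5) (nat_lit 4) (nat_lit 4) (nat_lit 322) (nat_lit 282) (nat_lit 176)))) (XT.nd (nat_lit 156) (nat_lit 152) (nat_lit 0) (XT.nd (nat_lit 78) (nat_lit 0) (nat_lit 0) (XT.lf (nat_lit 0) (nat_lit 5019347654254) (nat_lit 76) (nat_lit 751282094419) (nat_lit 76) (nat_lit 485605296562) (nat_lit 3) (nat_lit 4) (nat_lit 4) (nat_lit 5) (nat_lit 4) (nat_lit 4) (nat_lit 323) (nat_lit 282) (nat_lit 175)) (XT.lf (nat_lit 0) (nat_lit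 6756877368830) (nat_lit 76) (nat_lit 331998478180) (nat_lit 76) (nat_lit 66321669228) (nat_lit 3) (nat_lit 4) (nat_lit 4) (nat_lit 5) (nat_lit 4) (nat_lit 4) (nat_lit 324) (nat_lit 282) (nat_lit 174))) (XT.nd (nat_lit 78) (nat_lit 0) (nat_lit 0) (XT.lf (nat_lit 0) (nat_lit 413365644774) (nat_lit 152) (nat_lit 7606004908224) (nat_lit 0) (nat_lit 167368590516) (nat_lit 1) (nat_lit 5) (nat_lit 3) (nat_lit 4) (nat_lit 1) (nat_lit 4) (nat_lit 325) (nat_lit 282) (nat_lit 173)) (XT.lf (nat_lit 0) (nat_lit 982270820314) (nat_lit 152) (nat_lit 7652634285236) (nat_lit 0) (nat_lit 736273758289) (nat_lit 1) (nat_lit 5) (nat_lit 3) (nat_lit 4) (nat_lit 1) (nat_lit 4) (nat_lit 326) (nat_lit 282) (nat_lit 172))))) (XT.nd (nat_lit 37284) (nat_lit 0) (nat_lit 4028) (XT.nd (nat_lit 78) (nat_lit 0) (nat_lit 0) (XT.lf (nat_lit 0) (nat_lit 1636511740084) (nat_lit 152) (nat_lit 7706258133393) (nat_lit 0) (nat_lit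 1390514671306) (nat_lit 1) (nat_lit 5) (nat_lit 3) (nat_lit 4) (nat_lit 1) (nat_lit 4) (nat_lit 327) (nat_lit 282) (nat_lit 171)) (XT.nd (nat_lit 37128) (nat_lit 0) (nat_lit 4332) (XT.lf (nat_lit 0) (nat_lit 2388888769907) (nat_lit 152) (nat_lit 7767925614943) (nat_lit 0) (nat_lit 2142891695256) (nat_lit 1) (nat_lit 5) (nat_lit 3) (nat_lit 4) (nat_lit 1) (nat_lit 4) (nat_lit 328) (nat_lit 282) (nat_lit 170)) (XT.lf (nat_lit 0) (nat_lit 41129435238) (nat_lit 532) (nat_lit 4774909995) (nat_lit 532) (nat_lit 4774909995) (nat_lit 58) (nat_lit 3) (nat_lit 65) (nat_lit 3) (nat_lit 65) (nat_lit 5) (nat_lit 283) (nat_lit 283) (nat_lit 214)))) (XT.nd (nat_lit 156) (nat_lit 304) (nat_lit 0) (XT.nd (nat_lit 78) (nat_lit 0) (nat_lit 76) (XT.lf (nat_lit 76) (nat_lit 85588507662) (nat_lit 0) (nat_lit 4908849458) (nat_lit 532) (nat_lit 18297499924) (nat_lit 59) (nat_lit 5) (nat_lit 58) (nat_lit 3) (nat_lit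 65) (nat_lit 5) (nat_lit 284) (nat_lit 283) (nat_lit 213)) (XT.lf (nat_lit 76) (nat_lit 79957416782) (nat_lit 0) (nat_lit 24505904179) (nat_lit 532) (nat_lit 12524001164) (nat_lit 60) (nat_lit 5) (nat_lit 59) (nat_lit 5) (nat_lit 66) (nat_lit 5) (nat_lit 285) (nat_lit 283) (nat_lit 212))) (XT.nd (nat_lit 78) (nat_lit 456) (nat_lit 0) (XT.lf (nat_lit 76) (nat_lit 75395870571) (nat_lit 0) (nat_lit 49636419721) (nat_lit 532) (nat_lit 1015720283) (nat_lit 61) (nat_lit 5) (nat_lit 60) (nat_lit 5) (nat_lit 67) (nat_lit 5) (nat_lit 286) (nat_lit 283) (nat_lit 211)) (XT.lf (nat_lit 0) (nat_lit 16546825345) (nat_lit 532) (nat_lit 64349524313) (nat_lit 76) (nat_lit 55152805096) (nat_lit 54) (nat_lit 5) (nat_lit 61) (nat_lit 5) (nat_lit 55) (nat_lit 5) (nat_lit 287) (nat_lit 283) (nat_lit 210))))))))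
noncomputable def xc48 : XT := (XT.nd (nat_lit 2106) (nat_lit 456) (nat_lit 0) (XT.nd (nat_lit 1014) (nat_lit 988) (nat_lit 0) (XT.nd (nat_lit 468) (nat_lit 1140) (nat_lit 0) (XT.nd (nat_lit 234) (nat_lit 608) (nat_lit 0) (XT.nd (nat_lit 78) (nat_lit 456) (nat_lit 0) (XT.lf (nat_lit 0) (nat_lit 41949653271) (nat_lit 456) (nat_lit 77770946673) (nat_lit 76) (nat_lit 27406478369) (nat_lit 49) (nat_lit 5) (nat_lit 55) (nat_lit 5) (nat_lit 50) (nat_lit 5) (nat_lit 288) (nat_lit 283) (nat_lit 209)) (XT.nd (nat_lit 78) (nat_lit 228) (nat_lit 0) (XT.lf (nat_lit 0) (nat_lit 68433637872) (nat_lit 228) (nat_lit 8533420662) (nat_lit 304) (nat_lit 82435301128) (nat_lit 46) (nat_lit 5) (nat_lit 49) (nat_lit 5) (nat_lit 50) (nat_lit 5) (nat_lit 289) (nat_lit 283) (nat_lit 208)) (XT.lf (nat_lit 0) (nat_lit 68434042920) (nat_lit 228) (nat_lit 55640760917) (nat_lit 304) (nat_lit 48897112346) (nat_lit 43)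 (nat_lit 5) (nat_lit 46) (nat_lit 5) (nat_lit 47) (nat_lit 5) (nat_lit 290) (nat_lit 283) (nat_lit 207)))) (XT.nd (nat_lit 78) (nat_lit 456) (nat_lit 0) (XT.lf (nat_lit 0) (nat_lit 70354206243) (nat_lit 152) (nat_lit 114288979607) (nat_lit 228) (nat_lit 3422163479) (nat_lit 41) (nat_lit 5) (nat_lit 43) (nat_lit 5) (nat_lit 44) (nat_lit 5) (nat_lit 291) (nat_lit 283) (nat_lit 206)) (XT.nd (nat_lit 78) (nat_lit 152) (nat_lit 0) (XT.lf (nat_lit 0) (nat_lit 53354516254) (nat_lit 304) (nat_lit 131797031154) (nat_lit 76) (nat_lit 19623188006) (nat_lit 37) (nat_lit 5) (nat_lit 41) (nat_lit 5) (nat_lit 38) (nat_lit 5) (nat_lit 292) (nat_lit 283) (nat_lit 205)) (XT.lf (nat_lit 0) (nat_lit 76145093790) (nat_lit 152) (nat_lit 50813219164) (nat_lit 228) (nat_lit 96344046644) (nat_lit 35) (nat_lit 5) (nat_lit 37) (nat_lit 5) (nat_lit 38) (nat_lit 5) (nat_lit 293) (nat_lit 283) (nat_lit 204))))) (XT.nd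 (nat_lit 234) (nat_lit 608) (nat_lit 0) (XT.nd (nat_lit 78) (nat_lit 380) (nat_lit 0) (XT.lf (nat_lit 0) (nat_lit 80384623085) (nat_lit 152) (nat_lit 139580777597) (nat_lit 228) (nat_lit 23974709702) (nat_lit 33) (nat_lit 5) (nat_lit 35) (nat_lit 5) (nat_lit 36) (nat_lit 5) (nat_lit 294) (nat_lit 283) (nat_lit 203)) (XT.nd (nat_lit 78) (nat_lit 152) (nat_lit 0) (XT.lf (nat_lit 0) (nat_lit 64629948502) (nat_lit 228) (nat_lit 182487612735) (nat_lit 76) (nat_lit 19774458174) (nat_lit 30) (nat_lit 5) (nat_lit 33) (nat_lit 5) (nat_lit 31) (nat_lit 5) (nat_lit 295) (nat_lit 283) (nat_lit 202)) (XT.lf (nat_lit 0) (nat_lit 86221902301) (nat_lit 152) (nat_lit 89743096193) (nat_lit 228) (nat_lit 116403158134) (nat_lit 28) (nat_lit 5) (nat_lit 30) (nat_lit 5) (nat_lit 31) (nat_lit 5) (nat_lit 296) (nat_lit 283) (nat_lit 201)))) (XT.nd (nat_lit 156) (nat_lit 304) (nat_lit 0) (XT.nd (nat_lit 78) (nat_lit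 228) (nat_lit 0) (XT.lf (nat_lit 0) (nat_lit 87070483376) (nat_lit 76) (nat_lit 226668495065) (nat_lit 152) (nat_lit 7147642611) (nat_lit 27) (nat_lit 5) (nat_lit 28) (nat_lit 5) (nat_lit 29) (nat_lit 4) (nat_lit 297) (nat_lit 283) (nat_lit 200)) (XT.lf (nat_lit 0) (nat_lit 82172529711) (nat_lit 152) (nat_lit 41011421011) (nat_lit 228) (nat_lit 229421685015) (nat_lit 24) (nat_lit 5) (nat_lit 26) (nat_lit 5) (nat_lit 27) (nat_lit 5) (nat_lit 298) (nat_lit 283) (nat_lit 199))) (XT.nd (nat_lit 78) (nat_lit 228) (nat_lit 0) (XT.lf (nat_lit 0) (nat_lit 70166984295) (nat_lit 76) (nat_lit 215306750815) (nat_lit 152) (nat_lit 102567381785) (nat_lit 23) (nat_lit 5) (nat_lit 24) (nat_lit 5) (nat_lit 25) (nat_lit 4) (nat_lit 299) (nat_lit 283) (nat_lit 198)) (XT.lf (nat_lit 0) (nat_lit 50201637588) (nat_lit 152) (nat_lit 1365677854) (nat_lit 228) (nat_lit 376307743265) (nat_lit 20) (nat_lit 5) (nat_lit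 22) (nat_lit 5) (nat_lit 23) (nat_lit 5) (nat_lit 300) (nat_lit 283) (nat_lit 197)))))) (XT.nd (nat_lit 546) (nat_lit 456) (nat_lit 0) (XT.nd (nat_lit 234) (nat_lit 304) (nat_lit 0) (XT.nd (nat_lit 78) (nat_lit 152) (nat_lit 0) (XT.lf (nat_lit 0) (nat_lit 11402829903) (nat_lit 76) (nat_lit 227171923396) (nat_lit 152) (nat_lit 233630158101) (nat_lit 19) (nat_lit 5) (nat_lit 20) (nat_lit 5) (nat_lit 21) (nat_lit 4) (nat_lit 301) (nat_lit 283) (nat_lit 196)) (XT.nd (nat_lit 78) (nat_lit 152) (nat_lit 0) (XT.lf (nat_lit 0) (nat_lit 465074279549) (nat_lit 152) (nat_lit 41039838874) (nat_lit 0) (nat_lit 16154845937) (nat_lit 19) (nat_lit 5) (nat_lit 21) (nat_lit 4) (nat_lit 19) (nat_lit 4) (nat_lit 302) (nat_lit 283) (nat_lit 195)) (XT.lf (nat_lit 0) (nat_lit 156172333709) (nat_lit 152) (nat_lit 124081246277) (nat_lit 76) (nat_lit 297888303873) (nat_lit 17) (nat_lit 5) (nat_lit 19) (nat_lit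 5) (nat_lit 18) (nat_lit 4) (nat_lit 303) (nat_lit 283) (nat_lit 194)))) (XT.nd (nat_lit 156) (nat_lit 76) (nat_lit 0) (XT.nd (nat_lit 78) (nat_lit 152) (nat_lit 0) (XT.lf (nat_lit 0) (nat_lit 402113126522) (nat_lit 76) (nat_lit 7037382563) (nat_lit 152) (nat_lit 232246972812) (nat_lit 16) (nat_lit 5) (nat_lit 17) (nat_lit 5) (nat_lit 18) (nat_lit 4) (nat_lit 304) (nat_lit 283) (nat_lit 193)) (XT.lf (nat_lit 0) (nat_lit 5640242325) (nat_lit 152) (nat_lit 403935086796) (nat_lit 76) (nat_lit 303072944651) (nat_lit 14) (nat_lit 5) (nat_lit 16) (nat_lit 5) (nat_lit 15) (nat_lit 4) (nat_lit 305) (nat_lit 283) (nat_lit 192))) (XT.nd (nat_lit 78) (nat_lit 0) (nat_lit 0) (XT.lf (nat_lit 0) (nat_lit 160606014651) (nat_lit 76) (nat_lit 116448296840) (nat_lit 152) (nat_lit 516122151175) (nat_lit 13) (nat_lit 5) (nat_lit 14) (nat_lit 5) (nat_lit 15) (nat_lit 4) (nat_lit 306) (nat_lit 283) (nat_lit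 191)) (XT.lf (nat_lit 0) (nat_lit 606552414327) (nat_lit 152) (nat_lit 56166236791) (nat_lit 0) (nat_lit 221675474988) (nat_lit 13) (nat_lit 5) (nat_lit 15) (nat_lit 4) (nat_lit 13) (nat_lit 4) (nat_lit 307) (nat_lit 283) (nat_lit 190))))) (XT.nd (nat_lit 234) (nat_lit 228) (nat_lit 0) (XT.nd (nat_lit 78) (nat_lit 76) (nat_lit 0) (XT.lf (nat_lit 0) (nat_lit 15350684573) (nat_lit 152) (nat_lit 352947629139) (nat_lit 76) (nat_lit 619485166463) (nat_lit 11) (nat_lit 5) (nat_lit 13) (nat_lit 5) (nat_lit 12) (nat_lit 4) (nat_lit 308) (nat_lit 283) (nat_lit 189)) (XT.nd (nat_lit 78) (nat_lit 0) (nat_lit 0) (XT.lf (nat_lit 0) (nat_lit 335389334259) (nat_lit 76) (nat_lit 10892630257) (nat_lit 152) (nat_lit 759005031150) (nat_lit 10) (nat_lit 5) (nat_lit 11) (nat_lit 5) (nat_lit 12) (nat_lit 4) (nat_lit 309) (nat_lit 283) (nat_lit 188)) (XT.lf (nat_lit 0) (nat_lit 747018324171) (nat_lit 152) (nat_lit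 101133972055) (nat_lit 0) (nat_lit 390650511281) (nat_lit 10) (nat_lit 5) (nat_lit 12) (nat_lit 4) (nat_lit 10) (nat_lit 4) (nat_lit 310) (nat_lit 283) (nat_lit 187)))) (XT.nd (nat_lit 156) (nat_lit 0) (nat_lit 0) (XT.nd (nat_lit 78) (nat_lit 152) (nat_lit 0) (XT.lf (nat_lit 0) (nat_lit 702799560408) (nat_lit 76) (nat_lit 522269018783) (nat_lit 76) (nat_lit 165901136662) (nat_lit 9) (nat_lit 4) (nat_lit 10) (nat_lit 5) (nat_lit 10) (nat_lit 4) (nat_lit 311) (nat_lit 283) (nat_lit 186)) (XT.lf (nat_lit 0) (nat_lit 65918925057) (nat_lit 76) (nat_lit 137103607336) (nat_lit 152) (nat_lit 1362168785648) (nat_lit 7) (nat_lit 5) (nat_lit 8) (nat_lit 5) (nat_lit 9) (nat_lit 4) (nat_lit 312) (nat_lit 283) (nat_lit 185))) (XT.nd (nat_lit 78) (nat_lit 0) (nat_lit 0) (XT.lf (nat_lit 0) (nat_lit 645651810912) (nat_lit 152) (nat_lit 801612953943) (nat_lit 0) (nat_lit 315681445477) (nat_lit 7) (nat_lit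 5) (nat_lit 9) (nat_lit 4) (nat_lit 7) (nat_lit 4) (nat_lit 313) (nat_lit 283) (nat_lit 184)) (XT.lf (nat_lit 0) (nat_lit 1158467300192) (nat_lit 152) (nat_lit 3096798174) (nat_lit 0) (nat_lit 828496892608) (nat_lit 7) (nat_lit 5) (nat_lit 9) (nat_lit 4) (nat_lit 7) (nat_lit 4) (nat_lit 314) (nat_lit 283) (nat_lit 183))))))) (XT.nd (nat_lit 38220) (nat_lit 0) (nat_lit 2052) (XT.nd (nat_lit 468) (nat_lit 152) (nat_lit 0) (XT.nd (nat_lit 234) (nat_lit 76) (nat_lit 0) (XT.nd (nat_lit 78) (nat_lit 152) (nat_lit 0) (XT.lf (nat_lit 0) (nat_lit 963389190617) (nat_lit 76) (nat_lit 807985344294) (nat_lit 76) (nat_lit 478014900059) (nat_lit 6) (nat_lit 4) (nat_lit 7) (nat_lit 5) (nat_lit 7) (nat_lit 4) (nat_lit 315) (nat_lit 283) (nat_lit 182)) (XT.nd (nat_lit 78) (nat_lit 152) (nat_lit 0) (XT.lf (nat_lit 0) (nat_lit 2075035409584) (nat_lit 76) (nat_lit 401272503714) (nat_lit 76) (nat_lit 71302027609)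 (nat_lit 6) (nat_lit 4) (nat_lit 7) (nat_lit 5) (nat_lit 7) (nat_lit 4) (nat_lit 316) (nat_lit 283) (nat_lit 181)) (XT.lf (nat_lit 0) (nat_lit 390207782518) (nat_lit 152) (nat_lit 2413823859069) (nat_lit 0) (nat_lit 84679538242) (nat_lit 4) (nat_lit 5) (nat_lit 6) (nat_lit 4) (nat_lit 4) (nat_lit 4) (nat_lit 317) (nat_lit 283) (nat_lit 180)))) (XT.nd (nat_lit 78) (nat_lit 76) (nat_lit 0) (XT.lf (nat_lit 0) (nat_lit 942056208878) (nat_lit 152) (nat_lit 1700218571747) (nat_lit 0) (nat_lit 636527942288) (nat_lit 4) (nat_lit 5) (nat_lit 6) (nat_lit 4) (nat_lit 4) (nat_lit 4) (nat_lit 318) (nat_lit 283) (nat_lit 179)) (XT.nd (nat_lit 78) (nat_lit 76) (nat_lit 0) (XT.lf (nat_lit 0) (nat_lit 1576681825577) (nat_lit 152) (nat_lit 879572638199) (nat_lit 0) (nat_lit 1271153539585) (nat_lit 4) (nat_lit 5) (nat_lit 6) (nat_lit 4) (nat_lit 4) (nat_lit 4) (nat_lit 319) (nat_lit 283) (nat_lit 178)) (XT.lf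 (nat_lit 0) (nat_lit 67549139184) (nat_lit 76) (nat_lit 2240576640006) (nat_lit 76) (nat_lit 1935048337141) (nat_lit 3) (nat_lit 4) (nat_lit 4) (nat_lit 5) (nat_lit 4) (nat_lit 4) (nat_lit 320) (nat_lit 283) (nat_lit 177))))) (XT.nd (nat_lit 234) (nat_lit 152) (nat_lit 0) (XT.nd (nat_lit 78) (nat_lit 0) (nat_lit 0) (XT.lf (nat_lit 0) (nat_lit 1210003313121) (nat_lit 76) (nat_lit 1964890765236) (nat_lit 76) (nat_lit 1659362447699) (nat_lit 3) (nat_lit 4) (nat_lit 4) (nat_lit 5) (nat_lit 4) (nat_lit 4) (nat_lit 321) (nat_lit 283) (nat_lit 176)) (XT.nd (nat_lit 78) (nat_lit 0) (nat_lit 0) (XT.lf (nat_lit 0) (nat_lit 2523825511493) (nat_lit 76) (nat_lit 1647852060058) (nat_lit 76) (nat_lit 1342323729764) (nat_lit 3) (nat_lit 4) (nat_lit 4) (nat_lit 5) (nat_lit 4) (nat_lit 4) (nat_lit 322) (nat_lit 283) (nat_lit 175)) (XT.lf (nat_lit 0) (nat_lit 4034720951223) (nat_lit 76) (nat_lit 1283257593285)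 (nat_lit 76) (nat_lit 977729251897) (nat_lit 3) (nat_lit 4) (nat_lit 4) (nat_lit 5) (nat_lit 4) (nat_lit 4) (nat_lit 323) (nat_lit 283) (nat_lit 174)))) (XT.nd (nat_lit 156) (nat_lit 152) (nat_lit 0) (XT.nd (nat_lit 78) (nat_lit 0) (nat_lit 0) (XT.lf (nat_lit 0) (nat_lit 5772250630047) (nat_lit 76) (nat_lit 863973994914) (nat_lit 76) (nat_lit 558445643879) (nat_lit 3) (nat_lit 4) (nat_lit 4) (nat_lit 5) (nat_lit 4) (nat_lit 4) (nat_lit 324) (nat_lit 283) (nat_lit 173)) (XT.lf (nat_lit 0) (nat_lit 7770409693855) (nat_lit 76) (nat_lit 381797890195) (nat_lit 76) (nat_lit 76269530772) (nat_lit 3) (nat_lit 4) (nat_lit 4) (nat_lit 5) (nat_lit 4) (nat_lit 4) (nat_lit 325) (nat_lit 283) (nat_lit 172))) (XT.nd (nat_lit 78) (nat_lit 0) (nat_lit 0) (XT.lf (nat_lit 0) (nat_lit 475370837128) (nat_lit 152) (nat_lit 8746904948943) (nat_lit 0) (nat_lit 192474201278) (nat_lit 1) (nat_lit 5) (nat_lit 3)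 (nat_lit 4) (nat_lit 1) (nat_lit 4) (nat_lit 326) (nat_lit 283) (nat_lit 171)) (XT.lf (nat_lit 0) (nat_lit 1129611743915) (nat_lit 152) (nat_lit 8800528823225) (nat_lit 0) (nat_lit 846715102193) (nat_lit 1) (nat_lit 5) (nat_lit 3) (nat_lit 4) (nat_lit 1) (nat_lit 4) (nat_lit 327) (nat_lit 283) (nat_lit 170)))))) (XT.nd (nat_lit 546) (nat_lit 1368) (nat_lit 0) (XT.nd (nat_lit 234) (nat_lit 912) (nat_lit 0) (XT.nd (nat_lit 78) (nat_lit 0) (nat_lit 0) (XT.lf (nat_lit 0) (nat_lit 47309074570) (nat_lit 532) (nat_lit 5485617845) (nat_lit 532) (nat_lit 5485617845) (nat_lit 58) (nat_lit 3) (nat_lit 65) (nat_lit 3) (nat_lit 65) (nat_lit 5) (nat_lit 284) (nat_lit 284) (nat_lit 212)) (XT.nd (nat_lit 78) (nat_lit 0) (nat_lit 76) (XT.lf (nat_lit 76) (nat_lit 98436905164) (nat_lit 0) (nat_lit 5653079890) (nat_lit 532) (nat_lit 21022631935) (nat_lit 59) (nat_lit 5) (nat_lit 58) (nat_lit 3) (nat_lit 65)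 (nat_lit 5) (nat_lit 285) (nat_lit 284) (nat_lit 211)) (XT.lf (nat_lit 76) (nat_lit 91961812210) (nat_lit 0) (nat_lit 28186774312) (nat_lit 532) (nat_lit 14385549347) (nat_lit 60) (nat_lit 5) (nat_lit 59) (nat_lit 5) (nat_lit 66) (nat_lit 5) (nat_lit 286) (nat_lit 284) (nat_lit 210)))) (XT.nd (nat_lit 156) (nat_lit 608) (nat_lit 0) (XT.nd (nat_lit 78) (nat_lit 456) (nat_lit 0) (XT.lf (nat_lit 76) (nat_lit 86716406920) (nat_lit 0) (nat_lit 57084601767) (nat_lit 532) (nat_lit 1153073327) (nat_lit 61) (nat_lit 5) (nat_lit 60) (nat_lit 5) (nat_lit 67) (nat_lit 5) (nat_lit 287) (nat_lit 284) (nat_lit 209)) (XT.lf (nat_lit 0) (nat_lit 19041464893) (nat_lit 532) (nat_lit 73989966578) (nat_lit 76) (nat_lit 63424071006) (nat_lit 54) (nat_lit 5) (nat_lit 61) (nat_lit 5) (nat_lit 55) (nat_lit 5) (nat_lit 288) (nat_lit 284) (nat_lit 208))) (XT.nd (nat_lit 78) (nat_lit 228) (nat_lit 0) (XT.lf (nat_lit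 0) (nat_lit 48253329040) (nat_lit 456) (nat_lit 89424697731) (nat_lit 76) (nat_lit 31517200954) (nat_lit 49) (nat_lit 5) (nat_lit 55) (nat_lit 5) (nat_lit 50) (nat_lit 5) (nat_lit 289) (nat_lit 284) (nat_lit 207)) (XT.lf (nat_lit 0) (nat_lit 78709567987) (nat_lit 228) (nat_lit 9812574383) (nat_lit 304) (nat_lit 94789756964) (nat_lit 46) (nat_lit 5) (nat_lit 49) (nat_lit 5) (nat_lit 50) (nat_lit 5) (nat_lit 290) (nat_lit 284) (nat_lit 206))))) (XT.nd (nat_lit 234) (nat_lit 684) (nat_lit 0) (XT.nd (nat_lit 78) (nat_lit 456) (nat_lit 0) (XT.lf (nat_lit 0) (nat_lit 78709838913) (nat_lit 228) (nat_lit 63985177996) (nat_lit 304) (nat_lit 56221956630) (nat_lit 43) (nat_lit 5) (nat_lit 46) (nat_lit 5) (nat_lit 47) (nat_lit 5) (nat_lit 291) (nat_lit 284) (nat_lit 205)) (XT.nd (nat_lit 78) (nat_lit 304) (nat_lit 0) (XT.lf (nat_lit 0) (nat_lit 80917752833) (nat_lit 152) (nat_lit 131430016444) (nat_lit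 228) (nat_lit 3926724727) (nat_lit 41) (nat_lit 5) (nat_lit 43) (nat_lit 5) (nat_lit 44) (nat_lit 5) (nat_lit 292) (nat_lit 284) (nat_lit 204)) (XT.lf (nat_lit 0) (nat_lit 61365231151) (nat_lit 304) (nat_lit 151556096230) (nat_lit 76) (nat_lit 22569007877) (nat_lit 37) (nat_lit 5) (nat_lit 41) (nat_lit 5) (nat_lit 38) (nat_lit 5) (nat_lit 293) (nat_lit 284) (nat_lit 203)))) (XT.nd (nat_lit 156) (nat_lit 380) (nat_lit 0) (XT.nd (nat_lit 78) (nat_lit 152) (nat_lit 0) (XT.lf (nat_lit 0) (nat_lit 87576459564) (nat_lit 152) (nat_lit 58432385567) (nat_lit 228) (nat_lit 110788319092) (nat_lit 35) (nat_lit 5) (nat_lit 37) (nat_lit 5) (nat_lit 38) (nat_lit 5) (nat_lit 294) (nat_lit 284) (nat_lit 202)) (XT.lf (nat_lit 0) (nat_lit 92451546333) (nat_lit 152) (nat_lit 160514845531) (nat_lit 228) (nat_lit 27564234941) (nat_lit 33) (nat_lit 5) (nat_lit 35) (nat_lit 5) (nat_lit 36) (nat_lit 5) (nat_lit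 295) (nat_lit 284) (nat_lit 201))) (XT.nd (nat_lit 78) (nat_lit 152) (nat_lit 0) (XT.lf (nat_lit 0) (nat_lit 74330243423) (nat_lit 228) (nat_lit 209851605323) (nat_lit 76) (nat_lit 22743504817) (nat_lit 30) (nat_lit 5) (nat_lit 33) (nat_lit 5) (nat_lit 31) (nat_lit 5) (nat_lit 296) (nat_lit 284) (nat_lit 200)) (XT.lf (nat_lit 0) (nat_lit 99163562525) (nat_lit 152) (nat_lit 103201432938) (nat_lit 228) (nat_lit 133857960929) (nat_lit 28) (nat_lit 5) (nat_lit 30) (nat_lit 5) (nat_lit 31) (nat_lit 5) (nat_lit 297) (nat_lit 284) (nat_lit 199))))))))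
noncomputable def xc49 : XT := (XT.nd (nat_lit 2106) (nat_lit 152) (nat_lit 0) (XT.nd (nat_lit 1014) (nat_lit 532) (nat_lit 0) (XT.nd (nat_lit 468) (nat_lit 684) (nat_lit 0) (XT.nd (nat_lit 234) (nat_lit 304) (nat_lit 0) (XT.nd (nat_lit 78) (nat_lit 304) (nat_lit 0) (XT.lf (nat_lit 0) (nat_lit 100139040879) (nat_lit 76) (nat_lit 260665604555) (nat_lit 152) (nat_lit 8214579719) (nat_lit 27) (nat_lit 5) (nat_lit 28) (nat_lit 5) (nat_lit 29) (nat_lit 4) (nat_lit 298) (nat_lit 284) (nat_lit 198)) (XT.nd (nat_lit 78) (nat_lit 76) (nat_lit 0) (XT.lf (nat_lit 0) (nat_lit 94505959722) (nat_lit 152) (nat_lit 47160068413) (nat_lit 228) (nat_lit 263830091409) (nat_lit 24) (nat_lit 5) (nat_lit 26) (nat_lit 5) (nat_lit 27) (nat_lit 5) (nat_lit 299) (nat_lit 284) (nat_lit 197)) (XT.lf (nat_lit 0) (nat_lit 80699206837) (nat_lit 76) (nat_lit 247599725041) (nat_lit 152) (nat_lit 117948019224) (nat_lit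 23) (nat_lit 5) (nat_lit 24) (nat_lit 5) (nat_lit 25) (nat_lit 4) (nat_lit 300) (nat_lit 284) (nat_lit 196)))) (XT.nd (nat_lit 78) (nat_lit 76) (nat_lit 0) (XT.lf (nat_lit 0) (nat_lit 57738657518) (nat_lit 152) (nat_lit 1567610536) (nat_lit 228) (nat_lit 432749739096) (nat_lit 20) (nat_lit 5) (nat_lit 22) (nat_lit 5) (nat_lit 23) (nat_lit 5) (nat_lit 301) (nat_lit 284) (nat_lit 195)) (XT.nd (nat_lit 78) (nat_lit 0) (nat_lit 0) (XT.lf (nat_lit 0) (nat_lit 13119675102) (nat_lit 76) (nat_lit 261244859086) (nat_lit 152) (nat_lit 268670826805) (nat_lit 19) (nat_lit 5) (nat_lit 20) (nat_lit 5) (nat_lit 21) (nat_lit 4) (nat_lit 302) (nat_lit 284) (nat_lit 194)) (XT.lf (nat_lit 0) (nat_lit 534838583659) (nat_lit 152) (nat_lit 47190041470) (nat_lit 0) (nat_lit 18580429444) (nat_lit 19) (nat_lit 5) (nat_lit 21) (nat_lit 4) (nat_lit 19) (nat_lit 4) (nat_lit 303) (nat_lit 284) (nat_lit 193))))) (XT.nd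 (nat_lit 234) (nat_lit 304) (nat_lit 0) (XT.nd (nat_lit 78) (nat_lit 228) (nat_lit 0) (XT.lf (nat_lit 0) (nat_lit 179601136513) (nat_lit 152) (nat_lit 142687991991) (nat_lit 76) (nat_lit 342573800533) (nat_lit 17) (nat_lit 5) (nat_lit 19) (nat_lit 5) (nat_lit 18) (nat_lit 4) (nat_lit 304) (nat_lit 284) (nat_lit 192)) (XT.nd (nat_lit 78) (nat_lit 152) (nat_lit 0) (XT.lf (nat_lit 0) (nat_lit 462435076155) (nat_lit 76) (nat_lit 8090696684) (nat_lit 152) (nat_lit 267081115324) (nat_lit 16) (nat_lit 5) (nat_lit 17) (nat_lit 5) (nat_lit 18) (nat_lit 4) (nat_lit 305) (nat_lit 284) (nat_lit 191)) (XT.lf (nat_lit 0) (nat_lit 6488842413) (nat_lit 152) (nat_lit 464520507672) (nat_lit 76) (nat_lit 348535958827) (nat_lit 14) (nat_lit 5) (nat_lit 16) (nat_lit 5) (nat_lit 15) (nat_lit 4) (nat_lit 306) (nat_lit 284) (nat_lit 190)))) (XT.nd (nat_lit 156) (nat_lit 228) (nat_lit 0) (XT.nd (nat_lit 78) (nat_lit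 0) (nat_lit 0) (XT.lf (nat_lit 0) (nat_lit 184701349128) (nat_lit 76) (nat_lit 133913445021) (nat_lit 152) (nat_lit 593537950322) (nat_lit 13) (nat_lit 5) (nat_lit 14) (nat_lit 5) (nat_lit 15) (nat_lit 4) (nat_lit 307) (nat_lit 284) (nat_lit 189)) (XT.lf (nat_lit 0) (nat_lit 697537351565) (nat_lit 152) (nat_lit 64587198870) (nat_lit 0) (nat_lit 254928527956) (nat_lit 13) (nat_lit 5) (nat_lit 15) (nat_lit 4) (nat_lit 13) (nat_lit 4) (nat_lit 308) (nat_lit 284) (nat_lit 188))) (XT.nd (nat_lit 78) (nat_lit 76) (nat_lit 0) (XT.lf (nat_lit 0) (nat_lit 17655228814) (nat_lit 152) (nat_lit 405886033660) (nat_lit 76) (nat_lit 712409583902) (nat_lit 11) (nat_lit 5) (nat_lit 13) (nat_lit 5) (nat_lit 12) (nat_lit 4) (nat_lit 309) (nat_lit 284) (nat_lit 187)) (XT.lf (nat_lit 0) (nat_lit 385701157688) (nat_lit 76) (nat_lit 12524872143) (nat_lit 152) (nat_lit 872853873095) (nat_lit 10) (nat_lit 5) (nat_lit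 11) (nat_lit 5) (nat_lit 12) (nat_lit 4) (nat_lit 310) (nat_lit 284) (nat_lit 186)))))) (XT.nd (nat_lit 546) (nat_lit 228) (nat_lit 0) (XT.nd (nat_lit 234) (nat_lit 76) (nat_lit 0) (XT.nd (nat_lit 78) (nat_lit 228) (nat_lit 0) (XT.lf (nat_lit 0) (nat_lit 859072647044) (nat_lit 152) (nat_lit 116301002096) (nat_lit 0) (nat_lit 449249453174) (nat_lit 10) (nat_lit 5) (nat_lit 12) (nat_lit 4) (nat_lit 10) (nat_lit 4) (nat_lit 311) (nat_lit 284) (nat_lit 185)) (XT.nd (nat_lit 78) (nat_lit 152) (nat_lit 0) (XT.lf (nat_lit 0) (nat_lit 808222300736) (nat_lit 76) (nat_lit 600608001736) (nat_lit 76) (nat_lit 190784755517) (nat_lit 9) (nat_lit 4) (nat_lit 10) (nat_lit 5) (nat_lit 10) (nat_lit 4) (nat_lit 312) (nat_lit 284) (nat_lit 184)) (XT.lf (nat_lit 0) (nat_lit 75809403874) (nat_lit 76) (nat_lit 157667853631) (nat_lit 152) (nat_lit 1566492650354) (nat_lit 7) (nat_lit 5) (nat_lit 8) (nat_lit 5)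 (nat_lit 9) (nat_lit 4) (nat_lit 313) (nat_lit 284) (nat_lit 183)))) (XT.nd (nat_lit 156) (nat_lit 76) (nat_lit 0) (XT.nd (nat_lit 78) (nat_lit 0) (nat_lit 0) (XT.lf (nat_lit 0) (nat_lit 742500779414) (nat_lit 152) (nat_lit 921852534595) (nat_lit 0) (nat_lit 363034731893) (nat_lit 7) (nat_lit 5) (nat_lit 9) (nat_lit 4) (nat_lit 7) (nat_lit 4) (nat_lit 314) (nat_lit 284) (nat_lit 182)) (XT.lf (nat_lit 0) (nat_lit 1332238435972) (nat_lit 152) (nat_lit 3559263605) (nat_lit 0) (nat_lit 952772356581) (nat_lit 7) (nat_lit 5) (nat_lit 9) (nat_lit 4) (nat_lit 7) (nat_lit 4) (nat_lit 315) (nat_lit 284) (nat_lit 181))) (XT.nd (nat_lit 78) (nat_lit 0) (nat_lit 0) (XT.lf (nat_lit 0) (nat_lit 1107899449619) (nat_lit 76) (nat_lit 929182215754) (nat_lit 76) (nat_lit 549716108649) (nat_lit 6) (nat_lit 4) (nat_lit 7) (nat_lit 5) (nat_lit 7) (nat_lit 4) (nat_lit 316) (nat_lit 284) (nat_lit 180)) (XT.lf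 (nat_lit 0) (nat_lit 2386292356160) (nat_lit 76) (nat_lit 461462570415) (nat_lit 76) (nat_lit 81996439213) (nat_lit 6) (nat_lit 4) (nat_lit 7) (nat_lit 5) (nat_lit 7) (nat_lit 4) (nat_lit 317) (nat_lit 284) (nat_lit 179))))) (XT.nd (nat_lit 234) (nat_lit 76) (nat_lit 0) (XT.nd (nat_lit 78) (nat_lit 0) (nat_lit 0) (XT.lf (nat_lit 0) (nat_lit 448739742535) (nat_lit 152) (nat_lit 2775895856495) (nat_lit 0) (nat_lit 97382194241) (nat_lit 4) (nat_lit 5) (nat_lit 6) (nat_lit 4) (nat_lit 4) (nat_lit 4) (nat_lit 318) (nat_lit 284) (nat_lit 178)) (XT.nd (nat_lit 78) (nat_lit 0) (nat_lit 0) (XT.lf (nat_lit 0) (nat_lit 1083365329461) (nat_lit 152) (nat_lit 1955249982349) (nat_lit 0) (nat_lit 732007764294) (nat_lit 4) (nat_lit 5) (nat_lit 6) (nat_lit 4) (nat_lit 4) (nat_lit 4) (nat_lit 319) (nat_lit 284) (nat_lit 177)) (XT.lf (nat_lit 0) (nat_lit 1813184698763) (nat_lit 152) (nat_lit 1011507338137)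 (nat_lit 0) (nat_lit 1461827118925) (nat_lit 4) (nat_lit 5) (nat_lit 6) (nat_lit 4) (nat_lit 4) (nat_lit 4) (nat_lit 320) (nat_lit 284) (nat_lit 176)))) (XT.nd (nat_lit 156) (nat_lit 0) (nat_lit 0) (XT.nd (nat_lit 78) (nat_lit 0) (nat_lit 0) (XT.lf (nat_lit 0) (nat_lit 77682604636) (nat_lit 76) (nat_lit 2576662588931) (nat_lit 76) (nat_lit 2225304996335) (nat_lit 3) (nat_lit 4) (nat_lit 4) (nat_lit 5) (nat_lit 4) (nat_lit 4) (nat_lit 321) (nat_lit 284) (nat_lit 175)) (XT.lf (nat_lit 0) (nat_lit 1391504761893) (nat_lit 76) (nat_lit 2259623904302) (nat_lit 76) (nat_lit 1908266300613) (nat_lit 3) (nat_lit 4) (nat_lit 4) (nat_lit 5) (nat_lit 4) (nat_lit 4) (nat_lit 322) (nat_lit 284) (nat_lit 174))) (XT.nd (nat_lit 78) (nat_lit 0) (nat_lit 0) (XT.lf (nat_lit 0) (nat_lit 2902400165872) (nat_lit 76) (nat_lit 1895029455398) (nat_lit 76) (nat_lit 1543671842062) (nat_lit 3) (nat_lit 4) (nat_lit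 4) (nat_lit 5) (nat_lit 4) (nat_lit 4) (nat_lit 323) (nat_lit 284) (nat_lit 173)) (XT.lf (nat_lit 0) (nat_lit 4639929813607) (nat_lit 76) (nat_lit 1475745872566) (nat_lit 76) (nat_lit 1124388250841) (nat_lit 3) (nat_lit 4) (nat_lit 4) (nat_lit 5) (nat_lit 4) (nat_lit 4) (nat_lit 324) (nat_lit 284) (nat_lit 172))))))) (XT.nd (nat_lit 38298) (nat_lit 0) (nat_lit 912) (XT.nd (nat_lit 37752) (nat_lit 0) (nat_lit 2736) (XT.nd (nat_lit 37518) (nat_lit 0) (nat_lit 4332) (XT.nd (nat_lit 78) (nat_lit 152) (nat_lit 0) (XT.lf (nat_lit 0) (nat_lit 6638088850381) (nat_lit 76) (nat_lit 993569781359) (nat_lit 76) (nat_lit 642212152339) (nat_lit 3) (nat_lit 4) (nat_lit 4) (nat_lit 5) (nat_lit 4) (nat_lit 4) (nat_lit 325) (nat_lit 284) (nat_lit 171)) (XT.nd (nat_lit 78) (nat_lit 152) (nat_lit 0) (XT.lf (nat_lit 0) (nat_lit 8935971692130) (nat_lit 76) (nat_lit 439067301731) (nat_lit 76) (nat_lit 87709666369)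 (nat_lit 3) (nat_lit 4) (nat_lit 4) (nat_lit 5) (nat_lit 4) (nat_lit 4) (nat_lit 326) (nat_lit 284) (nat_lit 170)) (XT.lf (nat_lit 0) (nat_lit 546676724049) (nat_lit 152) (nat_lit 10058940165374) (nat_lit 0) (nat_lit 221345575088) (nat_lit 1) (nat_lit 5) (nat_lit 3) (nat_lit 4) (nat_lit 1) (nat_lit 4) (nat_lit 327) (nat_lit 284) (nat_lit 169)))) (XT.nd (nat_lit 78) (nat_lit 0) (nat_lit 0) (XT.lf (nat_lit 0) (nat_lit 54413166602) (nat_lit 532) (nat_lit 6304280069) (nat_lit 532) (nat_lit 6304280069) (nat_lit 58) (nat_lit 3) (nat_lit 65) (nat_lit 3) (nat_lit 65) (nat_lit 5) (nat_lit 285) (nat_lit 285) (nat_lit 210)) (XT.nd (nat_lit 78) (nat_lit 0) (nat_lit 76) (XT.lf (nat_lit 76) (nat_lit 113210094136) (nat_lit 0) (nat_lit 6507017688) (nat_lit 532) (nat_lit 24161287235) (nat_lit 59) (nat_lit 5) (nat_lit 58) (nat_lit 3) (nat_lit 65) (nat_lit 5) (nat_lit 286) (nat_lit 285) (nat_lit 209)) (XT.lf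 (nat_lit 76) (nat_lit 105764237470) (nat_lit 0) (nat_lit 32418559462) (nat_lit 532) (nat_lit 16530487993) (nat_lit 60) (nat_lit 5) (nat_lit 59) (nat_lit 5) (nat_lit 66) (nat_lit 5) (nat_lit 287) (nat_lit 285) (nat_lit 208))))) (XT.nd (nat_lit 234) (nat_lit 912) (nat_lit 0) (XT.nd (nat_lit 78) (nat_lit 836) (nat_lit 0) (XT.lf (nat_lit 76) (nat_lit 99732303318) (nat_lit 0) (nat_lit 65649348053) (nat_lit 532) (nat_lit 1314688391) (nat_lit 61) (nat_lit 5) (nat_lit 60) (nat_lit 5) (nat_lit 67) (nat_lit 5) (nat_lit 288) (nat_lit 285) (nat_lit 207)) (XT.nd (nat_lit 78) (nat_lit 380) (nat_lit 0) (XT.lf (nat_lit 0) (nat_lit 21907223944) (nat_lit 532) (nat_lit 85079398137) (nat_lit 76) (nat_lit 72936430349) (nat_lit 54) (nat_lit 5) (nat_lit 61) (nat_lit 5) (nat_lit 55) (nat_lit 5) (nat_lit 289) (nat_lit 285) (nat_lit 206)) (XT.lf (nat_lit 0) (nat_lit 55499818210) (nat_lit 456) (nat_lit 102829411128)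 (nat_lit 76) (nat_lit 36244592688) (nat_lit 49) (nat_lit 5) (nat_lit 55) (nat_lit 5) (nat_lit 50) (nat_lit 5) (nat_lit 290) (nat_lit 285) (nat_lit 205)))) (XT.nd (nat_lit 156) (nat_lit 456) (nat_lit 0) (XT.nd (nat_lit 78) (nat_lit 228) (nat_lit 0) (XT.lf (nat_lit 0) (nat_lit 90524233382) (nat_lit 228) (nat_lit 11283810726) (nat_lit 304) (nat_lit 109000024415) (nat_lit 46) (nat_lit 5) (nat_lit 49) (nat_lit 5) (nat_lit 50) (nat_lit 5) (nat_lit 291) (nat_lit 285) (nat_lit 204)) (XT.lf (nat_lit 0) (nat_lit 90524397591) (nat_lit 228) (nat_lit 73581671474) (nat_lit 304) (nat_lit 64647898466) (nat_lit 43) (nat_lit 5) (nat_lit 46) (nat_lit 5) (nat_lit 47) (nat_lit 5) (nat_lit 292) (nat_lit 285) (nat_lit 203))) (XT.nd (nat_lit 78) (nat_lit 304) (nat_lit 0) (XT.lf (nat_lit 0) (nat_lit 93063291489) (nat_lit 152) (nat_lit 151142772140) (nat_lit 228) (nat_lit 4509107143) (nat_lit 41) (nat_lit 5) (nat_lit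 43) (nat_lit 5) (nat_lit 44) (nat_lit 5) (nat_lit 293) (nat_lit 285) (nat_lit 202)) (XT.lf (nat_lit 0) (nat_lit 70575715225) (nat_lit 304) (nat_lit 174281579022) (nat_lit 76) (nat_lit 25956129698) (nat_lit 37) (nat_lit 5) (nat_lit 41) (nat_lit 5) (nat_lit 38) (nat_lit 5) (nat_lit 294) (nat_lit 285) (nat_lit 201)))))) (XT.nd (nat_lit 546) (nat_lit 760) (nat_lit 0) (XT.nd (nat_lit 234) (nat_lit 532) (nat_lit 0) (XT.nd (nat_lit 78) (nat_lit 380) (nat_lit 0) (XT.lf (nat_lit 0) (nat_lit 100720188767) (nat_lit 152) (nat_lit 67195113744) (nat_lit 228) (nat_lit 127401020983) (nat_lit 35) (nat_lit 5) (nat_lit 37) (nat_lit 5) (nat_lit 38) (nat_lit 5) (nat_lit 295) (nat_lit 285) (nat_lit 200)) (XT.nd (nat_lit 78) (nat_lit 228) (nat_lit 0) (XT.lf (nat_lit 0) (nat_lit 106326257326) (nat_lit 152) (nat_lit 184589767103) (nat_lit 228) (nat_lit 31693818222) (nat_lit 33) (nat_lit 5) (nat_lit 35) (nat_lit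 5) (nat_lit 36) (nat_lit 5) (nat_lit 296) (nat_lit 285) (nat_lit 199)) (XT.lf (nat_lit 0) (nat_lit 85484167570) (nat_lit 228) (nat_lit 241322427919) (nat_lit 76) (nat_lit 26157206659) (nat_lit 30) (nat_lit 5) (nat_lit 33) (nat_lit 5) (nat_lit 31) (nat_lit 5) (nat_lit 297) (nat_lit 285) (nat_lit 198)))) (XT.nd (nat_lit 156) (nat_lit 304) (nat_lit 0) (XT.nd (nat_lit 78) (nat_lit 76) (nat_lit 0) (XT.lf (nat_lit 0) (nat_lit 114044429514) (nat_lit 152) (nat_lit 118679282900) (nat_lit 228) (nat_lit 153932367033) (nat_lit 28) (nat_lit 5) (nat_lit 30) (nat_lit 5) (nat_lit 31) (nat_lit 5) (nat_lit 298) (nat_lit 285) (nat_lit 197)) (XT.lf (nat_lit 0) (nat_lit 115165934816) (nat_lit 76) (nat_lit 299763052217) (nat_lit 152) (nat_lit 9442827709) (nat_lit 27) (nat_lit 5) (nat_lit 28) (nat_lit 5) (nat_lit 29) (nat_lit 4) (nat_lit 299) (nat_lit 285) (nat_lit 196))) (XT.nd (nat_lit 78) (nat_lit 76) (nat_lit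 0) (XT.lf (nat_lit 0) (nat_lit 108687562984) (nat_lit 152) (nat_lit 54231760527) (nat_lit 228) (nat_lit 303400940578) (nat_lit 24) (nat_lit 5) (nat_lit 26) (nat_lit 5) (nat_lit 27) (nat_lit 5) (nat_lit 300) (nat_lit 285) (nat_lit 195)) (XT.lf (nat_lit 0) (nat_lit 92809513115) (nat_lit 76) (nat_lit 284737386333) (nat_lit 152) (nat_lit 135636842275) (nat_lit 23) (nat_lit 5) (nat_lit 24) (nat_lit 5) (nat_lit 25) (nat_lit 4) (nat_lit 301) (nat_lit 285) (nat_lit 194))))) (XT.nd (nat_lit 234) (nat_lit 456) (nat_lit 0) (XT.nd (nat_lit 78) (nat_lit 76) (nat_lit 0) (XT.lf (nat_lit 0) (nat_lit 66404578483) (nat_lit 152) (nat_lit 1800544936) (nat_lit 228) (nat_lit 497659050125) (nat_lit 20) (nat_lit 5) (nat_lit 22) (nat_lit 5) (nat_lit 23) (nat_lit 5) (nat_lit 302) (nat_lit 285) (nat_lit 193)) (XT.nd (nat_lit 78) (nat_lit 0) (nat_lit 0) (XT.lf (nat_lit 0) (nat_lit 15092481349) (nat_lit 76) (nat_lit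 300429430808) (nat_lit 152) (nat_lit 308968535883) (nat_lit 19) (nat_lit 5) (nat_lit 20) (nat_lit 5) (nat_lit 21) (nat_lit 4) (nat_lit 303) (nat_lit 285) (nat_lit 192)) (XT.lf (nat_lit 0) (nat_lit 615066762269) (nat_lit 152) (nat_lit 54264182295) (nat_lit 0) (nat_lit 21369275802) (nat_lit 19) (nat_lit 5) (nat_lit 21) (nat_lit 4) (nat_lit 19) (nat_lit 4) (nat_lit 304) (nat_lit 285) (nat_lit 191)))) (XT.nd (nat_lit 156) (nat_lit 228) (nat_lit 0) (XT.nd (nat_lit 78) (nat_lit 76) (nat_lit 0) (XT.lf (nat_lit 0) (nat_lit 206543539691) (nat_lit 152) (nat_lit 164087076441) (nat_lit 76) (nat_lit 393961572752) (nat_lit 17) (nat_lit 5) (nat_lit 19) (nat_lit 5) (nat_lit 18) (nat_lit 4) (nat_lit 305) (nat_lit 285) (nat_lit 190)) (XT.lf (nat_lit 0) (nat_lit 531804103668) (nat_lit 76) (nat_lit 9302567151) (nat_lit 152) (nat_lit 307141087229) (nat_lit 16) (nat_lit 5) (nat_lit 17) (nat_lit 5) (nat_lit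 18) (nat_lit 4) (nat_lit 306) (nat_lit 285) (nat_lit 189))) (XT.nd (nat_lit 78) (nat_lit 76) (nat_lit 0) (XT.lf (nat_lit 0) (nat_lit 7464107330) (nat_lit 152) (nat_lit 534194922467) (nat_lit 76) (nat_lit 400817919743) (nat_lit 14) (nat_lit 5) (nat_lit 16) (nat_lit 5) (nat_lit 15) (nat_lit 4) (nat_lit 307) (nat_lit 285) (nat_lit 188)) (XT.lf (nat_lit 0) (nat_lit 212409902938) (nat_lit 76) (nat_lit 153998876637) (nat_lit 152) (nat_lit 682566734721) (nat_lit 13) (nat_lit 5) (nat_lit 14) (nat_lit 5) (nat_lit 15) (nat_lit 4) (nat_lit 308) (nat_lit 285) (nat_lit 187))))))))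
noncomputable def xc50 : XT := (XT.nd (nat_lit 39468) (nat_lit 0) (nat_lit 76) (XT.nd (nat_lit 1014) (nat_lit 76) (nat_lit 0) (XT.nd (nat_lit 468) (nat_lit 228) (nat_lit 0) (XT.nd (nat_lit 234) (nat_lit 228) (nat_lit 0) (XT.nd (nat_lit 78) (nat_lit 228) (nat_lit 0) (XT.lf (nat_lit 0) (nat_lit 802169523365) (nat_lit 152) (nat_lit 74272274209) (nat_lit 0) (nat_lit 293169116578) (nat_lit 13) (nat_lit 5) (nat_lit 15) (nat_lit 4) (nat_lit 13) (nat_lit 4) (nat_lit 309) (nat_lit 285) (nat_lit 186)) (XT.nd (nat_lit 78) (nat_lit 76) (nat_lit 0) (XT.lf (nat_lit 0) (nat_lit 20304981229) (nat_lit 152) (nat_lit 466766110845) (nat_lit 76) (nat_lit 819272263430) (nat_lit 11) (nat_lit 5) (nat_lit 13) (nat_lit 5) (nat_lit 12) (nat_lit 4) (nat_lit 310) (nat_lit 285) (nat_lit 185)) (XT.lf (nat_lit 0) (nat_lit 443558919841) (nat_lit 76) (nat_lit 14402353322) (nat_lit 152) (nat_lit 1003780507764) (nat_lit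 10) (nat_lit 5) (nat_lit 11) (nat_lit 5) (nat_lit 12) (nat_lit 4) (nat_lit 311) (nat_lit 285) (nat_lit 184)))) (XT.nd (nat_lit 78) (nat_lit 228) (nat_lit 0) (XT.lf (nat_lit 0) (nat_lit 987934734458) (nat_lit 152) (nat_lit 133743834249) (nat_lit 0) (nat_lit 516637903437) (nat_lit 10) (nat_lit 5) (nat_lit 12) (nat_lit 4) (nat_lit 10) (nat_lit 4) (nat_lit 312) (nat_lit 285) (nat_lit 183)) (XT.nd (nat_lit 78) (nat_lit 152) (nat_lit 0) (XT.lf (nat_lit 0) (nat_lit 929457767786) (nat_lit 76) (nat_lit 690698166182) (nat_lit 76) (nat_lit 219401295578) (nat_lit 9) (nat_lit 4) (nat_lit 10) (nat_lit 5) (nat_lit 10) (nat_lit 4) (nat_lit 313) (nat_lit 285) (nat_lit 182)) (XT.lf (nat_lit 0) (nat_lit 87182810720) (nat_lit 76) (nat_lit 181317052618) (nat_lit 152) (nat_lit 1801465449124) (nat_lit 7) (nat_lit 5) (nat_lit 8) (nat_lit 5) (nat_lit 9) (nat_lit 4) (nat_lit 314) (nat_lit 285) (nat_lit 181)))))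 (XT.nd (nat_lit 234) (nat_lit 152) (nat_lit 0) (XT.nd (nat_lit 78) (nat_lit 76) (nat_lit 0) (XT.lf (nat_lit 0) (nat_lit 853876801327) (nat_lit 152) (nat_lit 1060128628440) (nat_lit 0) (nat_lit 417490750444) (nat_lit 7) (nat_lit 5) (nat_lit 9) (nat_lit 4) (nat_lit 7) (nat_lit 4) (nat_lit 315) (nat_lit 285) (nat_lit 180)) (XT.nd (nat_lit 78) (nat_lit 76) (nat_lit 0) (XT.lf (nat_lit 0) (nat_lit 1532074988326) (nat_lit 152) (nat_lit 4091599803) (nat_lit 0) (nat_lit 1095688913344) (nat_lit 7) (nat_lit 5) (nat_lit 9) (nat_lit 4) (nat_lit 7) (nat_lit 4) (nat_lit 316) (nat_lit 285) (nat_lit 179)) (XT.lf (nat_lit 0) (nat_lit 1274085788922) (nat_lit 76) (nat_lit 1068558844764) (nat_lit 76) (nat_lit 632172748827) (nat_lit 6) (nat_lit 4) (nat_lit 7) (nat_lit 5) (nat_lit 7) (nat_lit 4) (nat_lit 317) (nat_lit 285) (nat_lit 178)))) (XT.nd (nat_lit 156) (nat_lit 0) (nat_lit 0) (XT.nd (nat_lit 78) (nat_lit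 152) (nat_lit 0) (XT.lf (nat_lit 0) (nat_lit 2744237445984) (nat_lit 76) (nat_lit 530681344367) (nat_lit 76) (nat_lit 94295230207) (nat_lit 6) (nat_lit 4) (nat_lit 7) (nat_lit 5) (nat_lit 7) (nat_lit 4) (nat_lit 318) (nat_lit 285) (nat_lit 177)) (XT.lf (nat_lit 0) (nat_lit 516051303264) (nat_lit 152) (nat_lit 3192279039178) (nat_lit 0) (nat_lit 111990071779) (nat_lit 4) (nat_lit 5) (nat_lit 6) (nat_lit 4) (nat_lit 4) (nat_lit 4) (nat_lit 319) (nat_lit 285) (nat_lit 176))) (XT.nd (nat_lit 78) (nat_lit 0) (nat_lit 0) (XT.lf (nat_lit 0) (nat_lit 1245870650053) (nat_lit 152) (nat_lit 2248536439882) (nat_lit 0) (nat_lit 841809405810) (nat_lit 4) (nat_lit 5) (nat_lit 6) (nat_lit 4) (nat_lit 4) (nat_lit 4) (nat_lit 320) (nat_lit 285) (nat_lit 175)) (XT.lf (nat_lit 0) (nat_lit 2085162856771) (nat_lit 152) (nat_lit 1163232534667) (nat_lit 0) (nat_lit 1681101601434) (nat_lit 4) (nat_lit 5) (nat_lit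 6) (nat_lit 4) (nat_lit 4) (nat_lit 4) (nat_lit 321) (nat_lit 285) (nat_lit 174)))))) (XT.nd (nat_lit 37908) (nat_lit 0) (nat_lit 3040) (XT.nd (nat_lit 234) (nat_lit 0) (nat_lit 0) (XT.nd (nat_lit 78) (nat_lit 0) (nat_lit 0) (XT.lf (nat_lit 0) (nat_lit 89335822986) (nat_lit 76) (nat_lit 2963161563602) (nat_lit 76) (nat_lit 2559100298618) (nat_lit 3) (nat_lit 4) (nat_lit 4) (nat_lit 5) (nat_lit 4) (nat_lit 4) (nat_lit 322) (nat_lit 285) (nat_lit 173)) (XT.nd (nat_lit 78) (nat_lit 0) (nat_lit 0) (XT.lf (nat_lit 0) (nat_lit 1600231195877) (nat_lit 76) (nat_lit 2598567130236) (nat_lit 76) (nat_lit 2194505856864) (nat_lit 3) (nat_lit 4) (nat_lit 4) (nat_lit 5) (nat_lit 4) (nat_lit 4) (nat_lit 323) (nat_lit 285) (nat_lit 172)) (XT.lf (nat_lit 0) (nat_lit 3337760816579) (nat_lit 76) (nat_lit 2179283560915) (nat_lit 76) (nat_lit 1775222280249) (nat_lit 3) (nat_lit 4) (nat_lit 4) (nat_lit 5) (nat_lit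 4) (nat_lit 4) (nat_lit 324) (nat_lit 285) (nat_lit 171)))) (XT.nd (nat_lit 156) (nat_lit 0) (nat_lit 0) (XT.nd (nat_lit 78) (nat_lit 0) (nat_lit 0) (XT.lf (nat_lit 0) (nat_lit 5335919829845) (nat_lit 76) (nat_lit 1697107481457) (nat_lit 76) (nat_lit 1293046194448) (nat_lit 3) (nat_lit 4) (nat_lit 4) (nat_lit 5) (nat_lit 4) (nat_lit 4) (nat_lit 325) (nat_lit 285) (nat_lit 170)) (XT.lf (nat_lit 0) (nat_lit 7633802651152) (nat_lit 76) (nat_lit 1142605012046) (nat_lit 76) (nat_lit 738543719521) (nat_lit 3) (nat_lit 4) (nat_lit 4) (nat_lit 5) (nat_lit 4) (nat_lit 4) (nat_lit 326) (nat_lit 285) (nat_lit 169))) (XT.nd (nat_lit 37440) (nat_lit 0) (nat_lit 4180) (XT.lf (nat_lit 0) (nat_lit 10276367857440) (nat_lit 76) (nat_lit 504927191324) (nat_lit 76) (nat_lit 100865894003) (nat_lit 3) (nat_lit 4) (nat_lit 4) (nat_lit 5) (nat_lit 4) (nat_lit 4) (nat_lit 327) (nat_lit 285) (nat_lit 168)) (XT.lf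 (nat_lit 0) (nat_lit 62580987224) (nat_lit 532) (nat_lit 7246761056) (nat_lit 532) (nat_lit 7246761056) (nat_lit 58) (nat_lit 3) (nat_lit 65) (nat_lit 3) (nat_lit 65) (nat_lit 5) (nat_lit 286) (nat_lit 286) (nat_lit 208))))) (XT.nd (nat_lit 234) (nat_lit 1140) (nat_lit 0) (XT.nd (nat_lit 78) (nat_lit 0) (nat_lit 76) (XT.lf (nat_lit 76) (nat_lit 130197395173) (nat_lit 0) (nat_lit 7487588915) (nat_lit 532) (nat_lit 27774335147) (nat_lit 59) (nat_lit 5) (nat_lit 58) (nat_lit 3) (nat_lit 65) (nat_lit 5) (nat_lit 287) (nat_lit 286) (nat_lit 207)) (XT.nd (nat_lit 78) (nat_lit 0) (nat_lit 76) (XT.lf (nat_lit 76) (nat_lit 121635038255) (nat_lit 0) (nat_lit 37284193289) (nat_lit 532) (nat_lit 19000311660) (nat_lit 60) (nat_lit 5) (nat_lit 59) (nat_lit 5) (nat_lit 66) (nat_lit 5) (nat_lit 288) (nat_lit 286) (nat_lit 206)) (XT.lf (nat_lit 76) (nat_lit 114698527160) (nat_lit 0) (nat_lit 75498304908)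 (nat_lit 532) (nat_lit 1503312493) (nat_lit 61) (nat_lit 5) (nat_lit 60) (nat_lit 5) (nat_lit 67) (nat_lit 5) (nat_lit 289) (nat_lit 286) (nat_lit 205)))) (XT.nd (nat_lit 156) (nat_lit 456) (nat_lit 0) (XT.nd (nat_lit 78) (nat_lit 380) (nat_lit 0) (XT.lf (nat_lit 0) (nat_lit 25200520630) (nat_lit 532) (nat_lit 97834454605) (nat_lit 76) (nat_lit 83875948733) (nat_lit 54) (nat_lit 5) (nat_lit 61) (nat_lit 5) (nat_lit 55) (nat_lit 5) (nat_lit 290) (nat_lit 286) (nat_lit 204)) (XT.lf (nat_lit 0) (nat_lit 63831210460) (nat_lit 456) (nat_lit 118247024112) (nat_lit 76) (nat_lit 41681139128) (nat_lit 49) (nat_lit 5) (nat_lit 55) (nat_lit 5) (nat_lit 50) (nat_lit 5) (nat_lit 291) (nat_lit 286) (nat_lit 203))) (XT.nd (nat_lit 78) (nat_lit 228) (nat_lit 0) (XT.lf (nat_lit 0) (nat_lit 104109091600) (nat_lit 228) (nat_lit 12975890983) (nat_lit 304) (nat_lit 125343830653) (nat_lit 46) (nat_lit 5) (nat_lit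 49) (nat_lit 5) (nat_lit 50) (nat_lit 5) (nat_lit 292) (nat_lit 286) (nat_lit 202)) (XT.lf (nat_lit 0) (nat_lit 104109169017) (nat_lit 228) (nat_lit 84617951896) (nat_lit 304) (nat_lit 74339524326) (nat_lit 43) (nat_lit 5) (nat_lit 46) (nat_lit 5) (nat_lit 47) (nat_lit 5) (nat_lit 293) (nat_lit 286) (nat_lit 201))))))) (XT.nd (nat_lit 1014) (nat_lit 988) (nat_lit 0) (XT.nd (nat_lit 468) (nat_lit 836) (nat_lit 0) (XT.nd (nat_lit 234) (nat_lit 532) (nat_lit 0) (XT.nd (nat_lit 78) (nat_lit 456) (nat_lit 0) (XT.lf (nat_lit 0) (nat_lit 107028740396) (nat_lit 152) (nat_lit 173812867152) (nat_lit 228) (nat_lit 5180462784) (nat_lit 41) (nat_lit 5) (nat_lit 43) (nat_lit 5) (nat_lit 44) (nat_lit 5) (nat_lit 294) (nat_lit 286) (nat_lit 200)) (XT.nd (nat_lit 78) (nat_lit 152) (nat_lit 0) (XT.lf (nat_lit 0) (nat_lit 81166382075) (nat_lit 304) (nat_lit 200417818414) (nat_lit 76) (nat_lit 29850888010)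 (nat_lit 37) (nat_lit 5) (nat_lit 41) (nat_lit 5) (nat_lit 38) (nat_lit 5) (nat_lit 295) (nat_lit 286) (nat_lit 199)) (XT.lf (nat_lit 0) (nat_lit 115833706889) (nat_lit 152) (nat_lit 77272770479) (nat_lit 228) (nat_lit 146506980578) (nat_lit 35) (nat_lit 5) (nat_lit 37) (nat_lit 5) (nat_lit 38) (nat_lit 5) (nat_lit 296) (nat_lit 286) (nat_lit 198)))) (XT.nd (nat_lit 78) (nat_lit 380) (nat_lit 0) (XT.lf (nat_lit 0) (nat_lit 122280473085) (nat_lit 152) (nat_lit 212276489061) (nat_lit 228) (nat_lit 36444070948) (nat_lit 33) (nat_lit 5) (nat_lit 35) (nat_lit 5) (nat_lit 36) (nat_lit 5) (nat_lit 297) (nat_lit 286) (nat_lit 197)) (XT.nd (nat_lit 78) (nat_lit 152) (nat_lit 0) (XT.lf (nat_lit 0) (nat_lit 98310110386) (nat_lit 228) (nat_lit 277515560952) (nat_lit 76) (nat_lit 30082433116) (nat_lit 30) (nat_lit 5) (nat_lit 33) (nat_lit 5) (nat_lit 31) (nat_lit 5) (nat_lit 298) (nat_lit 286) (nat_lit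 196)) (XT.lf (nat_lit 0) (nat_lit 131155882306) (nat_lit 152) (nat_lit 136479387072) (nat_lit 228) (nat_lit 177018979719) (nat_lit 28) (nat_lit 5) (nat_lit 30) (nat_lit 5) (nat_lit 31) (nat_lit 5) (nat_lit 299) (nat_lit 286) (nat_lit 195))))) (XT.nd (nat_lit 234) (nat_lit 456) (nat_lit 0) (XT.nd (nat_lit 78) (nat_lit 304) (nat_lit 0) (XT.lf (nat_lit 0) (nat_lit 132445390487) (nat_lit 76) (nat_lit 344725700581) (nat_lit 152) (nat_lit 10856273440) (nat_lit 27) (nat_lit 5) (nat_lit 28) (nat_lit 5) (nat_lit 29) (nat_lit 4) (nat_lit 300) (nat_lit 286) (nat_lit 194)) (XT.nd (nat_lit 78) (nat_lit 76) (nat_lit 0) (XT.lf (nat_lit 0) (nat_lit 124995014486) (nat_lit 152) (nat_lit 62364771754) (nat_lit 228) (nat_lit 348908310744) (nat_lit 24) (nat_lit 5) (nat_lit 26) (nat_lit 5) (nat_lit 27) (nat_lit 5) (nat_lit 301) (nat_lit 286) (nat_lit 193)) (XT.lf (nat_lit 0) (nat_lit 106735042353) (nat_lit 76)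 (nat_lit 327446257069) (nat_lit 152) (nat_lit 155979812978) (nat_lit 23) (nat_lit 5) (nat_lit 24) (nat_lit 5) (nat_lit 25) (nat_lit 4) (nat_lit 302) (nat_lit 286) (nat_lit 192)))) (XT.nd (nat_lit 156) (nat_lit 152) (nat_lit 0) (XT.nd (nat_lit 78) (nat_lit 76) (nat_lit 0) (XT.lf (nat_lit 0) (nat_lit 76369138479) (nat_lit 152) (nat_lit 2068957731) (nat_lit 228) (nat_lit 572305525915) (nat_lit 20) (nat_lit 5) (nat_lit 22) (nat_lit 5) (nat_lit 23) (nat_lit 5) (nat_lit 303) (nat_lit 286) (nat_lit 191)) (XT.lf (nat_lit 0) (nat_lit 17360024615) (nat_lit 76) (nat_lit 345492214320) (nat_lit 152) (nat_lit 355311612149) (nat_lit 19) (nat_lit 5) (nat_lit 20) (nat_lit 5) (nat_lit 21) (nat_lit 4) (nat_lit 304) (nat_lit 286) (nat_lit 190))) (XT.nd (nat_lit 78) (nat_lit 152) (nat_lit 0) (XT.lf (nat_lit 0) (nat_lit 707328584595) (nat_lit 152) (nat_lit 62400508773) (nat_lit 0) (nat_lit 24576014576) (nat_lit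 19) (nat_lit 5) (nat_lit 21) (nat_lit 4) (nat_lit 19) (nat_lit 4) (nat_lit 305) (nat_lit 286) (nat_lit 189)) (XT.lf (nat_lit 0) (nat_lit 237526758887) (nat_lit 152) (nat_lit 188697026868) (nat_lit 76) (nat_lit 453057095727) (nat_lit 17) (nat_lit 5) (nat_lit 19) (nat_lit 5) (nat_lit 18) (nat_lit 4) (nat_lit 306) (nat_lit 286) (nat_lit 188)))))) (XT.nd (nat_lit 546) (nat_lit 456) (nat_lit 0) (XT.nd (nat_lit 234) (nat_lit 228) (nat_lit 0) (XT.nd (nat_lit 78) (nat_lit 228) (nat_lit 0) (XT.lf (nat_lit 0) (nat_lit 611577566923) (nat_lit 76) (nat_lit 10696641043) (nat_lit 152) (nat_lit 353210590280) (nat_lit 16) (nat_lit 5) (nat_lit 17) (nat_lit 5) (nat_lit 18) (nat_lit 4) (nat_lit 307) (nat_lit 286) (nat_lit 187)) (XT.nd (nat_lit 78) (nat_lit 76) (nat_lit 0) (XT.lf (nat_lit 0) (nat_lit 8585189256) (nat_lit 152) (nat_lit 614321392326) (nat_lit 76) (nat_lit 460941792650) (nat_lit 14) (nat_lit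 5) (nat_lit 16) (nat_lit 5) (nat_lit 15) (nat_lit 4) (nat_lit 308) (nat_lit 286) (nat_lit 186)) (XT.lf (nat_lit 0) (nat_lit 244273922550) (nat_lit 76) (nat_lit 177097509540) (nat_lit 152) (nat_lit 784950302093) (nat_lit 13) (nat_lit 5) (nat_lit 14) (nat_lit 5) (nat_lit 15) (nat_lit 4) (nat_lit 309) (nat_lit 286) (nat_lit 185)))) (XT.nd (nat_lit 156) (nat_lit 76) (nat_lit 0) (XT.nd (nat_lit 78) (nat_lit 152) (nat_lit 0) (XT.lf (nat_lit 0) (nat_lit 922496138309) (nat_lit 152) (nat_lit 85410843512) (nat_lit 0) (nat_lit 337145474181) (nat_lit 13) (nat_lit 5) (nat_lit 15) (nat_lit 4) (nat_lit 13) (nat_lit 4) (nat_lit 310) (nat_lit 286) (nat_lit 184)) (XT.lf (nat_lit 0) (nat_lit 23351838504) (nat_lit 152) (nat_lit 536778889200) (nat_lit 76) (nat_lit 942164042031) (nat_lit 11) (nat_lit 5) (nat_lit 13) (nat_lit 5) (nat_lit 12) (nat_lit 4) (nat_lit 311) (nat_lit 286) (nat_lit 183))) (XT.nd (nat_lit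 78) (nat_lit 0) (nat_lit 0) (XT.lf (nat_lit 0) (nat_lit 510094715095) (nat_lit 76) (nat_lit 16561761411) (nat_lit 152) (nat_lit 1154346490321) (nat_lit 10) (nat_lit 5) (nat_lit 11) (nat_lit 5) (nat_lit 12) (nat_lit 4) (nat_lit 312) (nat_lit 286) (nat_lit 182)) (XT.lf (nat_lit 0) (nat_lit 1136125844708) (nat_lit 152) (nat_lit 153803656524) (nat_lit 0) (nat_lit 594134369511) (nat_lit 10) (nat_lit 5) (nat_lit 12) (nat_lit 4) (nat_lit 10) (nat_lit 4) (nat_lit 313) (nat_lit 286) (nat_lit 181))))) (XT.nd (nat_lit 234) (nat_lit 228) (nat_lit 0) (XT.nd (nat_lit 78) (nat_lit 152) (nat_lit 0) (XT.lf (nat_lit 0) (nat_lit 1068878037446) (nat_lit 76) (nat_lit 794302107885) (nat_lit 76) (nat_lit 252310602757) (nat_lit 9) (nat_lit 4) (nat_lit 10) (nat_lit 5) (nat_lit 10) (nat_lit 4) (nat_lit 314) (nat_lit 286) (nat_lit 180)) (XT.nd (nat_lit 78) (nat_lit 0) (nat_lit 0) (XT.lf (nat_lit 0) (nat_lit 100261741790)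 (nat_lit 76) (nat_lit 208513870202) (nat_lit 152) (nat_lit 2071684435655) (nat_lit 7) (nat_lit 5) (nat_lit 8) (nat_lit 5) (nat_lit 9) (nat_lit 4) (nat_lit 315) (nat_lit 286) (nat_lit 179)) (XT.lf (nat_lit 0) (nat_lit 981959005838) (nat_lit 152) (nat_lit 1219146571974) (nat_lit 0) (nat_lit 480114974555) (nat_lit 7) (nat_lit 5) (nat_lit 9) (nat_lit 4) (nat_lit 7) (nat_lit 4) (nat_lit 316) (nat_lit 286) (nat_lit 178)))) (XT.nd (nat_lit 156) (nat_lit 152) (nat_lit 0) (XT.nd (nat_lit 78) (nat_lit 76) (nat_lit 0) (XT.lf (nat_lit 0) (nat_lit 1761886831629) (nat_lit 152) (nat_lit 4704165224) (nat_lit 0) (nat_lit 1260042782124) (nat_lit 7) (nat_lit 5) (nat_lit 9) (nat_lit 4) (nat_lit 7) (nat_lit 4) (nat_lit 317) (nat_lit 286) (nat_lit 177)) (XT.lf (nat_lit 0) (nat_lit 1465199732391) (nat_lit 76) (nat_lit 1228842139643) (nat_lit 76) (nat_lit 726998074292) (nat_lit 6) (nat_lit 4) (nat_lit 7) (nat_lit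 5) (nat_lit 7) (nat_lit 4) (nat_lit 318) (nat_lit 286) (nat_lit 176))) (XT.nd (nat_lit 78) (nat_lit 152) (nat_lit 0) (XT.lf (nat_lit 0) (nat_lit 3155873997778) (nat_lit 76) (nat_lit 610283083556) (nat_lit 76) (nat_lit 108439004427) (nat_lit 6) (nat_lit 4) (nat_lit 7) (nat_lit 5) (nat_lit 7) (nat_lit 4) (nat_lit 319) (nat_lit 286) (nat_lit 175)) (XT.lf (nat_lit 0) (nat_lit 593459451948) (nat_lit 152) (nat_lit 3671119990864) (nat_lit 0) (nat_lit 128788997217) (nat_lit 4) (nat_lit 5) (nat_lit 6) (nat_lit 4) (nat_lit 4) (nat_lit 4) (nat_lit 320) (nat_lit 286) (nat_lit 174))))))))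
noncomputable def xc51 : XT := (XT.nd (nat_lit 39546) (nat_lit 0) (nat_lit 0) (XT.nd (nat_lit 38454) (nat_lit 0) (nat_lit 1216) (XT.nd (nat_lit 468) (nat_lit 0) (nat_lit 0) (XT.nd (nat_lit 234) (nat_lit 0) (nat_lit 0) (XT.nd (nat_lit 78) (nat_lit 76) (nat_lit 0) (XT.lf (nat_lit 0) (nat_lit 1432751641643) (nat_lit 152) (nat_lit 2585816119612) (nat_lit 0) (nat_lit 968081177265) (nat_lit 4) (nat_lit 5) (nat_lit 6) (nat_lit 4) (nat_lit 4) (nat_lit 4) (nat_lit 321) (nat_lit 286) (nat_lit 173)) (XT.nd (nat_lit 78) (nat_lit 76) (nat_lit 0) (XT.lf (nat_lit 0) (nat_lit 2397937627967) (nat_lit 152) (nat_lit 1337716731170) (nat_lit 0) (nat_lit 1933267155200) (nat_lit 4) (nat_lit 5) (nat_lit 6) (nat_lit 4) (nat_lit 4) (nat_lit 4) (nat_lit 322) (nat_lit 286) (nat_lit 172)) (XT.lf (nat_lit 0) (nat_lit 102736822260) (nat_lit 76) (nat_lit 3407635485350) (nat_lit 76) (nat_lit 2942965005289) (nat_lit 3)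 (nat_lit 4) (nat_lit 4) (nat_lit 5) (nat_lit 4) (nat_lit 4) (nat_lit 323) (nat_lit 286) (nat_lit 171)))) (XT.nd (nat_lit 78) (nat_lit 0) (nat_lit 0) (XT.lf (nat_lit 0) (nat_lit 1840266419455) (nat_lit 76) (nat_lit 2988351927778) (nat_lit 76) (nat_lit 2523681441374) (nat_lit 3) (nat_lit 4) (nat_lit 4) (nat_lit 5) (nat_lit 4) (nat_lit 4) (nat_lit 324) (nat_lit 286) (nat_lit 170)) (XT.nd (nat_lit 78) (nat_lit 0) (nat_lit 0) (XT.lf (nat_lit 0) (nat_lit 3838425412280) (nat_lit 76) (nat_lit 2506175858537) (nat_lit 76) (nat_lit 2041505366617) (nat_lit 3) (nat_lit 4) (nat_lit 4) (nat_lit 5) (nat_lit 4) (nat_lit 4) (nat_lit 325) (nat_lit 286) (nat_lit 169)) (XT.lf (nat_lit 0) (nat_lit 6136308215812) (nat_lit 76) (nat_lit 1951673398010) (nat_lit 76) (nat_lit 1487002901294) (nat_lit 3) (nat_lit 4) (nat_lit 4) (nat_lit 5) (nat_lit 4) (nat_lit 4) (nat_lit 326) (nat_lit 286) (nat_lit 168))))) (XT.nd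 (nat_lit 37674) (nat_lit 0) (nat_lit 3496) (XT.nd (nat_lit 37518) (nat_lit 0) (nat_lit 4180) (XT.lf (nat_lit 0) (nat_lit 8778873406643) (nat_lit 76) (nat_lit 1313995585013) (nat_lit 76) (nat_lit 849325084127) (nat_lit 3) (nat_lit 4) (nat_lit 4) (nat_lit 5) (nat_lit 4) (nat_lit 4) (nat_lit 327) (nat_lit 286) (nat_lit 167)) (XT.nd (nat_lit 78) (nat_lit 0) (nat_lit 0) (XT.lf (nat_lit 0) (nat_lit 71972555445) (nat_lit 532) (nat_lit 8331385027) (nat_lit 532) (nat_lit 8331385027) (nat_lit 58) (nat_lit 3) (nat_lit 65) (nat_lit 3) (nat_lit 65) (nat_lit 5) (nat_lit 287) (nat_lit 287) (nat_lit 206)) (XT.lf (nat_lit 76) (nat_lit 149731380190) (nat_lit 0) (nat_lit 8614143944) (nat_lit 532) (nat_lit 31932058067) (nat_lit 59) (nat_lit 5) (nat_lit 58) (nat_lit 3) (nat_lit 65) (nat_lit 5) (nat_lit 288) (nat_lit 287) (nat_lit 205)))) (XT.nd (nat_lit 156) (nat_lit 760) (nat_lit 0) (XT.nd (nat_lit 78) (nat_lit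 0) (nat_lit 76) (XT.lf (nat_lit 76) (nat_lit 139884955742) (nat_lit 0) (nat_lit 42878977222) (nat_lit 532) (nat_lit 21842986363) (nat_lit 60) (nat_lit 5) (nat_lit 59) (nat_lit 5) (nat_lit 66) (nat_lit 5) (nat_lit 289) (nat_lit 287) (nat_lit 204)) (XT.lf (nat_lit 76) (nat_lit 131908129179) (nat_lit 0) (nat_lit 86824226181) (nat_lit 532) (nat_lit 1722322293) (nat_lit 61) (nat_lit 5) (nat_lit 60) (nat_lit 5) (nat_lit 67) (nat_lit 5) (nat_lit 290) (nat_lit 287) (nat_lit 203))) (XT.nd (nat_lit 78) (nat_lit 380) (nat_lit 0) (XT.lf (nat_lit 0) (nat_lit 28986052860) (nat_lit 532) (nat_lit 112504440752) (nat_lit 76) (nat_lit 96456625604) (nat_lit 54) (nat_lit 5) (nat_lit 61) (nat_lit 5) (nat_lit 55) (nat_lit 5) (nat_lit 291) (nat_lit 287) (nat_lit 202)) (XT.lf (nat_lit 0) (nat_lit 73410746107) (nat_lit 456) (nat_lit 135978936946) (nat_lit 76) (nat_lit 47933202274) (nat_lit 49) (nat_lit 5) (nat_lit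 55) (nat_lit 5) (nat_lit 50) (nat_lit 5) (nat_lit 292) (nat_lit 287) (nat_lit 201)))))) (XT.nd (nat_lit 546) (nat_lit 836) (nat_lit 0) (XT.nd (nat_lit 234) (nat_lit 836) (nat_lit 0) (XT.nd (nat_lit 78) (nat_lit 380) (nat_lit 0) (XT.lf (nat_lit 0) (nat_lit 119730160982) (nat_lit 228) (nat_lit 14921903097) (nat_lit 304) (nat_lit 144140719108) (nat_lit 46) (nat_lit 5) (nat_lit 49) (nat_lit 5) (nat_lit 50) (nat_lit 5) (nat_lit 293) (nat_lit 287) (nat_lit 200)) (XT.nd (nat_lit 78) (nat_lit 152) (nat_lit 0) (XT.lf (nat_lit 0) (nat_lit 119730165760) (nat_lit 228) (nat_lit 97309910995) (nat_lit 304) (nat_lit 85486249640) (nat_lit 43) (nat_lit 5) (nat_lit 46) (nat_lit 5) (nat_lit 47) (nat_lit 5) (nat_lit 294) (nat_lit 287) (nat_lit 199)) (XT.lf (nat_lit 0) (nat_lit 123087554430) (nat_lit 152) (nat_lit 199883798503) (nat_lit 228) (nat_lit 5953743597) (nat_lit 41) (nat_lit 5) (nat_lit 43) (nat_lit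 5) (nat_lit 44) (nat_lit 5) (nat_lit 295) (nat_lit 287) (nat_lit 198)))) (XT.nd (nat_lit 156) (nat_lit 380) (nat_lit 0) (XT.nd (nat_lit 78) (nat_lit 152) (nat_lit 0) (XT.lf (nat_lit 0) (nat_lit 93344598038) (nat_lit 304) (nat_lit 230475956234) (nat_lit 76) (nat_lit 34329533580) (nat_lit 37) (nat_lit 5) (nat_lit 41) (nat_lit 5) (nat_lit 38) (nat_lit 5) (nat_lit 296) (nat_lit 287) (nat_lit 197)) (XT.lf (nat_lit 0) (nat_lit 133212914004) (nat_lit 152) (nat_lit 88862468413) (nat_lit 228) (nat_lit 168479856737) (nat_lit 35) (nat_lit 5) (nat_lit 37) (nat_lit 5) (nat_lit 38) (nat_lit 5) (nat_lit 297) (nat_lit 287) (nat_lit 196))) (XT.nd (nat_lit 78) (nat_lit 228) (nat_lit 0) (XT.lf (nat_lit 0) (nat_lit 140626534339) (nat_lit 152) (nat_lit 244116644381) (nat_lit 228) (nat_lit 41907793116) (nat_lit 33) (nat_lit 5) (nat_lit 35) (nat_lit 5) (nat_lit 36) (nat_lit 5) (nat_lit 298) (nat_lit 287) (nat_lit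 195)) (XT.lf (nat_lit 0) (nat_lit 113059135588) (nat_lit 228) (nat_lit 319138939590) (nat_lit 76) (nat_lit 34596042286) (nat_lit 30) (nat_lit 5) (nat_lit 33) (nat_lit 5) (nat_lit 31) (nat_lit 5) (nat_lit 299) (nat_lit 287) (nat_lit 194))))) (XT.nd (nat_lit 234) (nat_lit 380) (nat_lit 0) (XT.nd (nat_lit 78) (nat_lit 304) (nat_lit 0) (XT.lf (nat_lit 0) (nat_lit 150832885342) (nat_lit 152) (nat_lit 156949942948) (nat_lit 228) (nat_lit 203569374979) (nat_lit 28) (nat_lit 5) (nat_lit 30) (nat_lit 5) (nat_lit 31) (nat_lit 5) (nat_lit 300) (nat_lit 287) (nat_lit 193)) (XT.nd (nat_lit 78) (nat_lit 228) (nat_lit 0) (XT.lf (nat_lit 0) (nat_lit 152315651195) (nat_lit 76) (nat_lit 396433187451) (nat_lit 152) (nat_lit 12482462339) (nat_lit 27) (nat_lit 5) (nat_lit 28) (nat_lit 5) (nat_lit 29) (nat_lit 4) (nat_lit 301) (nat_lit 287) (nat_lit 192)) (XT.lf (nat_lit 0) (nat_lit 143747530971) (nat_lit 152)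 (nat_lit 71718162108) (nat_lit 228) (nat_lit 401242462142) (nat_lit 24) (nat_lit 5) (nat_lit 26) (nat_lit 5) (nat_lit 27) (nat_lit 5) (nat_lit 302) (nat_lit 287) (nat_lit 191)))) (XT.nd (nat_lit 156) (nat_lit 76) (nat_lit 0) (XT.nd (nat_lit 78) (nat_lit 228) (nat_lit 0) (XT.lf (nat_lit 0) (nat_lit 122748400612) (nat_lit 76) (nat_lit 376561882047) (nat_lit 152) (nat_lit 179374852495) (nat_lit 23) (nat_lit 5) (nat_lit 24) (nat_lit 5) (nat_lit 25) (nat_lit 4) (nat_lit 303) (nat_lit 287) (nat_lit 190)) (XT.lf (nat_lit 0) (nat_lit 87827437964) (nat_lit 152) (nat_lit 2378039428) (nat_lit 228) (nat_lit 658149553874) (nat_lit 20) (nat_lit 5) (nat_lit 22) (nat_lit 5) (nat_lit 23) (nat_lit 5) (nat_lit 304) (nat_lit 287) (nat_lit 189))) (XT.nd (nat_lit 78) (nat_lit 0) (nat_lit 0) (XT.lf (nat_lit 0) (nat_lit 19966804159) (nat_lit 76) (nat_lit 397314813116) (nat_lit 152) (nat_lit 408606687344) (nat_lit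 19) (nat_lit 5) (nat_lit 20) (nat_lit 5) (nat_lit 21) (nat_lit 4) (nat_lit 305) (nat_lit 287) (nat_lit 188)) (XT.lf (nat_lit 0) (nat_lit 813429239381) (nat_lit 152) (nat_lit 71758089160) (nat_lit 0) (nat_lit 28263435594) (nat_lit 19) (nat_lit 5) (nat_lit 21) (nat_lit 4) (nat_lit 19) (nat_lit 4) (nat_lit 306) (nat_lit 287) (nat_lit 187))))))) (XT.nd (nat_lit 1092) (nat_lit 228) (nat_lit 0) (XT.nd (nat_lit 546) (nat_lit 304) (nat_lit 0) (XT.nd (nat_lit 234) (nat_lit 304) (nat_lit 0) (XT.nd (nat_lit 78) (nat_lit 228) (nat_lit 0) (XT.lf (nat_lit 0) (nat_lit 273157049275) (nat_lit 152) (nat_lit 216999228506) (nat_lit 76) (nat_lit 521016633290) (nat_lit 17) (nat_lit 5) (nat_lit 19) (nat_lit 5) (nat_lit 18) (nat_lit 4) (nat_lit 307) (nat_lit 287) (nat_lit 186)) (XT.nd (nat_lit 78) (nat_lit 152) (nat_lit 0) (XT.lf (nat_lit 0) (nat_lit 703316355236) (nat_lit 76) (nat_lit 12300145759) (nat_lit 152)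 (nat_lit 406190923598) (nat_lit 16) (nat_lit 5) (nat_lit 17) (nat_lit 5) (nat_lit 18) (nat_lit 4) (nat_lit 308) (nat_lit 287) (nat_lit 185)) (XT.lf (nat_lit 0) (nat_lit 9874076020) (nat_lit 152) (nat_lit 706467507783) (nat_lit 76) (nat_lit 530083957538) (nat_lit 14) (nat_lit 5) (nat_lit 16) (nat_lit 5) (nat_lit 15) (nat_lit 4) (nat_lit 309) (nat_lit 287) (nat_lit 184)))) (XT.nd (nat_lit 156) (nat_lit 228) (nat_lit 0) (XT.nd (nat_lit 78) (nat_lit 0) (nat_lit 0) (XT.lf (nat_lit 0) (nat_lit 280916927129) (nat_lit 76) (nat_lit 203661229663) (nat_lit 152) (nat_lit 902691756417) (nat_lit 13) (nat_lit 5) (nat_lit 14) (nat_lit 5) (nat_lit 15) (nat_lit 4) (nat_lit 310) (nat_lit 287) (nat_lit 183)) (XT.lf (nat_lit 0) (nat_lit 1060871456173) (nat_lit 152) (nat_lit 98220752212) (nat_lit 0) (nat_lit 387718043979) (nat_lit 13) (nat_lit 5) (nat_lit 15) (nat_lit 4) (nat_lit 13) (nat_lit 4) (nat_lit 311)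 (nat_lit 287) (nat_lit 182))) (XT.nd (nat_lit 78) (nat_lit 76) (nat_lit 0) (XT.lf (nat_lit 0) (nat_lit 26855453667) (nat_lit 152) (nat_lit 617294105740) (nat_lit 76) (nat_lit 1083489358420) (nat_lit 11) (nat_lit 5) (nat_lit 13) (nat_lit 5) (nat_lit 12) (nat_lit 4) (nat_lit 312) (nat_lit 287) (nat_lit 181)) (XT.lf (nat_lit 0) (nat_lit 586610402342) (nat_lit 76) (nat_lit 19045311136) (nat_lit 152) (nat_lit 1327497636944) (nat_lit 10) (nat_lit 5) (nat_lit 11) (nat_lit 5) (nat_lit 12) (nat_lit 4) (nat_lit 313) (nat_lit 287) (nat_lit 180))))) (XT.nd (nat_lit 234) (nat_lit 76) (nat_lit 0) (XT.nd (nat_lit 78) (nat_lit 228) (nat_lit 0) (XT.lf (nat_lit 0) (nat_lit 1306545402004) (nat_lit 152) (nat_lit 176872879587) (nat_lit 0) (nat_lit 683255115151) (nat_lit 10) (nat_lit 5) (nat_lit 12) (nat_lit 4) (nat_lit 10) (nat_lit 4) (nat_lit 314) (nat_lit 287) (nat_lit 179)) (XT.nd (nat_lit 78) (nat_lit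 152) (nat_lit 0) (XT.lf (nat_lit 0) (nat_lit 1229210956289) (nat_lit 76) (nat_lit 913446831838) (nat_lit 76) (nat_lit 290156522352) (nat_lit 9) (nat_lit 4) (nat_lit 10) (nat_lit 5) (nat_lit 10) (nat_lit 4) (nat_lit 315) (nat_lit 287) (nat_lit 178)) (XT.lf (nat_lit 0) (nat_lit 115302144429) (nat_lit 76) (nat_lit 239790390952) (nat_lit 152) (nat_lit 2382436472770) (nat_lit 7) (nat_lit 5) (nat_lit 8) (nat_lit 5) (nat_lit 9) (nat_lit 4) (nat_lit 316) (nat_lit 287) (nat_lit 177)))) (XT.nd (nat_lit 156) (nat_lit 76) (nat_lit 0) (XT.nd (nat_lit 78) (nat_lit 0) (nat_lit 0) (XT.lf (nat_lit 0) (nat_lit 1129253374151) (nat_lit 152) (nat_lit 1402017536422) (nat_lit 0) (nat_lit 552132683153) (nat_lit 7) (nat_lit 5) (nat_lit 9) (nat_lit 4) (nat_lit 7) (nat_lit 4) (nat_lit 317) (nat_lit 287) (nat_lit 176)) (XT.lf (nat_lit 0) (nat_lit 2026170306319) (nat_lit 152) (nat_lit 5408901879) (nat_lit 0) (nat_lit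 1449049601542) (nat_lit 7) (nat_lit 5) (nat_lit 9) (nat_lit 4) (nat_lit 7) (nat_lit 4) (nat_lit 318) (nat_lit 287) (nat_lit 175))) (XT.nd (nat_lit 78) (nat_lit 0) (nat_lit 0) (XT.lf (nat_lit 0) (nat_lit 1684980505203) (nat_lit 76) (nat_lit 1413168058445) (nat_lit 76) (nat_lit 836047341687) (nat_lit 6) (nat_lit 4) (nat_lit 7) (nat_lit 5) (nat_lit 7) (nat_lit 4) (nat_lit 319) (nat_lit 287) (nat_lit 174)) (XT.lf (nat_lit 0) (nat_lit 3629255804360) (nat_lit 76) (nat_lit 701825196399) (nat_lit 76) (nat_lit 124704469222) (nat_lit 6) (nat_lit 4) (nat_lit 7) (nat_lit 5) (nat_lit 7) (nat_lit 4) (nat_lit 320) (nat_lit 287) (nat_lit 173)))))) (XT.nd (nat_lit 38064) (nat_lit 0) (nat_lit 3268) (XT.nd (nat_lit 234) (nat_lit 76) (nat_lit 0) (XT.nd (nat_lit 78) (nat_lit 0) (nat_lit 0) (XT.lf (nat_lit 0) (nat_lit 682478712420) (nat_lit 152) (nat_lit 4221787305796) (nat_lit 0) (nat_lit 148107660350) (nat_lit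 4) (nat_lit 5) (nat_lit 6) (nat_lit 4) (nat_lit 4) (nat_lit 4) (nat_lit 321) (nat_lit 287) (nat_lit 172)) (XT.nd (nat_lit 78) (nat_lit 0) (nat_lit 0) (XT.lf (nat_lit 0) (nat_lit 1647664685872) (nat_lit 152) (nat_lit 2973687943034) (nat_lit 0) (nat_lit 1113293626507) (nat_lit 4) (nat_lit 5) (nat_lit 6) (nat_lit 4) (nat_lit 4) (nat_lit 4) (nat_lit 322) (nat_lit 287) (nat_lit 171)) (XT.lf (nat_lit 0) (nat_lit 2757628531277) (nat_lit 152) (nat_lit 1538373723871) (nat_lit 0) (nat_lit 2223257465569) (nat_lit 4) (nat_lit 5) (nat_lit 6) (nat_lit 4) (nat_lit 4) (nat_lit 4) (nat_lit 323) (nat_lit 287) (nat_lit 170)))) (XT.nd (nat_lit 156) (nat_lit 0) (nat_lit 0) (XT.nd (nat_lit 78) (nat_lit 0) (nat_lit 0) (XT.lf (nat_lit 0) (nat_lit 118147818814) (nat_lit 76) (nat_lit 3918780571636) (nat_lit 76) (nat_lit 3384409500413) (nat_lit 3) (nat_lit 4) (nat_lit 4) (nat_lit 5) (nat_lit 4) (nat_lit 4) (nat_lit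 324) (nat_lit 287) (nat_lit 169)) (XT.lf (nat_lit 0) (nat_lit 2116306793864) (nat_lit 76) (nat_lit 3436604511279) (nat_lit 76) (nat_lit 2902233435260) (nat_lit 3) (nat_lit 4) (nat_lit 4) (nat_lit 5) (nat_lit 4) (nat_lit 4) (nat_lit 325) (nat_lit 287) (nat_lit 168))) (XT.nd (nat_lit 78) (nat_lit 0) (nat_lit 0) (XT.lf (nat_lit 0) (nat_lit 4414189581940) (nat_lit 76) (nat_lit 2882102058477) (nat_lit 76) (nat_lit 2347730978287) (nat_lit 3) (nat_lit 4) (nat_lit 4) (nat_lit 5) (nat_lit 4) (nat_lit 4) (nat_lit 326) (nat_lit 287) (nat_lit 167)) (XT.lf (nat_lit 0) (nat_lit 7056754759331) (nat_lit 76) (nat_lit 2244424252198) (nat_lit 76) (nat_lit 1710053168382) (nat_lit 3) (nat_lit 4) (nat_lit 4) (nat_lit 5) (nat_lit 4) (nat_lit 4) (nat_lit 327) (nat_lit 287) (nat_lit 166))))) (XT.nd (nat_lit 234) (nat_lit 912) (nat_lit 0) (XT.nd (nat_lit 78) (nat_lit 0) (nat_lit 0) (XT.lf (nat_lit 0) (nat_lit 82771781020)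 (nat_lit 532) (nat_lit 9579285455) (nat_lit 532) (nat_lit 9579285455) (nat_lit 58) (nat_lit 3) (nat_lit 65) (nat_lit 3) (nat_lit 65) (nat_lit 5) (nat_lit 288) (nat_lit 288) (nat_lit 204)) (XT.nd (nat_lit 78) (nat_lit 0) (nat_lit 76) (XT.lf (nat_lit 76) (nat_lit 172194395907) (nat_lit 0) (nat_lit 9908849044) (nat_lit 532) (nat_lit 36715494489) (nat_lit 59) (nat_lit 5) (nat_lit 58) (nat_lit 3) (nat_lit 65) (nat_lit 5) (nat_lit 289) (nat_lit 288) (nat_lit 203)) (XT.lf (nat_lit 76) (nat_lit 160871224056) (nat_lit 0) (nat_lit 49312453249) (nat_lit 532) (nat_lit 25113859991) (nat_lit 60) (nat_lit 5) (nat_lit 59) (nat_lit 5) (nat_lit 66) (nat_lit 5) (nat_lit 290) (nat_lit 288) (nat_lit 202)))) (XT.nd (nat_lit 156) (nat_lit 608) (nat_lit 0) (XT.nd (nat_lit 78) (nat_lit 456) (nat_lit 0) (XT.lf (nat_lit 76) (nat_lit 151697995395) (nat_lit 0) (nat_lit 99848748983) (nat_lit 532) (nat_lit 1975765476)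 (nat_lit 61) (nat_lit 5) (nat_lit 60) (nat_lit 5) (nat_lit 67) (nat_lit 5) (nat_lit 291) (nat_lit 288) (nat_lit 201)) (XT.lf (nat_lit 0) (nat_lit 33338084899) (nat_lit 532) (nat_lit 129376188495) (nat_lit 76) (nat_lit 110924578469) (nat_lit 54) (nat_lit 5) (nat_lit 61) (nat_lit 5) (nat_lit 55) (nat_lit 5) (nat_lit 292) (nat_lit 288) (nat_lit 200))) (XT.nd (nat_lit 78) (nat_lit 228) (nat_lit 0) (XT.lf (nat_lit 0) (nat_lit 84426028404) (nat_lit 456) (nat_lit 156371890317) (nat_lit 76) (nat_lit 55123101160) (nat_lit 49) (nat_lit 5) (nat_lit 55) (nat_lit 5) (nat_lit 50) (nat_lit 5) (nat_lit 293) (nat_lit 288) (nat_lit 199)) (XT.lf (nat_lit 0) (nat_lit 137693243270) (nat_lit 228) (nat_lit 17159907630) (nat_lit 304) (nat_lit 165758283577) (nat_lit 46) (nat_lit 5) (nat_lit 49) (nat_lit 5) (nat_lit 50) (nat_lit 5) (nat_lit 294) (nat_lit 288) (nat_lit 198))))))))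
noncomputable def xc52 : XT := (XT.nd (nat_lit 2106) (nat_lit 228) (nat_lit 0) (XT.nd (nat_lit 1014) (nat_lit 988) (nat_lit 0) (XT.nd (nat_lit 468) (nat_lit 836) (nat_lit 0) (XT.nd (nat_lit 234) (nat_lit 532) (nat_lit 0) (XT.nd (nat_lit 78) (nat_lit 456) (nat_lit 0) (XT.lf (nat_lit 0) (nat_lit 137693185059) (nat_lit 228) (nat_lit 111905842873) (nat_lit 304) (nat_lit 98306008761) (nat_lit 43) (nat_lit 5) (nat_lit 46) (nat_lit 5) (nat_lit 47) (nat_lit 5) (nat_lit 295) (nat_lit 288) (nat_lit 197)) (XT.nd (nat_lit 78) (nat_lit 304) (nat_lit 0) (XT.lf (nat_lit 0) (nat_lit 141554092490) (nat_lit 152) (nat_lit 229865613101) (nat_lit 228) (nat_lit 6843940406) (nat_lit 41) (nat_lit 5) (nat_lit 43) (nat_lit 5) (nat_lit 44) (nat_lit 5) (nat_lit 296) (nat_lit 288) (nat_lit 196)) (XT.lf (nat_lit 0) (nat_lit 107348751752) (nat_lit 304) (nat_lit 265043920601) (nat_lit 76) (nat_lit 39479729113) (nat_lit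 37) (nat_lit 5) (nat_lit 41) (nat_lit 5) (nat_lit 38) (nat_lit 5) (nat_lit 297) (nat_lit 288) (nat_lit 195)))) (XT.nd (nat_lit 78) (nat_lit 380) (nat_lit 0) (XT.lf (nat_lit 0) (nat_lit 153197989919) (nat_lit 152) (nat_lit 102190917965) (nat_lit 228) (nat_lit 193749437570) (nat_lit 35) (nat_lit 5) (nat_lit 37) (nat_lit 5) (nat_lit 38) (nat_lit 5) (nat_lit 298) (nat_lit 288) (nat_lit 194)) (XT.nd (nat_lit 78) (nat_lit 228) (nat_lit 0) (XT.lf (nat_lit 0) (nat_lit 161723531723) (nat_lit 152) (nat_lit 280733144412) (nat_lit 228) (nat_lit 48191777982) (nat_lit 33) (nat_lit 5) (nat_lit 35) (nat_lit 5) (nat_lit 36) (nat_lit 5) (nat_lit 299) (nat_lit 288) (nat_lit 193)) (XT.lf (nat_lit 0) (nat_lit 130019902821) (nat_lit 228) (nat_lit 367006789598) (nat_lit 76) (nat_lit 39786389426) (nat_lit 30) (nat_lit 5) (nat_lit 33) (nat_lit 5) (nat_lit 31) (nat_lit 5) (nat_lit 300) (nat_lit 288) (nat_lit 192)))))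 (XT.nd (nat_lit 234) (nat_lit 380) (nat_lit 0) (XT.nd (nat_lit 78) (nat_lit 304) (nat_lit 0) (XT.lf (nat_lit 0) (nat_lit 173460555906) (nat_lit 152) (nat_lit 180491411945) (nat_lit 228) (nat_lit 234102927390) (nat_lit 28) (nat_lit 5) (nat_lit 30) (nat_lit 5) (nat_lit 31) (nat_lit 5) (nat_lit 301) (nat_lit 288) (nat_lit 191)) (XT.nd (nat_lit 78) (nat_lit 228) (nat_lit 0) (XT.lf (nat_lit 0) (nat_lit 175165609184) (nat_lit 76) (nat_lit 455897130999) (nat_lit 152) (nat_lit 14353128766) (nat_lit 27) (nat_lit 5) (nat_lit 28) (nat_lit 5) (nat_lit 29) (nat_lit 4) (nat_lit 302) (nat_lit 288) (nat_lit 190)) (XT.lf (nat_lit 0) (nat_lit 165312128907) (nat_lit 152) (nat_lit 82474884225) (nat_lit 228) (nat_lit 461427247180) (nat_lit 24) (nat_lit 5) (nat_lit 26) (nat_lit 5) (nat_lit 27) (nat_lit 5) (nat_lit 303) (nat_lit 288) (nat_lit 189)))) (XT.nd (nat_lit 156) (nat_lit 76) (nat_lit 0) (XT.nd (nat_lit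 78) (nat_lit 228) (nat_lit 0) (XT.lf (nat_lit 0) (nat_lit 141163006191) (nat_lit 76) (nat_lit 433045171097) (nat_lit 152) (nat_lit 206279619174) (nat_lit 23) (nat_lit 5) (nat_lit 24) (nat_lit 5) (nat_lit 25) (nat_lit 4) (nat_lit 304) (nat_lit 288) (nat_lit 188)) (XT.lf (nat_lit 0) (nat_lit 101003768186) (nat_lit 152) (nat_lit 2733791118) (nat_lit 228) (nat_lit 756870625194) (nat_lit 20) (nat_lit 5) (nat_lit 22) (nat_lit 5) (nat_lit 23) (nat_lit 5) (nat_lit 305) (nat_lit 288) (nat_lit 187))) (XT.nd (nat_lit 78) (nat_lit 0) (nat_lit 0) (XT.lf (nat_lit 0) (nat_lit 22963923726) (nat_lit 76) (nat_lit 456911102492) (nat_lit 152) (nat_lit 469896430235) (nat_lit 19) (nat_lit 5) (nat_lit 20) (nat_lit 5) (nat_lit 21) (nat_lit 4) (nat_lit 306) (nat_lit 288) (nat_lit 186)) (XT.lf (nat_lit 0) (nat_lit 935444659010) (nat_lit 152) (nat_lit 82519915253) (nat_lit 0) (nat_lit 32503721315) (nat_lit 19) (nat_lit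 5) (nat_lit 21) (nat_lit 4) (nat_lit 19) (nat_lit 4) (nat_lit 307) (nat_lit 288) (nat_lit 185)))))) (XT.nd (nat_lit 546) (nat_lit 304) (nat_lit 0) (XT.nd (nat_lit 234) (nat_lit 304) (nat_lit 0) (XT.nd (nat_lit 78) (nat_lit 228) (nat_lit 0) (XT.lf (nat_lit 0) (nat_lit 314131571924) (nat_lit 152) (nat_lit 249547334035) (nat_lit 76) (nat_lit 599169864165) (nat_lit 17) (nat_lit 5) (nat_lit 19) (nat_lit 5) (nat_lit 18) (nat_lit 4) (nat_lit 308) (nat_lit 288) (nat_lit 184)) (XT.nd (nat_lit 78) (nat_lit 152) (nat_lit 0) (XT.lf (nat_lit 0) (nat_lit 808815436706) (nat_lit 76) (nat_lit 14144417951) (nat_lit 152) (nat_lit 467118613008) (nat_lit 16) (nat_lit 5) (nat_lit 17) (nat_lit 5) (nat_lit 18) (nat_lit 4) (nat_lit 309) (nat_lit 288) (nat_lit 183)) (XT.lf (nat_lit 0) (nat_lit 11356025514) (nat_lit 152) (nat_lit 812436051045) (nat_lit 76) (nat_lit 609597228665) (nat_lit 14) (nat_lit 5) (nat_lit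 16) (nat_lit 5) (nat_lit 15) (nat_lit 4) (nat_lit 310) (nat_lit 288) (nat_lit 182)))) (XT.nd (nat_lit 156) (nat_lit 228) (nat_lit 0) (XT.nd (nat_lit 78) (nat_lit 0) (nat_lit 0) (XT.lf (nat_lit 0) (nat_lit 323055915119) (nat_lit 76) (nat_lit 234209728814) (nat_lit 152) (nat_lit 1038094694933) (nat_lit 13) (nat_lit 5) (nat_lit 14) (nat_lit 5) (nat_lit 15) (nat_lit 4) (nat_lit 311) (nat_lit 288) (nat_lit 181)) (XT.lf (nat_lit 0) (nat_lit 1220002852950) (nat_lit 152) (nat_lit 112952566119) (nat_lit 0) (nat_lit 445876316678) (nat_lit 13) (nat_lit 5) (nat_lit 15) (nat_lit 4) (nat_lit 13) (nat_lit 4) (nat_lit 312) (nat_lit 288) (nat_lit 180))) (XT.nd (nat_lit 78) (nat_lit 76) (nat_lit 0) (XT.lf (nat_lit 0) (nat_lit 30884406414) (nat_lit 152) (nat_lit 709886999037) (nat_lit 76) (nat_lit 1246013299109) (nat_lit 11) (nat_lit 5) (nat_lit 13) (nat_lit 5) (nat_lit 12) (nat_lit 4) (nat_lit 313) (nat_lit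 288) (nat_lit 179)) (XT.lf (nat_lit 0) (nat_lit 674603081774) (nat_lit 76) (nat_lit 21901567551) (nat_lit 152) (nat_lit 1526621657212) (nat_lit 10) (nat_lit 5) (nat_lit 11) (nat_lit 5) (nat_lit 12) (nat_lit 4) (nat_lit 314) (nat_lit 288) (nat_lit 178))))) (XT.nd (nat_lit 234) (nat_lit 76) (nat_lit 0) (XT.nd (nat_lit 78) (nat_lit 228) (nat_lit 0) (XT.lf (nat_lit 0) (nat_lit 1502527726929) (nat_lit 152) (nat_lit 203402809320) (nat_lit 0) (nat_lit 785743828710) (nat_lit 10) (nat_lit 5) (nat_lit 12) (nat_lit 4) (nat_lit 10) (nat_lit 4) (nat_lit 315) (nat_lit 288) (nat_lit 177)) (XT.nd (nat_lit 78) (nat_lit 152) (nat_lit 0) (XT.lf (nat_lit 0) (nat_lit 1413593517105) (nat_lit 76) (nat_lit 1050463408802) (nat_lit 76) (nat_lit 333679493470) (nat_lit 9) (nat_lit 4) (nat_lit 10) (nat_lit 5) (nat_lit 10) (nat_lit 4) (nat_lit 316) (nat_lit 288) (nat_lit 176)) (XT.lf (nat_lit 0) (nat_lit 132598329134)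 (nat_lit 76) (nat_lit 275758526321) (nat_lit 152) (nat_lit 2739801468651) (nat_lit 7) (nat_lit 5) (nat_lit 8) (nat_lit 5) (nat_lit 9) (nat_lit 4) (nat_lit 317) (nat_lit 288) (nat_lit 175)))) (XT.nd (nat_lit 156) (nat_lit 76) (nat_lit 0) (XT.nd (nat_lit 78) (nat_lit 0) (nat_lit 0) (XT.lf (nat_lit 0) (nat_lit 1298641771531) (nat_lit 152) (nat_lit 1612319394599) (nat_lit 0) (nat_lit 634952935279) (nat_lit 7) (nat_lit 5) (nat_lit 9) (nat_lit 4) (nat_lit 7) (nat_lit 4) (nat_lit 318) (nat_lit 288) (nat_lit 174)) (XT.lf (nat_lit 0) (nat_lit 2330096192490) (nat_lit 152) (nat_lit 6219565608) (nat_lit 0) (nat_lit 1666407345819) (nat_lit 7) (nat_lit 5) (nat_lit 9) (nat_lit 4) (nat_lit 7) (nat_lit 4) (nat_lit 319) (nat_lit 288) (nat_lit 173))) (XT.nd (nat_lit 78) (nat_lit 0) (nat_lit 0) (XT.lf (nat_lit 0) (nat_lit 1937728195693) (nat_lit 76) (nat_lit 1625142963133) (nat_lit 76) (nat_lit 961454107402)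 (nat_lit 6) (nat_lit 4) (nat_lit 7) (nat_lit 5) (nat_lit 7) (nat_lit 4) (nat_lit 320) (nat_lit 288) (nat_lit 172)) (XT.lf (nat_lit 0) (nat_lit 4173644709544) (nat_lit 76) (nat_lit 807098711442) (nat_lit 76) (nat_lit 143409847834) (nat_lit 6) (nat_lit 4) (nat_lit 7) (nat_lit 5) (nat_lit 7) (nat_lit 4) (nat_lit 321) (nat_lit 288) (nat_lit 171))))))) (XT.nd (nat_lit 38688) (nat_lit 0) (nat_lit 988) (XT.nd (nat_lit 38142) (nat_lit 0) (nat_lit 3040) (XT.nd (nat_lit 234) (nat_lit 76) (nat_lit 0) (XT.nd (nat_lit 78) (nat_lit 0) (nat_lit 0) (XT.lf (nat_lit 0) (nat_lit 784850778398) (nat_lit 152) (nat_lit 4855054884692) (nat_lit 0) (nat_lit 170324046492) (nat_lit 4) (nat_lit 5) (nat_lit 6) (nat_lit 4) (nat_lit 4) (nat_lit 4) (nat_lit 322) (nat_lit 288) (nat_lit 170)) (XT.nd (nat_lit 78) (nat_lit 0) (nat_lit 0) (XT.lf (nat_lit 0) (nat_lit 1894814614070) (nat_lit 152) (nat_lit 3419740684947) (nat_lit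 0) (nat_lit 1280287876648) (nat_lit 4) (nat_lit 5) (nat_lit 6) (nat_lit 4) (nat_lit 4) (nat_lit 4) (nat_lit 323) (nat_lit 288) (nat_lit 169)) (XT.lf (nat_lit 0) (nat_lit 3171273006896) (nat_lit 152) (nat_lit 1769129391546) (nat_lit 0) (nat_lit 2556746264679) (nat_lit 4) (nat_lit 5) (nat_lit 6) (nat_lit 4) (nat_lit 4) (nat_lit 4) (nat_lit 324) (nat_lit 288) (nat_lit 168)))) (XT.nd (nat_lit 78) (nat_lit 0) (nat_lit 0) (XT.lf (nat_lit 0) (nat_lit 135870349454) (nat_lit 76) (nat_lit 4506597478541) (nat_lit 76) (nat_lit 3892070732153) (nat_lit 3) (nat_lit 4) (nat_lit 4) (nat_lit 5) (nat_lit 4) (nat_lit 4) (nat_lit 325) (nat_lit 288) (nat_lit 167)) (XT.nd (nat_lit 37752) (nat_lit 0) (nat_lit 4180) (XT.lf (nat_lit 0) (nat_lit 2433753124090) (nat_lit 76) (nat_lit 3952095032457) (nat_lit 76) (nat_lit 3337568282442) (nat_lit 3) (nat_lit 4) (nat_lit 4) (nat_lit 5) (nat_lit 4) (nat_lit 4) (nat_lit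 326) (nat_lit 288) (nat_lit 166)) (XT.lf (nat_lit 0) (nat_lit 95190075401) (nat_lit 532) (nat_lit 11014811676) (nat_lit 532) (nat_lit 11014811676) (nat_lit 58) (nat_lit 3) (nat_lit 65) (nat_lit 3) (nat_lit 65) (nat_lit 5) (nat_lit 289) (nat_lit 289) (nat_lit 202))))) (XT.nd (nat_lit 234) (nat_lit 1140) (nat_lit 0) (XT.nd (nat_lit 78) (nat_lit 0) (nat_lit 76) (XT.lf (nat_lit 76) (nat_lit 198026057137) (nat_lit 0) (nat_lit 11397129905) (nat_lit 532) (nat_lit 42218000296) (nat_lit 59) (nat_lit 5) (nat_lit 58) (nat_lit 3) (nat_lit 65) (nat_lit 5) (nat_lit 290) (nat_lit 289) (nat_lit 201)) (XT.nd (nat_lit 78) (nat_lit 0) (nat_lit 76) (XT.lf (nat_lit 76) (nat_lit 185004573035) (nat_lit 0) (nat_lit 56710553330) (nat_lit 532) (nat_lit 28876723998) (nat_lit 60) (nat_lit 5) (nat_lit 59) (nat_lit 5) (nat_lit 66) (nat_lit 5) (nat_lit 291) (nat_lit 289) (nat_lit 200)) (XT.lf (nat_lit 76) (nat_lit 174455452238)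 (nat_lit 0) (nat_lit 114826733447) (nat_lit 532) (nat_lit 2268421291) (nat_lit 61) (nat_lit 5) (nat_lit 60) (nat_lit 5) (nat_lit 67) (nat_lit 5) (nat_lit 292) (nat_lit 289) (nat_lit 199)))) (XT.nd (nat_lit 156) (nat_lit 456) (nat_lit 0) (XT.nd (nat_lit 78) (nat_lit 380) (nat_lit 0) (XT.lf (nat_lit 0) (nat_lit 38341916053) (nat_lit 532) (nat_lit 148779653919) (nat_lit 76) (nat_lit 127562856185) (nat_lit 54) (nat_lit 5) (nat_lit 61) (nat_lit 5) (nat_lit 55) (nat_lit 5) (nat_lit 293) (nat_lit 289) (nat_lit 198)) (XT.lf (nat_lit 0) (nat_lit 97092707999) (nat_lit 456) (nat_lit 179824734605) (nat_lit 76) (nat_lit 63391504744) (nat_lit 49) (nat_lit 5) (nat_lit 55) (nat_lit 5) (nat_lit 50) (nat_lit 5) (nat_lit 294) (nat_lit 289) (nat_lit 197))) (XT.nd (nat_lit 78) (nat_lit 228) (nat_lit 0) (XT.lf (nat_lit 0) (nat_lit 158349920226) (nat_lit 228) (nat_lit 19733681349) (nat_lit 304) (nat_lit 190619346796)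 (nat_lit 46) (nat_lit 5) (nat_lit 49) (nat_lit 5) (nat_lit 50) (nat_lit 5) (nat_lit 295) (nat_lit 289) (nat_lit 196)) (XT.lf (nat_lit 0) (nat_lit 158349805113) (nat_lit 228) (nat_lit 128691299817) (nat_lit 304) (nat_lit 113049506805) (nat_lit 43) (nat_lit 5) (nat_lit 46) (nat_lit 5) (nat_lit 47) (nat_lit 5) (nat_lit 296) (nat_lit 289) (nat_lit 195)))))) (XT.nd (nat_lit 546) (nat_lit 836) (nat_lit 0) (XT.nd (nat_lit 234) (nat_lit 608) (nat_lit 0) (XT.nd (nat_lit 78) (nat_lit 456) (nat_lit 0) (XT.lf (nat_lit 0) (nat_lit 162789780954) (nat_lit 152) (nat_lit 264344884044) (nat_lit 228) (nat_lit 7868365320) (nat_lit 41) (nat_lit 5) (nat_lit 43) (nat_lit 5) (nat_lit 44) (nat_lit 5) (nat_lit 297) (nat_lit 289) (nat_lit 194)) (XT.nd (nat_lit 78) (nat_lit 152) (nat_lit 0) (XT.lf (nat_lit 0) (nat_lit 123452927660) (nat_lit 304) (nat_lit 304797915824) (nat_lit 76) (nat_lit 45402267305) (nat_lit 37)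 (nat_lit 5) (nat_lit 41) (nat_lit 5) (nat_lit 38) (nat_lit 5) (nat_lit 298) (nat_lit 289) (nat_lit 193)) (XT.lf (nat_lit 0) (nat_lit 176180061802) (nat_lit 152) (nat_lit 117518859471) (nat_lit 228) (nat_lit 222810040218) (nat_lit 35) (nat_lit 5) (nat_lit 37) (nat_lit 5) (nat_lit 38) (nat_lit 5) (nat_lit 299) (nat_lit 289) (nat_lit 192)))) (XT.nd (nat_lit 156) (nat_lit 228) (nat_lit 0) (XT.nd (nat_lit 78) (nat_lit 228) (nat_lit 0) (XT.lf (nat_lit 0) (nat_lit 185984342943) (nat_lit 152) (nat_lit 322842362480) (nat_lit 228) (nat_lit 55418893185) (nat_lit 33) (nat_lit 5) (nat_lit 35) (nat_lit 5) (nat_lit 36) (nat_lit 5) (nat_lit 300) (nat_lit 289) (nat_lit 191)) (XT.lf (nat_lit 0) (nat_lit 149524322569) (nat_lit 228) (nat_lit 422055546465) (nat_lit 76) (nat_lit 45755059217) (nat_lit 30) (nat_lit 5) (nat_lit 33) (nat_lit 5) (nat_lit 31) (nat_lit 5) (nat_lit 301) (nat_lit 289) (nat_lit 190)))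 (XT.nd (nat_lit 78) (nat_lit 76) (nat_lit 0) (XT.lf (nat_lit 0) (nat_lit 199481709434) (nat_lit 152) (nat_lit 207564350622) (nat_lit 228) (nat_lit 269216964733) (nat_lit 28) (nat_lit 5) (nat_lit 30) (nat_lit 5) (nat_lit 31) (nat_lit 5) (nat_lit 302) (nat_lit 289) (nat_lit 189)) (XT.lf (nat_lit 0) (nat_lit 201442424331) (nat_lit 76) (nat_lit 524280918366) (nat_lit 152) (nat_lit 16504810425) (nat_lit 27) (nat_lit 5) (nat_lit 28) (nat_lit 5) (nat_lit 29) (nat_lit 4) (nat_lit 303) (nat_lit 289) (nat_lit 188))))) (XT.nd (nat_lit 234) (nat_lit 304) (nat_lit 0) (XT.nd (nat_lit 78) (nat_lit 304) (nat_lit 0) (XT.lf (nat_lit 0) (nat_lit 190110814624) (nat_lit 152) (nat_lit 94845359053) (nat_lit 228) (nat_lit 530640136312) (nat_lit 24) (nat_lit 5) (nat_lit 26) (nat_lit 5) (nat_lit 27) (nat_lit 5) (nat_lit 304) (nat_lit 289) (nat_lit 187)) (XT.nd (nat_lit 78) (nat_lit 228) (nat_lit 0) (XT.lf (nat_lit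 0) (nat_lit 162339230644) (nat_lit 76) (nat_lit 498001195716) (nat_lit 152) (nat_lit 237220457177) (nat_lit 23) (nat_lit 5) (nat_lit 24) (nat_lit 5) (nat_lit 25) (nat_lit 4) (nat_lit 305) (nat_lit 289) (nat_lit 186)) (XT.lf (nat_lit 0) (nat_lit 116156007915) (nat_lit 152) (nat_lit 3143138254) (nat_lit 228) (nat_lit 870400189286) (nat_lit 20) (nat_lit 5) (nat_lit 22) (nat_lit 5) (nat_lit 23) (nat_lit 5) (nat_lit 306) (nat_lit 289) (nat_lit 185)))) (XT.nd (nat_lit 156) (nat_lit 228) (nat_lit 0) (XT.nd (nat_lit 78) (nat_lit 0) (nat_lit 0) (XT.lf (nat_lit 0) (nat_lit 26410099387) (nat_lit 76) (nat_lit 525447062692) (nat_lit 152) (nat_lit 540379941871) (nat_lit 19) (nat_lit 5) (nat_lit 20) (nat_lit 5) (nat_lit 21) (nat_lit 4) (nat_lit 307) (nat_lit 289) (nat_lit 184)) (XT.lf (nat_lit 0) (nat_lit 1075762139504) (nat_lit 152) (nat_lit 94896475486) (nat_lit 0) (nat_lit 37379862032) (nat_lit 19)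 (nat_lit 5) (nat_lit 21) (nat_lit 4) (nat_lit 19) (nat_lit 4) (nat_lit 308) (nat_lit 289) (nat_lit 183))) (XT.nd (nat_lit 78) (nat_lit 76) (nat_lit 0) (XT.lf (nat_lit 0) (nat_lit 361252037587) (nat_lit 152) (nat_lit 286978089153) (nat_lit 76) (nat_lit 689045900223) (nat_lit 17) (nat_lit 5) (nat_lit 19) (nat_lit 5) (nat_lit 18) (nat_lit 4) (nat_lit 309) (nat_lit 289) (nat_lit 182)) (XT.lf (nat_lit 0) (nat_lit 930138983353) (nat_lit 76) (nat_lit 16265513784) (nat_lit 152) (nat_lit 537185687281) (nat_lit 16) (nat_lit 5) (nat_lit 17) (nat_lit 5) (nat_lit 18) (nat_lit 4) (nat_lit 310) (nat_lit 289) (nat_lit 181))))))))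
noncomputable def xc53 : XT := (XT.nd (nat_lit 39858) (nat_lit 0) (nat_lit 76) (XT.nd (nat_lit 1014) (nat_lit 76) (nat_lit 0) (XT.nd (nat_lit 468) (nat_lit 456) (nat_lit 0) (XT.nd (nat_lit 234) (nat_lit 228) (nat_lit 0) (XT.nd (nat_lit 78) (nat_lit 76) (nat_lit 0) (XT.lf (nat_lit 0) (nat_lit 13060063058) (nat_lit 152) (nat_lit 934300261798) (nat_lit 76) (nat_lit 701037325250) (nat_lit 14) (nat_lit 5) (nat_lit 16) (nat_lit 5) (nat_lit 15) (nat_lit 4) (nat_lit 311) (nat_lit 289) (nat_lit 180)) (XT.nd (nat_lit 78) (nat_lit 0) (nat_lit 0) (XT.lf (nat_lit 0) (nat_lit 371515397978) (nat_lit 76) (nat_lit 269340669952) (nat_lit 152) (nat_lit 1193808275396) (nat_lit 13) (nat_lit 5) (nat_lit 14) (nat_lit 5) (nat_lit 15) (nat_lit 4) (nat_lit 312) (nat_lit 289) (nat_lit 179)) (XT.lf (nat_lit 0) (nat_lit 1403003793822) (nat_lit 152) (nat_lit 129894468863) (nat_lit 0) (nat_lit 512758192234) (nat_lit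 13) (nat_lit 5) (nat_lit 15) (nat_lit 4) (nat_lit 13) (nat_lit 4) (nat_lit 313) (nat_lit 289) (nat_lit 178)))) (XT.nd (nat_lit 78) (nat_lit 76) (nat_lit 0) (XT.lf (nat_lit 0) (nat_lit 35517547299) (nat_lit 152) (nat_lit 816369124459) (nat_lit 76) (nat_lit 1432915699969) (nat_lit 11) (nat_lit 5) (nat_lit 13) (nat_lit 5) (nat_lit 12) (nat_lit 4) (nat_lit 314) (nat_lit 289) (nat_lit 177)) (XT.nd (nat_lit 78) (nat_lit 0) (nat_lit 0) (XT.lf (nat_lit 0) (nat_lit 775794390225) (nat_lit 76) (nat_lit 25186394173) (nat_lit 152) (nat_lit 1755614432997) (nat_lit 10) (nat_lit 5) (nat_lit 11) (nat_lit 5) (nat_lit 12) (nat_lit 4) (nat_lit 315) (nat_lit 289) (nat_lit 176)) (XT.lf (nat_lit 0) (nat_lit 1727907275099) (nat_lit 152) (nat_lit 233912472907) (nat_lit 0) (nat_lit 903605740473) (nat_lit 10) (nat_lit 5) (nat_lit 12) (nat_lit 4) (nat_lit 10) (nat_lit 4) (nat_lit 316) (nat_lit 289) (nat_lit 175)))))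 (XT.nd (nat_lit 234) (nat_lit 228) (nat_lit 0) (XT.nd (nat_lit 78) (nat_lit 152) (nat_lit 0) (XT.lf (nat_lit 0) (nat_lit 1625633238337) (nat_lit 76) (nat_lit 1208032581513) (nat_lit 76) (nat_lit 383731033948) (nat_lit 9) (nat_lit 4) (nat_lit 10) (nat_lit 5) (nat_lit 10) (nat_lit 4) (nat_lit 317) (nat_lit 289) (nat_lit 174)) (XT.nd (nat_lit 78) (nat_lit 0) (nat_lit 0) (XT.lf (nat_lit 0) (nat_lit 152488731086) (nat_lit 76) (nat_lit 317121985213) (nat_lit 152) (nat_lit 3150771329755) (nat_lit 7) (nat_lit 5) (nat_lit 8) (nat_lit 5) (nat_lit 9) (nat_lit 4) (nat_lit 318) (nat_lit 289) (nat_lit 173)) (XT.lf (nat_lit 0) (nat_lit 1493438333108) (nat_lit 152) (nat_lit 1854166719830) (nat_lit 0) (nat_lit 730196139958) (nat_lit 7) (nat_lit 5) (nat_lit 9) (nat_lit 4) (nat_lit 7) (nat_lit 4) (nat_lit 319) (nat_lit 289) (nat_lit 172)))) (XT.nd (nat_lit 156) (nat_lit 152) (nat_lit 0) (XT.nd (nat_lit 78)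 (nat_lit 76) (nat_lit 0) (XT.lf (nat_lit 0) (nat_lit 2679610878622) (nat_lit 152) (nat_lit 7151992658) (nat_lit 0) (nat_lit 1916368677594) (nat_lit 7) (nat_lit 5) (nat_lit 9) (nat_lit 4) (nat_lit 7) (nat_lit 4) (nat_lit 320) (nat_lit 289) (nat_lit 171)) (XT.lf (nat_lit 0) (nat_lit 2228387889855) (nat_lit 76) (nat_lit 1868914177676) (nat_lit 76) (nat_lit 1105671969798) (nat_lit 6) (nat_lit 4) (nat_lit 7) (nat_lit 5) (nat_lit 7) (nat_lit 4) (nat_lit 321) (nat_lit 289) (nat_lit 170))) (XT.nd (nat_lit 78) (nat_lit 152) (nat_lit 0) (XT.lf (nat_lit 0) (nat_lit 4799691820157) (nat_lit 76) (nat_lit 928163318222) (nat_lit 76) (nat_lit 164921104387) (nat_lit 6) (nat_lit 4) (nat_lit 7) (nat_lit 5) (nat_lit 7) (nat_lit 4) (nat_lit 322) (nat_lit 289) (nat_lit 169)) (XT.lf (nat_lit 0) (nat_lit 902578591086) (nat_lit 152) (nat_lit 5583312726489) (nat_lit 0) (nat_lit 195872832739) (nat_lit 4) (nat_lit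 5) (nat_lit 6) (nat_lit 4) (nat_lit 4) (nat_lit 4) (nat_lit 323) (nat_lit 289) (nat_lit 168)))))) (XT.nd (nat_lit 38298) (nat_lit 0) (nat_lit 2432) (XT.nd (nat_lit 37986) (nat_lit 0) (nat_lit 4180) (XT.nd (nat_lit 78) (nat_lit 76) (nat_lit 0) (XT.lf (nat_lit 0) (nat_lit 2179036976553) (nat_lit 152) (nat_lit 3932701447771) (nat_lit 0) (nat_lit 1472331214036) (nat_lit 4) (nat_lit 5) (nat_lit 6) (nat_lit 4) (nat_lit 4) (nat_lit 4) (nat_lit 324) (nat_lit 289) (nat_lit 167)) (XT.nd (nat_lit 78) (nat_lit 76) (nat_lit 0) (XT.lf (nat_lit 0) (nat_lit 3646964106081) (nat_lit 152) (nat_lit 2034498504696) (nat_lit 0) (nat_lit 2940258339937) (nat_lit 4) (nat_lit 5) (nat_lit 6) (nat_lit 4) (nat_lit 4) (nat_lit 4) (nat_lit 325) (nat_lit 289) (nat_lit 166)) (XT.lf (nat_lit 0) (nat_lit 156251172434) (nat_lit 76) (nat_lit 5182586965094) (nat_lit 76) (nat_lit 4475881195796) (nat_lit 3) (nat_lit 4) (nat_lit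 4) (nat_lit 5) (nat_lit 4) (nat_lit 4) (nat_lit 326) (nat_lit 289) (nat_lit 165)))) (XT.nd (nat_lit 156) (nat_lit 0) (nat_lit 76) (XT.nd (nat_lit 78) (nat_lit 0) (nat_lit 0) (XT.lf (nat_lit 0) (nat_lit 109470497658) (nat_lit 532) (nat_lit 12666000084) (nat_lit 532) (nat_lit 12666000084) (nat_lit 58) (nat_lit 3) (nat_lit 65) (nat_lit 3) (nat_lit 65) (nat_lit 5) (nat_lit 290) (nat_lit 290) (nat_lit 200)) (XT.lf (nat_lit 76) (nat_lit 227731857461) (nat_lit 0) (nat_lit 13108176521) (nat_lit 532) (nat_lit 48547056964) (nat_lit 59) (nat_lit 5) (nat_lit 58) (nat_lit 3) (nat_lit 65) (nat_lit 5) (nat_lit 291) (nat_lit 290) (nat_lit 199))) (XT.nd (nat_lit 78) (nat_lit 0) (nat_lit 76) (XT.lf (nat_lit 76) (nat_lit 212757274393) (nat_lit 0) (nat_lit 65218067970) (nat_lit 532) (nat_lit 33205045458) (nat_lit 60) (nat_lit 5) (nat_lit 59) (nat_lit 5) (nat_lit 66) (nat_lit 5) (nat_lit 292) (nat_lit 290)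 (nat_lit 198)) (XT.lf (nat_lit 76) (nat_lit 200625855166) (nat_lit 0) (nat_lit 132051251681) (nat_lit 532) (nat_lit 2605879943) (nat_lit 61) (nat_lit 5) (nat_lit 60) (nat_lit 5) (nat_lit 67) (nat_lit 5) (nat_lit 293) (nat_lit 290) (nat_lit 197))))) (XT.nd (nat_lit 234) (nat_lit 836) (nat_lit 0) (XT.nd (nat_lit 78) (nat_lit 608) (nat_lit 0) (XT.lf (nat_lit 0) (nat_lit 44095561434) (nat_lit 532) (nat_lit 171094361666) (nat_lit 76) (nat_lit 146696975309) (nat_lit 54) (nat_lit 5) (nat_lit 61) (nat_lit 5) (nat_lit 55) (nat_lit 5) (nat_lit 294) (nat_lit 290) (nat_lit 196)) (XT.nd (nat_lit 78) (nat_lit 228) (nat_lit 0) (XT.lf (nat_lit 0) (nat_lit 111658712751) (nat_lit 456) (nat_lit 206796222293) (nat_lit 76) (nat_lit 72900183883) (nat_lit 49) (nat_lit 5) (nat_lit 55) (nat_lit 5) (nat_lit 50) (nat_lit 5) (nat_lit 295) (nat_lit 290) (nat_lit 195)) (XT.lf (nat_lit 0) (nat_lit 182104442639) (nat_lit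 228) (nat_lit 22693572927) (nat_lit 304) (nat_lit 219210222867) (nat_lit 46) (nat_lit 5) (nat_lit 49) (nat_lit 5) (nat_lit 50) (nat_lit 5) (nat_lit 296) (nat_lit 290) (nat_lit 194)))) (XT.nd (nat_lit 156) (nat_lit 456) (nat_lit 0) (XT.nd (nat_lit 78) (nat_lit 152) (nat_lit 0) (XT.lf (nat_lit 0) (nat_lit 182104273834) (nat_lit 228) (nat_lit 147994677597) (nat_lit 304) (nat_lit 130005115609) (nat_lit 43) (nat_lit 5) (nat_lit 46) (nat_lit 5) (nat_lit 47) (nat_lit 5) (nat_lit 297) (nat_lit 290) (nat_lit 193)) (XT.lf (nat_lit 0) (nat_lit 187210194857) (nat_lit 152) (nat_lit 303996184876) (nat_lit 228) (nat_lit 9046982200) (nat_lit 41) (nat_lit 5) (nat_lit 43) (nat_lit 5) (nat_lit 44) (nat_lit 5) (nat_lit 298) (nat_lit 290) (nat_lit 192))) (XT.nd (nat_lit 78) (nat_lit 152) (nat_lit 0) (XT.lf (nat_lit 0) (nat_lit 141972275614) (nat_lit 304) (nat_lit 350515642616) (nat_lit 76) (nat_lit 52213045076)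 (nat_lit 37) (nat_lit 5) (nat_lit 41) (nat_lit 5) (nat_lit 38) (nat_lit 5) (nat_lit 299) (nat_lit 290) (nat_lit 191)) (XT.lf (nat_lit 0) (nat_lit 202608865700) (nat_lit 152) (nat_lit 135146161973) (nat_lit 228) (nat_lit 256230175371) (nat_lit 35) (nat_lit 5) (nat_lit 37) (nat_lit 5) (nat_lit 38) (nat_lit 5) (nat_lit 300) (nat_lit 290) (nat_lit 190))))))) (XT.nd (nat_lit 1092) (nat_lit 684) (nat_lit 0) (XT.nd (nat_lit 546) (nat_lit 532) (nat_lit 0) (XT.nd (nat_lit 234) (nat_lit 608) (nat_lit 0) (XT.nd (nat_lit 78) (nat_lit 380) (nat_lit 0) (XT.lf (nat_lit 0) (nat_lit 213883719497) (nat_lit 152) (nat_lit 371268147028) (nat_lit 228) (nat_lit 63730478396) (nat_lit 33) (nat_lit 5) (nat_lit 35) (nat_lit 5) (nat_lit 36) (nat_lit 5) (nat_lit 301) (nat_lit 290) (nat_lit 189)) (XT.nd (nat_lit 78) (nat_lit 152) (nat_lit 0) (XT.lf (nat_lit 0) (nat_lit 171954055511) (nat_lit 228) (nat_lit 485362168361)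 (nat_lit 76) (nat_lit 52618856003) (nat_lit 30) (nat_lit 5) (nat_lit 33) (nat_lit 5) (nat_lit 31) (nat_lit 5) (nat_lit 302) (nat_lit 290) (nat_lit 188)) (XT.lf (nat_lit 0) (nat_lit 229405531174) (nat_lit 152) (nat_lit 238698418628) (nat_lit 228) (nat_lit 309598449506) (nat_lit 28) (nat_lit 5) (nat_lit 30) (nat_lit 5) (nat_lit 31) (nat_lit 5) (nat_lit 303) (nat_lit 290) (nat_lit 187)))) (XT.nd (nat_lit 156) (nat_lit 304) (nat_lit 0) (XT.nd (nat_lit 78) (nat_lit 228) (nat_lit 0) (XT.lf (nat_lit 0) (nat_lit 231660280434) (nat_lit 76) (nat_lit 602922464603) (nat_lit 152) (nat_lit 18979558337) (nat_lit 27) (nat_lit 5) (nat_lit 28) (nat_lit 5) (nat_lit 29) (nat_lit 4) (nat_lit 304) (nat_lit 290) (nat_lit 186)) (XT.lf (nat_lit 0) (nat_lit 218628848071) (nat_lit 152) (nat_lit 109071589900) (nat_lit 228) (nat_lit 610235250940) (nat_lit 24) (nat_lit 5) (nat_lit 26) (nat_lit 5) (nat_lit 27) (nat_lit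 5) (nat_lit 305) (nat_lit 290) (nat_lit 185))) (XT.nd (nat_lit 78) (nat_lit 228) (nat_lit 0) (XT.lf (nat_lit 0) (nat_lit 186691456280) (nat_lit 76) (nat_lit 572700807175) (nat_lit 152) (nat_lit 272802690311) (nat_lit 23) (nat_lit 5) (nat_lit 24) (nat_lit 5) (nat_lit 25) (nat_lit 4) (nat_lit 306) (nat_lit 290) (nat_lit 184)) (XT.lf (nat_lit 0) (nat_lit 133580675266) (nat_lit 152) (nat_lit 3614063411) (nat_lit 228) (nat_lit 1000959439088) (nat_lit 20) (nat_lit 5) (nat_lit 22) (nat_lit 5) (nat_lit 23) (nat_lit 5) (nat_lit 307) (nat_lit 290) (nat_lit 183))))) (XT.nd (nat_lit 234) (nat_lit 304) (nat_lit 0) (XT.nd (nat_lit 78) (nat_lit 152) (nat_lit 0) (XT.lf (nat_lit 0) (nat_lit 30372814372) (nat_lit 76) (nat_lit 604263588884) (nat_lit 152) (nat_lit 621436212622) (nat_lit 19) (nat_lit 5) (nat_lit 20) (nat_lit 5) (nat_lit 21) (nat_lit 4) (nat_lit 308) (nat_lit 290) (nat_lit 182)) (XT.nd (nat_lit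 78) (nat_lit 152) (nat_lit 0) (XT.lf (nat_lit 0) (nat_lit 1237127051463) (nat_lit 152) (nat_lit 109129867750) (nat_lit 0) (nat_lit 42987281806) (nat_lit 19) (nat_lit 5) (nat_lit 21) (nat_lit 4) (nat_lit 19) (nat_lit 4) (nat_lit 309) (nat_lit 290) (nat_lit 181)) (XT.lf (nat_lit 0) (nat_lit 415440395114) (nat_lit 152) (nat_lit 330023785521) (nat_lit 76) (nat_lit 792403205999) (nat_lit 17) (nat_lit 5) (nat_lit 19) (nat_lit 5) (nat_lit 18) (nat_lit 4) (nat_lit 310) (nat_lit 290) (nat_lit 180)))) (XT.nd (nat_lit 156) (nat_lit 76) (nat_lit 0) (XT.nd (nat_lit 78) (nat_lit 152) (nat_lit 0) (XT.lf (nat_lit 0) (nat_lit 1069660761776) (nat_lit 76) (nat_lit 18704912224) (nat_lit 152) (nat_lit 617762997705) (nat_lit 16) (nat_lit 5) (nat_lit 17) (nat_lit 5) (nat_lit 18) (nat_lit 4) (nat_lit 311) (nat_lit 290) (nat_lit 179)) (XT.lf (nat_lit 0) (nat_lit 15019551698) (nat_lit 152) (nat_lit 1074444396037)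 (nat_lit 76) (nat_lit 806193311399) (nat_lit 14) (nat_lit 5) (nat_lit 16) (nat_lit 5) (nat_lit 15) (nat_lit 4) (nat_lit 312) (nat_lit 290) (nat_lit 178))) (XT.nd (nat_lit 78) (nat_lit 0) (nat_lit 0) (XT.lf (nat_lit 0) (nat_lit 427243536100) (nat_lit 76) (nat_lit 309741378623) (nat_lit 152) (nat_lit 1372879045039) (nat_lit 13) (nat_lit 5) (nat_lit 14) (nat_lit 5) (nat_lit 15) (nat_lit 4) (nat_lit 313) (nat_lit 290) (nat_lit 177)) (XT.lf (nat_lit 0) (nat_lit 1613454750745) (nat_lit 152) (nat_lit 149377896528) (nat_lit 0) (nat_lit 589672244740) (nat_lit 13) (nat_lit 5) (nat_lit 15) (nat_lit 4) (nat_lit 13) (nat_lit 4) (nat_lit 314) (nat_lit 290) (nat_lit 176)))))) (XT.nd (nat_lit 546) (nat_lit 228) (nat_lit 0) (XT.nd (nat_lit 234) (nat_lit 228) (nat_lit 0) (XT.nd (nat_lit 78) (nat_lit 76) (nat_lit 0) (XT.lf (nat_lit 0) (nat_lit 40845542284) (nat_lit 152) (nat_lit 938823794123) (nat_lit 76)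 (nat_lit 1647853361954) (nat_lit 11) (nat_lit 5) (nat_lit 13) (nat_lit 5) (nat_lit 12) (nat_lit 4) (nat_lit 315) (nat_lit 290) (nat_lit 175)) (XT.nd (nat_lit 78) (nat_lit 0) (nat_lit 0) (XT.lf (nat_lit 0) (nat_lit 892164188596) (nat_lit 76) (nat_lit 28964044407) (nat_lit 152) (nat_lit 2018956240445) (nat_lit 10) (nat_lit 5) (nat_lit 11) (nat_lit 5) (nat_lit 12) (nat_lit 4) (nat_lit 316) (nat_lit 290) (nat_lit 174)) (XT.lf (nat_lit 0) (nat_lit 1987093660602) (nat_lit 152) (nat_lit 268998770829) (nat_lit 0) (nat_lit 1039146856710) (nat_lit 10) (nat_lit 5) (nat_lit 12) (nat_lit 4) (nat_lit 10) (nat_lit 4) (nat_lit 317) (nat_lit 290) (nat_lit 173)))) (XT.nd (nat_lit 156) (nat_lit 0) (nat_lit 0) (XT.nd (nat_lit 78) (nat_lit 152) (nat_lit 0) (XT.lf (nat_lit 0) (nat_lit 1869478748599) (nat_lit 76) (nat_lit 1389237212703) (nat_lit 76) (nat_lit 441290399026) (nat_lit 9) (nat_lit 4) (nat_lit 10)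 (nat_lit 5) (nat_lit 10) (nat_lit 4) (nat_lit 318) (nat_lit 290) (nat_lit 172)) (XT.lf (nat_lit 0) (nat_lit 175362534195) (nat_lit 76) (nat_lit 364690040987) (nat_lit 152) (nat_lit 3623386757615) (nat_lit 7) (nat_lit 5) (nat_lit 8) (nat_lit 5) (nat_lit 9) (nat_lit 4) (nat_lit 319) (nat_lit 290) (nat_lit 171))) (XT.nd (nat_lit 78) (nat_lit 0) (nat_lit 0) (XT.lf (nat_lit 0) (nat_lit 1717454306776) (nat_lit 152) (nat_lit 2132291286248) (nat_lit 0) (nat_lit 839725760867) (nat_lit 7) (nat_lit 5) (nat_lit 9) (nat_lit 4) (nat_lit 7) (nat_lit 4) (nat_lit 320) (nat_lit 290) (nat_lit 170)) (XT.lf (nat_lit 0) (nat_lit 3081552704939) (nat_lit 152) (nat_lit 8224407595) (nat_lit 0) (nat_lit 2203824153073) (nat_lit 7) (nat_lit 5) (nat_lit 9) (nat_lit 4) (nat_lit 7) (nat_lit 4) (nat_lit 321) (nat_lit 290) (nat_lit 169))))) (XT.nd (nat_lit 234) (nat_lit 0) (nat_lit 0) (XT.nd (nat_lit 78) (nat_lit 152)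 (nat_lit 0) (XT.lf (nat_lit 0) (nat_lit 2562646424795) (nat_lit 76) (nat_lit 2149251130469) (nat_lit 76) (nat_lit 1271522573422) (nat_lit 6) (nat_lit 4) (nat_lit 7) (nat_lit 5) (nat_lit 7) (nat_lit 4) (nat_lit 322) (nat_lit 290) (nat_lit 168)) (XT.nd (nat_lit 78) (nat_lit 152) (nat_lit 0) (XT.lf (nat_lit 0) (nat_lit 5519645898800) (nat_lit 76) (nat_lit 1067387664774) (nat_lit 76) (nat_lit 189659103223) (nat_lit 6) (nat_lit 4) (nat_lit 7) (nat_lit 5) (nat_lit 7) (nat_lit 4) (nat_lit 323) (nat_lit 290) (nat_lit 167)) (XT.lf (nat_lit 0) (nat_lit 1037965527899) (nat_lit 152) (nat_lit 6420809339881) (nat_lit 0) (nat_lit 225253893207) (nat_lit 4) (nat_lit 5) (nat_lit 6) (nat_lit 4) (nat_lit 4) (nat_lit 4) (nat_lit 324) (nat_lit 290) (nat_lit 166)))) (XT.nd (nat_lit 37986) (nat_lit 0) (nat_lit 4104) (XT.nd (nat_lit 78) (nat_lit 0) (nat_lit 0) (XT.lf (nat_lit 0) (nat_lit 2505892651862) (nat_lit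 152) (nat_lit 4522606407909) (nat_lit 0) (nat_lit 1693181014017) (nat_lit 4) (nat_lit 5) (nat_lit 6) (nat_lit 4) (nat_lit 4) (nat_lit 4) (nat_lit 325) (nat_lit 290) (nat_lit 165)) (XT.lf (nat_lit 0) (nat_lit 4194008834016) (nat_lit 152) (nat_lit 2339673056899) (nat_lit 0) (nat_lit 3381297193428) (nat_lit 4) (nat_lit 5) (nat_lit 6) (nat_lit 4) (nat_lit 4) (nat_lit 4) (nat_lit 326) (nat_lit 290) (nat_lit 164))) (XT.nd (nat_lit 78) (nat_lit 0) (nat_lit 0) (XT.lf (nat_lit 0) (nat_lit 125892517258) (nat_lit 532) (nat_lit 14565118740) (nat_lit 532) (nat_lit 14565118740) (nat_lit 58) (nat_lit 3) (nat_lit 65) (nat_lit 3) (nat_lit 65) (nat_lit 5) (nat_lit 291) (nat_lit 291) (nat_lit 198)) (XT.lf (nat_lit 76) (nat_lit 261893066517) (nat_lit 0) (nat_lit 15075519922) (nat_lit 532) (nat_lit 55826360592) (nat_lit 59) (nat_lit 5) (nat_lit 58) (nat_lit 3) (nat_lit 65) (nat_lit 5) (nat_lit 292) (nat_lit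 291) (nat_lit 197))))))))
noncomputable def xc54 : XT := (XT.nd (nat_lit 2106) (nat_lit 380) (nat_lit 0) (XT.nd (nat_lit 1014) (nat_lit 1368) (nat_lit 0) (XT.nd (nat_lit 468) (nat_lit 1216) (nat_lit 0) (XT.nd (nat_lit 234) (nat_lit 836) (nat_lit 0) (XT.nd (nat_lit 78) (nat_lit 380) (nat_lit 0) (XT.lf (nat_lit 76) (nat_lit 244672389487) (nat_lit 0) (nat_lit 75001482619) (nat_lit 532) (nat_lit 38183392342) (nat_lit 60) (nat_lit 5) (nat_lit 59) (nat_lit 5) (nat_lit 66) (nat_lit 5) (nat_lit 293) (nat_lit 291) (nat_lit 196)) (XT.nd (nat_lit 78) (nat_lit 456) (nat_lit 0) (XT.lf (nat_lit 76) (nat_lit 230721310070) (nat_lit 0) (nat_lit 151859323719) (nat_lit 532) (nat_lit 2994641298) (nat_lit 61) (nat_lit 5) (nat_lit 60) (nat_lit 5) (nat_lit 67) (nat_lit 5) (nat_lit 294) (nat_lit 291) (nat_lit 195)) (XT.lf (nat_lit 0) (nat_lit 50711678616) (nat_lit 532) (nat_lit 196756821897) (nat_lit 76) (nat_lit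 168701287727) (nat_lit 54) (nat_lit 5) (nat_lit 61) (nat_lit 5) (nat_lit 55) (nat_lit 5) (nat_lit 295) (nat_lit 291) (nat_lit 194)))) (XT.nd (nat_lit 78) (nat_lit 456) (nat_lit 0) (XT.lf (nat_lit 0) (nat_lit 128409106471) (nat_lit 456) (nat_lit 237813975106) (nat_lit 76) (nat_lit 83835176251) (nat_lit 49) (nat_lit 5) (nat_lit 55) (nat_lit 5) (nat_lit 50) (nat_lit 5) (nat_lit 296) (nat_lit 291) (nat_lit 193)) (XT.nd (nat_lit 78) (nat_lit 228) (nat_lit 0) (XT.lf (nat_lit 0) (nat_lit 209421647318) (nat_lit 228) (nat_lit 26097487412) (nat_lit 304) (nat_lit 252090224388) (nat_lit 46) (nat_lit 5) (nat_lit 49) (nat_lit 5) (nat_lit 50) (nat_lit 5) (nat_lit 297) (nat_lit 291) (nat_lit 192)) (XT.lf (nat_lit 0) (nat_lit 209421425650) (nat_lit 228) (nat_lit 170193639393) (nat_lit 304) (nat_lit 149504508872) (nat_lit 43) (nat_lit 5) (nat_lit 46) (nat_lit 5) (nat_lit 47) (nat_lit 5) (nat_lit 298) (nat_lit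 291) (nat_lit 191))))) (XT.nd (nat_lit 234) (nat_lit 608) (nat_lit 0) (XT.nd (nat_lit 78) (nat_lit 456) (nat_lit 0) (XT.lf (nat_lit 0) (nat_lit 215293196116) (nat_lit 152) (nat_lit 349595286124) (nat_lit 228) (nat_lit 10402791028) (nat_lit 41) (nat_lit 5) (nat_lit 43) (nat_lit 5) (nat_lit 44) (nat_lit 5) (nat_lit 299) (nat_lit 291) (nat_lit 190)) (XT.nd (nat_lit 78) (nat_lit 152) (nat_lit 0) (XT.lf (nat_lit 0) (nat_lit 163269182215) (nat_lit 304) (nat_lit 403091506528) (nat_lit 76) (nat_lit 60045332782) (nat_lit 37) (nat_lit 5) (nat_lit 41) (nat_lit 5) (nat_lit 38) (nat_lit 5) (nat_lit 300) (nat_lit 291) (nat_lit 189)) (XT.lf (nat_lit 0) (nat_lit 233001552551) (nat_lit 152) (nat_lit 155417688221) (nat_lit 228) (nat_lit 294663665094) (nat_lit 35) (nat_lit 5) (nat_lit 37) (nat_lit 5) (nat_lit 38) (nat_lit 5) (nat_lit 301) (nat_lit 291) (nat_lit 188)))) (XT.nd (nat_lit 156) (nat_lit 228)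 (nat_lit 0) (XT.nd (nat_lit 78) (nat_lit 228) (nat_lit 0) (XT.lf (nat_lit 0) (nat_lit 245967581855) (nat_lit 152) (nat_lit 426957938212) (nat_lit 228) (nat_lit 73289105908) (nat_lit 33) (nat_lit 5) (nat_lit 35) (nat_lit 5) (nat_lit 36) (nat_lit 5) (nat_lit 302) (nat_lit 291) (nat_lit 187)) (XT.lf (nat_lit 0) (nat_lit 197747983917) (nat_lit 228) (nat_lit 558165200554) (nat_lit 76) (nat_lit 60512091135) (nat_lit 30) (nat_lit 5) (nat_lit 33) (nat_lit 5) (nat_lit 31) (nat_lit 5) (nat_lit 303) (nat_lit 291) (nat_lit 186))) (XT.nd (nat_lit 78) (nat_lit 76) (nat_lit 0) (XT.lf (nat_lit 0) (nat_lit 263817544461) (nat_lit 152) (nat_lit 274502739391) (nat_lit 228) (nat_lit 356037415468) (nat_lit 28) (nat_lit 5) (nat_lit 30) (nat_lit 5) (nat_lit 31) (nat_lit 5) (nat_lit 304) (nat_lit 291) (nat_lit 185)) (XT.lf (nat_lit 0) (nat_lit 266410451008) (nat_lit 76) (nat_lit 693360387021) (nat_lit 152) (nat_lit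 21825755866) (nat_lit 27) (nat_lit 5) (nat_lit 28) (nat_lit 5) (nat_lit 29) (nat_lit 4) (nat_lit 305) (nat_lit 291) (nat_lit 184)))))) (XT.nd (nat_lit 546) (nat_lit 532) (nat_lit 0) (XT.nd (nat_lit 234) (nat_lit 304) (nat_lit 0) (XT.nd (nat_lit 78) (nat_lit 304) (nat_lit 0) (XT.lf (nat_lit 0) (nat_lit 251424242391) (nat_lit 152) (nat_lit 125431895107) (nat_lit 228) (nat_lit 701769853652) (nat_lit 24) (nat_lit 5) (nat_lit 26) (nat_lit 5) (nat_lit 27) (nat_lit 5) (nat_lit 306) (nat_lit 291) (nat_lit 183)) (XT.nd (nat_lit 78) (nat_lit 228) (nat_lit 0) (XT.lf (nat_lit 0) (nat_lit 214696188741) (nat_lit 76) (nat_lit 658605498839) (nat_lit 152) (nat_lit 313722462142) (nat_lit 23) (nat_lit 5) (nat_lit 24) (nat_lit 5) (nat_lit 25) (nat_lit 4) (nat_lit 307) (nat_lit 291) (nat_lit 182)) (XT.lf (nat_lit 0) (nat_lit 153618733958) (nat_lit 152) (nat_lit 4155760385) (nat_lit 228) (nat_lit 1151102766224)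 (nat_lit 20) (nat_lit 5) (nat_lit 22) (nat_lit 5) (nat_lit 23) (nat_lit 5) (nat_lit 308) (nat_lit 291) (nat_lit 181)))) (XT.nd (nat_lit 156) (nat_lit 228) (nat_lit 0) (XT.nd (nat_lit 78) (nat_lit 0) (nat_lit 0) (XT.lf (nat_lit 0) (nat_lit 34929643959) (nat_lit 76) (nat_lit 694902724031) (nat_lit 152) (nat_lit 714651099692) (nat_lit 19) (nat_lit 5) (nat_lit 20) (nat_lit 5) (nat_lit 21) (nat_lit 4) (nat_lit 309) (nat_lit 291) (nat_lit 180)) (XT.lf (nat_lit 0) (nat_lit 1422696556089) (nat_lit 152) (nat_lit 125498531989) (nat_lit 0) (nat_lit 49435707134) (nat_lit 19) (nat_lit 5) (nat_lit 21) (nat_lit 4) (nat_lit 19) (nat_lit 4) (nat_lit 310) (nat_lit 291) (nat_lit 179))) (XT.nd (nat_lit 78) (nat_lit 76) (nat_lit 0) (XT.lf (nat_lit 0) (nat_lit 477756871689) (nat_lit 152) (nat_lit 379526584348) (nat_lit 76) (nat_lit 911264005041) (nat_lit 17) (nat_lit 5) (nat_lit 19) (nat_lit 5) (nat_lit 18)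 (nat_lit 4) (nat_lit 311) (nat_lit 291) (nat_lit 178)) (XT.lf (nat_lit 0) (nat_lit 1230110579952) (nat_lit 76) (nat_lit 21510324954) (nat_lit 152) (nat_lit 710427037026) (nat_lit 16) (nat_lit 5) (nat_lit 17) (nat_lit 5) (nat_lit 18) (nat_lit 4) (nat_lit 312) (nat_lit 291) (nat_lit 177))))) (XT.nd (nat_lit 234) (nat_lit 304) (nat_lit 0) (XT.nd (nat_lit 78) (nat_lit 76) (nat_lit 0) (XT.lf (nat_lit 0) (nat_lit 17272846783) (nat_lit 152) (nat_lit 1235610371109) (nat_lit 76) (nat_lit 927122601009) (nat_lit 14) (nat_lit 5) (nat_lit 16) (nat_lit 5) (nat_lit 15) (nat_lit 4) (nat_lit 313) (nat_lit 291) (nat_lit 176)) (XT.nd (nat_lit 78) (nat_lit 0) (nat_lit 0) (XT.lf (nat_lit 0) (nat_lit 491330692923) (nat_lit 76) (nat_lit 356202289143) (nat_lit 152) (nat_lit 1578810545148) (nat_lit 13) (nat_lit 5) (nat_lit 14) (nat_lit 5) (nat_lit 15) (nat_lit 4) (nat_lit 314) (nat_lit 291) (nat_lit 175)) (XT.lf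 (nat_lit 0) (nat_lit 1855473256626) (nat_lit 152) (nat_lit 171784019446) (nat_lit 0) (nat_lit 678123326192) (nat_lit 13) (nat_lit 5) (nat_lit 15) (nat_lit 4) (nat_lit 13) (nat_lit 4) (nat_lit 315) (nat_lit 291) (nat_lit 174)))) (XT.nd (nat_lit 156) (nat_lit 76) (nat_lit 0) (XT.nd (nat_lit 78) (nat_lit 76) (nat_lit 0) (XT.lf (nat_lit 0) (nat_lit 46972648024) (nat_lit 152) (nat_lit 1079646834694) (nat_lit 76) (nat_lit 1895031598375) (nat_lit 11) (nat_lit 5) (nat_lit 13) (nat_lit 5) (nat_lit 12) (nat_lit 4) (nat_lit 316) (nat_lit 291) (nat_lit 173)) (XT.lf (nat_lit 0) (nat_lit 1025989300695) (nat_lit 76) (nat_lit 33308417501) (nat_lit 152) (nat_lit 2321799406188) (nat_lit 10) (nat_lit 5) (nat_lit 11) (nat_lit 5) (nat_lit 12) (nat_lit 4) (nat_lit 317) (nat_lit 291) (nat_lit 172))) (XT.nd (nat_lit 78) (nat_lit 76) (nat_lit 0) (XT.lf (nat_lit 0) (nat_lit 2285157932178) (nat_lit 152) (nat_lit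 309348153173) (nat_lit 0) (nat_lit 1195019078158) (nat_lit 10) (nat_lit 5) (nat_lit 12) (nat_lit 4) (nat_lit 10) (nat_lit 4) (nat_lit 318) (nat_lit 291) (nat_lit 171)) (XT.lf (nat_lit 0) (nat_lit 2149900957495) (nat_lit 76) (nat_lit 1597622601007) (nat_lit 76) (nat_lit 507483739589) (nat_lit 9) (nat_lit 4) (nat_lit 10) (nat_lit 5) (nat_lit 10) (nat_lit 4) (nat_lit 319) (nat_lit 291) (nat_lit 170))))))) (XT.nd (nat_lit 38922) (nat_lit 0) (nat_lit 1140) (XT.nd (nat_lit 468) (nat_lit 0) (nat_lit 0) (XT.nd (nat_lit 234) (nat_lit 228) (nat_lit 0) (XT.nd (nat_lit 78) (nat_lit 0) (nat_lit 0) (XT.lf (nat_lit 0) (nat_lit 201667287440) (nat_lit 76) (nat_lit 419393364142) (nat_lit 152) (nat_lit 4166894565887) (nat_lit 7) (nat_lit 5) (nat_lit 8) (nat_lit 5) (nat_lit 9) (nat_lit 4) (nat_lit 320) (nat_lit 291) (nat_lit 169)) (XT.nd (nat_lit 78) (nat_lit 0) (nat_lit 0) (XT.lf (nat_lit 0) (nat_lit 1975072621944)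 (nat_lit 152) (nat_lit 2452134645305) (nat_lit 0) (nat_lit 965684776161) (nat_lit 7) (nat_lit 5) (nat_lit 9) (nat_lit 4) (nat_lit 7) (nat_lit 4) (nat_lit 321) (nat_lit 291) (nat_lit 168)) (XT.lf (nat_lit 0) (nat_lit 3543785757768) (nat_lit 152) (nat_lit 9457778403) (nat_lit 0) (nat_lit 2534397907481) (nat_lit 7) (nat_lit 5) (nat_lit 9) (nat_lit 4) (nat_lit 7) (nat_lit 4) (nat_lit 322) (nat_lit 291) (nat_lit 167)))) (XT.nd (nat_lit 78) (nat_lit 152) (nat_lit 0) (XT.lf (nat_lit 0) (nat_lit 2947043654270) (nat_lit 76) (nat_lit 2471638668578) (nat_lit 76) (nat_lit 1462250814374) (nat_lit 6) (nat_lit 4) (nat_lit 7) (nat_lit 5) (nat_lit 7) (nat_lit 4) (nat_lit 323) (nat_lit 291) (nat_lit 166)) (XT.nd (nat_lit 78) (nat_lit 152) (nat_lit 0) (XT.lf (nat_lit 0) (nat_lit 6347593014712) (nat_lit 76) (nat_lit 1227495700176) (nat_lit 76) (nat_lit 218107842566) (nat_lit 6) (nat_lit 4) (nat_lit 7) (nat_lit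 5) (nat_lit 7) (nat_lit 4) (nat_lit 324) (nat_lit 291) (nat_lit 165)) (XT.lf (nat_lit 0) (nat_lit 1193660469106) (nat_lit 152) (nat_lit 7383930517362) (nat_lit 0) (nat_lit 259042079688) (nat_lit 4) (nat_lit 5) (nat_lit 6) (nat_lit 4) (nat_lit 4) (nat_lit 4) (nat_lit 325) (nat_lit 291) (nat_lit 164))))) (XT.nd (nat_lit 38142) (nat_lit 0) (nat_lit 3420) (XT.nd (nat_lit 37986) (nat_lit 0) (nat_lit 4104) (XT.lf (nat_lit 0) (nat_lit 2881776647052) (nat_lit 152) (nat_lit 5200997174746) (nat_lit 0) (nat_lit 1947158255250) (nat_lit 4) (nat_lit 5) (nat_lit 6) (nat_lit 4) (nat_lit 4) (nat_lit 4) (nat_lit 326) (nat_lit 291) (nat_lit 163)) (XT.nd (nat_lit 78) (nat_lit 0) (nat_lit 0) (XT.lf (nat_lit 0) (nat_lit 144777487437) (nat_lit 532) (nat_lit 16749295733) (nat_lit 532) (nat_lit 16749295733) (nat_lit 58) (nat_lit 3) (nat_lit 65) (nat_lit 3) (nat_lit 65) (nat_lit 5) (nat_lit 292) (nat_lit 292) (nat_lit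 196)) (XT.lf (nat_lit 76) (nat_lit 301178108111) (nat_lit 0) (nat_lit 17337692464) (nat_lit 532) (nat_lit 64198231569) (nat_lit 59) (nat_lit 5) (nat_lit 58) (nat_lit 3) (nat_lit 65) (nat_lit 5) (nat_lit 293) (nat_lit 292) (nat_lit 195)))) (XT.nd (nat_lit 156) (nat_lit 760) (nat_lit 0) (XT.nd (nat_lit 78) (nat_lit 0) (nat_lit 76) (XT.lf (nat_lit 76) (nat_lit 281374400223) (nat_lit 0) (nat_lit 86252237680) (nat_lit 532) (nat_lit 43909078936) (nat_lit 60) (nat_lit 5) (nat_lit 59) (nat_lit 5) (nat_lit 66) (nat_lit 5) (nat_lit 294) (nat_lit 292) (nat_lit 194)) (XT.lf (nat_lit 76) (nat_lit 265330698739) (nat_lit 0) (nat_lit 174638512851) (nat_lit 532) (nat_lit 3442233988) (nat_lit 61) (nat_lit 5) (nat_lit 60) (nat_lit 5) (nat_lit 67) (nat_lit 5) (nat_lit 295) (nat_lit 292) (nat_lit 193))) (XT.nd (nat_lit 78) (nat_lit 380) (nat_lit 0) (XT.lf (nat_lit 0) (nat_lit 58319778587) (nat_lit 532) (nat_lit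 226269064259) (nat_lit 76) (nat_lit 194006304040) (nat_lit 54) (nat_lit 5) (nat_lit 61) (nat_lit 5) (nat_lit 55) (nat_lit 5) (nat_lit 296) (nat_lit 292) (nat_lit 192)) (XT.lf (nat_lit 0) (nat_lit 147671672295) (nat_lit 456) (nat_lit 273484800649) (nat_lit 76) (nat_lit 96410426061) (nat_lit 49) (nat_lit 5) (nat_lit 55) (nat_lit 5) (nat_lit 50) (nat_lit 5) (nat_lit 297) (nat_lit 292) (nat_lit 191)))))) (XT.nd (nat_lit 546) (nat_lit 836) (nat_lit 0) (XT.nd (nat_lit 234) (nat_lit 836) (nat_lit 0) (XT.nd (nat_lit 78) (nat_lit 380) (nat_lit 0) (XT.lf (nat_lit 0) (nat_lit 240836057578) (nat_lit 228) (nat_lit 30012018686) (nat_lit 304) (nat_lit 289902599704) (nat_lit 46) (nat_lit 5) (nat_lit 49) (nat_lit 5) (nat_lit 50) (nat_lit 5) (nat_lit 298) (nat_lit 292) (nat_lit 190)) (XT.nd (nat_lit 78) (nat_lit 152) (nat_lit 0) (XT.lf (nat_lit 0) (nat_lit 240835781834) (nat_lit 228) (nat_lit 195722503947)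 (nat_lit 304) (nat_lit 171929146203) (nat_lit 43) (nat_lit 5) (nat_lit 46) (nat_lit 5) (nat_lit 47) (nat_lit 5) (nat_lit 299) (nat_lit 292) (nat_lit 189)) (XT.lf (nat_lit 0) (nat_lit 247588288600) (nat_lit 152) (nat_lit 402034332174) (nat_lit 228) (nat_lit 11962273197) (nat_lit 41) (nat_lit 5) (nat_lit 43) (nat_lit 5) (nat_lit 44) (nat_lit 5) (nat_lit 300) (nat_lit 292) (nat_lit 188)))) (XT.nd (nat_lit 156) (nat_lit 380) (nat_lit 0) (XT.nd (nat_lit 78) (nat_lit 152) (nat_lit 0) (XT.lf (nat_lit 0) (nat_lit 187760365036) (nat_lit 304) (nat_lit 463554111539) (nat_lit 76) (nat_lit 69052382942) (nat_lit 37) (nat_lit 5) (nat_lit 41) (nat_lit 5) (nat_lit 38) (nat_lit 5) (nat_lit 301) (nat_lit 292) (nat_lit 187)) (XT.lf (nat_lit 0) (nat_lit 267952811517) (nat_lit 152) (nat_lit 178730040472) (nat_lit 228) (nat_lit 338862431054) (nat_lit 35) (nat_lit 5) (nat_lit 37) (nat_lit 5) (nat_lit 38) (nat_lit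 5) (nat_lit 302) (nat_lit 292) (nat_lit 186))) (XT.nd (nat_lit 78) (nat_lit 228) (nat_lit 0) (XT.lf (nat_lit 0) (nat_lit 282863705472) (nat_lit 152) (nat_lit 491001303145) (nat_lit 228) (nat_lit 84281757807) (nat_lit 33) (nat_lit 5) (nat_lit 35) (nat_lit 5) (nat_lit 36) (nat_lit 5) (nat_lit 303) (nat_lit 292) (nat_lit 185)) (XT.lf (nat_lit 0) (nat_lit 227410801603) (nat_lit 228) (nat_lit 641889002897) (nat_lit 76) (nat_lit 69589212354) (nat_lit 30) (nat_lit 5) (nat_lit 33) (nat_lit 5) (nat_lit 31) (nat_lit 5) (nat_lit 304) (nat_lit 292) (nat_lit 184))))) (XT.nd (nat_lit 234) (nat_lit 380) (nat_lit 0) (XT.nd (nat_lit 78) (nat_lit 304) (nat_lit 0) (XT.lf (nat_lit 0) (nat_lit 303391071109) (nat_lit 152) (nat_lit 315677816061) (nat_lit 228) (nat_lit 409442421766) (nat_lit 28) (nat_lit 5) (nat_lit 30) (nat_lit 5) (nat_lit 31) (nat_lit 5) (nat_lit 305) (nat_lit 292) (nat_lit 183)) (XT.nd (nat_lit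 78) (nat_lit 228) (nat_lit 0) (XT.lf (nat_lit 0) (nat_lit 306372871974) (nat_lit 76) (nat_lit 797364106872) (nat_lit 152) (nat_lit 25099062557) (nat_lit 27) (nat_lit 5) (nat_lit 28) (nat_lit 5) (nat_lit 29) (nat_lit 4) (nat_lit 306) (nat_lit 292) (nat_lit 182)) (XT.lf (nat_lit 0) (nat_lit 289138685638) (nat_lit 152) (nat_lit 144246351752) (nat_lit 228) (nat_lit 807034813795) (nat_lit 24) (nat_lit 5) (nat_lit 26) (nat_lit 5) (nat_lit 27) (nat_lit 5) (nat_lit 307) (nat_lit 292) (nat_lit 181)))) (XT.nd (nat_lit 156) (nat_lit 76) (nat_lit 0) (XT.nd (nat_lit 78) (nat_lit 228) (nat_lit 0) (XT.lf (nat_lit 0) (nat_lit 246901383796) (nat_lit 76) (nat_lit 757395998968) (nat_lit 152) (nat_lit 360780353797) (nat_lit 23) (nat_lit 5) (nat_lit 24) (nat_lit 5) (nat_lit 25) (nat_lit 4) (nat_lit 308) (nat_lit 292) (nat_lit 180)) (XT.lf (nat_lit 0) (nat_lit 176662267984) (nat_lit 152) (nat_lit 4778812505)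 (nat_lit 228) (nat_lit 1323767735996) (nat_lit 20) (nat_lit 5) (nat_lit 22) (nat_lit 5) (nat_lit 23) (nat_lit 5) (nat_lit 309) (nat_lit 292) (nat_lit 179))) (XT.nd (nat_lit 78) (nat_lit 0) (nat_lit 0) (XT.lf (nat_lit 0) (nat_lit 40169776701) (nat_lit 76) (nat_lit 799137827770) (nat_lit 152) (nat_lit 821848352681) (nat_lit 19) (nat_lit 5) (nat_lit 20) (nat_lit 5) (nat_lit 21) (nat_lit 4) (nat_lit 310) (nat_lit 292) (nat_lit 178)) (XT.lf (nat_lit 0) (nat_lit 1636101377427) (nat_lit 152) (nat_lit 144322694832) (nat_lit 0) (nat_lit 56851315043) (nat_lit 19) (nat_lit 5) (nat_lit 21) (nat_lit 4) (nat_lit 19) (nat_lit 4) (nat_lit 311) (nat_lit 292) (nat_lit 177))))))))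
noncomputable def xc55 : XT := (XT.nd (nat_lit 40092) (nat_lit 0) (nat_lit 152) (XT.nd (nat_lit 1014) (nat_lit 152) (nat_lit 0) (XT.nd (nat_lit 468) (nat_lit 380) (nat_lit 0) (XT.nd (nat_lit 234) (nat_lit 228) (nat_lit 0) (XT.nd (nat_lit 78) (nat_lit 228) (nat_lit 0) (XT.lf (nat_lit 0) (nat_lit 549420717988) (nat_lit 152) (nat_lit 436454990525) (nat_lit 76) (nat_lit 1047953846358) (nat_lit 17) (nat_lit 5) (nat_lit 19) (nat_lit 5) (nat_lit 18) (nat_lit 4) (nat_lit 312) (nat_lit 292) (nat_lit 176)) (XT.nd (nat_lit 78) (nat_lit 152) (nat_lit 0) (XT.lf (nat_lit 0) (nat_lit 1414627699201) (nat_lit 76) (nat_lit 24736628629) (nat_lit 152) (nat_lit 816990782308) (nat_lit 16) (nat_lit 5) (nat_lit 17) (nat_lit 5) (nat_lit 18) (nat_lit 4) (nat_lit 313) (nat_lit 292) (nat_lit 175)) (XT.lf (nat_lit 0) (nat_lit 19864047774) (nat_lit 152) (nat_lit 1420951409321) (nat_lit 76) (nat_lit 1066191212635) (nat_lit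 14) (nat_lit 5) (nat_lit 16) (nat_lit 5) (nat_lit 15) (nat_lit 4) (nat_lit 314) (nat_lit 292) (nat_lit 174)))) (XT.nd (nat_lit 78) (nat_lit 152) (nat_lit 0) (XT.lf (nat_lit 0) (nat_lit 565030770516) (nat_lit 76) (nat_lit 409632408489) (nat_lit 152) (nat_lit 1815631857245) (nat_lit 13) (nat_lit 5) (nat_lit 14) (nat_lit 5) (nat_lit 15) (nat_lit 4) (nat_lit 315) (nat_lit 292) (nat_lit 173)) (XT.nd (nat_lit 78) (nat_lit 152) (nat_lit 0) (XT.lf (nat_lit 0) (nat_lit 2133794466874) (nat_lit 152) (nat_lit 197551197742) (nat_lit 0) (nat_lit 779842010181) (nat_lit 13) (nat_lit 5) (nat_lit 15) (nat_lit 4) (nat_lit 13) (nat_lit 4) (nat_lit 316) (nat_lit 292) (nat_lit 172)) (XT.lf (nat_lit 0) (nat_lit 54018752712) (nat_lit 152) (nat_lit 1241593460239) (nat_lit 76) (nat_lit 2179286513653) (nat_lit 11) (nat_lit 5) (nat_lit 13) (nat_lit 5) (nat_lit 12) (nat_lit 4) (nat_lit 317) (nat_lit 292) (nat_lit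 171))))) (XT.nd (nat_lit 234) (nat_lit 228) (nat_lit 0) (XT.nd (nat_lit 78) (nat_lit 76) (nat_lit 0) (XT.lf (nat_lit 0) (nat_lit 1179888061628) (nat_lit 76) (nat_lit 38304503515) (nat_lit 152) (nat_lit 2670069112713) (nat_lit 10) (nat_lit 5) (nat_lit 11) (nat_lit 5) (nat_lit 12) (nat_lit 4) (nat_lit 318) (nat_lit 292) (nat_lit 170)) (XT.nd (nat_lit 78) (nat_lit 76) (nat_lit 0) (XT.lf (nat_lit 0) (nat_lit 2627931790237) (nat_lit 152) (nat_lit 355750048527) (nat_lit 0) (nat_lit 1374272085774) (nat_lit 10) (nat_lit 5) (nat_lit 12) (nat_lit 4) (nat_lit 10) (nat_lit 4) (nat_lit 319) (nat_lit 292) (nat_lit 169)) (XT.lf (nat_lit 0) (nat_lit 2472386401010) (nat_lit 76) (nat_lit 1837265844768) (nat_lit 76) (nat_lit 583606134711) (nat_lit 9) (nat_lit 4) (nat_lit 10) (nat_lit 5) (nat_lit 10) (nat_lit 4) (nat_lit 320) (nat_lit 292) (nat_lit 168)))) (XT.nd (nat_lit 156) (nat_lit 76) (nat_lit 0) (XT.nd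 (nat_lit 78) (nat_lit 0) (nat_lit 0) (XT.lf (nat_lit 0) (nat_lit 231917662686) (nat_lit 76) (nat_lit 482302230394) (nat_lit 152) (nat_lit 4791928595481) (nat_lit 7) (nat_lit 5) (nat_lit 8) (nat_lit 5) (nat_lit 9) (nat_lit 4) (nat_lit 321) (nat_lit 292) (nat_lit 167)) (XT.lf (nat_lit 0) (nat_lit 2271333643139) (nat_lit 152) (nat_lit 2819954589639) (nat_lit 0) (nat_lit 1110537606887) (nat_lit 7) (nat_lit 5) (nat_lit 9) (nat_lit 4) (nat_lit 7) (nat_lit 4) (nat_lit 322) (nat_lit 292) (nat_lit 166))) (XT.nd (nat_lit 78) (nat_lit 76) (nat_lit 0) (XT.lf (nat_lit 0) (nat_lit 4075353732653) (nat_lit 152) (nat_lit 10876225632) (nat_lit 0) (nat_lit 2914557692996) (nat_lit 7) (nat_lit 5) (nat_lit 9) (nat_lit 4) (nat_lit 7) (nat_lit 4) (nat_lit 323) (nat_lit 292) (nat_lit 165)) (XT.lf (nat_lit 0) (nat_lit 3389100403361) (nat_lit 76) (nat_lit 2842384369461) (nat_lit 76) (nat_lit 1681588326842) (nat_lit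 6) (nat_lit 4) (nat_lit 7) (nat_lit 5) (nat_lit 7) (nat_lit 4) (nat_lit 324) (nat_lit 292) (nat_lit 164)))))) (XT.nd (nat_lit 38532) (nat_lit 0) (nat_lit 2204) (XT.nd (nat_lit 38220) (nat_lit 0) (nat_lit 3800) (XT.nd (nat_lit 78) (nat_lit 152) (nat_lit 0) (XT.lf (nat_lit 0) (nat_lit 7299732141657) (nat_lit 76) (nat_lit 1411619968764) (nat_lit 76) (nat_lit 250823923570) (nat_lit 6) (nat_lit 4) (nat_lit 7) (nat_lit 5) (nat_lit 7) (nat_lit 4) (nat_lit 325) (nat_lit 292) (nat_lit 163)) (XT.nd (nat_lit 38064) (nat_lit 0) (nat_lit 4104) (XT.lf (nat_lit 0) (nat_lit 1372709624178) (nat_lit 152) (nat_lit 8491519925966) (nat_lit 0) (nat_lit 297898469147) (nat_lit 4) (nat_lit 5) (nat_lit 6) (nat_lit 4) (nat_lit 4) (nat_lit 4) (nat_lit 326) (nat_lit 292) (nat_lit 162)) (XT.lf (nat_lit 0) (nat_lit 166494936708) (nat_lit 532) (nat_lit 19261243350) (nat_lit 532) (nat_lit 19261243350) (nat_lit 58) (nat_lit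 3) (nat_lit 65) (nat_lit 3) (nat_lit 65) (nat_lit 5) (nat_lit 293) (nat_lit 293) (nat_lit 194)))) (XT.nd (nat_lit 156) (nat_lit 304) (nat_lit 0) (XT.nd (nat_lit 78) (nat_lit 0) (nat_lit 76) (XT.lf (nat_lit 76) (nat_lit 346355642185) (nat_lit 0) (nat_lit 19938984937) (nat_lit 532) (nat_lit 73826391172) (nat_lit 59) (nat_lit 5) (nat_lit 58) (nat_lit 3) (nat_lit 65) (nat_lit 5) (nat_lit 294) (nat_lit 293) (nat_lit 193)) (XT.lf (nat_lit 76) (nat_lit 323581431571) (nat_lit 0) (nat_lit 99190476106) (nat_lit 532) (nat_lit 50494062888) (nat_lit 60) (nat_lit 5) (nat_lit 59) (nat_lit 5) (nat_lit 66) (nat_lit 5) (nat_lit 295) (nat_lit 293) (nat_lit 192))) (XT.nd (nat_lit 78) (nat_lit 456) (nat_lit 0) (XT.lf (nat_lit 76) (nat_lit 305131204993) (nat_lit 0) (nat_lit 200834509495) (nat_lit 532) (nat_lit 3957356605) (nat_lit 61) (nat_lit 5) (nat_lit 60) (nat_lit 5) (nat_lit 67) (nat_lit 5) (nat_lit 296)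 (nat_lit 293) (nat_lit 191)) (XT.lf (nat_lit 0) (nat_lit 67068764792) (nat_lit 532) (nat_lit 260208455337) (nat_lit 76) (nat_lit 223107115926) (nat_lit 54) (nat_lit 5) (nat_lit 61) (nat_lit 5) (nat_lit 55) (nat_lit 5) (nat_lit 297) (nat_lit 293) (nat_lit 190))))) (XT.nd (nat_lit 234) (nat_lit 760) (nat_lit 0) (XT.nd (nat_lit 78) (nat_lit 456) (nat_lit 0) (XT.lf (nat_lit 0) (nat_lit 169823330402) (nat_lit 456) (nat_lit 314506559898) (nat_lit 76) (nat_lit 110871969836) (nat_lit 49) (nat_lit 5) (nat_lit 55) (nat_lit 5) (nat_lit 50) (nat_lit 5) (nat_lit 298) (nat_lit 293) (nat_lit 189)) (XT.nd (nat_lit 78) (nat_lit 228) (nat_lit 0) (XT.lf (nat_lit 0) (nat_lit 276962345733) (nat_lit 228) (nat_lit 34513752047) (nat_lit 304) (nat_lit 333387113786) (nat_lit 46) (nat_lit 5) (nat_lit 49) (nat_lit 5) (nat_lit 50) (nat_lit 5) (nat_lit 299) (nat_lit 293) (nat_lit 188)) (XT.lf (nat_lit 0) (nat_lit 276962012880)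 (nat_lit 228) (nat_lit 225080742407) (nat_lit 304) (nat_lit 197717732501) (nat_lit 43) (nat_lit 5) (nat_lit 46) (nat_lit 5) (nat_lit 47) (nat_lit 5) (nat_lit 300) (nat_lit 293) (nat_lit 187)))) (XT.nd (nat_lit 156) (nat_lit 304) (nat_lit 0) (XT.nd (nat_lit 78) (nat_lit 304) (nat_lit 0) (XT.lf (nat_lit 0) (nat_lit 284727373529) (nat_lit 152) (nat_lit 462339295331) (nat_lit 228) (nat_lit 13755906059) (nat_lit 41) (nat_lit 5) (nat_lit 43) (nat_lit 5) (nat_lit 44) (nat_lit 5) (nat_lit 301) (nat_lit 293) (nat_lit 186)) (XT.lf (nat_lit 0) (nat_lit 215925028857) (nat_lit 304) (nat_lit 533086380657) (nat_lit 76) (nat_lit 79410429602) (nat_lit 37) (nat_lit 5) (nat_lit 41) (nat_lit 5) (nat_lit 38) (nat_lit 5) (nat_lit 302) (nat_lit 293) (nat_lit 185))) (XT.nd (nat_lit 78) (nat_lit 152) (nat_lit 0) (XT.lf (nat_lit 0) (nat_lit 308146509112) (nat_lit 152) (nat_lit 205539318958) (nat_lit 228) (nat_lit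 389691203043) (nat_lit 35) (nat_lit 5) (nat_lit 37) (nat_lit 5) (nat_lit 38) (nat_lit 5) (nat_lit 303) (nat_lit 293) (nat_lit 184)) (XT.lf (nat_lit 0) (nat_lit 325294007107) (nat_lit 152) (nat_lit 564651252266) (nat_lit 228) (nat_lit 96923481602) (nat_lit 33) (nat_lit 5) (nat_lit 35) (nat_lit 5) (nat_lit 36) (nat_lit 5) (nat_lit 304) (nat_lit 293) (nat_lit 183))))))) (XT.nd (nat_lit 1092) (nat_lit 380) (nat_lit 0) (XT.nd (nat_lit 546) (nat_lit 608) (nat_lit 0) (XT.nd (nat_lit 234) (nat_lit 608) (nat_lit 0) (XT.nd (nat_lit 78) (nat_lit 228) (nat_lit 0) (XT.lf (nat_lit 0) (nat_lit 261522890727) (nat_lit 228) (nat_lit 738171614019) (nat_lit 76) (nat_lit 80027826757) (nat_lit 30) (nat_lit 5) (nat_lit 33) (nat_lit 5) (nat_lit 31) (nat_lit 5) (nat_lit 305) (nat_lit 293) (nat_lit 182)) (XT.nd (nat_lit 78) (nat_lit 76) (nat_lit 0) (XT.lf (nat_lit 0) (nat_lit 348900408509) (nat_lit 152) (nat_lit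 363029235737) (nat_lit 228) (nat_lit 470858326791) (nat_lit 28) (nat_lit 5) (nat_lit 30) (nat_lit 5) (nat_lit 31) (nat_lit 5) (nat_lit 306) (nat_lit 293) (nat_lit 181)) (XT.lf (nat_lit 0) (nat_lit 352329447998) (nat_lit 76) (nat_lit 916968467173) (nat_lit 152) (nat_lit 28863501004) (nat_lit 27) (nat_lit 5) (nat_lit 28) (nat_lit 5) (nat_lit 29) (nat_lit 4) (nat_lit 307) (nat_lit 293) (nat_lit 180)))) (XT.nd (nat_lit 156) (nat_lit 304) (nat_lit 0) (XT.nd (nat_lit 78) (nat_lit 76) (nat_lit 0) (XT.lf (nat_lit 0) (nat_lit 332510098607) (nat_lit 152) (nat_lit 165883056787) (nat_lit 228) (nat_lit 928089644254) (nat_lit 24) (nat_lit 5) (nat_lit 26) (nat_lit 5) (nat_lit 27) (nat_lit 5) (nat_lit 308) (nat_lit 293) (nat_lit 179)) (XT.lf (nat_lit 0) (nat_lit 283937171134) (nat_lit 76) (nat_lit 871005153295) (nat_lit 152) (nat_lit 414897045681) (nat_lit 23) (nat_lit 5) (nat_lit 24) (nat_lit 5) (nat_lit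 25) (nat_lit 4) (nat_lit 309) (nat_lit 293) (nat_lit 178))) (XT.nd (nat_lit 78) (nat_lit 76) (nat_lit 0) (XT.lf (nat_lit 0) (nat_lit 203162155579) (nat_lit 152) (nat_lit 5495398511) (nat_lit 228) (nat_lit 1522332559789) (nat_lit 20) (nat_lit 5) (nat_lit 22) (nat_lit 5) (nat_lit 23) (nat_lit 5) (nat_lit 310) (nat_lit 293) (nat_lit 177)) (XT.lf (nat_lit 0) (nat_lit 46195762032) (nat_lit 76) (nat_lit 919008271414) (nat_lit 152) (nat_lit 945125294078) (nat_lit 19) (nat_lit 5) (nat_lit 20) (nat_lit 5) (nat_lit 21) (nat_lit 4) (nat_lit 311) (nat_lit 293) (nat_lit 176))))) (XT.nd (nat_lit 234) (nat_lit 380) (nat_lit 0) (XT.nd (nat_lit 78) (nat_lit 228) (nat_lit 0) (XT.lf (nat_lit 0) (nat_lit 1881516839562) (nat_lit 152) (nat_lit 165970632550) (nat_lit 0) (nat_lit 65379202727) (nat_lit 19) (nat_lit 5) (nat_lit 21) (nat_lit 4) (nat_lit 19) (nat_lit 4) (nat_lit 312) (nat_lit 293) (nat_lit 175))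 (XT.nd (nat_lit 78) (nat_lit 76) (nat_lit 0) (XT.lf (nat_lit 0) (nat_lit 631834064283) (nat_lit 152) (nat_lit 501922799425) (nat_lit 76) (nat_lit 1205147105211) (nat_lit 17) (nat_lit 5) (nat_lit 19) (nat_lit 5) (nat_lit 18) (nat_lit 4) (nat_lit 313) (nat_lit 293) (nat_lit 174)) (XT.lf (nat_lit 0) (nat_lit 1626822256544) (nat_lit 76) (nat_lit 28446937616) (nat_lit 152) (nat_lit 939539165044) (nat_lit 16) (nat_lit 5) (nat_lit 17) (nat_lit 5) (nat_lit 18) (nat_lit 4) (nat_lit 314) (nat_lit 293) (nat_lit 173)))) (XT.nd (nat_lit 156) (nat_lit 152) (nat_lit 0) (XT.nd (nat_lit 78) (nat_lit 76) (nat_lit 0) (XT.lf (nat_lit 0) (nat_lit 22843862103) (nat_lit 152) (nat_lit 1634093729449) (nat_lit 76) (nat_lit 1226120061998) (nat_lit 14) (nat_lit 5) (nat_lit 16) (nat_lit 5) (nat_lit 15) (nat_lit 4) (nat_lit 315) (nat_lit 293) (nat_lit 172)) (XT.lf (nat_lit 0) (nat_lit 649785744245) (nat_lit 76) (nat_lit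 471077100367) (nat_lit 152) (nat_lit 2087976431917) (nat_lit 13) (nat_lit 5) (nat_lit 14) (nat_lit 5) (nat_lit 15) (nat_lit 4) (nat_lit 316) (nat_lit 293) (nat_lit 171))) (XT.nd (nat_lit 78) (nat_lit 152) (nat_lit 0) (XT.lf (nat_lit 0) (nat_lit 2453863804583) (nat_lit 152) (nat_lit 227183556330) (nat_lit 0) (nat_lit 896818451640) (nat_lit 13) (nat_lit 5) (nat_lit 15) (nat_lit 4) (nat_lit 13) (nat_lit 4) (nat_lit 317) (nat_lit 293) (nat_lit 170)) (XT.lf (nat_lit 0) (nat_lit 62121722506) (nat_lit 152) (nat_lit 1427832177076) (nat_lit 76) (nat_lit 2506179623421) (nat_lit 11) (nat_lit 5) (nat_lit 13) (nat_lit 5) (nat_lit 12) (nat_lit 4) (nat_lit 318) (nat_lit 293) (nat_lit 169)))))) (XT.nd (nat_lit 546) (nat_lit 0) (nat_lit 0) (XT.nd (nat_lit 234) (nat_lit 228) (nat_lit 0) (XT.nd (nat_lit 78) (nat_lit 76) (nat_lit 0) (XT.lf (nat_lit 0) (nat_lit 1356871547492) (nat_lit 76) (nat_lit 44050045500)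 (nat_lit 152) (nat_lit 3070579325062) (nat_lit 10) (nat_lit 5) (nat_lit 11) (nat_lit 5) (nat_lit 12) (nat_lit 4) (nat_lit 319) (nat_lit 293) (nat_lit 168)) (XT.nd (nat_lit 78) (nat_lit 76) (nat_lit 0) (XT.lf (nat_lit 0) (nat_lit 3022121685980) (nat_lit 152) (nat_lit 409112308076) (nat_lit 0) (nat_lit 1580413008955) (nat_lit 10) (nat_lit 5) (nat_lit 12) (nat_lit 4) (nat_lit 10) (nat_lit 4) (nat_lit 320) (nat_lit 293) (nat_lit 167)) (XT.lf (nat_lit 0) (nat_lit 2843244587922) (nat_lit 76) (nat_lit 2112855610791) (nat_lit 76) (nat_lit 671146929537) (nat_lit 9) (nat_lit 4) (nat_lit 10) (nat_lit 5) (nat_lit 10) (nat_lit 4) (nat_lit 321) (nat_lit 293) (nat_lit 166)))) (XT.nd (nat_lit 156) (nat_lit 76) (nat_lit 0) (XT.nd (nat_lit 78) (nat_lit 0) (nat_lit 0) (XT.lf (nat_lit 0) (nat_lit 266705525419) (nat_lit 76) (nat_lit 554647460326) (nat_lit 152) (nat_lit 5510717767382) (nat_lit 7) (nat_lit 5)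 (nat_lit 8) (nat_lit 5) (nat_lit 9) (nat_lit 4) (nat_lit 322) (nat_lit 293) (nat_lit 165)) (XT.lf (nat_lit 0) (nat_lit 2612033786322) (nat_lit 152) (nat_lit 3242947587188) (nat_lit 0) (nat_lit 1277118334349) (nat_lit 7) (nat_lit 5) (nat_lit 9) (nat_lit 4) (nat_lit 7) (nat_lit 4) (nat_lit 323) (nat_lit 293) (nat_lit 164))) (XT.nd (nat_lit 78) (nat_lit 76) (nat_lit 0) (XT.lf (nat_lit 0) (nat_lit 4686656876649) (nat_lit 152) (nat_lit 12507493479) (nat_lit 0) (nat_lit 3351741422101) (nat_lit 7) (nat_lit 5) (nat_lit 9) (nat_lit 4) (nat_lit 7) (nat_lit 4) (nat_lit 324) (nat_lit 293) (nat_lit 163)) (XT.lf (nat_lit 0) (nat_lit 3897465615812) (nat_lit 76) (nat_lit 3268741949716) (nat_lit 76) (nat_lit 1933826492928) (nat_lit 6) (nat_lit 4) (nat_lit 7) (nat_lit 5) (nat_lit 7) (nat_lit 4) (nat_lit 325) (nat_lit 293) (nat_lit 162))))) (XT.nd (nat_lit 38298) (nat_lit 0) (nat_lit 3268) (XT.nd (nat_lit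 38142) (nat_lit 0) (nat_lit 3952) (XT.lf (nat_lit 0) (nat_lit 8394692095033) (nat_lit 76) (nat_lit 1623362898719) (nat_lit 76) (nat_lit 288447439984) (nat_lit 6) (nat_lit 4) (nat_lit 7) (nat_lit 5) (nat_lit 7) (nat_lit 4) (nat_lit 326) (nat_lit 293) (nat_lit 161)) (XT.nd (nat_lit 78) (nat_lit 0) (nat_lit 0) (XT.lf (nat_lit 0) (nat_lit 191469801906) (nat_lit 532) (nat_lit 22150092050) (nat_lit 532) (nat_lit 22150092050) (nat_lit 58) (nat_lit 3) (nat_lit 65) (nat_lit 3) (nat_lit 65) (nat_lit 5) (nat_lit 294) (nat_lit 294) (nat_lit 192)) (XT.lf (nat_lit 76) (nat_lit 398309606930) (nat_lit 0) (nat_lit 22930315554) (nat_lit 532) (nat_lit 84899158821) (nat_lit 59) (nat_lit 5) (nat_lit 58) (nat_lit 3) (nat_lit 65) (nat_lit 5) (nat_lit 295) (nat_lit 294) (nat_lit 191)))) (XT.nd (nat_lit 156) (nat_lit 760) (nat_lit 0) (XT.nd (nat_lit 78) (nat_lit 0) (nat_lit 76) (XT.lf (nat_lit 76) (nat_lit 372119305145)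 (nat_lit 0) (nat_lit 114069352076) (nat_lit 532) (nat_lit 58067130440) (nat_lit 60) (nat_lit 5) (nat_lit 59) (nat_lit 5) (nat_lit 66) (nat_lit 5) (nat_lit 296) (nat_lit 294) (nat_lit 190)) (XT.lf (nat_lit 76) (nat_lit 350901567362) (nat_lit 0) (nat_lit 230959852057) (nat_lit 532) (nat_lit 4550043286) (nat_lit 61) (nat_lit 5) (nat_lit 60) (nat_lit 5) (nat_lit 67) (nat_lit 5) (nat_lit 297) (nat_lit 294) (nat_lit 189))) (XT.nd (nat_lit 78) (nat_lit 380) (nat_lit 0) (XT.lf (nat_lit 0) (nat_lit 77129850337) (nat_lit 532) (nat_lit 299238991267) (nat_lit 76) (nat_lit 256573082203) (nat_lit 54) (nat_lit 5) (nat_lit 61) (nat_lit 5) (nat_lit 55) (nat_lit 5) (nat_lit 298) (nat_lit 294) (nat_lit 188)) (XT.lf (nat_lit 0) (nat_lit 195297515982) (nat_lit 456) (nat_lit 361681817342) (nat_lit 76) (nat_lit 127502750088) (nat_lit 49) (nat_lit 5) (nat_lit 55) (nat_lit 5) (nat_lit 50) (nat_lit 5) (nat_lit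 299) (nat_lit 294) (nat_lit 187))))))))
noncomputable def xc56 : XT := (XT.nd (nat_lit 40248) (nat_lit 0) (nat_lit 304) (XT.nd (nat_lit 1014) (nat_lit 988) (nat_lit 0) (XT.nd (nat_lit 468) (nat_lit 1064) (nat_lit 0) (XT.nd (nat_lit 234) (nat_lit 608) (nat_lit 0) (XT.nd (nat_lit 78) (nat_lit 380) (nat_lit 0) (XT.lf (nat_lit 0) (nat_lit 318507362635) (nat_lit 228) (nat_lit 39690762346) (nat_lit 304) (nat_lit 383394518567) (nat_lit 46) (nat_lit 5) (nat_lit 49) (nat_lit 5) (nat_lit 50) (nat_lit 5) (nat_lit 300) (nat_lit 294) (nat_lit 186)) (XT.nd (nat_lit 78) (nat_lit 152) (nat_lit 0) (XT.lf (nat_lit 0) (nat_lit 318506967947) (nat_lit 228) (nat_lit 258842750078) (nat_lit 304) (nat_lit 227374798324) (nat_lit 43) (nat_lit 5) (nat_lit 46) (nat_lit 5) (nat_lit 47) (nat_lit 5) (nat_lit 301) (nat_lit 294) (nat_lit 185)) (XT.lf (nat_lit 0) (nat_lit 327437115957) (nat_lit 152) (nat_lit 531690048483)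 (nat_lit 228) (nat_lit 15818756530) (nat_lit 41) (nat_lit 5) (nat_lit 43) (nat_lit 5) (nat_lit 44) (nat_lit 5) (nat_lit 302) (nat_lit 294) (nat_lit 184)))) (XT.nd (nat_lit 78) (nat_lit 304) (nat_lit 0) (XT.lf (nat_lit 0) (nat_lit 248314243726) (nat_lit 304) (nat_lit 613048696838) (nat_lit 76) (nat_lit 91322137119) (nat_lit 37) (nat_lit 5) (nat_lit 41) (nat_lit 5) (nat_lit 38) (nat_lit 5) (nat_lit 303) (nat_lit 294) (nat_lit 183)) (XT.nd (nat_lit 78) (nat_lit 152) (nat_lit 0) (XT.lf (nat_lit 0) (nat_lit 354369072146) (nat_lit 152) (nat_lit 236370044714) (nat_lit 228) (nat_lit 448144435356) (nat_lit 35) (nat_lit 5) (nat_lit 37) (nat_lit 5) (nat_lit 38) (nat_lit 5) (nat_lit 304) (nat_lit 294) (nat_lit 182)) (XT.lf (nat_lit 0) (nat_lit 374088672115) (nat_lit 152) (nat_lit 649348753829) (nat_lit 228) (nat_lit 111461595618) (nat_lit 33) (nat_lit 5) (nat_lit 35) (nat_lit 5) (nat_lit 36) (nat_lit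 5) (nat_lit 305) (nat_lit 294) (nat_lit 181))))) (XT.nd (nat_lit 234) (nat_lit 608) (nat_lit 0) (XT.nd (nat_lit 78) (nat_lit 228) (nat_lit 0) (XT.lf (nat_lit 0) (nat_lit 300751678880) (nat_lit 228) (nat_lit 848896797096) (nat_lit 76) (nat_lit 92032176612) (nat_lit 30) (nat_lit 5) (nat_lit 33) (nat_lit 5) (nat_lit 31) (nat_lit 5) (nat_lit 306) (nat_lit 294) (nat_lit 180)) (XT.nd (nat_lit 78) (nat_lit 76) (nat_lit 0) (XT.lf (nat_lit 0) (nat_lit 401235981493) (nat_lit 152) (nat_lit 417483429995) (nat_lit 228) (nat_lit 541486729314) (nat_lit 28) (nat_lit 5) (nat_lit 30) (nat_lit 5) (nat_lit 31) (nat_lit 5) (nat_lit 307) (nat_lit 294) (nat_lit 179)) (XT.lf (nat_lit 0) (nat_lit 405179353084) (nat_lit 76) (nat_lit 1054513543880) (nat_lit 152) (nat_lit 33192707866) (nat_lit 27) (nat_lit 5) (nat_lit 28) (nat_lit 5) (nat_lit 29) (nat_lit 4) (nat_lit 308) (nat_lit 294) (nat_lit 178)))) (XT.nd (nat_lit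 156) (nat_lit 304) (nat_lit 0) (XT.nd (nat_lit 78) (nat_lit 76) (nat_lit 0) (XT.lf (nat_lit 0) (nat_lit 382387074739) (nat_lit 152) (nat_lit 190765327987) (nat_lit 228) (nat_lit 1067302794778) (nat_lit 24) (nat_lit 5) (nat_lit 26) (nat_lit 5) (nat_lit 27) (nat_lit 5) (nat_lit 309) (nat_lit 294) (nat_lit 177)) (XT.lf (nat_lit 0) (nat_lit 326528185192) (nat_lit 76) (nat_lit 1001655740642) (nat_lit 152) (nat_lit 477131329426) (nat_lit 23) (nat_lit 5) (nat_lit 24) (nat_lit 5) (nat_lit 25) (nat_lit 4) (nat_lit 310) (nat_lit 294) (nat_lit 176))) (XT.nd (nat_lit 78) (nat_lit 76) (nat_lit 0) (XT.lf (nat_lit 0) (nat_lit 233636892828) (nat_lit 152) (nat_lit 6319529936) (nat_lit 228) (nat_lit 1750682189235) (nat_lit 20) (nat_lit 5) (nat_lit 22) (nat_lit 5) (nat_lit 23) (nat_lit 5) (nat_lit 311) (nat_lit 294) (nat_lit 175)) (XT.lf (nat_lit 0) (nat_lit 53125518645) (nat_lit 76) (nat_lit 1056859337818)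 (nat_lit 152) (nat_lit 1086893852648) (nat_lit 19) (nat_lit 5) (nat_lit 20) (nat_lit 5) (nat_lit 21) (nat_lit 4) (nat_lit 312) (nat_lit 294) (nat_lit 174)))))) (XT.nd (nat_lit 546) (nat_lit 380) (nat_lit 0) (XT.nd (nat_lit 234) (nat_lit 380) (nat_lit 0) (XT.nd (nat_lit 78) (nat_lit 228) (nat_lit 0) (XT.lf (nat_lit 0) (nat_lit 2163744558706) (nat_lit 152) (nat_lit 190865874686) (nat_lit 0) (nat_lit 75186227126) (nat_lit 19) (nat_lit 5) (nat_lit 21) (nat_lit 4) (nat_lit 19) (nat_lit 4) (nat_lit 313) (nat_lit 294) (nat_lit 173)) (XT.nd (nat_lit 78) (nat_lit 76) (nat_lit 0) (XT.lf (nat_lit 0) (nat_lit 726609354339) (nat_lit 152) (nat_lit 577210886879) (nat_lit 76) (nat_lit 1385919308534) (nat_lit 17) (nat_lit 5) (nat_lit 19) (nat_lit 5) (nat_lit 18) (nat_lit 4) (nat_lit 314) (nat_lit 294) (nat_lit 172)) (XT.lf (nat_lit 0) (nat_lit 1870845899345) (nat_lit 76) (nat_lit 32713838139) (nat_lit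 152) (nat_lit 1080469862402) (nat_lit 16) (nat_lit 5) (nat_lit 17) (nat_lit 5) (nat_lit 18) (nat_lit 4) (nat_lit 315) (nat_lit 294) (nat_lit 171)))) (XT.nd (nat_lit 156) (nat_lit 152) (nat_lit 0) (XT.nd (nat_lit 78) (nat_lit 76) (nat_lit 0) (XT.lf (nat_lit 0) (nat_lit 26270598064) (nat_lit 152) (nat_lit 1879207493010) (nat_lit 76) (nat_lit 1410038197926) (nat_lit 14) (nat_lit 5) (nat_lit 16) (nat_lit 5) (nat_lit 15) (nat_lit 4) (nat_lit 316) (nat_lit 294) (nat_lit 170)) (XT.lf (nat_lit 0) (nat_lit 747253876695) (nat_lit 76) (nat_lit 541738537334) (nat_lit 152) (nat_lit 2401172742517) (nat_lit 13) (nat_lit 5) (nat_lit 14) (nat_lit 5) (nat_lit 15) (nat_lit 4) (nat_lit 317) (nat_lit 294) (nat_lit 169))) (XT.nd (nat_lit 78) (nat_lit 152) (nat_lit 0) (XT.lf (nat_lit 0) (nat_lit 2821943502059) (nat_lit 152) (nat_lit 261260847001) (nat_lit 0) (nat_lit 1031341325195) (nat_lit 13) (nat_lit 5) (nat_lit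 15) (nat_lit 4) (nat_lit 13) (nat_lit 4) (nat_lit 318) (nat_lit 294) (nat_lit 168)) (XT.lf (nat_lit 0) (nat_lit 71440099512) (nat_lit 152) (nat_lit 1642006775132) (nat_lit 76) (nat_lit 2882106667289) (nat_lit 11) (nat_lit 5) (nat_lit 13) (nat_lit 5) (nat_lit 12) (nat_lit 4) (nat_lit 319) (nat_lit 294) (nat_lit 167))))) (XT.nd (nat_lit 234) (nat_lit 228) (nat_lit 0) (XT.nd (nat_lit 78) (nat_lit 76) (nat_lit 0) (XT.lf (nat_lit 0) (nat_lit 1560402488779) (nat_lit 76) (nat_lit 50657451348) (nat_lit 152) (nat_lit 3531166106954) (nat_lit 10) (nat_lit 5) (nat_lit 11) (nat_lit 5) (nat_lit 12) (nat_lit 4) (nat_lit 320) (nat_lit 294) (nat_lit 166)) (XT.nd (nat_lit 78) (nat_lit 76) (nat_lit 0) (XT.lf (nat_lit 0) (nat_lit 3475440035064) (nat_lit 152) (nat_lit 470478966968) (nat_lit 0) (nat_lit 1817475043713) (nat_lit 10) (nat_lit 5) (nat_lit 12) (nat_lit 4) (nat_lit 10) (nat_lit 4) (nat_lit 321) (nat_lit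 294) (nat_lit 165)) (XT.lf (nat_lit 0) (nat_lit 3269731447574) (nat_lit 76) (nat_lit 2429783868711) (nat_lit 76) (nat_lit 771818874162) (nat_lit 9) (nat_lit 4) (nat_lit 10) (nat_lit 5) (nat_lit 10) (nat_lit 4) (nat_lit 322) (nat_lit 294) (nat_lit 164)))) (XT.nd (nat_lit 156) (nat_lit 76) (nat_lit 0) (XT.nd (nat_lit 78) (nat_lit 0) (nat_lit 0) (XT.lf (nat_lit 0) (nat_lit 306711515540) (nat_lit 76) (nat_lit 637844500262) (nat_lit 152) (nat_lit 6337325343702) (nat_lit 7) (nat_lit 5) (nat_lit 8) (nat_lit 5) (nat_lit 9) (nat_lit 4) (nat_lit 323) (nat_lit 294) (nat_lit 163)) (XT.lf (nat_lit 0) (nat_lit 3003838927399) (nat_lit 152) (nat_lit 3729389580920) (nat_lit 0) (nat_lit 1468686149854) (nat_lit 7) (nat_lit 5) (nat_lit 9) (nat_lit 4) (nat_lit 7) (nat_lit 4) (nat_lit 324) (nat_lit 294) (nat_lit 162))) (XT.nd (nat_lit 78) (nat_lit 76) (nat_lit 0) (XT.lf (nat_lit 0) (nat_lit 5389655471737) (nat_lit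 152) (nat_lit 14383491983) (nat_lit 0) (nat_lit 3854502692244) (nat_lit 7) (nat_lit 5) (nat_lit 9) (nat_lit 4) (nat_lit 7) (nat_lit 4) (nat_lit 325) (nat_lit 294) (nat_lit 161)) (XT.lf (nat_lit 0) (nat_lit 4482085573077) (nat_lit 76) (nat_lit 3759053185339) (nat_lit 76) (nat_lit 2223900404153) (nat_lit 6) (nat_lit 4) (nat_lit 7) (nat_lit 5) (nat_lit 7) (nat_lit 4) (nat_lit 326) (nat_lit 294) (nat_lit 160))))))) (XT.nd (nat_lit 1014) (nat_lit 1520) (nat_lit 0) (XT.nd (nat_lit 468) (nat_lit 1444) (nat_lit 0) (XT.nd (nat_lit 234) (nat_lit 684) (nat_lit 0) (XT.nd (nat_lit 78) (nat_lit 0) (nat_lit 0) (XT.lf (nat_lit 0) (nat_lit 220190744549) (nat_lit 532) (nat_lit 25472350431) (nat_lit 532) (nat_lit 25472350431) (nat_lit 58) (nat_lit 3) (nat_lit 65) (nat_lit 3) (nat_lit 65) (nat_lit 5) (nat_lit 295) (nat_lit 295) (nat_lit 190)) (XT.nd (nat_lit 78) (nat_lit 0) (nat_lit 76) (XT.lf (nat_lit 76)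 (nat_lit 458056515582) (nat_lit 0) (nat_lit 26370228011) (nat_lit 532) (nat_lit 97633132057) (nat_lit 59) (nat_lit 5) (nat_lit 58) (nat_lit 3) (nat_lit 65) (nat_lit 5) (nat_lit 296) (nat_lit 295) (nat_lit 189)) (XT.lf (nat_lit 76) (nat_lit 427937699094) (nat_lit 0) (nat_lit 131179985175) (nat_lit 532) (nat_lit 66776412194) (nat_lit 60) (nat_lit 5) (nat_lit 59) (nat_lit 5) (nat_lit 66) (nat_lit 5) (nat_lit 297) (nat_lit 295) (nat_lit 188)))) (XT.nd (nat_lit 78) (nat_lit 836) (nat_lit 0) (XT.lf (nat_lit 76) (nat_lit 403537317869) (nat_lit 0) (nat_lit 265603955489) (nat_lit 532) (nat_lit 5231856540) (nat_lit 61) (nat_lit 5) (nat_lit 60) (nat_lit 5) (nat_lit 67) (nat_lit 5) (nat_lit 298) (nat_lit 295) (nat_lit 187)) (XT.nd (nat_lit 78) (nat_lit 380) (nat_lit 0) (XT.lf (nat_lit 0) (nat_lit 88699910742) (nat_lit 532) (nat_lit 344124286179) (nat_lit 76) (nat_lit 295058968078) (nat_lit 54) (nat_lit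 5) (nat_lit 61) (nat_lit 5) (nat_lit 55) (nat_lit 5) (nat_lit 299) (nat_lit 295) (nat_lit 186)) (XT.lf (nat_lit 0) (nat_lit 224592662110) (nat_lit 456) (nat_lit 415933540575) (nat_lit 76) (nat_lit 146628151089) (nat_lit 49) (nat_lit 5) (nat_lit 55) (nat_lit 5) (nat_lit 50) (nat_lit 5) (nat_lit 300) (nat_lit 295) (nat_lit 185))))) (XT.nd (nat_lit 234) (nat_lit 836) (nat_lit 0) (XT.nd (nat_lit 78) (nat_lit 380) (nat_lit 0) (XT.lf (nat_lit 0) (nat_lit 366283969897) (nat_lit 228) (nat_lit 45644336994) (nat_lit 304) (nat_lit 440903195569) (nat_lit 46) (nat_lit 5) (nat_lit 49) (nat_lit 5) (nat_lit 50) (nat_lit 5) (nat_lit 301) (nat_lit 295) (nat_lit 184)) (XT.nd (nat_lit 78) (nat_lit 152) (nat_lit 0) (XT.lf (nat_lit 0) (nat_lit 366283507003) (nat_lit 228) (nat_lit 297669084184) (nat_lit 304) (nat_lit 261480568884) (nat_lit 43) (nat_lit 5) (nat_lit 46) (nat_lit 5) (nat_lit 47) (nat_lit 5) (nat_lit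 302) (nat_lit 295) (nat_lit 183)) (XT.lf (nat_lit 0) (nat_lit 376553164560) (nat_lit 152) (nat_lit 611443449028) (nat_lit 228) (nat_lit 18191165141) (nat_lit 41) (nat_lit 5) (nat_lit 43) (nat_lit 5) (nat_lit 44) (nat_lit 5) (nat_lit 303) (nat_lit 295) (nat_lit 182)))) (XT.nd (nat_lit 156) (nat_lit 380) (nat_lit 0) (XT.nd (nat_lit 78) (nat_lit 152) (nat_lit 0) (XT.lf (nat_lit 0) (nat_lit 285561728520) (nat_lit 304) (nat_lit 705005516739) (nat_lit 76) (nat_lit 105020565873) (nat_lit 37) (nat_lit 5) (nat_lit 41) (nat_lit 5) (nat_lit 38) (nat_lit 5) (nat_lit 304) (nat_lit 295) (nat_lit 181)) (XT.lf (nat_lit 0) (nat_lit 407524876572) (nat_lit 152) (nat_lit 271825421299) (nat_lit 228) (nat_lit 515365761799) (nat_lit 35) (nat_lit 5) (nat_lit 37) (nat_lit 5) (nat_lit 38) (nat_lit 5) (nat_lit 305) (nat_lit 295) (nat_lit 180))) (XT.nd (nat_lit 78) (nat_lit 228) (nat_lit 0) (XT.lf (nat_lit 0) (nat_lit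 430202399354) (nat_lit 152) (nat_lit 746750926052) (nat_lit 228) (nat_lit 128180526285) (nat_lit 33) (nat_lit 5) (nat_lit 35) (nat_lit 5) (nat_lit 36) (nat_lit 5) (nat_lit 306) (nat_lit 295) (nat_lit 179)) (XT.lf (nat_lit 0) (nat_lit 345864698797) (nat_lit 228) (nat_lit 976230893957) (nat_lit 76) (nat_lit 105837136066) (nat_lit 30) (nat_lit 5) (nat_lit 33) (nat_lit 5) (nat_lit 31) (nat_lit 5) (nat_lit 307) (nat_lit 295) (nat_lit 178)))))) (XT.nd (nat_lit 546) (nat_lit 684) (nat_lit 0) (XT.nd (nat_lit 234) (nat_lit 380) (nat_lit 0) (XT.nd (nat_lit 78) (nat_lit 304) (nat_lit 0) (XT.lf (nat_lit 0) (nat_lit 461421765641) (nat_lit 152) (nat_lit 480105799994) (nat_lit 228) (nat_lit 622709476712) (nat_lit 28) (nat_lit 5) (nat_lit 30) (nat_lit 5) (nat_lit 31) (nat_lit 5) (nat_lit 308) (nat_lit 295) (nat_lit 177)) (XT.nd (nat_lit 78) (nat_lit 228) (nat_lit 0) (XT.lf (nat_lit 0) (nat_lit 465956624958)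 (nat_lit 76) (nat_lit 1212690429248) (nat_lit 152) (nat_lit 38171373373) (nat_lit 27) (nat_lit 5) (nat_lit 28) (nat_lit 5) (nat_lit 29) (nat_lit 4) (nat_lit 309) (nat_lit 295) (nat_lit 176)) (XT.lf (nat_lit 0) (nat_lit 439745484790) (nat_lit 152) (nat_lit 219379985545) (nat_lit 228) (nat_lit 1227397990090) (nat_lit 24) (nat_lit 5) (nat_lit 26) (nat_lit 5) (nat_lit 27) (nat_lit 5) (nat_lit 310) (nat_lit 295) (nat_lit 175)))) (XT.nd (nat_lit 156) (nat_lit 76) (nat_lit 0) (XT.nd (nat_lit 78) (nat_lit 228) (nat_lit 0) (XT.lf (nat_lit 0) (nat_lit 375507744456) (nat_lit 76) (nat_lit 1151903961363) (nat_lit 152) (nat_lit 548700822331) (nat_lit 23) (nat_lit 5) (nat_lit 24) (nat_lit 5) (nat_lit 25) (nat_lit 4) (nat_lit 311) (nat_lit 295) (nat_lit 174)) (XT.lf (nat_lit 0) (nat_lit 268682739728) (nat_lit 152) (nat_lit 7267324567) (nat_lit 228) (nat_lit 2013284325164) (nat_lit 20) (nat_lit 5) (nat_lit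 22) (nat_lit 5) (nat_lit 23) (nat_lit 5) (nat_lit 312) (nat_lit 295) (nat_lit 173))) (XT.nd (nat_lit 78) (nat_lit 0) (nat_lit 0) (XT.lf (nat_lit 0) (nat_lit 61094643082) (nat_lit 76) (nat_lit 1215388106688) (nat_lit 152) (nat_lit 1249927752441) (nat_lit 19) (nat_lit 5) (nat_lit 20) (nat_lit 5) (nat_lit 21) (nat_lit 4) (nat_lit 313) (nat_lit 295) (nat_lit 172)) (XT.lf (nat_lit 0) (nat_lit 2488306388607) (nat_lit 152) (nat_lit 219495489162) (nat_lit 0) (nat_lit 86464270072) (nat_lit 19) (nat_lit 5) (nat_lit 21) (nat_lit 4) (nat_lit 19) (nat_lit 4) (nat_lit 314) (nat_lit 295) (nat_lit 171))))) (XT.nd (nat_lit 234) (nat_lit 304) (nat_lit 0) (XT.nd (nat_lit 78) (nat_lit 228) (nat_lit 0) (XT.lf (nat_lit 0) (nat_lit 835600893909) (nat_lit 152) (nat_lit 663792268523) (nat_lit 76) (nat_lit 1593807308815) (nat_lit 17) (nat_lit 5) (nat_lit 19) (nat_lit 5) (nat_lit 18) (nat_lit 4) (nat_lit 315) (nat_lit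 295) (nat_lit 170)) (XT.nd (nat_lit 78) (nat_lit 152) (nat_lit 0) (XT.lf (nat_lit 0) (nat_lit 2151473014356) (nat_lit 76) (nat_lit 37620807910) (nat_lit 152) (nat_lit 1242540207623) (nat_lit 16) (nat_lit 5) (nat_lit 17) (nat_lit 5) (nat_lit 18) (nat_lit 4) (nat_lit 316) (nat_lit 295) (nat_lit 169)) (XT.lf (nat_lit 0) (nat_lit 30211306220) (nat_lit 152) (nat_lit 2161088393252) (nat_lit 76) (nat_lit 1621544023365) (nat_lit 14) (nat_lit 5) (nat_lit 16) (nat_lit 5) (nat_lit 15) (nat_lit 4) (nat_lit 317) (nat_lit 295) (nat_lit 168)))) (XT.nd (nat_lit 156) (nat_lit 228) (nat_lit 0) (XT.nd (nat_lit 78) (nat_lit 0) (nat_lit 0) (XT.lf (nat_lit 0) (nat_lit 859342162974) (nat_lit 76) (nat_lit 622999221082) (nat_lit 152) (nat_lit 2761348537306) (nat_lit 13) (nat_lit 5) (nat_lit 14) (nat_lit 5) (nat_lit 15) (nat_lit 4) (nat_lit 318) (nat_lit 295) (nat_lit 167)) (XT.lf (nat_lit 0) (nat_lit 3245235123238)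 (nat_lit 152) (nat_lit 300449790476) (nat_lit 0) (nat_lit 1186042603981) (nat_lit 13) (nat_lit 5) (nat_lit 15) (nat_lit 4) (nat_lit 13) (nat_lit 4) (nat_lit 319) (nat_lit 295) (nat_lit 166))) (XT.nd (nat_lit 78) (nat_lit 76) (nat_lit 0) (XT.lf (nat_lit 0) (nat_lit 82156204139) (nat_lit 152) (nat_lit 1888307618619) (nat_lit 76) (nat_lit 3314422743266) (nat_lit 11) (nat_lit 5) (nat_lit 13) (nat_lit 5) (nat_lit 12) (nat_lit 4) (nat_lit 320) (nat_lit 295) (nat_lit 165)) (XT.lf (nat_lit 0) (nat_lit 1794463020255) (nat_lit 76) (nat_lit 58255992696) (nat_lit 152) (nat_lit 4060840934628) (nat_lit 10) (nat_lit 5) (nat_lit 11) (nat_lit 5) (nat_lit 12) (nat_lit 4) (nat_lit 321) (nat_lit 295) (nat_lit 164))))))))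
noncomputable def xc57 : XT := (XT.nd (nat_lit 40404) (nat_lit 0) (nat_lit 0) (XT.nd (nat_lit 39312) (nat_lit 0) (nat_lit 532) (XT.nd (nat_lit 38766) (nat_lit 0) (nat_lit 2584) (XT.nd (nat_lit 234) (nat_lit 0) (nat_lit 0) (XT.nd (nat_lit 78) (nat_lit 228) (nat_lit 0) (XT.lf (nat_lit 0) (nat_lit 3996756113054) (nat_lit 152) (nat_lit 541050670373) (nat_lit 0) (nat_lit 2090096363343) (nat_lit 10) (nat_lit 5) (nat_lit 12) (nat_lit 4) (nat_lit 10) (nat_lit 4) (nat_lit 322) (nat_lit 295) (nat_lit 163)) (XT.nd (nat_lit 78) (nat_lit 152) (nat_lit 0) (XT.lf (nat_lit 0) (nat_lit 3760191294361) (nat_lit 76) (nat_lit 2794251385729) (nat_lit 76) (nat_lit 887591633599) (nat_lit 9) (nat_lit 4) (nat_lit 10) (nat_lit 5) (nat_lit 10) (nat_lit 4) (nat_lit 323) (nat_lit 295) (nat_lit 162)) (XT.lf (nat_lit 0) (nat_lit 352718364843) (nat_lit 76) (nat_lit 733521115481) (nat_lit 152) (nat_lit 7287924078121) (nat_lit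 7) (nat_lit 5) (nat_lit 8) (nat_lit 5) (nat_lit 9) (nat_lit 4) (nat_lit 324) (nat_lit 295) (nat_lit 161)))) (XT.nd (nat_lit 38376) (nat_lit 0) (nat_lit 3876) (XT.lf (nat_lit 0) (nat_lit 3454414821805) (nat_lit 152) (nat_lit 4288797908912) (nat_lit 0) (nat_lit 1688989121748) (nat_lit 7) (nat_lit 5) (nat_lit 9) (nat_lit 4) (nat_lit 7) (nat_lit 4) (nat_lit 325) (nat_lit 295) (nat_lit 160)) (XT.nd (nat_lit 78) (nat_lit 0) (nat_lit 0) (XT.lf (nat_lit 0) (nat_lit 253219713401) (nat_lit 532) (nat_lit 29293009856) (nat_lit 532) (nat_lit 29293009856) (nat_lit 58) (nat_lit 3) (nat_lit 65) (nat_lit 3) (nat_lit 65) (nat_lit 5) (nat_lit 296) (nat_lit 296) (nat_lit 188)) (XT.lf (nat_lit 76) (nat_lit 526765346502) (nat_lit 0) (nat_lit 30326038299) (nat_lit 532) (nat_lit 112277420893) (nat_lit 59) (nat_lit 5) (nat_lit 58) (nat_lit 3) (nat_lit 65) (nat_lit 5) (nat_lit 297) (nat_lit 296) (nat_lit 187)))))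 (XT.nd (nat_lit 234) (nat_lit 988) (nat_lit 0) (XT.nd (nat_lit 78) (nat_lit 380) (nat_lit 0) (XT.lf (nat_lit 76) (nat_lit 492128730651) (nat_lit 0) (nat_lit 150857157081) (nat_lit 532) (nat_lit 76792278324) (nat_lit 60) (nat_lit 5) (nat_lit 59) (nat_lit 5) (nat_lit 66) (nat_lit 5) (nat_lit 298) (nat_lit 296) (nat_lit 186)) (XT.nd (nat_lit 78) (nat_lit 456) (nat_lit 0) (XT.lf (nat_lit 76) (nat_lit 464068305268) (nat_lit 0) (nat_lit 305444643801) (nat_lit 532) (nat_lit 6016110832) (nat_lit 61) (nat_lit 5) (nat_lit 60) (nat_lit 5) (nat_lit 67) (nat_lit 5) (nat_lit 299) (nat_lit 296) (nat_lit 185)) (XT.lf (nat_lit 0) (nat_lit 102005338076) (nat_lit 532) (nat_lit 395742510370) (nat_lit 76) (nat_lit 339317755478) (nat_lit 54) (nat_lit 5) (nat_lit 61) (nat_lit 5) (nat_lit 55) (nat_lit 5) (nat_lit 300) (nat_lit 296) (nat_lit 184)))) (XT.nd (nat_lit 156) (nat_lit 380) (nat_lit 0) (XT.nd (nat_lit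 78) (nat_lit 228) (nat_lit 0) (XT.lf (nat_lit 0) (nat_lit 258281953661) (nat_lit 456) (nat_lit 478323156260) (nat_lit 76) (nat_lit 168622365048) (nat_lit 49) (nat_lit 5) (nat_lit 55) (nat_lit 5) (nat_lit 50) (nat_lit 5) (nat_lit 301) (nat_lit 296) (nat_lit 183)) (XT.lf (nat_lit 0) (nat_lit 421226945622) (nat_lit 228) (nat_lit 52490957522) (nat_lit 304) (nat_lit 507038296240) (nat_lit 46) (nat_lit 5) (nat_lit 49) (nat_lit 5) (nat_lit 50) (nat_lit 5) (nat_lit 302) (nat_lit 296) (nat_lit 182))) (XT.nd (nat_lit 78) (nat_lit 152) (nat_lit 0) (XT.lf (nat_lit 0) (nat_lit 421226406486) (nat_lit 228) (nat_lit 342319387527) (nat_lit 304) (nat_lit 300702314566) (nat_lit 43) (nat_lit 5) (nat_lit 46) (nat_lit 5) (nat_lit 47) (nat_lit 5) (nat_lit 303) (nat_lit 296) (nat_lit 181)) (XT.lf (nat_lit 0) (nat_lit 433036503108) (nat_lit 152) (nat_lit 703159885680) (nat_lit 228) (nat_lit 20919533774) (nat_lit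 41) (nat_lit 5) (nat_lit 43) (nat_lit 5) (nat_lit 44) (nat_lit 5) (nat_lit 304) (nat_lit 296) (nat_lit 180)))))) (XT.nd (nat_lit 546) (nat_lit 760) (nat_lit 0) (XT.nd (nat_lit 234) (nat_lit 684) (nat_lit 0) (XT.nd (nat_lit 78) (nat_lit 304) (nat_lit 0) (XT.lf (nat_lit 0) (nat_lit 328396251114) (nat_lit 304) (nat_lit 810755977803) (nat_lit 76) (nat_lit 120773732559) (nat_lit 37) (nat_lit 5) (nat_lit 41) (nat_lit 5) (nat_lit 38) (nat_lit 5) (nat_lit 305) (nat_lit 296) (nat_lit 179)) (XT.nd (nat_lit 78) (nat_lit 152) (nat_lit 0) (XT.lf (nat_lit 0) (nat_lit 468653943486) (nat_lit 152) (nat_lit 312599136103) (nat_lit 228) (nat_lit 592670369842) (nat_lit 35) (nat_lit 5) (nat_lit 37) (nat_lit 5) (nat_lit 38) (nat_lit 5) (nat_lit 306) (nat_lit 296) (nat_lit 178)) (XT.lf (nat_lit 0) (nat_lit 494733081693) (nat_lit 152) (nat_lit 858763458456) (nat_lit 228) (nat_lit 147407371824) (nat_lit 33) (nat_lit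 5) (nat_lit 35) (nat_lit 5) (nat_lit 36) (nat_lit 5) (nat_lit 307) (nat_lit 296) (nat_lit 177)))) (XT.nd (nat_lit 156) (nat_lit 304) (nat_lit 0) (XT.nd (nat_lit 78) (nat_lit 152) (nat_lit 0) (XT.lf (nat_lit 0) (nat_lit 397744606328) (nat_lit 228) (nat_lit 1122665208425) (nat_lit 76) (nat_lit 121712807014) (nat_lit 30) (nat_lit 5) (nat_lit 33) (nat_lit 5) (nat_lit 31) (nat_lit 5) (nat_lit 308) (nat_lit 296) (nat_lit 176)) (XT.lf (nat_lit 0) (nat_lit 530635323057) (nat_lit 152) (nat_lit 552121560730) (nat_lit 228) (nat_lit 716115700109) (nat_lit 28) (nat_lit 5) (nat_lit 30) (nat_lit 5) (nat_lit 31) (nat_lit 5) (nat_lit 309) (nat_lit 296) (nat_lit 175))) (XT.nd (nat_lit 78) (nat_lit 228) (nat_lit 0) (XT.lf (nat_lit 0) (nat_lit 535850397652) (nat_lit 76) (nat_lit 1394593883077) (nat_lit 152) (nat_lit 43896897397) (nat_lit 27) (nat_lit 5) (nat_lit 28) (nat_lit 5) (nat_lit 29) (nat_lit 4) (nat_lit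 310) (nat_lit 296) (nat_lit 174)) (XT.lf (nat_lit 0) (nat_lit 505707571282) (nat_lit 152) (nat_lit 252286876277) (nat_lit 228) (nat_lit 1411507519300) (nat_lit 24) (nat_lit 5) (nat_lit 26) (nat_lit 5) (nat_lit 27) (nat_lit 5) (nat_lit 311) (nat_lit 296) (nat_lit 173))))) (XT.nd (nat_lit 234) (nat_lit 380) (nat_lit 0) (XT.nd (nat_lit 78) (nat_lit 304) (nat_lit 0) (XT.lf (nat_lit 0) (nat_lit 431834156774) (nat_lit 76) (nat_lit 1324689449423) (nat_lit 152) (nat_lit 631005789530) (nat_lit 23) (nat_lit 5) (nat_lit 24) (nat_lit 5) (nat_lit 25) (nat_lit 4) (nat_lit 312) (nat_lit 296) (nat_lit 172)) (XT.nd (nat_lit 78) (nat_lit 76) (nat_lit 0) (XT.lf (nat_lit 0) (nat_lit 308985387342) (nat_lit 152) (nat_lit 8357321280) (nat_lit 228) (nat_lit 2315276828414) (nat_lit 20) (nat_lit 5) (nat_lit 22) (nat_lit 5) (nat_lit 23) (nat_lit 5) (nat_lit 313) (nat_lit 296) (nat_lit 171)) (XT.lf (nat_lit 0) (nat_lit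 70259063848) (nat_lit 76) (nat_lit 1397696223031) (nat_lit 152) (nat_lit 1437416780636) (nat_lit 19) (nat_lit 5) (nat_lit 20) (nat_lit 5) (nat_lit 21) (nat_lit 4) (nat_lit 314) (nat_lit 296) (nat_lit 170)))) (XT.nd (nat_lit 156) (nat_lit 228) (nat_lit 0) (XT.nd (nat_lit 78) (nat_lit 152) (nat_lit 0) (XT.lf (nat_lit 0) (nat_lit 2861552457366) (nat_lit 152) (nat_lit 252419610852) (nat_lit 0) (nat_lit 99433992910) (nat_lit 19) (nat_lit 5) (nat_lit 21) (nat_lit 4) (nat_lit 19) (nat_lit 4) (nat_lit 315) (nat_lit 296) (nat_lit 169)) (XT.lf (nat_lit 0) (nat_lit 960941131147) (nat_lit 152) (nat_lit 763360918716) (nat_lit 76) (nat_lit 1832878483777) (nat_lit 17) (nat_lit 5) (nat_lit 19) (nat_lit 5) (nat_lit 18) (nat_lit 4) (nat_lit 316) (nat_lit 296) (nat_lit 168))) (XT.nd (nat_lit 78) (nat_lit 152) (nat_lit 0) (XT.lf (nat_lit 0) (nat_lit 2474194140505) (nat_lit 76) (nat_lit 43263848983) (nat_lit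 152) (nat_lit 1428921137338) (nat_lit 16) (nat_lit 5) (nat_lit 17) (nat_lit 5) (nat_lit 18) (nat_lit 4) (nat_lit 317) (nat_lit 296) (nat_lit 167)) (XT.lf (nat_lit 0) (nat_lit 34743091715) (nat_lit 152) (nat_lit 2485251483083) (nat_lit 76) (nat_lit 1864775699271) (nat_lit 14) (nat_lit 5) (nat_lit 16) (nat_lit 5) (nat_lit 15) (nat_lit 4) (nat_lit 318) (nat_lit 296) (nat_lit 166))))))) (XT.nd (nat_lit 39468) (nat_lit 0) (nat_lit 760) (XT.nd (nat_lit 38922) (nat_lit 0) (nat_lit 2964) (XT.nd (nat_lit 234) (nat_lit 304) (nat_lit 0) (XT.nd (nat_lit 78) (nat_lit 152) (nat_lit 0) (XT.lf (nat_lit 0) (nat_lit 988243642258) (nat_lit 76) (nat_lit 716449031010) (nat_lit 152) (nat_lit 3175550729744) (nat_lit 13) (nat_lit 5) (nat_lit 14) (nat_lit 5) (nat_lit 15) (nat_lit 4) (nat_lit 319) (nat_lit 296) (nat_lit 165)) (XT.nd (nat_lit 78) (nat_lit 152) (nat_lit 0) (XT.lf (nat_lit 0) (nat_lit 3732020464216)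 (nat_lit 152) (nat_lit 345517120238) (nat_lit 0) (nat_lit 1363949055074) (nat_lit 13) (nat_lit 5) (nat_lit 15) (nat_lit 4) (nat_lit 13) (nat_lit 4) (nat_lit 320) (nat_lit 296) (nat_lit 164)) (XT.lf (nat_lit 0) (nat_lit 94479702587) (nat_lit 152) (nat_lit 2171553630763) (nat_lit 76) (nat_lit 3811586212134) (nat_lit 11) (nat_lit 5) (nat_lit 13) (nat_lit 5) (nat_lit 12) (nat_lit 4) (nat_lit 321) (nat_lit 296) (nat_lit 163)))) (XT.nd (nat_lit 156) (nat_lit 228) (nat_lit 0) (XT.nd (nat_lit 78) (nat_lit 0) (nat_lit 0) (XT.lf (nat_lit 0) (nat_lit 2063632592883) (nat_lit 76) (nat_lit 66994333866) (nat_lit 152) (nat_lit 4669967008002) (nat_lit 10) (nat_lit 5) (nat_lit 11) (nat_lit 5) (nat_lit 12) (nat_lit 4) (nat_lit 322) (nat_lit 296) (nat_lit 162)) (XT.lf (nat_lit 0) (nat_lit 4596269585008) (nat_lit 152) (nat_lit 622208163829) (nat_lit 0) (nat_lit 2403610865537) (nat_lit 10) (nat_lit 5) (nat_lit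 12) (nat_lit 4) (nat_lit 10) (nat_lit 4) (nat_lit 323) (nat_lit 296) (nat_lit 161))) (XT.nd (nat_lit 78) (nat_lit 152) (nat_lit 0) (XT.lf (nat_lit 0) (nat_lit 4324220086551) (nat_lit 76) (nat_lit 3213389045733) (nat_lit 76) (nat_lit 1020730324433) (nat_lit 9) (nat_lit 4) (nat_lit 10) (nat_lit 5) (nat_lit 10) (nat_lit 4) (nat_lit 324) (nat_lit 296) (nat_lit 160)) (XT.lf (nat_lit 0) (nat_lit 405626211799) (nat_lit 76) (nat_lit 843549237570) (nat_lit 152) (nat_lit 8381112639075) (nat_lit 7) (nat_lit 5) (nat_lit 8) (nat_lit 5) (nat_lit 9) (nat_lit 4) (nat_lit 325) (nat_lit 296) (nat_lit 159))))) (XT.nd (nat_lit 234) (nat_lit 912) (nat_lit 0) (XT.nd (nat_lit 78) (nat_lit 0) (nat_lit 0) (XT.lf (nat_lit 0) (nat_lit 291202940482) (nat_lit 532) (nat_lit 33686815294) (nat_lit 532) (nat_lit 33686815294) (nat_lit 58) (nat_lit 3) (nat_lit 65) (nat_lit 3) (nat_lit 65) (nat_lit 5) (nat_lit 297) (nat_lit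 297) (nat_lit 186)) (XT.nd (nat_lit 78) (nat_lit 0) (nat_lit 76) (XT.lf (nat_lit 76) (nat_lit 605780415836) (nat_lit 0) (nat_lit 34875152805) (nat_lit 532) (nat_lit 129118519113) (nat_lit 59) (nat_lit 5) (nat_lit 58) (nat_lit 3) (nat_lit 65) (nat_lit 5) (nat_lit 298) (nat_lit 297) (nat_lit 185)) (XT.lf (nat_lit 76) (nat_lit 565948325083) (nat_lit 0) (nat_lit 173485862311) (nat_lit 532) (nat_lit 88310669639) (nat_lit 60) (nat_lit 5) (nat_lit 59) (nat_lit 5) (nat_lit 66) (nat_lit 5) (nat_lit 299) (nat_lit 297) (nat_lit 184)))) (XT.nd (nat_lit 156) (nat_lit 608) (nat_lit 0) (XT.nd (nat_lit 78) (nat_lit 456) (nat_lit 0) (XT.lf (nat_lit 76) (nat_lit 533678845742) (nat_lit 0) (nat_lit 351261412197) (nat_lit 532) (nat_lit 6918131094) (nat_lit 61) (nat_lit 5) (nat_lit 60) (nat_lit 5) (nat_lit 67) (nat_lit 5) (nat_lit 300) (nat_lit 297) (nat_lit 183)) (XT.lf (nat_lit 0) (nat_lit 117306472036) (nat_lit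 532) (nat_lit 455103570301) (nat_lit 76) (nat_lit 390215375087) (nat_lit 54) (nat_lit 5) (nat_lit 61) (nat_lit 5) (nat_lit 55) (nat_lit 5) (nat_lit 301) (nat_lit 297) (nat_lit 182))) (XT.nd (nat_lit 78) (nat_lit 228) (nat_lit 0) (XT.lf (nat_lit 0) (nat_lit 297024543295) (nat_lit 456) (nat_lit 550071315596) (nat_lit 76) (nat_lit 193915713223) (nat_lit 49) (nat_lit 5) (nat_lit 55) (nat_lit 5) (nat_lit 50) (nat_lit 5) (nat_lit 302) (nat_lit 297) (nat_lit 181)) (XT.lf (nat_lit 0) (nat_lit 484411274981) (nat_lit 228) (nat_lit 60364578449) (nat_lit 304) (nat_lit 583093754351) (nat_lit 46) (nat_lit 5) (nat_lit 49) (nat_lit 5) (nat_lit 50) (nat_lit 5) (nat_lit 303) (nat_lit 297) (nat_lit 180)))))) (XT.nd (nat_lit 546) (nat_lit 836) (nat_lit 0) (XT.nd (nat_lit 234) (nat_lit 684) (nat_lit 0) (XT.nd (nat_lit 78) (nat_lit 456) (nat_lit 0) (XT.lf (nat_lit 0) (nat_lit 484410649827) (nat_lit 228) (nat_lit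 393667250827) (nat_lit 304) (nat_lit 345807404926) (nat_lit 43) (nat_lit 5) (nat_lit 46) (nat_lit 5) (nat_lit 47) (nat_lit 5) (nat_lit 304) (nat_lit 297) (nat_lit 179)) (XT.nd (nat_lit 78) (nat_lit 304) (nat_lit 0) (XT.lf (nat_lit 0) (nat_lit 497992253707) (nat_lit 152) (nat_lit 808633807510) (nat_lit 228) (nat_lit 24057232355) (nat_lit 41) (nat_lit 5) (nat_lit 43) (nat_lit 5) (nat_lit 44) (nat_lit 5) (nat_lit 305) (nat_lit 297) (nat_lit 178)) (XT.lf (nat_lit 0) (nat_lit 377655887886) (nat_lit 304) (nat_lit 932369097387) (nat_lit 76) (nat_lit 138889854299) (nat_lit 37) (nat_lit 5) (nat_lit 41) (nat_lit 5) (nat_lit 38) (nat_lit 5) (nat_lit 306) (nat_lit 297) (nat_lit 177)))) (XT.nd (nat_lit 156) (nat_lit 380) (nat_lit 0) (XT.nd (nat_lit 78) (nat_lit 152) (nat_lit 0) (XT.lf (nat_lit 0) (nat_lit 538952288642) (nat_lit 152) (nat_lit 359488932120) (nat_lit 228) (nat_lit 681570731574) (nat_lit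 35) (nat_lit 5) (nat_lit 37) (nat_lit 5) (nat_lit 38) (nat_lit 5) (nat_lit 307) (nat_lit 297) (nat_lit 176)) (XT.lf (nat_lit 0) (nat_lit 568943287755) (nat_lit 152) (nat_lit 987577896691) (nat_lit 228) (nat_lit 169518301111) (nat_lit 33) (nat_lit 5) (nat_lit 35) (nat_lit 5) (nat_lit 36) (nat_lit 5) (nat_lit 308) (nat_lit 297) (nat_lit 175))) (XT.nd (nat_lit 78) (nat_lit 152) (nat_lit 0) (XT.lf (nat_lit 0) (nat_lit 457406450556) (nat_lit 228) (nat_lit 1291064748007) (nat_lit 76) (nat_lit 139969804087) (nat_lit 30) (nat_lit 5) (nat_lit 33) (nat_lit 5) (nat_lit 31) (nat_lit 5) (nat_lit 309) (nat_lit 297) (nat_lit 174)) (XT.lf (nat_lit 0) (nat_lit 610230842741) (nat_lit 152) (nat_lit 634939712220) (nat_lit 228) (nat_lit 823532905326) (nat_lit 28) (nat_lit 5) (nat_lit 30) (nat_lit 5) (nat_lit 31) (nat_lit 5) (nat_lit 310) (nat_lit 297) (nat_lit 173))))) (XT.nd (nat_lit 234) (nat_lit 456) (nat_lit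 0) (XT.nd (nat_lit 78) (nat_lit 304) (nat_lit 0) (XT.lf (nat_lit 0) (nat_lit 616228168226) (nat_lit 76) (nat_lit 1603782881940) (nat_lit 152) (nat_lit 50481294402) (nat_lit 27) (nat_lit 5) (nat_lit 28) (nat_lit 5) (nat_lit 29) (nat_lit 4) (nat_lit 311) (nat_lit 297) (nat_lit 172)) (XT.nd (nat_lit 78) (nat_lit 76) (nat_lit 0) (XT.lf (nat_lit 0) (nat_lit 581563906425) (nat_lit 152) (nat_lit 290129826736) (nat_lit 228) (nat_lit 1623233519176) (nat_lit 24) (nat_lit 5) (nat_lit 26) (nat_lit 5) (nat_lit 27) (nat_lit 5) (nat_lit 312) (nat_lit 297) (nat_lit 171)) (XT.lf (nat_lit 0) (nat_lit 496609469818) (nat_lit 76) (nat_lit 1523392786576) (nat_lit 152) (nat_lit 725656539888) (nat_lit 23) (nat_lit 5) (nat_lit 24) (nat_lit 5) (nat_lit 25) (nat_lit 4) (nat_lit 313) (nat_lit 297) (nat_lit 170)))) (XT.nd (nat_lit 156) (nat_lit 152) (nat_lit 0) (XT.nd (nat_lit 78) (nat_lit 76) (nat_lit 0) (XT.lf (nat_lit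 0) (nat_lit 355333374389) (nat_lit 152) (nat_lit 9610842365) (nat_lit 228) (nat_lit 2662568242639) (nat_lit 20) (nat_lit 5) (nat_lit 22) (nat_lit 5) (nat_lit 23) (nat_lit 5) (nat_lit 314) (nat_lit 297) (nat_lit 169)) (XT.lf (nat_lit 0) (nat_lit 80798093030) (nat_lit 76) (nat_lit 1607350581127) (nat_lit 152) (nat_lit 1653029195900) (nat_lit 19) (nat_lit 5) (nat_lit 20) (nat_lit 5) (nat_lit 21) (nat_lit 4) (nat_lit 315) (nat_lit 297) (nat_lit 168))) (XT.nd (nat_lit 78) (nat_lit 152) (nat_lit 0) (XT.lf (nat_lit 0) (nat_lit 3290785409501) (nat_lit 152) (nat_lit 290282399978) (nat_lit 0) (nat_lit 114349154097) (nat_lit 19) (nat_lit 5) (nat_lit 21) (nat_lit 4) (nat_lit 19) (nat_lit 4) (nat_lit 316) (nat_lit 297) (nat_lit 167)) (XT.lf (nat_lit 0) (nat_lit 1105082378817) (nat_lit 152) (nat_lit 877864912791) (nat_lit 76) (nat_lit 2107810315807) (nat_lit 17) (nat_lit 5) (nat_lit 19) (nat_lit 5)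 (nat_lit 18) (nat_lit 4) (nat_lit 317) (nat_lit 297) (nat_lit 166))))))))
noncomputable def xc58 : XT := (XT.nd (nat_lit 40560) (nat_lit 0) (nat_lit 76) (XT.nd (nat_lit 39468) (nat_lit 0) (nat_lit 760) (XT.nd (nat_lit 468) (nat_lit 76) (nat_lit 0) (XT.nd (nat_lit 234) (nat_lit 228) (nat_lit 0) (XT.nd (nat_lit 78) (nat_lit 228) (nat_lit 0) (XT.lf (nat_lit 0) (nat_lit 2845323393147) (nat_lit 76) (nat_lit 49753365753) (nat_lit 152) (nat_lit 1643259231244) (nat_lit 16) (nat_lit 5) (nat_lit 17) (nat_lit 5) (nat_lit 18) (nat_lit 4) (nat_lit 318) (nat_lit 297) (nat_lit 165)) (XT.nd (nat_lit 78) (nat_lit 76) (nat_lit 0) (XT.lf (nat_lit 0) (nat_lit 39954623195) (nat_lit 152) (nat_lit 2858039077638) (nat_lit 76) (nat_lit 2144492108906) (nat_lit 14) (nat_lit 5) (nat_lit 16) (nat_lit 5) (nat_lit 15) (nat_lit 4) (nat_lit 319) (nat_lit 297) (nat_lit 164)) (XT.lf (nat_lit 0) (nat_lit 1136480305677) (nat_lit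 76) (nat_lit 823916330286) (nat_lit 152) (nat_lit 3651883272546) (nat_lit 13) (nat_lit 5) (nat_lit 14) (nat_lit 5) (nat_lit 15) (nat_lit 4) (nat_lit 320) (nat_lit 297) (nat_lit 163)))) (XT.nd (nat_lit 78) (nat_lit 228) (nat_lit 0) (XT.lf (nat_lit 0) (nat_lit 4291823588663) (nat_lit 152) (nat_lit 397344583314) (nat_lit 0) (nat_lit 1568541459079) (nat_lit 13) (nat_lit 5) (nat_lit 15) (nat_lit 4) (nat_lit 13) (nat_lit 4) (nat_lit 321) (nat_lit 297) (nat_lit 162)) (XT.nd (nat_lit 78) (nat_lit 76) (nat_lit 0) (XT.lf (nat_lit 0) (nat_lit 108651709262) (nat_lit 152) (nat_lit 2497286576588) (nat_lit 76) (nat_lit 4383324187341) (nat_lit 11) (nat_lit 5) (nat_lit 13) (nat_lit 5) (nat_lit 12) (nat_lit 4) (nat_lit 322) (nat_lit 297) (nat_lit 161)) (XT.lf (nat_lit 0) (nat_lit 2373177572243) (nat_lit 76) (nat_lit 77043440291) (nat_lit 152) (nat_lit 5370462008677) (nat_lit 10) (nat_lit 5) (nat_lit 11)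 (nat_lit 5) (nat_lit 12) (nat_lit 4) (nat_lit 323) (nat_lit 297) (nat_lit 160))))) (XT.nd (nat_lit 38688) (nat_lit 0) (nat_lit 3420) (XT.nd (nat_lit 78) (nat_lit 76) (nat_lit 0) (XT.lf (nat_lit 0) (nat_lit 5285710064343) (nat_lit 152) (nat_lit 715539307420) (nat_lit 0) (nat_lit 2764152531430) (nat_lit 10) (nat_lit 5) (nat_lit 12) (nat_lit 4) (nat_lit 10) (nat_lit 4) (nat_lit 324) (nat_lit 297) (nat_lit 159)) (XT.nd (nat_lit 38532) (nat_lit 0) (nat_lit 3724) (XT.lf (nat_lit 0) (nat_lit 4972853173662) (nat_lit 76) (nat_lit 3695397366408) (nat_lit 76) (nat_lit 1173839832111) (nat_lit 9) (nat_lit 4) (nat_lit 10) (nat_lit 5) (nat_lit 10) (nat_lit 4) (nat_lit 325) (nat_lit 297) (nat_lit 158)) (XT.lf (nat_lit 0) (nat_lit 334883585768) (nat_lit 532) (nat_lit 38739727160) (nat_lit 532) (nat_lit 38739727160) (nat_lit 58) (nat_lit 3) (nat_lit 65) (nat_lit 3) (nat_lit 65) (nat_lit 5) (nat_lit 298)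 (nat_lit 298) (nat_lit 184)))) (XT.nd (nat_lit 156) (nat_lit 304) (nat_lit 0) (XT.nd (nat_lit 78) (nat_lit 0) (nat_lit 76) (XT.lf (nat_lit 76) (nat_lit 696647680374) (nat_lit 0) (nat_lit 40106583579) (nat_lit 532) (nat_lit 148485907632) (nat_lit 59) (nat_lit 5) (nat_lit 58) (nat_lit 3) (nat_lit 65) (nat_lit 5) (nat_lit 299) (nat_lit 298) (nat_lit 183)) (XT.lf (nat_lit 76) (nat_lit 650840789221) (nat_lit 0) (nat_lit 199508841217) (nat_lit 532) (nat_lit 101556929492) (nat_lit 60) (nat_lit 5) (nat_lit 59) (nat_lit 5) (nat_lit 66) (nat_lit 5) (nat_lit 300) (nat_lit 298) (nat_lit 182))) (XT.nd (nat_lit 78) (nat_lit 456) (nat_lit 0) (XT.lf (nat_lit 76) (nat_lit 613730895426) (nat_lit 0) (nat_lit 403950678337) (nat_lit 532) (nat_lit 7955551052) (nat_lit 61) (nat_lit 5) (nat_lit 60) (nat_lit 5) (nat_lit 67) (nat_lit 5) (nat_lit 301) (nat_lit 298) (nat_lit 181)) (XT.lf (nat_lit 0) (nat_lit 134902694826)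 (nat_lit 532) (nat_lit 523368866433) (nat_lit 76) (nat_lit 448747648296) (nat_lit 54) (nat_lit 5) (nat_lit 61) (nat_lit 5) (nat_lit 55) (nat_lit 5) (nat_lit 302) (nat_lit 298) (nat_lit 180)))))) (XT.nd (nat_lit 546) (nat_lit 1064) (nat_lit 0) (XT.nd (nat_lit 234) (nat_lit 760) (nat_lit 0) (XT.nd (nat_lit 78) (nat_lit 456) (nat_lit 0) (XT.lf (nat_lit 0) (nat_lit 341578449051) (nat_lit 456) (nat_lit 632581775428) (nat_lit 76) (nat_lit 223003065230) (nat_lit 49) (nat_lit 5) (nat_lit 55) (nat_lit 5) (nat_lit 50) (nat_lit 5) (nat_lit 303) (nat_lit 298) (nat_lit 179)) (XT.nd (nat_lit 78) (nat_lit 228) (nat_lit 0) (XT.lf (nat_lit 0) (nat_lit 557073183632) (nat_lit 228) (nat_lit 69419248052) (nat_lit 304) (nat_lit 670557601001) (nat_lit 46) (nat_lit 5) (nat_lit 49) (nat_lit 5) (nat_lit 50) (nat_lit 5) (nat_lit 304) (nat_lit 298) (nat_lit 178)) (XT.lf (nat_lit 0) (nat_lit 557072460812) (nat_lit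 228) (nat_lit 452717304555) (nat_lit 304) (nat_lit 397678321469) (nat_lit 43) (nat_lit 5) (nat_lit 46) (nat_lit 5) (nat_lit 47) (nat_lit 5) (nat_lit 305) (nat_lit 298) (nat_lit 177)))) (XT.nd (nat_lit 156) (nat_lit 304) (nat_lit 0) (XT.nd (nat_lit 78) (nat_lit 304) (nat_lit 0) (XT.lf (nat_lit 0) (nat_lit 572691299803) (nat_lit 152) (nat_lit 929928832495) (nat_lit 228) (nat_lit 27665642173) (nat_lit 41) (nat_lit 5) (nat_lit 43) (nat_lit 5) (nat_lit 44) (nat_lit 5) (nat_lit 306) (nat_lit 298) (nat_lit 176)) (XT.lf (nat_lit 0) (nat_lit 434304421620) (nat_lit 304) (nat_lit 1072224252478) (nat_lit 76) (nat_lit 159723379216) (nat_lit 37) (nat_lit 5) (nat_lit 41) (nat_lit 5) (nat_lit 38) (nat_lit 5) (nat_lit 307) (nat_lit 298) (nat_lit 175))) (XT.nd (nat_lit 78) (nat_lit 152) (nat_lit 0) (XT.lf (nat_lit 0) (nat_lit 619795323721) (nat_lit 152) (nat_lit 413412215682) (nat_lit 228) (nat_lit 783806194811)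 (nat_lit 35) (nat_lit 5) (nat_lit 37) (nat_lit 5) (nat_lit 38) (nat_lit 5) (nat_lit 308) (nat_lit 298) (nat_lit 174)) (XT.lf (nat_lit 0) (nat_lit 654284965272) (nat_lit 152) (nat_lit 1135714520301) (nat_lit 228) (nat_lit 194945912829) (nat_lit 33) (nat_lit 5) (nat_lit 35) (nat_lit 5) (nat_lit 36) (nat_lit 5) (nat_lit 309) (nat_lit 298) (nat_lit 173))))) (XT.nd (nat_lit 234) (nat_lit 608) (nat_lit 0) (XT.nd (nat_lit 78) (nat_lit 228) (nat_lit 0) (XT.lf (nat_lit 0) (nat_lit 526017534041) (nat_lit 228) (nat_lit 1484724277461) (nat_lit 76) (nat_lit 160965332183) (nat_lit 30) (nat_lit 5) (nat_lit 33) (nat_lit 5) (nat_lit 31) (nat_lit 5) (nat_lit 310) (nat_lit 298) (nat_lit 172)) (XT.nd (nat_lit 78) (nat_lit 76) (nat_lit 0) (XT.lf (nat_lit 0) (nat_lit 701765636431) (nat_lit 152) (nat_lit 730180606582) (nat_lit 228) (nat_lit 947062727855) (nat_lit 28) (nat_lit 5) (nat_lit 30) (nat_lit 5) (nat_lit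 31) (nat_lit 5) (nat_lit 311) (nat_lit 298) (nat_lit 171)) (XT.lf (nat_lit 0) (nat_lit 708662552951) (nat_lit 76) (nat_lit 1844350251018) (nat_lit 152) (nat_lit 58053384513) (nat_lit 27) (nat_lit 5) (nat_lit 28) (nat_lit 5) (nat_lit 29) (nat_lit 4) (nat_lit 312) (nat_lit 298) (nat_lit 170)))) (XT.nd (nat_lit 156) (nat_lit 304) (nat_lit 0) (XT.nd (nat_lit 78) (nat_lit 76) (nat_lit 0) (XT.lf (nat_lit 0) (nat_lit 668798643202) (nat_lit 152) (nat_lit 333649239512) (nat_lit 228) (nat_lit 1866718450253) (nat_lit 24) (nat_lit 5) (nat_lit 26) (nat_lit 5) (nat_lit 27) (nat_lit 5) (nat_lit 313) (nat_lit 298) (nat_lit 169)) (XT.lf (nat_lit 0) (nat_lit 571101033600) (nat_lit 76) (nat_lit 1751901643875) (nat_lit 152) (nat_lit 834504931592) (nat_lit 23) (nat_lit 5) (nat_lit 24) (nat_lit 5) (nat_lit 25) (nat_lit 4) (nat_lit 314) (nat_lit 298) (nat_lit 168))) (XT.nd (nat_lit 78) (nat_lit 76) (nat_lit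 0) (XT.lf (nat_lit 0) (nat_lit 408633515856) (nat_lit 152) (nat_lit 11052410417) (nat_lit 228) (nat_lit 3061953395831) (nat_lit 20) (nat_lit 5) (nat_lit 22) (nat_lit 5) (nat_lit 23) (nat_lit 5) (nat_lit 315) (nat_lit 298) (nat_lit 167)) (XT.lf (nat_lit 0) (nat_lit 92917935231) (nat_lit 76) (nat_lit 1848453111315) (nat_lit 152) (nat_lit 1900983498285) (nat_lit 19) (nat_lit 5) (nat_lit 20) (nat_lit 5) (nat_lit 21) (nat_lit 4) (nat_lit 316) (nat_lit 298) (nat_lit 166))))))) (XT.nd (nat_lit 39546) (nat_lit 0) (nat_lit 760) (XT.nd (nat_lit 468) (nat_lit 228) (nat_lit 0) (XT.nd (nat_lit 234) (nat_lit 228) (nat_lit 0) (XT.nd (nat_lit 78) (nat_lit 228) (nat_lit 0) (XT.lf (nat_lit 0) (nat_lit 3784403284087) (nat_lit 152) (nat_lit 333824644662) (nat_lit 0) (nat_lit 131501574282) (nat_lit 19) (nat_lit 5) (nat_lit 21) (nat_lit 4) (nat_lit 19) (nat_lit 4) (nat_lit 317) (nat_lit 298) (nat_lit 165))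 (XT.nd (nat_lit 78) (nat_lit 76) (nat_lit 0) (XT.lf (nat_lit 0) (nat_lit 1270844794617) (nat_lit 152) (nat_lit 1009544541028) (nat_lit 76) (nat_lit 2423981908141) (nat_lit 17) (nat_lit 5) (nat_lit 19) (nat_lit 5) (nat_lit 18) (nat_lit 4) (nat_lit 318) (nat_lit 298) (nat_lit 164)) (XT.lf (nat_lit 0) (nat_lit 3272122001601) (nat_lit 76) (nat_lit 57216324811) (nat_lit 152) (nat_lit 1889748057938) (nat_lit 16) (nat_lit 5) (nat_lit 17) (nat_lit 5) (nat_lit 18) (nat_lit 4) (nat_lit 319) (nat_lit 298) (nat_lit 163)))) (XT.nd (nat_lit 78) (nat_lit 76) (nat_lit 0) (XT.lf (nat_lit 0) (nat_lit 45947867882) (nat_lit 152) (nat_lit 3286744842568) (nat_lit 76) (nat_lit 2466165966638) (nat_lit 14) (nat_lit 5) (nat_lit 16) (nat_lit 5) (nat_lit 15) (nat_lit 4) (nat_lit 320) (nat_lit 298) (nat_lit 162)) (XT.nd (nat_lit 78) (nat_lit 0) (nat_lit 0) (XT.lf (nat_lit 0) (nat_lit 1306952440058) (nat_lit 76) (nat_lit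 947503737958) (nat_lit 152) (nat_lit 4199665713023) (nat_lit 13) (nat_lit 5) (nat_lit 14) (nat_lit 5) (nat_lit 15) (nat_lit 4) (nat_lit 321) (nat_lit 298) (nat_lit 161)) (XT.lf (nat_lit 0) (nat_lit 4935597168409) (nat_lit 152) (nat_lit 456946191446) (nat_lit 0) (nat_lit 1803822712530) (nat_lit 13) (nat_lit 5) (nat_lit 15) (nat_lit 4) (nat_lit 13) (nat_lit 4) (nat_lit 322) (nat_lit 298) (nat_lit 160))))) (XT.nd (nat_lit 38766) (nat_lit 0) (nat_lit 3648) (XT.nd (nat_lit 78) (nat_lit 76) (nat_lit 0) (XT.lf (nat_lit 0) (nat_lit 124949504432) (nat_lit 152) (nat_lit 2871879488377) (nat_lit 76) (nat_lit 5040822848248) (nat_lit 11) (nat_lit 5) (nat_lit 13) (nat_lit 5) (nat_lit 12) (nat_lit 4) (nat_lit 323) (nat_lit 298) (nat_lit 159)) (XT.nd (nat_lit 78) (nat_lit 0) (nat_lit 0) (XT.lf (nat_lit 0) (nat_lit 2729154276455) (nat_lit 76) (nat_lit 88599923325) (nat_lit 152) (nat_lit 6176031271775) (nat_lit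 10) (nat_lit 5) (nat_lit 11) (nat_lit 5) (nat_lit 12) (nat_lit 4) (nat_lit 324) (nat_lit 298) (nat_lit 158)) (XT.lf (nat_lit 0) (nat_lit 6078566605439) (nat_lit 152) (nat_lit 822870142298) (nat_lit 0) (nat_lit 3178775438412) (nat_lit 10) (nat_lit 5) (nat_lit 12) (nat_lit 4) (nat_lit 10) (nat_lit 4) (nat_lit 325) (nat_lit 298) (nat_lit 157)))) (XT.nd (nat_lit 156) (nat_lit 0) (nat_lit 76) (XT.nd (nat_lit 78) (nat_lit 0) (nat_lit 0) (XT.lf (nat_lit 0) (nat_lit 385116278047) (nat_lit 532) (nat_lit 44550602735) (nat_lit 532) (nat_lit 44550602735) (nat_lit 58) (nat_lit 3) (nat_lit 65) (nat_lit 3) (nat_lit 65) (nat_lit 5) (nat_lit 299) (nat_lit 299) (nat_lit 182)) (XT.lf (nat_lit 76) (nat_lit 801144985293) (nat_lit 0) (nat_lit 46122690476) (nat_lit 532) (nat_lit 170758499373) (nat_lit 59) (nat_lit 5) (nat_lit 58) (nat_lit 3) (nat_lit 65) (nat_lit 5) (nat_lit 300) (nat_lit 299) (nat_lit 181)))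 (XT.nd (nat_lit 78) (nat_lit 0) (nat_lit 76) (XT.lf (nat_lit 76) (nat_lit 748467070459) (nat_lit 0) (nat_lit 229435242681) (nat_lit 532) (nat_lit 116790211378) (nat_lit 60) (nat_lit 5) (nat_lit 59) (nat_lit 5) (nat_lit 66) (nat_lit 5) (nat_lit 301) (nat_lit 299) (nat_lit 180)) (XT.lf (nat_lit 76) (nat_lit 705790698226) (nat_lit 0) (nat_lit 464543321155) (nat_lit 532) (nat_lit 9148657089) (nat_lit 61) (nat_lit 5) (nat_lit 60) (nat_lit 5) (nat_lit 67) (nat_lit 5) (nat_lit 302) (nat_lit 299) (nat_lit 179)))))) (XT.nd (nat_lit 546) (nat_lit 1140) (nat_lit 0) (XT.nd (nat_lit 234) (nat_lit 836) (nat_lit 0) (XT.nd (nat_lit 78) (nat_lit 608) (nat_lit 0) (XT.lf (nat_lit 0) (nat_lit 155138289587) (nat_lit 532) (nat_lit 601874015367) (nat_lit 76) (nat_lit 516059770547) (nat_lit 54) (nat_lit 5) (nat_lit 61) (nat_lit 5) (nat_lit 55) (nat_lit 5) (nat_lit 303) (nat_lit 299) (nat_lit 178)) (XT.nd (nat_lit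 78) (nat_lit 228) (nat_lit 0) (XT.lf (nat_lit 0) (nat_lit 392815385982) (nat_lit 456) (nat_lit 727468862153) (nat_lit 76) (nat_lit 256453521251) (nat_lit 49) (nat_lit 5) (nat_lit 55) (nat_lit 5) (nat_lit 50) (nat_lit 5) (nat_lit 304) (nat_lit 299) (nat_lit 177)) (XT.lf (nat_lit 0) (nat_lit 640634325565) (nat_lit 228) (nat_lit 79832122280) (nat_lit 304) (nat_lit 771141077445) (nat_lit 46) (nat_lit 5) (nat_lit 49) (nat_lit 5) (nat_lit 50) (nat_lit 5) (nat_lit 305) (nat_lit 299) (nat_lit 176)))) (XT.nd (nat_lit 156) (nat_lit 456) (nat_lit 0) (XT.nd (nat_lit 78) (nat_lit 152) (nat_lit 0) (XT.lf (nat_lit 0) (nat_lit 640633491379) (nat_lit 228) (nat_lit 520624874607) (nat_lit 304) (nat_lit 457329922849) (nat_lit 43) (nat_lit 5) (nat_lit 46) (nat_lit 5) (nat_lit 47) (nat_lit 5) (nat_lit 306) (nat_lit 299) (nat_lit 175)) (XT.lf (nat_lit 0) (nat_lit 658595152082) (nat_lit 152) (nat_lit 1069418122480)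 (nat_lit 228) (nat_lit 31815356146) (nat_lit 41) (nat_lit 5) (nat_lit 43) (nat_lit 5) (nat_lit 44) (nat_lit 5) (nat_lit 307) (nat_lit 299) (nat_lit 174))) (XT.nd (nat_lit 78) (nat_lit 152) (nat_lit 0) (XT.lf (nat_lit 0) (nat_lit 499450198702) (nat_lit 304) (nat_lit 1233057731925) (nat_lit 76) (nat_lit 183681921464) (nat_lit 37) (nat_lit 5) (nat_lit 41) (nat_lit 5) (nat_lit 38) (nat_lit 5) (nat_lit 308) (nat_lit 299) (nat_lit 173)) (XT.lf (nat_lit 0) (nat_lit 712764767294) (nat_lit 152) (nat_lit 475424005498) (nat_lit 228) (nat_lit 901377013259) (nat_lit 35) (nat_lit 5) (nat_lit 37) (nat_lit 5) (nat_lit 38) (nat_lit 5) (nat_lit 309) (nat_lit 299) (nat_lit 172))))) (XT.nd (nat_lit 234) (nat_lit 608) (nat_lit 0) (XT.nd (nat_lit 78) (nat_lit 380) (nat_lit 0) (XT.lf (nat_lit 0) (nat_lit 752427849461) (nat_lit 152) (nat_lit 1306071652301) (nat_lit 228) (nat_lit 224187698847) (nat_lit 33) (nat_lit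 5) (nat_lit 35) (nat_lit 5) (nat_lit 36) (nat_lit 5) (nat_lit 310) (nat_lit 299) (nat_lit 171)) (XT.nd (nat_lit 78) (nat_lit 152) (nat_lit 0) (XT.lf (nat_lit 0) (nat_lit 604920251785) (nat_lit 228) (nat_lit 1707432780898) (nat_lit 76) (nat_lit 185110175476) (nat_lit 30) (nat_lit 5) (nat_lit 33) (nat_lit 5) (nat_lit 31) (nat_lit 5) (nat_lit 311) (nat_lit 299) (nat_lit 170)) (XT.lf (nat_lit 0) (nat_lit 807030608381) (nat_lit 152) (nat_lit 839707650332) (nat_lit 228) (nat_lit 1089122051385) (nat_lit 28) (nat_lit 5) (nat_lit 30) (nat_lit 5) (nat_lit 31) (nat_lit 5) (nat_lit 312) (nat_lit 299) (nat_lit 169)))) (XT.nd (nat_lit 156) (nat_lit 304) (nat_lit 0) (XT.nd (nat_lit 78) (nat_lit 228) (nat_lit 0) (XT.lf (nat_lit 0) (nat_lit 814962056492) (nat_lit 76) (nat_lit 2121002740873) (nat_lit 152) (nat_lit 66761313514) (nat_lit 27) (nat_lit 5) (nat_lit 28) (nat_lit 5) (nat_lit 29) (nat_lit 4) (nat_lit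 313) (nat_lit 299) (nat_lit 168)) (XT.lf (nat_lit 0) (nat_lit 769118553718) (nat_lit 152) (nat_lit 383696579136) (nat_lit 228) (nat_lit 2146726144596) (nat_lit 24) (nat_lit 5) (nat_lit 26) (nat_lit 5) (nat_lit 27) (nat_lit 5) (nat_lit 314) (nat_lit 299) (nat_lit 167))) (XT.nd (nat_lit 78) (nat_lit 228) (nat_lit 0) (XT.lf (nat_lit 0) (nat_lit 656766297003) (nat_lit 76) (nat_lit 2014686844567) (nat_lit 152) (nat_lit 959680603823) (nat_lit 23) (nat_lit 5) (nat_lit 24) (nat_lit 5) (nat_lit 25) (nat_lit 4) (nat_lit 315) (nat_lit 299) (nat_lit 166)) (XT.lf (nat_lit 0) (nat_lit 469928645547) (nat_lit 152) (nat_lit 12710227894) (nat_lit 228) (nat_lit 3521246342292) (nat_lit 20) (nat_lit 5) (nat_lit 22) (nat_lit 5) (nat_lit 23) (nat_lit 5) (nat_lit 316) (nat_lit 299) (nat_lit 165))))))))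
noncomputable def xc59 : XT := (XT.nd (nat_lit 40716) (nat_lit 0) (nat_lit 76) (XT.nd (nat_lit 39624) (nat_lit 0) (nat_lit 760) (XT.nd (nat_lit 468) (nat_lit 228) (nat_lit 0) (XT.nd (nat_lit 234) (nat_lit 304) (nat_lit 0) (XT.nd (nat_lit 78) (nat_lit 152) (nat_lit 0) (XT.lf (nat_lit 0) (nat_lit 106855722488) (nat_lit 76) (nat_lit 2125721034925) (nat_lit 152) (nat_lit 2186130964806) (nat_lit 19) (nat_lit 5) (nat_lit 20) (nat_lit 5) (nat_lit 21) (nat_lit 4) (nat_lit 317) (nat_lit 299) (nat_lit 164)) (XT.nd (nat_lit 78) (nat_lit 152) (nat_lit 0) (XT.lf (nat_lit 0) (nat_lit 4352063824459) (nat_lit 152) (nat_lit 383898254168) (nat_lit 0) (nat_lit 151226846017) (nat_lit 19) (nat_lit 5) (nat_lit 21) (nat_lit 4) (nat_lit 19) (nat_lit 4) (nat_lit 318) (nat_lit 299) (nat_lit 163)) (XT.lf (nat_lit 0) (nat_lit 1461471558406) (nat_lit 152) (nat_lit 1160976140003) (nat_lit 76) (nat_lit 2787579228360)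 (nat_lit 17) (nat_lit 5) (nat_lit 19) (nat_lit 5) (nat_lit 18) (nat_lit 4) (nat_lit 319) (nat_lit 299) (nat_lit 162)))) (XT.nd (nat_lit 78) (nat_lit 228) (nat_lit 0) (XT.lf (nat_lit 0) (nat_lit 3762940377065) (nat_lit 76) (nat_lit 65798738897) (nat_lit 152) (nat_lit 2173210222779) (nat_lit 16) (nat_lit 5) (nat_lit 17) (nat_lit 5) (nat_lit 18) (nat_lit 4) (nat_lit 320) (nat_lit 299) (nat_lit 161)) (XT.nd (nat_lit 78) (nat_lit 76) (nat_lit 0) (XT.lf (nat_lit 0) (nat_lit 52840086784) (nat_lit 152) (nat_lit 3779756495822) (nat_lit 76) (nat_lit 2836090892934) (nat_lit 14) (nat_lit 5) (nat_lit 16) (nat_lit 5) (nat_lit 15) (nat_lit 4) (nat_lit 321) (nat_lit 299) (nat_lit 160)) (XT.lf (nat_lit 0) (nat_lit 1502995373008) (nat_lit 76) (nat_lit 1089629266990) (nat_lit 152) (nat_lit 4829615531864) (nat_lit 13) (nat_lit 5) (nat_lit 14) (nat_lit 5) (nat_lit 15) (nat_lit 4) (nat_lit 322) (nat_lit 299)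 (nat_lit 159))))) (XT.nd (nat_lit 38844) (nat_lit 0) (nat_lit 3648) (XT.nd (nat_lit 78) (nat_lit 228) (nat_lit 0) (XT.lf (nat_lit 0) (nat_lit 5675936775011) (nat_lit 152) (nat_lit 525488060152) (nat_lit 0) (nat_lit 2074396145564) (nat_lit 13) (nat_lit 5) (nat_lit 15) (nat_lit 4) (nat_lit 13) (nat_lit 4) (nat_lit 323) (nat_lit 299) (nat_lit 158)) (XT.nd (nat_lit 78) (nat_lit 76) (nat_lit 0) (XT.lf (nat_lit 0) (nat_lit 143691959420) (nat_lit 152) (nat_lit 3302661355150) (nat_lit 76) (nat_lit 5796946300292) (nat_lit 11) (nat_lit 5) (nat_lit 13) (nat_lit 5) (nat_lit 12) (nat_lit 4) (nat_lit 324) (nat_lit 299) (nat_lit 157)) (XT.lf (nat_lit 0) (nat_lit 3138527469626) (nat_lit 76) (nat_lit 101889886864) (nat_lit 152) (nat_lit 7102435933653) (nat_lit 10) (nat_lit 5) (nat_lit 11) (nat_lit 5) (nat_lit 12) (nat_lit 4) (nat_lit 325) (nat_lit 299) (nat_lit 156)))) (XT.nd (nat_lit 156) (nat_lit 0)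 (nat_lit 76) (XT.nd (nat_lit 78) (nat_lit 0) (nat_lit 0) (XT.lf (nat_lit 0) (nat_lit 442883836514) (nat_lit 532) (nat_lit 51233130007) (nat_lit 532) (nat_lit 51233130007) (nat_lit 58) (nat_lit 3) (nat_lit 65) (nat_lit 3) (nat_lit 65) (nat_lit 5) (nat_lit 300) (nat_lit 300) (nat_lit 180)) (XT.lf (nat_lit 76) (nat_lit 921316848674) (nat_lit 0) (nat_lit 53041184300) (nat_lit 532) (nat_lit 196372051668) (nat_lit 59) (nat_lit 5) (nat_lit 58) (nat_lit 3) (nat_lit 65) (nat_lit 5) (nat_lit 301) (nat_lit 300) (nat_lit 179))) (XT.nd (nat_lit 78) (nat_lit 0) (nat_lit 76) (XT.lf (nat_lit 76) (nat_lit 860737254170) (nat_lit 0) (nat_lit 263850586007) (nat_lit 532) (nat_lit 134308548350) (nat_lit 60) (nat_lit 5) (nat_lit 59) (nat_lit 5) (nat_lit 66) (nat_lit 5) (nat_lit 302) (nat_lit 300) (nat_lit 178)) (XT.lf (nat_lit 76) (nat_lit 811659430360) (nat_lit 0) (nat_lit 534224850380) (nat_lit 532) (nat_lit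 10520784294) (nat_lit 61) (nat_lit 5) (nat_lit 60) (nat_lit 5) (nat_lit 67) (nat_lit 5) (nat_lit 303) (nat_lit 300) (nat_lit 177)))))) (XT.nd (nat_lit 546) (nat_lit 1140) (nat_lit 0) (XT.nd (nat_lit 234) (nat_lit 836) (nat_lit 0) (XT.nd (nat_lit 78) (nat_lit 608) (nat_lit 0) (XT.lf (nat_lit 0) (nat_lit 178409177098) (nat_lit 532) (nat_lit 692154980787) (nat_lit 76) (nat_lit 593468717231) (nat_lit 54) (nat_lit 5) (nat_lit 61) (nat_lit 5) (nat_lit 55) (nat_lit 5) (nat_lit 304) (nat_lit 300) (nat_lit 176)) (XT.nd (nat_lit 78) (nat_lit 228) (nat_lit 0) (XT.lf (nat_lit 0) (nat_lit 451737822102) (nat_lit 456) (nat_lit 836589055680) (nat_lit 76) (nat_lit 294921546593) (nat_lit 49) (nat_lit 5) (nat_lit 55) (nat_lit 5) (nat_lit 50) (nat_lit 5) (nat_lit 305) (nat_lit 300) (nat_lit 175)) (XT.lf (nat_lit 0) (nat_lit 736729598701) (nat_lit 228) (nat_lit 91806930808) (nat_lit 304) (nat_lit 886812115275)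 (nat_lit 46) (nat_lit 5) (nat_lit 49) (nat_lit 5) (nat_lit 50) (nat_lit 5) (nat_lit 306) (nat_lit 300) (nat_lit 174)))) (XT.nd (nat_lit 156) (nat_lit 456) (nat_lit 0) (XT.nd (nat_lit 78) (nat_lit 152) (nat_lit 0) (XT.lf (nat_lit 0) (nat_lit 736728637162) (nat_lit 228) (nat_lit 598718586418) (nat_lit 304) (nat_lit 525929300244) (nat_lit 43) (nat_lit 5) (nat_lit 46) (nat_lit 5) (nat_lit 47) (nat_lit 5) (nat_lit 307) (nat_lit 300) (nat_lit 173)) (XT.lf (nat_lit 0) (nat_lit 757384543842) (nat_lit 152) (nat_lit 1229830814470) (nat_lit 228) (nat_lit 36587559491) (nat_lit 41) (nat_lit 5) (nat_lit 43) (nat_lit 5) (nat_lit 44) (nat_lit 5) (nat_lit 308) (nat_lit 300) (nat_lit 172))) (XT.nd (nat_lit 78) (nat_lit 152) (nat_lit 0) (XT.lf (nat_lit 0) (nat_lit 574367814586) (nat_lit 304) (nat_lit 1418016271922) (nat_lit 76) (nat_lit 211234236426) (nat_lit 37) (nat_lit 5) (nat_lit 41) (nat_lit 5) (nat_lit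 38) (nat_lit 5) (nat_lit 309) (nat_lit 300) (nat_lit 171)) (XT.lf (nat_lit 0) (nat_lit 819679592040) (nat_lit 152) (nat_lit 546737574158) (nat_lit 228) (nat_lit 1036583481487) (nat_lit 35) (nat_lit 5) (nat_lit 37) (nat_lit 5) (nat_lit 38) (nat_lit 5) (nat_lit 310) (nat_lit 300) (nat_lit 170))))) (XT.nd (nat_lit 234) (nat_lit 608) (nat_lit 0) (XT.nd (nat_lit 78) (nat_lit 380) (nat_lit 0) (XT.lf (nat_lit 0) (nat_lit 865292132285) (nat_lit 152) (nat_lit 1501982365330) (nat_lit 228) (nat_lit 257815777374) (nat_lit 33) (nat_lit 5) (nat_lit 35) (nat_lit 5) (nat_lit 36) (nat_lit 5) (nat_lit 311) (nat_lit 300) (nat_lit 169)) (XT.nd (nat_lit 78) (nat_lit 152) (nat_lit 0) (XT.lf (nat_lit 0) (nat_lit 695658355819) (nat_lit 228) (nat_lit 1963547593546) (nat_lit 76) (nat_lit 212876734664) (nat_lit 30) (nat_lit 5) (nat_lit 33) (nat_lit 5) (nat_lit 31) (nat_lit 5) (nat_lit 312) (nat_lit 300) (nat_lit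 168)) (XT.lf (nat_lit 0) (nat_lit 928085295281) (nat_lit 152) (nat_lit 965663762163) (nat_lit 228) (nat_lit 1252490294330) (nat_lit 28) (nat_lit 5) (nat_lit 30) (nat_lit 5) (nat_lit 31) (nat_lit 5) (nat_lit 313) (nat_lit 300) (nat_lit 167)))) (XT.nd (nat_lit 156) (nat_lit 304) (nat_lit 0) (XT.nd (nat_lit 78) (nat_lit 228) (nat_lit 0) (XT.lf (nat_lit 0) (nat_lit 937206456155) (nat_lit 76) (nat_lit 2439153115862) (nat_lit 152) (nat_lit 76775451050) (nat_lit 27) (nat_lit 5) (nat_lit 28) (nat_lit 5) (nat_lit 29) (nat_lit 4) (nat_lit 314) (nat_lit 300) (nat_lit 166)) (XT.lf (nat_lit 0) (nat_lit 884486423004) (nat_lit 152) (nat_lit 441251030996) (nat_lit 228) (nat_lit 2468735010940) (nat_lit 24) (nat_lit 5) (nat_lit 26) (nat_lit 5) (nat_lit 27) (nat_lit 5) (nat_lit 315) (nat_lit 300) (nat_lit 165))) (XT.nd (nat_lit 78) (nat_lit 228) (nat_lit 0) (XT.lf (nat_lit 0) (nat_lit 755281323492) (nat_lit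 76) (nat_lit 2316889836553) (nat_lit 152) (nat_lit 1103632643350) (nat_lit 23) (nat_lit 5) (nat_lit 24) (nat_lit 5) (nat_lit 25) (nat_lit 4) (nat_lit 316) (nat_lit 300) (nat_lit 164)) (XT.lf (nat_lit 0) (nat_lit 540418019742) (nat_lit 152) (nat_lit 14616728743) (nat_lit 228) (nat_lit 4049433246064) (nat_lit 20) (nat_lit 5) (nat_lit 22) (nat_lit 5) (nat_lit 23) (nat_lit 5) (nat_lit 317) (nat_lit 300) (nat_lit 163))))))) (XT.nd (nat_lit 39780) (nat_lit 0) (nat_lit 608) (XT.nd (nat_lit 546) (nat_lit 152) (nat_lit 0) (XT.nd (nat_lit 234) (nat_lit 304) (nat_lit 0) (XT.nd (nat_lit 78) (nat_lit 152) (nat_lit 0) (XT.lf (nat_lit 0) (nat_lit 122884154186) (nat_lit 76) (nat_lit 2444579157585) (nat_lit 152) (nat_lit 2514050565502) (nat_lit 19) (nat_lit 5) (nat_lit 20) (nat_lit 5) (nat_lit 21) (nat_lit 4) (nat_lit 318) (nat_lit 300) (nat_lit 162)) (XT.nd (nat_lit 78) (nat_lit 152) (nat_lit 0) (XT.lf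 (nat_lit 0) (nat_lit 5004873434240) (nat_lit 152) (nat_lit 441482926362) (nat_lit 0) (nat_lit 173910899832) (nat_lit 19) (nat_lit 5) (nat_lit 21) (nat_lit 4) (nat_lit 19) (nat_lit 4) (nat_lit 319) (nat_lit 300) (nat_lit 161)) (XT.lf (nat_lit 0) (nat_lit 1680692325887) (nat_lit 152) (nat_lit 1335122498865) (nat_lit 76) (nat_lit 3205716138322) (nat_lit 17) (nat_lit 5) (nat_lit 19) (nat_lit 5) (nat_lit 18) (nat_lit 4) (nat_lit 320) (nat_lit 300) (nat_lit 160)))) (XT.nd (nat_lit 156) (nat_lit 76) (nat_lit 0) (XT.nd (nat_lit 78) (nat_lit 152) (nat_lit 0) (XT.lf (nat_lit 0) (nat_lit 4327381490504) (nat_lit 76) (nat_lit 75668523543) (nat_lit 152) (nat_lit 2499191723039) (nat_lit 16) (nat_lit 5) (nat_lit 17) (nat_lit 5) (nat_lit 18) (nat_lit 4) (nat_lit 321) (nat_lit 300) (nat_lit 159)) (XT.lf (nat_lit 0) (nat_lit 60766129080) (nat_lit 152) (nat_lit 4346719914898) (nat_lit 76) (nat_lit 3261504550542)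 (nat_lit 14) (nat_lit 5) (nat_lit 16) (nat_lit 5) (nat_lit 15) (nat_lit 4) (nat_lit 322) (nat_lit 300) (nat_lit 158))) (XT.nd (nat_lit 78) (nat_lit 0) (nat_lit 0) (XT.lf (nat_lit 0) (nat_lit 1728444729576) (nat_lit 76) (nat_lit 1253073633098) (nat_lit 152) (nat_lit 5554057832825) (nat_lit 13) (nat_lit 5) (nat_lit 14) (nat_lit 5) (nat_lit 15) (nat_lit 4) (nat_lit 323) (nat_lit 300) (nat_lit 157)) (XT.lf (nat_lit 0) (nat_lit 6527327314960) (nat_lit 152) (nat_lit 604311223798) (nat_lit 0) (nat_lit 2385555587175) (nat_lit 13) (nat_lit 5) (nat_lit 15) (nat_lit 4) (nat_lit 13) (nat_lit 4) (nat_lit 324) (nat_lit 300) (nat_lit 156))))) (XT.nd (nat_lit 38922) (nat_lit 0) (nat_lit 2888) (XT.nd (nat_lit 38766) (nat_lit 0) (nat_lit 3572) (XT.lf (nat_lit 0) (nat_lit 165245775506) (nat_lit 152) (nat_lit 3798060515713) (nat_lit 76) (nat_lit 6666488264093) (nat_lit 11) (nat_lit 5) (nat_lit 13) (nat_lit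 5) (nat_lit 12) (nat_lit 4) (nat_lit 325) (nat_lit 300) (nat_lit 155)) (XT.nd (nat_lit 78) (nat_lit 0) (nat_lit 0) (XT.lf (nat_lit 0) (nat_lit 509316500278) (nat_lit 532) (nat_lit 58918051767) (nat_lit 532) (nat_lit 58918051767) (nat_lit 58) (nat_lit 3) (nat_lit 65) (nat_lit 3) (nat_lit 65) (nat_lit 5) (nat_lit 301) (nat_lit 301) (nat_lit 178)) (XT.lf (nat_lit 76) (nat_lit 1059514463375) (nat_lit 0) (nat_lit 60997430190) (nat_lit 532) (nat_lit 225827691092) (nat_lit 59) (nat_lit 5) (nat_lit 58) (nat_lit 3) (nat_lit 65) (nat_lit 5) (nat_lit 302) (nat_lit 301) (nat_lit 177)))) (XT.nd (nat_lit 156) (nat_lit 760) (nat_lit 0) (XT.nd (nat_lit 78) (nat_lit 0) (nat_lit 76) (XT.lf (nat_lit 76) (nat_lit 989847935408) (nat_lit 0) (nat_lit 303428216951) (nat_lit 532) (nat_lit 154454683355) (nat_lit 60) (nat_lit 5) (nat_lit 59) (nat_lit 5) (nat_lit 66) (nat_lit 5) (nat_lit 303) (nat_lit 301) (nat_lit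 176)) (XT.lf (nat_lit 76) (nat_lit 933408441247) (nat_lit 0) (nat_lit 614358601417) (nat_lit 532) (nat_lit 12098772366) (nat_lit 61) (nat_lit 5) (nat_lit 60) (nat_lit 5) (nat_lit 67) (nat_lit 5) (nat_lit 304) (nat_lit 301) (nat_lit 175))) (XT.nd (nat_lit 78) (nat_lit 380) (nat_lit 0) (XT.lf (nat_lit 0) (nat_lit 205170662602) (nat_lit 532) (nat_lit 795978124400) (nat_lit 76) (nat_lit 682489010525) (nat_lit 54) (nat_lit 5) (nat_lit 61) (nat_lit 5) (nat_lit 55) (nat_lit 5) (nat_lit 305) (nat_lit 301) (nat_lit 174)) (XT.lf (nat_lit 0) (nat_lit 519498592372) (nat_lit 456) (nat_lit 962077311351) (nat_lit 76) (nat_lit 339159776431) (nat_lit 49) (nat_lit 5) (nat_lit 55) (nat_lit 5) (nat_lit 50) (nat_lit 5) (nat_lit 306) (nat_lit 301) (nat_lit 173)))))) (XT.nd (nat_lit 546) (nat_lit 836) (nat_lit 0) (XT.nd (nat_lit 234) (nat_lit 836) (nat_lit 0) (XT.nd (nat_lit 78) (nat_lit 380) (nat_lit 0) (XT.lf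 (nat_lit 0) (nat_lit 847239132496) (nat_lit 228) (nat_lit 105577963009) (nat_lit 304) (nat_lit 1019833838967) (nat_lit 46) (nat_lit 5) (nat_lit 49) (nat_lit 5) (nat_lit 50) (nat_lit 5) (nat_lit 307) (nat_lit 301) (nat_lit 172)) (XT.nd (nat_lit 78) (nat_lit 152) (nat_lit 0) (XT.lf (nat_lit 0) (nat_lit 847238025043) (nat_lit 228) (nat_lit 688526359726) (nat_lit 304) (nat_lit 604818611324) (nat_lit 43) (nat_lit 5) (nat_lit 46) (nat_lit 5) (nat_lit 47) (nat_lit 5) (nat_lit 308) (nat_lit 301) (nat_lit 171)) (XT.lf (nat_lit 0) (nat_lit 870992315360) (nat_lit 152) (nat_lit 1414305416692) (nat_lit 228) (nat_lit 42075617742) (nat_lit 41) (nat_lit 5) (nat_lit 43) (nat_lit 5) (nat_lit 44) (nat_lit 5) (nat_lit 309) (nat_lit 301) (nat_lit 170)))) (XT.nd (nat_lit 156) (nat_lit 380) (nat_lit 0) (XT.nd (nat_lit 78) (nat_lit 152) (nat_lit 0) (XT.lf (nat_lit 0) (nat_lit 660523051861) (nat_lit 304) (nat_lit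 1630718622130) (nat_lit 76) (nat_lit 242919392111) (nat_lit 37) (nat_lit 5) (nat_lit 41) (nat_lit 5) (nat_lit 38) (nat_lit 5) (nat_lit 310) (nat_lit 301) (nat_lit 169)) (XT.lf (nat_lit 0) (nat_lit 942631613759) (nat_lit 152) (nat_lit 628748185961) (nat_lit 228) (nat_lit 1192070940374) (nat_lit 35) (nat_lit 5) (nat_lit 37) (nat_lit 5) (nat_lit 38) (nat_lit 5) (nat_lit 311) (nat_lit 301) (nat_lit 168))) (XT.nd (nat_lit 78) (nat_lit 228) (nat_lit 0) (XT.lf (nat_lit 0) (nat_lit 995086031829) (nat_lit 152) (nat_lit 1727279693804) (nat_lit 228) (nat_lit 296488086286) (nat_lit 33) (nat_lit 5) (nat_lit 35) (nat_lit 5) (nat_lit 36) (nat_lit 5) (nat_lit 312) (nat_lit 301) (nat_lit 167)) (XT.lf (nat_lit 0) (nat_lit 800007159299) (nat_lit 228) (nat_lit 2258079653572) (nat_lit 76) (nat_lit 244808269715) (nat_lit 30) (nat_lit 5) (nat_lit 33) (nat_lit 5) (nat_lit 31) (nat_lit 5) (nat_lit 313) (nat_lit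 301) (nat_lit 166))))) (XT.nd (nat_lit 234) (nat_lit 380) (nat_lit 0) (XT.nd (nat_lit 78) (nat_lit 304) (nat_lit 0) (XT.lf (nat_lit 0) (nat_lit 1067298161892) (nat_lit 152) (nat_lit 1110513299479) (nat_lit 228) (nat_lit 1440363789510) (nat_lit 28) (nat_lit 5) (nat_lit 30) (nat_lit 5) (nat_lit 31) (nat_lit 5) (nat_lit 314) (nat_lit 301) (nat_lit 165)) (XT.nd (nat_lit 78) (nat_lit 228) (nat_lit 0) (XT.lf (nat_lit 0) (nat_lit 1077787493530) (nat_lit 76) (nat_lit 2805026055913) (nat_lit 152) (nat_lit 88291723725) (nat_lit 27) (nat_lit 5) (nat_lit 28) (nat_lit 5) (nat_lit 29) (nat_lit 4) (nat_lit 315) (nat_lit 301) (nat_lit 164)) (XT.lf (nat_lit 0) (nat_lit 1017159451655) (nat_lit 152) (nat_lit 507438659172) (nat_lit 228) (nat_lit 2839045220731) (nat_lit 24) (nat_lit 5) (nat_lit 26) (nat_lit 5) (nat_lit 27) (nat_lit 5) (nat_lit 316) (nat_lit 301) (nat_lit 163)))) (XT.nd (nat_lit 156) (nat_lit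 76) (nat_lit 0) (XT.nd (nat_lit 78) (nat_lit 228) (nat_lit 0) (XT.lf (nat_lit 0) (nat_lit 868573583972) (nat_lit 76) (nat_lit 2664423285799) (nat_lit 152) (nat_lit 1269177501255) (nat_lit 23) (nat_lit 5) (nat_lit 24) (nat_lit 5) (nat_lit 25) (nat_lit 4) (nat_lit 317) (nat_lit 301) (nat_lit 162)) (XT.lf (nat_lit 0) (nat_lit 621480781200) (nat_lit 152) (nat_lit 16809212848) (nat_lit 228) (nat_lit 4656848197002) (nat_lit 20) (nat_lit 5) (nat_lit 22) (nat_lit 5) (nat_lit 23) (nat_lit 5) (nat_lit 318) (nat_lit 301) (nat_lit 161))) (XT.nd (nat_lit 78) (nat_lit 0) (nat_lit 0) (XT.lf (nat_lit 0) (nat_lit 141316832758) (nat_lit 76) (nat_lit 2811266006588) (nat_lit 152) (nat_lit 2891158117039) (nat_lit 19) (nat_lit 5) (nat_lit 20) (nat_lit 5) (nat_lit 21) (nat_lit 4) (nat_lit 319) (nat_lit 301) (nat_lit 160)) (XT.lf (nat_lit 0) (nat_lit 5755604476682) (nat_lit 152) (nat_lit 507705315464) (nat_lit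 0) (nat_lit 199997555157) (nat_lit 19) (nat_lit 5) (nat_lit 21) (nat_lit 4) (nat_lit 19) (nat_lit 4) (nat_lit 320) (nat_lit 301) (nat_lit 159))))))))
noncomputable def xc60 : XT := (XT.nd (nat_lit 79872) (nat_lit 0) (nat_lit 304) (XT.nd (nat_lit 39858) (nat_lit 0) (nat_lit 76) (XT.nd (nat_lit 39312) (nat_lit 0) (nat_lit 2128) (XT.nd (nat_lit 234) (nat_lit 76) (nat_lit 0) (XT.nd (nat_lit 78) (nat_lit 228) (nat_lit 0) (XT.lf (nat_lit 0) (nat_lit 1932796200268) (nat_lit 152) (nat_lit 1535390826708) (nat_lit 76) (nat_lit 3686573578509) (nat_lit 17) (nat_lit 5) (nat_lit 19) (nat_lit 5) (nat_lit 18) (nat_lit 4) (nat_lit 321) (nat_lit 301) (nat_lit 158)) (XT.nd (nat_lit 78) (nat_lit 152) (nat_lit 0) (XT.lf (nat_lit 0) (nat_lit 4976488757089) (nat_lit 76) (nat_lit 87018782271) (nat_lit 152) (nat_lit 2874070456423) (nat_lit 16) (nat_lit 5) (nat_lit 17) (nat_lit 5) (nat_lit 18) (nat_lit 4) (nat_lit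 322) (nat_lit 301) (nat_lit 157)) (XT.lf (nat_lit 0) (nat_lit 69881070580) (nat_lit 152) (nat_lit 4998727860320) (nat_lit 76) (nat_lit 3750730251020) (nat_lit 14) (nat_lit 5) (nat_lit 16) (nat_lit 5) (nat_lit 15) (nat_lit 4) (nat_lit 323) (nat_lit 301) (nat_lit 156)))) (XT.nd (nat_lit 38922) (nat_lit 0) (nat_lit 3420) (XT.lf (nat_lit 0) (nat_lit 1987711477287) (nat_lit 76) (nat_lit 1441034659961) (nat_lit 152) (nat_lit 6387166485957) (nat_lit 13) (nat_lit 5) (nat_lit 14) (nat_lit 5) (nat_lit 15) (nat_lit 4) (nat_lit 324) (nat_lit 301) (nat_lit 155)) (XT.nd (nat_lit 78) (nat_lit 0) (nat_lit 0) (XT.lf (nat_lit 0) (nat_lit 585714042077) (nat_lit 532) (nat_lit 67755723433) (nat_lit 532) (nat_lit 67755723433) (nat_lit 58) (nat_lit 3) (nat_lit 65) (nat_lit 3) (nat_lit 65) (nat_lit 5) (nat_lit 302) (nat_lit 302) (nat_lit 176)) (XT.lf (nat_lit 76) (nat_lit 1218441698969) (nat_lit 0) (nat_lit 70147096321)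 (nat_lit 532) (nat_lit 259701717477) (nat_lit 59) (nat_lit 5) (nat_lit 58) (nat_lit 3) (nat_lit 65) (nat_lit 5) (nat_lit 303) (nat_lit 302) (nat_lit 175))))) (XT.nd (nat_lit 234) (nat_lit 988) (nat_lit 0) (XT.nd (nat_lit 78) (nat_lit 380) (nat_lit 0) (XT.lf (nat_lit 76) (nat_lit 1138325196126) (nat_lit 0) (nat_lit 348942482039) (nat_lit 532) (nat_lit 177622774518) (nat_lit 60) (nat_lit 5) (nat_lit 59) (nat_lit 5) (nat_lit 66) (nat_lit 5) (nat_lit 304) (nat_lit 302) (nat_lit 174)) (XT.nd (nat_lit 78) (nat_lit 456) (nat_lit 0) (XT.lf (nat_lit 76) (nat_lit 1073419780275) (nat_lit 0) (nat_lit 706512409384) (nat_lit 532) (nat_lit 13913490247) (nat_lit 61) (nat_lit 5) (nat_lit 60) (nat_lit 5) (nat_lit 67) (nat_lit 5) (nat_lit 305) (nat_lit 302) (nat_lit 173)) (XT.lf (nat_lit 0) (nat_lit 235946344366) (nat_lit 532) (nat_lit 915374764796) (nat_lit 76) (nat_lit 784862351299) (nat_lit 54) (nat_lit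 5) (nat_lit 61) (nat_lit 5) (nat_lit 55) (nat_lit 5) (nat_lit 306) (nat_lit 302) (nat_lit 172)))) (XT.nd (nat_lit 156) (nat_lit 380) (nat_lit 0) (XT.nd (nat_lit 78) (nat_lit 228) (nat_lit 0) (XT.lf (nat_lit 0) (nat_lit 597423454539) (nat_lit 456) (nat_lit 1106388830412) (nat_lit 76) (nat_lit 390033741268) (nat_lit 49) (nat_lit 5) (nat_lit 55) (nat_lit 5) (nat_lit 50) (nat_lit 5) (nat_lit 307) (nat_lit 302) (nat_lit 171)) (XT.lf (nat_lit 0) (nat_lit 974325073440) (nat_lit 228) (nat_lit 121414651849) (nat_lit 304) (nat_lit 1172808844037) (nat_lit 46) (nat_lit 5) (nat_lit 49) (nat_lit 5) (nat_lit 50) (nat_lit 5) (nat_lit 308) (nat_lit 302) (nat_lit 170))) (XT.nd (nat_lit 78) (nat_lit 152) (nat_lit 0) (XT.lf (nat_lit 0) (nat_lit 974323798596) (nat_lit 228) (nat_lit 791805302604) (nat_lit 304) (nat_lit 695541339539) (nat_lit 43) (nat_lit 5) (nat_lit 46) (nat_lit 5) (nat_lit 47) (nat_lit 5)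 (nat_lit 309) (nat_lit 302) (nat_lit 169)) (XT.lf (nat_lit 0) (nat_lit 1001641230672) (nat_lit 152) (nat_lit 1626451214113) (nat_lit 228) (nat_lit 48386903184) (nat_lit 41) (nat_lit 5) (nat_lit 43) (nat_lit 5) (nat_lit 44) (nat_lit 5) (nat_lit 310) (nat_lit 302) (nat_lit 168)))))) (XT.nd (nat_lit 546) (nat_lit 760) (nat_lit 0) (XT.nd (nat_lit 234) (nat_lit 684) (nat_lit 0) (XT.nd (nat_lit 78) (nat_lit 304) (nat_lit 0) (XT.lf (nat_lit 0) (nat_lit 759601558856) (nat_lit 304) (nat_lit 1875326346959) (nat_lit 76) (nat_lit 279357316218) (nat_lit 37) (nat_lit 5) (nat_lit 41) (nat_lit 5) (nat_lit 38) (nat_lit 5) (nat_lit 311) (nat_lit 302) (nat_lit 167)) (XT.nd (nat_lit 78) (nat_lit 152) (nat_lit 0) (XT.lf (nat_lit 0) (nat_lit 1084026418517) (nat_lit 152) (nat_lit 723060395465) (nat_lit 228) (nat_lit 1370881533540) (nat_lit 35) (nat_lit 5) (nat_lit 37) (nat_lit 5) (nat_lit 38) (nat_lit 5) (nat_lit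 312) (nat_lit 302) (nat_lit 166)) (XT.lf (nat_lit 0) (nat_lit 1144348996870) (nat_lit 152) (nat_lit 1986371627968) (nat_lit 228) (nat_lit 340961255604) (nat_lit 33) (nat_lit 5) (nat_lit 35) (nat_lit 5) (nat_lit 36) (nat_lit 5) (nat_lit 313) (nat_lit 302) (nat_lit 165)))) (XT.nd (nat_lit 156) (nat_lit 304) (nat_lit 0) (XT.nd (nat_lit 78) (nat_lit 152) (nat_lit 0) (XT.lf (nat_lit 0) (nat_lit 920008271082) (nat_lit 228) (nat_lit 2596791541868) (nat_lit 76) (nat_lit 281529528963) (nat_lit 30) (nat_lit 5) (nat_lit 33) (nat_lit 5) (nat_lit 31) (nat_lit 5) (nat_lit 314) (nat_lit 302) (nat_lit 164)) (XT.lf (nat_lit 0) (nat_lit 1227392940859) (nat_lit 152) (nat_lit 1277090273979) (nat_lit 228) (nat_lit 1656418320908) (nat_lit 28) (nat_lit 5) (nat_lit 30) (nat_lit 5) (nat_lit 31) (nat_lit 5) (nat_lit 315) (nat_lit 302) (nat_lit 163))) (XT.nd (nat_lit 78) (nat_lit 228) (nat_lit 0) (XT.lf (nat_lit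 0) (nat_lit 1239455669698) (nat_lit 76) (nat_lit 3225779943636) (nat_lit 152) (nat_lit 101535448270) (nat_lit 27) (nat_lit 5) (nat_lit 28) (nat_lit 5) (nat_lit 29) (nat_lit 4) (nat_lit 316) (nat_lit 302) (nat_lit 162)) (XT.lf (nat_lit 0) (nat_lit 1169733418705) (nat_lit 152) (nat_lit 583554438030) (nat_lit 228) (nat_lit 3264901972197) (nat_lit 24) (nat_lit 5) (nat_lit 26) (nat_lit 5) (nat_lit 27) (nat_lit 5) (nat_lit 317) (nat_lit 302) (nat_lit 161))))) (XT.nd (nat_lit 234) (nat_lit 380) (nat_lit 0) (XT.nd (nat_lit 78) (nat_lit 304) (nat_lit 0) (XT.lf (nat_lit 0) (nat_lit 998859668416) (nat_lit 76) (nat_lit 3064086758830) (nat_lit 152) (nat_lit 1459554097258) (nat_lit 23) (nat_lit 5) (nat_lit 24) (nat_lit 5) (nat_lit 25) (nat_lit 4) (nat_lit 318) (nat_lit 302) (nat_lit 160)) (XT.nd (nat_lit 78) (nat_lit 76) (nat_lit 0) (XT.lf (nat_lit 0) (nat_lit 714702942613) (nat_lit 152) (nat_lit 19330575716)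 (nat_lit 228) (nat_lit 5355375399353) (nat_lit 20) (nat_lit 5) (nat_lit 22) (nat_lit 5) (nat_lit 23) (nat_lit 5) (nat_lit 319) (nat_lit 302) (nat_lit 159)) (XT.lf (nat_lit 0) (nat_lit 162514399596) (nat_lit 76) (nat_lit 3232955888949) (nat_lit 152) (nat_lit 3324831809423) (nat_lit 19) (nat_lit 5) (nat_lit 20) (nat_lit 5) (nat_lit 21) (nat_lit 4) (nat_lit 320) (nat_lit 302) (nat_lit 158)))) (XT.nd (nat_lit 156) (nat_lit 228) (nat_lit 0) (XT.nd (nat_lit 78) (nat_lit 152) (nat_lit 0) (XT.lf (nat_lit 0) (nat_lit 6618945168831) (nat_lit 152) (nat_lit 583861075087) (nat_lit 0) (nat_lit 229997203818) (nat_lit 19) (nat_lit 5) (nat_lit 21) (nat_lit 4) (nat_lit 19) (nat_lit 4) (nat_lit 321) (nat_lit 302) (nat_lit 157)) (XT.lf (nat_lit 0) (nat_lit 2222715649588) (nat_lit 152) (nat_lit 1765699415186) (nat_lit 76) (nat_lit 4239559629983) (nat_lit 17) (nat_lit 5) (nat_lit 19) (nat_lit 5) (nat_lit 18)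 (nat_lit 4) (nat_lit 322) (nat_lit 302) (nat_lit 156))) (XT.nd (nat_lit 78) (nat_lit 152) (nat_lit 0) (XT.lf (nat_lit 0) (nat_lit 5722962103173) (nat_lit 76) (nat_lit 100071584638) (nat_lit 152) (nat_lit 3305181005929) (nat_lit 16) (nat_lit 5) (nat_lit 17) (nat_lit 5) (nat_lit 18) (nat_lit 4) (nat_lit 323) (nat_lit 302) (nat_lit 155)) (XT.lf (nat_lit 0) (nat_lit 80363247907) (nat_lit 152) (nat_lit 5748537007751) (nat_lit 76) (nat_lit 4313339802205) (nat_lit 14) (nat_lit 5) (nat_lit 16) (nat_lit 5) (nat_lit 15) (nat_lit 4) (nat_lit 324) (nat_lit 302) (nat_lit 154))))))) (XT.nd (nat_lit 1014) (nat_lit 988) (nat_lit 0) (XT.nd (nat_lit 468) (nat_lit 1444) (nat_lit 0) (XT.nd (nat_lit 234) (nat_lit 684) (nat_lit 0) (XT.nd (nat_lit 78) (nat_lit 0) (nat_lit 0) (XT.lf (nat_lit 0) (nat_lit 673571198867) (nat_lit 532) (nat_lit 77919054652) (nat_lit 532) (nat_lit 77919054652) (nat_lit 58) (nat_lit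 3) (nat_lit 65) (nat_lit 3) (nat_lit 65) (nat_lit 5) (nat_lit 303) (nat_lit 303) (nat_lit 174)) (XT.nd (nat_lit 78) (nat_lit 0) (nat_lit 76) (XT.lf (nat_lit 76) (nat_lit 1401208003785) (nat_lit 0) (nat_lit 80669199788) (nat_lit 532) (nat_lit 298656878858) (nat_lit 59) (nat_lit 5) (nat_lit 58) (nat_lit 3) (nat_lit 65) (nat_lit 5) (nat_lit 304) (nat_lit 303) (nat_lit 173)) (XT.lf (nat_lit 76) (nat_lit 1309074028783) (nat_lit 0) (nat_lit 401283878955) (nat_lit 532) (nat_lit 204266106506) (nat_lit 60) (nat_lit 5) (nat_lit 59) (nat_lit 5) (nat_lit 66) (nat_lit 5) (nat_lit 305) (nat_lit 303) (nat_lit 172)))) (XT.nd (nat_lit 78) (nat_lit 836) (nat_lit 0) (XT.lf (nat_lit 76) (nat_lit 1234432802394) (nat_lit 0) (nat_lit 812489284216) (nat_lit 532) (nat_lit 16000439701) (nat_lit 61) (nat_lit 5) (nat_lit 60) (nat_lit 5) (nat_lit 67) (nat_lit 5) (nat_lit 306) (nat_lit 303) (nat_lit 171)) (XT.nd (nat_lit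 78) (nat_lit 380) (nat_lit 0) (XT.lf (nat_lit 0) (nat_lit 271338358308) (nat_lit 532) (nat_lit 1052680920336) (nat_lit 76) (nat_lit 902591695823) (nat_lit 54) (nat_lit 5) (nat_lit 61) (nat_lit 5) (nat_lit 55) (nat_lit 5) (nat_lit 307) (nat_lit 303) (nat_lit 170)) (XT.lf (nat_lit 0) (nat_lit 687037028154) (nat_lit 456) (nat_lit 1272347096266) (nat_lit 76) (nat_lit 448538801228) (nat_lit 49) (nat_lit 5) (nat_lit 55) (nat_lit 5) (nat_lit 50) (nat_lit 5) (nat_lit 308) (nat_lit 303) (nat_lit 169))))) (XT.nd (nat_lit 234) (nat_lit 836) (nat_lit 0) (XT.nd (nat_lit 78) (nat_lit 380) (nat_lit 0) (XT.lf (nat_lit 0) (nat_lit 1120473888195) (nat_lit 228) (nat_lit 139626845383) (nat_lit 304) (nat_lit 1348730117126) (nat_lit 46) (nat_lit 5) (nat_lit 49) (nat_lit 5) (nat_lit 50) (nat_lit 5) (nat_lit 309) (nat_lit 303) (nat_lit 168)) (XT.nd (nat_lit 78) (nat_lit 152) (nat_lit 0) (XT.lf (nat_lit 0) (nat_lit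 1120472421162) (nat_lit 228) (nat_lit 910576089616) (nat_lit 304) (nat_lit 799872492468) (nat_lit 43) (nat_lit 5) (nat_lit 46) (nat_lit 5) (nat_lit 47) (nat_lit 5) (nat_lit 310) (nat_lit 303) (nat_lit 167)) (XT.lf (nat_lit 0) (nat_lit 1151887466698) (nat_lit 152) (nat_lit 1870418884824) (nat_lit 228) (nat_lit 55644895396) (nat_lit 41) (nat_lit 5) (nat_lit 43) (nat_lit 5) (nat_lit 44) (nat_lit 5) (nat_lit 311) (nat_lit 303) (nat_lit 166)))) (XT.nd (nat_lit 156) (nat_lit 380) (nat_lit 0) (XT.nd (nat_lit 78) (nat_lit 152) (nat_lit 0) (XT.lf (nat_lit 0) (nat_lit 873541829899) (nat_lit 304) (nat_lit 2156625247213) (nat_lit 76) (nat_lit 321260925212) (nat_lit 37) (nat_lit 5) (nat_lit 41) (nat_lit 5) (nat_lit 38) (nat_lit 5) (nat_lit 312) (nat_lit 303) (nat_lit 165)) (XT.lf (nat_lit 0) (nat_lit 1246630428700) (nat_lit 152) (nat_lit 831519440879) (nat_lit 228) (nat_lit 1576513727358) (nat_lit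 35) (nat_lit 5) (nat_lit 37) (nat_lit 5) (nat_lit 38) (nat_lit 5) (nat_lit 313) (nat_lit 303) (nat_lit 164))) (XT.nd (nat_lit 78) (nat_lit 228) (nat_lit 0) (XT.lf (nat_lit 0) (nat_lit 1316001391969) (nat_lit 152) (nat_lit 2284327357111) (nat_lit 228) (nat_lit 392105410958) (nat_lit 33) (nat_lit 5) (nat_lit 35) (nat_lit 5) (nat_lit 36) (nat_lit 5) (nat_lit 314) (nat_lit 303) (nat_lit 163)) (XT.lf (nat_lit 0) (nat_lit 1058009540394) (nat_lit 228) (nat_lit 2986310227976) (nat_lit 76) (nat_lit 323758972517) (nat_lit 30) (nat_lit 5) (nat_lit 33) (nat_lit 5) (nat_lit 31) (nat_lit 5) (nat_lit 315) (nat_lit 303) (nat_lit 162)))))) (XT.nd (nat_lit 546) (nat_lit 152) (nat_lit 0) (XT.nd (nat_lit 234) (nat_lit 380) (nat_lit 0) (XT.nd (nat_lit 78) (nat_lit 304) (nat_lit 0) (XT.lf (nat_lit 0) (nat_lit 1411501923336) (nat_lit 152) (nat_lit 1468653799634) (nat_lit 228) (nat_lit 1904881041046) (nat_lit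 28) (nat_lit 5) (nat_lit 30) (nat_lit 5) (nat_lit 31) (nat_lit 5) (nat_lit 316) (nat_lit 303) (nat_lit 161)) (XT.nd (nat_lit 78) (nat_lit 228) (nat_lit 0) (XT.lf (nat_lit 0) (nat_lit 1425374059576) (nat_lit 76) (nat_lit 3709646919557) (nat_lit 152) (nat_lit 116765739791) (nat_lit 27) (nat_lit 5) (nat_lit 28) (nat_lit 5) (nat_lit 29) (nat_lit 4) (nat_lit 317) (nat_lit 303) (nat_lit 160)) (XT.lf (nat_lit 0) (nat_lit 1345193468790) (nat_lit 152) (nat_lit 671087588598) (nat_lit 228) (nat_lit 3754637244099) (nat_lit 24) (nat_lit 5) (nat_lit 26) (nat_lit 5) (nat_lit 27) (nat_lit 5) (nat_lit 318) (nat_lit 303) (nat_lit 159)))) (XT.nd (nat_lit 156) (nat_lit 76) (nat_lit 0) (XT.nd (nat_lit 78) (nat_lit 228) (nat_lit 0) (XT.lf (nat_lit 0) (nat_lit 1148688654103) (nat_lit 76) (nat_lit 3523699757653) (nat_lit 152) (nat_lit 1678487189778) (nat_lit 23) (nat_lit 5) (nat_lit 24) (nat_lit 5) (nat_lit 25)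 (nat_lit 4) (nat_lit 319) (nat_lit 303) (nat_lit 158)) (XT.lf (nat_lit 0) (nat_lit 821908417451) (nat_lit 152) (nat_lit 22230147662) (nat_lit 228) (nat_lit 6158681688689) (nat_lit 20) (nat_lit 5) (nat_lit 22) (nat_lit 5) (nat_lit 23) (nat_lit 5) (nat_lit 320) (nat_lit 303) (nat_lit 157))) (XT.nd (nat_lit 78) (nat_lit 0) (nat_lit 0) (XT.lf (nat_lit 0) (nat_lit 186891591236) (nat_lit 76) (nat_lit 3717899258206) (nat_lit 152) (nat_lit 3823556561804) (nat_lit 19) (nat_lit 5) (nat_lit 20) (nat_lit 5) (nat_lit 21) (nat_lit 4) (nat_lit 321) (nat_lit 303) (nat_lit 156)) (XT.lf (nat_lit 0) (nat_lit 7611786959769) (nat_lit 152) (nat_lit 671440207846) (nat_lit 0) (nat_lit 264496796026) (nat_lit 19) (nat_lit 5) (nat_lit 21) (nat_lit 4) (nat_lit 19) (nat_lit 4) (nat_lit 322) (nat_lit 303) (nat_lit 155))))) (XT.nd (nat_lit 39312) (nat_lit 0) (nat_lit 2432) (XT.nd (nat_lit 39156) (nat_lit 0) (nat_lit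 3116) (XT.lf (nat_lit 0) (nat_lit 2556123011605) (nat_lit 152) (nat_lit 2030554300600) (nat_lit 76) (nat_lit 4875493585595) (nat_lit 17) (nat_lit 5) (nat_lit 19) (nat_lit 5) (nat_lit 18) (nat_lit 4) (nat_lit 323) (nat_lit 303) (nat_lit 154)) (XT.nd (nat_lit 78) (nat_lit 0) (nat_lit 0) (XT.lf (nat_lit 0) (nat_lit 774606916867) (nat_lit 532) (nat_lit 89606892210) (nat_lit 532) (nat_lit 89606892210) (nat_lit 58) (nat_lit 3) (nat_lit 65) (nat_lit 3) (nat_lit 65) (nat_lit 5) (nat_lit 304) (nat_lit 304) (nat_lit 172)) (XT.lf (nat_lit 76) (nat_lit 1611389242139) (nat_lit 0) (nat_lit 92769609260) (nat_lit 532) (nat_lit 343455337915) (nat_lit 59) (nat_lit 5) (nat_lit 58) (nat_lit 3) (nat_lit 65) (nat_lit 5) (nat_lit 305) (nat_lit 304) (nat_lit 171)))) (XT.nd (nat_lit 156) (nat_lit 760) (nat_lit 0) (XT.nd (nat_lit 78) (nat_lit 0) (nat_lit 76) (XT.lf (nat_lit 76) (nat_lit 1505435173356) (nat_lit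 0) (nat_lit 461476479407) (nat_lit 532) (nat_lit 234905958823) (nat_lit 60) (nat_lit 5) (nat_lit 59) (nat_lit 5) (nat_lit 66) (nat_lit 5) (nat_lit 306) (nat_lit 304) (nat_lit 170)) (XT.lf (nat_lit 76) (nat_lit 1419597764401) (nat_lit 0) (nat_lit 934362687000) (nat_lit 532) (nat_lit 18400449639) (nat_lit 61) (nat_lit 5) (nat_lit 60) (nat_lit 5) (nat_lit 67) (nat_lit 5) (nat_lit 307) (nat_lit 304) (nat_lit 169))) (XT.nd (nat_lit 78) (nat_lit 380) (nat_lit 0) (XT.lf (nat_lit 0) (nat_lit 312039159152) (nat_lit 532) (nat_lit 1210583013638) (nat_lit 76) (nat_lit 1037980444019) (nat_lit 54) (nat_lit 5) (nat_lit 61) (nat_lit 5) (nat_lit 55) (nat_lit 5) (nat_lit 308) (nat_lit 304) (nat_lit 168)) (XT.lf (nat_lit 0) (nat_lit 790092624293) (nat_lit 456) (nat_lit 1463199116314) (nat_lit 76) (nat_lit 515819620483) (nat_lit 49) (nat_lit 5) (nat_lit 55) (nat_lit 5) (nat_lit 50) (nat_lit 5) (nat_lit 309)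 (nat_lit 304) (nat_lit 167))))))))
noncomputable def xc61 : XT := (XT.nd (nat_lit 41262) (nat_lit 0) (nat_lit 0) (XT.nd (nat_lit 1014) (nat_lit 0) (nat_lit 0) (XT.nd (nat_lit 468) (nat_lit 1064) (nat_lit 0) (XT.nd (nat_lit 234) (nat_lit 608) (nat_lit 0) (XT.nd (nat_lit 78) (nat_lit 380) (nat_lit 0) (XT.lf (nat_lit 0) (nat_lit 1288545012058) (nat_lit 228) (nat_lit 160570868983) (nat_lit 304) (nat_lit 1551039594229) (nat_lit 46) (nat_lit 5) (nat_lit 49) (nat_lit 5) (nat_lit 50) (nat_lit 5) (nat_lit 310) (nat_lit 304) (nat_lit 166)) (XT.nd (nat_lit 78) (nat_lit 152) (nat_lit 0) (XT.lf (nat_lit 0) (nat_lit 1288543324243) (nat_lit 228) (nat_lit 1047162496723) (nat_lit 304) (nat_lit 919853330041) (nat_lit 43) (nat_lit 5) (nat_lit 46) (nat_lit 5) (nat_lit 47) (nat_lit 5) (nat_lit 311) (nat_lit 304) (nat_lit 165)) (XT.lf (nat_lit 0) (nat_lit 1324670625587) (nat_lit 152) (nat_lit 2150981708924)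 (nat_lit 228) (nat_lit 63991596989) (nat_lit 41) (nat_lit 5) (nat_lit 43) (nat_lit 5) (nat_lit 44) (nat_lit 5) (nat_lit 312) (nat_lit 304) (nat_lit 164)))) (XT.nd (nat_lit 78) (nat_lit 304) (nat_lit 0) (XT.lf (nat_lit 0) (nat_lit 1004573132523) (nat_lit 304) (nat_lit 2480118995135) (nat_lit 76) (nat_lit 369450072736) (nat_lit 37) (nat_lit 5) (nat_lit 41) (nat_lit 5) (nat_lit 38) (nat_lit 5) (nat_lit 313) (nat_lit 304) (nat_lit 163)) (XT.nd (nat_lit 78) (nat_lit 152) (nat_lit 0) (XT.lf (nat_lit 0) (nat_lit 1433625028851) (nat_lit 152) (nat_lit 956247346497) (nat_lit 228) (nat_lit 1812990759081) (nat_lit 35) (nat_lit 5) (nat_lit 37) (nat_lit 5) (nat_lit 38) (nat_lit 5) (nat_lit 314) (nat_lit 304) (nat_lit 162)) (XT.lf (nat_lit 0) (nat_lit 1513401635222) (nat_lit 152) (nat_lit 2626976449296) (nat_lit 228) (nat_lit 450921197659) (nat_lit 33) (nat_lit 5) (nat_lit 35) (nat_lit 5) (nat_lit 36)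 (nat_lit 5) (nat_lit 315) (nat_lit 304) (nat_lit 161))))) (XT.nd (nat_lit 234) (nat_lit 608) (nat_lit 0) (XT.nd (nat_lit 78) (nat_lit 228) (nat_lit 0) (XT.lf (nat_lit 0) (nat_lit 1216710993115) (nat_lit 228) (nat_lit 3434256728016) (nat_lit 76) (nat_lit 372322829138) (nat_lit 30) (nat_lit 5) (nat_lit 33) (nat_lit 5) (nat_lit 31) (nat_lit 5) (nat_lit 316) (nat_lit 304) (nat_lit 160)) (XT.nd (nat_lit 78) (nat_lit 76) (nat_lit 0) (XT.lf (nat_lit 0) (nat_lit 1623227243102) (nat_lit 152) (nat_lit 1688951857903) (nat_lit 228) (nat_lit 2190613176032) (nat_lit 28) (nat_lit 5) (nat_lit 30) (nat_lit 5) (nat_lit 31) (nat_lit 5) (nat_lit 317) (nat_lit 304) (nat_lit 159)) (XT.lf (nat_lit 0) (nat_lit 1639180198322) (nat_lit 76) (nat_lit 4266093945675) (nat_lit 152) (nat_lit 134280581312) (nat_lit 27) (nat_lit 5) (nat_lit 28) (nat_lit 5) (nat_lit 29) (nat_lit 4) (nat_lit 318) (nat_lit 304) (nat_lit 158))))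 (XT.nd (nat_lit 156) (nat_lit 304) (nat_lit 0) (XT.nd (nat_lit 78) (nat_lit 76) (nat_lit 0) (XT.lf (nat_lit 0) (nat_lit 1546972517296) (nat_lit 152) (nat_lit 771750715443) (nat_lit 228) (nat_lit 4317832812621) (nat_lit 24) (nat_lit 5) (nat_lit 26) (nat_lit 5) (nat_lit 27) (nat_lit 5) (nat_lit 319) (nat_lit 304) (nat_lit 157)) (XT.lf (nat_lit 0) (nat_lit 1320991979004) (nat_lit 76) (nat_lit 4052254709958) (nat_lit 152) (nat_lit 1930260251558) (nat_lit 23) (nat_lit 5) (nat_lit 24) (nat_lit 5) (nat_lit 25) (nat_lit 4) (nat_lit 320) (nat_lit 304) (nat_lit 156))) (XT.nd (nat_lit 78) (nat_lit 76) (nat_lit 0) (XT.lf (nat_lit 0) (nat_lit 945194705359) (nat_lit 152) (nat_lit 25564658913) (nat_lit 228) (nat_lit 7082483926441) (nat_lit 20) (nat_lit 5) (nat_lit 22) (nat_lit 5) (nat_lit 23) (nat_lit 5) (nat_lit 321) (nat_lit 304) (nat_lit 155)) (XT.lf (nat_lit 0) (nat_lit 214925353891) (nat_lit 76)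 (nat_lit 4275584136287) (nat_lit 152) (nat_lit 4397090031683) (nat_lit 19) (nat_lit 5) (nat_lit 20) (nat_lit 5) (nat_lit 21) (nat_lit 4) (nat_lit 322) (nat_lit 304) (nat_lit 154)))))) (XT.nd (nat_lit 39702) (nat_lit 0) (nat_lit 836) (XT.nd (nat_lit 39390) (nat_lit 0) (nat_lit 2280) (XT.nd (nat_lit 39234) (nat_lit 0) (nat_lit 2964) (XT.lf (nat_lit 0) (nat_lit 8753555015539) (nat_lit 152) (nat_lit 772156217470) (nat_lit 0) (nat_lit 304171324227) (nat_lit 19) (nat_lit 5) (nat_lit 21) (nat_lit 4) (nat_lit 19) (nat_lit 4) (nat_lit 323) (nat_lit 304) (nat_lit 153)) (XT.nd (nat_lit 78) (nat_lit 0) (nat_lit 0) (XT.lf (nat_lit 0) (nat_lit 890797983258) (nat_lit 532) (nat_lit 103047910435) (nat_lit 532) (nat_lit 103047910435) (nat_lit 58) (nat_lit 3) (nat_lit 65) (nat_lit 3) (nat_lit 65) (nat_lit 5) (nat_lit 305) (nat_lit 305) (nat_lit 170)) (XT.lf (nat_lit 76) (nat_lit 1853097657031) (nat_lit 0)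 (nat_lit 106685072958) (nat_lit 532) (nat_lit 394973583576) (nat_lit 59) (nat_lit 5) (nat_lit 58) (nat_lit 3) (nat_lit 65) (nat_lit 5) (nat_lit 306) (nat_lit 305) (nat_lit 169)))) (XT.nd (nat_lit 156) (nat_lit 760) (nat_lit 0) (XT.nd (nat_lit 78) (nat_lit 0) (nat_lit 76) (XT.lf (nat_lit 76) (nat_lit 1731250479798) (nat_lit 0) (nat_lit 530697965388) (nat_lit 532) (nat_lit 270141804511) (nat_lit 60) (nat_lit 5) (nat_lit 59) (nat_lit 5) (nat_lit 66) (nat_lit 5) (nat_lit 307) (nat_lit 305) (nat_lit 168)) (XT.lf (nat_lit 76) (nat_lit 1632537460552) (nat_lit 0) (nat_lit 1074517097725) (nat_lit 532) (nat_lit 21160474727) (nat_lit 61) (nat_lit 5) (nat_lit 60) (nat_lit 5) (nat_lit 67) (nat_lit 5) (nat_lit 308) (nat_lit 305) (nat_lit 167))) (XT.nd (nat_lit 78) (nat_lit 380) (nat_lit 0) (XT.lf (nat_lit 0) (nat_lit 358845068638) (nat_lit 532) (nat_lit 1392170431848) (nat_lit 76) (nat_lit 1193677505951)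 (nat_lit 54) (nat_lit 5) (nat_lit 61) (nat_lit 5) (nat_lit 55) (nat_lit 5) (nat_lit 309) (nat_lit 305) (nat_lit 166)) (XT.lf (nat_lit 0) (nat_lit 908606549632) (nat_lit 456) (nat_lit 1682678950195) (nat_lit 76) (nat_lit 593192562852) (nat_lit 49) (nat_lit 5) (nat_lit 55) (nat_lit 5) (nat_lit 50) (nat_lit 5) (nat_lit 310) (nat_lit 305) (nat_lit 165))))) (XT.nd (nat_lit 234) (nat_lit 836) (nat_lit 0) (XT.nd (nat_lit 78) (nat_lit 380) (nat_lit 0) (XT.lf (nat_lit 0) (nat_lit 1481826794593) (nat_lit 228) (nat_lit 184656496904) (nat_lit 304) (nat_lit 1783695502765) (nat_lit 46) (nat_lit 5) (nat_lit 49) (nat_lit 5) (nat_lit 50) (nat_lit 5) (nat_lit 311) (nat_lit 305) (nat_lit 164)) (XT.nd (nat_lit 78) (nat_lit 152) (nat_lit 0) (XT.lf (nat_lit 0) (nat_lit 1481824853055) (nat_lit 228) (nat_lit 1204236866441) (nat_lit 304) (nat_lit 1057831302102) (nat_lit 43) (nat_lit 5) (nat_lit 46) (nat_lit 5)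 (nat_lit 47) (nat_lit 5) (nat_lit 312) (nat_lit 305) (nat_lit 163)) (XT.lf (nat_lit 0) (nat_lit 1523371248827) (nat_lit 152) (nat_lit 2473628958741) (nat_lit 228) (nat_lit 73590311800) (nat_lit 41) (nat_lit 5) (nat_lit 43) (nat_lit 5) (nat_lit 44) (nat_lit 5) (nat_lit 313) (nat_lit 305) (nat_lit 162)))) (XT.nd (nat_lit 156) (nat_lit 380) (nat_lit 0) (XT.nd (nat_lit 78) (nat_lit 152) (nat_lit 0) (XT.lf (nat_lit 0) (nat_lit 1155259123678) (nat_lit 304) (nat_lit 2852136814794) (nat_lit 76) (nat_lit 424867590256) (nat_lit 37) (nat_lit 5) (nat_lit 41) (nat_lit 5) (nat_lit 38) (nat_lit 5) (nat_lit 314) (nat_lit 305) (nat_lit 161)) (XT.lf (nat_lit 0) (nat_lit 1648668810283) (nat_lit 152) (nat_lit 1099684440521) (nat_lit 228) (nat_lit 2084939352238) (nat_lit 35) (nat_lit 5) (nat_lit 37) (nat_lit 5) (nat_lit 38) (nat_lit 5) (nat_lit 315) (nat_lit 305) (nat_lit 160))) (XT.nd (nat_lit 78) (nat_lit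 228) (nat_lit 0) (XT.lf (nat_lit 0) (nat_lit 1740411906560) (nat_lit 152) (nat_lit 3021022908085) (nat_lit 228) (nat_lit 518559358448) (nat_lit 33) (nat_lit 5) (nat_lit 35) (nat_lit 5) (nat_lit 36) (nat_lit 5) (nat_lit 316) (nat_lit 305) (nat_lit 159)) (XT.lf (nat_lit 0) (nat_lit 1399217658463) (nat_lit 228) (nat_lit 3949395211391) (nat_lit 76) (nat_lit 428171261633) (nat_lit 30) (nat_lit 5) (nat_lit 33) (nat_lit 5) (nat_lit 31) (nat_lit 5) (nat_lit 317) (nat_lit 305) (nat_lit 158))))))) (XT.nd (nat_lit 40326) (nat_lit 0) (nat_lit 304) (XT.nd (nat_lit 39780) (nat_lit 0) (nat_lit 1824) (XT.nd (nat_lit 234) (nat_lit 380) (nat_lit 0) (XT.nd (nat_lit 78) (nat_lit 304) (nat_lit 0) (XT.lf (nat_lit 0) (nat_lit 1866711353209) (nat_lit 152) (nat_lit 1942294627760) (nat_lit 228) (nat_lit 2519205136429) (nat_lit 28) (nat_lit 5) (nat_lit 30) (nat_lit 5) (nat_lit 31) (nat_lit 5) (nat_lit 318) (nat_lit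 305) (nat_lit 157)) (XT.nd (nat_lit 78) (nat_lit 228) (nat_lit 0) (XT.lf (nat_lit 0) (nat_lit 1885057250611) (nat_lit 76) (nat_lit 4906008028593) (nat_lit 152) (nat_lit 154422653804) (nat_lit 27) (nat_lit 5) (nat_lit 28) (nat_lit 5) (nat_lit 29) (nat_lit 4) (nat_lit 319) (nat_lit 305) (nat_lit 156)) (XT.lf (nat_lit 0) (nat_lit 1779018416205) (nat_lit 152) (nat_lit 887513314105) (nat_lit 228) (nat_lit 4965507720834) (nat_lit 24) (nat_lit 5) (nat_lit 26) (nat_lit 5) (nat_lit 27) (nat_lit 5) (nat_lit 320) (nat_lit 305) (nat_lit 155)))) (XT.nd (nat_lit 156) (nat_lit 76) (nat_lit 0) (XT.nd (nat_lit 78) (nat_lit 228) (nat_lit 0) (XT.lf (nat_lit 0) (nat_lit 1519140796108) (nat_lit 76) (nat_lit 4660092907875) (nat_lit 152) (nat_lit 2219799276674) (nat_lit 23) (nat_lit 5) (nat_lit 24) (nat_lit 5) (nat_lit 25) (nat_lit 4) (nat_lit 321) (nat_lit 305) (nat_lit 154)) (XT.lf (nat_lit 0) (nat_lit 1086973930286)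 (nat_lit 152) (nat_lit 29399349511) (nat_lit 228) (nat_lit 8144856503648) (nat_lit 20) (nat_lit 5) (nat_lit 22) (nat_lit 5) (nat_lit 23) (nat_lit 5) (nat_lit 322) (nat_lit 305) (nat_lit 153))) (XT.nd (nat_lit 39312) (nat_lit 0) (nat_lit 2964) (XT.lf (nat_lit 0) (nat_lit 247164175100) (nat_lit 76) (nat_lit 4916921748677) (nat_lit 152) (nat_lit 5056653525553) (nat_lit 19) (nat_lit 5) (nat_lit 20) (nat_lit 5) (nat_lit 21) (nat_lit 4) (nat_lit 323) (nat_lit 305) (nat_lit 152)) (XT.lf (nat_lit 0) (nat_lit 1024417702570) (nat_lit 532) (nat_lit 118505085200) (nat_lit 532) (nat_lit 118505085200) (nat_lit 58) (nat_lit 3) (nat_lit 65) (nat_lit 3) (nat_lit 65) (nat_lit 5) (nat_lit 306) (nat_lit 306) (nat_lit 168))))) (XT.nd (nat_lit 234) (nat_lit 1140) (nat_lit 0) (XT.nd (nat_lit 78) (nat_lit 0) (nat_lit 76) (XT.lf (nat_lit 76) (nat_lit 2131062327189) (nat_lit 0) (nat_lit 122687850771) (nat_lit 532)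 (nat_lit 454219579505) (nat_lit 59) (nat_lit 5) (nat_lit 58) (nat_lit 3) (nat_lit 65) (nat_lit 5) (nat_lit 307) (nat_lit 306) (nat_lit 167)) (XT.nd (nat_lit 78) (nat_lit 0) (nat_lit 76) (XT.lf (nat_lit 76) (nat_lit 1990938074784) (nat_lit 0) (nat_lit 610302670836) (nat_lit 532) (nat_lit 310663038790) (nat_lit 60) (nat_lit 5) (nat_lit 59) (nat_lit 5) (nat_lit 66) (nat_lit 5) (nat_lit 308) (nat_lit 306) (nat_lit 166)) (XT.lf (nat_lit 76) (nat_lit 1877418103447) (nat_lit 0) (nat_lit 1235694668188) (nat_lit 532) (nat_lit 24334513909) (nat_lit 61) (nat_lit 5) (nat_lit 60) (nat_lit 5) (nat_lit 67) (nat_lit 5) (nat_lit 309) (nat_lit 306) (nat_lit 165)))) (XT.nd (nat_lit 156) (nat_lit 456) (nat_lit 0) (XT.nd (nat_lit 78) (nat_lit 380) (nat_lit 0) (XT.lf (nat_lit 0) (nat_lit 412671855862) (nat_lit 532) (nat_lit 1600995971040) (nat_lit 76) (nat_lit 1372729128311) (nat_lit 54) (nat_lit 5) (nat_lit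 61) (nat_lit 5) (nat_lit 55) (nat_lit 5) (nat_lit 310) (nat_lit 306) (nat_lit 164)) (XT.lf (nat_lit 0) (nat_lit 1044897556042) (nat_lit 456) (nat_lit 1935080767343) (nat_lit 76) (nat_lit 682171446748) (nat_lit 49) (nat_lit 5) (nat_lit 55) (nat_lit 5) (nat_lit 50) (nat_lit 5) (nat_lit 311) (nat_lit 306) (nat_lit 163))) (XT.nd (nat_lit 78) (nat_lit 228) (nat_lit 0) (XT.lf (nat_lit 0) (nat_lit 1704100837014) (nat_lit 228) (nat_lit 212354969606) (nat_lit 304) (nat_lit 2051249805044) (nat_lit 46) (nat_lit 5) (nat_lit 49) (nat_lit 5) (nat_lit 50) (nat_lit 5) (nat_lit 312) (nat_lit 306) (nat_lit 162)) (XT.lf (nat_lit 0) (nat_lit 1704098603830) (nat_lit 228) (nat_lit 1384872392785) (nat_lit 304) (nat_lit 1216505976665) (nat_lit 43) (nat_lit 5) (nat_lit 46) (nat_lit 5) (nat_lit 47) (nat_lit 5) (nat_lit 313) (nat_lit 306) (nat_lit 161)))))) (XT.nd (nat_lit 546) (nat_lit 304) (nat_lit 0) (XT.nd (nat_lit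 234) (nat_lit 608) (nat_lit 0) (XT.nd (nat_lit 78) (nat_lit 456) (nat_lit 0) (XT.lf (nat_lit 0) (nat_lit 1751876958383) (nat_lit 152) (nat_lit 2844673297621) (nat_lit 228) (nat_lit 84628839865) (nat_lit 41) (nat_lit 5) (nat_lit 43) (nat_lit 5) (nat_lit 44) (nat_lit 5) (nat_lit 314) (nat_lit 306) (nat_lit 160)) (XT.nd (nat_lit 78) (nat_lit 152) (nat_lit 0) (XT.lf (nat_lit 0) (nat_lit 1328548008319) (nat_lit 304) (nat_lit 3279957314624) (nat_lit 76) (nat_lit 488597733793) (nat_lit 37) (nat_lit 5) (nat_lit 41) (nat_lit 5) (nat_lit 38) (nat_lit 5) (nat_lit 315) (nat_lit 306) (nat_lit 159)) (XT.lf (nat_lit 0) (nat_lit 1895969152321) (nat_lit 152) (nat_lit 1264637100587) (nat_lit 228) (nat_lit 2397680239419) (nat_lit 35) (nat_lit 5) (nat_lit 37) (nat_lit 5) (nat_lit 38) (nat_lit 5) (nat_lit 316) (nat_lit 306) (nat_lit 158)))) (XT.nd (nat_lit 156) (nat_lit 228) (nat_lit 0) (XT.nd (nat_lit 78)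 (nat_lit 228) (nat_lit 0) (XT.lf (nat_lit 0) (nat_lit 2001473712245) (nat_lit 152) (nat_lit 3474176337790) (nat_lit 228) (nat_lit 596343247954) (nat_lit 33) (nat_lit 5) (nat_lit 35) (nat_lit 5) (nat_lit 36) (nat_lit 5) (nat_lit 317) (nat_lit 306) (nat_lit 157)) (XT.lf (nat_lit 0) (nat_lit 1609100319618) (nat_lit 228) (nat_lit 4541804473570) (nat_lit 76) (nat_lit 492396957021) (nat_lit 30) (nat_lit 5) (nat_lit 33) (nat_lit 5) (nat_lit 31) (nat_lit 5) (nat_lit 318) (nat_lit 306) (nat_lit 156))) (XT.nd (nat_lit 78) (nat_lit 76) (nat_lit 0) (XT.lf (nat_lit 0) (nat_lit 2146718074067) (nat_lit 152) (nat_lit 2233638815248) (nat_lit 228) (nat_lit 2897085894789) (nat_lit 28) (nat_lit 5) (nat_lit 30) (nat_lit 5) (nat_lit 31) (nat_lit 5) (nat_lit 319) (nat_lit 306) (nat_lit 155)) (XT.lf (nat_lit 0) (nat_lit 2167815855247) (nat_lit 76) (nat_lit 5641909226127) (nat_lit 152) (nat_lit 177586040755) (nat_lit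 27) (nat_lit 5) (nat_lit 28) (nat_lit 5) (nat_lit 29) (nat_lit 4) (nat_lit 320) (nat_lit 306) (nat_lit 154))))) (XT.nd (nat_lit 39624) (nat_lit 0) (nat_lit 2356) (XT.nd (nat_lit 78) (nat_lit 76) (nat_lit 0) (XT.lf (nat_lit 0) (nat_lit 2045871194752) (nat_lit 152) (nat_lit 1020640304677) (nat_lit 228) (nat_lit 5710333868615) (nat_lit 24) (nat_lit 5) (nat_lit 26) (nat_lit 5) (nat_lit 27) (nat_lit 5) (nat_lit 321) (nat_lit 306) (nat_lit 153)) (XT.nd (nat_lit 39468) (nat_lit 0) (nat_lit 2660) (XT.lf (nat_lit 0) (nat_lit 1747011930840) (nat_lit 76) (nat_lit 5359106837571) (nat_lit 152) (nat_lit 2552769158634) (nat_lit 23) (nat_lit 5) (nat_lit 24) (nat_lit 5) (nat_lit 25) (nat_lit 4) (nat_lit 322) (nat_lit 306) (nat_lit 152)) (XT.lf (nat_lit 0) (nat_lit 1178080374457) (nat_lit 532) (nat_lit 136280839057) (nat_lit 532) (nat_lit 136280839057) (nat_lit 58) (nat_lit 3) (nat_lit 65) (nat_lit 3) (nat_lit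 65) (nat_lit 5) (nat_lit 307) (nat_lit 307) (nat_lit 166)))) (XT.nd (nat_lit 156) (nat_lit 304) (nat_lit 0) (XT.nd (nat_lit 78) (nat_lit 0) (nat_lit 76) (XT.lf (nat_lit 76) (nat_lit 2450721692604) (nat_lit 0) (nat_lit 141091041142) (nat_lit 532) (nat_lit 522352484969) (nat_lit 59) (nat_lit 5) (nat_lit 58) (nat_lit 3) (nat_lit 65) (nat_lit 5) (nat_lit 308) (nat_lit 307) (nat_lit 165)) (XT.lf (nat_lit 76) (nat_lit 2289578803405) (nat_lit 0) (nat_lit 701848079506) (nat_lit 532) (nat_lit 357262467087) (nat_lit 60) (nat_lit 5) (nat_lit 59) (nat_lit 5) (nat_lit 66) (nat_lit 5) (nat_lit 309) (nat_lit 307) (nat_lit 164))) (XT.nd (nat_lit 78) (nat_lit 456) (nat_lit 0) (XT.lf (nat_lit 76) (nat_lit 2159030836970) (nat_lit 0) (nat_lit 1421048872805) (nat_lit 532) (nat_lit 27984666777) (nat_lit 61) (nat_lit 5) (nat_lit 60) (nat_lit 5) (nat_lit 67) (nat_lit 5) (nat_lit 310) (nat_lit 307) (nat_lit 163))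 (XT.lf (nat_lit 0) (nat_lit 474572654602) (nat_lit 532) (nat_lit 1841145347350) (nat_lit 76) (nat_lit 1578638494887) (nat_lit 54) (nat_lit 5) (nat_lit 61) (nat_lit 5) (nat_lit 55) (nat_lit 5) (nat_lit 311) (nat_lit 307) (nat_lit 162))))))))
noncomputable def xc62 : XT := (XT.nd (nat_lit 81198) (nat_lit 0) (nat_lit 304) (XT.nd (nat_lit 40560) (nat_lit 0) (nat_lit 228) (XT.nd (nat_lit 468) (nat_lit 836) (nat_lit 0) (XT.nd (nat_lit 234) (nat_lit 608) (nat_lit 0) (XT.nd (nat_lit 78) (nat_lit 456) (nat_lit 0) (XT.lf (nat_lit 0) (nat_lit 1201632207570) (nat_lit 456) (nat_lit 2225342863253) (nat_lit 76) (nat_lit 784497163358) (nat_lit 49) (nat_lit 5) (nat_lit 55) (nat_lit 5) (nat_lit 50) (nat_lit 5) (nat_lit 312) (nat_lit 307) (nat_lit 161)) (XT.nd (nat_lit 78) (nat_lit 228) (nat_lit 0) (XT.lf (nat_lit 0) (nat_lit 1959715980134) (nat_lit 228) (nat_lit 244208213660) (nat_lit 304) (nat_lit 2358937258306)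 (nat_lit 46) (nat_lit 5) (nat_lit 49) (nat_lit 5) (nat_lit 50) (nat_lit 5) (nat_lit 313) (nat_lit 307) (nat_lit 160)) (XT.lf (nat_lit 0) (nat_lit 1959713411658) (nat_lit 228) (nat_lit 1592603248964) (nat_lit 304) (nat_lit 1398981857472) (nat_lit 43) (nat_lit 5) (nat_lit 46) (nat_lit 5) (nat_lit 47) (nat_lit 5) (nat_lit 314) (nat_lit 307) (nat_lit 159)))) (XT.nd (nat_lit 78) (nat_lit 456) (nat_lit 0) (XT.lf (nat_lit 0) (nat_lit 2014658518951) (nat_lit 152) (nat_lit 3271374288536) (nat_lit 228) (nat_lit 97323151701) (nat_lit 41) (nat_lit 5) (nat_lit 43) (nat_lit 5) (nat_lit 44) (nat_lit 5) (nat_lit 315) (nat_lit 307) (nat_lit 158)) (XT.nd (nat_lit 78) (nat_lit 152) (nat_lit 0) (XT.lf (nat_lit 0) (nat_lit 1527830221732) (nat_lit 304) (nat_lit 3771950894887) (nat_lit 76) (nat_lit 561887397641) (nat_lit 37) (nat_lit 5) (nat_lit 41) (nat_lit 5) (nat_lit 38) (nat_lit 5) (nat_lit 316) (nat_lit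 307) (nat_lit 157)) (XT.lf (nat_lit 0) (nat_lit 2180364540666) (nat_lit 152) (nat_lit 1454332661130) (nat_lit 228) (nat_lit 2757332263494) (nat_lit 35) (nat_lit 5) (nat_lit 37) (nat_lit 5) (nat_lit 38) (nat_lit 5) (nat_lit 317) (nat_lit 307) (nat_lit 156))))) (XT.nd (nat_lit 312) (nat_lit 304) (nat_lit 0) (XT.nd (nat_lit 78) (nat_lit 380) (nat_lit 0) (XT.lf (nat_lit 0) (nat_lit 2301694783978) (nat_lit 152) (nat_lit 3995302783538) (nat_lit 228) (nat_lit 685794724364) (nat_lit 33) (nat_lit 5) (nat_lit 35) (nat_lit 5) (nat_lit 36) (nat_lit 5) (nat_lit 318) (nat_lit 307) (nat_lit 155)) (XT.nd (nat_lit 78) (nat_lit 152) (nat_lit 0) (XT.lf (nat_lit 0) (nat_lit 1850465376926) (nat_lit 228) (nat_lit 5223075129839) (nat_lit 76) (nat_lit 566256505219) (nat_lit 30) (nat_lit 5) (nat_lit 33) (nat_lit 5) (nat_lit 31) (nat_lit 5) (nat_lit 319) (nat_lit 307) (nat_lit 154)) (XT.lf (nat_lit 0) (nat_lit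 2468725798693) (nat_lit 152) (nat_lit 2568684632487) (nat_lit 228) (nat_lit 3331648769854) (nat_lit 28) (nat_lit 5) (nat_lit 30) (nat_lit 5) (nat_lit 31) (nat_lit 5) (nat_lit 320) (nat_lit 307) (nat_lit 153)))) (XT.nd (nat_lit 39624) (nat_lit 0) (nat_lit 2584) (XT.nd (nat_lit 39546) (nat_lit 0) (nat_lit 2584) (XT.lf (nat_lit 0) (nat_lit 2352751886152) (nat_lit 152) (nat_lit 1173736345431) (nat_lit 228) (nat_lit 6566883941085) (nat_lit 24) (nat_lit 5) (nat_lit 26) (nat_lit 5) (nat_lit 27) (nat_lit 5) (nat_lit 322) (nat_lit 307) (nat_lit 151)) (XT.lf (nat_lit 0) (nat_lit 1354792443103) (nat_lit 532) (nat_lit 156722958168) (nat_lit 532) (nat_lit 156722958168) (nat_lit 58) (nat_lit 3) (nat_lit 65) (nat_lit 3) (nat_lit 65) (nat_lit 5) (nat_lit 308) (nat_lit 308) (nat_lit 164))) (XT.nd (nat_lit 78) (nat_lit 0) (nat_lit 76) (XT.lf (nat_lit 76) (nat_lit 2818329958846) (nat_lit 0) (nat_lit 162254706958)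 (nat_lit 532) (nat_lit 600705333925) (nat_lit 59) (nat_lit 5) (nat_lit 58) (nat_lit 3) (nat_lit 65) (nat_lit 5) (nat_lit 309) (nat_lit 308) (nat_lit 163)) (XT.lf (nat_lit 76) (nat_lit 2633015637075) (nat_lit 0) (nat_lit 807125297515) (nat_lit 532) (nat_lit 410851816340) (nat_lit 60) (nat_lit 5) (nat_lit 59) (nat_lit 5) (nat_lit 66) (nat_lit 5) (nat_lit 310) (nat_lit 308) (nat_lit 162)))))) (XT.nd (nat_lit 546) (nat_lit 760) (nat_lit 0) (XT.nd (nat_lit 234) (nat_lit 912) (nat_lit 0) (XT.nd (nat_lit 78) (nat_lit 836) (nat_lit 0) (XT.lf (nat_lit 76) (nat_lit 2482885476130) (nat_lit 0) (nat_lit 1634206207044) (nat_lit 532) (nat_lit 32182348482) (nat_lit 61) (nat_lit 5) (nat_lit 60) (nat_lit 5) (nat_lit 67) (nat_lit 5) (nat_lit 311) (nat_lit 308) (nat_lit 161)) (XT.nd (nat_lit 78) (nat_lit 380) (nat_lit 0) (XT.lf (nat_lit 0) (nat_lit 545758568189) (nat_lit 532) (nat_lit 2117317134825) (nat_lit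 76) (nat_lit 1815434267100) (nat_lit 54) (nat_lit 5) (nat_lit 61) (nat_lit 5) (nat_lit 55) (nat_lit 5) (nat_lit 312) (nat_lit 308) (nat_lit 160)) (XT.lf (nat_lit 0) (nat_lit 1381877052408) (nat_lit 456) (nat_lit 2559144278229) (nat_lit 76) (nat_lit 902171737557) (nat_lit 49) (nat_lit 5) (nat_lit 55) (nat_lit 5) (nat_lit 50) (nat_lit 5) (nat_lit 313) (nat_lit 308) (nat_lit 159)))) (XT.nd (nat_lit 156) (nat_lit 456) (nat_lit 0) (XT.nd (nat_lit 78) (nat_lit 228) (nat_lit 0) (XT.lf (nat_lit 0) (nat_lit 2253673390437) (nat_lit 228) (nat_lit 280839444660) (nat_lit 304) (nat_lit 2712777833824) (nat_lit 46) (nat_lit 5) (nat_lit 49) (nat_lit 5) (nat_lit 50) (nat_lit 5) (nat_lit 314) (nat_lit 308) (nat_lit 158)) (XT.lf (nat_lit 0) (nat_lit 2253670436452) (nat_lit 228) (nat_lit 1831493734238) (nat_lit 304) (nat_lit 1608829124228) (nat_lit 43) (nat_lit 5) (nat_lit 46) (nat_lit 5) (nat_lit 47) (nat_lit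 5) (nat_lit 315) (nat_lit 308) (nat_lit 157))) (XT.nd (nat_lit 78) (nat_lit 304) (nat_lit 0) (XT.lf (nat_lit 0) (nat_lit 2316857309505) (nat_lit 152) (nat_lit 3762080428997) (nat_lit 228) (nat_lit 111921613762) (nat_lit 41) (nat_lit 5) (nat_lit 43) (nat_lit 5) (nat_lit 44) (nat_lit 5) (nat_lit 316) (nat_lit 308) (nat_lit 156)) (XT.lf (nat_lit 0) (nat_lit 1757004764191) (nat_lit 304) (nat_lit 4337743516319) (nat_lit 76) (nat_lit 646170510145) (nat_lit 37) (nat_lit 5) (nat_lit 41) (nat_lit 5) (nat_lit 38) (nat_lit 5) (nat_lit 317) (nat_lit 308) (nat_lit 155))))) (XT.nd (nat_lit 234) (nat_lit 228) (nat_lit 0) (XT.nd (nat_lit 78) (nat_lit 380) (nat_lit 0) (XT.lf (nat_lit 0) (nat_lit 2507419233484) (nat_lit 152) (nat_lit 1672482556862) (nat_lit 228) (nat_lit 3170932094067) (nat_lit 35) (nat_lit 5) (nat_lit 37) (nat_lit 5) (nat_lit 38) (nat_lit 5) (nat_lit 318) (nat_lit 308) (nat_lit 154)) (XT.nd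 (nat_lit 78) (nat_lit 228) (nat_lit 0) (XT.lf (nat_lit 0) (nat_lit 2646949012839) (nat_lit 152) (nat_lit 4594598197348) (nat_lit 228) (nat_lit 788663924865) (nat_lit 33) (nat_lit 5) (nat_lit 35) (nat_lit 5) (nat_lit 36) (nat_lit 5) (nat_lit 319) (nat_lit 308) (nat_lit 153)) (XT.lf (nat_lit 0) (nat_lit 2128035190547) (nat_lit 228) (nat_lit 6006536388149) (nat_lit 76) (nat_lit 651194984514) (nat_lit 30) (nat_lit 5) (nat_lit 33) (nat_lit 5) (nat_lit 31) (nat_lit 5) (nat_lit 320) (nat_lit 308) (nat_lit 152)))) (XT.nd (nat_lit 39702) (nat_lit 0) (nat_lit 2356) (XT.nd (nat_lit 78) (nat_lit 76) (nat_lit 0) (XT.lf (nat_lit 0) (nat_lit 2839034678718) (nat_lit 152) (nat_lit 2953987323543) (nat_lit 228) (nat_lit 3831396078412) (nat_lit 28) (nat_lit 5) (nat_lit 30) (nat_lit 5) (nat_lit 31) (nat_lit 5) (nat_lit 321) (nat_lit 308) (nat_lit 151)) (XT.lf (nat_lit 0) (nat_lit 2866936493130) (nat_lit 76)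 (nat_lit 7461424941816) (nat_lit 152) (nat_lit 234857522872) (nat_lit 27) (nat_lit 5) (nat_lit 28) (nat_lit 5) (nat_lit 29) (nat_lit 4) (nat_lit 322) (nat_lit 308) (nat_lit 150))) (XT.nd (nat_lit 78) (nat_lit 0) (nat_lit 0) (XT.lf (nat_lit 0) (nat_lit 1558011319003) (nat_lit 532) (nat_lit 180231396791) (nat_lit 532) (nat_lit 180231396791) (nat_lit 58) (nat_lit 3) (nat_lit 65) (nat_lit 3) (nat_lit 65) (nat_lit 5) (nat_lit 309) (nat_lit 309) (nat_lit 162)) (XT.lf (nat_lit 76) (nat_lit 3241079462014) (nat_lit 0) (nat_lit 186592920294) (nat_lit 532) (nat_lit 690811116026) (nat_lit 59) (nat_lit 5) (nat_lit 58) (nat_lit 3) (nat_lit 65) (nat_lit 5) (nat_lit 310) (nat_lit 309) (nat_lit 161))))))) (XT.nd (nat_lit 40638) (nat_lit 0) (nat_lit 380) (XT.nd (nat_lit 468) (nat_lit 1140) (nat_lit 0) (XT.nd (nat_lit 234) (nat_lit 836) (nat_lit 0) (XT.nd (nat_lit 78) (nat_lit 380) (nat_lit 0) (XT.lf (nat_lit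 76) (nat_lit 3027967992587) (nat_lit 0) (nat_lit 928194096743) (nat_lit 532) (nat_lit 472479573056) (nat_lit 60) (nat_lit 5) (nat_lit 59) (nat_lit 5) (nat_lit 66) (nat_lit 5) (nat_lit 311) (nat_lit 309) (nat_lit 160)) (XT.nd (nat_lit 78) (nat_lit 456) (nat_lit 0) (XT.lf (nat_lit 76) (nat_lit 2855318307844) (nat_lit 0) (nat_lit 1879337140610) (nat_lit 532) (nat_lit 37009686907) (nat_lit 61) (nat_lit 5) (nat_lit 60) (nat_lit 5) (nat_lit 67) (nat_lit 5) (nat_lit 312) (nat_lit 309) (nat_lit 159)) (XT.lf (nat_lit 0) (nat_lit 627622365059) (nat_lit 532) (nat_lit 2434914693987) (nat_lit 76) (nat_lit 2087749405638) (nat_lit 54) (nat_lit 5) (nat_lit 61) (nat_lit 5) (nat_lit 55) (nat_lit 5) (nat_lit 313) (nat_lit 309) (nat_lit 158)))) (XT.nd (nat_lit 78) (nat_lit 456) (nat_lit 0) (XT.lf (nat_lit 0) (nat_lit 1589158620630) (nat_lit 456) (nat_lit 2943015908991) (nat_lit 76) (nat_lit 1037497497961)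 (nat_lit 49) (nat_lit 5) (nat_lit 55) (nat_lit 5) (nat_lit 50) (nat_lit 5) (nat_lit 314) (nat_lit 309) (nat_lit 157)) (XT.nd (nat_lit 78) (nat_lit 228) (nat_lit 0) (XT.lf (nat_lit 0) (nat_lit 2591724409047) (nat_lit 228) (nat_lit 322965360566) (nat_lit 304) (nat_lit 3119694498895) (nat_lit 46) (nat_lit 5) (nat_lit 49) (nat_lit 5) (nat_lit 50) (nat_lit 5) (nat_lit 315) (nat_lit 309) (nat_lit 156)) (XT.lf (nat_lit 0) (nat_lit 2591721011784) (nat_lit 228) (nat_lit 2106217792807) (nat_lit 304) (nat_lit 1850153483890) (nat_lit 43) (nat_lit 5) (nat_lit 46) (nat_lit 5) (nat_lit 47) (nat_lit 5) (nat_lit 316) (nat_lit 309) (nat_lit 155))))) (XT.nd (nat_lit 234) (nat_lit 532) (nat_lit 0) (XT.nd (nat_lit 78) (nat_lit 456) (nat_lit 0) (XT.lf (nat_lit 0) (nat_lit 2664385915542) (nat_lit 152) (nat_lit 4326392491215) (nat_lit 228) (nat_lit 128709847740) (nat_lit 41) (nat_lit 5) (nat_lit 43) (nat_lit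 5) (nat_lit 44) (nat_lit 5) (nat_lit 317) (nat_lit 309) (nat_lit 154)) (XT.nd (nat_lit 78) (nat_lit 152) (nat_lit 0) (XT.lf (nat_lit 0) (nat_lit 2020555485775) (nat_lit 304) (nat_lit 4988405034087) (nat_lit 76) (nat_lit 743096088828) (nat_lit 37) (nat_lit 5) (nat_lit 41) (nat_lit 5) (nat_lit 38) (nat_lit 5) (nat_lit 318) (nat_lit 309) (nat_lit 153)) (XT.lf (nat_lit 0) (nat_lit 2883532127367) (nat_lit 152) (nat_lit 1923354937792) (nat_lit 228) (nat_lit 3646571901408) (nat_lit 35) (nat_lit 5) (nat_lit 37) (nat_lit 5) (nat_lit 38) (nat_lit 5) (nat_lit 319) (nat_lit 309) (nat_lit 152)))) (XT.nd (nat_lit 156) (nat_lit 152) (nat_lit 0) (XT.nd (nat_lit 78) (nat_lit 228) (nat_lit 0) (XT.lf (nat_lit 0) (nat_lit 3043991373282) (nat_lit 152) (nat_lit 5283787924137) (nat_lit 228) (nat_lit 906963507430) (nat_lit 33) (nat_lit 5) (nat_lit 35) (nat_lit 5) (nat_lit 36) (nat_lit 5) (nat_lit 320) (nat_lit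 309) (nat_lit 151)) (XT.lf (nat_lit 0) (nat_lit 2447240474484) (nat_lit 228) (nat_lit 6907516837928) (nat_lit 76) (nat_lit 748874234847) (nat_lit 30) (nat_lit 5) (nat_lit 33) (nat_lit 5) (nat_lit 31) (nat_lit 5) (nat_lit 321) (nat_lit 309) (nat_lit 150))) (XT.nd (nat_lit 39702) (nat_lit 0) (nat_lit 2280) (XT.lf (nat_lit 0) (nat_lit 3264889888255) (nat_lit 152) (nat_lit 3397085419188) (nat_lit 228) (nat_lit 4406105484940) (nat_lit 28) (nat_lit 5) (nat_lit 30) (nat_lit 5) (nat_lit 31) (nat_lit 5) (nat_lit 322) (nat_lit 309) (nat_lit 149)) (XT.lf (nat_lit 0) (nat_lit 1791713023987) (nat_lit 532) (nat_lit 207266102453) (nat_lit 532) (nat_lit 207266102453) (nat_lit 58) (nat_lit 3) (nat_lit 65) (nat_lit 3) (nat_lit 65) (nat_lit 5) (nat_lit 310) (nat_lit 310) (nat_lit 160)))))) (XT.nd (nat_lit 546) (nat_lit 760) (nat_lit 0) (XT.nd (nat_lit 234) (nat_lit 1140) (nat_lit 0) (XT.nd (nat_lit 78) (nat_lit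 0) (nat_lit 76) (XT.lf (nat_lit 76) (nat_lit 3727241388378) (nat_lit 0) (nat_lit 214581863853) (nat_lit 532) (nat_lit 794432769828) (nat_lit 59) (nat_lit 5) (nat_lit 58) (nat_lit 3) (nat_lit 65) (nat_lit 5) (nat_lit 311) (nat_lit 310) (nat_lit 159)) (XT.nd (nat_lit 78) (nat_lit 0) (nat_lit 76) (XT.lf (nat_lit 76) (nat_lit 3482163198999) (nat_lit 0) (nat_lit 1067423214732) (nat_lit 532) (nat_lit 543351497116) (nat_lit 60) (nat_lit 5) (nat_lit 59) (nat_lit 5) (nat_lit 66) (nat_lit 5) (nat_lit 312) (nat_lit 310) (nat_lit 158)) (XT.lf (nat_lit 76) (nat_lit 3283616061805) (nat_lit 0) (nat_lit 2161237713599) (nat_lit 532) (nat_lit 42561129473) (nat_lit 61) (nat_lit 5) (nat_lit 60) (nat_lit 5) (nat_lit 67) (nat_lit 5) (nat_lit 313) (nat_lit 310) (nat_lit 157)))) (XT.nd (nat_lit 156) (nat_lit 456) (nat_lit 0) (XT.nd (nat_lit 78) (nat_lit 380) (nat_lit 0) (XT.lf (nat_lit 0) (nat_lit 721765728621)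 (nat_lit 532) (nat_lit 2800151889722) (nat_lit 76) (nat_lit 2400911815329) (nat_lit 54) (nat_lit 5) (nat_lit 61) (nat_lit 5) (nat_lit 55) (nat_lit 5) (nat_lit 314) (nat_lit 310) (nat_lit 156)) (XT.lf (nat_lit 0) (nat_lit 1827532421559) (nat_lit 456) (nat_lit 3384468287042) (nat_lit 76) (nat_lit 1193122122481) (nat_lit 49) (nat_lit 5) (nat_lit 55) (nat_lit 5) (nat_lit 50) (nat_lit 5) (nat_lit 315) (nat_lit 310) (nat_lit 155))) (XT.nd (nat_lit 78) (nat_lit 228) (nat_lit 0) (XT.lf (nat_lit 0) (nat_lit 2980483077999) (nat_lit 228) (nat_lit 371410164051) (nat_lit 304) (nat_lit 3587648666166) (nat_lit 46) (nat_lit 5) (nat_lit 49) (nat_lit 5) (nat_lit 50) (nat_lit 5) (nat_lit 316) (nat_lit 310) (nat_lit 154)) (XT.lf (nat_lit 0) (nat_lit 2980479171011) (nat_lit 228) (nat_lit 2422150460544) (nat_lit 304) (nat_lit 2127676499690) (nat_lit 43) (nat_lit 5) (nat_lit 46) (nat_lit 5) (nat_lit 47) (nat_lit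 5) (nat_lit 317) (nat_lit 310) (nat_lit 153))))) (XT.nd (nat_lit 234) (nat_lit 152) (nat_lit 0) (XT.nd (nat_lit 78) (nat_lit 456) (nat_lit 0) (XT.lf (nat_lit 0) (nat_lit 3064043810142) (nat_lit 152) (nat_lit 4975351363286) (nat_lit 228) (nat_lit 148016318786) (nat_lit 41) (nat_lit 5) (nat_lit 43) (nat_lit 5) (nat_lit 44) (nat_lit 5) (nat_lit 318) (nat_lit 310) (nat_lit 152)) (XT.nd (nat_lit 78) (nat_lit 152) (nat_lit 0) (XT.lf (nat_lit 0) (nat_lit 2323638813900) (nat_lit 304) (nat_lit 5736665781880) (nat_lit 76) (nat_lit 854560503787) (nat_lit 37) (nat_lit 5) (nat_lit 41) (nat_lit 5) (nat_lit 38) (nat_lit 5) (nat_lit 319) (nat_lit 310) (nat_lit 151)) (XT.lf (nat_lit 0) (nat_lit 3316061953171) (nat_lit 152) (nat_lit 2211858176496) (nat_lit 228) (nat_lit 4193557681502) (nat_lit 35) (nat_lit 5) (nat_lit 37) (nat_lit 5) (nat_lit 38) (nat_lit 5) (nat_lit 320) (nat_lit 310) (nat_lit 150))))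 (XT.nd (nat_lit 39936) (nat_lit 0) (nat_lit 1900) (XT.nd (nat_lit 39858) (nat_lit 0) (nat_lit 1900) (XT.lf (nat_lit 0) (nat_lit 3500590085715) (nat_lit 152) (nat_lit 6076356110630) (nat_lit 228) (nat_lit 1043008028882) (nat_lit 33) (nat_lit 5) (nat_lit 35) (nat_lit 5) (nat_lit 36) (nat_lit 5) (nat_lit 321) (nat_lit 310) (nat_lit 149)) (XT.lf (nat_lit 0) (nat_lit 2060469982980) (nat_lit 532) (nat_lit 238356014903) (nat_lit 532) (nat_lit 238356014903) (nat_lit 58) (nat_lit 3) (nat_lit 65) (nat_lit 3) (nat_lit 65) (nat_lit 5) (nat_lit 311) (nat_lit 311) (nat_lit 158))) (XT.nd (nat_lit 78) (nat_lit 0) (nat_lit 76) (XT.lf (nat_lit 76) (nat_lit 4286327601975) (nat_lit 0) (nat_lit 246769147601) (nat_lit 532) (nat_lit 913597675018) (nat_lit 59) (nat_lit 5) (nat_lit 58) (nat_lit 3) (nat_lit 65) (nat_lit 5) (nat_lit 312) (nat_lit 311) (nat_lit 157)) (XT.lf (nat_lit 76) (nat_lit 4004487684538) (nat_lit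 0) (nat_lit 1227536699572) (nat_lit 532) (nat_lit 624854212686) (nat_lit 60) (nat_lit 5) (nat_lit 59) (nat_lit 5) (nat_lit 66) (nat_lit 5) (nat_lit 313) (nat_lit 311) (nat_lit 156))))))))
noncomputable def xc63 : XT := (XT.nd (nat_lit 121914) (nat_lit 0) (nat_lit 608) (XT.nd (nat_lit 40872) (nat_lit 0) (nat_lit 152) (XT.nd (nat_lit 468) (nat_lit 456) (nat_lit 0) (XT.nd (nat_lit 234) (nat_lit 608) (nat_lit 0) (XT.nd (nat_lit 78) (nat_lit 836) (nat_lit 0) (XT.lf (nat_lit 76) (nat_lit 3776158476961) (nat_lit 0) (nat_lit 2485423372074) (nat_lit 532) (nat_lit 48945290978) (nat_lit 61) (nat_lit 5) (nat_lit 60) (nat_lit 5) (nat_lit 67) (nat_lit 5) (nat_lit 314) (nat_lit 311) (nat_lit 155)) (XT.nd (nat_lit 78) (nat_lit 380) (nat_lit 0) (XT.lf (nat_lit 0) (nat_lit 830030594571) (nat_lit 532) (nat_lit 3220174666856) (nat_lit 76) (nat_lit 2761048586756) (nat_lit 54) (nat_lit 5) (nat_lit 61) (nat_lit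 5) (nat_lit 55) (nat_lit 5) (nat_lit 315) (nat_lit 311) (nat_lit 154)) (XT.lf (nat_lit 0) (nat_lit 2101662290717) (nat_lit 456) (nat_lit 3892138523825) (nat_lit 76) (nat_lit 1372090440722) (nat_lit 49) (nat_lit 5) (nat_lit 55) (nat_lit 5) (nat_lit 50) (nat_lit 5) (nat_lit 316) (nat_lit 311) (nat_lit 153)))) (XT.nd (nat_lit 78) (nat_lit 380) (nat_lit 0) (XT.lf (nat_lit 0) (nat_lit 3427555545442) (nat_lit 228) (nat_lit 427121688206) (nat_lit 304) (nat_lit 4125795960372) (nat_lit 46) (nat_lit 5) (nat_lit 49) (nat_lit 5) (nat_lit 50) (nat_lit 5) (nat_lit 317) (nat_lit 311) (nat_lit 152)) (XT.nd (nat_lit 78) (nat_lit 152) (nat_lit 0) (XT.lf (nat_lit 0) (nat_lit 3427551052303) (nat_lit 228) (nat_lit 2785473028731) (nat_lit 304) (nat_lit 2446827969513) (nat_lit 43) (nat_lit 5) (nat_lit 46) (nat_lit 5) (nat_lit 47) (nat_lit 5) (nat_lit 318) (nat_lit 311) (nat_lit 151)) (XT.lf (nat_lit 0) (nat_lit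 3523650387158) (nat_lit 152) (nat_lit 5721654066560) (nat_lit 228) (nat_lit 170218761980) (nat_lit 41) (nat_lit 5) (nat_lit 43) (nat_lit 5) (nat_lit 44) (nat_lit 5) (nat_lit 319) (nat_lit 311) (nat_lit 150))))) (XT.nd (nat_lit 40092) (nat_lit 0) (nat_lit 1444) (XT.nd (nat_lit 78) (nat_lit 152) (nat_lit 0) (XT.lf (nat_lit 0) (nat_lit 2672184639962) (nat_lit 304) (nat_lit 6597165643628) (nat_lit 76) (nat_lit 982744580590) (nat_lit 37) (nat_lit 5) (nat_lit 41) (nat_lit 5) (nat_lit 38) (nat_lit 5) (nat_lit 320) (nat_lit 311) (nat_lit 149)) (XT.nd (nat_lit 39936) (nat_lit 0) (nat_lit 1748) (XT.lf (nat_lit 0) (nat_lit 3813471251213) (nat_lit 152) (nat_lit 2543636901484) (nat_lit 228) (nat_lit 4822591329857) (nat_lit 35) (nat_lit 5) (nat_lit 37) (nat_lit 5) (nat_lit 38) (nat_lit 5) (nat_lit 321) (nat_lit 311) (nat_lit 148)) (XT.lf (nat_lit 0) (nat_lit 2369540484506) (nat_lit 532) (nat_lit 274109414933)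 (nat_lit 532) (nat_lit 274109414933) (nat_lit 58) (nat_lit 3) (nat_lit 65) (nat_lit 3) (nat_lit 65) (nat_lit 5) (nat_lit 312) (nat_lit 312) (nat_lit 156)))) (XT.nd (nat_lit 156) (nat_lit 304) (nat_lit 0) (XT.nd (nat_lit 78) (nat_lit 0) (nat_lit 76) (XT.lf (nat_lit 76) (nat_lit 4929276746309) (nat_lit 0) (nat_lit 283784522894) (nat_lit 532) (nat_lit 1050637318494) (nat_lit 59) (nat_lit 5) (nat_lit 58) (nat_lit 3) (nat_lit 65) (nat_lit 5) (nat_lit 313) (nat_lit 312) (nat_lit 155)) (XT.lf (nat_lit 76) (nat_lit 4605160841520) (nat_lit 0) (nat_lit 1411667206496) (nat_lit 532) (nat_lit 718582337786) (nat_lit 60) (nat_lit 5) (nat_lit 59) (nat_lit 5) (nat_lit 66) (nat_lit 5) (nat_lit 314) (nat_lit 312) (nat_lit 154))) (XT.nd (nat_lit 78) (nat_lit 456) (nat_lit 0) (XT.lf (nat_lit 76) (nat_lit 4342582252956) (nat_lit 0) (nat_lit 2858236878969) (nat_lit 532) (nat_lit 56287078638) (nat_lit 61) (nat_lit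 5) (nat_lit 60) (nat_lit 5) (nat_lit 67) (nat_lit 5) (nat_lit 315) (nat_lit 312) (nat_lit 153)) (XT.lf (nat_lit 0) (nat_lit 954535188790) (nat_lit 532) (nat_lit 3703200862103) (nat_lit 76) (nat_lit 3175205874109) (nat_lit 54) (nat_lit 5) (nat_lit 61) (nat_lit 5) (nat_lit 55) (nat_lit 5) (nat_lit 316) (nat_lit 312) (nat_lit 152)))))) (XT.nd (nat_lit 40482) (nat_lit 0) (nat_lit 304) (XT.nd (nat_lit 234) (nat_lit 456) (nat_lit 0) (XT.nd (nat_lit 78) (nat_lit 456) (nat_lit 0) (XT.lf (nat_lit 0) (nat_lit 2416911638804) (nat_lit 456) (nat_lit 4475959297654) (nat_lit 76) (nat_lit 1577904006731) (nat_lit 49) (nat_lit 5) (nat_lit 55) (nat_lit 5) (nat_lit 50) (nat_lit 5) (nat_lit 317) (nat_lit 312) (nat_lit 151)) (XT.nd (nat_lit 78) (nat_lit 228) (nat_lit 0) (XT.lf (nat_lit 0) (nat_lit 3941688881601) (nat_lit 228) (nat_lit 491189941094) (nat_lit 304) (nat_lit 4744665350103) (nat_lit 46) (nat_lit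 5) (nat_lit 49) (nat_lit 5) (nat_lit 50) (nat_lit 5) (nat_lit 318) (nat_lit 312) (nat_lit 150)) (XT.lf (nat_lit 0) (nat_lit 3941683714413) (nat_lit 228) (nat_lit 3203293982363) (nat_lit 304) (nat_lit 2813852161062) (nat_lit 43) (nat_lit 5) (nat_lit 46) (nat_lit 5) (nat_lit 47) (nat_lit 5) (nat_lit 319) (nat_lit 312) (nat_lit 149)))) (XT.nd (nat_lit 40092) (nat_lit 0) (nat_lit 1596) (XT.nd (nat_lit 78) (nat_lit 304) (nat_lit 0) (XT.lf (nat_lit 0) (nat_lit 4052197949387) (nat_lit 152) (nat_lit 6579902175622) (nat_lit 228) (nat_lit 195751572781) (nat_lit 41) (nat_lit 5) (nat_lit 43) (nat_lit 5) (nat_lit 44) (nat_lit 5) (nat_lit 320) (nat_lit 312) (nat_lit 148)) (XT.lf (nat_lit 0) (nat_lit 3073012338964) (nat_lit 304) (nat_lit 7586740485988) (nat_lit 76) (nat_lit 1130156268613) (nat_lit 37) (nat_lit 5) (nat_lit 41) (nat_lit 5) (nat_lit 38) (nat_lit 5) (nat_lit 321) (nat_lit 312) (nat_lit 147)))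 (XT.nd (nat_lit 78) (nat_lit 0) (nat_lit 0) (XT.lf (nat_lit 0) (nat_lit 2724971560266) (nat_lit 532) (nat_lit 315225825506) (nat_lit 532) (nat_lit 315225825506) (nat_lit 58) (nat_lit 3) (nat_lit 65) (nat_lit 3) (nat_lit 65) (nat_lit 5) (nat_lit 313) (nat_lit 313) (nat_lit 154)) (XT.lf (nat_lit 76) (nat_lit 5668668261309) (nat_lit 0) (nat_lit 326352203712) (nat_lit 532) (nat_lit 1208232910388) (nat_lit 59) (nat_lit 5) (nat_lit 58) (nat_lit 3) (nat_lit 65) (nat_lit 5) (nat_lit 314) (nat_lit 313) (nat_lit 153))))) (XT.nd (nat_lit 234) (nat_lit 988) (nat_lit 0) (XT.nd (nat_lit 78) (nat_lit 380) (nat_lit 0) (XT.lf (nat_lit 76) (nat_lit 5295934971001) (nat_lit 0) (nat_lit 1623417288974) (nat_lit 532) (nat_lit 826369683310) (nat_lit 60) (nat_lit 5) (nat_lit 59) (nat_lit 5) (nat_lit 66) (nat_lit 5) (nat_lit 315) (nat_lit 313) (nat_lit 152)) (XT.nd (nat_lit 78) (nat_lit 456) (nat_lit 0) (XT.lf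 (nat_lit 76) (nat_lit 4993969594265) (nat_lit 0) (nat_lit 3286972411635) (nat_lit 532) (nat_lit 64730135907) (nat_lit 61) (nat_lit 5) (nat_lit 60) (nat_lit 5) (nat_lit 67) (nat_lit 5) (nat_lit 316) (nat_lit 313) (nat_lit 151)) (XT.lf (nat_lit 0) (nat_lit 1097715470914) (nat_lit 532) (nat_lit 4258680987802) (nat_lit 76) (nat_lit 3651486754726) (nat_lit 54) (nat_lit 5) (nat_lit 61) (nat_lit 5) (nat_lit 55) (nat_lit 5) (nat_lit 317) (nat_lit 313) (nat_lit 150)))) (XT.nd (nat_lit 156) (nat_lit 380) (nat_lit 0) (XT.nd (nat_lit 78) (nat_lit 228) (nat_lit 0) (XT.lf (nat_lit 0) (nat_lit 2779448388012) (nat_lit 456) (nat_lit 5147353188716) (nat_lit 76) (nat_lit 1814589607666) (nat_lit 49) (nat_lit 5) (nat_lit 55) (nat_lit 5) (nat_lit 50) (nat_lit 5) (nat_lit 318) (nat_lit 313) (nat_lit 149)) (XT.lf (nat_lit 0) (nat_lit 4532942217124) (nat_lit 228) (nat_lit 564868431999) (nat_lit 304) (nat_lit 5456365149349)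 (nat_lit 46) (nat_lit 5) (nat_lit 49) (nat_lit 5) (nat_lit 50) (nat_lit 5) (nat_lit 319) (nat_lit 313) (nat_lit 148))) (XT.nd (nat_lit 78) (nat_lit 152) (nat_lit 0) (XT.lf (nat_lit 0) (nat_lit 4532936274799) (nat_lit 228) (nat_lit 3683788079206) (nat_lit 304) (nat_lit 3235929982288) (nat_lit 43) (nat_lit 5) (nat_lit 46) (nat_lit 5) (nat_lit 47) (nat_lit 5) (nat_lit 320) (nat_lit 313) (nat_lit 147)) (XT.lf (nat_lit 0) (nat_lit 4660027644938) (nat_lit 152) (nat_lit 7566887501269) (nat_lit 228) (nat_lit 225114306055) (nat_lit 41) (nat_lit 5) (nat_lit 43) (nat_lit 5) (nat_lit 44) (nat_lit 5) (nat_lit 321) (nat_lit 313) (nat_lit 146))))))) (XT.nd (nat_lit 41184) (nat_lit 0) (nat_lit 228) (XT.nd (nat_lit 546) (nat_lit 228) (nat_lit 0) (XT.nd (nat_lit 234) (nat_lit 912) (nat_lit 0) (XT.nd (nat_lit 78) (nat_lit 0) (nat_lit 0) (XT.lf (nat_lit 0) (nat_lit 3133717296638) (nat_lit 532) (nat_lit 362509698071)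 (nat_lit 532) (nat_lit 362509698071) (nat_lit 58) (nat_lit 3) (nat_lit 65) (nat_lit 3) (nat_lit 65) (nat_lit 5) (nat_lit 314) (nat_lit 314) (nat_lit 152)) (XT.nd (nat_lit 78) (nat_lit 0) (nat_lit 76) (XT.lf (nat_lit 76) (nat_lit 6518968502814) (nat_lit 0) (nat_lit 375305036072) (nat_lit 532) (nat_lit 1389467842499) (nat_lit 59) (nat_lit 5) (nat_lit 58) (nat_lit 3) (nat_lit 65) (nat_lit 5) (nat_lit 315) (nat_lit 314) (nat_lit 151)) (XT.lf (nat_lit 76) (nat_lit 6090325219111) (nat_lit 0) (nat_lit 1866929883458) (nat_lit 532) (nat_lit 950325131917) (nat_lit 60) (nat_lit 5) (nat_lit 59) (nat_lit 5) (nat_lit 66) (nat_lit 5) (nat_lit 316) (nat_lit 314) (nat_lit 150)))) (XT.nd (nat_lit 156) (nat_lit 608) (nat_lit 0) (XT.nd (nat_lit 78) (nat_lit 456) (nat_lit 0) (XT.lf (nat_lit 76) (nat_lit 5743065035949) (nat_lit 0) (nat_lit 3780018274001) (nat_lit 532) (nat_lit 74439652871) (nat_lit 61) (nat_lit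 5) (nat_lit 60) (nat_lit 5) (nat_lit 67) (nat_lit 5) (nat_lit 317) (nat_lit 314) (nat_lit 149)) (XT.lf (nat_lit 0) (nat_lit 1262372794429) (nat_lit 532) (nat_lit 4897483133238) (nat_lit 76) (nat_lit 4199209767558) (nat_lit 54) (nat_lit 5) (nat_lit 61) (nat_lit 5) (nat_lit 55) (nat_lit 5) (nat_lit 318) (nat_lit 314) (nat_lit 148))) (XT.nd (nat_lit 78) (nat_lit 228) (nat_lit 0) (XT.lf (nat_lit 0) (nat_lit 3196365648775) (nat_lit 456) (nat_lit 5919456164311) (nat_lit 76) (nat_lit 2086778048759) (nat_lit 49) (nat_lit 5) (nat_lit 55) (nat_lit 5) (nat_lit 50) (nat_lit 5) (nat_lit 319) (nat_lit 314) (nat_lit 147)) (XT.lf (nat_lit 0) (nat_lit 5212883552176) (nat_lit 228) (nat_lit 649598696602) (nat_lit 304) (nat_lit 6274819919279) (nat_lit 46) (nat_lit 5) (nat_lit 49) (nat_lit 5) (nat_lit 50) (nat_lit 5) (nat_lit 320) (nat_lit 314) (nat_lit 146))))) (XT.nd (nat_lit 40326) (nat_lit 0) (nat_lit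 456) (XT.nd (nat_lit 40170) (nat_lit 0) (nat_lit 1140) (XT.lf (nat_lit 0) (nat_lit 5212876718458) (nat_lit 228) (nat_lit 4236356290700) (nat_lit 304) (nat_lit 3721319477414) (nat_lit 43) (nat_lit 5) (nat_lit 46) (nat_lit 5) (nat_lit 47) (nat_lit 5) (nat_lit 321) (nat_lit 314) (nat_lit 145)) (XT.nd (nat_lit 78) (nat_lit 0) (nat_lit 0) (XT.lf (nat_lit 0) (nat_lit 3603774892897) (nat_lit 532) (nat_lit 416886151828) (nat_lit 532) (nat_lit 416886151828) (nat_lit 58) (nat_lit 3) (nat_lit 65) (nat_lit 3) (nat_lit 65) (nat_lit 5) (nat_lit 315) (nat_lit 315) (nat_lit 150)) (XT.lf (nat_lit 76) (nat_lit 7496813779982) (nat_lit 0) (nat_lit 431600792846) (nat_lit 532) (nat_lit 1597888015512) (nat_lit 59) (nat_lit 5) (nat_lit 58) (nat_lit 3) (nat_lit 65) (nat_lit 5) (nat_lit 316) (nat_lit 315) (nat_lit 149)))) (XT.nd (nat_lit 156) (nat_lit 760) (nat_lit 0) (XT.nd (nat_lit 78) (nat_lit 0) (nat_lit 76)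 (XT.lf (nat_lit 76) (nat_lit 7003874003838) (nat_lit 0) (nat_lit 2146969366836) (nat_lit 532) (nat_lit 1092873898764) (nat_lit 60) (nat_lit 5) (nat_lit 59) (nat_lit 5) (nat_lit 66) (nat_lit 5) (nat_lit 317) (nat_lit 315) (nat_lit 148)) (XT.lf (nat_lit 76) (nat_lit 6604524793266) (nat_lit 0) (nat_lit 4347021015570) (nat_lit 532) (nat_lit 85605598214) (nat_lit 61) (nat_lit 5) (nat_lit 60) (nat_lit 5) (nat_lit 67) (nat_lit 5) (nat_lit 318) (nat_lit 315) (nat_lit 147))) (XT.nd (nat_lit 78) (nat_lit 380) (nat_lit 0) (XT.lf (nat_lit 0) (nat_lit 1451728715769) (nat_lit 532) (nat_lit 5632105601157) (nat_lit 76) (nat_lit 4829091232406) (nat_lit 54) (nat_lit 5) (nat_lit 61) (nat_lit 5) (nat_lit 55) (nat_lit 5) (nat_lit 319) (nat_lit 315) (nat_lit 146)) (XT.lf (nat_lit 0) (nat_lit 3675820498028) (nat_lit 456) (nat_lit 6807374586906) (nat_lit 76) (nat_lit 2399794756030) (nat_lit 49) (nat_lit 5) (nat_lit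 55) (nat_lit 5) (nat_lit 50) (nat_lit 5) (nat_lit 320) (nat_lit 315) (nat_lit 145)))))) (XT.nd (nat_lit 81042) (nat_lit 0) (nat_lit 912) (XT.nd (nat_lit 40404) (nat_lit 0) (nat_lit 608) (XT.nd (nat_lit 40248) (nat_lit 0) (nat_lit 912) (XT.lf (nat_lit 0) (nat_lit 5994816086880) (nat_lit 228) (nat_lit 747038500945) (nat_lit 304) (nat_lit 7216042905301) (nat_lit 46) (nat_lit 5) (nat_lit 49) (nat_lit 5) (nat_lit 50) (nat_lit 5) (nat_lit 321) (nat_lit 315) (nat_lit 144)) (XT.nd (nat_lit 78) (nat_lit 0) (nat_lit 0) (XT.lf (nat_lit 0) (nat_lit 4144341128165) (nat_lit 532) (nat_lit 479419073881) (nat_lit 532) (nat_lit 479419073881) (nat_lit 58) (nat_lit 3) (nat_lit 65) (nat_lit 3) (nat_lit 65) (nat_lit 5) (nat_lit 316) (nat_lit 316) (nat_lit 148)) (XT.lf (nat_lit 76) (nat_lit 8621335848299) (nat_lit 0) (nat_lit 496340912803) (nat_lit 532) (nat_lit 1837571215297) (nat_lit 59) (nat_lit 5) (nat_lit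 58) (nat_lit 3) (nat_lit 65) (nat_lit 5) (nat_lit 317) (nat_lit 316) (nat_lit 147)))) (XT.nd (nat_lit 156) (nat_lit 380) (nat_lit 0) (XT.nd (nat_lit 78) (nat_lit 0) (nat_lit 76) (XT.lf (nat_lit 76) (nat_lit 8054455105820) (nat_lit 0) (nat_lit 2469014772512) (nat_lit 532) (nat_lit 1256804981355) (nat_lit 60) (nat_lit 5) (nat_lit 59) (nat_lit 5) (nat_lit 66) (nat_lit 5) (nat_lit 318) (nat_lit 316) (nat_lit 146)) (XT.lf (nat_lit 76) (nat_lit 7595203513711) (nat_lit 0) (nat_lit 4999074168260) (nat_lit 532) (nat_lit 98446435989) (nat_lit 61) (nat_lit 5) (nat_lit 60) (nat_lit 5) (nat_lit 67) (nat_lit 5) (nat_lit 319) (nat_lit 316) (nat_lit 145))) (XT.nd (nat_lit 40404) (nat_lit 0) (nat_lit 304) (XT.lf (nat_lit 0) (nat_lit 1669488024780) (nat_lit 532) (nat_lit 6476921439767) (nat_lit 76) (nat_lit 5553454917051) (nat_lit 54) (nat_lit 5) (nat_lit 61) (nat_lit 5) (nat_lit 55) (nat_lit 5) (nat_lit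 320) (nat_lit 316) (nat_lit 144)) (XT.lf (nat_lit 0) (nat_lit 4765992298399) (nat_lit 532) (nat_lit 551331934418) (nat_lit 532) (nat_lit 551331934418) (nat_lit 58) (nat_lit 3) (nat_lit 65) (nat_lit 3) (nat_lit 65) (nat_lit 5) (nat_lit 317) (nat_lit 317) (nat_lit 146))))) (XT.nd (nat_lit 40638) (nat_lit 0) (nat_lit 0) (XT.nd (nat_lit 78) (nat_lit 0) (nat_lit 76) (XT.lf (nat_lit 76) (nat_lit 9914536226542) (nat_lit 0) (nat_lit 570792050503) (nat_lit 532) (nat_lit 2113206895669) (nat_lit 59) (nat_lit 5) (nat_lit 58) (nat_lit 3) (nat_lit 65) (nat_lit 5) (nat_lit 318) (nat_lit 317) (nat_lit 145)) (XT.nd (nat_lit 78) (nat_lit 0) (nat_lit 76) (XT.lf (nat_lit 76) (nat_lit 9262623372756) (nat_lit 0) (nat_lit 2839366988880) (nat_lit 532) (nat_lit 1445325726876) (nat_lit 60) (nat_lit 5) (nat_lit 59) (nat_lit 5) (nat_lit 66) (nat_lit 5) (nat_lit 319) (nat_lit 317) (nat_lit 144)) (XT.lf (nat_lit 76)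 (nat_lit 8734484041868) (nat_lit 0) (nat_lit 5748935293767) (nat_lit 532) (nat_lit 113213399907) (nat_lit 61) (nat_lit 5) (nat_lit 60) (nat_lit 5) (nat_lit 67) (nat_lit 5) (nat_lit 320) (nat_lit 317) (nat_lit 143)))) (XT.nd (nat_lit 156) (nat_lit 0) (nat_lit 0) (XT.nd (nat_lit 78) (nat_lit 0) (nat_lit 0) (XT.lf (nat_lit 0) (nat_lit 5480891143921) (nat_lit 532) (nat_lit 634031724168) (nat_lit 532) (nat_lit 634031724168) (nat_lit 58) (nat_lit 3) (nat_lit 65) (nat_lit 3) (nat_lit 65) (nat_lit 5) (nat_lit 318) (nat_lit 318) (nat_lit 144)) (XT.lf (nat_lit 76) (nat_lit 11401716661279) (nat_lit 0) (nat_lit 656410858668) (nat_lit 532) (nat_lit 2430187928566) (nat_lit 59) (nat_lit 5) (nat_lit 58) (nat_lit 3) (nat_lit 65) (nat_lit 5) (nat_lit 319) (nat_lit 318) (nat_lit 143))) (XT.nd (nat_lit 40638) (nat_lit 76) (nat_lit 0) (XT.lf (nat_lit 76) (nat_lit 10652016879474) (nat_lit 0) (nat_lit 3265272037584)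 (nat_lit 532) (nat_lit 1662124584636) (nat_lit 60) (nat_lit 5) (nat_lit 59) (nat_lit 5) (nat_lit 66) (nat_lit 5) (nat_lit 320) (nat_lit 318) (nat_lit 142)) (XT.lf (nat_lit 76) (nat_lit 13111974161041) (nat_lit 0) (nat_lit 754872487914) (nat_lit 532) (nat_lit 2794716116752) (nat_lit 59) (nat_lit 5) (nat_lit 58) (nat_lit 3) (nat_lit 65) (nat_lit 5) (nat_lit 320) (nat_lit 319) (nat_lit 141))))))))

set_option maxRecDepth 10000000 in
noncomputable def Tp : PT := (PT.nd (nat_lit 5374278) (PT.nd (nat_lit 5171088) pc0 pc1) (PT.nd (nat_lit 122304) pc2 pc3))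

set_option maxRecDepth 10000000 in
noncomputable def Tx : XT := (XT.nd (nat_lit 9169290) (nat_lit 0) (nat_lit 76) XT.nil (XT.nd (nat_lit 3819270) (nat_lit 0) (nat_lit 0) (XT.nd (nat_lit 1703052) (nat_lit 0) (nat_lit 0) (XT.nd (nat_lit 1174134) (nat_lit 0) (nat_lit 0) (XT.nd (nat_lit 810810) (nat_lit 0) (nat_lit 0) (XT.nd (nat_lit 567294) (nat_lit 0) (nat_lit 0) (XT.nd (nat_lit 365742) (nat_lit 0) (nat_lit 0) (XT.nd (nat_lit 243828) (nat_lit 0) (nat_lit 0) xc0 xc1) (XT.nd (nat_lit 120510) (nat_lit 0) (nat_lit 0) xc2 xc3)) (XT.nd (nat_lit 122460) (nat_lit 0) (nat_lit 0) (XT.nd (nat_lit 42354) (nat_lit 0) (nat_lit 0) xc4 xc5) (XT.nd (nat_lit 79404) (nat_lit 0) (nat_lit 0) xc6 xc7))) (XT.nd (nat_lit 201474) (nat_lit 0) (nat_lit 0) (XT.nd (nat_lit 82758) (nat_lit 0) (nat_lit 0) (XT.nd (nat_lit 41418) (nat_lit 0) (nat_lit 0) xc8 xc9) (XT.nd (nat_lit 41106) (nat_lit 0) (nat_lit 0) xc10 xc11))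 (XT.nd (nat_lit 81198) (nat_lit 0) (nat_lit 0) (XT.nd (nat_lit 40638) (nat_lit 0) (nat_lit 0) xc12 xc13) (XT.nd (nat_lit 40326) (nat_lit 0) (nat_lit 0) xc14 xc15)))) (XT.nd (nat_lit 246870) (nat_lit 0) (nat_lit 0) (XT.nd (nat_lit 124098) (nat_lit 0) (nat_lit 0) (XT.nd (nat_lit 44304) (nat_lit 0) (nat_lit 0) (XT.nd (nat_lit 4212) (nat_lit 0) (nat_lit 0) xc16 xc17) (XT.nd (nat_lit 39936) (nat_lit 0) (nat_lit 0) xc18 xc19)) (XT.nd (nat_lit 79170) (nat_lit 0) (nat_lit 0) (XT.nd (nat_lit 39624) (nat_lit 0) (nat_lit 0) xc20 xc21) (XT.nd (nat_lit 4212) (nat_lit 0) (nat_lit 0) xc22 xc23))) (XT.nd (nat_lit 122772) (nat_lit 0) (nat_lit 0) (XT.nd (nat_lit 78936) (nat_lit 0) (nat_lit 0) (XT.nd (nat_lit 39390) (nat_lit 0) (nat_lit 0) xc24 xc25) (XT.nd (nat_lit 39546) (nat_lit 0) (nat_lit 0) xc26 xc27)) (XT.nd (nat_lit 79404) (nat_lit 0) (nat_lit 0) (XT.nd (nat_lit 39624) (nat_lit 0) (nat_lit 0) xc28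 xc29) (XT.nd (nat_lit 39858) (nat_lit 0) (nat_lit 0) xc30 xc31))))) (XT.nd (nat_lit 650676) (nat_lit 0) (nat_lit 0) (XT.nd (nat_lit 286182) (nat_lit 0) (nat_lit 0) (XT.nd (nat_lit 124566) (nat_lit 0) (nat_lit 0) (XT.nd (nat_lit 44226) (nat_lit 0) (nat_lit 0) (XT.nd (nat_lit 40014) (nat_lit 0) (nat_lit 0) xc32 xc33) (XT.nd (nat_lit 40092) (nat_lit 0) (nat_lit 0) xc34 xc35)) (XT.nd (nat_lit 80652) (nat_lit 0) (nat_lit 0) (XT.nd (nat_lit 40248) (nat_lit 0) (nat_lit 0) xc36 xc37) (XT.nd (nat_lit 40404) (nat_lit 0) (nat_lit 0) xc38 xc39))) (XT.nd (nat_lit 163020) (nat_lit 0) (nat_lit 0) (XT.nd (nat_lit 81276) (nat_lit 0) (nat_lit 0) (XT.nd (nat_lit 40560) (nat_lit 0) (nat_lit 0) xc40 xc41) (XT.nd (nat_lit 40794) (nat_lit 0) (nat_lit 0) xc42 xc43)) (XT.nd (nat_lit 82056) (nat_lit 0) (nat_lit 0) (XT.nd (nat_lit 40950) (nat_lit 0) (nat_lit 0) xc44 xc45) (XT.nd (nat_lit 41106) (nat_lit 0) (nat_lit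 0) xc46 xc47)))) (XT.nd (nat_lit 447954) (nat_lit 0) (nat_lit 380) (XT.nd (nat_lit 203736) (nat_lit 0) (nat_lit 152) (XT.nd (nat_lit 82914) (nat_lit 0) (nat_lit 152) (XT.nd (nat_lit 41418) (nat_lit 0) (nat_lit 0) xc48 xc49) (XT.nd (nat_lit 41574) (nat_lit 0) (nat_lit 0) xc50 xc51)) (XT.nd (nat_lit 121758) (nat_lit 0) (nat_lit 76) (XT.nd (nat_lit 41886) (nat_lit 0) (nat_lit 0) xc52 xc53) (XT.nd (nat_lit 42120) (nat_lit 0) (nat_lit 0) xc54 xc55))) (XT.nd (nat_lit 286104) (nat_lit 0) (nat_lit 532) (XT.nd (nat_lit 123318) (nat_lit 0) (nat_lit 228) (XT.nd (nat_lit 42354) (nat_lit 0) (nat_lit 76) xc56 xc57) (XT.nd (nat_lit 81198) (nat_lit 0) (nat_lit 76) xc58 xc59)) (XT.nd (nat_lit 243126) (nat_lit 0) (nat_lit 836) (XT.nd (nat_lit 121056) (nat_lit 0) (nat_lit 456) xc60 xc61) (XT.nd (nat_lit 162708) (nat_lit 0) (nat_lit 836) xc62 xc63)))))) XT.nil))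

set_option maxRecDepth 10000000 in
noncomputable def Te : XT := XT.nil

set_option maxRecDepth 10000000 in
noncomputable def Tz : ZL := (ZL.cons (nat_lit 76) (nat_lit 6) (nat_lit 281633796431505641996) (ZL.cons (nat_lit 152) (nat_lit 6) (nat_lit 265093942790155081756) (ZL.cons (nat_lit 228) (nat_lit 3) (nat_lit 131277318628207640089) (ZL.cons (nat_lit 304) (nat_lit 6) (nat_lit 246073111102601937482) (ZL.cons (nat_lit 380) (nat_lit 6) (nat_lit 231866753327925787634) (ZL.cons (nat_lit 456) (nat_lit 3) (nat_lit 114829330779728197479) (ZL.cons (nat_lit 532) (nat_lit 6) (nat_lit 215529441887048215310) (ZL.cons (nat_lit 608) (nat_lit 6) (nat_lit 203409010830917238504) (ZL.cons (nat_lit 684) (nat_lit 3) (nat_lit 100744465516124100696) (ZL.cons (nat_lit 760) (nat_lit 6) (nat_lit 189470515116366615174) (ZL.cons (nat_lit 836) (nat_lit 6) (nat_lit 179239051219310121276) (ZL.cons (nat_lit 912) (nat_lit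 3) (nat_lit 88784708305885914068) (ZL.cons (nat_lit 988) (nat_lit 6) (nat_lit 167472867737695153290) (ZL.cons (nat_lit 1064) (nat_lit 6) (nat_lit 158983327320513351348) (ZL.cons (nat_lit 1140) (nat_lit 3) (nat_lit 78765735570022635179) (ZL.cons (nat_lit 1216) (nat_lit 6) (nat_lit 149220355840754279116) (ZL.cons (nat_lit 1292) (nat_lit 6) (nat_lit 142376913062227355818) (ZL.cons (nat_lit 1368) (nat_lit 3) (nat_lit 70557214713518860088) (ZL.cons (nat_lit 1444) (nat_lit 6) (nat_lit 136867249358797669366) (ZL.cons (nat_lit 1520) (nat_lit 6) (nat_lit 134506953866921394030) (ZL.cons (nat_lit 1596) (nat_lit 6) (nat_lit 129268652464663894298) (ZL.cons (nat_lit 1672) (nat_lit 3) (nat_lit 64085420303988627302) (ZL.cons (nat_lit 1748) (nat_lit 6) (nat_lit 125297036714568878594) (ZL.cons (nat_lit 1824) (nat_lit 6) (nat_lit 123244605852067769606) (ZL.cons (nat_lit 1900) (nat_lit 3) (nat_lit 60160248104228468906)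 (ZL.cons (nat_lit 1976) (nat_lit 6) (nat_lit 120866302723336155254) (ZL.cons (nat_lit 2052) (nat_lit 6) (nat_lit 122514401091091009652) (ZL.cons (nat_lit 2128) (nat_lit 6) (nat_lit 119631866745272970840) (ZL.cons (nat_lit 2204) (nat_lit 3) (nat_lit 59338623869729250773) (ZL.cons (nat_lit 2280) (nat_lit 6) (nat_lit 116088455254600033884) (ZL.cons (nat_lit 2356) (nat_lit 6) (nat_lit 117261939261590351380) (ZL.cons (nat_lit 2432) (nat_lit 6) (nat_lit 115477216772458952262) (ZL.cons (nat_lit 2508) (nat_lit 3) (nat_lit 56477113078714884825) (ZL.cons (nat_lit 2584) (nat_lit 6) (nat_lit 113581903649540869704) (ZL.cons (nat_lit 2660) (nat_lit 3) (nat_lit 56375900083111969940) (ZL.cons (nat_lit 2736) (nat_lit 6) (nat_lit 111402293558185074764) (ZL.cons (nat_lit 2812) (nat_lit 1) (nat_lit 18446744073709551617) ZL.nil)))))))))))))))))))))))))))))))))))))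

noncomputable def vl : XL := ⟨(nat_lit 0), (nat_lit 76), (nat_lit 215059642), (nat_lit 228), (nat_lit 17627100), (nat_lit 76), (nat_lit 215059642), (nat_lit 1), (nat_lit 5), (nat_lit 3), (nat_lit 4), (nat_lit 1), (nat_lit 4), (nat_lit 0), (nat_lit 0), (nat_lit 0)⟩

noncomputable def cp0 : Nat := (nat_lit 15191300794295697609744216835510266927375286070832676333106459683594158601107953806861782329686166570871975867356106304627846529029027481872134573293117514356177370932576844437734314308936122996174864699609588057541028548354554920016616841473429278750753541002305951602569711029986159149644093142776900338076695165076549655913435820220285486800452392153823182663565110808244812178608974505161222956706065349032352988617861547436338910256323086227836615718121417018938377314075324843372224226324311736604515913837021618457106531985952347959785172239634792052489867304889908925260581557973852386401058725117776850653855527307221584546335478816305852622906168074825286661170048666032914728631965149004465148074506962573322662835711329073550934291149856656499060954313877929014441291045172643004838923141892742005358476644392347736666052406473295305982622253861029543936)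

noncomputable def cp1 : Nat := (nat_lit 4709092298192152497572246026076053793890787400404824795125007669684394376159019471137530664448547954284171718938414994857633429689758290474048611996535829267852586114272513559487348950502563743881132445742130660580890345175276127161707070350478151839210015598997434307542013564209288900010072493070538166522066186551901448163195974024819738106543528406547796060558478119892285658681295603065399233537752276203157118736965208224064109300465677015124730977050228761680874349892297055523854612552073704657150272827587589510474676105446036947398912043900662354960039902755218040206313519156906977523691877892119380625484153004056451160861440818250573431579419480984195488598061701691716211181899479185336049360918679834985657390883678829816352786096054516462044938330116666079466421604699646628818244167799732089614645576663241718942772010503238716654967399880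5882088752544560639161564271603673360465406174773952812502835846901773109684731854066143451226920516301864003755881522964793640083603618024385496634643941961067532748269285466007259222237852330042517040445379321652655863935630688817116938065941449405981641063578903840207400466821480499491852603381000080173571376828537702815977442810661826491450205929090689615403971411655755135841015547776306681711998577770086419654650942030191222124574404847443295378991139741594564569183830945418087407588348594977187215814943020429536732027769880759964280235969056588903531217963570736283517380235135704488674339432236197755575610015688429059940513493369775558226485324661388414848109443094024107836212910718424760999435620252796893144822666156936704324601820248749047762658698371943476148424820966228634523899086487741982134032833282125558477800348019444509285083681734300228979908621717509768239876777874607688080216551202954923226848218645136017728542675733314352677263509751013882251120828770625207166335133117718408058708618125671943905459830784)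

noncomputable def rc0 : Nat := (nat_lit 4709092298192152497572246026076053793890787400404824795125007669684394376159019471137530664448547954284171718938414994857633429689758290474048611996535829267852586114272513559487348950502563743881132445742130660580890345175276127161707070350478151839210015598997434307542013564209288900010072493070538166522066186551901448163195974024819738106543528406547796060558478119892285658681295603065399233537752276203157118736965208224064109300465677015124730977050228761680874349892297055523854612552073704657150272827587589510474676105446036947398912043900662354960039902755218040206313519156906977523691877892119380625484153004056451160861440818250573431579419480984195488598061701691716211181899479185336049360918679834985657390883678829816352786096054516462044938330116666079466421604699646628818244167799732089614645576663241718942772010503238716654967399880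5882088752544560639161564271603673360465406174773952812502835846901773109684731854066143451226920516301864003755881522964793640083603618024385496634643941961067532748269285466007259222237852330042517040445379321652655863935630688817116938065941449405981641063578903840207400466821480499491852603381000080173571376828537702815977442810661826491450205929090689615403971411655755135841015547776306681711998577770086419654650942030191222124574404847443295378991139741594564569183830945418087407588348594977187215814943020429536732027769880759964280235969056588903531217963570736283517380235135704488674339432236197755575610015688429059940513493369775558226485324661388414848109443094024107836212910718424760999435620252796893144822666156936704324601820248749047762658698371943476148424820966228634523899086487741982134032833282125558477800348019444509285083681734300228979908621717509768239876777874607688080216551202954923226848218645136017728542675733314352677263509751013882251120828770625207166335133117718408058708618125671943905459830784)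

end Vale.Agent.Lib.P154.PChain.BH.S1
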