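import Vale.Agent.Lib.P154.PChain.BH.R1_0

set_option linter.all false

namespace Vale.Agent.Lib.P154.PChain.BH.S2

open Vale.Agent.Lib.P154.Chain

noncomputable def pc0 : PT := (PT.nd (nat_lit 5966142) (PT.nd (nat_lit 5731908) (PT.nd (nat_lit 5591430) (PT.nd (nat_lit 5544552) (PT.nd (nat_lit 5497752) (PT.nd (nat_lit 5497674) PT.nil (PT.lf (nat_lit 76) (nat_lit 6) (nat_lit 1) (nat_lit 3) (nat_lit 166) (nat_lit 117) (nat_lit 167))) (PT.nd (nat_lit 46722) (PT.lf (nat_lit 76) (nat_lit 6) (nat_lit 1) (nat_lit 1) (nat_lit 167) (nat_lit 117) (nat_lit 166)) (PT.lf (nat_lit 152) (nat_lit 6) (nat_lit 2) (nat_lit 3) (nat_lit 165) (nat_lit 118) (nat_lit 167)))) (PT.nd (nat_lit 78) (PT.lf (nat_lit 228) (nat_lit 3) (nat_lit 3) (nat_lit 1) (nat_lit 166) (nat_lit 118) (nat_lit 166)) (PT.nd (nat_lit 46722) (PT.lf (nat_lit 152) (nat_lit 6) (nat_lit 2) (nat_lit 1) (nat_lit 167) (nat_lit 118) (nat_lit 165))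 (PT.lf (nat_lit 304) (nat_lit 6) (nat_lit 4) (nat_lit 3) (nat_lit 165) (nat_lit 119) (nat_lit 166))))) (PT.nd (nat_lit 46878) (PT.nd (nat_lit 46722) (PT.lf (nat_lit 304) (nat_lit 6) (nat_lit 4) (nat_lit 1) (nat_lit 166) (nat_lit 119) (nat_lit 165)) (PT.nd (nat_lit 78) (PT.lf (nat_lit 380) (nat_lit 6) (nat_lit 5) (nat_lit 3) (nat_lit 164) (nat_lit 120) (nat_lit 166)) (PT.lf (nat_lit 456) (nat_lit 3) (nat_lit 6) (nat_lit 1) (nat_lit 165) (nat_lit 120) (nat_lit 165)))) (PT.nd (nat_lit 46800) (PT.nd (nat_lit 46722) (PT.lf (nat_lit 380) (nat_lit 6) (nat_lit 5) (nat_lit 1) (nat_lit 166) (nat_lit 120) (nat_lit 164)) (PT.lf (nat_lit 532) (nat_lit 6) (nat_lit 7) (nat_lit 3) (nat_lit 164) (nat_lit 121) (nat_lit 165))) (PT.nd (nat_lit 46722) (PT.lf (nat_lit 532) (nat_lit 6) (nat_lit 7) (nat_lit 1) (nat_lit 165) (nat_lit 121) (nat_lit 164)) (PT.lf (nat_lit 608) (nat_lit 6) (nat_lit 8) (nat_lit 3)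 (nat_lit 163) (nat_lit 122) (nat_lit 165)))))) (PT.nd (nat_lit 93756) (PT.nd (nat_lit 46878) (PT.nd (nat_lit 78) (PT.lf (nat_lit 684) (nat_lit 3) (nat_lit 9) (nat_lit 1) (nat_lit 164) (nat_lit 122) (nat_lit 164)) (PT.nd (nat_lit 46722) (PT.lf (nat_lit 608) (nat_lit 6) (nat_lit 8) (nat_lit 1) (nat_lit 165) (nat_lit 122) (nat_lit 163)) (PT.lf (nat_lit 760) (nat_lit 6) (nat_lit 10) (nat_lit 3) (nat_lit 163) (nat_lit 123) (nat_lit 164)))) (PT.nd (nat_lit 46722) (PT.lf (nat_lit 760) (nat_lit 6) (nat_lit 10) (nat_lit 1) (nat_lit 164) (nat_lit 123) (nat_lit 163)) (PT.nd (nat_lit 78) (PT.lf (nat_lit 836) (nat_lit 6) (nat_lit 11) (nat_lit 3) (nat_lit 162) (nat_lit 124) (nat_lit 164)) (PT.lf (nat_lit 912) (nat_lit 3) (nat_lit 12) (nat_lit 1) (nat_lit 163) (nat_lit 124) (nat_lit 163))))) (PT.nd (nat_lit 93522) (PT.nd (nat_lit 46722) (PT.lf (nat_lit 836) (nat_lit 6) (nat_lit 11) (nat_lit 1) (nat_lit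 164) (nat_lit 124) (nat_lit 162)) (PT.nd (nat_lit 78) (PT.lf (nat_lit 988) (nat_lit 6) (nat_lit 13) (nat_lit 3) (nat_lit 162) (nat_lit 125) (nat_lit 163)) (PT.lf (nat_lit 988) (nat_lit 6) (nat_lit 13) (nat_lit 1) (nat_lit 163) (nat_lit 125) (nat_lit 162)))) (PT.nd (nat_lit 156) (PT.nd (nat_lit 78) (PT.lf (nat_lit 1064) (nat_lit 6) (nat_lit 14) (nat_lit 3) (nat_lit 161) (nat_lit 126) (nat_lit 163)) (PT.lf (nat_lit 1140) (nat_lit 3) (nat_lit 15) (nat_lit 1) (nat_lit 162) (nat_lit 126) (nat_lit 162))) (PT.nd (nat_lit 46722) (PT.lf (nat_lit 1064) (nat_lit 6) (nat_lit 14) (nat_lit 1) (nat_lit 163) (nat_lit 126) (nat_lit 161)) (PT.lf (nat_lit 1216) (nat_lit 6) (nat_lit 16) (nat_lit 3) (nat_lit 161) (nat_lit 127) (nat_lit 162))))))) (PT.nd (nat_lit 234078) (PT.nd (nat_lit 140400) (PT.nd (nat_lit 46878) (PT.nd (nat_lit 46722) (PT.lf (nat_lit 1216) (nat_lit 6) (nat_lit 16) (nat_lit 1) (nat_lit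 162) (nat_lit 127) (nat_lit 161)) (PT.nd (nat_lit 78) (PT.lf (nat_lit 1292) (nat_lit 6) (nat_lit 17) (nat_lit 3) (nat_lit 160) (nat_lit 128) (nat_lit 162)) (PT.lf (nat_lit 1368) (nat_lit 3) (nat_lit 18) (nat_lit 1) (nat_lit 161) (nat_lit 128) (nat_lit 161)))) (PT.nd (nat_lit 46722) (PT.lf (nat_lit 1292) (nat_lit 6) (nat_lit 17) (nat_lit 1) (nat_lit 162) (nat_lit 128) (nat_lit 160)) (PT.nd (nat_lit 78) (PT.lf (nat_lit 1444) (nat_lit 6) (nat_lit 19) (nat_lit 3) (nat_lit 160) (nat_lit 129) (nat_lit 161)) (PT.lf (nat_lit 1444) (nat_lit 6) (nat_lit 19) (nat_lit 1) (nat_lit 161) (nat_lit 129) (nat_lit 160))))) (PT.nd (nat_lit 46800) (PT.nd (nat_lit 78) (PT.lf (nat_lit 1520) (nat_lit 6) (nat_lit 20) (nat_lit 3) (nat_lit 159) (nat_lit 130) (nat_lit 161)) (PT.nd (nat_lit 78) (PT.lf (nat_lit 1596) (nat_lit 3) (nat_lit 21) (nat_lit 1) (nat_lit 160) (nat_lit 130) (nat_lit 160)) (PT.lf (nat_lit 1520)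 (nat_lit 6) (nat_lit 20) (nat_lit 1) (nat_lit 161) (nat_lit 130) (nat_lit 159)))) (PT.nd (nat_lit 156) (PT.nd (nat_lit 78) (PT.lf (nat_lit 1672) (nat_lit 6) (nat_lit 22) (nat_lit 3) (nat_lit 158) (nat_lit 131) (nat_lit 161)) (PT.lf (nat_lit 1748) (nat_lit 6) (nat_lit 23) (nat_lit 3) (nat_lit 159) (nat_lit 131) (nat_lit 160))) (PT.nd (nat_lit 78) (PT.lf (nat_lit 1748) (nat_lit 6) (nat_lit 23) (nat_lit 1) (nat_lit 160) (nat_lit 131) (nat_lit 159)) (PT.lf (nat_lit 1672) (nat_lit 6) (nat_lit 22) (nat_lit 1) (nat_lit 161) (nat_lit 131) (nat_lit 158)))))) (PT.nd (nat_lit 93678) (PT.nd (nat_lit 46800) (PT.nd (nat_lit 78) (PT.lf (nat_lit 1824) (nat_lit 6) (nat_lit 24) (nat_lit 3) (nat_lit 158) (nat_lit 132) (nat_lit 160)) (PT.nd (nat_lit 78) (PT.lf (nat_lit 1900) (nat_lit 3) (nat_lit 25) (nat_lit 1) (nat_lit 159) (nat_lit 132) (nat_lit 159)) (PT.lf (nat_lit 1824) (nat_lit 6) (nat_lit 24) (nat_lit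 1) (nat_lit 160) (nat_lit 132) (nat_lit 158)))) (PT.nd (nat_lit 156) (PT.nd (nat_lit 78) (PT.lf (nat_lit 1976) (nat_lit 6) (nat_lit 26) (nat_lit 3) (nat_lit 157) (nat_lit 133) (nat_lit 160)) (PT.lf (nat_lit 2052) (nat_lit 6) (nat_lit 27) (nat_lit 3) (nat_lit 158) (nat_lit 133) (nat_lit 159))) (PT.nd (nat_lit 78) (PT.lf (nat_lit 2052) (nat_lit 6) (nat_lit 27) (nat_lit 1) (nat_lit 159) (nat_lit 133) (nat_lit 158)) (PT.lf (nat_lit 1976) (nat_lit 6) (nat_lit 26) (nat_lit 1) (nat_lit 160) (nat_lit 133) (nat_lit 157))))) (PT.nd (nat_lit 46800) (PT.nd (nat_lit 78) (PT.lf (nat_lit 2128) (nat_lit 6) (nat_lit 28) (nat_lit 3) (nat_lit 157) (nat_lit 134) (nat_lit 159)) (PT.nd (nat_lit 78) (PT.lf (nat_lit 2204) (nat_lit 3) (nat_lit 29) (nat_lit 1) (nat_lit 158) (nat_lit 134) (nat_lit 158)) (PT.lf (nat_lit 2128) (nat_lit 6) (nat_lit 28) (nat_lit 1) (nat_lit 159) (nat_lit 134) (nat_lit 157)))) (PT.nd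 (nat_lit 156) (PT.nd (nat_lit 78) (PT.lf (nat_lit 2280) (nat_lit 6) (nat_lit 30) (nat_lit 3) (nat_lit 156) (nat_lit 135) (nat_lit 159)) (PT.lf (nat_lit 2356) (nat_lit 6) (nat_lit 31) (nat_lit 3) (nat_lit 157) (nat_lit 135) (nat_lit 158))) (PT.nd (nat_lit 78) (PT.lf (nat_lit 2356) (nat_lit 6) (nat_lit 31) (nat_lit 1) (nat_lit 158) (nat_lit 135) (nat_lit 157)) (PT.lf (nat_lit 2280) (nat_lit 6) (nat_lit 30) (nat_lit 1) (nat_lit 159) (nat_lit 135) (nat_lit 156))))))))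
noncomputable def pc1 : PT := (PT.nd (nat_lit 234312) (PT.nd (nat_lit 93990) (PT.nd (nat_lit 46956) (PT.nd (nat_lit 234) (PT.nd (nat_lit 78) (PT.lf (nat_lit 2432) (nat_lit 6) (nat_lit 32) (nat_lit 3) (nat_lit 155) (nat_lit 136) (nat_lit 159)) (PT.nd (nat_lit 78) (PT.lf (nat_lit 2508) (nat_lit 6) (nat_lit 33) (nat_lit 3) (nat_lit 156) (nat_lit 136) (nat_lit 158)) (PT.lf (nat_lit 2584) (nat_lit 3) (nat_lit 34) (nat_lit 1) (nat_lit 157) (nat_lit 136) (nat_lit 157)))) (PT.nd (nat_lit 78) (PT.lf (nat_lit 2508) (nat_lit 6) (nat_lit 33) (nat_lit 1) (nat_lit 158) (nat_lit 136) (nat_lit 156)) (PT.nd (nat_lit 46566) (PT.lf (nat_lit 2432) (nat_lit 6) (nat_lit 32) (nat_lit 1) (nat_lit 159) (nat_lit 136) (nat_lit 155)) (PT.lf (nat_lit 2660) (nat_lit 6) (nat_lit 35) (nat_lit 3) (nat_lit 155) (nat_lit 137) (nat_lit 158))))) (PT.nd (nat_lit 46722) (PT.nd (nat_lit 78) (PT.lf (nat_lit 2736) (nat_lit 6)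 (nat_lit 36) (nat_lit 3) (nat_lit 156) (nat_lit 137) (nat_lit 157)) (PT.nd (nat_lit 78) (PT.lf (nat_lit 2736) (nat_lit 6) (nat_lit 36) (nat_lit 1) (nat_lit 157) (nat_lit 137) (nat_lit 156)) (PT.lf (nat_lit 2660) (nat_lit 6) (nat_lit 35) (nat_lit 1) (nat_lit 158) (nat_lit 137) (nat_lit 155)))) (PT.nd (nat_lit 156) (PT.nd (nat_lit 78) (PT.lf (nat_lit 2812) (nat_lit 6) (nat_lit 37) (nat_lit 3) (nat_lit 154) (nat_lit 138) (nat_lit 158)) (PT.lf (nat_lit 2888) (nat_lit 6) (nat_lit 38) (nat_lit 3) (nat_lit 155) (nat_lit 138) (nat_lit 157))) (PT.nd (nat_lit 78) (PT.lf (nat_lit 2964) (nat_lit 3) (nat_lit 39) (nat_lit 1) (nat_lit 156) (nat_lit 138) (nat_lit 156)) (PT.lf (nat_lit 2888) (nat_lit 6) (nat_lit 38) (nat_lit 1) (nat_lit 157) (nat_lit 138) (nat_lit 155)))))) (PT.nd (nat_lit 93366) (PT.nd (nat_lit 46644) (PT.nd (nat_lit 46488) (PT.lf (nat_lit 2812) (nat_lit 6) (nat_lit 37) (nat_lit 1) (nat_lit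 158) (nat_lit 138) (nat_lit 154)) (PT.nd (nat_lit 78) (PT.lf (nat_lit 3040) (nat_lit 6) (nat_lit 40) (nat_lit 3) (nat_lit 153) (nat_lit 139) (nat_lit 158)) (PT.lf (nat_lit 3116) (nat_lit 6) (nat_lit 41) (nat_lit 3) (nat_lit 154) (nat_lit 139) (nat_lit 157)))) (PT.nd (nat_lit 156) (PT.nd (nat_lit 78) (PT.lf (nat_lit 3192) (nat_lit 6) (nat_lit 42) (nat_lit 3) (nat_lit 155) (nat_lit 139) (nat_lit 156)) (PT.lf (nat_lit 3192) (nat_lit 6) (nat_lit 42) (nat_lit 1) (nat_lit 156) (nat_lit 139) (nat_lit 155))) (PT.nd (nat_lit 78) (PT.lf (nat_lit 3116) (nat_lit 6) (nat_lit 41) (nat_lit 1) (nat_lit 157) (nat_lit 139) (nat_lit 154)) (PT.lf (nat_lit 3040) (nat_lit 6) (nat_lit 40) (nat_lit 1) (nat_lit 158) (nat_lit 139) (nat_lit 153))))) (PT.nd (nat_lit 234) (PT.nd (nat_lit 78) (PT.lf (nat_lit 3268) (nat_lit 6) (nat_lit 43) (nat_lit 3) (nat_lit 153) (nat_lit 140) (nat_lit 157)) (PT.nd (nat_lit 78) (PT.lf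 (nat_lit 3344) (nat_lit 6) (nat_lit 44) (nat_lit 3) (nat_lit 154) (nat_lit 140) (nat_lit 156)) (PT.lf (nat_lit 3420) (nat_lit 3) (nat_lit 45) (nat_lit 1) (nat_lit 155) (nat_lit 140) (nat_lit 155)))) (PT.nd (nat_lit 46566) (PT.nd (nat_lit 78) (PT.lf (nat_lit 3344) (nat_lit 6) (nat_lit 44) (nat_lit 1) (nat_lit 156) (nat_lit 140) (nat_lit 154)) (PT.lf (nat_lit 3268) (nat_lit 6) (nat_lit 43) (nat_lit 1) (nat_lit 157) (nat_lit 140) (nat_lit 153))) (PT.nd (nat_lit 78) (PT.lf (nat_lit 3496) (nat_lit 6) (nat_lit 46) (nat_lit 3) (nat_lit 152) (nat_lit 141) (nat_lit 157)) (PT.lf (nat_lit 3572) (nat_lit 6) (nat_lit 47) (nat_lit 3) (nat_lit 153) (nat_lit 141) (nat_lit 156))))))) (PT.nd (nat_lit 93600) (PT.nd (nat_lit 46800) (PT.nd (nat_lit 234) (PT.nd (nat_lit 78) (PT.lf (nat_lit 3648) (nat_lit 6) (nat_lit 48) (nat_lit 3) (nat_lit 154) (nat_lit 141) (nat_lit 155)) (PT.nd (nat_lit 78) (PT.lf (nat_lit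 3648) (nat_lit 6) (nat_lit 48) (nat_lit 1) (nat_lit 155) (nat_lit 141) (nat_lit 154)) (PT.lf (nat_lit 3572) (nat_lit 6) (nat_lit 47) (nat_lit 1) (nat_lit 156) (nat_lit 141) (nat_lit 153)))) (PT.nd (nat_lit 46410) (PT.lf (nat_lit 3496) (nat_lit 6) (nat_lit 46) (nat_lit 1) (nat_lit 157) (nat_lit 141) (nat_lit 152)) (PT.nd (nat_lit 78) (PT.lf (nat_lit 3724) (nat_lit 6) (nat_lit 49) (nat_lit 3) (nat_lit 151) (nat_lit 142) (nat_lit 157)) (PT.lf (nat_lit 3800) (nat_lit 6) (nat_lit 50) (nat_lit 3) (nat_lit 152) (nat_lit 142) (nat_lit 156))))) (PT.nd (nat_lit 234) (PT.nd (nat_lit 78) (PT.lf (nat_lit 3876) (nat_lit 6) (nat_lit 51) (nat_lit 3) (nat_lit 153) (nat_lit 142) (nat_lit 155)) (PT.nd (nat_lit 78) (PT.lf (nat_lit 3952) (nat_lit 3) (nat_lit 52) (nat_lit 1) (nat_lit 154) (nat_lit 142) (nat_lit 154)) (PT.lf (nat_lit 3876) (nat_lit 6) (nat_lit 51) (nat_lit 1) (nat_lit 155) (nat_lit 142) (nat_lit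 153)))) (PT.nd (nat_lit 46410) (PT.nd (nat_lit 78) (PT.lf (nat_lit 3800) (nat_lit 6) (nat_lit 50) (nat_lit 1) (nat_lit 156) (nat_lit 142) (nat_lit 152)) (PT.lf (nat_lit 3724) (nat_lit 6) (nat_lit 49) (nat_lit 1) (nat_lit 157) (nat_lit 142) (nat_lit 151))) (PT.nd (nat_lit 78) (PT.lf (nat_lit 4104) (nat_lit 6) (nat_lit 54) (nat_lit 3) (nat_lit 150) (nat_lit 143) (nat_lit 157)) (PT.lf (nat_lit 4180) (nat_lit 6) (nat_lit 55) (nat_lit 3) (nat_lit 151) (nat_lit 143) (nat_lit 156)))))) (PT.nd (nat_lit 46722) (PT.nd (nat_lit 234) (PT.nd (nat_lit 78) (PT.lf (nat_lit 4256) (nat_lit 6) (nat_lit 56) (nat_lit 3) (nat_lit 152) (nat_lit 143) (nat_lit 155)) (PT.nd (nat_lit 78) (PT.lf (nat_lit 4332) (nat_lit 6) (nat_lit 57) (nat_lit 3) (nat_lit 153) (nat_lit 143) (nat_lit 154)) (PT.lf (nat_lit 4332) (nat_lit 6) (nat_lit 57) (nat_lit 1) (nat_lit 154) (nat_lit 143) (nat_lit 153)))) (PT.nd (nat_lit 156)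 (PT.nd (nat_lit 78) (PT.lf (nat_lit 4256) (nat_lit 6) (nat_lit 56) (nat_lit 1) (nat_lit 155) (nat_lit 143) (nat_lit 152)) (PT.lf (nat_lit 4180) (nat_lit 6) (nat_lit 55) (nat_lit 1) (nat_lit 156) (nat_lit 143) (nat_lit 151))) (PT.nd (nat_lit 46254) (PT.lf (nat_lit 4104) (nat_lit 6) (nat_lit 54) (nat_lit 1) (nat_lit 157) (nat_lit 143) (nat_lit 150)) (PT.lf (nat_lit 4028) (nat_lit 6) (nat_lit 53) (nat_lit 3) (nat_lit 149) (nat_lit 144) (nat_lit 157))))) (PT.nd (nat_lit 234) (PT.nd (nat_lit 78) (PT.lf (nat_lit 4636) (nat_lit 6) (nat_lit 61) (nat_lit 3) (nat_lit 150) (nat_lit 144) (nat_lit 156)) (PT.nd (nat_lit 78) (PT.lf (nat_lit 4712) (nat_lit 6) (nat_lit 62) (nat_lit 3) (nat_lit 151) (nat_lit 144) (nat_lit 155)) (PT.lf (nat_lit 4788) (nat_lit 6) (nat_lit 63) (nat_lit 3) (nat_lit 152) (nat_lit 144) (nat_lit 154)))) (PT.nd (nat_lit 156) (PT.nd (nat_lit 78) (PT.lf (nat_lit 4864) (nat_lit 3)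 (nat_lit 64) (nat_lit 1) (nat_lit 153) (nat_lit 144) (nat_lit 153)) (PT.lf (nat_lit 4788) (nat_lit 6) (nat_lit 63) (nat_lit 1) (nat_lit 154) (nat_lit 144) (nat_lit 152))) (PT.nd (nat_lit 78) (PT.lf (nat_lit 4712) (nat_lit 6) (nat_lit 62) (nat_lit 1) (nat_lit 155) (nat_lit 144) (nat_lit 151)) (PT.lf (nat_lit 4636) (nat_lit 6) (nat_lit 61) (nat_lit 1) (nat_lit 156) (nat_lit 144) (nat_lit 150))))))))
noncomputable def pc2 : PT := (PT.nd (nat_lit 140556) (PT.nd (nat_lit 93366) (PT.nd (nat_lit 46644) (PT.nd (nat_lit 46410) (PT.nd (nat_lit 46254) (PT.lf (nat_lit 4028) (nat_lit 6) (nat_lit 53) (nat_lit 1) (nat_lit 157) (nat_lit 144) (nat_lit 149)) (PT.nd (nat_lit 78) (PT.lf (nat_lit 4560) (nat_lit 6) (nat_lit 60) (nat_lit 3) (nat_lit 149) (nat_lit 145) (nat_lit 156)) (PT.lf (nat_lit 5092) (nat_lit 6) (nat_lit 67) (nat_lit 3) (nat_lit 150) (nat_lit 145) (nat_lit 155)))) (PT.nd (nat_lit 78) (PT.lf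 (nat_lit 5168) (nat_lit 6) (nat_lit 68) (nat_lit 3) (nat_lit 151) (nat_lit 145) (nat_lit 154)) (PT.nd (nat_lit 78) (PT.lf (nat_lit 5244) (nat_lit 6) (nat_lit 69) (nat_lit 3) (nat_lit 152) (nat_lit 145) (nat_lit 153)) (PT.lf (nat_lit 5244) (nat_lit 6) (nat_lit 69) (nat_lit 1) (nat_lit 153) (nat_lit 145) (nat_lit 152))))) (PT.nd (nat_lit 46410) (PT.nd (nat_lit 78) (PT.lf (nat_lit 5168) (nat_lit 6) (nat_lit 68) (nat_lit 1) (nat_lit 154) (nat_lit 145) (nat_lit 151)) (PT.nd (nat_lit 78) (PT.lf (nat_lit 5092) (nat_lit 6) (nat_lit 67) (nat_lit 1) (nat_lit 155) (nat_lit 145) (nat_lit 150)) (PT.lf (nat_lit 4560) (nat_lit 6) (nat_lit 60) (nat_lit 1) (nat_lit 156) (nat_lit 145) (nat_lit 149)))) (PT.nd (nat_lit 156) (PT.nd (nat_lit 78) (PT.lf (nat_lit 4484) (nat_lit 6) (nat_lit 59) (nat_lit 3) (nat_lit 148) (nat_lit 146) (nat_lit 156)) (PT.lf (nat_lit 5016) (nat_lit 6) (nat_lit 66) (nat_lit 3) (nat_lit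 149) (nat_lit 146) (nat_lit 155))) (PT.nd (nat_lit 78) (PT.lf (nat_lit 5472) (nat_lit 6) (nat_lit 72) (nat_lit 3) (nat_lit 150) (nat_lit 146) (nat_lit 154)) (PT.lf (nat_lit 5548) (nat_lit 6) (nat_lit 73) (nat_lit 3) (nat_lit 151) (nat_lit 146) (nat_lit 153)))))) (PT.nd (nat_lit 46644) (PT.nd (nat_lit 234) (PT.nd (nat_lit 78) (PT.lf (nat_lit 5624) (nat_lit 3) (nat_lit 74) (nat_lit 1) (nat_lit 152) (nat_lit 146) (nat_lit 152)) (PT.nd (nat_lit 78) (PT.lf (nat_lit 5548) (nat_lit 6) (nat_lit 73) (nat_lit 1) (nat_lit 153) (nat_lit 146) (nat_lit 151)) (PT.lf (nat_lit 5472) (nat_lit 6) (nat_lit 72) (nat_lit 1) (nat_lit 154) (nat_lit 146) (nat_lit 150)))) (PT.nd (nat_lit 46254) (PT.nd (nat_lit 78) (PT.lf (nat_lit 5016) (nat_lit 6) (nat_lit 66) (nat_lit 1) (nat_lit 155) (nat_lit 146) (nat_lit 149)) (PT.lf (nat_lit 4484) (nat_lit 6) (nat_lit 59) (nat_lit 1) (nat_lit 156) (nat_lit 146) (nat_lit 148)))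 (PT.nd (nat_lit 78) (PT.lf (nat_lit 4408) (nat_lit 3) (nat_lit 58) (nat_lit 3) (nat_lit 147) (nat_lit 147) (nat_lit 156)) (PT.lf (nat_lit 4940) (nat_lit 6) (nat_lit 65) (nat_lit 3) (nat_lit 148) (nat_lit 147) (nat_lit 155))))) (PT.nd (nat_lit 234) (PT.nd (nat_lit 78) (PT.lf (nat_lit 5396) (nat_lit 6) (nat_lit 71) (nat_lit 3) (nat_lit 149) (nat_lit 147) (nat_lit 154)) (PT.nd (nat_lit 78) (PT.lf (nat_lit 5776) (nat_lit 6) (nat_lit 76) (nat_lit 3) (nat_lit 150) (nat_lit 147) (nat_lit 153)) (PT.lf (nat_lit 5852) (nat_lit 6) (nat_lit 77) (nat_lit 3) (nat_lit 151) (nat_lit 147) (nat_lit 152)))) (PT.nd (nat_lit 156) (PT.nd (nat_lit 78) (PT.lf (nat_lit 5852) (nat_lit 6) (nat_lit 77) (nat_lit 1) (nat_lit 152) (nat_lit 147) (nat_lit 151)) (PT.lf (nat_lit 5776) (nat_lit 6) (nat_lit 76) (nat_lit 1) (nat_lit 153) (nat_lit 147) (nat_lit 150))) (PT.nd (nat_lit 78) (PT.lf (nat_lit 5396) (nat_lit 6) (nat_lit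 71) (nat_lit 1) (nat_lit 154) (nat_lit 147) (nat_lit 149)) (PT.lf (nat_lit 4940) (nat_lit 6) (nat_lit 65) (nat_lit 1) (nat_lit 155) (nat_lit 147) (nat_lit 148))))))) (PT.nd (nat_lit 92898) (PT.nd (nat_lit 46488) (PT.nd (nat_lit 46254) (PT.nd (nat_lit 46098) (PT.lf (nat_lit 4408) (nat_lit 3) (nat_lit 58) (nat_lit 0) (nat_lit 156) (nat_lit 147) (nat_lit 147)) (PT.nd (nat_lit 78) (PT.lf (nat_lit 4484) (nat_lit 6) (nat_lit 59) (nat_lit 5) (nat_lit 146) (nat_lit 148) (nat_lit 156)) (PT.lf (nat_lit 4940) (nat_lit 6) (nat_lit 65) (nat_lit 5) (nat_lit 147) (nat_lit 148) (nat_lit 155)))) (PT.nd (nat_lit 78) (PT.lf (nat_lit 5320) (nat_lit 3) (nat_lit 70) (nat_lit 3) (nat_lit 148) (nat_lit 148) (nat_lit 154)) (PT.nd (nat_lit 78) (PT.lf (nat_lit 5700) (nat_lit 6) (nat_lit 75) (nat_lit 3) (nat_lit 149) (nat_lit 148) (nat_lit 153)) (PT.lf (nat_lit 6004) (nat_lit 6) (nat_lit 79) (nat_lit 3) (nat_lit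 150) (nat_lit 148) (nat_lit 152))))) (PT.nd (nat_lit 234) (PT.nd (nat_lit 78) (PT.lf (nat_lit 6080) (nat_lit 3) (nat_lit 80) (nat_lit 1) (nat_lit 151) (nat_lit 148) (nat_lit 151)) (PT.nd (nat_lit 78) (PT.lf (nat_lit 6004) (nat_lit 6) (nat_lit 79) (nat_lit 1) (nat_lit 152) (nat_lit 148) (nat_lit 150)) (PT.lf (nat_lit 5700) (nat_lit 6) (nat_lit 75) (nat_lit 1) (nat_lit 153) (nat_lit 148) (nat_lit 149)))) (PT.nd (nat_lit 156) (PT.nd (nat_lit 78) (PT.lf (nat_lit 5320) (nat_lit 3) (nat_lit 70) (nat_lit 0) (nat_lit 154) (nat_lit 148) (nat_lit 148)) (PT.lf (nat_lit 4940) (nat_lit 6) (nat_lit 65) (nat_lit 0) (nat_lit 155) (nat_lit 148) (nat_lit 147))) (PT.nd (nat_lit 45942) (PT.lf (nat_lit 4484) (nat_lit 6) (nat_lit 59) (nat_lit 0) (nat_lit 156) (nat_lit 148) (nat_lit 146)) (PT.lf (nat_lit 4028) (nat_lit 6) (nat_lit 53) (nat_lit 5) (nat_lit 144) (nat_lit 149) (nat_lit 157)))))) (PT.nd (nat_lit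 546) (PT.nd (nat_lit 234) (PT.nd (nat_lit 78) (PT.lf (nat_lit 4560) (nat_lit 6) (nat_lit 60) (nat_lit 5) (nat_lit 145) (nat_lit 149) (nat_lit 156)) (PT.nd (nat_lit 78) (PT.lf (nat_lit 5016) (nat_lit 6) (nat_lit 66) (nat_lit 5) (nat_lit 146) (nat_lit 149) (nat_lit 155)) (PT.lf (nat_lit 5396) (nat_lit 6) (nat_lit 71) (nat_lit 5) (nat_lit 147) (nat_lit 149) (nat_lit 154)))) (PT.nd (nat_lit 156) (PT.nd (nat_lit 78) (PT.lf (nat_lit 5700) (nat_lit 6) (nat_lit 75) (nat_lit 5) (nat_lit 148) (nat_lit 149) (nat_lit 153)) (PT.lf (nat_lit 5928) (nat_lit 3) (nat_lit 78) (nat_lit 3) (nat_lit 149) (nat_lit 149) (nat_lit 152))) (PT.nd (nat_lit 78) (PT.lf (nat_lit 6156) (nat_lit 6) (nat_lit 81) (nat_lit 3) (nat_lit 150) (nat_lit 149) (nat_lit 151)) (PT.lf (nat_lit 6156) (nat_lit 6) (nat_lit 81) (nat_lit 1) (nat_lit 151) (nat_lit 149) (nat_lit 150))))) (PT.nd (nat_lit 234) (PT.nd (nat_lit 78) (PT.lf (nat_lit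 5928) (nat_lit 3) (nat_lit 78) (nat_lit 0) (nat_lit 152) (nat_lit 149) (nat_lit 149)) (PT.nd (nat_lit 78) (PT.lf (nat_lit 5700) (nat_lit 6) (nat_lit 75) (nat_lit 0) (nat_lit 153) (nat_lit 149) (nat_lit 148)) (PT.lf (nat_lit 5396) (nat_lit 6) (nat_lit 71) (nat_lit 0) (nat_lit 154) (nat_lit 149) (nat_lit 147)))) (PT.nd (nat_lit 156) (PT.nd (nat_lit 78) (PT.lf (nat_lit 5016) (nat_lit 6) (nat_lit 66) (nat_lit 0) (nat_lit 155) (nat_lit 149) (nat_lit 146)) (PT.lf (nat_lit 4560) (nat_lit 6) (nat_lit 60) (nat_lit 0) (nat_lit 156) (nat_lit 149) (nat_lit 145))) (PT.nd (nat_lit 45786) (PT.lf (nat_lit 4028) (nat_lit 6) (nat_lit 53) (nat_lit 0) (nat_lit 157) (nat_lit 149) (nat_lit 144)) (PT.lf (nat_lit 4104) (nat_lit 6) (nat_lit 54) (nat_lit 5) (nat_lit 143) (nat_lit 150) (nat_lit 157))))))))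
noncomputable def pc3 : PT := (PT.nd (nat_lit 47736) (PT.nd (nat_lit 1014) (PT.nd (nat_lit 468) (PT.nd (nat_lit 234) (PT.nd (nat_lit 78) (PT.lf (nat_lit 4636) (nat_lit 6) (nat_lit 61) (nat_lit 5) (nat_lit 144) (nat_lit 150) (nat_lit 156)) (PT.nd (nat_lit 78) (PT.lf (nat_lit 5092) (nat_lit 6) (nat_lit 67) (nat_lit 5) (nat_lit 145) (nat_lit 150) (nat_lit 155)) (PT.lf (nat_lit 5472) (nat_lit 6) (nat_lit 72) (nat_lit 5) (nat_lit 146) (nat_lit 150) (nat_lit 154)))) (PT.nd (nat_lit 78) (PT.lf (nat_lit 5776) (nat_lit 6) (nat_lit 76) (nat_lit 5) (nat_lit 147) (nat_lit 150) (nat_lit 153)) (PT.nd (nat_lit 78) (PT.lf (nat_lit 6004) (nat_lit 6) (nat_lit 79) (nat_lit 5) (nat_lit 148) (nat_lit 150) (nat_lit 152)) (PT.lf (nat_lit 6156) (nat_lit 6) (nat_lit 81) (nat_lit 5) (nat_lit 149) (nat_lit 150) (nat_lit 151))))) (PT.nd (nat_lit 234) (PT.nd (nat_lit 78) (PT.lf (nat_lit 6232) (nat_lit 1) (nat_lit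 82) (nat_lit 0) (nat_lit 150) (nat_lit 150) (nat_lit 150)) (PT.nd (nat_lit 78) (PT.lf (nat_lit 6156) (nat_lit 6) (nat_lit 81) (nat_lit 0) (nat_lit 151) (nat_lit 150) (nat_lit 149)) (PT.lf (nat_lit 6004) (nat_lit 6) (nat_lit 79) (nat_lit 0) (nat_lit 152) (nat_lit 150) (nat_lit 148)))) (PT.nd (nat_lit 156) (PT.nd (nat_lit 78) (PT.lf (nat_lit 5776) (nat_lit 6) (nat_lit 76) (nat_lit 0) (nat_lit 153) (nat_lit 150) (nat_lit 147)) (PT.lf (nat_lit 5472) (nat_lit 6) (nat_lit 72) (nat_lit 0) (nat_lit 154) (nat_lit 150) (nat_lit 146))) (PT.nd (nat_lit 78) (PT.lf (nat_lit 5092) (nat_lit 6) (nat_lit 67) (nat_lit 0) (nat_lit 155) (nat_lit 150) (nat_lit 145)) (PT.lf (nat_lit 4636) (nat_lit 6) (nat_lit 61) (nat_lit 0) (nat_lit 156) (nat_lit 150) (nat_lit 144)))))) (PT.nd (nat_lit 46176) (PT.nd (nat_lit 45864) (PT.nd (nat_lit 45708) (PT.lf (nat_lit 4104) (nat_lit 6) (nat_lit 54) (nat_lit 0) (nat_lit 157)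 (nat_lit 150) (nat_lit 143)) (PT.nd (nat_lit 78) (PT.lf (nat_lit 3724) (nat_lit 6) (nat_lit 49) (nat_lit 5) (nat_lit 142) (nat_lit 151) (nat_lit 157)) (PT.lf (nat_lit 4180) (nat_lit 6) (nat_lit 55) (nat_lit 5) (nat_lit 143) (nat_lit 151) (nat_lit 156)))) (PT.nd (nat_lit 156) (PT.nd (nat_lit 78) (PT.lf (nat_lit 4712) (nat_lit 6) (nat_lit 62) (nat_lit 5) (nat_lit 144) (nat_lit 151) (nat_lit 155)) (PT.lf (nat_lit 5168) (nat_lit 6) (nat_lit 68) (nat_lit 5) (nat_lit 145) (nat_lit 151) (nat_lit 154))) (PT.nd (nat_lit 78) (PT.lf (nat_lit 5548) (nat_lit 6) (nat_lit 73) (nat_lit 5) (nat_lit 146) (nat_lit 151) (nat_lit 153)) (PT.lf (nat_lit 5852) (nat_lit 6) (nat_lit 77) (nat_lit 5) (nat_lit 147) (nat_lit 151) (nat_lit 152))))) (PT.nd (nat_lit 234) (PT.nd (nat_lit 78) (PT.lf (nat_lit 6080) (nat_lit 3) (nat_lit 80) (nat_lit 4) (nat_lit 148) (nat_lit 151) (nat_lit 151)) (PT.nd (nat_lit 78) (PT.lf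 (nat_lit 6156) (nat_lit 6) (nat_lit 81) (nat_lit 4) (nat_lit 149) (nat_lit 151) (nat_lit 150)) (PT.lf (nat_lit 6156) (nat_lit 6) (nat_lit 81) (nat_lit 2) (nat_lit 150) (nat_lit 151) (nat_lit 149)))) (PT.nd (nat_lit 156) (PT.nd (nat_lit 78) (PT.lf (nat_lit 6080) (nat_lit 3) (nat_lit 80) (nat_lit 0) (nat_lit 151) (nat_lit 151) (nat_lit 148)) (PT.lf (nat_lit 5852) (nat_lit 6) (nat_lit 77) (nat_lit 0) (nat_lit 152) (nat_lit 151) (nat_lit 147))) (PT.nd (nat_lit 78) (PT.lf (nat_lit 5548) (nat_lit 6) (nat_lit 73) (nat_lit 0) (nat_lit 153) (nat_lit 151) (nat_lit 146)) (PT.lf (nat_lit 5168) (nat_lit 6) (nat_lit 68) (nat_lit 0) (nat_lit 154) (nat_lit 151) (nat_lit 145))))))) (PT.nd (nat_lit 46566) (PT.nd (nat_lit 46020) (PT.nd (nat_lit 45786) (PT.nd (nat_lit 78) (PT.lf (nat_lit 4712) (nat_lit 6) (nat_lit 62) (nat_lit 0) (nat_lit 155) (nat_lit 151) (nat_lit 144)) (PT.nd (nat_lit 78) (PT.lf (nat_lit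 4180) (nat_lit 6) (nat_lit 55) (nat_lit 0) (nat_lit 156) (nat_lit 151) (nat_lit 143)) (PT.lf (nat_lit 3724) (nat_lit 6) (nat_lit 49) (nat_lit 0) (nat_lit 157) (nat_lit 151) (nat_lit 142)))) (PT.nd (nat_lit 78) (PT.lf (nat_lit 3496) (nat_lit 6) (nat_lit 46) (nat_lit 5) (nat_lit 141) (nat_lit 152) (nat_lit 157)) (PT.nd (nat_lit 78) (PT.lf (nat_lit 3800) (nat_lit 6) (nat_lit 50) (nat_lit 5) (nat_lit 142) (nat_lit 152) (nat_lit 156)) (PT.lf (nat_lit 4256) (nat_lit 6) (nat_lit 56) (nat_lit 5) (nat_lit 143) (nat_lit 152) (nat_lit 155))))) (PT.nd (nat_lit 234) (PT.nd (nat_lit 78) (PT.lf (nat_lit 4788) (nat_lit 6) (nat_lit 63) (nat_lit 5) (nat_lit 144) (nat_lit 152) (nat_lit 154)) (PT.nd (nat_lit 78) (PT.lf (nat_lit 5244) (nat_lit 6) (nat_lit 69) (nat_lit 5) (nat_lit 145) (nat_lit 152) (nat_lit 153)) (PT.lf (nat_lit 5624) (nat_lit 3) (nat_lit 74) (nat_lit 4) (nat_lit 146) (nat_lit 152) (nat_lit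 152)))) (PT.nd (nat_lit 156) (PT.nd (nat_lit 78) (PT.lf (nat_lit 5852) (nat_lit 6) (nat_lit 77) (nat_lit 4) (nat_lit 147) (nat_lit 152) (nat_lit 151)) (PT.lf (nat_lit 6004) (nat_lit 6) (nat_lit 79) (nat_lit 4) (nat_lit 148) (nat_lit 152) (nat_lit 150))) (PT.nd (nat_lit 78) (PT.lf (nat_lit 5928) (nat_lit 3) (nat_lit 78) (nat_lit 2) (nat_lit 149) (nat_lit 152) (nat_lit 149)) (PT.lf (nat_lit 6004) (nat_lit 6) (nat_lit 79) (nat_lit 2) (nat_lit 150) (nat_lit 152) (nat_lit 148)))))) (PT.nd (nat_lit 45942) (PT.nd (nat_lit 234) (PT.nd (nat_lit 78) (PT.lf (nat_lit 5852) (nat_lit 6) (nat_lit 77) (nat_lit 2) (nat_lit 151) (nat_lit 152) (nat_lit 147)) (PT.nd (nat_lit 78) (PT.lf (nat_lit 5624) (nat_lit 3) (nat_lit 74) (nat_lit 0) (nat_lit 152) (nat_lit 152) (nat_lit 146)) (PT.lf (nat_lit 5244) (nat_lit 6) (nat_lit 69) (nat_lit 0) (nat_lit 153) (nat_lit 152) (nat_lit 145)))) (PT.nd (nat_lit 156) (PT.nd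 (nat_lit 78) (PT.lf (nat_lit 4788) (nat_lit 6) (nat_lit 63) (nat_lit 0) (nat_lit 154) (nat_lit 152) (nat_lit 144)) (PT.lf (nat_lit 4256) (nat_lit 6) (nat_lit 56) (nat_lit 0) (nat_lit 155) (nat_lit 152) (nat_lit 143))) (PT.nd (nat_lit 78) (PT.lf (nat_lit 3800) (nat_lit 6) (nat_lit 50) (nat_lit 0) (nat_lit 156) (nat_lit 152) (nat_lit 142)) (PT.lf (nat_lit 3496) (nat_lit 6) (nat_lit 46) (nat_lit 0) (nat_lit 157) (nat_lit 152) (nat_lit 141))))) (PT.nd (nat_lit 234) (PT.nd (nat_lit 78) (PT.lf (nat_lit 3040) (nat_lit 6) (nat_lit 40) (nat_lit 5) (nat_lit 139) (nat_lit 153) (nat_lit 158)) (PT.nd (nat_lit 78) (PT.lf (nat_lit 3268) (nat_lit 6) (nat_lit 43) (nat_lit 5) (nat_lit 140) (nat_lit 153) (nat_lit 157)) (PT.lf (nat_lit 3572) (nat_lit 6) (nat_lit 47) (nat_lit 5) (nat_lit 141) (nat_lit 153) (nat_lit 156)))) (PT.nd (nat_lit 156) (PT.nd (nat_lit 78) (PT.lf (nat_lit 3876) (nat_lit 6) (nat_lit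 51) (nat_lit 5) (nat_lit 142) (nat_lit 153) (nat_lit 155)) (PT.lf (nat_lit 4332) (nat_lit 6) (nat_lit 57) (nat_lit 5) (nat_lit 143) (nat_lit 153) (nat_lit 154))) (PT.nd (nat_lit 78) (PT.lf (nat_lit 4864) (nat_lit 3) (nat_lit 64) (nat_lit 4) (nat_lit 144) (nat_lit 153) (nat_lit 153)) (PT.lf (nat_lit 5244) (nat_lit 6) (nat_lit 69) (nat_lit 4) (nat_lit 145) (nat_lit 153) (nat_lit 152))))))))
noncomputable def pc4 : PT := (PT.nd (nat_lit 47268) (PT.nd (nat_lit 46254) (PT.nd (nat_lit 468) (PT.nd (nat_lit 234) (PT.nd (nat_lit 78) (PT.lf (nat_lit 5548) (nat_lit 6) (nat_lit 73) (nat_lit 4) (nat_lit 146) (nat_lit 153) (nat_lit 151)) (PT.nd (nat_lit 78) (PT.lf (nat_lit 5776) (nat_lit 6) (nat_lit 76) (nat_lit 4) (nat_lit 147) (nat_lit 153) (nat_lit 150)) (PT.lf (nat_lit 5700) (nat_lit 6) (nat_lit 75) (nat_lit 4) (nat_lit 148) (nat_lit 153) (nat_lit 149)))) (PT.nd (nat_lit 78) (PT.lf (nat_lit 5700)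 (nat_lit 6) (nat_lit 75) (nat_lit 2) (nat_lit 149) (nat_lit 153) (nat_lit 148)) (PT.nd (nat_lit 78) (PT.lf (nat_lit 5776) (nat_lit 6) (nat_lit 76) (nat_lit 2) (nat_lit 150) (nat_lit 153) (nat_lit 147)) (PT.lf (nat_lit 5548) (nat_lit 6) (nat_lit 73) (nat_lit 2) (nat_lit 151) (nat_lit 153) (nat_lit 146))))) (PT.nd (nat_lit 234) (PT.nd (nat_lit 78) (PT.lf (nat_lit 5244) (nat_lit 6) (nat_lit 69) (nat_lit 2) (nat_lit 152) (nat_lit 153) (nat_lit 145)) (PT.nd (nat_lit 78) (PT.lf (nat_lit 4864) (nat_lit 3) (nat_lit 64) (nat_lit 0) (nat_lit 153) (nat_lit 153) (nat_lit 144)) (PT.lf (nat_lit 4332) (nat_lit 6) (nat_lit 57) (nat_lit 0) (nat_lit 154) (nat_lit 153) (nat_lit 143)))) (PT.nd (nat_lit 156) (PT.nd (nat_lit 78) (PT.lf (nat_lit 3876) (nat_lit 6) (nat_lit 51) (nat_lit 0) (nat_lit 155) (nat_lit 153) (nat_lit 142)) (PT.lf (nat_lit 3572) (nat_lit 6) (nat_lit 47) (nat_lit 0) (nat_lit 156) (nat_lit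 153) (nat_lit 141))) (PT.nd (nat_lit 78) (PT.lf (nat_lit 3268) (nat_lit 6) (nat_lit 43) (nat_lit 0) (nat_lit 157) (nat_lit 153) (nat_lit 140)) (PT.lf (nat_lit 3040) (nat_lit 6) (nat_lit 40) (nat_lit 0) (nat_lit 158) (nat_lit 153) (nat_lit 139)))))) (PT.nd (nat_lit 468) (PT.nd (nat_lit 234) (PT.nd (nat_lit 78) (PT.lf (nat_lit 2812) (nat_lit 6) (nat_lit 37) (nat_lit 5) (nat_lit 138) (nat_lit 154) (nat_lit 158)) (PT.nd (nat_lit 78) (PT.lf (nat_lit 3116) (nat_lit 6) (nat_lit 41) (nat_lit 5) (nat_lit 139) (nat_lit 154) (nat_lit 157)) (PT.lf (nat_lit 3344) (nat_lit 6) (nat_lit 44) (nat_lit 5) (nat_lit 140) (nat_lit 154) (nat_lit 156)))) (PT.nd (nat_lit 78) (PT.lf (nat_lit 3648) (nat_lit 6) (nat_lit 48) (nat_lit 5) (nat_lit 141) (nat_lit 154) (nat_lit 155)) (PT.nd (nat_lit 78) (PT.lf (nat_lit 3952) (nat_lit 3) (nat_lit 52) (nat_lit 4) (nat_lit 142) (nat_lit 154) (nat_lit 154)) (PT.lf (nat_lit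 4332) (nat_lit 6) (nat_lit 57) (nat_lit 4) (nat_lit 143) (nat_lit 154) (nat_lit 153))))) (PT.nd (nat_lit 234) (PT.nd (nat_lit 78) (PT.lf (nat_lit 4788) (nat_lit 6) (nat_lit 63) (nat_lit 4) (nat_lit 144) (nat_lit 154) (nat_lit 152)) (PT.nd (nat_lit 78) (PT.lf (nat_lit 5168) (nat_lit 6) (nat_lit 68) (nat_lit 4) (nat_lit 145) (nat_lit 154) (nat_lit 151)) (PT.lf (nat_lit 5472) (nat_lit 6) (nat_lit 72) (nat_lit 4) (nat_lit 146) (nat_lit 154) (nat_lit 150)))) (PT.nd (nat_lit 156) (PT.nd (nat_lit 78) (PT.lf (nat_lit 5396) (nat_lit 6) (nat_lit 71) (nat_lit 4) (nat_lit 147) (nat_lit 154) (nat_lit 149)) (PT.lf (nat_lit 5320) (nat_lit 3) (nat_lit 70) (nat_lit 2) (nat_lit 148) (nat_lit 154) (nat_lit 148))) (PT.nd (nat_lit 78) (PT.lf (nat_lit 5396) (nat_lit 6) (nat_lit 71) (nat_lit 2) (nat_lit 149) (nat_lit 154) (nat_lit 147)) (PT.lf (nat_lit 5472) (nat_lit 6) (nat_lit 72) (nat_lit 2) (nat_lit 150)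 (nat_lit 154) (nat_lit 146))))))) (PT.nd (nat_lit 46098) (PT.nd (nat_lit 468) (PT.nd (nat_lit 234) (PT.nd (nat_lit 78) (PT.lf (nat_lit 5168) (nat_lit 6) (nat_lit 68) (nat_lit 2) (nat_lit 151) (nat_lit 154) (nat_lit 145)) (PT.nd (nat_lit 78) (PT.lf (nat_lit 4788) (nat_lit 6) (nat_lit 63) (nat_lit 2) (nat_lit 152) (nat_lit 154) (nat_lit 144)) (PT.lf (nat_lit 4332) (nat_lit 6) (nat_lit 57) (nat_lit 2) (nat_lit 153) (nat_lit 154) (nat_lit 143)))) (PT.nd (nat_lit 78) (PT.lf (nat_lit 3952) (nat_lit 3) (nat_lit 52) (nat_lit 0) (nat_lit 154) (nat_lit 154) (nat_lit 142)) (PT.nd (nat_lit 78) (PT.lf (nat_lit 3648) (nat_lit 6) (nat_lit 48) (nat_lit 0) (nat_lit 155) (nat_lit 154) (nat_lit 141)) (PT.lf (nat_lit 3344) (nat_lit 6) (nat_lit 44) (nat_lit 0) (nat_lit 156) (nat_lit 154) (nat_lit 140))))) (PT.nd (nat_lit 45318) (PT.nd (nat_lit 78) (PT.lf (nat_lit 3116) (nat_lit 6) (nat_lit 41) (nat_lit 0)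 (nat_lit 157) (nat_lit 154) (nat_lit 139)) (PT.nd (nat_lit 45162) (PT.lf (nat_lit 2812) (nat_lit 6) (nat_lit 37) (nat_lit 0) (nat_lit 158) (nat_lit 154) (nat_lit 138)) (PT.lf (nat_lit 2432) (nat_lit 6) (nat_lit 32) (nat_lit 5) (nat_lit 136) (nat_lit 155) (nat_lit 159)))) (PT.nd (nat_lit 156) (PT.nd (nat_lit 78) (PT.lf (nat_lit 2660) (nat_lit 6) (nat_lit 35) (nat_lit 5) (nat_lit 137) (nat_lit 155) (nat_lit 158)) (PT.lf (nat_lit 2888) (nat_lit 6) (nat_lit 38) (nat_lit 5) (nat_lit 138) (nat_lit 155) (nat_lit 157))) (PT.nd (nat_lit 78) (PT.lf (nat_lit 3192) (nat_lit 6) (nat_lit 42) (nat_lit 5) (nat_lit 139) (nat_lit 155) (nat_lit 156)) (PT.lf (nat_lit 3420) (nat_lit 3) (nat_lit 45) (nat_lit 4) (nat_lit 140) (nat_lit 155) (nat_lit 155)))))) (PT.nd (nat_lit 546) (PT.nd (nat_lit 234) (PT.nd (nat_lit 78) (PT.lf (nat_lit 3648) (nat_lit 6) (nat_lit 48) (nat_lit 4) (nat_lit 141) (nat_lit 155) (nat_lit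 154)) (PT.nd (nat_lit 78) (PT.lf (nat_lit 3876) (nat_lit 6) (nat_lit 51) (nat_lit 4) (nat_lit 142) (nat_lit 155) (nat_lit 153)) (PT.lf (nat_lit 4256) (nat_lit 6) (nat_lit 56) (nat_lit 4) (nat_lit 143) (nat_lit 155) (nat_lit 152)))) (PT.nd (nat_lit 156) (PT.nd (nat_lit 78) (PT.lf (nat_lit 4712) (nat_lit 6) (nat_lit 62) (nat_lit 4) (nat_lit 144) (nat_lit 155) (nat_lit 151)) (PT.lf (nat_lit 5092) (nat_lit 6) (nat_lit 67) (nat_lit 4) (nat_lit 145) (nat_lit 155) (nat_lit 150))) (PT.nd (nat_lit 78) (PT.lf (nat_lit 5016) (nat_lit 6) (nat_lit 66) (nat_lit 4) (nat_lit 146) (nat_lit 155) (nat_lit 149)) (PT.lf (nat_lit 4940) (nat_lit 6) (nat_lit 65) (nat_lit 4) (nat_lit 147) (nat_lit 155) (nat_lit 148))))) (PT.nd (nat_lit 234) (PT.nd (nat_lit 78) (PT.lf (nat_lit 4940) (nat_lit 6) (nat_lit 65) (nat_lit 2) (nat_lit 148) (nat_lit 155) (nat_lit 147)) (PT.nd (nat_lit 78) (PT.lf (nat_lit 5016) (nat_lit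 6) (nat_lit 66) (nat_lit 2) (nat_lit 149) (nat_lit 155) (nat_lit 146)) (PT.lf (nat_lit 5092) (nat_lit 6) (nat_lit 67) (nat_lit 2) (nat_lit 150) (nat_lit 155) (nat_lit 145)))) (PT.nd (nat_lit 156) (PT.nd (nat_lit 78) (PT.lf (nat_lit 4712) (nat_lit 6) (nat_lit 62) (nat_lit 2) (nat_lit 151) (nat_lit 155) (nat_lit 144)) (PT.lf (nat_lit 4256) (nat_lit 6) (nat_lit 56) (nat_lit 2) (nat_lit 152) (nat_lit 155) (nat_lit 143))) (PT.nd (nat_lit 78) (PT.lf (nat_lit 3876) (nat_lit 6) (nat_lit 51) (nat_lit 2) (nat_lit 153) (nat_lit 155) (nat_lit 142)) (PT.lf (nat_lit 3648) (nat_lit 6) (nat_lit 48) (nat_lit 2) (nat_lit 154) (nat_lit 155) (nat_lit 141))))))))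
noncomputable def pc5 : PT := (PT.nd (nat_lit 47034) (PT.nd (nat_lit 45942) (PT.nd (nat_lit 45396) (PT.nd (nat_lit 234) (PT.nd (nat_lit 78) (PT.lf (nat_lit 3420) (nat_lit 3) (nat_lit 45) (nat_lit 0) (nat_lit 155) (nat_lit 155) (nat_lit 140)) (PT.nd (nat_lit 78) (PT.lf (nat_lit 3192) (nat_lit 6) (nat_lit 42) (nat_lit 0) (nat_lit 156) (nat_lit 155) (nat_lit 139)) (PT.lf (nat_lit 2888) (nat_lit 6) (nat_lit 38) (nat_lit 0) (nat_lit 157) (nat_lit 155) (nat_lit 138)))) (PT.nd (nat_lit 78) (PT.lf (nat_lit 2660) (nat_lit 6) (nat_lit 35) (nat_lit 0) (nat_lit 158) (nat_lit 155) (nat_lit 137)) (PT.nd (nat_lit 45006) (PT.lf (nat_lit 2432) (nat_lit 6) (nat_lit 32) (nat_lit 0) (nat_lit 159) (nat_lit 155) (nat_lit 136)) (PT.lf (nat_lit 2280) (nat_lit 6) (nat_lit 30) (nat_lit 5) (nat_lit 135) (nat_lit 156) (nat_lit 159))))) (PT.nd (nat_lit 234) (PT.nd (nat_lit 78) (PT.lf (nat_lit 2508) (nat_lit 6) (nat_lit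 33) (nat_lit 5) (nat_lit 136) (nat_lit 156) (nat_lit 158)) (PT.nd (nat_lit 78) (PT.lf (nat_lit 2736) (nat_lit 6) (nat_lit 36) (nat_lit 5) (nat_lit 137) (nat_lit 156) (nat_lit 157)) (PT.lf (nat_lit 2964) (nat_lit 3) (nat_lit 39) (nat_lit 4) (nat_lit 138) (nat_lit 156) (nat_lit 156)))) (PT.nd (nat_lit 156) (PT.nd (nat_lit 78) (PT.lf (nat_lit 3192) (nat_lit 6) (nat_lit 42) (nat_lit 4) (nat_lit 139) (nat_lit 156) (nat_lit 155)) (PT.lf (nat_lit 3344) (nat_lit 6) (nat_lit 44) (nat_lit 4) (nat_lit 140) (nat_lit 156) (nat_lit 154))) (PT.nd (nat_lit 78) (PT.lf (nat_lit 3572) (nat_lit 6) (nat_lit 47) (nat_lit 4) (nat_lit 141) (nat_lit 156) (nat_lit 153)) (PT.lf (nat_lit 3800) (nat_lit 6) (nat_lit 50) (nat_lit 4) (nat_lit 142) (nat_lit 156) (nat_lit 152)))))) (PT.nd (nat_lit 546) (PT.nd (nat_lit 234) (PT.nd (nat_lit 78) (PT.lf (nat_lit 4180) (nat_lit 6) (nat_lit 55) (nat_lit 4) (nat_lit 143) (nat_lit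 156) (nat_lit 151)) (PT.nd (nat_lit 78) (PT.lf (nat_lit 4636) (nat_lit 6) (nat_lit 61) (nat_lit 4) (nat_lit 144) (nat_lit 156) (nat_lit 150)) (PT.lf (nat_lit 4560) (nat_lit 6) (nat_lit 60) (nat_lit 4) (nat_lit 145) (nat_lit 156) (nat_lit 149)))) (PT.nd (nat_lit 156) (PT.nd (nat_lit 78) (PT.lf (nat_lit 4484) (nat_lit 6) (nat_lit 59) (nat_lit 4) (nat_lit 146) (nat_lit 156) (nat_lit 148)) (PT.lf (nat_lit 4408) (nat_lit 3) (nat_lit 58) (nat_lit 2) (nat_lit 147) (nat_lit 156) (nat_lit 147))) (PT.nd (nat_lit 78) (PT.lf (nat_lit 4484) (nat_lit 6) (nat_lit 59) (nat_lit 2) (nat_lit 148) (nat_lit 156) (nat_lit 146)) (PT.lf (nat_lit 4560) (nat_lit 6) (nat_lit 60) (nat_lit 2) (nat_lit 149) (nat_lit 156) (nat_lit 145))))) (PT.nd (nat_lit 234) (PT.nd (nat_lit 78) (PT.lf (nat_lit 4636) (nat_lit 6) (nat_lit 61) (nat_lit 2) (nat_lit 150) (nat_lit 156) (nat_lit 144)) (PT.nd (nat_lit 78) (PT.lf (nat_lit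 4180) (nat_lit 6) (nat_lit 55) (nat_lit 2) (nat_lit 151) (nat_lit 156) (nat_lit 143)) (PT.lf (nat_lit 3800) (nat_lit 6) (nat_lit 50) (nat_lit 2) (nat_lit 152) (nat_lit 156) (nat_lit 142)))) (PT.nd (nat_lit 156) (PT.nd (nat_lit 78) (PT.lf (nat_lit 3572) (nat_lit 6) (nat_lit 47) (nat_lit 2) (nat_lit 153) (nat_lit 156) (nat_lit 141)) (PT.lf (nat_lit 3344) (nat_lit 6) (nat_lit 44) (nat_lit 2) (nat_lit 154) (nat_lit 156) (nat_lit 140))) (PT.nd (nat_lit 78) (PT.lf (nat_lit 3192) (nat_lit 6) (nat_lit 42) (nat_lit 2) (nat_lit 155) (nat_lit 156) (nat_lit 139)) (PT.lf (nat_lit 2964) (nat_lit 3) (nat_lit 39) (nat_lit 0) (nat_lit 156) (nat_lit 156) (nat_lit 138))))))) (PT.nd (nat_lit 45786) (PT.nd (nat_lit 45240) (PT.nd (nat_lit 45006) (PT.nd (nat_lit 78) (PT.lf (nat_lit 2736) (nat_lit 6) (nat_lit 36) (nat_lit 0) (nat_lit 157) (nat_lit 156) (nat_lit 137)) (PT.nd (nat_lit 78) (PT.lf (nat_lit 2508)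 (nat_lit 6) (nat_lit 33) (nat_lit 0) (nat_lit 158) (nat_lit 156) (nat_lit 136)) (PT.lf (nat_lit 2280) (nat_lit 6) (nat_lit 30) (nat_lit 0) (nat_lit 159) (nat_lit 156) (nat_lit 135)))) (PT.nd (nat_lit 78) (PT.lf (nat_lit 1976) (nat_lit 6) (nat_lit 26) (nat_lit 5) (nat_lit 133) (nat_lit 157) (nat_lit 160)) (PT.nd (nat_lit 78) (PT.lf (nat_lit 2128) (nat_lit 6) (nat_lit 28) (nat_lit 5) (nat_lit 134) (nat_lit 157) (nat_lit 159)) (PT.lf (nat_lit 2356) (nat_lit 6) (nat_lit 31) (nat_lit 5) (nat_lit 135) (nat_lit 157) (nat_lit 158))))) (PT.nd (nat_lit 234) (PT.nd (nat_lit 78) (PT.lf (nat_lit 2584) (nat_lit 3) (nat_lit 34) (nat_lit 4) (nat_lit 136) (nat_lit 157) (nat_lit 157)) (PT.nd (nat_lit 78) (PT.lf (nat_lit 2736) (nat_lit 6) (nat_lit 36) (nat_lit 4) (nat_lit 137) (nat_lit 157) (nat_lit 156)) (PT.lf (nat_lit 2888) (nat_lit 6) (nat_lit 38) (nat_lit 4) (nat_lit 138) (nat_lit 157) (nat_lit 155))))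 (PT.nd (nat_lit 156) (PT.nd (nat_lit 78) (PT.lf (nat_lit 3116) (nat_lit 6) (nat_lit 41) (nat_lit 4) (nat_lit 139) (nat_lit 157) (nat_lit 154)) (PT.lf (nat_lit 3268) (nat_lit 6) (nat_lit 43) (nat_lit 4) (nat_lit 140) (nat_lit 157) (nat_lit 153))) (PT.nd (nat_lit 78) (PT.lf (nat_lit 3496) (nat_lit 6) (nat_lit 46) (nat_lit 4) (nat_lit 141) (nat_lit 157) (nat_lit 152)) (PT.lf (nat_lit 3724) (nat_lit 6) (nat_lit 49) (nat_lit 4) (nat_lit 142) (nat_lit 157) (nat_lit 151)))))) (PT.nd (nat_lit 858) (PT.nd (nat_lit 546) (PT.nd (nat_lit 78) (PT.lf (nat_lit 4104) (nat_lit 6) (nat_lit 54) (nat_lit 4) (nat_lit 143) (nat_lit 157) (nat_lit 150)) (PT.nd (nat_lit 390) (PT.lf (nat_lit 4028) (nat_lit 6) (nat_lit 53) (nat_lit 4) (nat_lit 144) (nat_lit 157) (nat_lit 149)) (PT.lf (nat_lit 4028) (nat_lit 6) (nat_lit 53) (nat_lit 2) (nat_lit 149) (nat_lit 157) (nat_lit 144)))) (PT.nd (nat_lit 156) (PT.nd (nat_lit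 78) (PT.lf (nat_lit 4104) (nat_lit 6) (nat_lit 54) (nat_lit 2) (nat_lit 150) (nat_lit 157) (nat_lit 143)) (PT.lf (nat_lit 3724) (nat_lit 6) (nat_lit 49) (nat_lit 2) (nat_lit 151) (nat_lit 157) (nat_lit 142))) (PT.nd (nat_lit 78) (PT.lf (nat_lit 3496) (nat_lit 6) (nat_lit 46) (nat_lit 2) (nat_lit 152) (nat_lit 157) (nat_lit 141)) (PT.lf (nat_lit 3268) (nat_lit 6) (nat_lit 43) (nat_lit 2) (nat_lit 153) (nat_lit 157) (nat_lit 140))))) (PT.nd (nat_lit 234) (PT.nd (nat_lit 78) (PT.lf (nat_lit 3116) (nat_lit 6) (nat_lit 41) (nat_lit 2) (nat_lit 154) (nat_lit 157) (nat_lit 139)) (PT.nd (nat_lit 78) (PT.lf (nat_lit 2888) (nat_lit 6) (nat_lit 38) (nat_lit 2) (nat_lit 155) (nat_lit 157) (nat_lit 138)) (PT.lf (nat_lit 2736) (nat_lit 6) (nat_lit 36) (nat_lit 2) (nat_lit 156) (nat_lit 157) (nat_lit 137)))) (PT.nd (nat_lit 156) (PT.nd (nat_lit 78) (PT.lf (nat_lit 2584) (nat_lit 3) (nat_lit 34) (nat_lit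 0) (nat_lit 157) (nat_lit 157) (nat_lit 136)) (PT.lf (nat_lit 2356) (nat_lit 6) (nat_lit 31) (nat_lit 0) (nat_lit 158) (nat_lit 157) (nat_lit 135))) (PT.nd (nat_lit 78) (PT.lf (nat_lit 2128) (nat_lit 6) (nat_lit 28) (nat_lit 0) (nat_lit 159) (nat_lit 157) (nat_lit 134)) (PT.lf (nat_lit 1976) (nat_lit 6) (nat_lit 26) (nat_lit 0) (nat_lit 160) (nat_lit 157) (nat_lit 133))))))))
noncomputable def pc6 : PT := (PT.nd (nat_lit 48906) (PT.nd (nat_lit 2028) (PT.nd (nat_lit 468) (PT.nd (nat_lit 234) (PT.nd (nat_lit 78) (PT.lf (nat_lit 1672) (nat_lit 6) (nat_lit 22) (nat_lit 5) (nat_lit 131) (nat_lit 158) (nat_lit 161)) (PT.nd (nat_lit 78) (PT.lf (nat_lit 1824) (nat_lit 6) (nat_lit 24) (nat_lit 5) (nat_lit 132) (nat_lit 158) (nat_lit 160)) (PT.lf (nat_lit 2052) (nat_lit 6) (nat_lit 27) (nat_lit 5) (nat_lit 133) (nat_lit 158) (nat_lit 159)))) (PT.nd (nat_lit 78) (PT.lf (nat_lit 2204) (nat_lit 3)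 (nat_lit 29) (nat_lit 4) (nat_lit 134) (nat_lit 158) (nat_lit 158)) (PT.nd (nat_lit 78) (PT.lf (nat_lit 2356) (nat_lit 6) (nat_lit 31) (nat_lit 4) (nat_lit 135) (nat_lit 158) (nat_lit 157)) (PT.lf (nat_lit 2508) (nat_lit 6) (nat_lit 33) (nat_lit 4) (nat_lit 136) (nat_lit 158) (nat_lit 156))))) (PT.nd (nat_lit 1248) (PT.nd (nat_lit 78) (PT.lf (nat_lit 2660) (nat_lit 6) (nat_lit 35) (nat_lit 4) (nat_lit 137) (nat_lit 158) (nat_lit 155)) (PT.nd (nat_lit 78) (PT.lf (nat_lit 2812) (nat_lit 6) (nat_lit 37) (nat_lit 4) (nat_lit 138) (nat_lit 158) (nat_lit 154)) (PT.lf (nat_lit 3040) (nat_lit 6) (nat_lit 40) (nat_lit 4) (nat_lit 139) (nat_lit 158) (nat_lit 153)))) (PT.nd (nat_lit 156) (PT.nd (nat_lit 78) (PT.lf (nat_lit 3040) (nat_lit 6) (nat_lit 40) (nat_lit 2) (nat_lit 153) (nat_lit 158) (nat_lit 139)) (PT.lf (nat_lit 2812) (nat_lit 6) (nat_lit 37) (nat_lit 2) (nat_lit 154) (nat_lit 158) (nat_lit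 138))) (PT.nd (nat_lit 78) (PT.lf (nat_lit 2660) (nat_lit 6) (nat_lit 35) (nat_lit 2) (nat_lit 155) (nat_lit 158) (nat_lit 137)) (PT.lf (nat_lit 2508) (nat_lit 6) (nat_lit 33) (nat_lit 2) (nat_lit 156) (nat_lit 158) (nat_lit 136)))))) (PT.nd (nat_lit 44928) (PT.nd (nat_lit 234) (PT.nd (nat_lit 78) (PT.lf (nat_lit 2356) (nat_lit 6) (nat_lit 31) (nat_lit 2) (nat_lit 157) (nat_lit 158) (nat_lit 135)) (PT.nd (nat_lit 78) (PT.lf (nat_lit 2204) (nat_lit 3) (nat_lit 29) (nat_lit 0) (nat_lit 158) (nat_lit 158) (nat_lit 134)) (PT.lf (nat_lit 2052) (nat_lit 6) (nat_lit 27) (nat_lit 0) (nat_lit 159) (nat_lit 158) (nat_lit 133)))) (PT.nd (nat_lit 44538) (PT.nd (nat_lit 78) (PT.lf (nat_lit 1824) (nat_lit 6) (nat_lit 24) (nat_lit 0) (nat_lit 160) (nat_lit 158) (nat_lit 132)) (PT.lf (nat_lit 1672) (nat_lit 6) (nat_lit 22) (nat_lit 0) (nat_lit 161) (nat_lit 158) (nat_lit 131))) (PT.nd (nat_lit 78) (PT.lf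 (nat_lit 1520) (nat_lit 6) (nat_lit 20) (nat_lit 5) (nat_lit 130) (nat_lit 159) (nat_lit 161)) (PT.lf (nat_lit 1748) (nat_lit 6) (nat_lit 23) (nat_lit 5) (nat_lit 131) (nat_lit 159) (nat_lit 160))))) (PT.nd (nat_lit 234) (PT.nd (nat_lit 78) (PT.lf (nat_lit 1900) (nat_lit 3) (nat_lit 25) (nat_lit 4) (nat_lit 132) (nat_lit 159) (nat_lit 159)) (PT.nd (nat_lit 78) (PT.lf (nat_lit 2052) (nat_lit 6) (nat_lit 27) (nat_lit 4) (nat_lit 133) (nat_lit 159) (nat_lit 158)) (PT.lf (nat_lit 2128) (nat_lit 6) (nat_lit 28) (nat_lit 4) (nat_lit 134) (nat_lit 159) (nat_lit 157)))) (PT.nd (nat_lit 1560) (PT.nd (nat_lit 78) (PT.lf (nat_lit 2280) (nat_lit 6) (nat_lit 30) (nat_lit 4) (nat_lit 135) (nat_lit 159) (nat_lit 156)) (PT.lf (nat_lit 2432) (nat_lit 6) (nat_lit 32) (nat_lit 4) (nat_lit 136) (nat_lit 159) (nat_lit 155))) (PT.nd (nat_lit 78) (PT.lf (nat_lit 2432) (nat_lit 6) (nat_lit 32) (nat_lit 2) (nat_lit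 155) (nat_lit 159) (nat_lit 136)) (PT.lf (nat_lit 2280) (nat_lit 6) (nat_lit 30) (nat_lit 2) (nat_lit 156) (nat_lit 159) (nat_lit 135))))))) (PT.nd (nat_lit 47034) (PT.nd (nat_lit 44694) (PT.nd (nat_lit 234) (PT.nd (nat_lit 78) (PT.lf (nat_lit 2128) (nat_lit 6) (nat_lit 28) (nat_lit 2) (nat_lit 157) (nat_lit 159) (nat_lit 134)) (PT.nd (nat_lit 78) (PT.lf (nat_lit 2052) (nat_lit 6) (nat_lit 27) (nat_lit 2) (nat_lit 158) (nat_lit 159) (nat_lit 133)) (PT.lf (nat_lit 1900) (nat_lit 3) (nat_lit 25) (nat_lit 0) (nat_lit 159) (nat_lit 159) (nat_lit 132)))) (PT.nd (nat_lit 78) (PT.lf (nat_lit 1748) (nat_lit 6) (nat_lit 23) (nat_lit 0) (nat_lit 160) (nat_lit 159) (nat_lit 131)) (PT.nd (nat_lit 44304) (PT.lf (nat_lit 1520) (nat_lit 6) (nat_lit 20) (nat_lit 0) (nat_lit 161) (nat_lit 159) (nat_lit 130)) (PT.lf (nat_lit 1292) (nat_lit 6) (nat_lit 17) (nat_lit 5) (nat_lit 128) (nat_lit 160) (nat_lit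 162))))) (PT.nd (nat_lit 234) (PT.nd (nat_lit 78) (PT.lf (nat_lit 1444) (nat_lit 6) (nat_lit 19) (nat_lit 5) (nat_lit 129) (nat_lit 160) (nat_lit 161)) (PT.nd (nat_lit 78) (PT.lf (nat_lit 1596) (nat_lit 3) (nat_lit 21) (nat_lit 4) (nat_lit 130) (nat_lit 160) (nat_lit 160)) (PT.lf (nat_lit 1748) (nat_lit 6) (nat_lit 23) (nat_lit 4) (nat_lit 131) (nat_lit 160) (nat_lit 159)))) (PT.nd (nat_lit 1950) (PT.nd (nat_lit 78) (PT.lf (nat_lit 1824) (nat_lit 6) (nat_lit 24) (nat_lit 4) (nat_lit 132) (nat_lit 160) (nat_lit 158)) (PT.lf (nat_lit 1976) (nat_lit 6) (nat_lit 26) (nat_lit 4) (nat_lit 133) (nat_lit 160) (nat_lit 157))) (PT.nd (nat_lit 78) (PT.lf (nat_lit 1976) (nat_lit 6) (nat_lit 26) (nat_lit 2) (nat_lit 157) (nat_lit 160) (nat_lit 133)) (PT.lf (nat_lit 1824) (nat_lit 6) (nat_lit 24) (nat_lit 2) (nat_lit 158) (nat_lit 160) (nat_lit 132)))))) (PT.nd (nat_lit 44538) (PT.nd (nat_lit 234)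 (PT.nd (nat_lit 78) (PT.lf (nat_lit 1748) (nat_lit 6) (nat_lit 23) (nat_lit 2) (nat_lit 159) (nat_lit 160) (nat_lit 131)) (PT.nd (nat_lit 78) (PT.lf (nat_lit 1596) (nat_lit 3) (nat_lit 21) (nat_lit 0) (nat_lit 160) (nat_lit 160) (nat_lit 130)) (PT.lf (nat_lit 1444) (nat_lit 6) (nat_lit 19) (nat_lit 0) (nat_lit 161) (nat_lit 160) (nat_lit 129)))) (PT.nd (nat_lit 44148) (PT.nd (nat_lit 44070) (PT.lf (nat_lit 1292) (nat_lit 6) (nat_lit 17) (nat_lit 0) (nat_lit 162) (nat_lit 160) (nat_lit 128)) (PT.lf (nat_lit 1064) (nat_lit 6) (nat_lit 14) (nat_lit 5) (nat_lit 126) (nat_lit 161) (nat_lit 163))) (PT.nd (nat_lit 78) (PT.lf (nat_lit 1216) (nat_lit 6) (nat_lit 16) (nat_lit 5) (nat_lit 127) (nat_lit 161) (nat_lit 162)) (PT.lf (nat_lit 1368) (nat_lit 3) (nat_lit 18) (nat_lit 4) (nat_lit 128) (nat_lit 161) (nat_lit 161))))) (PT.nd (nat_lit 2262) (PT.nd (nat_lit 78) (PT.lf (nat_lit 1444) (nat_lit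 6) (nat_lit 19) (nat_lit 4) (nat_lit 129) (nat_lit 161) (nat_lit 160)) (PT.nd (nat_lit 78) (PT.lf (nat_lit 1520) (nat_lit 6) (nat_lit 20) (nat_lit 4) (nat_lit 130) (nat_lit 161) (nat_lit 159)) (PT.lf (nat_lit 1672) (nat_lit 6) (nat_lit 22) (nat_lit 4) (nat_lit 131) (nat_lit 161) (nat_lit 158)))) (PT.nd (nat_lit 156) (PT.nd (nat_lit 78) (PT.lf (nat_lit 1672) (nat_lit 6) (nat_lit 22) (nat_lit 2) (nat_lit 158) (nat_lit 161) (nat_lit 131)) (PT.lf (nat_lit 1520) (nat_lit 6) (nat_lit 20) (nat_lit 2) (nat_lit 159) (nat_lit 161) (nat_lit 130))) (PT.nd (nat_lit 78) (PT.lf (nat_lit 1444) (nat_lit 6) (nat_lit 19) (nat_lit 2) (nat_lit 160) (nat_lit 161) (nat_lit 129)) (PT.lf (nat_lit 1368) (nat_lit 3) (nat_lit 18) (nat_lit 0) (nat_lit 161) (nat_lit 161) (nat_lit 128))))))))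
noncomputable def pc7 : PT := (PT.nd (nat_lit 140634) (PT.nd (nat_lit 90714) (PT.nd (nat_lit 44226) (PT.nd (nat_lit 43992) (PT.nd (nat_lit 78) (PT.lf (nat_lit 1216) (nat_lit 6) (nat_lit 16) (nat_lit 0) (nat_lit 162) (nat_lit 161) (nat_lit 127)) (PT.nd (nat_lit 43836) (PT.lf (nat_lit 1064) (nat_lit 6) (nat_lit 14) (nat_lit 0) (nat_lit 163) (nat_lit 161) (nat_lit 126)) (PT.lf (nat_lit 836) (nat_lit 6) (nat_lit 11) (nat_lit 5) (nat_lit 124) (nat_lit 162) (nat_lit 164)))) (PT.nd (nat_lit 78) (PT.lf (nat_lit 988) (nat_lit 6) (nat_lit 13) (nat_lit 5) (nat_lit 125) (nat_lit 162) (nat_lit 163)) (PT.nd (nat_lit 78) (PT.lf (nat_lit 1140) (nat_lit 3) (nat_lit 15) (nat_lit 4) (nat_lit 126) (nat_lit 162) (nat_lit 162)) (PT.lf (nat_lit 1216) (nat_lit 6) (nat_lit 16) (nat_lit 4) (nat_lit 127) (nat_lit 162) (nat_lit 161))))) (PT.nd (nat_lit 2652) (PT.nd (nat_lit 2496) (PT.lf (nat_lit 1292) (nat_lit 6)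 (nat_lit 17) (nat_lit 4) (nat_lit 128) (nat_lit 162) (nat_lit 160)) (PT.nd (nat_lit 78) (PT.lf (nat_lit 1292) (nat_lit 6) (nat_lit 17) (nat_lit 2) (nat_lit 160) (nat_lit 162) (nat_lit 128)) (PT.lf (nat_lit 1216) (nat_lit 6) (nat_lit 16) (nat_lit 2) (nat_lit 161) (nat_lit 162) (nat_lit 127)))) (PT.nd (nat_lit 156) (PT.nd (nat_lit 78) (PT.lf (nat_lit 1140) (nat_lit 3) (nat_lit 15) (nat_lit 0) (nat_lit 162) (nat_lit 162) (nat_lit 126)) (PT.lf (nat_lit 988) (nat_lit 6) (nat_lit 13) (nat_lit 0) (nat_lit 163) (nat_lit 162) (nat_lit 125))) (PT.nd (nat_lit 43602) (PT.lf (nat_lit 836) (nat_lit 6) (nat_lit 11) (nat_lit 0) (nat_lit 164) (nat_lit 162) (nat_lit 124)) (PT.lf (nat_lit 608) (nat_lit 6) (nat_lit 8) (nat_lit 5) (nat_lit 122) (nat_lit 163) (nat_lit 165)))))) (PT.nd (nat_lit 3198) (PT.nd (nat_lit 234) (PT.nd (nat_lit 78) (PT.lf (nat_lit 760) (nat_lit 6) (nat_lit 10) (nat_lit 5) (nat_lit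 123) (nat_lit 163) (nat_lit 164)) (PT.nd (nat_lit 78) (PT.lf (nat_lit 912) (nat_lit 3) (nat_lit 12) (nat_lit 4) (nat_lit 124) (nat_lit 163) (nat_lit 163)) (PT.lf (nat_lit 988) (nat_lit 6) (nat_lit 13) (nat_lit 4) (nat_lit 125) (nat_lit 163) (nat_lit 162)))) (PT.nd (nat_lit 2808) (PT.nd (nat_lit 2730) (PT.lf (nat_lit 1064) (nat_lit 6) (nat_lit 14) (nat_lit 4) (nat_lit 126) (nat_lit 163) (nat_lit 161)) (PT.lf (nat_lit 1064) (nat_lit 6) (nat_lit 14) (nat_lit 2) (nat_lit 161) (nat_lit 163) (nat_lit 126))) (PT.nd (nat_lit 78) (PT.lf (nat_lit 988) (nat_lit 6) (nat_lit 13) (nat_lit 2) (nat_lit 162) (nat_lit 163) (nat_lit 125)) (PT.lf (nat_lit 912) (nat_lit 3) (nat_lit 12) (nat_lit 0) (nat_lit 163) (nat_lit 163) (nat_lit 124))))) (PT.nd (nat_lit 43524) (PT.nd (nat_lit 78) (PT.lf (nat_lit 760) (nat_lit 6) (nat_lit 10) (nat_lit 0) (nat_lit 164) (nat_lit 163) (nat_lit 123)) (PT.nd (nat_lit 43368)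 (PT.lf (nat_lit 608) (nat_lit 6) (nat_lit 8) (nat_lit 0) (nat_lit 165) (nat_lit 163) (nat_lit 122)) (PT.lf (nat_lit 380) (nat_lit 6) (nat_lit 5) (nat_lit 5) (nat_lit 120) (nat_lit 164) (nat_lit 166)))) (PT.nd (nat_lit 156) (PT.nd (nat_lit 78) (PT.lf (nat_lit 532) (nat_lit 6) (nat_lit 7) (nat_lit 5) (nat_lit 121) (nat_lit 164) (nat_lit 165)) (PT.lf (nat_lit 684) (nat_lit 3) (nat_lit 9) (nat_lit 4) (nat_lit 122) (nat_lit 164) (nat_lit 164))) (PT.nd (nat_lit 78) (PT.lf (nat_lit 760) (nat_lit 6) (nat_lit 10) (nat_lit 4) (nat_lit 123) (nat_lit 164) (nat_lit 163)) (PT.lf (nat_lit 836) (nat_lit 6) (nat_lit 11) (nat_lit 4) (nat_lit 124) (nat_lit 164) (nat_lit 162))))))) (PT.nd (nat_lit 47190) (PT.nd (nat_lit 43524) (PT.nd (nat_lit 234) (PT.nd (nat_lit 78) (PT.lf (nat_lit 836) (nat_lit 6) (nat_lit 11) (nat_lit 2) (nat_lit 162) (nat_lit 164) (nat_lit 124)) (PT.nd (nat_lit 78) (PT.lf (nat_lit 760)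 (nat_lit 6) (nat_lit 10) (nat_lit 2) (nat_lit 163) (nat_lit 164) (nat_lit 123)) (PT.lf (nat_lit 684) (nat_lit 3) (nat_lit 9) (nat_lit 0) (nat_lit 164) (nat_lit 164) (nat_lit 122)))) (PT.nd (nat_lit 78) (PT.lf (nat_lit 532) (nat_lit 6) (nat_lit 7) (nat_lit 0) (nat_lit 165) (nat_lit 164) (nat_lit 121)) (PT.nd (nat_lit 43134) (PT.lf (nat_lit 380) (nat_lit 6) (nat_lit 5) (nat_lit 0) (nat_lit 166) (nat_lit 164) (nat_lit 120)) (PT.lf (nat_lit 152) (nat_lit 6) (nat_lit 2) (nat_lit 5) (nat_lit 118) (nat_lit 165) (nat_lit 167))))) (PT.nd (nat_lit 234) (PT.nd (nat_lit 78) (PT.lf (nat_lit 304) (nat_lit 6) (nat_lit 4) (nat_lit 5) (nat_lit 119) (nat_lit 165) (nat_lit 166)) (PT.nd (nat_lit 78) (PT.lf (nat_lit 456) (nat_lit 3) (nat_lit 6) (nat_lit 4) (nat_lit 120) (nat_lit 165) (nat_lit 165)) (PT.lf (nat_lit 532) (nat_lit 6) (nat_lit 7) (nat_lit 4) (nat_lit 121) (nat_lit 165) (nat_lit 164)))) (PT.nd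 (nat_lit 3276) (PT.nd (nat_lit 3198) (PT.lf (nat_lit 608) (nat_lit 6) (nat_lit 8) (nat_lit 4) (nat_lit 122) (nat_lit 165) (nat_lit 163)) (PT.lf (nat_lit 608) (nat_lit 6) (nat_lit 8) (nat_lit 2) (nat_lit 163) (nat_lit 165) (nat_lit 122))) (PT.nd (nat_lit 78) (PT.lf (nat_lit 532) (nat_lit 6) (nat_lit 7) (nat_lit 2) (nat_lit 164) (nat_lit 165) (nat_lit 121)) (PT.lf (nat_lit 456) (nat_lit 3) (nat_lit 6) (nat_lit 0) (nat_lit 165) (nat_lit 165) (nat_lit 120)))))) (PT.nd (nat_lit 46800) (PT.nd (nat_lit 43134) (PT.nd (nat_lit 78) (PT.lf (nat_lit 304) (nat_lit 6) (nat_lit 4) (nat_lit 0) (nat_lit 166) (nat_lit 165) (nat_lit 119)) (PT.nd (nat_lit 42978) (PT.lf (nat_lit 152) (nat_lit 6) (nat_lit 2) (nat_lit 0) (nat_lit 167) (nat_lit 165) (nat_lit 118)) (PT.lf (nat_lit 76) (nat_lit 6) (nat_lit 1) (nat_lit 5) (nat_lit 117) (nat_lit 166) (nat_lit 167)))) (PT.nd (nat_lit 156) (PT.nd (nat_lit 78) (PT.lf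 (nat_lit 228) (nat_lit 3) (nat_lit 3) (nat_lit 4) (nat_lit 118) (nat_lit 166) (nat_lit 166)) (PT.lf (nat_lit 304) (nat_lit 6) (nat_lit 4) (nat_lit 4) (nat_lit 119) (nat_lit 166) (nat_lit 165))) (PT.nd (nat_lit 3432) (PT.lf (nat_lit 380) (nat_lit 6) (nat_lit 5) (nat_lit 4) (nat_lit 120) (nat_lit 166) (nat_lit 164)) (PT.lf (nat_lit 380) (nat_lit 6) (nat_lit 5) (nat_lit 2) (nat_lit 164) (nat_lit 166) (nat_lit 120))))) (PT.nd (nat_lit 43134) (PT.nd (nat_lit 78) (PT.lf (nat_lit 304) (nat_lit 6) (nat_lit 4) (nat_lit 2) (nat_lit 165) (nat_lit 166) (nat_lit 119)) (PT.nd (nat_lit 78) (PT.lf (nat_lit 228) (nat_lit 3) (nat_lit 3) (nat_lit 0) (nat_lit 166) (nat_lit 166) (nat_lit 118)) (PT.lf (nat_lit 76) (nat_lit 6) (nat_lit 1) (nat_lit 0) (nat_lit 167) (nat_lit 166) (nat_lit 117)))) (PT.nd (nat_lit 3744) (PT.nd (nat_lit 78) (PT.lf (nat_lit 76) (nat_lit 6) (nat_lit 1) (nat_lit 4) (nat_lit 117) (nat_lit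 167) (nat_lit 166)) (PT.lf (nat_lit 152) (nat_lit 6) (nat_lit 2) (nat_lit 4) (nat_lit 118) (nat_lit 167) (nat_lit 165))) (PT.nd (nat_lit 78) (PT.lf (nat_lit 152) (nat_lit 6) (nat_lit 2) (nat_lit 2) (nat_lit 165) (nat_lit 167) (nat_lit 118)) (PT.lf (nat_lit 76) (nat_lit 6) (nat_lit 1) (nat_lit 2) (nat_lit 166) (nat_lit 167) (nat_lit 117))))))))
noncomputable def xc0 : XT := (XT.nd (nat_lit 187044) (nat_lit 0) (nat_lit 0) (XT.nd (nat_lit 140166) (nat_lit 0) (nat_lit 0) (XT.nd (nat_lit 93444) (nat_lit 0) (nat_lit 0) (XT.nd (nat_lit 46800) (nat_lit 0) (nat_lit 0) (XT.nd (nat_lit 46722) (nat_lit 0) (nat_lit 0) (XT.lf (nat_lit 0) (nat_lit 1888710532137) (nat_lit 152) (nat_lit 158542145021) (nat_lit 0) (nat_lit 1888710532137) (nat_lit 1) (nat_lit 5) (nat_lit 3) (nat_lit 4) (nat_lit 1) (nat_lit 4) (nat_lit 418) (nat_lit 241) (nat_lit 241)) (XT.lf (nat_lit 0) (nat_lit 1618880579488) (nat_lit 152)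 (nat_lit 136724766803) (nat_lit 0) (nat_lit 1618880579488) (nat_lit 1) (nat_lit 5) (nat_lit 3) (nat_lit 4) (nat_lit 1) (nat_lit 4) (nat_lit 416) (nat_lit 242) (nat_lit 242))) (XT.nd (nat_lit 78) (nat_lit 0) (nat_lit 0) (XT.lf (nat_lit 0) (nat_lit 3497223195653) (nat_lit 152) (nat_lit 294416720848) (nat_lit 0) (nat_lit 3497213498015) (nat_lit 1) (nat_lit 5) (nat_lit 3) (nat_lit 4) (nat_lit 1) (nat_lit 4) (nat_lit 417) (nat_lit 242) (nat_lit 241)) (XT.lf (nat_lit 0) (nat_lit 3777420175474) (nat_lit 152) (nat_lit 317105592795) (nat_lit 0) (nat_lit 3777401498543) (nat_lit 1) (nat_lit 5) (nat_lit 3) (nat_lit 4) (nat_lit 1) (nat_lit 4) (nat_lit 418) (nat_lit 242) (nat_lit 240)))) (XT.nd (nat_lit 156) (nat_lit 0) (nat_lit 0) (XT.nd (nat_lit 78) (nat_lit 0) (nat_lit 0) (XT.lf (nat_lit 0) (nat_lit 1387514143800) (nat_lit 152) (nat_lit 118083915997) (nat_lit 0) (nat_lit 1387514143800) (nat_lit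 1) (nat_lit 5) (nat_lit 3) (nat_lit 4) (nat_lit 1) (nat_lit 4) (nat_lit 414) (nat_lit 243) (nat_lit 243)) (XT.lf (nat_lit 0) (nat_lit 2997506986083) (nat_lit 152) (nat_lit 254079781072) (nat_lit 0) (nat_lit 2997496512634) (nat_lit 1) (nat_lit 5) (nat_lit 3) (nat_lit 4) (nat_lit 1) (nat_lit 4) (nat_lit 415) (nat_lit 243) (nat_lit 242))) (XT.nd (nat_lit 78) (nat_lit 0) (nat_lit 0) (XT.lf (nat_lit 0) (nat_lit 3237760199072) (nat_lit 152) (nat_lit 273472540580) (nat_lit 0) (nat_lit 3237740027987) (nat_lit 1) (nat_lit 5) (nat_lit 3) (nat_lit 4) (nat_lit 1) (nat_lit 4) (nat_lit 416) (nat_lit 243) (nat_lit 241)) (XT.nd (nat_lit 78) (nat_lit 0) (nat_lit 0) (XT.lf (nat_lit 0) (nat_lit 3497211649312) (nat_lit 152) (nat_lit 294461030574) (nat_lit 0) (nat_lit 3497182498932) (nat_lit 1) (nat_lit 5) (nat_lit 3) (nat_lit 4) (nat_lit 1) (nat_lit 4) (nat_lit 417) (nat_lit 243) (nat_lit 240)) (XT.lf (nat_lit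 0) (nat_lit 3777398826877) (nat_lit 152) (nat_lit 317169627293) (nat_lit 0) (nat_lit 3777361362336) (nat_lit 1) (nat_lit 5) (nat_lit 3) (nat_lit 4) (nat_lit 1) (nat_lit 4) (nat_lit 418) (nat_lit 243) (nat_lit 239)))))) (XT.nd (nat_lit 312) (nat_lit 0) (nat_lit 0) (XT.nd (nat_lit 156) (nat_lit 0) (nat_lit 0) (XT.nd (nat_lit 78) (nat_lit 0) (nat_lit 0) (XT.lf (nat_lit 0) (nat_lit 1189121514975) (nat_lit 152) (nat_lit 102171548216) (nat_lit 0) (nat_lit 1189121514975) (nat_lit 1) (nat_lit 5) (nat_lit 3) (nat_lit 4) (nat_lit 1) (nat_lit 4) (nat_lit 412) (nat_lit 244) (nat_lit 244)) (XT.lf (nat_lit 0) (nat_lit 2569017022660) (nat_lit 152) (nat_lit 219630548466) (nat_lit 0) (nat_lit 2569005711336) (nat_lit 1) (nat_lit 5) (nat_lit 3) (nat_lit 4) (nat_lit 1) (nat_lit 4) (nat_lit 413) (nat_lit 244) (nat_lit 243))) (XT.nd (nat_lit 78) (nat_lit 0) (nat_lit 0) (XT.lf (nat_lit 0) (nat_lit 2775027250904)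 (nat_lit 152) (nat_lit 236192679526) (nat_lit 0) (nat_lit 2775005466131) (nat_lit 1) (nat_lit 5) (nat_lit 3) (nat_lit 4) (nat_lit 1) (nat_lit 4) (nat_lit 414) (nat_lit 244) (nat_lit 242)) (XT.lf (nat_lit 0) (nat_lit 2997494516035) (nat_lit 152) (nat_lit 254127635577) (nat_lit 0) (nat_lit 2997463033625) (nat_lit 1) (nat_lit 5) (nat_lit 3) (nat_lit 4) (nat_lit 1) (nat_lit 4) (nat_lit 415) (nat_lit 244) (nat_lit 241)))) (XT.nd (nat_lit 156) (nat_lit 0) (nat_lit 0) (XT.nd (nat_lit 78) (nat_lit 0) (nat_lit 0) (XT.lf (nat_lit 0) (nat_lit 3237737142587) (nat_lit 152) (nat_lit 273541697837) (nat_lit 0) (nat_lit 3237696680883) (nat_lit 1) (nat_lit 5) (nat_lit 3) (nat_lit 4) (nat_lit 1) (nat_lit 4) (nat_lit 416) (nat_lit 244) (nat_lit 240)) (XT.lf (nat_lit 0) (nat_lit 3497178790570) (nat_lit 152) (nat_lit 294549912603) (nat_lit 0) (nat_lit 3497130014705) (nat_lit 1) (nat_lit 5) (nat_lit 3) (nat_lit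 4) (nat_lit 1) (nat_lit 4) (nat_lit 417) (nat_lit 244) (nat_lit 239))) (XT.nd (nat_lit 46254) (nat_lit 0) (nat_lit 0) (XT.lf (nat_lit 0) (nat_lit 3777356891971) (nat_lit 152) (nat_lit 317276772999) (nat_lit 0) (nat_lit 3777300417810) (nat_lit 1) (nat_lit 5) (nat_lit 3) (nat_lit 4) (nat_lit 1) (nat_lit 4) (nat_lit 418) (nat_lit 244) (nat_lit 238)) (XT.nd (nat_lit 78) (nat_lit 0) (nat_lit 0) (XT.lf (nat_lit 0) (nat_lit 1018995954684) (nat_lit 152) (nat_lit 88603947432) (nat_lit 0) (nat_lit 1018995954684) (nat_lit 1) (nat_lit 5) (nat_lit 3) (nat_lit 4) (nat_lit 1) (nat_lit 4) (nat_lit 410) (nat_lit 245) (nat_lit 245)) (XT.lf (nat_lit 0) (nat_lit 2201586976457) (nat_lit 152) (nat_lit 190239731118) (nat_lit 0) (nat_lit 2201574760227) (nat_lit 1) (nat_lit 5) (nat_lit 3) (nat_lit 4) (nat_lit 1) (nat_lit 4) (nat_lit 411) (nat_lit 245) (nat_lit 244))))))) (XT.nd (nat_lit 46722) (nat_lit 0) (nat_lit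 0) (XT.nd (nat_lit 312) (nat_lit 0) (nat_lit 0) (XT.nd (nat_lit 156) (nat_lit 0) (nat_lit 0) (XT.nd (nat_lit 78) (nat_lit 0) (nat_lit 0) (XT.lf (nat_lit 0) (nat_lit 2378241910319) (nat_lit 152) (nat_lit 204369931766) (nat_lit 0) (nat_lit 2378218382765) (nat_lit 1) (nat_lit 5) (nat_lit 3) (nat_lit 4) (nat_lit 1) (nat_lit 4) (nat_lit 412) (nat_lit 245) (nat_lit 243)) (XT.lf (nat_lit 0) (nat_lit 2569003555008) (nat_lit 152) (nat_lit 219682231331) (nat_lit 0) (nat_lit 2568969554005) (nat_lit 1) (nat_lit 5) (nat_lit 3) (nat_lit 4) (nat_lit 1) (nat_lit 4) (nat_lit 413) (nat_lit 245) (nat_lit 242))) (XT.nd (nat_lit 78) (nat_lit 0) (nat_lit 0) (XT.lf (nat_lit 0) (nat_lit 2775002349900) (nat_lit 152) (nat_lit 236267369365) (nat_lit 0) (nat_lit 2774958651260) (nat_lit 1) (nat_lit 5) (nat_lit 3) (nat_lit 4) (nat_lit 1) (nat_lit 4) (nat_lit 414) (nat_lit 245) (nat_lit 241)) (XT.lf (nat_lit 0) (nat_lit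 2997459028593) (nat_lit 152) (nat_lit 254223628168) (nat_lit 0) (nat_lit 2997406350660) (nat_lit 1) (nat_lit 5) (nat_lit 3) (nat_lit 4) (nat_lit 1) (nat_lit 4) (nat_lit 415) (nat_lit 245) (nat_lit 240)))) (XT.nd (nat_lit 156) (nat_lit 0) (nat_lit 0) (XT.nd (nat_lit 78) (nat_lit 0) (nat_lit 0) (XT.lf (nat_lit 0) (nat_lit 3237691852889) (nat_lit 152) (nat_lit 273657415200) (nat_lit 0) (nat_lit 3237630860795) (nat_lit 1) (nat_lit 5) (nat_lit 3) (nat_lit 4) (nat_lit 1) (nat_lit 4) (nat_lit 416) (nat_lit 245) (nat_lit 239)) (XT.lf (nat_lit 0) (nat_lit 3497124424709) (nat_lit 152) (nat_lit 294683893643) (nat_lit 0) (nat_lit 3497055734317) (nat_lit 1) (nat_lit 5) (nat_lit 3) (nat_lit 4) (nat_lit 1) (nat_lit 4) (nat_lit 417) (nat_lit 245) (nat_lit 238))) (XT.nd (nat_lit 46098) (nat_lit 0) (nat_lit 0) (XT.lf (nat_lit 0) (nat_lit 3777294122255) (nat_lit 152) (nat_lit 317427664851) (nat_lit 0) (nat_lit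 3777218303810) (nat_lit 1) (nat_lit 5) (nat_lit 3) (nat_lit 4) (nat_lit 1) (nat_lit 4) (nat_lit 418) (nat_lit 245) (nat_lit 237)) (XT.nd (nat_lit 78) (nat_lit 0) (nat_lit 0) (XT.lf (nat_lit 0) (nat_lit 873101980949) (nat_lit 152) (nat_lit 77052581607) (nat_lit 0) (nat_lit 873101980949) (nat_lit 1) (nat_lit 5) (nat_lit 3) (nat_lit 4) (nat_lit 1) (nat_lit 4) (nat_lit 408) (nat_lit 246) (nat_lit 246)) (XT.lf (nat_lit 0) (nat_lit 1886500450335) (nat_lit 152) (nat_lit 165197197310) (nat_lit 0) (nat_lit 1886487256806) (nat_lit 1) (nat_lit 5) (nat_lit 3) (nat_lit 4) (nat_lit 1) (nat_lit 4) (nat_lit 409) (nat_lit 246) (nat_lit 245)))))) (XT.nd (nat_lit 312) (nat_lit 0) (nat_lit 0) (XT.nd (nat_lit 156) (nat_lit 0) (nat_lit 0) (XT.nd (nat_lit 78) (nat_lit 0) (nat_lit 0) (XT.lf (nat_lit 0) (nat_lit 2037990700167) (nat_lit 152) (nat_lit 177236877026) (nat_lit 0) (nat_lit 2037965290408) (nat_lit 1)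 (nat_lit 5) (nat_lit 3) (nat_lit 4) (nat_lit 1) (nat_lit 4) (nat_lit 410) (nat_lit 246) (nat_lit 244)) (XT.lf (nat_lit 0) (nat_lit 2201572431393) (nat_lit 152) (nat_lit 190295548613) (nat_lit 0) (nat_lit 2201535710310) (nat_lit 1) (nat_lit 5) (nat_lit 3) (nat_lit 4) (nat_lit 1) (nat_lit 4) (nat_lit 411) (nat_lit 246) (nat_lit 243))) (XT.nd (nat_lit 78) (nat_lit 0) (nat_lit 0) (XT.lf (nat_lit 0) (nat_lit 2378215017234) (nat_lit 152) (nat_lit 204450596791) (nat_lit 0) (nat_lit 2378167822703) (nat_lit 1) (nat_lit 5) (nat_lit 3) (nat_lit 4) (nat_lit 1) (nat_lit 4) (nat_lit 412) (nat_lit 246) (nat_lit 242)) (XT.lf (nat_lit 0) (nat_lit 2568965228571) (nat_lit 152) (nat_lit 219785903329) (nat_lit 0) (nat_lit 2568908336403) (nat_lit 1) (nat_lit 5) (nat_lit 3) (nat_lit 4) (nat_lit 1) (nat_lit 4) (nat_lit 413) (nat_lit 246) (nat_lit 241)))) (XT.nd (nat_lit 156) (nat_lit 0) (nat_lit 0) (XT.nd (nat_lit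 78) (nat_lit 0) (nat_lit 0) (XT.lf (nat_lit 0) (nat_lit 2774953437026) (nat_lit 152) (nat_lit 236392344116) (nat_lit 0) (nat_lit 2774887565564) (nat_lit 1) (nat_lit 5) (nat_lit 3) (nat_lit 4) (nat_lit 1) (nat_lit 4) (nat_lit 414) (nat_lit 246) (nat_lit 240)) (XT.lf (nat_lit 0) (nat_lit 2997400313463) (nat_lit 152) (nat_lit 254368327691) (nat_lit 0) (nat_lit 2997326127840) (nat_lit 1) (nat_lit 5) (nat_lit 3) (nat_lit 4) (nat_lit 1) (nat_lit 4) (nat_lit 415) (nat_lit 246) (nat_lit 239))) (XT.nd (nat_lit 78) (nat_lit 0) (nat_lit 0) (XT.lf (nat_lit 0) (nat_lit 3237624061596) (nat_lit 152) (nat_lit 273820378400) (nat_lit 0) (nat_lit 3237542177675) (nat_lit 1) (nat_lit 5) (nat_lit 3) (nat_lit 4) (nat_lit 1) (nat_lit 4) (nat_lit 416) (nat_lit 246) (nat_lit 238)) (XT.nd (nat_lit 78) (nat_lit 0) (nat_lit 0) (XT.lf (nat_lit 0) (nat_lit 3497048229560) (nat_lit 152) (nat_lit 294863767656) (nat_lit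 0) (nat_lit 3496959217587) (nat_lit 1) (nat_lit 5) (nat_lit 3) (nat_lit 4) (nat_lit 1) (nat_lit 4) (nat_lit 417) (nat_lit 246) (nat_lit 237)) (XT.lf (nat_lit 0) (nat_lit 3777210145759) (nat_lit 152) (nat_lit 317623197023) (nat_lit 0) (nat_lit 3777114533737) (nat_lit 1) (nat_lit 5) (nat_lit 3) (nat_lit 4) (nat_lit 1) (nat_lit 4) (nat_lit 418) (nat_lit 246) (nat_lit 236))))))))
noncomputable def xc1 : XT := (XT.nd (nat_lit 47112) (nat_lit 0) (nat_lit 0) (XT.nd (nat_lit 702) (nat_lit 0) (nat_lit 0) (XT.nd (nat_lit 312) (nat_lit 0) (nat_lit 0) (XT.nd (nat_lit 156) (nat_lit 0) (nat_lit 0) (XT.nd (nat_lit 78) (nat_lit 0) (nat_lit 0) (XT.lf (nat_lit 0) (nat_lit 747979588918) (nat_lit 152) (nat_lit 67236265486) (nat_lit 0) (nat_lit 747979588918) (nat_lit 1) (nat_lit 5) (nat_lit 3) (nat_lit 4) (nat_lit 1) (nat_lit 4) (nat_lit 406) (nat_lit 247) (nat_lit 247)) (XT.lf (nat_lit 0) (nat_lit 1616284097268)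 (nat_lit 152) (nat_lit 143895044170) (nat_lit 0) (nat_lit 1616269848257) (nat_lit 1) (nat_lit 5) (nat_lit 3) (nat_lit 4) (nat_lit 1) (nat_lit 4) (nat_lit 407) (nat_lit 247) (nat_lit 246))) (XT.nd (nat_lit 78) (nat_lit 0) (nat_lit 0) (XT.lf (nat_lit 0) (nat_lit 1746202655959) (nat_lit 152) (nat_lit 154136463949) (nat_lit 0) (nat_lit 1746175213420) (nat_lit 1) (nat_lit 5) (nat_lit 3) (nat_lit 4) (nat_lit 1) (nat_lit 4) (nat_lit 408) (nat_lit 247) (nat_lit 245)) (XT.lf (nat_lit 0) (nat_lit 1886484741665) (nat_lit 152) (nat_lit 165257480204) (nat_lit 0) (nat_lit 1886445082896) (nat_lit 1) (nat_lit 5) (nat_lit 3) (nat_lit 4) (nat_lit 1) (nat_lit 4) (nat_lit 409) (nat_lit 247) (nat_lit 244)))) (XT.nd (nat_lit 156) (nat_lit 0) (nat_lit 0) (XT.nd (nat_lit 78) (nat_lit 0) (nat_lit 0) (XT.lf (nat_lit 0) (nat_lit 2037961655636) (nat_lit 152) (nat_lit 177323995253) (nat_lit 0) (nat_lit 2037910685542)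 (nat_lit 1) (nat_lit 5) (nat_lit 3) (nat_lit 4) (nat_lit 1) (nat_lit 4) (nat_lit 410) (nat_lit 247) (nat_lit 243)) (XT.lf (nat_lit 0) (nat_lit 2201531038841) (nat_lit 152) (nat_lit 190407514371) (nat_lit 0) (nat_lit 2201469595299) (nat_lit 1) (nat_lit 5) (nat_lit 3) (nat_lit 4) (nat_lit 1) (nat_lit 4) (nat_lit 411) (nat_lit 247) (nat_lit 242))) (XT.nd (nat_lit 78) (nat_lit 0) (nat_lit 0) (XT.lf (nat_lit 0) (nat_lit 2378162191331) (nat_lit 152) (nat_lit 204585569523) (nat_lit 0) (nat_lit 2378091050152) (nat_lit 1) (nat_lit 5) (nat_lit 3) (nat_lit 4) (nat_lit 1) (nat_lit 4) (nat_lit 412) (nat_lit 247) (nat_lit 241)) (XT.nd (nat_lit 78) (nat_lit 0) (nat_lit 0) (XT.lf (nat_lit 0) (nat_lit 2568901816231) (nat_lit 152) (nat_lit 219942178814) (nat_lit 0) (nat_lit 2568821695758) (nat_lit 1) (nat_lit 5) (nat_lit 3) (nat_lit 4) (nat_lit 1) (nat_lit 4) (nat_lit 413) (nat_lit 247) (nat_lit 240))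 (XT.lf (nat_lit 0) (nat_lit 2774880222429) (nat_lit 152) (nat_lit 236568344373) (nat_lit 0) (nat_lit 2774791787795) (nat_lit 1) (nat_lit 5) (nat_lit 3) (nat_lit 4) (nat_lit 1) (nat_lit 4) (nat_lit 414) (nat_lit 247) (nat_lit 239)))))) (XT.nd (nat_lit 46020) (nat_lit 0) (nat_lit 0) (XT.nd (nat_lit 156) (nat_lit 0) (nat_lit 0) (XT.nd (nat_lit 78) (nat_lit 0) (nat_lit 0) (XT.lf (nat_lit 0) (nat_lit 2997318022703) (nat_lit 152) (nat_lit 254562591625) (nat_lit 0) (nat_lit 2997221889772) (nat_lit 1) (nat_lit 5) (nat_lit 3) (nat_lit 4) (nat_lit 1) (nat_lit 4) (nat_lit 415) (nat_lit 247) (nat_lit 238)) (XT.lf (nat_lit 0) (nat_lit 3237533366980) (nat_lit 152) (nat_lit 274031553146) (nat_lit 0) (nat_lit 3237430105996) (nat_lit 1) (nat_lit 5) (nat_lit 3) (nat_lit 4) (nat_lit 1) (nat_lit 4) (nat_lit 416) (nat_lit 247) (nat_lit 237))) (XT.nd (nat_lit 78) (nat_lit 0) (nat_lit 0) (XT.lf (nat_lit 0)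 (nat_lit 3496949753597) (nat_lit 152) (nat_lit 295090600561) (nat_lit 0) (nat_lit 3496839892564) (nat_lit 1) (nat_lit 5) (nat_lit 3) (nat_lit 4) (nat_lit 1) (nat_lit 4) (nat_lit 417) (nat_lit 247) (nat_lit 236)) (XT.lf (nat_lit 0) (nat_lit 3777104464845) (nat_lit 152) (nat_lit 317864528224) (nat_lit 0) (nat_lit 3776988492655) (nat_lit 1) (nat_lit 5) (nat_lit 3) (nat_lit 4) (nat_lit 1) (nat_lit 4) (nat_lit 418) (nat_lit 247) (nat_lit 235)))) (XT.nd (nat_lit 156) (nat_lit 0) (nat_lit 0) (XT.nd (nat_lit 78) (nat_lit 0) (nat_lit 0) (XT.lf (nat_lit 0) (nat_lit 640662134267) (nat_lit 152) (nat_lit 58914444288) (nat_lit 0) (nat_lit 640662134267) (nat_lit 1) (nat_lit 5) (nat_lit 3) (nat_lit 4) (nat_lit 1) (nat_lit 4) (nat_lit 404) (nat_lit 248) (nat_lit 248)) (XT.lf (nat_lit 0) (nat_lit 1384530250038) (nat_lit 152) (nat_lit 125813087240) (nat_lit 0) (nat_lit 1384514861106) (nat_lit 1) (nat_lit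 5) (nat_lit 3) (nat_lit 4) (nat_lit 1) (nat_lit 4) (nat_lit 405) (nat_lit 248) (nat_lit 247))) (XT.nd (nat_lit 78) (nat_lit 0) (nat_lit 0) (XT.lf (nat_lit 0) (nat_lit 1495957767423) (nat_lit 152) (nat_lit 134506335764) (nat_lit 0) (nat_lit 1495928129481) (nat_lit 1) (nat_lit 5) (nat_lit 3) (nat_lit 4) (nat_lit 1) (nat_lit 4) (nat_lit 406) (nat_lit 248) (nat_lit 246)) (XT.nd (nat_lit 78) (nat_lit 0) (nat_lit 0) (XT.lf (nat_lit 0) (nat_lit 1616267131905) (nat_lit 152) (nat_lit 143960149695) (nat_lit 0) (nat_lit 1616224300434) (nat_lit 1) (nat_lit 5) (nat_lit 3) (nat_lit 4) (nat_lit 1) (nat_lit 4) (nat_lit 407) (nat_lit 248) (nat_lit 245)) (XT.lf (nat_lit 0) (nat_lit 1746171287865) (nat_lit 152) (nat_lit 154230551634) (nat_lit 0) (nat_lit 1746116240165) (nat_lit 1) (nat_lit 5) (nat_lit 3) (nat_lit 4) (nat_lit 1) (nat_lit 4) (nat_lit 408) (nat_lit 248) (nat_lit 244))))))) (XT.nd (nat_lit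 702) (nat_lit 0) (nat_lit 0) (XT.nd (nat_lit 312) (nat_lit 0) (nat_lit 0) (XT.nd (nat_lit 156) (nat_lit 0) (nat_lit 0) (XT.nd (nat_lit 78) (nat_lit 0) (nat_lit 0) (XT.lf (nat_lit 0) (nat_lit 1886440037710) (nat_lit 152) (nat_lit 165378403223) (nat_lit 0) (nat_lit 1886373678685) (nat_lit 1) (nat_lit 5) (nat_lit 3) (nat_lit 4) (nat_lit 1) (nat_lit 4) (nat_lit 409) (nat_lit 248) (nat_lit 243)) (XT.lf (nat_lit 0) (nat_lit 2037904603660) (nat_lit 152) (nat_lit 177469765803) (nat_lit 0) (nat_lit 2037827771186) (nat_lit 1) (nat_lit 5) (nat_lit 3) (nat_lit 4) (nat_lit 1) (nat_lit 4) (nat_lit 410) (nat_lit 248) (nat_lit 242))) (XT.nd (nat_lit 78) (nat_lit 0) (nat_lit 0) (XT.lf (nat_lit 0) (nat_lit 2201462553513) (nat_lit 152) (nat_lit 190576291895) (nat_lit 0) (nat_lit 2201376023403) (nat_lit 1) (nat_lit 5) (nat_lit 3) (nat_lit 4) (nat_lit 1) (nat_lit 4) (nat_lit 411) (nat_lit 248) (nat_lit 241))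 (XT.lf (nat_lit 0) (nat_lit 2378083119566) (nat_lit 152) (nat_lit 204775649800) (nat_lit 0) (nat_lit 2377987610162) (nat_lit 1) (nat_lit 5) (nat_lit 3) (nat_lit 4) (nat_lit 1) (nat_lit 4) (nat_lit 412) (nat_lit 248) (nat_lit 240)))) (XT.nd (nat_lit 156) (nat_lit 0) (nat_lit 0) (XT.nd (nat_lit 78) (nat_lit 0) (nat_lit 0) (XT.lf (nat_lit 0) (nat_lit 2568812942209) (nat_lit 152) (nat_lit 220151983863) (nat_lit 0) (nat_lit 2568709118644) (nat_lit 1) (nat_lit 5) (nat_lit 3) (nat_lit 4) (nat_lit 1) (nat_lit 4) (nat_lit 413) (nat_lit 248) (nat_lit 239)) (XT.lf (nat_lit 0) (nat_lit 2774782272244) (nat_lit 152) (nat_lit 236796413098) (nat_lit 0) (nat_lit 2774670750381) (nat_lit 1) (nat_lit 5) (nat_lit 3) (nat_lit 4) (nat_lit 1) (nat_lit 4) (nat_lit 414) (nat_lit 248) (nat_lit 238))) (XT.nd (nat_lit 78) (nat_lit 0) (nat_lit 0) (XT.lf (nat_lit 0) (nat_lit 2997211668663) (nat_lit 152) (nat_lit 254807571162)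 (nat_lit 0) (nat_lit 2997093018747) (nat_lit 1) (nat_lit 5) (nat_lit 3) (nat_lit 4) (nat_lit 1) (nat_lit 4) (nat_lit 415) (nat_lit 248) (nat_lit 237)) (XT.nd (nat_lit 78) (nat_lit 0) (nat_lit 0) (XT.lf (nat_lit 0) (nat_lit 3237419231593) (nat_lit 152) (nat_lit 274292190843) (nat_lit 0) (nat_lit 3237293981628) (nat_lit 1) (nat_lit 5) (nat_lit 3) (nat_lit 4) (nat_lit 1) (nat_lit 4) (nat_lit 416) (nat_lit 248) (nat_lit 236)) (XT.lf (nat_lit 0) (nat_lit 3496828413258) (nat_lit 152) (nat_lit 295365736554) (nat_lit 0) (nat_lit 3496697052137) (nat_lit 1) (nat_lit 5) (nat_lit 3) (nat_lit 4) (nat_lit 1) (nat_lit 4) (nat_lit 417) (nat_lit 248) (nat_lit 235)))))) (XT.nd (nat_lit 45864) (nat_lit 0) (nat_lit 0) (XT.nd (nat_lit 45708) (nat_lit 0) (nat_lit 0) (XT.nd (nat_lit 45630) (nat_lit 0) (nat_lit 0) (XT.lf (nat_lit 0) (nat_lit 3776976453255) (nat_lit 152) (nat_lit 318153088565) (nat_lit 0) (nat_lit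 3776839433656) (nat_lit 1) (nat_lit 5) (nat_lit 3) (nat_lit 4) (nat_lit 1) (nat_lit 4) (nat_lit 418) (nat_lit 248) (nat_lit 234)) (XT.lf (nat_lit 0) (nat_lit 548605929970) (nat_lit 152) (nat_lit 51881438619) (nat_lit 0) (nat_lit 548605929970) (nat_lit 1) (nat_lit 5) (nat_lit 3) (nat_lit 4) (nat_lit 1) (nat_lit 4) (nat_lit 402) (nat_lit 249) (nat_lit 249))) (XT.nd (nat_lit 78) (nat_lit 0) (nat_lit 0) (XT.lf (nat_lit 0) (nat_lit 1185744851959) (nat_lit 152) (nat_lit 110506426002) (nat_lit 0) (nat_lit 1185728231912) (nat_lit 1) (nat_lit 5) (nat_lit 3) (nat_lit 4) (nat_lit 1) (nat_lit 4) (nat_lit 403) (nat_lit 249) (nat_lit 248)) (XT.lf (nat_lit 0) (nat_lit 1281322745288) (nat_lit 152) (nat_lit 117865397751) (nat_lit 0) (nat_lit 1281290736310) (nat_lit 1) (nat_lit 5) (nat_lit 3) (nat_lit 4) (nat_lit 1) (nat_lit 4) (nat_lit 404) (nat_lit 249) (nat_lit 247)))) (XT.nd (nat_lit 156) (nat_lit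 0) (nat_lit 0) (XT.nd (nat_lit 78) (nat_lit 0) (nat_lit 0) (XT.lf (nat_lit 0) (nat_lit 1384511927446) (nat_lit 152) (nat_lit 125883401207) (nat_lit 0) (nat_lit 1384465669458) (nat_lit 1) (nat_lit 5) (nat_lit 3) (nat_lit 4) (nat_lit 1) (nat_lit 4) (nat_lit 405) (nat_lit 249) (nat_lit 246)) (XT.lf (nat_lit 0) (nat_lit 1495923889882) (nat_lit 152) (nat_lit 134607950464) (nat_lit 0) (nat_lit 1495864438365) (nat_lit 1) (nat_lit 5) (nat_lit 3) (nat_lit 4) (nat_lit 1) (nat_lit 4) (nat_lit 406) (nat_lit 249) (nat_lit 245))) (XT.nd (nat_lit 78) (nat_lit 0) (nat_lit 0) (XT.lf (nat_lit 0) (nat_lit 1616218851633) (nat_lit 152) (nat_lit 144090746556) (nat_lit 0) (nat_lit 1616147183886) (nat_lit 1) (nat_lit 5) (nat_lit 3) (nat_lit 4) (nat_lit 1) (nat_lit 4) (nat_lit 407) (nat_lit 249) (nat_lit 244)) (XT.nd (nat_lit 78) (nat_lit 0) (nat_lit 0) (XT.lf (nat_lit 0) (nat_lit 1746109671732) (nat_lit 152)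 (nat_lit 154387983829) (nat_lit 0) (nat_lit 1746026692660) (nat_lit 1) (nat_lit 5) (nat_lit 3) (nat_lit 4) (nat_lit 1) (nat_lit 4) (nat_lit 408) (nat_lit 249) (nat_lit 243)) (XT.lf (nat_lit 0) (nat_lit 1886366073556) (nat_lit 152) (nat_lit 165560682949) (nat_lit 0) (nat_lit 1886272621036) (nat_lit 1) (nat_lit 5) (nat_lit 3) (nat_lit 4) (nat_lit 1) (nat_lit 4) (nat_lit 409) (nat_lit 249) (nat_lit 242))))))))
noncomputable def xc2 : XT := (XT.nd (nat_lit 46800) (nat_lit 0) (nat_lit 0) (XT.nd (nat_lit 46098) (nat_lit 0) (nat_lit 0) (XT.nd (nat_lit 312) (nat_lit 0) (nat_lit 0) (XT.nd (nat_lit 156) (nat_lit 0) (nat_lit 0) (XT.nd (nat_lit 78) (nat_lit 0) (nat_lit 0) (XT.lf (nat_lit 0) (nat_lit 2037819206154) (nat_lit 152) (nat_lit 177675052502) (nat_lit 0) (nat_lit 2037716055997) (nat_lit 1) (nat_lit 5) (nat_lit 3) (nat_lit 4) (nat_lit 1) (nat_lit 4) (nat_lit 410) (nat_lit 249) (nat_lit 241))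 (XT.lf (nat_lit 0) (nat_lit 2201366569570) (nat_lit 152) (nat_lit 190802881347) (nat_lit 0) (nat_lit 2201254440119) (nat_lit 1) (nat_lit 5) (nat_lit 3) (nat_lit 4) (nat_lit 1) (nat_lit 4) (nat_lit 411) (nat_lit 249) (nat_lit 240))) (XT.nd (nat_lit 78) (nat_lit 0) (nat_lit 0) (XT.lf (nat_lit 0) (nat_lit 2377977333366) (nat_lit 152) (nat_lit 205021964024) (nat_lit 0) (nat_lit 2377856889755) (nat_lit 1) (nat_lit 5) (nat_lit 3) (nat_lit 4) (nat_lit 1) (nat_lit 4) (nat_lit 412) (nat_lit 249) (nat_lit 239)) (XT.lf (nat_lit 0) (nat_lit 2568698079846) (nat_lit 152) (nat_lit 220416561763) (nat_lit 0) (nat_lit 2568569937937) (nat_lit 1) (nat_lit 5) (nat_lit 3) (nat_lit 4) (nat_lit 1) (nat_lit 4) (nat_lit 413) (nat_lit 249) (nat_lit 238)))) (XT.nd (nat_lit 156) (nat_lit 0) (nat_lit 0) (XT.nd (nat_lit 78) (nat_lit 0) (nat_lit 0) (XT.lf (nat_lit 0) (nat_lit 2774659006025) (nat_lit 152) (nat_lit 237077901811)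 (nat_lit 0) (nat_lit 2774523736064) (nat_lit 1) (nat_lit 5) (nat_lit 3) (nat_lit 4) (nat_lit 1) (nat_lit 4) (nat_lit 414) (nat_lit 249) (nat_lit 237)) (XT.lf (nat_lit 0) (nat_lit 2997080621097) (nat_lit 152) (nat_lit 255104718035) (nat_lit 0) (nat_lit 2996938751086) (nat_lit 1) (nat_lit 5) (nat_lit 3) (nat_lit 4) (nat_lit 1) (nat_lit 4) (nat_lit 415) (nat_lit 249) (nat_lit 236))) (XT.nd (nat_lit 78) (nat_lit 0) (nat_lit 0) (XT.lf (nat_lit 0) (nat_lit 3237280979076) (nat_lit 152) (nat_lit 274603836012) (nat_lit 0) (nat_lit 3237132997909) (nat_lit 1) (nat_lit 5) (nat_lit 3) (nat_lit 4) (nat_lit 1) (nat_lit 4) (nat_lit 416) (nat_lit 249) (nat_lit 235)) (XT.nd (nat_lit 78) (nat_lit 0) (nat_lit 0) (XT.lf (nat_lit 0) (nat_lit 3496683489490) (nat_lit 152) (nat_lit 295690806070) (nat_lit 0) (nat_lit 3496529849845) (nat_lit 1) (nat_lit 5) (nat_lit 3) (nat_lit 4) (nat_lit 1) (nat_lit 4) (nat_lit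 417) (nat_lit 249) (nat_lit 234)) (XT.lf (nat_lit 0) (nat_lit 3776825352403) (nat_lit 152) (nat_lit 318490588033) (nat_lit 0) (nat_lit 3776666473426) (nat_lit 1) (nat_lit 5) (nat_lit 3) (nat_lit 4) (nat_lit 1) (nat_lit 4) (nat_lit 418) (nat_lit 249) (nat_lit 233)))))) (XT.nd (nat_lit 312) (nat_lit 0) (nat_lit 0) (XT.nd (nat_lit 156) (nat_lit 0) (nat_lit 0) (XT.nd (nat_lit 78) (nat_lit 0) (nat_lit 0) (XT.lf (nat_lit 0) (nat_lit 469629885302) (nat_lit 152) (nat_lit 45961513713) (nat_lit 0) (nat_lit 469629885302) (nat_lit 1) (nat_lit 5) (nat_lit 3) (nat_lit 4) (nat_lit 1) (nat_lit 4) (nat_lit 400) (nat_lit 250) (nat_lit 250)) (XT.lf (nat_lit 0) (nat_lit 1015217078933) (nat_lit 152) (nat_lit 97594789691) (nat_lit 0) (nat_lit 1015199129284) (nat_lit 1) (nat_lit 5) (nat_lit 3) (nat_lit 4) (nat_lit 1) (nat_lit 4) (nat_lit 401) (nat_lit 250) (nat_lit 249))) (XT.nd (nat_lit 78) (nat_lit 0) (nat_lit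 0) (XT.lf (nat_lit 0) (nat_lit 1097210214835) (nat_lit 152) (nat_lit 103802307148) (nat_lit 0) (nat_lit 1097175645139) (nat_lit 1) (nat_lit 5) (nat_lit 3) (nat_lit 4) (nat_lit 1) (nat_lit 4) (nat_lit 402) (nat_lit 250) (nat_lit 248)) (XT.lf (nat_lit 0) (nat_lit 1185725063559) (nat_lit 152) (nat_lit 110582365087) (nat_lit 0) (nat_lit 1185675104932) (nat_lit 1) (nat_lit 5) (nat_lit 3) (nat_lit 4) (nat_lit 1) (nat_lit 4) (nat_lit 403) (nat_lit 250) (nat_lit 247)))) (XT.nd (nat_lit 156) (nat_lit 0) (nat_lit 0) (XT.nd (nat_lit 78) (nat_lit 0) (nat_lit 0) (XT.lf (nat_lit 0) (nat_lit 1281286157544) (nat_lit 152) (nat_lit 117975141627) (nat_lit 0) (nat_lit 1281221949905) (nat_lit 1) (nat_lit 5) (nat_lit 3) (nat_lit 4) (nat_lit 1) (nat_lit 4) (nat_lit 404) (nat_lit 250) (nat_lit 246)) (XT.lf (nat_lit 0) (nat_lit 1384459784753) (nat_lit 152) (nat_lit 126024445816) (nat_lit 0) (nat_lit 1384382383586)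 (nat_lit 1) (nat_lit 5) (nat_lit 3) (nat_lit 4) (nat_lit 1) (nat_lit 4) (nat_lit 405) (nat_lit 250) (nat_lit 245))) (XT.nd (nat_lit 78) (nat_lit 0) (nat_lit 0) (XT.lf (nat_lit 0) (nat_lit 1495857344458) (nat_lit 152) (nat_lit 134777977234) (nat_lit 0) (nat_lit 1495767727061) (nat_lit 1) (nat_lit 5) (nat_lit 3) (nat_lit 4) (nat_lit 1) (nat_lit 4) (nat_lit 406) (nat_lit 250) (nat_lit 244)) (XT.nd (nat_lit 78) (nat_lit 0) (nat_lit 0) (XT.lf (nat_lit 0) (nat_lit 1616138970347) (nat_lit 152) (nat_lit 144287608659) (nat_lit 0) (nat_lit 1616038041626) (nat_lit 1) (nat_lit 5) (nat_lit 3) (nat_lit 4) (nat_lit 1) (nat_lit 4) (nat_lit 407) (nat_lit 250) (nat_lit 243)) (XT.lf (nat_lit 0) (nat_lit 1746017442425) (nat_lit 152) (nat_lit 154609693464) (nat_lit 0) (nat_lit 1745906040256) (nat_lit 1) (nat_lit 5) (nat_lit 3) (nat_lit 4) (nat_lit 1) (nat_lit 4) (nat_lit 408) (nat_lit 250) (nat_lit 242)))))))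 (XT.nd (nat_lit 702) (nat_lit 0) (nat_lit 0) (XT.nd (nat_lit 312) (nat_lit 0) (nat_lit 0) (XT.nd (nat_lit 156) (nat_lit 0) (nat_lit 0) (XT.nd (nat_lit 78) (nat_lit 0) (nat_lit 0) (XT.lf (nat_lit 0) (nat_lit 1886262410897) (nat_lit 152) (nat_lit 165805399557) (nat_lit 0) (nat_lit 1886141311091) (nat_lit 1) (nat_lit 5) (nat_lit 3) (nat_lit 4) (nat_lit 1) (nat_lit 4) (nat_lit 409) (nat_lit 250) (nat_lit 241)) (XT.lf (nat_lit 0) (nat_lit 2037704957058) (nat_lit 152) (nat_lit 177941071864) (nat_lit 0) (nat_lit 2037574877957) (nat_lit 1) (nat_lit 5) (nat_lit 3) (nat_lit 4) (nat_lit 1) (nat_lit 4) (nat_lit 410) (nat_lit 250) (nat_lit 240))) (XT.nd (nat_lit 78) (nat_lit 0) (nat_lit 0) (XT.lf (nat_lit 0) (nat_lit 2201242518218) (nat_lit 152) (nat_lit 191088625480) (nat_lit 0) (nat_lit 2201104124956) (nat_lit 1) (nat_lit 5) (nat_lit 3) (nat_lit 4) (nat_lit 1) (nat_lit 4) (nat_lit 411) (nat_lit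 250) (nat_lit 239)) (XT.lf (nat_lit 0) (nat_lit 2377844205850) (nat_lit 152) (nat_lit 205325971834) (nat_lit 0) (nat_lit 2377698114292) (nat_lit 1) (nat_lit 5) (nat_lit 3) (nat_lit 4) (nat_lit 1) (nat_lit 4) (nat_lit 412) (nat_lit 250) (nat_lit 238)))) (XT.nd (nat_lit 156) (nat_lit 0) (nat_lit 0) (XT.nd (nat_lit 78) (nat_lit 0) (nat_lit 0) (XT.lf (nat_lit 0) (nat_lit 2568556548475) (nat_lit 152) (nat_lit 220737480385) (nat_lit 0) (nat_lit 2568403328864) (nat_lit 1) (nat_lit 5) (nat_lit 3) (nat_lit 4) (nat_lit 1) (nat_lit 4) (nat_lit 413) (nat_lit 250) (nat_lit 237)) (XT.lf (nat_lit 0) (nat_lit 2774509693307) (nat_lit 152) (nat_lit 237414478593) (nat_lit 0) (nat_lit 2774349873647) (nat_lit 1) (nat_lit 5) (nat_lit 3) (nat_lit 4) (nat_lit 1) (nat_lit 4) (nat_lit 414) (nat_lit 250) (nat_lit 236))) (XT.nd (nat_lit 78) (nat_lit 0) (nat_lit 0) (XT.lf (nat_lit 0) (nat_lit 2996924103428) (nat_lit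 152) (nat_lit 255455793112) (nat_lit 0) (nat_lit 2996758172611) (nat_lit 1) (nat_lit 5) (nat_lit 3) (nat_lit 4) (nat_lit 1) (nat_lit 4) (nat_lit 415) (nat_lit 250) (nat_lit 235)) (XT.nd (nat_lit 78) (nat_lit 0) (nat_lit 0) (XT.lf (nat_lit 0) (nat_lit 3237117790155) (nat_lit 152) (nat_lit 274968335437) (nat_lit 0) (nat_lit 3236946200860) (nat_lit 1) (nat_lit 5) (nat_lit 3) (nat_lit 4) (nat_lit 1) (nat_lit 4) (nat_lit 416) (nat_lit 250) (nat_lit 234)) (XT.lf (nat_lit 0) (nat_lit 3496514123485) (nat_lit 152) (nat_lit 296067735448) (nat_lit 0) (nat_lit 3496337294859) (nat_lit 1) (nat_lit 5) (nat_lit 3) (nat_lit 4) (nat_lit 1) (nat_lit 4) (nat_lit 417) (nat_lit 250) (nat_lit 233)))))) (XT.nd (nat_lit 45552) (nat_lit 0) (nat_lit 0) (XT.nd (nat_lit 45396) (nat_lit 0) (nat_lit 0) (XT.nd (nat_lit 45318) (nat_lit 0) (nat_lit 0) (XT.lf (nat_lit 0) (nat_lit 3776650266875) (nat_lit 152) (nat_lit 318879026625)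 (nat_lit 0) (nat_lit 3776468587015) (nat_lit 1) (nat_lit 5) (nat_lit 3) (nat_lit 4) (nat_lit 1) (nat_lit 4) (nat_lit 418) (nat_lit 250) (nat_lit 232)) (XT.lf (nat_lit 0) (nat_lit 401863754294) (nat_lit 152) (nat_lit 41004655664) (nat_lit 0) (nat_lit 401863754294) (nat_lit 1) (nat_lit 5) (nat_lit 3) (nat_lit 4) (nat_lit 1) (nat_lit 4) (nat_lit 398) (nat_lit 251) (nat_lit 251))) (XT.nd (nat_lit 78) (nat_lit 0) (nat_lit 0) (XT.lf (nat_lit 0) (nat_lit 868907558089) (nat_lit 152) (nat_lit 86753409911) (nat_lit 0) (nat_lit 868888172468) (nat_lit 1) (nat_lit 5) (nat_lit 3) (nat_lit 4) (nat_lit 1) (nat_lit 4) (nat_lit 399) (nat_lit 251) (nat_lit 250)) (XT.lf (nat_lit 0) (nat_lit 939257993890) (nat_lit 152) (nat_lit 91965611728) (nat_lit 0) (nat_lit 939220658619) (nat_lit 1) (nat_lit 5) (nat_lit 3) (nat_lit 4) (nat_lit 1) (nat_lit 4) (nat_lit 400) (nat_lit 251) (nat_lit 249)))) (XT.nd (nat_lit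 156) (nat_lit 0) (nat_lit 0) (XT.nd (nat_lit 78) (nat_lit 0) (nat_lit 0) (XT.lf (nat_lit 0) (nat_lit 1015195707462) (nat_lit 152) (nat_lit 97676803902) (nat_lit 0) (nat_lit 1015141752144) (nat_lit 1) (nat_lit 5) (nat_lit 3) (nat_lit 4) (nat_lit 1) (nat_lit 4) (nat_lit 401) (nat_lit 251) (nat_lit 248)) (XT.lf (nat_lit 0) (nat_lit 1097170700071) (nat_lit 152) (nat_lit 103920830535) (nat_lit 0) (nat_lit 1097101355821) (nat_lit 1) (nat_lit 5) (nat_lit 3) (nat_lit 4) (nat_lit 1) (nat_lit 4) (nat_lit 402) (nat_lit 251) (nat_lit 247))) (XT.nd (nat_lit 78) (nat_lit 0) (nat_lit 0) (XT.lf (nat_lit 0) (nat_lit 1185668749450) (nat_lit 152) (nat_lit 110734693265) (nat_lit 0) (nat_lit 1185585156190) (nat_lit 1) (nat_lit 5) (nat_lit 3) (nat_lit 4) (nat_lit 1) (nat_lit 4) (nat_lit 403) (nat_lit 251) (nat_lit 246)) (XT.nd (nat_lit 78) (nat_lit 0) (nat_lit 0) (XT.lf (nat_lit 0) (nat_lit 1281214288485)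 (nat_lit 152) (nat_lit 118158770539) (nat_lit 0) (nat_lit 1281117501697) (nat_lit 1) (nat_lit 5) (nat_lit 3) (nat_lit 4) (nat_lit 1) (nat_lit 4) (nat_lit 404) (nat_lit 251) (nat_lit 245)) (XT.lf (nat_lit 0) (nat_lit 1384373512963) (nat_lit 152) (nat_lit 126237056888) (nat_lit 0) (nat_lit 1384264509944) (nat_lit 1) (nat_lit 5) (nat_lit 3) (nat_lit 4) (nat_lit 1) (nat_lit 4) (nat_lit 405) (nat_lit 251) (nat_lit 244))))))))
noncomputable def xc3 : XT := (XT.nd (nat_lit 46488) (nat_lit 0) (nat_lit 0) (XT.nd (nat_lit 702) (nat_lit 0) (nat_lit 0) (XT.nd (nat_lit 312) (nat_lit 0) (nat_lit 0) (XT.nd (nat_lit 156) (nat_lit 0) (nat_lit 0) (XT.nd (nat_lit 78) (nat_lit 0) (nat_lit 0) (XT.lf (nat_lit 0) (nat_lit 1495757736807) (nat_lit 152) (nat_lit 135017423640) (nat_lit 0) (nat_lit 1495637422464) (nat_lit 1) (nat_lit 5) (nat_lit 3) (nat_lit 4) (nat_lit 1) (nat_lit 4) (nat_lit 406) (nat_lit 251)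 (nat_lit 243)) (XT.lf (nat_lit 0) (nat_lit 1616027014676) (nat_lit 152) (nat_lit 144551902596) (nat_lit 0) (nat_lit 1615896226884) (nat_lit 1) (nat_lit 5) (nat_lit 3) (nat_lit 4) (nat_lit 1) (nat_lit 4) (nat_lit 407) (nat_lit 251) (nat_lit 242))) (XT.nd (nat_lit 78) (nat_lit 0) (nat_lit 0) (XT.lf (nat_lit 0) (nat_lit 1745894053402) (nat_lit 152) (nat_lit 154896994374) (nat_lit 0) (nat_lit 1745753567973) (nat_lit 1) (nat_lit 5) (nat_lit 3) (nat_lit 4) (nat_lit 1) (nat_lit 4) (nat_lit 408) (nat_lit 251) (nat_lit 241)) (XT.lf (nat_lit 0) (nat_lit 1886128435437) (nat_lit 152) (nat_lit 166114003220) (nat_lit 0) (nat_lit 1885978970714) (nat_lit 1) (nat_lit 5) (nat_lit 3) (nat_lit 4) (nat_lit 1) (nat_lit 4) (nat_lit 409) (nat_lit 251) (nat_lit 240)))) (XT.nd (nat_lit 156) (nat_lit 0) (nat_lit 0) (XT.nd (nat_lit 78) (nat_lit 0) (nat_lit 0) (XT.lf (nat_lit 0) (nat_lit 2037561179341) (nat_lit 152)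 (nat_lit 178269400299) (nat_lit 0) (nat_lit 2037403400458) (nat_lit 1) (nat_lit 5) (nat_lit 3) (nat_lit 4) (nat_lit 1) (nat_lit 4) (nat_lit 410) (nat_lit 251) (nat_lit 239)) (XT.lf (nat_lit 0) (nat_lit 2201089664337) (nat_lit 152) (nat_lit 191435217592) (nat_lit 0) (nat_lit 2200924187157) (nat_lit 1) (nat_lit 5) (nat_lit 3) (nat_lit 4) (nat_lit 1) (nat_lit 4) (nat_lit 411) (nat_lit 251) (nat_lit 238))) (XT.nd (nat_lit 78) (nat_lit 0) (nat_lit 0) (XT.lf (nat_lit 0) (nat_lit 2377682948115) (nat_lit 152) (nat_lit 205689474758) (nat_lit 0) (nat_lit 2377510342881) (nat_lit 1) (nat_lit 5) (nat_lit 3) (nat_lit 4) (nat_lit 1) (nat_lit 4) (nat_lit 412) (nat_lit 251) (nat_lit 237)) (XT.nd (nat_lit 78) (nat_lit 0) (nat_lit 0) (XT.lf (nat_lit 0) (nat_lit 2568387509392) (nat_lit 152) (nat_lit 221116641469) (nat_lit 0) (nat_lit 2568208304110) (nat_lit 1) (nat_lit 5) (nat_lit 3) (nat_lit 4) (nat_lit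 1) (nat_lit 4) (nat_lit 413) (nat_lit 251) (nat_lit 236)) (XT.lf (nat_lit 0) (nat_lit 2774333449273) (nat_lit 152) (nat_lit 237808137972) (nat_lit 0) (nat_lit 2774148132834) (nat_lit 1) (nat_lit 5) (nat_lit 3) (nat_lit 4) (nat_lit 1) (nat_lit 4) (nat_lit 414) (nat_lit 251) (nat_lit 235)))))) (XT.nd (nat_lit 45396) (nat_lit 0) (nat_lit 0) (XT.nd (nat_lit 156) (nat_lit 0) (nat_lit 0) (XT.nd (nat_lit 78) (nat_lit 0) (nat_lit 0) (XT.lf (nat_lit 0) (nat_lit 2996741188142) (nat_lit 152) (nat_lit 255862876840) (nat_lit 0) (nat_lit 2996550213225) (nat_lit 1) (nat_lit 5) (nat_lit 3) (nat_lit 4) (nat_lit 1) (nat_lit 4) (nat_lit 415) (nat_lit 251) (nat_lit 234)) (XT.lf (nat_lit 0) (nat_lit 3236928697785) (nat_lit 152) (nat_lit 275387849116) (nat_lit 0) (nat_lit 3236732483537) (nat_lit 1) (nat_lit 5) (nat_lit 3) (nat_lit 4) (nat_lit 1) (nat_lit 4) (nat_lit 416) (nat_lit 251) (nat_lit 233))) (XT.nd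 (nat_lit 78) (nat_lit 0) (nat_lit 0) (XT.lf (nat_lit 0) (nat_lit 3496319311593) (nat_lit 152) (nat_lit 296498758342) (nat_lit 0) (nat_lit 3496118246111) (nat_lit 1) (nat_lit 5) (nat_lit 3) (nat_lit 4) (nat_lit 1) (nat_lit 4) (nat_lit 417) (nat_lit 251) (nat_lit 232)) (XT.lf (nat_lit 0) (nat_lit 3776450159129) (nat_lit 152) (nat_lit 319320706200) (nat_lit 0) (nat_lit 3776244601765) (nat_lit 1) (nat_lit 5) (nat_lit 3) (nat_lit 4) (nat_lit 1) (nat_lit 4) (nat_lit 418) (nat_lit 251) (nat_lit 231)))) (XT.nd (nat_lit 156) (nat_lit 0) (nat_lit 0) (XT.nd (nat_lit 78) (nat_lit 0) (nat_lit 0) (XT.lf (nat_lit 0) (nat_lit 343703765275) (nat_lit 152) (nat_lit 36882954089) (nat_lit 0) (nat_lit 343703765275) (nat_lit 1) (nat_lit 5) (nat_lit 3) (nat_lit 4) (nat_lit 1) (nat_lit 4) (nat_lit 396) (nat_lit 252) (nat_lit 252)) (XT.lf (nat_lit 0) (nat_lit 743352529713) (nat_lit 152) (nat_lit 77705202803) (nat_lit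 0) (nat_lit 743331593241) (nat_lit 1) (nat_lit 5) (nat_lit 3) (nat_lit 4) (nat_lit 1) (nat_lit 4) (nat_lit 397) (nat_lit 252) (nat_lit 251))) (XT.nd (nat_lit 78) (nat_lit 0) (nat_lit 0) (XT.lf (nat_lit 0) (nat_lit 803725589736) (nat_lit 152) (nat_lit 82055302374) (nat_lit 0) (nat_lit 803685267643) (nat_lit 1) (nat_lit 5) (nat_lit 3) (nat_lit 4) (nat_lit 1) (nat_lit 4) (nat_lit 398) (nat_lit 252) (nat_lit 250)) (XT.nd (nat_lit 78) (nat_lit 0) (nat_lit 0) (XT.lf (nat_lit 0) (nat_lit 868884476901) (nat_lit 152) (nat_lit 86841985259) (nat_lit 0) (nat_lit 868826205157) (nat_lit 1) (nat_lit 5) (nat_lit 3) (nat_lit 4) (nat_lit 1) (nat_lit 4) (nat_lit 399) (nat_lit 252) (nat_lit 249)) (XT.lf (nat_lit 0) (nat_lit 939215317945) (nat_lit 152) (nat_lit 92093616986) (nat_lit 0) (nat_lit 939140426156) (nat_lit 1) (nat_lit 5) (nat_lit 3) (nat_lit 4) (nat_lit 1) (nat_lit 4) (nat_lit 400) (nat_lit 252)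 (nat_lit 248))))))) (XT.nd (nat_lit 702) (nat_lit 0) (nat_lit 0) (XT.nd (nat_lit 312) (nat_lit 0) (nat_lit 0) (XT.nd (nat_lit 156) (nat_lit 0) (nat_lit 0) (XT.nd (nat_lit 78) (nat_lit 0) (nat_lit 0) (XT.lf (nat_lit 0) (nat_lit 1015134888224) (nat_lit 152) (nat_lit 97841318335) (nat_lit 0) (nat_lit 1015044607503) (nat_lit 1) (nat_lit 5) (nat_lit 3) (nat_lit 4) (nat_lit 1) (nat_lit 4) (nat_lit 401) (nat_lit 252) (nat_lit 247)) (XT.lf (nat_lit 0) (nat_lit 1097093081488) (nat_lit 152) (nat_lit 104119149759) (nat_lit 0) (nat_lit 1096988551756) (nat_lit 1) (nat_lit 5) (nat_lit 3) (nat_lit 4) (nat_lit 1) (nat_lit 4) (nat_lit 402) (nat_lit 252) (nat_lit 246))) (XT.nd (nat_lit 78) (nat_lit 0) (nat_lit 0) (XT.lf (nat_lit 0) (nat_lit 1185575575918) (nat_lit 152) (nat_lit 110964313223) (nat_lit 0) (nat_lit 1185457852657) (nat_lit 1) (nat_lit 5) (nat_lit 3) (nat_lit 4) (nat_lit 1) (nat_lit 4) (nat_lit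 403) (nat_lit 252) (nat_lit 245)) (XT.lf (nat_lit 0) (nat_lit 1281106712222) (nat_lit 152) (nat_lit 118417372657) (nat_lit 0) (nat_lit 1280976772732) (nat_lit 1) (nat_lit 5) (nat_lit 3) (nat_lit 4) (nat_lit 1) (nat_lit 4) (nat_lit 404) (nat_lit 252) (nat_lit 244)))) (XT.nd (nat_lit 156) (nat_lit 0) (nat_lit 0) (XT.nd (nat_lit 78) (nat_lit 0) (nat_lit 0) (XT.lf (nat_lit 0) (nat_lit 1384252600838) (nat_lit 152) (nat_lit 126522494340) (nat_lit 0) (nat_lit 1384111350024) (nat_lit 1) (nat_lit 5) (nat_lit 3) (nat_lit 4) (nat_lit 1) (nat_lit 4) (nat_lit 405) (nat_lit 252) (nat_lit 243)) (XT.lf (nat_lit 0) (nat_lit 1495624476661) (nat_lit 152) (nat_lit 135327708623) (nat_lit 0) (nat_lit 1495472752399) (nat_lit 1) (nat_lit 5) (nat_lit 3) (nat_lit 4) (nat_lit 1) (nat_lit 4) (nat_lit 406) (nat_lit 252) (nat_lit 242))) (XT.nd (nat_lit 78) (nat_lit 0) (nat_lit 0) (XT.lf (nat_lit 0) (nat_lit 1615882321178)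 (nat_lit 152) (nat_lit 144885194553) (nat_lit 0) (nat_lit 1615720899278) (nat_lit 1) (nat_lit 5) (nat_lit 3) (nat_lit 4) (nat_lit 1) (nat_lit 4) (nat_lit 407) (nat_lit 252) (nat_lit 241)) (XT.nd (nat_lit 78) (nat_lit 0) (nat_lit 0) (XT.lf (nat_lit 0) (nat_lit 1745738773467) (nat_lit 152) (nat_lit 155251589084) (nat_lit 0) (nat_lit 1745568372273) (nat_lit 1) (nat_lit 5) (nat_lit 3) (nat_lit 4) (nat_lit 1) (nat_lit 4) (nat_lit 408) (nat_lit 252) (nat_lit 240)) (XT.lf (nat_lit 0) (nat_lit 1885963353246) (nat_lit 152) (nat_lit 166488322701) (nat_lit 0) (nat_lit 1885784637891) (nat_lit 1) (nat_lit 5) (nat_lit 3) (nat_lit 4) (nat_lit 1) (nat_lit 4) (nat_lit 409) (nat_lit 252) (nat_lit 239)))))) (XT.nd (nat_lit 312) (nat_lit 0) (nat_lit 0) (XT.nd (nat_lit 156) (nat_lit 0) (nat_lit 0) (XT.nd (nat_lit 78) (nat_lit 0) (nat_lit 0) (XT.lf (nat_lit 0) (nat_lit 2037387020986) (nat_lit 152) (nat_lit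 178661983457) (nat_lit 0) (nat_lit 2037200607334) (nat_lit 1) (nat_lit 5) (nat_lit 3) (nat_lit 4) (nat_lit 1) (nat_lit 4) (nat_lit 410) (nat_lit 252) (nat_lit 238)) (XT.lf (nat_lit 0) (nat_lit 2200907102128) (nat_lit 152) (nat_lit 191844711562) (nat_lit 0) (nat_lit 2200713560423) (nat_lit 1) (nat_lit 5) (nat_lit 3) (nat_lit 4) (nat_lit 1) (nat_lit 4) (nat_lit 411) (nat_lit 252) (nat_lit 237))) (XT.nd (nat_lit 78) (nat_lit 0) (nat_lit 0) (XT.lf (nat_lit 0) (nat_lit 2377492604558) (nat_lit 152) (nat_lit 206114626888) (nat_lit 0) (nat_lit 2377292462804) (nat_lit 1) (nat_lit 5) (nat_lit 3) (nat_lit 4) (nat_lit 1) (nat_lit 4) (nat_lit 412) (nat_lit 252) (nat_lit 236)) (XT.lf (nat_lit 0) (nat_lit 2568189960884) (nat_lit 152) (nat_lit 221556291895) (nat_lit 0) (nat_lit 2567983707974) (nat_lit 1) (nat_lit 5) (nat_lit 3) (nat_lit 4) (nat_lit 1) (nat_lit 4) (nat_lit 413) (nat_lit 252) (nat_lit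 235)))) (XT.nd (nat_lit 156) (nat_lit 0) (nat_lit 0) (XT.nd (nat_lit 78) (nat_lit 0) (nat_lit 0) (XT.lf (nat_lit 0) (nat_lit 2774129229514) (nat_lit 152) (nat_lit 238261212746) (nat_lit 0) (nat_lit 2773917318125) (nat_lit 1) (nat_lit 5) (nat_lit 3) (nat_lit 4) (nat_lit 1) (nat_lit 4) (nat_lit 414) (nat_lit 252) (nat_lit 234)) (XT.lf (nat_lit 0) (nat_lit 2996530791299) (nat_lit 152) (nat_lit 256328381565) (nat_lit 0) (nat_lit 2996313640578) (nat_lit 1) (nat_lit 5) (nat_lit 3) (nat_lit 4) (nat_lit 1) (nat_lit 4) (nat_lit 415) (nat_lit 252) (nat_lit 233))) (XT.nd (nat_lit 78) (nat_lit 0) (nat_lit 0) (XT.lf (nat_lit 0) (nat_lit 3236712581419) (nat_lit 152) (nat_lit 275864863057) (nat_lit 0) (nat_lit 3236490579466) (nat_lit 1) (nat_lit 5) (nat_lit 3) (nat_lit 4) (nat_lit 1) (nat_lit 4) (nat_lit 416) (nat_lit 252) (nat_lit 232)) (XT.nd (nat_lit 78) (nat_lit 0) (nat_lit 0) (XT.lf (nat_lit 0)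 (nat_lit 3496097899373) (nat_lit 152) (nat_lit 296986428962) (nat_lit 0) (nat_lit 3495871405537) (nat_lit 1) (nat_lit 5) (nat_lit 3) (nat_lit 4) (nat_lit 1) (nat_lit 4) (nat_lit 417) (nat_lit 252) (nat_lit 231)) (XT.lf (nat_lit 0) (nat_lit 3776223843340) (nat_lit 152) (nat_lit 319818244116) (nat_lit 0) (nat_lit 3775993190353) (nat_lit 1) (nat_lit 5) (nat_lit 3) (nat_lit 4) (nat_lit 1) (nat_lit 4) (nat_lit 418) (nat_lit 252) (nat_lit 230))))))))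
noncomputable def xc4 : XT := (XT.nd (nat_lit 1404) (nat_lit 0) (nat_lit 0) (XT.nd (nat_lit 702) (nat_lit 0) (nat_lit 0) (XT.nd (nat_lit 312) (nat_lit 0) (nat_lit 0) (XT.nd (nat_lit 156) (nat_lit 0) (nat_lit 0) (XT.nd (nat_lit 78) (nat_lit 0) (nat_lit 0) (XT.lf (nat_lit 0) (nat_lit 293774578360) (nat_lit 152) (nat_lit 33487505001) (nat_lit 0) (nat_lit 293774578360) (nat_lit 1) (nat_lit 5) (nat_lit 3) (nat_lit 4) (nat_lit 1) (nat_lit 4) (nat_lit 394) (nat_lit 253) (nat_lit 253)) (XT.lf (nat_lit 0) (nat_lit 635581677715) (nat_lit 152) (nat_lit 70214074532) (nat_lit 0) (nat_lit 635559066325) (nat_lit 1) (nat_lit 5) (nat_lit 3) (nat_lit 4) (nat_lit 1) (nat_lit 4) (nat_lit 395) (nat_lit 253) (nat_lit 252))) (XT.nd (nat_lit 78) (nat_lit 0) (nat_lit 0) (XT.lf (nat_lit 0) (nat_lit 687405458190) (nat_lit 152) (nat_lit 73815578509) (nat_lit 0) (nat_lit 687361910329) (nat_lit 1) (nat_lit 5) (nat_lit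 3) (nat_lit 4) (nat_lit 1) (nat_lit 4) (nat_lit 396) (nat_lit 253) (nat_lit 251)) (XT.lf (nat_lit 0) (nat_lit 743327602029) (nat_lit 152) (nat_lit 77800864180) (nat_lit 0) (nat_lit 743264668546) (nat_lit 1) (nat_lit 5) (nat_lit 3) (nat_lit 4) (nat_lit 1) (nat_lit 4) (nat_lit 397) (nat_lit 253) (nat_lit 250)))) (XT.nd (nat_lit 156) (nat_lit 0) (nat_lit 0) (XT.nd (nat_lit 78) (nat_lit 0) (nat_lit 0) (XT.lf (nat_lit 0) (nat_lit 803679499715) (nat_lit 152) (nat_lit 82193548052) (nat_lit 0) (nat_lit 803598616583) (nat_lit 1) (nat_lit 5) (nat_lit 3) (nat_lit 4) (nat_lit 1) (nat_lit 4) (nat_lit 398) (nat_lit 253) (nat_lit 249)) (XT.lf (nat_lit 0) (nat_lit 868818792124) (nat_lit 152) (nat_lit 87019660846) (nat_lit 0) (nat_lit 868721288945) (nat_lit 1) (nat_lit 5) (nat_lit 3) (nat_lit 4) (nat_lit 1) (nat_lit 4) (nat_lit 399) (nat_lit 253) (nat_lit 248))) (XT.nd (nat_lit 78) (nat_lit 0) (nat_lit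 0) (XT.lf (nat_lit 0) (nat_lit 939131489875) (nat_lit 152) (nat_lit 92307801748) (nat_lit 0) (nat_lit 939018597765) (nat_lit 1) (nat_lit 5) (nat_lit 3) (nat_lit 4) (nat_lit 1) (nat_lit 4) (nat_lit 400) (nat_lit 253) (nat_lit 247)) (XT.nd (nat_lit 78) (nat_lit 0) (nat_lit 0) (XT.lf (nat_lit 0) (nat_lit 1015034260809) (nat_lit 152) (nat_lit 98089307889) (nat_lit 0) (nat_lit 1014907119688) (nat_lit 1) (nat_lit 5) (nat_lit 3) (nat_lit 4) (nat_lit 1) (nat_lit 4) (nat_lit 401) (nat_lit 253) (nat_lit 246)) (XT.lf (nat_lit 0) (nat_lit 1096976899124) (nat_lit 152) (nat_lit 104398440047) (nat_lit 0) (nat_lit 1096836564474) (nat_lit 1) (nat_lit 5) (nat_lit 3) (nat_lit 4) (nat_lit 1) (nat_lit 4) (nat_lit 402) (nat_lit 253) (nat_lit 245)))))) (XT.nd (nat_lit 312) (nat_lit 0) (nat_lit 0) (XT.nd (nat_lit 156) (nat_lit 0) (nat_lit 0) (XT.nd (nat_lit 78) (nat_lit 0) (nat_lit 0) (XT.lf (nat_lit 0) (nat_lit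 1185444990823) (nat_lit 152) (nat_lit 111272585671) (nat_lit 0) (nat_lit 1185292439943) (nat_lit 1) (nat_lit 5) (nat_lit 3) (nat_lit 4) (nat_lit 1) (nat_lit 4) (nat_lit 403) (nat_lit 253) (nat_lit 244)) (XT.lf (nat_lit 0) (nat_lit 1280962791265) (nat_lit 152) (nat_lit 118752480439) (nat_lit 0) (nat_lit 1280798929061) (nat_lit 1) (nat_lit 5) (nat_lit 3) (nat_lit 4) (nat_lit 1) (nat_lit 4) (nat_lit 404) (nat_lit 253) (nat_lit 243))) (XT.nd (nat_lit 78) (nat_lit 0) (nat_lit 0) (XT.lf (nat_lit 0) (nat_lit 1384096331861) (nat_lit 152) (nat_lit 126882449653) (nat_lit 0) (nat_lit 1383921996209) (nat_lit 1) (nat_lit 5) (nat_lit 3) (nat_lit 4) (nat_lit 1) (nat_lit 4) (nat_lit 405) (nat_lit 253) (nat_lit 242)) (XT.lf (nat_lit 0) (nat_lit 1495456774332) (nat_lit 152) (nat_lit 135710670909) (nat_lit 0) (nat_lit 1495272741043) (nat_lit 1) (nat_lit 5) (nat_lit 3) (nat_lit 4) (nat_lit 1) (nat_lit 4)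 (nat_lit 406) (nat_lit 253) (nat_lit 241)))) (XT.nd (nat_lit 156) (nat_lit 0) (nat_lit 0) (XT.nd (nat_lit 78) (nat_lit 0) (nat_lit 0) (XT.lf (nat_lit 0) (nat_lit 1615704032412) (nat_lit 152) (nat_lit 145289459592) (nat_lit 0) (nat_lit 1615511019829) (nat_lit 1) (nat_lit 5) (nat_lit 3) (nat_lit 4) (nat_lit 1) (nat_lit 4) (nat_lit 407) (nat_lit 253) (nat_lit 240)) (XT.lf (nat_lit 0) (nat_lit 1745550682444) (nat_lit 152) (nat_lit 155675578894) (nat_lit 0) (nat_lit 1745349355700) (nat_lit 1) (nat_lit 5) (nat_lit 3) (nat_lit 4) (nat_lit 1) (nat_lit 4) (nat_lit 408) (nat_lit 253) (nat_lit 239))) (XT.nd (nat_lit 78) (nat_lit 0) (nat_lit 0) (XT.lf (nat_lit 0) (nat_lit 1885766186059) (nat_lit 152) (nat_lit 166930576189) (nat_lit 0) (nat_lit 1885557161018) (nat_lit 1) (nat_lit 5) (nat_lit 3) (nat_lit 4) (nat_lit 1) (nat_lit 4) (nat_lit 409) (nat_lit 253) (nat_lit 238)) (XT.nd (nat_lit 78) (nat_lit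 0) (nat_lit 0) (XT.lf (nat_lit 0) (nat_lit 2037181449945) (nat_lit 152) (nat_lit 179121147757) (nat_lit 0) (nat_lit 2036965296851) (nat_lit 1) (nat_lit 5) (nat_lit 3) (nat_lit 4) (nat_lit 1) (nat_lit 4) (nat_lit 410) (nat_lit 253) (nat_lit 237)) (XT.lf (nat_lit 0) (nat_lit 2200693749739) (nat_lit 152) (nat_lit 192319534022) (nat_lit 0) (nat_lit 2200470996596) (nat_lit 1) (nat_lit 5) (nat_lit 3) (nat_lit 4) (nat_lit 1) (nat_lit 4) (nat_lit 411) (nat_lit 253) (nat_lit 236))))))) (XT.nd (nat_lit 45474) (nat_lit 0) (nat_lit 0) (XT.nd (nat_lit 312) (nat_lit 0) (nat_lit 0) (XT.nd (nat_lit 156) (nat_lit 0) (nat_lit 0) (XT.nd (nat_lit 78) (nat_lit 0) (nat_lit 0) (XT.lf (nat_lit 0) (nat_lit 2377272047218) (nat_lit 152) (nat_lit 206603947643) (nat_lit 0) (nat_lit 2377043182918) (nat_lit 1) (nat_lit 5) (nat_lit 3) (nat_lit 4) (nat_lit 1) (nat_lit 4) (nat_lit 412) (nat_lit 253) (nat_lit 235)) (XT.lf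 (nat_lit 0) (nat_lit 2567962732293) (nat_lit 152) (nat_lit 222059036998) (nat_lit 0) (nat_lit 2567728209515) (nat_lit 1) (nat_lit 5) (nat_lit 3) (nat_lit 4) (nat_lit 1) (nat_lit 4) (nat_lit 413) (nat_lit 253) (nat_lit 234))) (XT.nd (nat_lit 78) (nat_lit 0) (nat_lit 0) (XT.lf (nat_lit 0) (nat_lit 2773895823838) (nat_lit 152) (nat_lit 238776387801) (nat_lit 0) (nat_lit 2773656061729) (nat_lit 1) (nat_lit 5) (nat_lit 3) (nat_lit 4) (nat_lit 1) (nat_lit 4) (nat_lit 414) (nat_lit 253) (nat_lit 233)) (XT.lf (nat_lit 0) (nat_lit 2996291666101) (nat_lit 152) (nat_lit 256855065835) (nat_lit 0) (nat_lit 2996047052758) (nat_lit 1) (nat_lit 5) (nat_lit 3) (nat_lit 4) (nat_lit 1) (nat_lit 4) (nat_lit 415) (nat_lit 253) (nat_lit 232)))) (XT.nd (nat_lit 156) (nat_lit 0) (nat_lit 0) (XT.nd (nat_lit 78) (nat_lit 0) (nat_lit 0) (XT.lf (nat_lit 0) (nat_lit 3236468160367) (nat_lit 152) (nat_lit 276402204007)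 (nat_lit 0) (nat_lit 3236219055142) (nat_lit 1) (nat_lit 5) (nat_lit 3) (nat_lit 4) (nat_lit 1) (nat_lit 4) (nat_lit 416) (nat_lit 253) (nat_lit 231)) (XT.lf (nat_lit 0) (nat_lit 3495848574752) (nat_lit 152) (nat_lit 297533637209) (nat_lit 0) (nat_lit 3495595310376) (nat_lit 1) (nat_lit 5) (nat_lit 3) (nat_lit 4) (nat_lit 1) (nat_lit 4) (nat_lit 417) (nat_lit 253) (nat_lit 230))) (XT.nd (nat_lit 44850) (nat_lit 0) (nat_lit 0) (XT.lf (nat_lit 0) (nat_lit 3775969978377) (nat_lit 152) (nat_lit 320374588749) (nat_lit 0) (nat_lit 3775712862936) (nat_lit 1) (nat_lit 5) (nat_lit 3) (nat_lit 4) (nat_lit 1) (nat_lit 4) (nat_lit 418) (nat_lit 253) (nat_lit 229)) (XT.nd (nat_lit 78) (nat_lit 0) (nat_lit 0) (XT.lf (nat_lit 0) (nat_lit 250896667968) (nat_lit 152) (nat_lit 30725760018) (nat_lit 0) (nat_lit 250896667968) (nat_lit 1) (nat_lit 5) (nat_lit 3) (nat_lit 4) (nat_lit 1) (nat_lit 4) (nat_lit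 392) (nat_lit 254) (nat_lit 254)) (XT.lf (nat_lit 0) (nat_lit 543047678345) (nat_lit 152) (nat_lit 64079190467) (nat_lit 0) (nat_lit 543023258045) (nat_lit 1) (nat_lit 5) (nat_lit 3) (nat_lit 4) (nat_lit 1) (nat_lit 4) (nat_lit 393) (nat_lit 254) (nat_lit 253)))))) (XT.nd (nat_lit 312) (nat_lit 0) (nat_lit 0) (XT.nd (nat_lit 156) (nat_lit 0) (nat_lit 0) (XT.nd (nat_lit 78) (nat_lit 0) (nat_lit 0) (XT.lf (nat_lit 0) (nat_lit 587546918571) (nat_lit 152) (nat_lit 67028653960) (nat_lit 0) (nat_lit 587499886881) (nat_lit 1) (nat_lit 5) (nat_lit 3) (nat_lit 4) (nat_lit 1) (nat_lit 4) (nat_lit 394) (nat_lit 254) (nat_lit 252)) (XT.lf (nat_lit 0) (nat_lit 635554755816) (nat_lit 152) (nat_lit 70317388818) (nat_lit 0) (nat_lit 635486787655) (nat_lit 1) (nat_lit 5) (nat_lit 3) (nat_lit 4) (nat_lit 1) (nat_lit 4) (nat_lit 395) (nat_lit 254) (nat_lit 251))) (XT.nd (nat_lit 78) (nat_lit 0) (nat_lit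 0) (XT.lf (nat_lit 0) (nat_lit 687355680967) (nat_lit 152) (nat_lit 73964883841) (nat_lit 0) (nat_lit 687268327184) (nat_lit 1) (nat_lit 5) (nat_lit 3) (nat_lit 4) (nat_lit 1) (nat_lit 4) (nat_lit 396) (nat_lit 254) (nat_lit 250)) (XT.lf (nat_lit 0) (nat_lit 743256662470) (nat_lit 152) (nat_lit 77992753814) (nat_lit 0) (nat_lit 743151359037) (nat_lit 1) (nat_lit 5) (nat_lit 3) (nat_lit 4) (nat_lit 1) (nat_lit 4) (nat_lit 397) (nat_lit 254) (nat_lit 249)))) (XT.nd (nat_lit 156) (nat_lit 0) (nat_lit 0) (XT.nd (nat_lit 78) (nat_lit 0) (nat_lit 0) (XT.lf (nat_lit 0) (nat_lit 803588965400) (nat_lit 152) (nat_lit 82424867596) (nat_lit 0) (nat_lit 803467041921) (nat_lit 1) (nat_lit 5) (nat_lit 3) (nat_lit 4) (nat_lit 1) (nat_lit 4) (nat_lit 398) (nat_lit 254) (nat_lit 248)) (XT.lf (nat_lit 0) (nat_lit 868710114515) (nat_lit 152) (nat_lit 87287489565) (nat_lit 0) (nat_lit 868572802105) (nat_lit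 1) (nat_lit 5) (nat_lit 3) (nat_lit 4) (nat_lit 1) (nat_lit 4) (nat_lit 399) (nat_lit 254) (nat_lit 247))) (XT.nd (nat_lit 78) (nat_lit 0) (nat_lit 0) (XT.lf (nat_lit 0) (nat_lit 939006012922) (nat_lit 152) (nat_lit 92609435259) (nat_lit 0) (nat_lit 938854451500) (nat_lit 1) (nat_lit 5) (nat_lit 3) (nat_lit 4) (nat_lit 1) (nat_lit 4) (nat_lit 400) (nat_lit 254) (nat_lit 246)) (XT.nd (nat_lit 78) (nat_lit 0) (nat_lit 0) (XT.lf (nat_lit 0) (nat_lit 1014893228907) (nat_lit 152) (nat_lit 98422242133) (nat_lit 0) (nat_lit 1014728473957) (nat_lit 1) (nat_lit 5) (nat_lit 3) (nat_lit 4) (nat_lit 1) (nat_lit 4) (nat_lit 401) (nat_lit 254) (nat_lit 245)) (XT.lf (nat_lit 0) (nat_lit 1096821464490) (nat_lit 152) (nat_lit 104760356452) (nat_lit 0) (nat_lit 1096644493310) (nat_lit 1) (nat_lit 5) (nat_lit 3) (nat_lit 4) (nat_lit 1) (nat_lit 4) (nat_lit 402) (nat_lit 254) (nat_lit 244))))))))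
noncomputable def xc5 : XT := (XT.nd (nat_lit 46020) (nat_lit 0) (nat_lit 0) (XT.nd (nat_lit 702) (nat_lit 0) (nat_lit 0) (XT.nd (nat_lit 312) (nat_lit 0) (nat_lit 0) (XT.nd (nat_lit 156) (nat_lit 0) (nat_lit 0) (XT.nd (nat_lit 78) (nat_lit 0) (nat_lit 0) (XT.lf (nat_lit 0) (nat_lit 1185276220327) (nat_lit 152) (nat_lit 111661337409) (nat_lit 0) (nat_lit 1185087937823) (nat_lit 1) (nat_lit 5) (nat_lit 3) (nat_lit 4) (nat_lit 1) (nat_lit 4) (nat_lit 403) (nat_lit 254) (nat_lit 243)) (XT.lf (nat_lit 0) (nat_lit 1280781672750) (nat_lit 152) (nat_lit 119166079708) (nat_lit 0) (nat_lit 1280582916797) (nat_lit 1) (nat_lit 5) (nat_lit 3) (nat_lit 4) (nat_lit 1) (nat_lit 4) (nat_lit 404) (nat_lit 254) (nat_lit 242))) (XT.nd (nat_lit 78) (nat_lit 0) (nat_lit 0) (XT.lf (nat_lit 0) (nat_lit 1383903779993) (nat_lit 152) (nat_lit 127319055896) (nat_lit 0) (nat_lit 1383695326404) (nat_lit 1) (nat_lit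 5) (nat_lit 3) (nat_lit 4) (nat_lit 1) (nat_lit 4) (nat_lit 405) (nat_lit 254) (nat_lit 241)) (XT.lf (nat_lit 0) (nat_lit 1495253636028) (nat_lit 152) (nat_lit 136168579905) (nat_lit 0) (nat_lit 1495036203144) (nat_lit 1) (nat_lit 5) (nat_lit 3) (nat_lit 4) (nat_lit 1) (nat_lit 4) (nat_lit 406) (nat_lit 254) (nat_lit 240)))) (XT.nd (nat_lit 156) (nat_lit 0) (nat_lit 0) (XT.nd (nat_lit 78) (nat_lit 0) (nat_lit 0) (XT.lf (nat_lit 0) (nat_lit 1615491091851) (nat_lit 152) (nat_lit 145767093359) (nat_lit 0) (nat_lit 1615265344806) (nat_lit 1) (nat_lit 5) (nat_lit 3) (nat_lit 4) (nat_lit 1) (nat_lit 4) (nat_lit 407) (nat_lit 254) (nat_lit 239)) (XT.lf (nat_lit 0) (nat_lit 1745328665720) (nat_lit 152) (nat_lit 156171476339) (nat_lit 0) (nat_lit 1745095220378) (nat_lit 1) (nat_lit 5) (nat_lit 3) (nat_lit 4) (nat_lit 1) (nat_lit 4) (nat_lit 408) (nat_lit 254) (nat_lit 238))) (XT.nd (nat_lit 78)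 (nat_lit 0) (nat_lit 0) (XT.lf (nat_lit 0) (nat_lit 1885535765479) (nat_lit 152) (nat_lit 167443384446) (nat_lit 0) (nat_lit 1885295192085) (nat_lit 1) (nat_lit 5) (nat_lit 3) (nat_lit 4) (nat_lit 1) (nat_lit 4) (nat_lit 409) (nat_lit 254) (nat_lit 237)) (XT.nd (nat_lit 78) (nat_lit 0) (nat_lit 0) (XT.lf (nat_lit 0) (nat_lit 2036943248018) (nat_lit 152) (nat_lit 179649614173) (nat_lit 0) (nat_lit 2036696074574) (nat_lit 1) (nat_lit 5) (nat_lit 3) (nat_lit 4) (nat_lit 1) (nat_lit 4) (nat_lit 410) (nat_lit 254) (nat_lit 236)) (XT.lf (nat_lit 0) (nat_lit 2200448342860) (nat_lit 152) (nat_lit 192862498734) (nat_lit 0) (nat_lit 2200195058260) (nat_lit 1) (nat_lit 5) (nat_lit 3) (nat_lit 4) (nat_lit 1) (nat_lit 4) (nat_lit 411) (nat_lit 254) (nat_lit 235)))))) (XT.nd (nat_lit 312) (nat_lit 0) (nat_lit 0) (XT.nd (nat_lit 156) (nat_lit 0) (nat_lit 0) (XT.nd (nat_lit 78) (nat_lit 0) (nat_lit 0)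 (XT.lf (nat_lit 0) (nat_lit 2377019969088) (nat_lit 152) (nat_lit 207160336703) (nat_lit 0) (nat_lit 2376761026010) (nat_lit 1) (nat_lit 5) (nat_lit 3) (nat_lit 4) (nat_lit 1) (nat_lit 4) (nat_lit 412) (nat_lit 254) (nat_lit 234)) (XT.lf (nat_lit 0) (nat_lit 2567704477079) (nat_lit 152) (nat_lit 222627856010) (nat_lit 0) (nat_lit 2567440294669) (nat_lit 1) (nat_lit 5) (nat_lit 3) (nat_lit 4) (nat_lit 1) (nat_lit 4) (nat_lit 413) (nat_lit 254) (nat_lit 233))) (XT.nd (nat_lit 78) (nat_lit 0) (nat_lit 0) (XT.lf (nat_lit 0) (nat_lit 2773631849102) (nat_lit 152) (nat_lit 239356716028) (nat_lit 0) (nat_lit 2773362815459) (nat_lit 1) (nat_lit 5) (nat_lit 3) (nat_lit 4) (nat_lit 1) (nat_lit 4) (nat_lit 414) (nat_lit 254) (nat_lit 232)) (XT.lf (nat_lit 0) (nat_lit 2996022395510) (nat_lit 152) (nat_lit 257446050742) (nat_lit 0) (nat_lit 2995748869984) (nat_lit 1) (nat_lit 5) (nat_lit 3) (nat_lit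 4) (nat_lit 1) (nat_lit 4) (nat_lit 415) (nat_lit 254) (nat_lit 231)))) (XT.nd (nat_lit 156) (nat_lit 0) (nat_lit 0) (XT.nd (nat_lit 78) (nat_lit 0) (nat_lit 0) (XT.lf (nat_lit 0) (nat_lit 3236193986208) (nat_lit 152) (nat_lit 277003056210) (nat_lit 0) (nat_lit 3235916301532) (nat_lit 1) (nat_lit 5) (nat_lit 3) (nat_lit 4) (nat_lit 1) (nat_lit 4) (nat_lit 416) (nat_lit 254) (nat_lit 230)) (XT.lf (nat_lit 0) (nat_lit 3495569860251) (nat_lit 152) (nat_lit 298143625797) (nat_lit 0) (nat_lit 3495288324510) (nat_lit 1) (nat_lit 5) (nat_lit 3) (nat_lit 4) (nat_lit 1) (nat_lit 4) (nat_lit 417) (nat_lit 254) (nat_lit 229))) (XT.nd (nat_lit 44694) (nat_lit 0) (nat_lit 0) (XT.lf (nat_lit 0) (nat_lit 3775687059857) (nat_lit 152) (nat_lit 320993036954) (nat_lit 0) (nat_lit 3775401958314) (nat_lit 1) (nat_lit 5) (nat_lit 3) (nat_lit 4) (nat_lit 1) (nat_lit 4) (nat_lit 418) (nat_lit 254) (nat_lit 228))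 (XT.nd (nat_lit 78) (nat_lit 0) (nat_lit 0) (XT.lf (nat_lit 0) (nat_lit 214058356258) (nat_lit 152) (nat_lit 28519258592) (nat_lit 0) (nat_lit 214058356258) (nat_lit 1) (nat_lit 5) (nat_lit 3) (nat_lit 4) (nat_lit 1) (nat_lit 4) (nat_lit 390) (nat_lit 255) (nat_lit 255)) (XT.lf (nat_lit 0) (nat_lit 463565795093) (nat_lit 152) (nat_lit 59130071291) (nat_lit 0) (nat_lit 463539421169) (nat_lit 1) (nat_lit 5) (nat_lit 3) (nat_lit 4) (nat_lit 1) (nat_lit 4) (nat_lit 391) (nat_lit 255) (nat_lit 254))))))) (XT.nd (nat_lit 702) (nat_lit 0) (nat_lit 0) (XT.nd (nat_lit 312) (nat_lit 0) (nat_lit 0) (XT.nd (nat_lit 156) (nat_lit 0) (nat_lit 0) (XT.nd (nat_lit 78) (nat_lit 0) (nat_lit 0) (XT.lf (nat_lit 0) (nat_lit 501790918736) (nat_lit 152) (nat_lit 61509455510) (nat_lit 0) (nat_lit 501740124511) (nat_lit 1) (nat_lit 5) (nat_lit 3) (nat_lit 4) (nat_lit 1) (nat_lit 4) (nat_lit 392) (nat_lit 255)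 (nat_lit 253)) (XT.lf (nat_lit 0) (nat_lit 543018602695) (nat_lit 152) (nat_lit 64190769896) (nat_lit 0) (nat_lit 542945197080) (nat_lit 1) (nat_lit 5) (nat_lit 3) (nat_lit 4) (nat_lit 1) (nat_lit 4) (nat_lit 393) (nat_lit 255) (nat_lit 252))) (XT.nd (nat_lit 78) (nat_lit 0) (nat_lit 0) (XT.lf (nat_lit 0) (nat_lit 587493159171) (nat_lit 152) (nat_lit 67189903718) (nat_lit 0) (nat_lit 587398817085) (nat_lit 1) (nat_lit 5) (nat_lit 3) (nat_lit 4) (nat_lit 1) (nat_lit 4) (nat_lit 394) (nat_lit 255) (nat_lit 251)) (XT.lf (nat_lit 0) (nat_lit 635478141092) (nat_lit 152) (nat_lit 70524629623) (nat_lit 0) (nat_lit 635364413384) (nat_lit 1) (nat_lit 5) (nat_lit 3) (nat_lit 4) (nat_lit 1) (nat_lit 4) (nat_lit 395) (nat_lit 255) (nat_lit 250)))) (XT.nd (nat_lit 156) (nat_lit 0) (nat_lit 0) (XT.nd (nat_lit 78) (nat_lit 0) (nat_lit 0) (XT.lf (nat_lit 0) (nat_lit 687257903907) (nat_lit 152) (nat_lit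 74214708948) (nat_lit 0) (nat_lit 687126226549) (nat_lit 1) (nat_lit 5) (nat_lit 3) (nat_lit 4) (nat_lit 1) (nat_lit 4) (nat_lit 396) (nat_lit 255) (nat_lit 249)) (XT.lf (nat_lit 0) (nat_lit 743139290653) (nat_lit 152) (nat_lit 78282008830) (nat_lit 0) (nat_lit 742990993249) (nat_lit 1) (nat_lit 5) (nat_lit 3) (nat_lit 4) (nat_lit 1) (nat_lit 4) (nat_lit 397) (nat_lit 255) (nat_lit 248))) (XT.nd (nat_lit 78) (nat_lit 0) (nat_lit 0) (XT.lf (nat_lit 0) (nat_lit 803453450290) (nat_lit 152) (nat_lit 82750631787) (nat_lit 0) (nat_lit 803289763955) (nat_lit 1) (nat_lit 5) (nat_lit 3) (nat_lit 4) (nat_lit 1) (nat_lit 4) (nat_lit 398) (nat_lit 255) (nat_lit 247)) (XT.nd (nat_lit 78) (nat_lit 0) (nat_lit 0) (XT.lf (nat_lit 0) (nat_lit 868557800061) (nat_lit 152) (nat_lit 87647058549) (nat_lit 0) (nat_lit 868379864714) (nat_lit 1) (nat_lit 5) (nat_lit 3) (nat_lit 4) (nat_lit 1) (nat_lit 4) (nat_lit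 399) (nat_lit 255) (nat_lit 246)) (XT.lf (nat_lit 0) (nat_lit 938838143518) (nat_lit 152) (nat_lit 93000304976) (nat_lit 0) (nat_lit 938647014643) (nat_lit 1) (nat_lit 5) (nat_lit 3) (nat_lit 4) (nat_lit 1) (nat_lit 4) (nat_lit 400) (nat_lit 255) (nat_lit 245)))))) (XT.nd (nat_lit 312) (nat_lit 0) (nat_lit 0) (XT.nd (nat_lit 156) (nat_lit 0) (nat_lit 0) (XT.nd (nat_lit 78) (nat_lit 0) (nat_lit 0) (XT.lf (nat_lit 0) (nat_lit 1014710956772) (nat_lit 152) (nat_lit 98842094011) (nat_lit 0) (nat_lit 1014507611667) (nat_lit 1) (nat_lit 5) (nat_lit 3) (nat_lit 4) (nat_lit 1) (nat_lit 4) (nat_lit 401) (nat_lit 255) (nat_lit 244)) (XT.lf (nat_lit 0) (nat_lit 1096625856493) (nat_lit 152) (nat_lit 105207043662) (nat_lit 0) (nat_lit 1096411200064) (nat_lit 1) (nat_lit 5) (nat_lit 3) (nat_lit 4) (nat_lit 1) (nat_lit 4) (nat_lit 402) (nat_lit 255) (nat_lit 243))) (XT.nd (nat_lit 78) (nat_lit 0) (nat_lit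 0) (XT.lf (nat_lit 0) (nat_lit 1185068264310) (nat_lit 152) (nat_lit 112132872151) (nat_lit 0) (nat_lit 1184843134433) (nat_lit 1) (nat_lit 5) (nat_lit 3) (nat_lit 4) (nat_lit 1) (nat_lit 4) (nat_lit 403) (nat_lit 255) (nat_lit 242)) (XT.lf (nat_lit 0) (nat_lit 1280562283381) (nat_lit 152) (nat_lit 119660621424) (nat_lit 0) (nat_lit 1280327455866) (nat_lit 1) (nat_lit 5) (nat_lit 3) (nat_lit 4) (nat_lit 1) (nat_lit 4) (nat_lit 404) (nat_lit 255) (nat_lit 241)))) (XT.nd (nat_lit 156) (nat_lit 0) (nat_lit 0) (XT.nd (nat_lit 78) (nat_lit 0) (nat_lit 0) (XT.lf (nat_lit 0) (nat_lit 1383673804187) (nat_lit 152) (nat_lit 127834900364) (nat_lit 0) (nat_lit 1383429997379) (nat_lit 1) (nat_lit 5) (nat_lit 3) (nat_lit 4) (nat_lit 1) (nat_lit 4) (nat_lit 405) (nat_lit 255) (nat_lit 240)) (XT.lf (nat_lit 0) (nat_lit 1495013857965) (nat_lit 152) (nat_lit 136704149145) (nat_lit 0) (nat_lit 1494761736996)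 (nat_lit 1) (nat_lit 5) (nat_lit 3) (nat_lit 4) (nat_lit 1) (nat_lit 4) (nat_lit 406) (nat_lit 255) (nat_lit 239))) (XT.nd (nat_lit 78) (nat_lit 0) (nat_lit 0) (XT.lf (nat_lit 0) (nat_lit 1615242237624) (nat_lit 152) (nat_lit 146320926276) (nat_lit 0) (nat_lit 1614982418358) (nat_lit 1) (nat_lit 5) (nat_lit 3) (nat_lit 4) (nat_lit 1) (nat_lit 4) (nat_lit 407) (nat_lit 255) (nat_lit 238)) (XT.nd (nat_lit 78) (nat_lit 0) (nat_lit 0) (XT.lf (nat_lit 0) (nat_lit 1745071407638) (nat_lit 152) (nat_lit 156742220068) (nat_lit 0) (nat_lit 1744804460319) (nat_lit 1) (nat_lit 5) (nat_lit 3) (nat_lit 4) (nat_lit 1) (nat_lit 4) (nat_lit 408) (nat_lit 255) (nat_lit 237)) (XT.lf (nat_lit 0) (nat_lit 1885270726051) (nat_lit 152) (nat_lit 168029786334) (nat_lit 0) (nat_lit 1884997178683) (nat_lit 1) (nat_lit 5) (nat_lit 3) (nat_lit 4) (nat_lit 1) (nat_lit 4) (nat_lit 409) (nat_lit 255) (nat_lit 236))))))))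
noncomputable def xc6 : XT := (XT.nd (nat_lit 45864) (nat_lit 0) (nat_lit 0) (XT.nd (nat_lit 45162) (nat_lit 0) (nat_lit 0) (XT.nd (nat_lit 312) (nat_lit 0) (nat_lit 0) (XT.nd (nat_lit 156) (nat_lit 0) (nat_lit 0) (XT.nd (nat_lit 78) (nat_lit 0) (nat_lit 0) (XT.lf (nat_lit 0) (nat_lit 2036671003638) (nat_lit 152) (nat_lit 180250514358) (nat_lit 0) (nat_lit 2036391345113) (nat_lit 1) (nat_lit 5) (nat_lit 3) (nat_lit 4) (nat_lit 1) (nat_lit 4) (nat_lit 410) (nat_lit 255) (nat_lit 235)) (XT.lf (nat_lit 0) (nat_lit 2200169427229) (nat_lit 152) (nat_lit 193476823266) (nat_lit 0) (nat_lit 2199884110227) (nat_lit 1) (nat_lit 5) (nat_lit 3) (nat_lit 4) (nat_lit 1) (nat_lit 4) (nat_lit 411) (nat_lit 255) (nat_lit 234))) (XT.nd (nat_lit 78) (nat_lit 0) (nat_lit 0) (XT.lf (nat_lit 0) (nat_lit 2376734876373) (nat_lit 152) (nat_lit 207787091188) (nat_lit 0) (nat_lit 2376444320038) (nat_lit 1) (nat_lit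 5) (nat_lit 3) (nat_lit 4) (nat_lit 1) (nat_lit 4) (nat_lit 412) (nat_lit 255) (nat_lit 233)) (XT.lf (nat_lit 0) (nat_lit 2567413664841) (nat_lit 152) (nat_lit 223266119709) (nat_lit 0) (nat_lit 2567118257273) (nat_lit 1) (nat_lit 5) (nat_lit 3) (nat_lit 4) (nat_lit 1) (nat_lit 4) (nat_lit 413) (nat_lit 255) (nat_lit 232)))) (XT.nd (nat_lit 156) (nat_lit 0) (nat_lit 0) (XT.nd (nat_lit 78) (nat_lit 0) (nat_lit 0) (XT.lf (nat_lit 0) (nat_lit 2773335741010) (nat_lit 152) (nat_lit 240005636407) (nat_lit 0) (nat_lit 2773035841560) (nat_lit 1) (nat_lit 5) (nat_lit 3) (nat_lit 4) (nat_lit 1) (nat_lit 4) (nat_lit 414) (nat_lit 255) (nat_lit 231)) (XT.lf (nat_lit 0) (nat_lit 2995721383849) (nat_lit 152) (nat_lit 258104838418) (nat_lit 0) (nat_lit 2995417325249) (nat_lit 1) (nat_lit 5) (nat_lit 3) (nat_lit 4) (nat_lit 1) (nat_lit 4) (nat_lit 415) (nat_lit 255) (nat_lit 230))) (XT.nd (nat_lit 78)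 (nat_lit 0) (nat_lit 0) (XT.lf (nat_lit 0) (nat_lit 3235888434205) (nat_lit 152) (nat_lit 277670980271) (nat_lit 0) (nat_lit 3235580524540) (nat_lit 1) (nat_lit 5) (nat_lit 3) (nat_lit 4) (nat_lit 1) (nat_lit 4) (nat_lit 416) (nat_lit 255) (nat_lit 229)) (XT.nd (nat_lit 78) (nat_lit 0) (nat_lit 0) (XT.lf (nat_lit 0) (nat_lit 3495260104229) (nat_lit 152) (nat_lit 298820009475) (nat_lit 0) (nat_lit 3494948628762) (nat_lit 1) (nat_lit 5) (nat_lit 3) (nat_lit 4) (nat_lit 1) (nat_lit 4) (nat_lit 417) (nat_lit 255) (nat_lit 228)) (XT.lf (nat_lit 0) (nat_lit 3775373411224) (nat_lit 152) (nat_lit 321677253610) (nat_lit 0) (nat_lit 3775058634089) (nat_lit 1) (nat_lit 5) (nat_lit 3) (nat_lit 4) (nat_lit 1) (nat_lit 4) (nat_lit 418) (nat_lit 255) (nat_lit 227)))))) (XT.nd (nat_lit 312) (nat_lit 0) (nat_lit 0) (XT.nd (nat_lit 156) (nat_lit 0) (nat_lit 0) (XT.nd (nat_lit 78) (nat_lit 0) (nat_lit 0)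 (XT.lf (nat_lit 0) (nat_lit 182391833788) (nat_lit 152) (nat_lit 26801689001) (nat_lit 0) (nat_lit 182391833788) (nat_lit 1) (nat_lit 5) (nat_lit 3) (nat_lit 4) (nat_lit 1) (nat_lit 4) (nat_lit 388) (nat_lit 256) (nat_lit 256)) (XT.lf (nat_lit 0) (nat_lit 395262086205) (nat_lit 152) (nat_lit 55222398794) (nat_lit 0) (nat_lit 395233602366) (nat_lit 1) (nat_lit 5) (nat_lit 3) (nat_lit 4) (nat_lit 1) (nat_lit 4) (nat_lit 389) (nat_lit 256) (nat_lit 255))) (XT.nd (nat_lit 78) (nat_lit 0) (nat_lit 0) (XT.lf (nat_lit 0) (nat_lit 428114101939) (nat_lit 152) (nat_lit 57101087494) (nat_lit 0) (nat_lit 428059244176) (nat_lit 1) (nat_lit 5) (nat_lit 3) (nat_lit 4) (nat_lit 1) (nat_lit 4) (nat_lit 390) (nat_lit 256) (nat_lit 254)) (XT.lf (nat_lit 0) (nat_lit 463534393391) (nat_lit 152) (nat_lit 59250577074) (nat_lit 0) (nat_lit 463455115327) (nat_lit 1) (nat_lit 5) (nat_lit 3) (nat_lit 4) (nat_lit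 1) (nat_lit 4) (nat_lit 391) (nat_lit 256) (nat_lit 253)))) (XT.nd (nat_lit 156) (nat_lit 0) (nat_lit 0) (XT.nd (nat_lit 78) (nat_lit 0) (nat_lit 0) (XT.lf (nat_lit 0) (nat_lit 501732858584) (nat_lit 152) (nat_lit 61683605250) (nat_lit 0) (nat_lit 501630969131) (nat_lit 1) (nat_lit 5) (nat_lit 3) (nat_lit 4) (nat_lit 1) (nat_lit 4) (nat_lit 392) (nat_lit 256) (nat_lit 252)) (XT.lf (nat_lit 0) (nat_lit 542935858793) (nat_lit 152) (nat_lit 64414589965) (nat_lit 0) (nat_lit 542813032869) (nat_lit 1) (nat_lit 5) (nat_lit 3) (nat_lit 4) (nat_lit 1) (nat_lit 4) (nat_lit 393) (nat_lit 256) (nat_lit 251))) (XT.nd (nat_lit 78) (nat_lit 0) (nat_lit 0) (XT.lf (nat_lit 0) (nat_lit 587387559946) (nat_lit 152) (nat_lit 67459714834) (nat_lit 0) (nat_lit 587245348399) (nat_lit 1) (nat_lit 5) (nat_lit 3) (nat_lit 4) (nat_lit 1) (nat_lit 4) (nat_lit 394) (nat_lit 256) (nat_lit 250)) (XT.nd (nat_lit 78)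 (nat_lit 0) (nat_lit 0) (XT.lf (nat_lit 0) (nat_lit 635351379530) (nat_lit 152) (nat_lit 70837025040) (nat_lit 0) (nat_lit 635191218334) (nat_lit 1) (nat_lit 5) (nat_lit 3) (nat_lit 4) (nat_lit 1) (nat_lit 4) (nat_lit 395) (nat_lit 256) (nat_lit 249)) (XT.lf (nat_lit 0) (nat_lit 687111547588) (nat_lit 152) (nat_lit 74566534275) (nat_lit 0) (nat_lit 686934766346) (nat_lit 1) (nat_lit 5) (nat_lit 3) (nat_lit 4) (nat_lit 1) (nat_lit 4) (nat_lit 396) (nat_lit 256) (nat_lit 248))))))) (XT.nd (nat_lit 702) (nat_lit 0) (nat_lit 0) (XT.nd (nat_lit 312) (nat_lit 0) (nat_lit 0) (XT.nd (nat_lit 156) (nat_lit 0) (nat_lit 0) (XT.nd (nat_lit 78) (nat_lit 0) (nat_lit 0) (XT.lf (nat_lit 0) (nat_lit 742974791042) (nat_lit 152) (nat_lit 78670343332) (nat_lit 0) (nat_lit 742782620868) (nat_lit 1) (nat_lit 5) (nat_lit 3) (nat_lit 4) (nat_lit 1) (nat_lit 4) (nat_lit 397) (nat_lit 256) (nat_lit 247)) (XT.lf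 (nat_lit 0) (nat_lit 803272151334) (nat_lit 152) (nat_lit 83172771081) (nat_lit 0) (nat_lit 803065732149) (nat_lit 1) (nat_lit 5) (nat_lit 3) (nat_lit 4) (nat_lit 1) (nat_lit 4) (nat_lit 398) (nat_lit 256) (nat_lit 246))) (XT.nd (nat_lit 78) (nat_lit 0) (nat_lit 0) (XT.lf (nat_lit 0) (nat_lit 868360946155) (nat_lit 152) (nat_lit 88100498576) (nat_lit 0) (nat_lit 868141333442) (nat_lit 1) (nat_lit 5) (nat_lit 3) (nat_lit 4) (nat_lit 1) (nat_lit 4) (nat_lit 399) (nat_lit 256) (nat_lit 245)) (XT.lf (nat_lit 0) (nat_lit 938626886881) (nat_lit 152) (nat_lit 93482727163) (nat_lit 0) (nat_lit 938395057938) (nat_lit 1) (nat_lit 5) (nat_lit 3) (nat_lit 4) (nat_lit 1) (nat_lit 4) (nat_lit 400) (nat_lit 256) (nat_lit 244)))) (XT.nd (nat_lit 156) (nat_lit 0) (nat_lit 0) (XT.nd (nat_lit 78) (nat_lit 0) (nat_lit 0) (XT.lf (nat_lit 0) (nat_lit 1014486364273) (nat_lit 152) (nat_lit 99351351532) (nat_lit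 0) (nat_lit 1014243224006) (nat_lit 1) (nat_lit 5) (nat_lit 3) (nat_lit 4) (nat_lit 1) (nat_lit 4) (nat_lit 401) (nat_lit 256) (nat_lit 243)) (XT.lf (nat_lit 0) (nat_lit 1096388915975) (nat_lit 152) (nat_lit 105741148715) (nat_lit 0) (nat_lit 1096135302259) (nat_lit 1) (nat_lit 5) (nat_lit 3) (nat_lit 4) (nat_lit 1) (nat_lit 4) (nat_lit 402) (nat_lit 256) (nat_lit 242))) (XT.nd (nat_lit 78) (nat_lit 0) (nat_lit 0) (XT.lf (nat_lit 0) (nat_lit 1184819890440) (nat_lit 152) (nat_lit 112689984177) (nat_lit 0) (nat_lit 1184556579087) (nat_lit 1) (nat_lit 5) (nat_lit 3) (nat_lit 4) (nat_lit 1) (nat_lit 4) (nat_lit 403) (nat_lit 256) (nat_lit 241)) (XT.nd (nat_lit 78) (nat_lit 0) (nat_lit 0) (XT.lf (nat_lit 0) (nat_lit 1280303323073) (nat_lit 152) (nat_lit 120239036203) (nat_lit 0) (nat_lit 1280031032426) (nat_lit 1) (nat_lit 5) (nat_lit 3) (nat_lit 4) (nat_lit 1) (nat_lit 4) (nat_lit 404) (nat_lit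 256) (nat_lit 240)) (XT.lf (nat_lit 0) (nat_lit 1383405041623) (nat_lit 152) (nat_lit 128433039915) (nat_lit 0) (nat_lit 1383124436815) (nat_lit 1) (nat_lit 5) (nat_lit 3) (nat_lit 4) (nat_lit 1) (nat_lit 4) (nat_lit 405) (nat_lit 256) (nat_lit 239)))))) (XT.nd (nat_lit 312) (nat_lit 0) (nat_lit 0) (XT.nd (nat_lit 156) (nat_lit 0) (nat_lit 0) (XT.nd (nat_lit 78) (nat_lit 0) (nat_lit 0) (XT.lf (nat_lit 0) (nat_lit 1494736019237) (nat_lit 152) (nat_lit 137320552373) (nat_lit 0) (nat_lit 1494447716132) (nat_lit 1) (nat_lit 5) (nat_lit 3) (nat_lit 4) (nat_lit 1) (nat_lit 4) (nat_lit 406) (nat_lit 256) (nat_lit 238)) (XT.lf (nat_lit 0) (nat_lit 1614955995041) (nat_lit 152) (nat_lit 146954240316) (nat_lit 0) (nat_lit 1614660563884) (nat_lit 1) (nat_lit 5) (nat_lit 3) (nat_lit 4) (nat_lit 1) (nat_lit 4) (nat_lit 407) (nat_lit 256) (nat_lit 237))) (XT.nd (nat_lit 78) (nat_lit 0) (nat_lit 0) (XT.lf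 (nat_lit 0) (nat_lit 1744777383708) (nat_lit 152) (nat_lit 157391192267) (nat_lit 0) (nat_lit 1744475352501) (nat_lit 1) (nat_lit 5) (nat_lit 3) (nat_lit 4) (nat_lit 1) (nat_lit 4) (nat_lit 408) (nat_lit 256) (nat_lit 236)) (XT.lf (nat_lit 0) (nat_lit 1884969497169) (nat_lit 152) (nat_lit 168693256830) (nat_lit 0) (nat_lit 1884661354806) (nat_lit 1) (nat_lit 5) (nat_lit 3) (nat_lit 4) (nat_lit 1) (nat_lit 4) (nat_lit 409) (nat_lit 256) (nat_lit 235)))) (XT.nd (nat_lit 156) (nat_lit 0) (nat_lit 0) (XT.nd (nat_lit 78) (nat_lit 0) (nat_lit 0) (XT.lf (nat_lit 0) (nat_lit 2036363103505) (nat_lit 152) (nat_lit 180927409201) (nat_lit 0) (nat_lit 2036049302664) (nat_lit 1) (nat_lit 5) (nat_lit 3) (nat_lit 4) (nat_lit 1) (nat_lit 4) (nat_lit 410) (nat_lit 256) (nat_lit 234)) (XT.lf (nat_lit 0) (nat_lit 2199855350013) (nat_lit 152) (nat_lit 194166148061) (nat_lit 0) (nat_lit 2199536309840) (nat_lit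 1) (nat_lit 5) (nat_lit 3) (nat_lit 4) (nat_lit 1) (nat_lit 4) (nat_lit 411) (nat_lit 256) (nat_lit 233))) (XT.nd (nat_lit 78) (nat_lit 0) (nat_lit 0) (XT.lf (nat_lit 0) (nat_lit 2376415079634) (nat_lit 152) (nat_lit 208487925197) (nat_lit 0) (nat_lit 2376091188227) (nat_lit 1) (nat_lit 5) (nat_lit 3) (nat_lit 4) (nat_lit 1) (nat_lit 4) (nat_lit 412) (nat_lit 256) (nat_lit 232)) (XT.nd (nat_lit 78) (nat_lit 0) (nat_lit 0) (XT.lf (nat_lit 0) (nat_lit 2567088572247) (nat_lit 152) (nat_lit 223977610399) (nat_lit 0) (nat_lit 2566760188959) (nat_lit 1) (nat_lit 5) (nat_lit 3) (nat_lit 4) (nat_lit 1) (nat_lit 4) (nat_lit 413) (nat_lit 256) (nat_lit 231)) (XT.lf (nat_lit 0) (nat_lit 2773005744847) (nat_lit 152) (nat_lit 240726994393) (nat_lit 0) (nat_lit 2772673202408) (nat_lit 1) (nat_lit 5) (nat_lit 3) (nat_lit 4) (nat_lit 1) (nat_lit 4) (nat_lit 414) (nat_lit 256) (nat_lit 230))))))))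
noncomputable def xc7 : XT := (XT.nd (nat_lit 45708) (nat_lit 0) (nat_lit 0) (XT.nd (nat_lit 45006) (nat_lit 0) (nat_lit 0) (XT.nd (nat_lit 44616) (nat_lit 0) (nat_lit 0) (XT.nd (nat_lit 156) (nat_lit 0) (nat_lit 0) (XT.nd (nat_lit 78) (nat_lit 0) (nat_lit 0) (XT.lf (nat_lit 0) (nat_lit 2995386847345) (nat_lit 152) (nat_lit 258835332789) (nat_lit 0) (nat_lit 2995050453841) (nat_lit 1) (nat_lit 5) (nat_lit 3) (nat_lit 4) (nat_lit 1) (nat_lit 4) (nat_lit 415) (nat_lit 256) (nat_lit 229)) (XT.lf (nat_lit 0) (nat_lit 3235549693682) (nat_lit 152) (nat_lit 278409934259) (nat_lit 0) (nat_lit 3235209734376) (nat_lit 1) (nat_lit 5) (nat_lit 3) (nat_lit 4) (nat_lit 1) (nat_lit 4) (nat_lit 416) (nat_lit 256) (nat_lit 228))) (XT.nd (nat_lit 78) (nat_lit 0) (nat_lit 0) (XT.lf (nat_lit 0) (nat_lit 3494917471094) (nat_lit 152) (nat_lit 299566796441) (nat_lit 0) (nat_lit 3494574210121) (nat_lit 1) (nat_lit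 5) (nat_lit 3) (nat_lit 4) (nat_lit 1) (nat_lit 4) (nat_lit 417) (nat_lit 256) (nat_lit 227)) (XT.lf (nat_lit 0) (nat_lit 3775027173819) (nat_lit 152) (nat_lit 322431293334) (nat_lit 0) (nat_lit 3774680855747) (nat_lit 1) (nat_lit 5) (nat_lit 3) (nat_lit 4) (nat_lit 1) (nat_lit 4) (nat_lit 418) (nat_lit 256) (nat_lit 226)))) (XT.nd (nat_lit 156) (nat_lit 0) (nat_lit 0) (XT.nd (nat_lit 78) (nat_lit 0) (nat_lit 0) (XT.lf (nat_lit 0) (nat_lit 155152598383) (nat_lit 152) (nat_lit 25517231633) (nat_lit 0) (nat_lit 155152598383) (nat_lit 1) (nat_lit 5) (nat_lit 3) (nat_lit 4) (nat_lit 1) (nat_lit 4) (nat_lit 386) (nat_lit 257) (nat_lit 257)) (XT.lf (nat_lit 0) (nat_lit 336528995749) (nat_lit 152) (nat_lit 52234430923) (nat_lit 0) (nat_lit 336498233203) (nat_lit 1) (nat_lit 5) (nat_lit 3) (nat_lit 4) (nat_lit 1) (nat_lit 4) (nat_lit 387) (nat_lit 257) (nat_lit 256))) (XT.nd (nat_lit 78) (nat_lit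 0) (nat_lit 0) (XT.lf (nat_lit 0) (nat_lit 364780848153) (nat_lit 152) (nat_lit 53670953938) (nat_lit 0) (nat_lit 364721601769) (nat_lit 1) (nat_lit 5) (nat_lit 3) (nat_lit 4) (nat_lit 1) (nat_lit 4) (nat_lit 388) (nat_lit 257) (nat_lit 255)) (XT.nd (nat_lit 78) (nat_lit 0) (nat_lit 0) (XT.lf (nat_lit 0) (nat_lit 395228172366) (nat_lit 152) (nat_lit 55352545040) (nat_lit 0) (nat_lit 395142552058) (nat_lit 1) (nat_lit 5) (nat_lit 3) (nat_lit 4) (nat_lit 1) (nat_lit 4) (nat_lit 389) (nat_lit 257) (nat_lit 254)) (XT.lf (nat_lit 0) (nat_lit 428051396975) (nat_lit 152) (nat_lit 57289169213) (nat_lit 0) (nat_lit 427941356366) (nat_lit 1) (nat_lit 5) (nat_lit 3) (nat_lit 4) (nat_lit 1) (nat_lit 4) (nat_lit 390) (nat_lit 257) (nat_lit 253)))))) (XT.nd (nat_lit 312) (nat_lit 0) (nat_lit 0) (XT.nd (nat_lit 156) (nat_lit 0) (nat_lit 0) (XT.nd (nat_lit 78) (nat_lit 0) (nat_lit 0) (XT.lf (nat_lit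 0) (nat_lit 463445029977) (nat_lit 152) (nat_lit 59492302749) (nat_lit 0) (nat_lit 463312377979) (nat_lit 1) (nat_lit 5) (nat_lit 3) (nat_lit 4) (nat_lit 1) (nat_lit 4) (nat_lit 391) (nat_lit 257) (nat_lit 252)) (XT.lf (nat_lit 0) (nat_lit 501618811420) (nat_lit 152) (nat_lit 61975001255) (nat_lit 0) (nat_lit 501465222950) (nat_lit 1) (nat_lit 5) (nat_lit 3) (nat_lit 4) (nat_lit 1) (nat_lit 4) (nat_lit 392) (nat_lit 257) (nat_lit 251))) (XT.nd (nat_lit 78) (nat_lit 0) (nat_lit 0) (XT.lf (nat_lit 0) (nat_lit 542798956306) (nat_lit 152) (nat_lit 64751977016) (nat_lit 0) (nat_lit 542625982214) (nat_lit 1) (nat_lit 5) (nat_lit 3) (nat_lit 4) (nat_lit 1) (nat_lit 4) (nat_lit 393) (nat_lit 257) (nat_lit 250)) (XT.lf (nat_lit 0) (nat_lit 587229495122) (nat_lit 152) (nat_lit 67839686187) (nat_lit 0) (nat_lit 587038571380) (nat_lit 1) (nat_lit 5) (nat_lit 3) (nat_lit 4) (nat_lit 1) (nat_lit 4)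 (nat_lit 394) (nat_lit 257) (nat_lit 249)))) (XT.nd (nat_lit 156) (nat_lit 0) (nat_lit 0) (XT.nd (nat_lit 78) (nat_lit 0) (nat_lit 0) (XT.lf (nat_lit 0) (nat_lit 635173719950) (nat_lit 152) (nat_lit 71256426303) (nat_lit 0) (nat_lit 634966176162) (nat_lit 1) (nat_lit 5) (nat_lit 3) (nat_lit 4) (nat_lit 1) (nat_lit 4) (nat_lit 395) (nat_lit 257) (nat_lit 248)) (XT.lf (nat_lit 0) (nat_lit 686915744715) (nat_lit 152) (nat_lit 75022444712) (nat_lit 0) (nat_lit 686692811996) (nat_lit 1) (nat_lit 5) (nat_lit 3) (nat_lit 4) (nat_lit 1) (nat_lit 4) (nat_lit 396) (nat_lit 257) (nat_lit 247))) (XT.nd (nat_lit 78) (nat_lit 0) (nat_lit 0) (XT.lf (nat_lit 0) (nat_lit 742762188824) (nat_lit 152) (nat_lit 79160058562) (nat_lit 0) (nat_lit 742525007094) (nat_lit 1) (nat_lit 5) (nat_lit 3) (nat_lit 4) (nat_lit 1) (nat_lit 4) (nat_lit 397) (nat_lit 257) (nat_lit 246)) (XT.nd (nat_lit 78) (nat_lit 0) (nat_lit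 0) (XT.lf (nat_lit 0) (nat_lit 803043994166) (nat_lit 152) (nat_lit 83693787044) (nat_lit 0) (nat_lit 802793618908) (nat_lit 1) (nat_lit 5) (nat_lit 3) (nat_lit 4) (nat_lit 1) (nat_lit 4) (nat_lit 398) (nat_lit 257) (nat_lit 245)) (XT.lf (nat_lit 0) (nat_lit 868118386257) (nat_lit 152) (nat_lit 88650496699) (nat_lit 0) (nat_lit 867855794768) (nat_lit 1) (nat_lit 5) (nat_lit 3) (nat_lit 4) (nat_lit 1) (nat_lit 4) (nat_lit 399) (nat_lit 257) (nat_lit 244))))))) (XT.nd (nat_lit 702) (nat_lit 0) (nat_lit 0) (XT.nd (nat_lit 312) (nat_lit 0) (nat_lit 0) (XT.nd (nat_lit 156) (nat_lit 0) (nat_lit 0) (XT.nd (nat_lit 78) (nat_lit 0) (nat_lit 0) (XT.lf (nat_lit 0) (nat_lit 938370991121) (nat_lit 152) (nat_lit 94059560620) (nat_lit 0) (nat_lit 938097088308) (nat_lit 1) (nat_lit 5) (nat_lit 3) (nat_lit 4) (nat_lit 1) (nat_lit 4) (nat_lit 400) (nat_lit 257) (nat_lit 243)) (XT.lf (nat_lit 0) (nat_lit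 1014218120493) (nat_lit 152) (nat_lit 99953032520) (nat_lit 0) (nat_lit 1013933744232) (nat_lit 1) (nat_lit 5) (nat_lit 3) (nat_lit 4) (nat_lit 1) (nat_lit 4) (nat_lit 401) (nat_lit 257) (nat_lit 242))) (XT.nd (nat_lit 78) (nat_lit 0) (nat_lit 0) (XT.lf (nat_lit 0) (nat_lit 1096109238842) (nat_lit 152) (nat_lit 106365836676) (nat_lit 0) (nat_lit 1095815164944) (nat_lit 1) (nat_lit 5) (nat_lit 3) (nat_lit 4) (nat_lit 1) (nat_lit 4) (nat_lit 402) (nat_lit 257) (nat_lit 241)) (XT.lf (nat_lit 0) (nat_lit 1184529626870) (nat_lit 152) (nat_lit 113335974891) (nat_lit 0) (nat_lit 1184226573678) (nat_lit 1) (nat_lit 5) (nat_lit 3) (nat_lit 4) (nat_lit 1) (nat_lit 4) (nat_lit 403) (nat_lit 257) (nat_lit 240)))) (XT.nd (nat_lit 156) (nat_lit 0) (nat_lit 0) (XT.nd (nat_lit 78) (nat_lit 0) (nat_lit 0) (XT.lf (nat_lit 0) (nat_lit 1280003257247) (nat_lit 152) (nat_lit 120904751688) (nat_lit 0) (nat_lit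 1279691889894) (nat_lit 1) (nat_lit 5) (nat_lit 3) (nat_lit 4) (nat_lit 1) (nat_lit 4) (nat_lit 404) (nat_lit 257) (nat_lit 239)) (XT.lf (nat_lit 0) (nat_lit 1383095899633) (nat_lit 152) (nat_lit 129117019078) (nat_lit 0) (nat_lit 1382776833983) (nat_lit 1) (nat_lit 5) (nat_lit 3) (nat_lit 4) (nat_lit 1) (nat_lit 4) (nat_lit 405) (nat_lit 257) (nat_lit 238))) (XT.nd (nat_lit 78) (nat_lit 0) (nat_lit 0) (XT.lf (nat_lit 0) (nat_lit 1494418473392) (nat_lit 152) (nat_lit 138021442348) (nat_lit 0) (nat_lit 1494092279689) (nat_lit 1) (nat_lit 5) (nat_lit 3) (nat_lit 4) (nat_lit 1) (nat_lit 4) (nat_lit 406) (nat_lit 257) (nat_lit 237)) (XT.nd (nat_lit 78) (nat_lit 0) (nat_lit 0) (XT.lf (nat_lit 0) (nat_lit 1614630667850) (nat_lit 152) (nat_lit 147670788451) (nat_lit 0) (nat_lit 1614297874097) (nat_lit 1) (nat_lit 5) (nat_lit 3) (nat_lit 4) (nat_lit 1) (nat_lit 4) (nat_lit 407) (nat_lit 257)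 (nat_lit 236)) (XT.lf (nat_lit 0) (nat_lit 1744444851565) (nat_lit 152) (nat_lit 158122238698) (nat_lit 0) (nat_lit 1744105946656) (nat_lit 1) (nat_lit 5) (nat_lit 3) (nat_lit 4) (nat_lit 1) (nat_lit 4) (nat_lit 408) (nat_lit 257) (nat_lit 235)))))) (XT.nd (nat_lit 312) (nat_lit 0) (nat_lit 0) (XT.nd (nat_lit 156) (nat_lit 0) (nat_lit 0) (XT.nd (nat_lit 78) (nat_lit 0) (nat_lit 0) (XT.lf (nat_lit 0) (nat_lit 1884630293775) (nat_lit 152) (nat_lit 169437727608) (nat_lit 0) (nat_lit 1884285730388) (nat_lit 1) (nat_lit 5) (nat_lit 3) (nat_lit 4) (nat_lit 1) (nat_lit 4) (nat_lit 409) (nat_lit 257) (nat_lit 234)) (XT.lf (nat_lit 0) (nat_lit 2036017723027) (nat_lit 152) (nat_lit 181684309931) (nat_lit 0) (nat_lit 2035667920308) (nat_lit 1) (nat_lit 5) (nat_lit 3) (nat_lit 4) (nat_lit 1) (nat_lit 4) (nat_lit 410) (nat_lit 257) (nat_lit 233))) (XT.nd (nat_lit 78) (nat_lit 0) (nat_lit 0) (XT.lf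 (nat_lit 0) (nat_lit 2199504250011) (nat_lit 152) (nat_lit 194934558006) (nat_lit 0) (nat_lit 2199149596060) (nat_lit 1) (nat_lit 5) (nat_lit 3) (nat_lit 4) (nat_lit 1) (nat_lit 4) (nat_lit 411) (nat_lit 257) (nat_lit 232)) (XT.lf (nat_lit 0) (nat_lit 2376058683778) (nat_lit 152) (nat_lit 209266991822) (nat_lit 0) (nat_lit 2375699537944) (nat_lit 1) (nat_lit 5) (nat_lit 3) (nat_lit 4) (nat_lit 1) (nat_lit 4) (nat_lit 412) (nat_lit 257) (nat_lit 231)))) (XT.nd (nat_lit 156) (nat_lit 0) (nat_lit 0) (XT.nd (nat_lit 78) (nat_lit 0) (nat_lit 0) (XT.lf (nat_lit 0) (nat_lit 2566727272823) (nat_lit 152) (nat_lit 224766544320) (nat_lit 0) (nat_lit 2566363967839) (nat_lit 1) (nat_lit 5) (nat_lit 3) (nat_lit 4) (nat_lit 1) (nat_lit 4) (nat_lit 413) (nat_lit 257) (nat_lit 230)) (XT.lf (nat_lit 0) (nat_lit 2772639905082) (nat_lit 152) (nat_lit 241525064701) (nat_lit 0) (nat_lit 2772272749032) (nat_lit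 1) (nat_lit 5) (nat_lit 3) (nat_lit 4) (nat_lit 1) (nat_lit 4) (nat_lit 414) (nat_lit 257) (nat_lit 229))) (XT.nd (nat_lit 78) (nat_lit 0) (nat_lit 0) (XT.lf (nat_lit 0) (nat_lit 2995016803560) (nat_lit 152) (nat_lit 259641862713) (nat_lit 0) (nat_lit 2994646081709) (nat_lit 1) (nat_lit 5) (nat_lit 3) (nat_lit 4) (nat_lit 1) (nat_lit 4) (nat_lit 415) (nat_lit 257) (nat_lit 228)) (XT.nd (nat_lit 78) (nat_lit 0) (nat_lit 0) (XT.lf (nat_lit 0) (nat_lit 3235175757285) (nat_lit 152) (nat_lit 279224297161) (nat_lit 0) (nat_lit 3234801733767) (nat_lit 1) (nat_lit 5) (nat_lit 3) (nat_lit 4) (nat_lit 1) (nat_lit 4) (nat_lit 416) (nat_lit 257) (nat_lit 227)) (XT.lf (nat_lit 0) (nat_lit 3494539930428) (nat_lit 152) (nat_lit 300388412101) (nat_lit 0) (nat_lit 3494162849810) (nat_lit 1) (nat_lit 5) (nat_lit 3) (nat_lit 4) (nat_lit 1) (nat_lit 4) (nat_lit 417) (nat_lit 257) (nat_lit 226))))))))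
noncomputable def xc8 : XT := (XT.nd (nat_lit 45552) (nat_lit 0) (nat_lit 0) (XT.nd (nat_lit 44850) (nat_lit 0) (nat_lit 0) (XT.nd (nat_lit 44460) (nat_lit 0) (nat_lit 0) (XT.nd (nat_lit 44304) (nat_lit 0) (nat_lit 0) (XT.nd (nat_lit 44226) (nat_lit 0) (nat_lit 0) (XT.lf (nat_lit 0) (nat_lit 3774646295867) (nat_lit 152) (nat_lit 323259624509) (nat_lit 0) (nat_lit 3774266384601) (nat_lit 1) (nat_lit 5) (nat_lit 3) (nat_lit 4) (nat_lit 1) (nat_lit 4) (nat_lit 418) (nat_lit 257) (nat_lit 225)) (XT.lf (nat_lit 0) (nat_lit 131701824337) (nat_lit 152) (nat_lit 24619144725) (nat_lit 0) (nat_lit 131701824337) (nat_lit 1) (nat_lit 5) (nat_lit 3) (nat_lit 4) (nat_lit 1) (nat_lit 4) (nat_lit 384) (nat_lit 258) (nat_lit 258))) (XT.nd (nat_lit 78) (nat_lit 0) (nat_lit 0) (XT.lf (nat_lit 0) (nat_lit 285987274468) (nat_lit 152) (nat_lit 50063940049) (nat_lit 0) (nat_lit 285954050919) (nat_lit 1) (nat_lit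 5) (nat_lit 3) (nat_lit 4) (nat_lit 1) (nat_lit 4) (nat_lit 385) (nat_lit 258) (nat_lit 257)) (XT.lf (nat_lit 0) (nat_lit 310302151790) (nat_lit 152) (nat_lit 51107445277) (nat_lit 0) (nat_lit 310238165696) (nat_lit 1) (nat_lit 5) (nat_lit 3) (nat_lit 4) (nat_lit 1) (nat_lit 4) (nat_lit 386) (nat_lit 258) (nat_lit 256)))) (XT.nd (nat_lit 156) (nat_lit 0) (nat_lit 0) (XT.nd (nat_lit 78) (nat_lit 0) (nat_lit 0) (XT.lf (nat_lit 0) (nat_lit 336492368803) (nat_lit 152) (nat_lit 52374988869) (nat_lit 0) (nat_lit 336399898870) (nat_lit 1) (nat_lit 5) (nat_lit 3) (nat_lit 4) (nat_lit 1) (nat_lit 4) (nat_lit 387) (nat_lit 258) (nat_lit 255)) (XT.lf (nat_lit 0) (nat_lit 364713126792) (nat_lit 152) (nat_lit 53874082194) (nat_lit 0) (nat_lit 364594282934) (nat_lit 1) (nat_lit 5) (nat_lit 3) (nat_lit 4) (nat_lit 1) (nat_lit 4) (nat_lit 388) (nat_lit 258) (nat_lit 254))) (XT.nd (nat_lit 78) (nat_lit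 0) (nat_lit 0) (XT.lf (nat_lit 0) (nat_lit 395131659879) (nat_lit 152) (nat_lit 55613608769) (nat_lit 0) (nat_lit 394988395721) (nat_lit 1) (nat_lit 5) (nat_lit 3) (nat_lit 4) (nat_lit 1) (nat_lit 4) (nat_lit 389) (nat_lit 258) (nat_lit 253)) (XT.nd (nat_lit 78) (nat_lit 0) (nat_lit 0) (XT.lf (nat_lit 0) (nat_lit 427928226038) (nat_lit 152) (nat_lit 57603876898) (nat_lit 0) (nat_lit 427762350491) (nat_lit 1) (nat_lit 5) (nat_lit 3) (nat_lit 4) (nat_lit 1) (nat_lit 4) (nat_lit 390) (nat_lit 258) (nat_lit 252)) (XT.lf (nat_lit 0) (nat_lit 463297175291) (nat_lit 152) (nat_lit 59856680764) (nat_lit 0) (nat_lit 463110363272) (nat_lit 1) (nat_lit 5) (nat_lit 3) (nat_lit 4) (nat_lit 1) (nat_lit 4) (nat_lit 391) (nat_lit 258) (nat_lit 251)))))) (XT.nd (nat_lit 312) (nat_lit 0) (nat_lit 0) (XT.nd (nat_lit 156) (nat_lit 0) (nat_lit 0) (XT.nd (nat_lit 78) (nat_lit 0) (nat_lit 0) (XT.lf (nat_lit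 0) (nat_lit 501448101410) (nat_lit 152) (nat_lit 62385370316) (nat_lit 0) (nat_lit 501241903770) (nat_lit 1) (nat_lit 5) (nat_lit 3) (nat_lit 4) (nat_lit 1) (nat_lit 4) (nat_lit 392) (nat_lit 258) (nat_lit 250)) (XT.lf (nat_lit 0) (nat_lit 542607083959) (nat_lit 152) (nat_lit 65204930380) (nat_lit 0) (nat_lit 542382936668) (nat_lit 1) (nat_lit 5) (nat_lit 3) (nat_lit 4) (nat_lit 1) (nat_lit 4) (nat_lit 393) (nat_lit 258) (nat_lit 249))) (XT.nd (nat_lit 78) (nat_lit 0) (nat_lit 0) (XT.lf (nat_lit 0) (nat_lit 587018028019) (nat_lit 152) (nat_lit 68332069460) (nat_lit 0) (nat_lit 586777260682) (nat_lit 1) (nat_lit 5) (nat_lit 3) (nat_lit 4) (nat_lit 1) (nat_lit 4) (nat_lit 394) (nat_lit 258) (nat_lit 248)) (XT.lf (nat_lit 0) (nat_lit 634944109554) (nat_lit 152) (nat_lit 71785318751) (nat_lit 0) (nat_lit 634687953286) (nat_lit 1) (nat_lit 5) (nat_lit 3) (nat_lit 4) (nat_lit 1) (nat_lit 4)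 (nat_lit 395) (nat_lit 258) (nat_lit 247)))) (XT.nd (nat_lit 156) (nat_lit 0) (nat_lit 0) (XT.nd (nat_lit 78) (nat_lit 0) (nat_lit 0) (XT.lf (nat_lit 0) (nat_lit 686669334974) (nat_lit 152) (nat_lit 75585141952) (nat_lit 0) (nat_lit 686398929695) (nat_lit 1) (nat_lit 5) (nat_lit 3) (nat_lit 4) (nat_lit 1) (nat_lit 4) (nat_lit 396) (nat_lit 258) (nat_lit 246)) (XT.lf (nat_lit 0) (nat_lit 742500224134) (nat_lit 152) (nat_lit 79754056535) (nat_lit 0) (nat_lit 742216625326) (nat_lit 1) (nat_lit 5) (nat_lit 3) (nat_lit 4) (nat_lit 1) (nat_lit 4) (nat_lit 397) (nat_lit 258) (nat_lit 245))) (XT.nd (nat_lit 78) (nat_lit 0) (nat_lit 0) (XT.lf (nat_lit 0) (nat_lit 802767626746) (nat_lit 152) (nat_lit 84316767177) (nat_lit 0) (nat_lit 802471811708) (nat_lit 1) (nat_lit 5) (nat_lit 3) (nat_lit 4) (nat_lit 1) (nat_lit 4) (nat_lit 398) (nat_lit 258) (nat_lit 244)) (XT.nd (nat_lit 78) (nat_lit 0) (nat_lit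 0) (XT.lf (nat_lit 0) (nat_lit 867828682974) (nat_lit 152) (nat_lit 89300312166) (nat_lit 0) (nat_lit 867521556612) (nat_lit 1) (nat_lit 5) (nat_lit 3) (nat_lit 4) (nat_lit 1) (nat_lit 4) (nat_lit 399) (nat_lit 258) (nat_lit 243)) (XT.lf (nat_lit 0) (nat_lit 938068939818) (nat_lit 152) (nat_lit 94734223618) (nat_lit 0) (nat_lit 937751340008) (nat_lit 1) (nat_lit 5) (nat_lit 3) (nat_lit 4) (nat_lit 1) (nat_lit 4) (nat_lit 400) (nat_lit 258) (nat_lit 242))))))) (XT.nd (nat_lit 702) (nat_lit 0) (nat_lit 0) (XT.nd (nat_lit 312) (nat_lit 0) (nat_lit 0) (XT.nd (nat_lit 156) (nat_lit 0) (nat_lit 0) (XT.nd (nat_lit 78) (nat_lit 0) (nat_lit 0) (XT.lf (nat_lit 0) (nat_lit 1013904635838) (nat_lit 152) (nat_lit 100650702491) (nat_lit 0) (nat_lit 1013577338390) (nat_lit 1) (nat_lit 5) (nat_lit 3) (nat_lit 4) (nat_lit 1) (nat_lit 4) (nat_lit 401) (nat_lit 258) (nat_lit 241)) (XT.lf (nat_lit 0) (nat_lit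 1095785167750) (nat_lit 152) (nat_lit 107084809401) (nat_lit 0) (nat_lit 1095448891009) (nat_lit 1) (nat_lit 5) (nat_lit 3) (nat_lit 4) (nat_lit 1) (nat_lit 4) (nat_lit 402) (nat_lit 258) (nat_lit 240))) (XT.nd (nat_lit 78) (nat_lit 0) (nat_lit 0) (XT.lf (nat_lit 0) (nat_lit 1184195753521) (nat_lit 152) (nat_lit 114074672388) (nat_lit 0) (nat_lit 1183851162619) (nat_lit 1) (nat_lit 5) (nat_lit 3) (nat_lit 4) (nat_lit 1) (nat_lit 4) (nat_lit 403) (nat_lit 258) (nat_lit 239)) (XT.lf (nat_lit 0) (nat_lit 1279660307734) (nat_lit 152) (nat_lit 121661712862) (nat_lit 0) (nat_lit 1279308018535) (nat_lit 1) (nat_lit 5) (nat_lit 3) (nat_lit 4) (nat_lit 1) (nat_lit 4) (nat_lit 404) (nat_lit 258) (nat_lit 238)))) (XT.nd (nat_lit 156) (nat_lit 0) (nat_lit 0) (XT.nd (nat_lit 78) (nat_lit 0) (nat_lit 0) (XT.lf (nat_lit 0) (nat_lit 1382744546266) (nat_lit 152) (nat_lit 129890891063) (nat_lit 0) (nat_lit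 1382385129014) (nat_lit 1) (nat_lit 5) (nat_lit 3) (nat_lit 4) (nat_lit 1) (nat_lit 4) (nat_lit 405) (nat_lit 258) (nat_lit 237)) (XT.lf (nat_lit 0) (nat_lit 1494059338678) (nat_lit 152) (nat_lit 138810972493) (nat_lit 0) (nat_lit 1493693321376) (nat_lit 1) (nat_lit 5) (nat_lit 3) (nat_lit 4) (nat_lit 1) (nat_lit 4) (nat_lit 406) (nat_lit 258) (nat_lit 236))) (XT.nd (nat_lit 78) (nat_lit 0) (nat_lit 0) (XT.lf (nat_lit 0) (nat_lit 1614264328184) (nat_lit 152) (nat_lit 148474816892) (nat_lit 0) (nat_lit 1613892199726) (nat_lit 1) (nat_lit 5) (nat_lit 3) (nat_lit 4) (nat_lit 1) (nat_lit 4) (nat_lit 407) (nat_lit 258) (nat_lit 235)) (XT.nd (nat_lit 78) (nat_lit 0) (nat_lit 0) (XT.lf (nat_lit 0) (nat_lit 1744071840648) (nat_lit 152) (nat_lit 158939691487) (nat_lit 0) (nat_lit 1743694053712) (nat_lit 1) (nat_lit 5) (nat_lit 3) (nat_lit 4) (nat_lit 1) (nat_lit 4) (nat_lit 408) (nat_lit 258)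 (nat_lit 234)) (XT.lf (nat_lit 0) (nat_lit 1884251105774) (nat_lit 152) (nat_lit 170267610349) (nat_lit 0) (nat_lit 1883868079506) (nat_lit 1) (nat_lit 5) (nat_lit 3) (nat_lit 4) (nat_lit 1) (nat_lit 4) (nat_lit 409) (nat_lit 258) (nat_lit 233)))))) (XT.nd (nat_lit 312) (nat_lit 0) (nat_lit 0) (XT.nd (nat_lit 156) (nat_lit 0) (nat_lit 0) (XT.nd (nat_lit 78) (nat_lit 0) (nat_lit 0) (XT.lf (nat_lit 0) (nat_lit 2035632815503) (nat_lit 152) (nat_lit 182525701886) (nat_lit 0) (nat_lit 2035244938002) (nat_lit 1) (nat_lit 5) (nat_lit 3) (nat_lit 4) (nat_lit 1) (nat_lit 4) (nat_lit 410) (nat_lit 258) (nat_lit 232)) (XT.lf (nat_lit 0) (nat_lit 2199114046633) (nat_lit 152) (nat_lit 195786606642) (nat_lit 0) (nat_lit 2198721677250) (nat_lit 1) (nat_lit 5) (nat_lit 3) (nat_lit 4) (nat_lit 1) (nat_lit 4) (nat_lit 411) (nat_lit 258) (nat_lit 231))) (XT.nd (nat_lit 78) (nat_lit 0) (nat_lit 0) (XT.lf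 (nat_lit 0) (nat_lit 2375663576831) (nat_lit 152) (nat_lit 210128907754) (nat_lit 0) (nat_lit 2375267048298) (nat_lit 1) (nat_lit 5) (nat_lit 3) (nat_lit 4) (nat_lit 1) (nat_lit 4) (nat_lit 412) (nat_lit 258) (nat_lit 230)) (XT.lf (nat_lit 0) (nat_lit 2566327625535) (nat_lit 152) (nat_lit 225637596638) (nat_lit 0) (nat_lit 2565927245936) (nat_lit 1) (nat_lit 5) (nat_lit 3) (nat_lit 4) (nat_lit 1) (nat_lit 4) (nat_lit 413) (nat_lit 258) (nat_lit 229)))) (XT.nd (nat_lit 156) (nat_lit 0) (nat_lit 0) (XT.nd (nat_lit 78) (nat_lit 0) (nat_lit 0) (XT.lf (nat_lit 0) (nat_lit 2772236053774) (nat_lit 152) (nat_lit 242404576635) (nat_lit 0) (nat_lit 2771832108374) (nat_lit 1) (nat_lit 5) (nat_lit 3) (nat_lit 4) (nat_lit 1) (nat_lit 4) (nat_lit 414) (nat_lit 258) (nat_lit 228)) (XT.lf (nat_lit 0) (nat_lit 2994609059641) (nat_lit 152) (nat_lit 260529207625) (nat_lit 0) (nat_lit 2994201812573) (nat_lit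 1) (nat_lit 5) (nat_lit 3) (nat_lit 4) (nat_lit 1) (nat_lit 4) (nat_lit 415) (nat_lit 258) (nat_lit 227))) (XT.nd (nat_lit 78) (nat_lit 0) (nat_lit 0) (XT.lf (nat_lit 0) (nat_lit 3234764409097) (nat_lit 152) (nat_lit 280118894831) (nat_lit 0) (nat_lit 3234354104929) (nat_lit 1) (nat_lit 5) (nat_lit 3) (nat_lit 4) (nat_lit 1) (nat_lit 4) (nat_lit 416) (nat_lit 258) (nat_lit 226)) (XT.nd (nat_lit 78) (nat_lit 0) (nat_lit 0) (XT.lf (nat_lit 0) (nat_lit 3494125244954) (nat_lit 152) (nat_lit 301289725287) (nat_lit 0) (nat_lit 3493712110138) (nat_lit 1) (nat_lit 5) (nat_lit 3) (nat_lit 4) (nat_lit 1) (nat_lit 4) (nat_lit 417) (nat_lit 258) (nat_lit 225)) (XT.lf (nat_lit 0) (nat_lit 3774228520312) (nat_lit 152) (nat_lit 324167155765) (nat_lit 0) (nat_lit 3773812764527) (nat_lit 1) (nat_lit 5) (nat_lit 3) (nat_lit 4) (nat_lit 1) (nat_lit 4) (nat_lit 418) (nat_lit 258) (nat_lit 224))))))))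
noncomputable def xc9 : XT := (XT.nd (nat_lit 1404) (nat_lit 0) (nat_lit 0) (XT.nd (nat_lit 702) (nat_lit 0) (nat_lit 0) (XT.nd (nat_lit 312) (nat_lit 0) (nat_lit 0) (XT.nd (nat_lit 156) (nat_lit 0) (nat_lit 0) (XT.nd (nat_lit 78) (nat_lit 0) (nat_lit 0) (XT.lf (nat_lit 0) (nat_lit 111491243675) (nat_lit 152) (nat_lit 24068558471) (nat_lit 0) (nat_lit 111491243675) (nat_lit 1) (nat_lit 5) (nat_lit 3) (nat_lit 4) (nat_lit 1) (nat_lit 4) (nat_lit 382) (nat_lit 259) (nat_lit 259)) (XT.lf (nat_lit 0) (nat_lit 242453326951) (nat_lit 152) (nat_lit 48625600736) (nat_lit 0) (nat_lit 242417445517) (nat_lit 1) (nat_lit 5) (nat_lit 3) (nat_lit 4) (nat_lit 1) (nat_lit 4) (nat_lit 383) (nat_lit 259) (nat_lit 258))) (XT.nd (nat_lit 78) (nat_lit 0) (nat_lit 0) (XT.lf (nat_lit 0) (nat_lit 263400360100) (nat_lit 152) (nat_lit 49317110021) (nat_lit 0) (nat_lit 263331255118) (nat_lit 1) (nat_lit 5) (nat_lit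 3) (nat_lit 4) (nat_lit 1) (nat_lit 4) (nat_lit 384) (nat_lit 259) (nat_lit 257)) (XT.lf (nat_lit 0) (nat_lit 285947717367) (nat_lit 152) (nat_lit 50215742630) (nat_lit 0) (nat_lit 285847849839) (nat_lit 1) (nat_lit 5) (nat_lit 3) (nat_lit 4) (nat_lit 1) (nat_lit 4) (nat_lit 385) (nat_lit 259) (nat_lit 256)))) (XT.nd (nat_lit 156) (nat_lit 0) (nat_lit 0) (XT.nd (nat_lit 78) (nat_lit 0) (nat_lit 0) (XT.lf (nat_lit 0) (nat_lit 310229012720) (nat_lit 152) (nat_lit 51326823794) (nat_lit 0) (nat_lit 310100661354) (nat_lit 1) (nat_lit 5) (nat_lit 3) (nat_lit 4) (nat_lit 1) (nat_lit 4) (nat_lit 386) (nat_lit 259) (nat_lit 255)) (XT.lf (nat_lit 0) (nat_lit 336388135317) (nat_lit 152) (nat_lit 52656937696) (nat_lit 0) (nat_lit 336233410026) (nat_lit 1) (nat_lit 5) (nat_lit 3) (nat_lit 4) (nat_lit 1) (nat_lit 4) (nat_lit 387) (nat_lit 259) (nat_lit 254))) (XT.nd (nat_lit 78) (nat_lit 0) (nat_lit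 0) (XT.lf (nat_lit 0) (nat_lit 364580102180) (nat_lit 152) (nat_lit 54213966494) (nat_lit 0) (nat_lit 364400956589) (nat_lit 1) (nat_lit 5) (nat_lit 3) (nat_lit 4) (nat_lit 1) (nat_lit 4) (nat_lit 388) (nat_lit 259) (nat_lit 253)) (XT.nd (nat_lit 78) (nat_lit 0) (nat_lit 0) (XT.lf (nat_lit 0) (nat_lit 394971976818) (nat_lit 152) (nat_lit 56007137025) (nat_lit 0) (nat_lit 394770219837) (nat_lit 1) (nat_lit 5) (nat_lit 3) (nat_lit 4) (nat_lit 1) (nat_lit 4) (nat_lit 389) (nat_lit 259) (nat_lit 252)) (XT.lf (nat_lit 0) (nat_lit 427743859228) (nat_lit 152) (nat_lit 58047075485) (nat_lit 0) (nat_lit 427521165775) (nat_lit 1) (nat_lit 5) (nat_lit 3) (nat_lit 4) (nat_lit 1) (nat_lit 4) (nat_lit 390) (nat_lit 259) (nat_lit 251)))))) (XT.nd (nat_lit 312) (nat_lit 0) (nat_lit 0) (XT.nd (nat_lit 156) (nat_lit 0) (nat_lit 0) (XT.nd (nat_lit 78) (nat_lit 0) (nat_lit 0) (XT.lf (nat_lit 0) (nat_lit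 463089953157) (nat_lit 152) (nat_lit 60345870397) (nat_lit 0) (nat_lit 462847874083) (nat_lit 1) (nat_lit 5) (nat_lit 3) (nat_lit 4) (nat_lit 1) (nat_lit 4) (nat_lit 391) (nat_lit 259) (nat_lit 250)) (XT.lf (nat_lit 0) (nat_lit 501219716939) (nat_lit 152) (nat_lit 62917144250) (nat_lit 0) (nat_lit 500959688216) (nat_lit 1) (nat_lit 5) (nat_lit 3) (nat_lit 4) (nat_lit 1) (nat_lit 4) (nat_lit 392) (nat_lit 259) (nat_lit 249))) (XT.nd (nat_lit 78) (nat_lit 0) (nat_lit 0) (XT.lf (nat_lit 0) (nat_lit 542359104732) (nat_lit 152) (nat_lit 65776134223) (nat_lit 0) (nat_lit 542082455962) (nat_lit 1) (nat_lit 5) (nat_lit 3) (nat_lit 4) (nat_lit 1) (nat_lit 4) (nat_lit 393) (nat_lit 259) (nat_lit 248)) (XT.lf (nat_lit 0) (nat_lit 586751905499) (nat_lit 152) (nat_lit 68939782478) (nat_lit 0) (nat_lit 586459867797) (nat_lit 1) (nat_lit 5) (nat_lit 3) (nat_lit 4) (nat_lit 1) (nat_lit 4) (nat_lit 394)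 (nat_lit 259) (nat_lit 247)))) (XT.nd (nat_lit 156) (nat_lit 0) (nat_lit 0) (XT.nd (nat_lit 78) (nat_lit 0) (nat_lit 0) (XT.lf (nat_lit 0) (nat_lit 634661187689) (nat_lit 152) (nat_lit 72426836561) (nat_lit 0) (nat_lit 634354900976) (nat_lit 1) (nat_lit 5) (nat_lit 3) (nat_lit 4) (nat_lit 1) (nat_lit 4) (nat_lit 395) (nat_lit 259) (nat_lit 246)) (XT.lf (nat_lit 0) (nat_lit 686370858160) (nat_lit 152) (nat_lit 76257960496) (nat_lit 0) (nat_lit 686051377919) (nat_lit 1) (nat_lit 5) (nat_lit 3) (nat_lit 4) (nat_lit 1) (nat_lit 4) (nat_lit 396) (nat_lit 259) (nat_lit 245))) (XT.nd (nat_lit 78) (nat_lit 0) (nat_lit 0) (XT.lf (nat_lit 0) (nat_lit 742187344588) (nat_lit 152) (nat_lit 80455857239) (nat_lit 0) (nat_lit 741855648117) (nat_lit 1) (nat_lit 5) (nat_lit 3) (nat_lit 4) (nat_lit 1) (nat_lit 4) (nat_lit 397) (nat_lit 259) (nat_lit 244)) (XT.nd (nat_lit 78) (nat_lit 0) (nat_lit 0) (XT.lf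 (nat_lit 0) (nat_lit 802441411338) (nat_lit 152) (nat_lit 85045403216) (nat_lit 0) (nat_lit 802098403543) (nat_lit 1) (nat_lit 5) (nat_lit 3) (nat_lit 4) (nat_lit 1) (nat_lit 4) (nat_lit 398) (nat_lit 259) (nat_lit 243)) (XT.lf (nat_lit 0) (nat_lit 867490119546) (nat_lit 152) (nat_lit 90053795735) (nat_lit 0) (nat_lit 867136638303) (nat_lit 1) (nat_lit 5) (nat_lit 3) (nat_lit 4) (nat_lit 1) (nat_lit 4) (nat_lit 399) (nat_lit 259) (nat_lit 242))))))) (XT.nd (nat_lit 702) (nat_lit 0) (nat_lit 0) (XT.nd (nat_lit 312) (nat_lit 0) (nat_lit 0) (XT.nd (nat_lit 156) (nat_lit 0) (nat_lit 0) (XT.nd (nat_lit 78) (nat_lit 0) (nat_lit 0) (XT.lf (nat_lit 0) (nat_lit 937718943039) (nat_lit 152) (nat_lit 95510714161) (nat_lit 0) (nat_lit 937355764158) (nat_lit 1) (nat_lit 5) (nat_lit 3) (nat_lit 4) (nat_lit 1) (nat_lit 4) (nat_lit 400) (nat_lit 259) (nat_lit 241)) (XT.lf (nat_lit 0) (nat_lit 1013544052621)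 (nat_lit 152) (nat_lit 101448495787) (nat_lit 0) (nat_lit 1013171894447) (nat_lit 1) (nat_lit 5) (nat_lit 3) (nat_lit 4) (nat_lit 1) (nat_lit 4) (nat_lit 401) (nat_lit 259) (nat_lit 240))) (XT.nd (nat_lit 78) (nat_lit 0) (nat_lit 0) (XT.lf (nat_lit 0) (nat_lit 1095414782277) (nat_lit 152) (nat_lit 107902327468) (nat_lit 0) (nat_lit 1095034309941) (nat_lit 1) (nat_lit 5) (nat_lit 3) (nat_lit 4) (nat_lit 1) (nat_lit 4) (nat_lit 402) (nat_lit 259) (nat_lit 239)) (XT.lf (nat_lit 0) (nat_lit 1183816291885) (nat_lit 152) (nat_lit 114910454132) (nat_lit 0) (nat_lit 1183428121252) (nat_lit 1) (nat_lit 5) (nat_lit 3) (nat_lit 4) (nat_lit 1) (nat_lit 4) (nat_lit 403) (nat_lit 259) (nat_lit 238)))) (XT.nd (nat_lit 156) (nat_lit 0) (nat_lit 0) (XT.nd (nat_lit 78) (nat_lit 0) (nat_lit 0) (XT.lf (nat_lit 0) (nat_lit 1279272442243) (nat_lit 152) (nat_lit 122514405418) (nat_lit 0) (nat_lit 1278877143557)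 (nat_lit 1) (nat_lit 5) (nat_lit 3) (nat_lit 4) (nat_lit 1) (nat_lit 4) (nat_lit 404) (nat_lit 259) (nat_lit 237)) (XT.lf (nat_lit 0) (nat_lit 1382348899427) (nat_lit 152) (nat_lit 130759241779) (nat_lit 0) (nat_lit 1381947000692) (nat_lit 1) (nat_lit 5) (nat_lit 3) (nat_lit 4) (nat_lit 1) (nat_lit 4) (nat_lit 405) (nat_lit 259) (nat_lit 236))) (XT.nd (nat_lit 78) (nat_lit 0) (nat_lit 0) (XT.lf (nat_lit 0) (nat_lit 1493656486887) (nat_lit 152) (nat_lit 139693821505) (nat_lit 0) (nat_lit 1493248476996) (nat_lit 1) (nat_lit 5) (nat_lit 3) (nat_lit 4) (nat_lit 1) (nat_lit 4) (nat_lit 406) (nat_lit 259) (nat_lit 235)) (XT.nd (nat_lit 78) (nat_lit 0) (nat_lit 0) (XT.lf (nat_lit 0) (nat_lit 1613854805142) (nat_lit 152) (nat_lit 149371090252) (nat_lit 0) (nat_lit 1613441136773) (nat_lit 1) (nat_lit 5) (nat_lit 3) (nat_lit 4) (nat_lit 1) (nat_lit 4) (nat_lit 407) (nat_lit 259) (nat_lit 234))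 (XT.lf (nat_lit 0) (nat_lit 1743656140522) (nat_lit 152) (nat_lit 159848394798) (nat_lit 0) (nat_lit 1743237232821) (nat_lit 1) (nat_lit 5) (nat_lit 3) (nat_lit 4) (nat_lit 1) (nat_lit 4) (nat_lit 408) (nat_lit 259) (nat_lit 233)))))) (XT.nd (nat_lit 312) (nat_lit 0) (nat_lit 0) (XT.nd (nat_lit 156) (nat_lit 0) (nat_lit 0) (XT.nd (nat_lit 78) (nat_lit 0) (nat_lit 0) (XT.lf (nat_lit 0) (nat_lit 1883829686125) (nat_lit 152) (nat_lit 171187822875) (nat_lit 0) (nat_lit 1883405927191) (nat_lit 1) (nat_lit 5) (nat_lit 3) (nat_lit 4) (nat_lit 1) (nat_lit 4) (nat_lit 409) (nat_lit 259) (nat_lit 232)) (XT.lf (nat_lit 0) (nat_lit 2035206100000) (nat_lit 152) (nat_lit 183456571093) (nat_lit 0) (nat_lit 2034777849184) (nat_lit 1) (nat_lit 5) (nat_lit 3) (nat_lit 4) (nat_lit 1) (nat_lit 4) (nat_lit 410) (nat_lit 259) (nat_lit 231))) (XT.nd (nat_lit 78) (nat_lit 0) (nat_lit 0) (XT.lf (nat_lit 0) (nat_lit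 2198682427562) (nat_lit 152) (nat_lit 196727343145) (nat_lit 0) (nat_lit 2198250017595) (nat_lit 1) (nat_lit 5) (nat_lit 3) (nat_lit 4) (nat_lit 1) (nat_lit 4) (nat_lit 411) (nat_lit 259) (nat_lit 230)) (XT.lf (nat_lit 0) (nat_lit 2375227417418) (nat_lit 152) (nat_lit 211078780643) (nat_lit 0) (nat_lit 2374791156387) (nat_lit 1) (nat_lit 5) (nat_lit 3) (nat_lit 4) (nat_lit 1) (nat_lit 4) (nat_lit 412) (nat_lit 259) (nat_lit 229)))) (XT.nd (nat_lit 156) (nat_lit 0) (nat_lit 0) (XT.nd (nat_lit 78) (nat_lit 0) (nat_lit 0) (XT.lf (nat_lit 0) (nat_lit 2565887262102) (nat_lit 152) (nat_lit 226595929143) (nat_lit 0) (nat_lit 2565447435269) (nat_lit 1) (nat_lit 5) (nat_lit 3) (nat_lit 4) (nat_lit 1) (nat_lit 4) (nat_lit 413) (nat_lit 259) (nat_lit 228)) (XT.lf (nat_lit 0) (nat_lit 2771791797730) (nat_lit 152) (nat_lit 243370742118) (nat_lit 0) (nat_lit 2771348669229) (nat_lit 1) (nat_lit 5) (nat_lit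 3) (nat_lit 4) (nat_lit 1) (nat_lit 4) (nat_lit 414) (nat_lit 259) (nat_lit 227))) (XT.nd (nat_lit 78) (nat_lit 0) (nat_lit 0) (XT.lf (nat_lit 0) (nat_lit 2994161199328) (nat_lit 152) (nat_lit 261502625866) (nat_lit 0) (nat_lit 2993715013727) (nat_lit 1) (nat_lit 5) (nat_lit 3) (nat_lit 4) (nat_lit 1) (nat_lit 4) (nat_lit 415) (nat_lit 259) (nat_lit 226)) (XT.nd (nat_lit 78) (nat_lit 0) (nat_lit 0) (XT.lf (nat_lit 0) (nat_lit 3234313211497) (nat_lit 152) (nat_lit 281099028588) (nat_lit 0) (nat_lit 3233864195249) (nat_lit 1) (nat_lit 5) (nat_lit 3) (nat_lit 4) (nat_lit 1) (nat_lit 4) (nat_lit 416) (nat_lit 259) (nat_lit 225)) (XT.lf (nat_lit 0) (nat_lit 3493670957274) (nat_lit 152) (nat_lit 302276077114) (nat_lit 0) (nat_lit 3493219320055) (nat_lit 1) (nat_lit 5) (nat_lit 3) (nat_lit 4) (nat_lit 1) (nat_lit 4) (nat_lit 417) (nat_lit 259) (nat_lit 224))))))))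
noncomputable def xc10 : XT := (XT.nd (nat_lit 45240) (nat_lit 0) (nat_lit 0) (XT.nd (nat_lit 44538) (nat_lit 0) (nat_lit 0) (XT.nd (nat_lit 44148) (nat_lit 0) (nat_lit 0) (XT.nd (nat_lit 43992) (nat_lit 0) (nat_lit 0) (XT.nd (nat_lit 43914) (nat_lit 0) (nat_lit 0) (XT.lf (nat_lit 0) (nat_lit 3773771371448) (nat_lit 152) (nat_lit 325159265066) (nat_lit 0) (nat_lit 3773317307405) (nat_lit 1) (nat_lit 5) (nat_lit 3) (nat_lit 4) (nat_lit 1) (nat_lit 4) (nat_lit 418) (nat_lit 259) (nat_lit 223)) (XT.lf (nat_lit 0) (nat_lit 94050180850) (nat_lit 152) (nat_lit 23833448300) (nat_lit 0) (nat_lit 94050180850) (nat_lit 1) (nat_lit 5) (nat_lit 3) (nat_lit 4) (nat_lit 1) (nat_lit 4) (nat_lit 380) (nat_lit 260) (nat_lit 260))) (XT.nd (nat_lit 78) (nat_lit 0) (nat_lit 0) (XT.lf (nat_lit 0) (nat_lit 204911210497) (nat_lit 152) (nat_lit 47848763921) (nat_lit 0) (nat_lit 204872458550) (nat_lit 1) (nat_lit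 5) (nat_lit 3) (nat_lit 4) (nat_lit 1) (nat_lit 4) (nat_lit 381) (nat_lit 260) (nat_lit 259)) (XT.lf (nat_lit 0) (nat_lit 222978935690) (nat_lit 152) (nat_lit 48222243159) (nat_lit 0) (nat_lit 222904302309) (nat_lit 1) (nat_lit 5) (nat_lit 3) (nat_lit 4) (nat_lit 1) (nat_lit 4) (nat_lit 382) (nat_lit 260) (nat_lit 258)))) (XT.nd (nat_lit 156) (nat_lit 0) (nat_lit 0) (XT.nd (nat_lit 78) (nat_lit 0) (nat_lit 0) (XT.lf (nat_lit 0) (nat_lit 242410605281) (nat_lit 152) (nat_lit 48789547524) (nat_lit 0) (nat_lit 242302748351) (nat_lit 1) (nat_lit 5) (nat_lit 3) (nat_lit 4) (nat_lit 1) (nat_lit 4) (nat_lit 383) (nat_lit 260) (nat_lit 257)) (XT.lf (nat_lit 0) (nat_lit 263321369904) (nat_lit 152) (nat_lit 49554038819) (nat_lit 0) (nat_lit 263182750428) (nat_lit 1) (nat_lit 5) (nat_lit 3) (nat_lit 4) (nat_lit 1) (nat_lit 4) (nat_lit 384) (nat_lit 260) (nat_lit 256))) (XT.nd (nat_lit 78) (nat_lit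 0) (nat_lit 0) (XT.lf (nat_lit 0) (nat_lit 285835145202) (nat_lit 152) (nat_lit 50520247364) (nat_lit 0) (nat_lit 285668041888) (nat_lit 1) (nat_lit 5) (nat_lit 3) (nat_lit 4) (nat_lit 1) (nat_lit 4) (nat_lit 385) (nat_lit 260) (nat_lit 255)) (XT.nd (nat_lit 78) (nat_lit 0) (nat_lit 0) (XT.lf (nat_lit 0) (nat_lit 310085346139) (nat_lit 152) (nat_lit 51693898838) (nat_lit 0) (nat_lit 309891868901) (nat_lit 1) (nat_lit 5) (nat_lit 3) (nat_lit 4) (nat_lit 1) (nat_lit 4) (nat_lit 386) (nat_lit 260) (nat_lit 254)) (XT.lf (nat_lit 0) (nat_lit 336215677611) (nat_lit 152) (nat_lit 53081948213) (nat_lit 0) (nat_lit 335997780072) (nat_lit 1) (nat_lit 5) (nat_lit 3) (nat_lit 4) (nat_lit 1) (nat_lit 4) (nat_lit 387) (nat_lit 260) (nat_lit 253)))))) (XT.nd (nat_lit 312) (nat_lit 0) (nat_lit 0) (XT.nd (nat_lit 156) (nat_lit 0) (nat_lit 0) (XT.nd (nat_lit 78) (nat_lit 0) (nat_lit 0) (XT.lf (nat_lit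 0) (nat_lit 364380986025) (nat_lit 152) (nat_lit 54692620967) (nat_lit 0) (nat_lit 364140477097) (nat_lit 1) (nat_lit 5) (nat_lit 3) (nat_lit 4) (nat_lit 1) (nat_lit 4) (nat_lit 388) (nat_lit 260) (nat_lit 252)) (XT.lf (nat_lit 0) (nat_lit 394748176913) (nat_lit 152) (nat_lit 56535461828) (nat_lit 0) (nat_lit 394486731513) (nat_lit 1) (nat_lit 5) (nat_lit 3) (nat_lit 4) (nat_lit 1) (nat_lit 4) (nat_lit 389) (nat_lit 260) (nat_lit 251))) (XT.nd (nat_lit 78) (nat_lit 0) (nat_lit 0) (XT.lf (nat_lit 0) (nat_lit 427497203999) (nat_lit 152) (nat_lit 58621391334) (nat_lit 0) (nat_lit 427216372977) (nat_lit 1) (nat_lit 5) (nat_lit 3) (nat_lit 4) (nat_lit 1) (nat_lit 4) (nat_lit 390) (nat_lit 260) (nat_lit 250)) (XT.lf (nat_lit 0) (nat_lit 462822135591) (nat_lit 152) (nat_lit 60962770548) (nat_lit 0) (nat_lit 462523354919) (nat_lit 1) (nat_lit 5) (nat_lit 3) (nat_lit 4) (nat_lit 1) (nat_lit 4)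 (nat_lit 391) (nat_lit 260) (nat_lit 249)))) (XT.nd (nat_lit 156) (nat_lit 0) (nat_lit 0) (XT.nd (nat_lit 78) (nat_lit 0) (nat_lit 0) (XT.lf (nat_lit 0) (nat_lit 500932304618) (nat_lit 152) (nat_lit 63573474311) (nat_lit 0) (nat_lit 500616903900) (nat_lit 1) (nat_lit 5) (nat_lit 3) (nat_lit 4) (nat_lit 1) (nat_lit 4) (nat_lit 392) (nat_lit 260) (nat_lit 248)) (XT.lf (nat_lit 0) (nat_lit 542053549117) (nat_lit 152) (nat_lit 66468973459) (nat_lit 0) (nat_lit 541722759468) (nat_lit 1) (nat_lit 5) (nat_lit 3) (nat_lit 4) (nat_lit 1) (nat_lit 4) (nat_lit 393) (nat_lit 260) (nat_lit 247))) (XT.nd (nat_lit 78) (nat_lit 0) (nat_lit 0) (XT.lf (nat_lit 0) (nat_lit 586429550539) (nat_lit 152) (nat_lit 69666426506) (nat_lit 0) (nat_lit 586084511879) (nat_lit 1) (nat_lit 5) (nat_lit 3) (nat_lit 4) (nat_lit 1) (nat_lit 4) (nat_lit 394) (nat_lit 260) (nat_lit 246)) (XT.nd (nat_lit 78) (nat_lit 0) (nat_lit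 0) (XT.lf (nat_lit 0) (nat_lit 634323277780) (nat_lit 152) (nat_lit 73184781322) (nat_lit 0) (nat_lit 633965045591) (nat_lit 1) (nat_lit 5) (nat_lit 3) (nat_lit 4) (nat_lit 1) (nat_lit 4) (nat_lit 395) (nat_lit 260) (nat_lit 245)) (XT.lf (nat_lit 0) (nat_lit 686018545520) (nat_lit 152) (nat_lit 77044887417) (nat_lit 0) (nat_lit 685648097101) (nat_lit 1) (nat_lit 5) (nat_lit 3) (nat_lit 4) (nat_lit 1) (nat_lit 4) (nat_lit 396) (nat_lit 260) (nat_lit 244))))))) (XT.nd (nat_lit 702) (nat_lit 0) (nat_lit 0) (XT.nd (nat_lit 312) (nat_lit 0) (nat_lit 0) (XT.nd (nat_lit 156) (nat_lit 0) (nat_lit 0) (XT.nd (nat_lit 78) (nat_lit 0) (nat_lit 0) (XT.lf (nat_lit 0) (nat_lit 741821696087) (nat_lit 152) (nat_lit 81269619494) (nat_lit 0) (nat_lit 741439936344) (nat_lit 1) (nat_lit 5) (nat_lit 3) (nat_lit 4) (nat_lit 1) (nat_lit 4) (nat_lit 397) (nat_lit 260) (nat_lit 243)) (XT.lf (nat_lit 0) (nat_lit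 802063414816) (nat_lit 152) (nat_lit 85884013002) (nat_lit 0) (nat_lit 801671181625) (nat_lit 1) (nat_lit 5) (nat_lit 3) (nat_lit 4) (nat_lit 1) (nat_lit 4) (nat_lit 398) (nat_lit 260) (nat_lit 242))) (XT.nd (nat_lit 78) (nat_lit 0) (nat_lit 0) (XT.lf (nat_lit 0) (nat_lit 867100689672) (nat_lit 152) (nat_lit 90915412495) (nat_lit 0) (nat_lit 866698758844) (nat_lit 1) (nat_lit 5) (nat_lit 3) (nat_lit 4) (nat_lit 1) (nat_lit 4) (nat_lit 399) (nat_lit 260) (nat_lit 241)) (XT.lf (nat_lit 0) (nat_lit 937318926728) (nat_lit 152) (nat_lit 96393633673) (nat_lit 0) (nat_lit 936908016605) (nat_lit 1) (nat_lit 5) (nat_lit 3) (nat_lit 4) (nat_lit 1) (nat_lit 4) (nat_lit 400) (nat_lit 260) (nat_lit 240)))) (XT.nd (nat_lit 156) (nat_lit 0) (nat_lit 0) (XT.nd (nat_lit 78) (nat_lit 0) (nat_lit 0) (XT.lf (nat_lit 0) (nat_lit 1013134234054) (nat_lit 152) (nat_lit 102351140071) (nat_lit 0) (nat_lit 1012715009771)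 (nat_lit 1) (nat_lit 5) (nat_lit 3) (nat_lit 4) (nat_lit 1) (nat_lit 4) (nat_lit 401) (nat_lit 260) (nat_lit 239)) (XT.lf (nat_lit 0) (nat_lit 1094995887546) (nat_lit 152) (nat_lit 108823235429) (nat_lit 0) (nat_lit 1094568964965) (nat_lit 1) (nat_lit 5) (nat_lit 3) (nat_lit 4) (nat_lit 1) (nat_lit 4) (nat_lit 402) (nat_lit 260) (nat_lit 238))) (XT.nd (nat_lit 78) (nat_lit 0) (nat_lit 0) (XT.lf (nat_lit 0) (nat_lit 1183388993299) (nat_lit 152) (nat_lit 115848272905) (nat_lit 0) (nat_lit 1182954942665) (nat_lit 1) (nat_lit 5) (nat_lit 3) (nat_lit 4) (nat_lit 1) (nat_lit 4) (nat_lit 403) (nat_lit 260) (nat_lit 237)) (XT.nd (nat_lit 78) (nat_lit 0) (nat_lit 0) (XT.lf (nat_lit 0) (nat_lit 1278837362309) (nat_lit 152) (nat_lit 123467882351) (nat_lit 0) (nat_lit 1278396711627) (nat_lit 1) (nat_lit 5) (nat_lit 3) (nat_lit 4) (nat_lit 1) (nat_lit 4) (nat_lit 404) (nat_lit 260) (nat_lit 236))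 (XT.lf (nat_lit 0) (nat_lit 1381906614542) (nat_lit 152) (nat_lit 131727217008) (nat_lit 0) (nat_lit 1381459852703) (nat_lit 1) (nat_lit 5) (nat_lit 3) (nat_lit 4) (nat_lit 1) (nat_lit 4) (nat_lit 405) (nat_lit 260) (nat_lit 235)))))) (XT.nd (nat_lit 312) (nat_lit 0) (nat_lit 0) (XT.nd (nat_lit 156) (nat_lit 0) (nat_lit 0) (XT.nd (nat_lit 78) (nat_lit 0) (nat_lit 0) (XT.lf (nat_lit 0) (nat_lit 1493207530751) (nat_lit 152) (nat_lit 140675221081) (nat_lit 0) (nat_lit 1492755110435) (nat_lit 1) (nat_lit 5) (nat_lit 3) (nat_lit 4) (nat_lit 1) (nat_lit 4) (nat_lit 406) (nat_lit 260) (nat_lit 234)) (XT.lf (nat_lit 0) (nat_lit 1613399671922) (nat_lit 152) (nat_lit 150364919780) (nat_lit 0) (nat_lit 1612942012273) (nat_lit 1) (nat_lit 5) (nat_lit 3) (nat_lit 4) (nat_lit 1) (nat_lit 4) (nat_lit 407) (nat_lit 260) (nat_lit 233))) (XT.nd (nat_lit 78) (nat_lit 0) (nat_lit 0) (XT.lf (nat_lit 0) (nat_lit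 1743195287779) (nat_lit 152) (nat_lit 160853733541) (nat_lit 0) (nat_lit 1742732776898) (nat_lit 1) (nat_lit 5) (nat_lit 3) (nat_lit 4) (nat_lit 1) (nat_lit 4) (nat_lit 408) (nat_lit 260) (nat_lit 232)) (XT.lf (nat_lit 0) (nat_lit 1883363537528) (nat_lit 152) (nat_lit 172203818298) (nat_lit 0) (nat_lit 1882896534764) (nat_lit 1) (nat_lit 5) (nat_lit 3) (nat_lit 4) (nat_lit 1) (nat_lit 4) (nat_lit 409) (nat_lit 260) (nat_lit 231)))) (XT.nd (nat_lit 156) (nat_lit 0) (nat_lit 0) (XT.nd (nat_lit 78) (nat_lit 0) (nat_lit 0) (XT.lf (nat_lit 0) (nat_lit 2034735047834) (nat_lit 152) (nat_lit 184482433813) (nat_lit 0) (nat_lit 2034263885920) (nat_lit 1) (nat_lit 5) (nat_lit 3) (nat_lit 4) (nat_lit 1) (nat_lit 4) (nat_lit 410) (nat_lit 260) (nat_lit 230)) (XT.lf (nat_lit 0) (nat_lit 2198206835055) (nat_lit 152) (nat_lit 197762342250) (nat_lit 0) (nat_lit 2197731822075) (nat_lit 1) (nat_lit 5) (nat_lit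 3) (nat_lit 4) (nat_lit 1) (nat_lit 4) (nat_lit 411) (nat_lit 260) (nat_lit 229))) (XT.nd (nat_lit 78) (nat_lit 0) (nat_lit 0) (XT.lf (nat_lit 0) (nat_lit 2374747620891) (nat_lit 152) (nat_lit 212122239365) (nat_lit 0) (nat_lit 2374269042111) (nat_lit 1) (nat_lit 5) (nat_lit 3) (nat_lit 4) (nat_lit 1) (nat_lit 4) (nat_lit 412) (nat_lit 260) (nat_lit 228)) (XT.nd (nat_lit 78) (nat_lit 0) (nat_lit 0) (XT.lf (nat_lit 0) (nat_lit 2565403572964) (nat_lit 152) (nat_lit 227647220843) (nat_lit 0) (nat_lit 2564921692516) (nat_lit 1) (nat_lit 5) (nat_lit 3) (nat_lit 4) (nat_lit 1) (nat_lit 4) (nat_lit 413) (nat_lit 260) (nat_lit 227)) (XT.lf (nat_lit 0) (nat_lit 2771304504323) (nat_lit 152) (nat_lit 244429286575) (nat_lit 0) (nat_lit 2770819566775) (nat_lit 1) (nat_lit 5) (nat_lit 3) (nat_lit 4) (nat_lit 1) (nat_lit 4) (nat_lit 414) (nat_lit 260) (nat_lit 226))))))))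
noncomputable def xc11 : XT := (XT.nd (nat_lit 45084) (nat_lit 0) (nat_lit 0) (XT.nd (nat_lit 44382) (nat_lit 0) (nat_lit 0) (XT.nd (nat_lit 43992) (nat_lit 0) (nat_lit 0) (XT.nd (nat_lit 156) (nat_lit 0) (nat_lit 0) (XT.nd (nat_lit 78) (nat_lit 0) (nat_lit 0) (XT.lf (nat_lit 0) (nat_lit 2993670568634) (nat_lit 152) (nat_lit 262567885840) (nat_lit 0) (nat_lit 2993182800438) (nat_lit 1) (nat_lit 5) (nat_lit 3) (nat_lit 4) (nat_lit 1) (nat_lit 4) (nat_lit 415) (nat_lit 260) (nat_lit 225)) (XT.lf (nat_lit 0) (nat_lit 3233819490724) (nat_lit 152) (nat_lit 282170506632) (nat_lit 0) (nat_lit 3233329101557) (nat_lit 1) (nat_lit 5) (nat_lit 3) (nat_lit 4) (nat_lit 1) (nat_lit 4) (nat_lit 416) (nat_lit 260) (nat_lit 224))) (XT.nd (nat_lit 78) (nat_lit 0) (nat_lit 0) (XT.lf (nat_lit 0) (nat_lit 3493174375315) (nat_lit 152) (nat_lit 303353312631) (nat_lit 0) (nat_lit 3492681559324) (nat_lit 1) (nat_lit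 5) (nat_lit 3) (nat_lit 4) (nat_lit 1) (nat_lit 4) (nat_lit 417) (nat_lit 260) (nat_lit 223)) (XT.lf (nat_lit 0) (nat_lit 3773272140243) (nat_lit 152) (nat_lit 326241831576) (nat_lit 0) (nat_lit 3772777077192) (nat_lit 1) (nat_lit 5) (nat_lit 3) (nat_lit 4) (nat_lit 1) (nat_lit 4) (nat_lit 418) (nat_lit 260) (nat_lit 222)))) (XT.nd (nat_lit 156) (nat_lit 0) (nat_lit 0) (XT.nd (nat_lit 78) (nat_lit 0) (nat_lit 0) (XT.lf (nat_lit 0) (nat_lit 78974433385) (nat_lit 152) (nat_lit 23887762325) (nat_lit 0) (nat_lit 78974433385) (nat_lit 1) (nat_lit 5) (nat_lit 3) (nat_lit 4) (nat_lit 1) (nat_lit 4) (nat_lit 378) (nat_lit 261) (nat_lit 261)) (XT.lf (nat_lit 0) (nat_lit 172488621561) (nat_lit 152) (nat_lit 47675563463) (nat_lit 0) (nat_lit 172446769457) (nat_lit 1) (nat_lit 5) (nat_lit 3) (nat_lit 4) (nat_lit 1) (nat_lit 4) (nat_lit 379) (nat_lit 261) (nat_lit 260))) (XT.nd (nat_lit 78) (nat_lit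 0) (nat_lit 0) (XT.lf (nat_lit 0) (nat_lit 188096525907) (nat_lit 152) (nat_lit 47758832914) (nat_lit 0) (nat_lit 188015921856) (nat_lit 1) (nat_lit 5) (nat_lit 3) (nat_lit 4) (nat_lit 1) (nat_lit 4) (nat_lit 380) (nat_lit 261) (nat_lit 259)) (XT.nd (nat_lit 78) (nat_lit 0) (nat_lit 0) (XT.lf (nat_lit 0) (nat_lit 204865071094) (nat_lit 152) (nat_lit 48025826452) (nat_lit 0) (nat_lit 204748585610) (nat_lit 1) (nat_lit 5) (nat_lit 3) (nat_lit 4) (nat_lit 1) (nat_lit 4) (nat_lit 381) (nat_lit 261) (nat_lit 258)) (XT.lf (nat_lit 0) (nat_lit 222893626278) (nat_lit 152) (nat_lit 48478126261) (nat_lit 0) (nat_lit 222743917245) (nat_lit 1) (nat_lit 5) (nat_lit 3) (nat_lit 4) (nat_lit 1) (nat_lit 4) (nat_lit 382) (nat_lit 261) (nat_lit 257)))))) (XT.nd (nat_lit 312) (nat_lit 0) (nat_lit 0) (XT.nd (nat_lit 156) (nat_lit 0) (nat_lit 0) (XT.nd (nat_lit 78) (nat_lit 0) (nat_lit 0) (XT.lf (nat_lit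 0) (nat_lit 242289027343) (nat_lit 152) (nat_lit 49118412636) (nat_lit 0) (nat_lit 242108555764) (nat_lit 1) (nat_lit 5) (nat_lit 3) (nat_lit 4) (nat_lit 1) (nat_lit 4) (nat_lit 383) (nat_lit 261) (nat_lit 256)) (XT.lf (nat_lit 0) (nat_lit 263166209997) (nat_lit 152) (nat_lit 49950479867) (nat_lit 0) (nat_lit 262957254580) (nat_lit 1) (nat_lit 5) (nat_lit 3) (nat_lit 4) (nat_lit 1) (nat_lit 4) (nat_lit 384) (nat_lit 261) (nat_lit 255))) (XT.nd (nat_lit 78) (nat_lit 0) (nat_lit 0) (XT.lf (nat_lit 0) (nat_lit 285648890880) (nat_lit 152) (nat_lit 50979258722) (nat_lit 0) (nat_lit 285413561538) (nat_lit 1) (nat_lit 5) (nat_lit 3) (nat_lit 4) (nat_lit 1) (nat_lit 4) (nat_lit 385) (nat_lit 261) (nat_lit 254)) (XT.lf (nat_lit 0) (nat_lit 309870300692) (nat_lit 152) (nat_lit 52210845669) (nat_lit 0) (nat_lit 309610551049) (nat_lit 1) (nat_lit 5) (nat_lit 3) (nat_lit 4) (nat_lit 1) (nat_lit 4)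 (nat_lit 386) (nat_lit 261) (nat_lit 253)))) (XT.nd (nat_lit 156) (nat_lit 0) (nat_lit 0) (XT.nd (nat_lit 78) (nat_lit 0) (nat_lit 0) (XT.lf (nat_lit 0) (nat_lit 335973973713) (nat_lit 152) (nat_lit 53652539000) (nat_lit 0) (nat_lit 335691612682) (nat_lit 1) (nat_lit 5) (nat_lit 3) (nat_lit 4) (nat_lit 1) (nat_lit 4) (nat_lit 387) (nat_lit 261) (nat_lit 252)) (XT.lf (nat_lit 0) (nat_lit 364114598378) (nat_lit 152) (nat_lit 55312882084) (nat_lit 0) (nat_lit 363811300874) (nat_lit 1) (nat_lit 5) (nat_lit 3) (nat_lit 4) (nat_lit 1) (nat_lit 4) (nat_lit 388) (nat_lit 261) (nat_lit 251))) (XT.nd (nat_lit 78) (nat_lit 0) (nat_lit 0) (XT.lf (nat_lit 0) (nat_lit 394458933942) (nat_lit 152) (nat_lit 57201713991) (nat_lit 0) (nat_lit 394136250817) (nat_lit 1) (nat_lit 5) (nat_lit 3) (nat_lit 4) (nat_lit 1) (nat_lit 4) (nat_lit 389) (nat_lit 261) (nat_lit 250)) (XT.nd (nat_lit 78) (nat_lit 0) (nat_lit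 0) (XT.lf (nat_lit 0) (nat_lit 427186798691) (nat_lit 152) (nat_lit 59330227799) (nat_lit 0) (nat_lit 426846165916) (nat_lit 1) (nat_lit 5) (nat_lit 3) (nat_lit 4) (nat_lit 1) (nat_lit 4) (nat_lit 390) (nat_lit 261) (nat_lit 249)) (XT.lf (nat_lit 0) (nat_lit 462492135527) (nat_lit 152) (nat_lit 61711036922) (nat_lit 0) (nat_lit 462134882706) (nat_lit 1) (nat_lit 5) (nat_lit 3) (nat_lit 4) (nat_lit 1) (nat_lit 4) (nat_lit 391) (nat_lit 261) (nat_lit 248))))))) (XT.nd (nat_lit 702) (nat_lit 0) (nat_lit 0) (XT.nd (nat_lit 312) (nat_lit 0) (nat_lit 0) (XT.nd (nat_lit 156) (nat_lit 0) (nat_lit 0) (XT.nd (nat_lit 78) (nat_lit 0) (nat_lit 0) (XT.lf (nat_lit 0) (nat_lit 500584161261) (nat_lit 152) (nat_lit 64358249860) (nat_lit 0) (nat_lit 500211519508) (nat_lit 1) (nat_lit 5) (nat_lit 3) (nat_lit 4) (nat_lit 1) (nat_lit 4) (nat_lit 392) (nat_lit 261) (nat_lit 247)) (XT.lf (nat_lit 0) (nat_lit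 541688606416) (nat_lit 152) (nat_lit 67287553800) (nat_lit 0) (nat_lit 541301715652) (nat_lit 1) (nat_lit 5) (nat_lit 3) (nat_lit 4) (nat_lit 1) (nat_lit 4) (nat_lit 393) (nat_lit 261) (nat_lit 246))) (XT.nd (nat_lit 78) (nat_lit 0) (nat_lit 0) (XT.lf (nat_lit 0) (nat_lit 586049052888) (nat_lit 152) (nat_lit 70516307581) (nat_lit 0) (nat_lit 585648968596) (nat_lit 1) (nat_lit 5) (nat_lit 3) (nat_lit 4) (nat_lit 1) (nat_lit 4) (nat_lit 394) (nat_lit 261) (nat_lit 245)) (XT.lf (nat_lit 0) (nat_lit 633928377398) (nat_lit 152) (nat_lit 74063644557) (nat_lit 0) (nat_lit 633516076876) (nat_lit 1) (nat_lit 5) (nat_lit 3) (nat_lit 4) (nat_lit 1) (nat_lit 4) (nat_lit 395) (nat_lit 261) (nat_lit 244)))) (XT.nd (nat_lit 156) (nat_lit 0) (nat_lit 0) (XT.nd (nat_lit 78) (nat_lit 0) (nat_lit 0) (XT.lf (nat_lit 0) (nat_lit 685610309276) (nat_lit 152) (nat_lit 77950585986) (nat_lit 0) (nat_lit 685186697430)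 (nat_lit 1) (nat_lit 5) (nat_lit 3) (nat_lit 4) (nat_lit 1) (nat_lit 4) (nat_lit 396) (nat_lit 261) (nat_lit 243)) (XT.lf (nat_lit 0) (nat_lit 741401111823) (nat_lit 152) (nat_lit 82200165594) (nat_lit 0) (nat_lit 740967026528) (nat_lit 1) (nat_lit 5) (nat_lit 3) (nat_lit 4) (nat_lit 1) (nat_lit 4) (nat_lit 397) (nat_lit 261) (nat_lit 242))) (XT.nd (nat_lit 78) (nat_lit 0) (nat_lit 0) (XT.lf (nat_lit 0) (nat_lit 801631397200) (nat_lit 152) (nat_lit 86837566075) (nat_lit 0) (nat_lit 801187614268) (nat_lit 1) (nat_lit 5) (nat_lit 3) (nat_lit 4) (nat_lit 1) (nat_lit 4) (nat_lit 398) (nat_lit 261) (nat_lit 241)) (XT.nd (nat_lit 78) (nat_lit 0) (nat_lit 0) (XT.lf (nat_lit 0) (nat_lit 866658085619) (nat_lit 152) (nat_lit 91890268321) (nat_lit 0) (nat_lit 866205323394) (nat_lit 1) (nat_lit 5) (nat_lit 3) (nat_lit 4) (nat_lit 1) (nat_lit 4) (nat_lit 399) (nat_lit 261) (nat_lit 240)) (XT.lf (nat_lit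 0) (nat_lit 936866520418) (nat_lit 152) (nat_lit 97388214271) (nat_lit 0) (nat_lit 936405444031) (nat_lit 1) (nat_lit 5) (nat_lit 3) (nat_lit 4) (nat_lit 1) (nat_lit 4) (nat_lit 400) (nat_lit 261) (nat_lit 239)))))) (XT.nd (nat_lit 312) (nat_lit 0) (nat_lit 0) (XT.nd (nat_lit 156) (nat_lit 0) (nat_lit 0) (XT.nd (nat_lit 78) (nat_lit 0) (nat_lit 0) (XT.lf (nat_lit 0) (nat_lit 1012672751581) (nat_lit 152) (nat_lit 103363984346) (nat_lit 0) (nat_lit 1012203976897) (nat_lit 1) (nat_lit 5) (nat_lit 3) (nat_lit 4) (nat_lit 1) (nat_lit 4) (nat_lit 401) (nat_lit 261) (nat_lit 238)) (XT.lf (nat_lit 0) (nat_lit 1094526001217) (nat_lit 152) (nat_lit 109852990517) (nat_lit 0) (nat_lit 1094050098481) (nat_lit 1) (nat_lit 5) (nat_lit 3) (nat_lit 4) (nat_lit 1) (nat_lit 4) (nat_lit 402) (nat_lit 261) (nat_lit 237))) (XT.nd (nat_lit 78) (nat_lit 0) (nat_lit 0) (XT.lf (nat_lit 0) (nat_lit 1182911325623)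 (nat_lit 152) (nat_lit 116893686152) (nat_lit 0) (nat_lit 1182428822837) (nat_lit 1) (nat_lit 5) (nat_lit 3) (nat_lit 4) (nat_lit 1) (nat_lit 4) (nat_lit 403) (nat_lit 261) (nat_lit 236)) (XT.lf (nat_lit 0) (nat_lit 1278352489682) (nat_lit 152) (nat_lit 124527793894) (nat_lit 0) (nat_lit 1277863875740) (nat_lit 1) (nat_lit 5) (nat_lit 3) (nat_lit 4) (nat_lit 1) (nat_lit 4) (nat_lit 404) (nat_lit 261) (nat_lit 235)))) (XT.nd (nat_lit 156) (nat_lit 0) (nat_lit 0) (XT.nd (nat_lit 78) (nat_lit 0) (nat_lit 0) (XT.lf (nat_lit 0) (nat_lit 1381415070664) (nat_lit 152) (nat_lit 132800552899) (nat_lit 0) (nat_lit 1380920798244) (nat_lit 1) (nat_lit 5) (nat_lit 3) (nat_lit 4) (nat_lit 1) (nat_lit 4) (nat_lit 405) (nat_lit 261) (nat_lit 234)) (XT.lf (nat_lit 0) (nat_lit 1492709809789) (nat_lit 152) (nat_lit 141760986924) (nat_lit 0) (nat_lit 1492210298037) (nat_lit 1) (nat_lit 5) (nat_lit 3) (nat_lit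 4) (nat_lit 1) (nat_lit 4) (nat_lit 406) (nat_lit 261) (nat_lit 233))) (XT.nd (nat_lit 78) (nat_lit 0) (nat_lit 0) (XT.lf (nat_lit 0) (nat_lit 1612896231437) (nat_lit 152) (nat_lit 151462194837) (nat_lit 0) (nat_lit 1612391868452) (nat_lit 1) (nat_lit 5) (nat_lit 3) (nat_lit 4) (nat_lit 1) (nat_lit 4) (nat_lit 407) (nat_lit 261) (nat_lit 232)) (XT.nd (nat_lit 78) (nat_lit 0) (nat_lit 0) (XT.lf (nat_lit 0) (nat_lit 1742686551440) (nat_lit 152) (nat_lit 161961665279) (nat_lit 0) (nat_lit 1742177696573) (nat_lit 1) (nat_lit 5) (nat_lit 3) (nat_lit 4) (nat_lit 1) (nat_lit 4) (nat_lit 408) (nat_lit 261) (nat_lit 231)) (XT.lf (nat_lit 0) (nat_lit 1882849897621) (nat_lit 152) (nat_lit 173321617332) (nat_lit 0) (nat_lit 1882336883602) (nat_lit 1) (nat_lit 5) (nat_lit 3) (nat_lit 4) (nat_lit 1) (nat_lit 4) (nat_lit 409) (nat_lit 261) (nat_lit 230))))))))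
noncomputable def xc12 : XT := (XT.nd (nat_lit 44928) (nat_lit 0) (nat_lit 0) (XT.nd (nat_lit 44226) (nat_lit 0) (nat_lit 0) (XT.nd (nat_lit 312) (nat_lit 0) (nat_lit 0) (XT.nd (nat_lit 156) (nat_lit 0) (nat_lit 0) (XT.nd (nat_lit 78) (nat_lit 0) (nat_lit 0) (XT.lf (nat_lit 0) (nat_lit 2034216867585) (nat_lit 152) (nat_lit 185609369232) (nat_lit 0) (nat_lit 2033700002502) (nat_lit 1) (nat_lit 5) (nat_lit 3) (nat_lit 4) (nat_lit 1) (nat_lit 4) (nat_lit 410) (nat_lit 261) (nat_lit 229)) (XT.lf (nat_lit 0) (nat_lit 2197684450786) (nat_lit 152) (nat_lit 198897737286) (nat_lit 0) (nat_lit 2197164019901) (nat_lit 1) (nat_lit 5) (nat_lit 3) (nat_lit 4) (nat_lit 1) (nat_lit 4) (nat_lit 411) (nat_lit 261) (nat_lit 228))) (XT.nd (nat_lit 78) (nat_lit 0) (nat_lit 0) (XT.lf (nat_lit 0) (nat_lit 2374221344012) (nat_lit 152) (nat_lit 213265467379) (nat_lit 0) (nat_lit 2373697611459) (nat_lit 1) (nat_lit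 5) (nat_lit 3) (nat_lit 4) (nat_lit 1) (nat_lit 4) (nat_lit 412) (nat_lit 261) (nat_lit 227)) (XT.lf (nat_lit 0) (nat_lit 2564873691815) (nat_lit 152) (nat_lit 228797701615) (nat_lit 0) (nat_lit 2564346902163) (nat_lit 1) (nat_lit 5) (nat_lit 3) (nat_lit 4) (nat_lit 1) (nat_lit 4) (nat_lit 413) (nat_lit 261) (nat_lit 226)))) (XT.nd (nat_lit 156) (nat_lit 0) (nat_lit 0) (XT.nd (nat_lit 78) (nat_lit 0) (nat_lit 0) (XT.lf (nat_lit 0) (nat_lit 2770771285887) (nat_lit 152) (nat_lit 245586482863) (nat_lit 0) (nat_lit 2770241665587) (nat_lit 1) (nat_lit 5) (nat_lit 3) (nat_lit 4) (nat_lit 1) (nat_lit 4) (nat_lit 414) (nat_lit 261) (nat_lit 225)) (XT.lf (nat_lit 0) (nat_lit 2993134260118) (nat_lit 152) (nat_lit 263731300198) (nat_lit 0) (nat_lit 2992602018848) (nat_lit 1) (nat_lit 5) (nat_lit 3) (nat_lit 4) (nat_lit 1) (nat_lit 4) (nat_lit 415) (nat_lit 261) (nat_lit 224))) (XT.nd (nat_lit 78)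 (nat_lit 0) (nat_lit 0) (XT.lf (nat_lit 0) (nat_lit 3233280321022) (nat_lit 152) (nat_lit 283339678463) (nat_lit 0) (nat_lit 3232745652928) (nat_lit 1) (nat_lit 5) (nat_lit 3) (nat_lit 4) (nat_lit 1) (nat_lit 4) (nat_lit 416) (nat_lit 261) (nat_lit 223)) (XT.nd (nat_lit 78) (nat_lit 0) (nat_lit 0) (XT.lf (nat_lit 0) (nat_lit 3492632556368) (nat_lit 152) (nat_lit 304527815455) (nat_lit 0) (nat_lit 3492095641214) (nat_lit 1) (nat_lit 5) (nat_lit 3) (nat_lit 4) (nat_lit 1) (nat_lit 4) (nat_lit 417) (nat_lit 261) (nat_lit 222)) (XT.lf (nat_lit 0) (nat_lit 3772727868291) (nat_lit 152) (nat_lit 327421270505) (nat_lit 0) (nat_lit 3772188872526) (nat_lit 1) (nat_lit 5) (nat_lit 3) (nat_lit 4) (nat_lit 1) (nat_lit 4) (nat_lit 418) (nat_lit 261) (nat_lit 221)))))) (XT.nd (nat_lit 312) (nat_lit 0) (nat_lit 0) (XT.nd (nat_lit 156) (nat_lit 0) (nat_lit 0) (XT.nd (nat_lit 78) (nat_lit 0) (nat_lit 0)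 (XT.lf (nat_lit 0) (nat_lit 65916734821) (nat_lit 152) (nat_lit 24210681597) (nat_lit 0) (nat_lit 65916734821) (nat_lit 1) (nat_lit 5) (nat_lit 3) (nat_lit 4) (nat_lit 1) (nat_lit 4) (nat_lit 376) (nat_lit 262) (nat_lit 262)) (XT.lf (nat_lit 0) (nat_lit 144436300298) (nat_lit 152) (nat_lit 48059308839) (nat_lit 0) (nat_lit 144391100026) (nat_lit 1) (nat_lit 5) (nat_lit 3) (nat_lit 4) (nat_lit 1) (nat_lit 4) (nat_lit 377) (nat_lit 262) (nat_lit 261))) (XT.nd (nat_lit 78) (nat_lit 0) (nat_lit 0) (XT.lf (nat_lit 0) (nat_lit 157944724113) (nat_lit 152) (nat_lit 47874815870) (nat_lit 0) (nat_lit 157857671738) (nat_lit 1) (nat_lit 5) (nat_lit 3) (nat_lit 4) (nat_lit 1) (nat_lit 4) (nat_lit 378) (nat_lit 262) (nat_lit 260)) (XT.lf (nat_lit 0) (nat_lit 172438791005) (nat_lit 152) (nat_lit 47866790997) (nat_lit 0) (nat_lit 172312986682) (nat_lit 1) (nat_lit 5) (nat_lit 3) (nat_lit 4) (nat_lit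 1) (nat_lit 4) (nat_lit 379) (nat_lit 262) (nat_lit 259)))) (XT.nd (nat_lit 156) (nat_lit 0) (nat_lit 0) (XT.nd (nat_lit 78) (nat_lit 0) (nat_lit 0) (XT.lf (nat_lit 0) (nat_lit 188004391742) (nat_lit 152) (nat_lit 48035186664) (nat_lit 0) (nat_lit 187842705986) (nat_lit 1) (nat_lit 5) (nat_lit 3) (nat_lit 4) (nat_lit 1) (nat_lit 4) (nat_lit 380) (nat_lit 262) (nat_lit 258)) (XT.lf (nat_lit 0) (nat_lit 204733766921) (nat_lit 152) (nat_lit 48381000773) (nat_lit 0) (nat_lit 204538857615) (nat_lit 1) (nat_lit 5) (nat_lit 3) (nat_lit 4) (nat_lit 1) (nat_lit 4) (nat_lit 381) (nat_lit 262) (nat_lit 257))) (XT.nd (nat_lit 78) (nat_lit 0) (nat_lit 0) (XT.lf (nat_lit 0) (nat_lit 222726053579) (nat_lit 152) (nat_lit 48906282593) (nat_lit 0) (nat_lit 222500381728) (nat_lit 1) (nat_lit 5) (nat_lit 3) (nat_lit 4) (nat_lit 1) (nat_lit 4) (nat_lit 382) (nat_lit 262) (nat_lit 256)) (XT.nd (nat_lit 78)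 (nat_lit 0) (nat_lit 0) (XT.lf (nat_lit 0) (nat_lit 242087872675) (nat_lit 152) (nat_lit 49614144903) (nat_lit 0) (nat_lit 241833716985) (nat_lit 1) (nat_lit 5) (nat_lit 3) (nat_lit 4) (nat_lit 1) (nat_lit 4) (nat_lit 383) (nat_lit 262) (nat_lit 255)) (XT.lf (nat_lit 0) (nat_lit 262933960913) (nat_lit 152) (nat_lit 50508782444) (nat_lit 0) (nat_lit 262653431300) (nat_lit 1) (nat_lit 5) (nat_lit 3) (nat_lit 4) (nat_lit 1) (nat_lit 4) (nat_lit 384) (nat_lit 262) (nat_lit 254))))))) (XT.nd (nat_lit 702) (nat_lit 0) (nat_lit 0) (XT.nd (nat_lit 312) (nat_lit 0) (nat_lit 0) (XT.nd (nat_lit 156) (nat_lit 0) (nat_lit 0) (XT.nd (nat_lit 78) (nat_lit 0) (nat_lit 0) (XT.lf (nat_lit 0) (nat_lit 285387850670) (nat_lit 152) (nat_lit 51595496772) (nat_lit 0) (nat_lit 285082900756) (nat_lit 1) (nat_lit 5) (nat_lit 3) (nat_lit 4) (nat_lit 1) (nat_lit 4) (nat_lit 385) (nat_lit 262) (nat_lit 253)) (XT.lf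 (nat_lit 0) (nat_lit 309582602033) (nat_lit 152) (nat_lit 52880727675) (nat_lit 0) (nat_lit 309255040729) (nat_lit 1) (nat_lit 5) (nat_lit 3) (nat_lit 4) (nat_lit 1) (nat_lit 4) (nat_lit 386) (nat_lit 262) (nat_lit 252))) (XT.nd (nat_lit 78) (nat_lit 0) (nat_lit 0) (XT.lf (nat_lit 0) (nat_lit 335661591305) (nat_lit 152) (nat_lit 54372091336) (nat_lit 0) (nat_lit 335313093530) (nat_lit 1) (nat_lit 5) (nat_lit 3) (nat_lit 4) (nat_lit 1) (nat_lit 4) (nat_lit 387) (nat_lit 262) (nat_lit 251)) (XT.lf (nat_lit 0) (nat_lit 363779360646) (nat_lit 152) (nat_lit 56078425467) (nat_lit 0) (nat_lit 363411477249) (nat_lit 1) (nat_lit 5) (nat_lit 3) (nat_lit 4) (nat_lit 1) (nat_lit 4) (nat_lit 388) (nat_lit 262) (nat_lit 250)))) (XT.nd (nat_lit 156) (nat_lit 0) (nat_lit 0) (XT.nd (nat_lit 78) (nat_lit 0) (nat_lit 0) (XT.lf (nat_lit 0) (nat_lit 394102533873) (nat_lit 152) (nat_lit 58009841676) (nat_lit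 0) (nat_lit 393716700826) (nat_lit 1) (nat_lit 5) (nat_lit 3) (nat_lit 4) (nat_lit 1) (nat_lit 4) (nat_lit 389) (nat_lit 262) (nat_lit 249)) (XT.lf (nat_lit 0) (nat_lit 426810803866) (nat_lit 152) (nat_lit 60177785393) (nat_lit 0) (nat_lit 426408350773) (nat_lit 1) (nat_lit 5) (nat_lit 3) (nat_lit 4) (nat_lit 1) (nat_lit 4) (nat_lit 390) (nat_lit 262) (nat_lit 248))) (XT.nd (nat_lit 78) (nat_lit 0) (nat_lit 0) (XT.lf (nat_lit 0) (nat_lit 462097997409) (nat_lit 152) (nat_lit 62595103691) (nat_lit 0) (nat_lit 461680155385) (nat_lit 1) (nat_lit 5) (nat_lit 3) (nat_lit 4) (nat_lit 1) (nat_lit 4) (nat_lit 391) (nat_lit 262) (nat_lit 247)) (XT.nd (nat_lit 78) (nat_lit 0) (nat_lit 0) (XT.lf (nat_lit 0) (nat_lit 500173223798) (nat_lit 152) (nat_lit 65276121421) (nat_lit 0) (nat_lit 499741132762) (nat_lit 1) (nat_lit 5) (nat_lit 3) (nat_lit 4) (nat_lit 1) (nat_lit 4) (nat_lit 392) (nat_lit 262)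 (nat_lit 246)) (XT.lf (nat_lit 0) (nat_lit 541262114003) (nat_lit 152) (nat_lit 68236726094) (nat_lit 0) (nat_lit 540816829439) (nat_lit 1) (nat_lit 5) (nat_lit 3) (nat_lit 4) (nat_lit 1) (nat_lit 4) (nat_lit 393) (nat_lit 262) (nat_lit 245)))))) (XT.nd (nat_lit 312) (nat_lit 0) (nat_lit 0) (XT.nd (nat_lit 156) (nat_lit 0) (nat_lit 0) (XT.nd (nat_lit 78) (nat_lit 0) (nat_lit 0) (XT.lf (nat_lit 0) (nat_lit 585608157745) (nat_lit 152) (nat_lit 71494462035) (nat_lit 0) (nat_lit 585150656951) (nat_lit 1) (nat_lit 5) (nat_lit 3) (nat_lit 4) (nat_lit 1) (nat_lit 4) (nat_lit 394) (nat_lit 262) (nat_lit 244)) (XT.lf (nat_lit 0) (nat_lit 633474146393) (nat_lit 152) (nat_lit 75068634345) (nat_lit 0) (nat_lit 633005334275) (nat_lit 1) (nat_lit 5) (nat_lit 3) (nat_lit 4) (nat_lit 1) (nat_lit 4) (nat_lit 395) (nat_lit 262) (nat_lit 243))) (XT.nd (nat_lit 78) (nat_lit 0) (nat_lit 0) (XT.lf (nat_lit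 0) (nat_lit 685143730251) (nat_lit 152) (nat_lit 78980423305) (nat_lit 0) (nat_lit 684664444684) (nat_lit 1) (nat_lit 5) (nat_lit 3) (nat_lit 4) (nat_lit 1) (nat_lit 4) (nat_lit 396) (nat_lit 262) (nat_lit 242)) (XT.lf (nat_lit 0) (nat_lit 740923099445) (nat_lit 152) (nat_lit 83253009887) (nat_lit 0) (nat_lit 740434116241) (nat_lit 1) (nat_lit 5) (nat_lit 3) (nat_lit 4) (nat_lit 1) (nat_lit 4) (nat_lit 397) (nat_lit 262) (nat_lit 241)))) (XT.nd (nat_lit 156) (nat_lit 0) (nat_lit 0) (XT.nd (nat_lit 78) (nat_lit 0) (nat_lit 0) (XT.lf (nat_lit 0) (nat_lit 801142798386) (nat_lit 152) (nat_lit 87911713121) (nat_lit 0) (nat_lit 800644835888) (nat_lit 1) (nat_lit 5) (nat_lit 3) (nat_lit 4) (nat_lit 1) (nat_lit 4) (nat_lit 398) (nat_lit 262) (nat_lit 240)) (XT.lf (nat_lit 0) (nat_lit 866159684548) (nat_lit 152) (nat_lit 92984140138) (nat_lit 0) (nat_lit 865653407890) (nat_lit 1) (nat_lit 5) (nat_lit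 3) (nat_lit 4) (nat_lit 1) (nat_lit 4) (nat_lit 399) (nat_lit 262) (nat_lit 239))) (XT.nd (nat_lit 78) (nat_lit 0) (nat_lit 0) (XT.lf (nat_lit 0) (nat_lit 936359043184) (nat_lit 152) (nat_lit 98500349766) (nat_lit 0) (nat_lit 935845068228) (nat_lit 1) (nat_lit 5) (nat_lit 3) (nat_lit 4) (nat_lit 1) (nat_lit 4) (nat_lit 400) (nat_lit 262) (nat_lit 238)) (XT.nd (nat_lit 78) (nat_lit 0) (nat_lit 0) (XT.lf (nat_lit 0) (nat_lit 1012156870491) (nat_lit 152) (nat_lit 104493030653) (nat_lit 0) (nat_lit 1011635767482) (nat_lit 1) (nat_lit 5) (nat_lit 3) (nat_lit 4) (nat_lit 1) (nat_lit 4) (nat_lit 401) (nat_lit 262) (nat_lit 237)) (XT.lf (nat_lit 0) (nat_lit 1094002338781) (nat_lit 152) (nat_lit 110997694983) (nat_lit 0) (nat_lit 1093474635723) (nat_lit 1) (nat_lit 5) (nat_lit 3) (nat_lit 4) (nat_lit 1) (nat_lit 4) (nat_lit 402) (nat_lit 262) (nat_lit 236))))))))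
noncomputable def xc13 : XT := (XT.nd (nat_lit 44772) (nat_lit 0) (nat_lit 0) (XT.nd (nat_lit 702) (nat_lit 0) (nat_lit 0) (XT.nd (nat_lit 312) (nat_lit 0) (nat_lit 0) (XT.nd (nat_lit 156) (nat_lit 0) (nat_lit 0) (XT.nd (nat_lit 78) (nat_lit 0) (nat_lit 0) (XT.lf (nat_lit 0) (nat_lit 1182380458235) (nat_lit 152) (nat_lit 118052888914) (nat_lit 0) (nat_lit 1181846644021) (nat_lit 1) (nat_lit 5) (nat_lit 3) (nat_lit 4) (nat_lit 1) (nat_lit 4) (nat_lit 403) (nat_lit 262) (nat_lit 235)) (XT.lf (nat_lit 0) (nat_lit 1277814951043) (nat_lit 152) (nat_lit 125700421004) (nat_lit 0) (nat_lit 1277275478351) (nat_lit 1) (nat_lit 5) (nat_lit 3) (nat_lit 4) (nat_lit 1) (nat_lit 4) (nat_lit 404) (nat_lit 262) (nat_lit 234))) (XT.nd (nat_lit 78) (nat_lit 0) (nat_lit 0) (XT.lf (nat_lit 0) (nat_lit 1380871354941) (nat_lit 152) (nat_lit 133985609960) (nat_lit 0) (nat_lit 1380326642917) (nat_lit 1) (nat_lit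 5) (nat_lit 3) (nat_lit 4) (nat_lit 1) (nat_lit 4) (nat_lit 405) (nat_lit 262) (nat_lit 233)) (XT.lf (nat_lit 0) (nat_lit 1492160374543) (nat_lit 152) (nat_lit 142957553200) (nat_lit 0) (nat_lit 1491610811286) (nat_lit 1) (nat_lit 5) (nat_lit 3) (nat_lit 4) (nat_lit 1) (nat_lit 4) (nat_lit 406) (nat_lit 262) (nat_lit 232)))) (XT.nd (nat_lit 156) (nat_lit 0) (nat_lit 0) (XT.nd (nat_lit 78) (nat_lit 0) (nat_lit 0) (XT.lf (nat_lit 0) (nat_lit 1612341500337) (nat_lit 152) (nat_lit 152669417794) (nat_lit 0) (nat_lit 1611787445197) (nat_lit 1) (nat_lit 5) (nat_lit 3) (nat_lit 4) (nat_lit 1) (nat_lit 4) (nat_lit 407) (nat_lit 262) (nat_lit 231)) (XT.lf (nat_lit 0) (nat_lit 1742126916771) (nat_lit 152) (nat_lit 163178755532) (nat_lit 0) (nat_lit 1741568702481) (nat_lit 1) (nat_lit 5) (nat_lit 3) (nat_lit 4) (nat_lit 1) (nat_lit 4) (nat_lit 408) (nat_lit 262) (nat_lit 230))) (XT.nd (nat_lit 78)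 (nat_lit 0) (nat_lit 0) (XT.lf (nat_lit 0) (nat_lit 1882285722610) (nat_lit 152) (nat_lit 174547843971) (nat_lit 0) (nat_lit 1881723657255) (nat_lit 1) (nat_lit 5) (nat_lit 3) (nat_lit 4) (nat_lit 1) (nat_lit 4) (nat_lit 409) (nat_lit 262) (nat_lit 229)) (XT.nd (nat_lit 78) (nat_lit 0) (nat_lit 0) (XT.lf (nat_lit 0) (nat_lit 2033648488555) (nat_lit 152) (nat_lit 186844055487) (nat_lit 0) (nat_lit 2033082857399) (nat_lit 1) (nat_lit 5) (nat_lit 3) (nat_lit 4) (nat_lit 1) (nat_lit 4) (nat_lit 410) (nat_lit 262) (nat_lit 228)) (XT.lf (nat_lit 0) (nat_lit 2197112179144) (nat_lit 152) (nat_lit 200140256519) (nat_lit 0) (nat_lit 2196543246321) (nat_lit 1) (nat_lit 5) (nat_lit 3) (nat_lit 4) (nat_lit 1) (nat_lit 4) (nat_lit 411) (nat_lit 262) (nat_lit 227)))))) (XT.nd (nat_lit 312) (nat_lit 0) (nat_lit 0) (XT.nd (nat_lit 156) (nat_lit 0) (nat_lit 0) (XT.nd (nat_lit 78) (nat_lit 0) (nat_lit 0)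 (XT.lf (nat_lit 0) (nat_lit 2373645468101) (nat_lit 152) (nat_lit 214515239369) (nat_lit 0) (nat_lit 2373073478177) (nat_lit 1) (nat_lit 5) (nat_lit 3) (nat_lit 4) (nat_lit 1) (nat_lit 4) (nat_lit 412) (nat_lit 262) (nat_lit 226)) (XT.lf (nat_lit 0) (nat_lit 2564294478618) (nat_lit 152) (nat_lit 230054189121) (nat_lit 0) (nat_lit 2563719658046) (nat_lit 1) (nat_lit 5) (nat_lit 3) (nat_lit 4) (nat_lit 1) (nat_lit 4) (nat_lit 413) (nat_lit 262) (nat_lit 225))) (XT.nd (nat_lit 78) (nat_lit 0) (nat_lit 0) (XT.lf (nat_lit 0) (nat_lit 2770188982610) (nat_lit 152) (nat_lit 246849188440) (nat_lit 0) (nat_lit 2769611541068) (nat_lit 1) (nat_lit 5) (nat_lit 3) (nat_lit 4) (nat_lit 1) (nat_lit 4) (nat_lit 414) (nat_lit 262) (nat_lit 224)) (XT.lf (nat_lit 0) (nat_lit 2992549095656) (nat_lit 152) (nat_lit 264999763248) (nat_lit 0) (nat_lit 2991969227290) (nat_lit 1) (nat_lit 5) (nat_lit 3) (nat_lit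 4) (nat_lit 1) (nat_lit 4) (nat_lit 415) (nat_lit 262) (nat_lit 223)))) (XT.nd (nat_lit 156) (nat_lit 0) (nat_lit 0) (XT.nd (nat_lit 78) (nat_lit 0) (nat_lit 0) (XT.lf (nat_lit 0) (nat_lit 3232692507314) (nat_lit 152) (nat_lit 284613472506) (nat_lit 0) (nat_lit 3232110391889) (nat_lit 1) (nat_lit 5) (nat_lit 3) (nat_lit 4) (nat_lit 1) (nat_lit 4) (nat_lit 416) (nat_lit 262) (nat_lit 222)) (XT.lf (nat_lit 0) (nat_lit 3492042289655) (nat_lit 152) (nat_lit 305806545604) (nat_lit 0) (nat_lit 3491458093619) (nat_lit 1) (nat_lit 5) (nat_lit 3) (nat_lit 4) (nat_lit 1) (nat_lit 4) (nat_lit 417) (nat_lit 262) (nat_lit 221))) (XT.nd (nat_lit 43446) (nat_lit 0) (nat_lit 0) (XT.lf (nat_lit 0) (nat_lit 3772135330276) (nat_lit 152) (nat_lit 328704571121) (nat_lit 0) (nat_lit 3771549207749) (nat_lit 1) (nat_lit 5) (nat_lit 3) (nat_lit 4) (nat_lit 1) (nat_lit 4) (nat_lit 418) (nat_lit 262) (nat_lit 220))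 (XT.nd (nat_lit 78) (nat_lit 0) (nat_lit 0) (XT.lf (nat_lit 0) (nat_lit 54578573919) (nat_lit 152) (nat_lit 24785994875) (nat_lit 0) (nat_lit 54578573919) (nat_lit 1) (nat_lit 5) (nat_lit 3) (nat_lit 4) (nat_lit 1) (nat_lit 4) (nat_lit 374) (nat_lit 263) (nat_lit 263)) (XT.lf (nat_lit 0) (nat_lit 120110364998) (nat_lit 152) (nat_lit 48963124446) (nat_lit 0) (nat_lit 120061548704) (nat_lit 1) (nat_lit 5) (nat_lit 3) (nat_lit 4) (nat_lit 1) (nat_lit 4) (nat_lit 375) (nat_lit 263) (nat_lit 262))))))) (XT.nd (nat_lit 702) (nat_lit 0) (nat_lit 0) (XT.nd (nat_lit 312) (nat_lit 0) (nat_lit 0) (XT.nd (nat_lit 156) (nat_lit 0) (nat_lit 0) (XT.nd (nat_lit 78) (nat_lit 0) (nat_lit 0) (XT.lf (nat_lit 0) (nat_lit 131828995572) (nat_lit 152) (nat_lit 48528597712) (nat_lit 0) (nat_lit 131734979006) (nat_lit 1) (nat_lit 5) (nat_lit 3) (nat_lit 4) (nat_lit 1) (nat_lit 4) (nat_lit 376) (nat_lit 263) (nat_lit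 261)) (XT.lf (nat_lit 0) (nat_lit 144382483298) (nat_lit 152) (nat_lit 48265834575) (nat_lit 0) (nat_lit 144246614629) (nat_lit 1) (nat_lit 5) (nat_lit 3) (nat_lit 4) (nat_lit 1) (nat_lit 4) (nat_lit 377) (nat_lit 263) (nat_lit 260))) (XT.nd (nat_lit 78) (nat_lit 0) (nat_lit 0) (XT.lf (nat_lit 0) (nat_lit 157845219215) (nat_lit 152) (nat_lit 48173277920) (nat_lit 0) (nat_lit 157670598598) (nat_lit 1) (nat_lit 5) (nat_lit 3) (nat_lit 4) (nat_lit 1) (nat_lit 4) (nat_lit 378) (nat_lit 263) (nat_lit 259)) (XT.lf (nat_lit 0) (nat_lit 172296982499) (nat_lit 152) (nat_lit 48250379263) (nat_lit 0) (nat_lit 172086480449) (nat_lit 1) (nat_lit 5) (nat_lit 3) (nat_lit 4) (nat_lit 1) (nat_lit 4) (nat_lit 379) (nat_lit 263) (nat_lit 258)))) (XT.nd (nat_lit 156) (nat_lit 0) (nat_lit 0) (XT.nd (nat_lit 78) (nat_lit 0) (nat_lit 0) (XT.lf (nat_lit 0) (nat_lit 187823413227) (nat_lit 152) (nat_lit 48497595502)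 (nat_lit 0) (nat_lit 187579687628) (nat_lit 1) (nat_lit 5) (nat_lit 3) (nat_lit 4) (nat_lit 1) (nat_lit 4) (nat_lit 380) (nat_lit 263) (nat_lit 257)) (XT.lf (nat_lit 0) (nat_lit 204516519879) (nat_lit 152) (nat_lit 48916391622) (nat_lit 0) (nat_lit 204242031735) (nat_lit 1) (nat_lit 5) (nat_lit 3) (nat_lit 4) (nat_lit 1) (nat_lit 4) (nat_lit 381) (nat_lit 263) (nat_lit 256))) (XT.nd (nat_lit 78) (nat_lit 0) (nat_lit 0) (XT.lf (nat_lit 0) (nat_lit 222475224569) (nat_lit 152) (nat_lit 49509249376) (nat_lit 0) (nat_lit 222172252586) (nat_lit 1) (nat_lit 5) (nat_lit 3) (nat_lit 4) (nat_lit 1) (nat_lit 4) (nat_lit 382) (nat_lit 263) (nat_lit 255)) (XT.nd (nat_lit 78) (nat_lit 0) (nat_lit 0) (XT.lf (nat_lit 0) (nat_lit 241805949249) (nat_lit 152) (nat_lit 50279681997) (nat_lit 0) (nat_lit 241476603341) (nat_lit 1) (nat_lit 5) (nat_lit 3) (nat_lit 4) (nat_lit 1) (nat_lit 4) (nat_lit 383) (nat_lit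 263) (nat_lit 254)) (XT.lf (nat_lit 0) (nat_lit 262623246362) (nat_lit 152) (nat_lit 51232255011) (nat_lit 0) (nat_lit 262269480154) (nat_lit 1) (nat_lit 5) (nat_lit 3) (nat_lit 4) (nat_lit 1) (nat_lit 4) (nat_lit 384) (nat_lit 263) (nat_lit 253)))))) (XT.nd (nat_lit 312) (nat_lit 0) (nat_lit 0) (XT.nd (nat_lit 156) (nat_lit 0) (nat_lit 0) (XT.nd (nat_lit 78) (nat_lit 0) (nat_lit 0) (XT.lf (nat_lit 0) (nat_lit 285050477669) (nat_lit 152) (nat_lit 52372613295) (nat_lit 0) (nat_lit 284674100072) (nat_lit 1) (nat_lit 5) (nat_lit 3) (nat_lit 4) (nat_lit 1) (nat_lit 4) (nat_lit 385) (nat_lit 263) (nat_lit 252)) (XT.lf (nat_lit 0) (nat_lit 309220545282) (nat_lit 152) (nat_lit 53707514528) (nat_lit 0) (nat_lit 308823231213) (nat_lit 1) (nat_lit 5) (nat_lit 3) (nat_lit 4) (nat_lit 1) (nat_lit 4) (nat_lit 386) (nat_lit 263) (nat_lit 251))) (XT.nd (nat_lit 78) (nat_lit 0) (nat_lit 0) (XT.lf (nat_lit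 0) (nat_lit 335276679231) (nat_lit 152) (nat_lit 55244869236) (nat_lit 0) (nat_lit 334859979540) (nat_lit 1) (nat_lit 5) (nat_lit 3) (nat_lit 4) (nat_lit 1) (nat_lit 4) (nat_lit 387) (nat_lit 263) (nat_lit 250)) (XT.lf (nat_lit 0) (nat_lit 363373286235) (nat_lit 152) (nat_lit 56993787668) (nat_lit 0) (nat_lit 362938636894) (nat_lit 1) (nat_lit 5) (nat_lit 3) (nat_lit 4) (nat_lit 1) (nat_lit 4) (nat_lit 388) (nat_lit 263) (nat_lit 249)))) (XT.nd (nat_lit 156) (nat_lit 0) (nat_lit 0) (XT.nd (nat_lit 78) (nat_lit 0) (nat_lit 0) (XT.lf (nat_lit 0) (nat_lit 393676864706) (nat_lit 152) (nat_lit 58964633786) (nat_lit 0) (nat_lit 393225595319) (nat_lit 1) (nat_lit 5) (nat_lit 3) (nat_lit 4) (nat_lit 1) (nat_lit 4) (nat_lit 389) (nat_lit 263) (nat_lit 248)) (XT.lf (nat_lit 0) (nat_lit 426366991406) (nat_lit 152) (nat_lit 61169086678) (nat_lit 0) (nat_lit 425900333088) (nat_lit 1) (nat_lit 5) (nat_lit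 3) (nat_lit 4) (nat_lit 1) (nat_lit 4) (nat_lit 390) (nat_lit 263) (nat_lit 247))) (XT.nd (nat_lit 78) (nat_lit 0) (nat_lit 0) (XT.lf (nat_lit 0) (nat_lit 461637385604) (nat_lit 152) (nat_lit 63620209769) (nat_lit 0) (nat_lit 461156478275) (nat_lit 1) (nat_lit 5) (nat_lit 3) (nat_lit 4) (nat_lit 1) (nat_lit 4) (nat_lit 391) (nat_lit 263) (nat_lit 246)) (XT.nd (nat_lit 78) (nat_lit 0) (nat_lit 0) (XT.lf (nat_lit 0) (nat_lit 499697057043) (nat_lit 152) (nat_lit 66332528232) (nat_lit 0) (nat_lit 499202956186) (nat_lit 1) (nat_lit 5) (nat_lit 3) (nat_lit 4) (nat_lit 1) (nat_lit 4) (nat_lit 392) (nat_lit 263) (nat_lit 245)) (XT.lf (nat_lit 0) (nat_lit 540771544518) (nat_lit 152) (nat_lit 69322115066) (nat_lit 0) (nat_lit 540265227430) (nat_lit 1) (nat_lit 5) (nat_lit 3) (nat_lit 4) (nat_lit 1) (nat_lit 4) (nat_lit 393) (nat_lit 263) (nat_lit 244))))))))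
noncomputable def xc14 : XT := (XT.nd (nat_lit 1404) (nat_lit 0) (nat_lit 0) (XT.nd (nat_lit 702) (nat_lit 0) (nat_lit 0) (XT.nd (nat_lit 312) (nat_lit 0) (nat_lit 0) (XT.nd (nat_lit 156) (nat_lit 0) (nat_lit 0) (XT.nd (nat_lit 78) (nat_lit 0) (nat_lit 0) (XT.lf (nat_lit 0) (nat_lit 585104252398) (nat_lit 152) (nat_lit 72606686340) (nat_lit 0) (nat_lit 584586623986) (nat_lit 1) (nat_lit 5) (nat_lit 3) (nat_lit 4) (nat_lit 1) (nat_lit 4) (nat_lit 394) (nat_lit 263) (nat_lit 243)) (XT.lf (nat_lit 0) (nat_lit 632957893025) (nat_lit 152) (nat_lit 76205706182) (nat_lit 0) (nat_lit 632429791165) (nat_lit 1) (nat_lit 5) (nat_lit 3) (nat_lit 4) (nat_lit 1) (nat_lit 4) (nat_lit 395) (nat_lit 263) (nat_lit 242))) (XT.nd (nat_lit 78) (nat_lit 0) (nat_lit 0) (XT.lf (nat_lit 0) (nat_lit 684616043531) (nat_lit 152) (nat_lit 80140502115) (nat_lit 0) (nat_lit 684078244034) (nat_lit 1) (nat_lit 5) (nat_lit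 3) (nat_lit 4) (nat_lit 1) (nat_lit 4) (nat_lit 396) (nat_lit 263) (nat_lit 241)) (XT.lf (nat_lit 0) (nat_lit 740384826289) (nat_lit 152) (nat_lit 84434391449) (nat_lit 0) (nat_lit 739838047497) (nat_lit 1) (nat_lit 5) (nat_lit 3) (nat_lit 4) (nat_lit 1) (nat_lit 4) (nat_lit 397) (nat_lit 263) (nat_lit 240)))) (XT.nd (nat_lit 156) (nat_lit 0) (nat_lit 0) (XT.nd (nat_lit 78) (nat_lit 0) (nat_lit 0) (XT.lf (nat_lit 0) (nat_lit 800594722973) (nat_lit 152) (nat_lit 89112819455) (nat_lit 0) (nat_lit 800039630021) (nat_lit 1) (nat_lit 5) (nat_lit 3) (nat_lit 4) (nat_lit 1) (nat_lit 4) (nat_lit 398) (nat_lit 263) (nat_lit 239)) (XT.lf (nat_lit 0) (nat_lit 865602532972) (nat_lit 152) (nat_lit 94203510150) (nat_lit 0) (nat_lit 865039741722) (nat_lit 1) (nat_lit 5) (nat_lit 3) (nat_lit 4) (nat_lit 1) (nat_lit 4) (nat_lit 399) (nat_lit 263) (nat_lit 238))) (XT.nd (nat_lit 78) (nat_lit 0) (nat_lit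 0) (XT.lf (nat_lit 0) (nat_lit 935793487752) (nat_lit 152) (nat_lit 99736630589) (nat_lit 0) (nat_lit 935223568449) (nat_lit 1) (nat_lit 5) (nat_lit 3) (nat_lit 4) (nat_lit 1) (nat_lit 4) (nat_lit 400) (nat_lit 263) (nat_lit 237)) (XT.nd (nat_lit 78) (nat_lit 0) (nat_lit 0) (XT.lf (nat_lit 0) (nat_lit 1011583533712) (nat_lit 152) (nat_lit 105744969636) (nat_lit 0) (nat_lit 1011007014361) (nat_lit 1) (nat_lit 5) (nat_lit 3) (nat_lit 4) (nat_lit 1) (nat_lit 4) (nat_lit 401) (nat_lit 263) (nat_lit 236)) (XT.lf (nat_lit 0) (nat_lit 1093421797050) (nat_lit 152) (nat_lit 112264132261) (nat_lit 0) (nat_lit 1092839166543) (nat_lit 1) (nat_lit 5) (nat_lit 3) (nat_lit 4) (nat_lit 1) (nat_lit 4) (nat_lit 402) (nat_lit 263) (nat_lit 235)))))) (XT.nd (nat_lit 312) (nat_lit 0) (nat_lit 0) (XT.nd (nat_lit 156) (nat_lit 0) (nat_lit 0) (XT.nd (nat_lit 78) (nat_lit 0) (nat_lit 0) (XT.lf (nat_lit 0) (nat_lit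 1181793245253) (nat_lit 152) (nat_lit 119332750541) (nat_lit 0) (nat_lit 1181204956267) (nat_lit 1) (nat_lit 5) (nat_lit 3) (nat_lit 4) (nat_lit 1) (nat_lit 4) (nat_lit 403) (nat_lit 263) (nat_lit 234)) (XT.lf (nat_lit 0) (nat_lit 1277221560977) (nat_lit 152) (nat_lit 126992712582) (nat_lit 0) (nat_lit 1276628032660) (nat_lit 1) (nat_lit 5) (nat_lit 3) (nat_lit 4) (nat_lit 1) (nat_lit 4) (nat_lit 404) (nat_lit 263) (nat_lit 233))) (XT.nd (nat_lit 78) (nat_lit 0) (nat_lit 0) (XT.lf (nat_lit 0) (nat_lit 1380272245352) (nat_lit 152) (nat_lit 135289410753) (nat_lit 0) (nat_lit 1379673865802) (nat_lit 1) (nat_lit 5) (nat_lit 3) (nat_lit 4) (nat_lit 1) (nat_lit 4) (nat_lit 405) (nat_lit 263) (nat_lit 232)) (XT.lf (nat_lit 0) (nat_lit 1491555969100) (nat_lit 152) (nat_lit 144272010673) (nat_lit 0) (nat_lit 1490953097667) (nat_lit 1) (nat_lit 5) (nat_lit 3) (nat_lit 4) (nat_lit 1) (nat_lit 4)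 (nat_lit 406) (nat_lit 263) (nat_lit 231)))) (XT.nd (nat_lit 156) (nat_lit 0) (nat_lit 0) (XT.nd (nat_lit 78) (nat_lit 0) (nat_lit 0) (XT.lf (nat_lit 0) (nat_lit 1611732191326) (nat_lit 152) (nat_lit 153993742564) (nat_lit 0) (nat_lit 1611125160742) (nat_lit 1) (nat_lit 5) (nat_lit 3) (nat_lit 4) (nat_lit 1) (nat_lit 4) (nat_lit 407) (nat_lit 263) (nat_lit 230)) (XT.lf (nat_lit 0) (nat_lit 1741513067418) (nat_lit 152) (nat_lit 164512216687) (nat_lit 0) (nat_lit 1740902185770) (nat_lit 1) (nat_lit 5) (nat_lit 3) (nat_lit 4) (nat_lit 1) (nat_lit 4) (nat_lit 408) (nat_lit 263) (nat_lit 229))) (XT.nd (nat_lit 78) (nat_lit 0) (nat_lit 0) (XT.lf (nat_lit 0) (nat_lit 1881667669237) (nat_lit 152) (nat_lit 175889764743) (nat_lit 0) (nat_lit 1881053221788) (nat_lit 1) (nat_lit 5) (nat_lit 3) (nat_lit 4) (nat_lit 1) (nat_lit 4) (nat_lit 409) (nat_lit 263) (nat_lit 228)) (XT.nd (nat_lit 78) (nat_lit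 0) (nat_lit 0) (XT.lf (nat_lit 0) (nat_lit 2033026542571) (nat_lit 152) (nat_lit 188193809237) (nat_lit 0) (nat_lit 2032408793454) (nat_lit 1) (nat_lit 5) (nat_lit 3) (nat_lit 4) (nat_lit 1) (nat_lit 4) (nat_lit 410) (nat_lit 263) (nat_lit 227)) (XT.lf (nat_lit 0) (nat_lit 2196486628892) (nat_lit 152) (nat_lit 201497263027) (nat_lit 0) (nat_lit 2195865822674) (nat_lit 1) (nat_lit 5) (nat_lit 3) (nat_lit 4) (nat_lit 1) (nat_lit 4) (nat_lit 411) (nat_lit 263) (nat_lit 226))))))) (XT.nd (nat_lit 43914) (nat_lit 0) (nat_lit 0) (XT.nd (nat_lit 312) (nat_lit 0) (nat_lit 0) (XT.nd (nat_lit 156) (nat_lit 0) (nat_lit 0) (XT.nd (nat_lit 78) (nat_lit 0) (nat_lit 0) (XT.lf (nat_lit 0) (nat_lit 2373016580561) (nat_lit 152) (nat_lit 215878961393) (nat_lit 0) (nat_lit 2372392943696) (nat_lit 1) (nat_lit 5) (nat_lit 3) (nat_lit 4) (nat_lit 1) (nat_lit 4) (nat_lit 412) (nat_lit 263) (nat_lit 225)) (XT.lf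 (nat_lit 0) (nat_lit 2563662500998) (nat_lit 152) (nat_lit 231424129216) (nat_lit 0) (nat_lit 2563036243163) (nat_lit 1) (nat_lit 5) (nat_lit 3) (nat_lit 4) (nat_lit 1) (nat_lit 4) (nat_lit 413) (nat_lit 263) (nat_lit 224))) (XT.nd (nat_lit 78) (nat_lit 0) (nat_lit 0) (XT.lf (nat_lit 0) (nat_lit 2769554143805) (nat_lit 152) (nat_lit 248224886007) (nat_lit 0) (nat_lit 2768925459145) (nat_lit 1) (nat_lit 5) (nat_lit 3) (nat_lit 4) (nat_lit 1) (nat_lit 4) (nat_lit 414) (nat_lit 263) (nat_lit 223)) (XT.lf (nat_lit 0) (nat_lit 2991911607605) (nat_lit 152) (nat_lit 266380791808) (nat_lit 0) (nat_lit 2991280675886) (nat_lit 1) (nat_lit 5) (nat_lit 3) (nat_lit 4) (nat_lit 1) (nat_lit 4) (nat_lit 415) (nat_lit 263) (nat_lit 222)))) (XT.nd (nat_lit 156) (nat_lit 0) (nat_lit 0) (XT.nd (nat_lit 78) (nat_lit 0) (nat_lit 0) (XT.lf (nat_lit 0) (nat_lit 3232052566259) (nat_lit 152) (nat_lit 285999437172)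 (nat_lit 0) (nat_lit 3231419553929) (nat_lit 1) (nat_lit 5) (nat_lit 3) (nat_lit 4) (nat_lit 1) (nat_lit 4) (nat_lit 416) (nat_lit 263) (nat_lit 221)) (XT.lf (nat_lit 0) (nat_lit 3491400077298) (nat_lit 152) (nat_lit 307197080736) (nat_lit 0) (nat_lit 3490765138477) (nat_lit 1) (nat_lit 5) (nat_lit 3) (nat_lit 4) (nat_lit 1) (nat_lit 4) (nat_lit 417) (nat_lit 263) (nat_lit 220))) (XT.nd (nat_lit 43290) (nat_lit 0) (nat_lit 0) (XT.lf (nat_lit 0) (nat_lit 3771491014863) (nat_lit 152) (nat_lit 330099338168) (nat_lit 0) (nat_lit 3770854292254) (nat_lit 1) (nat_lit 5) (nat_lit 3) (nat_lit 4) (nat_lit 1) (nat_lit 4) (nat_lit 418) (nat_lit 263) (nat_lit 219)) (XT.nd (nat_lit 78) (nat_lit 0) (nat_lit 0) (XT.lf (nat_lit 0) (nat_lit 44703176288) (nat_lit 152) (nat_lit 25601572296) (nat_lit 0) (nat_lit 44703176288) (nat_lit 1) (nat_lit 5) (nat_lit 3) (nat_lit 4) (nat_lit 1) (nat_lit 4) (nat_lit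 372) (nat_lit 264) (nat_lit 264)) (XT.lf (nat_lit 0) (nat_lit 98957157740) (nat_lit 152) (nat_lit 50358801717) (nat_lit 0) (nat_lit 98904436143) (nat_lit 1) (nat_lit 5) (nat_lit 3) (nat_lit 4) (nat_lit 1) (nat_lit 4) (nat_lit 373) (nat_lit 264) (nat_lit 263)))))) (XT.nd (nat_lit 312) (nat_lit 0) (nat_lit 0) (XT.nd (nat_lit 156) (nat_lit 0) (nat_lit 0) (XT.nd (nat_lit 78) (nat_lit 0) (nat_lit 0) (XT.lf (nat_lit 0) (nat_lit 109152315843) (nat_lit 152) (nat_lit 49687803029) (nat_lit 0) (nat_lit 109050777953) (nat_lit 1) (nat_lit 5) (nat_lit 3) (nat_lit 4) (nat_lit 1) (nat_lit 4) (nat_lit 374) (nat_lit 264) (nat_lit 262)) (XT.lf (nat_lit 0) (nat_lit 120052242638) (nat_lit 152) (nat_lit 49186172241) (nat_lit 0) (nat_lit 119905504475) (nat_lit 1) (nat_lit 5) (nat_lit 3) (nat_lit 4) (nat_lit 1) (nat_lit 4) (nat_lit 375) (nat_lit 264) (nat_lit 261))) (XT.nd (nat_lit 78) (nat_lit 0) (nat_lit 0)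 (XT.lf (nat_lit 0) (nat_lit 131721530282) (nat_lit 152) (nat_lit 48850936726) (nat_lit 0) (nat_lit 131532940016) (nat_lit 1) (nat_lit 5) (nat_lit 3) (nat_lit 4) (nat_lit 1) (nat_lit 4) (nat_lit 376) (nat_lit 264) (nat_lit 260)) (XT.lf (nat_lit 0) (nat_lit 144229330111) (nat_lit 152) (nat_lit 48680109903) (nat_lit 0) (nat_lit 144001987897) (nat_lit 1) (nat_lit 5) (nat_lit 3) (nat_lit 4) (nat_lit 1) (nat_lit 4) (nat_lit 377) (nat_lit 264) (nat_lit 259)))) (XT.nd (nat_lit 156) (nat_lit 0) (nat_lit 0) (XT.nd (nat_lit 78) (nat_lit 0) (nat_lit 0) (XT.lf (nat_lit 0) (nat_lit 157649762419) (nat_lit 152) (nat_lit 48672679465) (nat_lit 0) (nat_lit 157386538772) (nat_lit 1) (nat_lit 5) (nat_lit 3) (nat_lit 4) (nat_lit 1) (nat_lit 4) (nat_lit 378) (nat_lit 264) (nat_lit 258)) (XT.lf (nat_lit 0) (nat_lit 172062355694) (nat_lit 152) (nat_lit 48828601379) (nat_lit 0) (nat_lit 171765908497) (nat_lit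 1) (nat_lit 5) (nat_lit 3) (nat_lit 4) (nat_lit 1) (nat_lit 4) (nat_lit 379) (nat_lit 264) (nat_lit 257))) (XT.nd (nat_lit 78) (nat_lit 0) (nat_lit 0) (XT.lf (nat_lit 0) (nat_lit 187552517896) (nat_lit 152) (nat_lit 49148799629) (nat_lit 0) (nat_lit 187225308154) (nat_lit 1) (nat_lit 5) (nat_lit 3) (nat_lit 4) (nat_lit 1) (nat_lit 4) (nat_lit 380) (nat_lit 264) (nat_lit 256)) (XT.nd (nat_lit 78) (nat_lit 0) (nat_lit 0) (XT.lf (nat_lit 0) (nat_lit 204212042579) (nat_lit 152) (nat_lit 49635171683) (nat_lit 0) (nat_lit 203856348999) (nat_lit 1) (nat_lit 5) (nat_lit 3) (nat_lit 4) (nat_lit 1) (nat_lit 4) (nat_lit 381) (nat_lit 264) (nat_lit 255)) (XT.lf (nat_lit 0) (nat_lit 222139652853) (nat_lit 152) (nat_lit 50290599748) (nat_lit 0) (nat_lit 221757585348) (nat_lit 1) (nat_lit 5) (nat_lit 3) (nat_lit 4) (nat_lit 1) (nat_lit 4) (nat_lit 382) (nat_lit 264) (nat_lit 254))))))))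
noncomputable def xc15 : XT := (XT.nd (nat_lit 1404) (nat_lit 0) (nat_lit 0) (XT.nd (nat_lit 702) (nat_lit 0) (nat_lit 0) (XT.nd (nat_lit 312) (nat_lit 0) (nat_lit 0) (XT.nd (nat_lit 156) (nat_lit 0) (nat_lit 0) (XT.nd (nat_lit 78) (nat_lit 0) (nat_lit 0) (XT.lf (nat_lit 0) (nat_lit 241441586407) (nat_lit 152) (nat_lit 51118967842) (nat_lit 0) (nat_lit 241035098602) (nat_lit 1) (nat_lit 5) (nat_lit 3) (nat_lit 4) (nat_lit 1) (nat_lit 4) (nat_lit 383) (nat_lit 264) (nat_lit 253)) (XT.lf (nat_lit 0) (nat_lit 262232225071) (nat_lit 152) (nat_lit 52125184812) (nat_lit 0) (nat_lit 261803125877) (nat_lit 1) (nat_lit 5) (nat_lit 3) (nat_lit 4) (nat_lit 1) (nat_lit 4) (nat_lit 384) (nat_lit 264) (nat_lit 252))) (XT.nd (nat_lit 78) (nat_lit 0) (nat_lit 0) (XT.lf (nat_lit 0) (nat_lit 284634772629) (nat_lit 152) (nat_lit 53315213426) (nat_lit 0) (nat_lit 284184736963) (nat_lit 1) (nat_lit 5) (nat_lit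 3) (nat_lit 4) (nat_lit 1) (nat_lit 4) (nat_lit 385) (nat_lit 264) (nat_lit 251)) (XT.lf (nat_lit 0) (nat_lit 308781984918) (nat_lit 152) (nat_lit 54696105705) (nat_lit 0) (nat_lit 308312563630) (nat_lit 1) (nat_lit 5) (nat_lit 3) (nat_lit 4) (nat_lit 1) (nat_lit 4) (nat_lit 386) (nat_lit 264) (nat_lit 250)))) (XT.nd (nat_lit 156) (nat_lit 0) (nat_lit 0) (XT.nd (nat_lit 78) (nat_lit 0) (nat_lit 0) (XT.lf (nat_lit 0) (nat_lit 334816956530) (nat_lit 152) (nat_lit 56276044715) (nat_lit 0) (nat_lit 334329585592) (nat_lit 1) (nat_lit 5) (nat_lit 3) (nat_lit 4) (nat_lit 1) (nat_lit 4) (nat_lit 387) (nat_lit 264) (nat_lit 249)) (XT.lf (nat_lit 0) (nat_lit 362893968778) (nat_lit 152) (nat_lit 58064393056) (nat_lit 0) (nat_lit 362389977794) (nat_lit 1) (nat_lit 5) (nat_lit 3) (nat_lit 4) (nat_lit 1) (nat_lit 4) (nat_lit 388) (nat_lit 264) (nat_lit 248))) (XT.nd (nat_lit 78) (nat_lit 0) (nat_lit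 0) (XT.lf (nat_lit 0) (nat_lit 393179403956) (nat_lit 152) (nat_lit 60071748350) (nat_lit 0) (nat_lit 392660024041) (nat_lit 1) (nat_lit 5) (nat_lit 3) (nat_lit 4) (nat_lit 1) (nat_lit 4) (nat_lit 389) (nat_lit 264) (nat_lit 247)) (XT.nd (nat_lit 78) (nat_lit 0) (nat_lit 0) (XT.lf (nat_lit 0) (nat_lit 425852731311) (nat_lit 152) (nat_lit 62310006034) (nat_lit 0) (nat_lit 425319102385) (nat_lit 1) (nat_lit 5) (nat_lit 3) (nat_lit 4) (nat_lit 1) (nat_lit 4) (nat_lit 390) (nat_lit 264) (nat_lit 246)) (XT.lf (nat_lit 0) (nat_lit 461107570560) (nat_lit 152) (nat_lit 64792429858) (nat_lit 0) (nat_lit 460560748105) (nat_lit 1) (nat_lit 5) (nat_lit 3) (nat_lit 4) (nat_lit 1) (nat_lit 4) (nat_lit 391) (nat_lit 264) (nat_lit 245)))))) (XT.nd (nat_lit 312) (nat_lit 0) (nat_lit 0) (XT.nd (nat_lit 156) (nat_lit 0) (nat_lit 0) (XT.nd (nat_lit 78) (nat_lit 0) (nat_lit 0) (XT.lf (nat_lit 0) (nat_lit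 499152839268) (nat_lit 152) (nat_lit 67533730481) (nat_lit 0) (nat_lit 498593800584) (nat_lit 1) (nat_lit 5) (nat_lit 3) (nat_lit 4) (nat_lit 1) (nat_lit 4) (nat_lit 392) (nat_lit 264) (nat_lit 244)) (XT.lf (nat_lit 0) (nat_lit 540213990881) (nat_lit 152) (nat_lit 70550152649) (nat_lit 0) (nat_lit 539643640872) (nat_lit 1) (nat_lit 5) (nat_lit 3) (nat_lit 4) (nat_lit 1) (nat_lit 4) (nat_lit 393) (nat_lit 264) (nat_lit 243))) (XT.nd (nat_lit 78) (nat_lit 0) (nat_lit 0) (XT.lf (nat_lit 0) (nat_lit 584534350740) (nat_lit 152) (nat_lit 73859571454) (nat_lit 0) (nat_lit 583953527283) (nat_lit 1) (nat_lit 5) (nat_lit 3) (nat_lit 4) (nat_lit 1) (nat_lit 4) (nat_lit 394) (nat_lit 264) (nat_lit 242)) (XT.lf (nat_lit 0) (nat_lit 632376558016) (nat_lit 152) (nat_lit 77481598269) (nat_lit 0) (nat_lit 631786036922) (nat_lit 1) (nat_lit 5) (nat_lit 3) (nat_lit 4) (nat_lit 1) (nat_lit 4) (nat_lit 395)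 (nat_lit 264) (nat_lit 241)))) (XT.nd (nat_lit 156) (nat_lit 0) (nat_lit 0) (XT.nd (nat_lit 78) (nat_lit 0) (nat_lit 0) (XT.lf (nat_lit 0) (nat_lit 684024122085) (nat_lit 152) (nat_lit 81437696956) (nat_lit 0) (nat_lit 683424621697) (nat_lit 1) (nat_lit 5) (nat_lit 3) (nat_lit 4) (nat_lit 1) (nat_lit 4) (nat_lit 396) (nat_lit 264) (nat_lit 240)) (XT.lf (nat_lit 0) (nat_lit 739783102586) (nat_lit 152) (nat_lit 85751311061) (nat_lit 0) (nat_lit 739175288036) (nat_lit 1) (nat_lit 5) (nat_lit 3) (nat_lit 4) (nat_lit 1) (nat_lit 4) (nat_lit 397) (nat_lit 264) (nat_lit 239))) (XT.nd (nat_lit 78) (nat_lit 0) (nat_lit 0) (XT.lf (nat_lit 0) (nat_lit 799983923106) (nat_lit 152) (nat_lit 90448002744) (nat_lit 0) (nat_lit 799368410260) (nat_lit 1) (nat_lit 5) (nat_lit 3) (nat_lit 4) (nat_lit 1) (nat_lit 4) (nat_lit 398) (nat_lit 264) (nat_lit 238)) (XT.nd (nat_lit 78) (nat_lit 0) (nat_lit 0) (XT.lf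 (nat_lit 0) (nat_lit 864983329250) (nat_lit 152) (nat_lit 95555604251) (nat_lit 0) (nat_lit 864360688351) (nat_lit 1) (nat_lit 5) (nat_lit 3) (nat_lit 4) (nat_lit 1) (nat_lit 4) (nat_lit 399) (nat_lit 264) (nat_lit 237)) (XT.lf (nat_lit 0) (nat_lit 935166502683) (nat_lit 152) (nat_lit 101104382850) (nat_lit 0) (nat_lit 934537261735) (nat_lit 1) (nat_lit 5) (nat_lit 3) (nat_lit 4) (nat_lit 1) (nat_lit 4) (nat_lit 400) (nat_lit 264) (nat_lit 236))))))) (XT.nd (nat_lit 702) (nat_lit 0) (nat_lit 0) (XT.nd (nat_lit 312) (nat_lit 0) (nat_lit 0) (XT.nd (nat_lit 156) (nat_lit 0) (nat_lit 0) (XT.nd (nat_lit 78) (nat_lit 0) (nat_lit 0) (XT.lf (nat_lit 0) (nat_lit 1010949343692) (nat_lit 152) (nat_lit 107127220193) (nat_lit 0) (nat_lit 1010313991587) (nat_lit 1) (nat_lit 5) (nat_lit 3) (nat_lit 4) (nat_lit 1) (nat_lit 4) (nat_lit 401) (nat_lit 264) (nat_lit 235)) (XT.lf (nat_lit 0) (nat_lit 1092780935779)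 (nat_lit 152) (nat_lit 113659807166) (nat_lit 0) (nat_lit 1092139925196) (nat_lit 1) (nat_lit 5) (nat_lit 3) (nat_lit 4) (nat_lit 1) (nat_lit 4) (nat_lit 402) (nat_lit 264) (nat_lit 234))) (XT.nd (nat_lit 78) (nat_lit 0) (nat_lit 0) (XT.lf (nat_lit 0) (nat_lit 1181146206898) (nat_lit 152) (nat_lit 120740855397) (nat_lit 0) (nat_lit 1180499956983) (nat_lit 1) (nat_lit 5) (nat_lit 3) (nat_lit 4) (nat_lit 1) (nat_lit 4) (nat_lit 403) (nat_lit 264) (nat_lit 233)) (XT.lf (nat_lit 0) (nat_lit 1276568803099) (nat_lit 152) (nat_lit 128412326653) (nat_lit 0) (nat_lit 1275917701952) (nat_lit 1) (nat_lit 5) (nat_lit 3) (nat_lit 4) (nat_lit 1) (nat_lit 4) (nat_lit 404) (nat_lit 264) (nat_lit 232)))) (XT.nd (nat_lit 156) (nat_lit 0) (nat_lit 0) (XT.nd (nat_lit 78) (nat_lit 0) (nat_lit 0) (XT.lf (nat_lit 0) (nat_lit 1379614191620) (nat_lit 152) (nat_lit 136719681505) (nat_lit 0) (nat_lit 1378958598590)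 (nat_lit 1) (nat_lit 5) (nat_lit 3) (nat_lit 4) (nat_lit 1) (nat_lit 4) (nat_lit 405) (nat_lit 264) (nat_lit 231)) (XT.lf (nat_lit 0) (nat_lit 1490893011799) (nat_lit 152) (nat_lit 145712148721) (nat_lit 0) (nat_lit 1490233259619) (nat_lit 1) (nat_lit 5) (nat_lit 3) (nat_lit 4) (nat_lit 1) (nat_lit 4) (nat_lit 406) (nat_lit 264) (nat_lit 230))) (XT.nd (nat_lit 78) (nat_lit 0) (nat_lit 0) (XT.lf (nat_lit 0) (nat_lit 1611064693683) (nat_lit 152) (nat_lit 155443016997) (nat_lit 0) (nat_lit 1610401090437) (nat_lit 1) (nat_lit 5) (nat_lit 3) (nat_lit 4) (nat_lit 1) (nat_lit 4) (nat_lit 407) (nat_lit 264) (nat_lit 229)) (XT.nd (nat_lit 78) (nat_lit 0) (nat_lit 0) (XT.lf (nat_lit 0) (nat_lit 1740841365756) (nat_lit 152) (nat_lit 165969950737) (nat_lit 0) (nat_lit 1740174196709) (nat_lit 1) (nat_lit 5) (nat_lit 3) (nat_lit 4) (nat_lit 1) (nat_lit 4) (nat_lit 408) (nat_lit 264) (nat_lit 228))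 (XT.lf (nat_lit 0) (nat_lit 1880992074964) (nat_lit 152) (nat_lit 177355331771) (nat_lit 0) (nat_lit 1880321604250) (nat_lit 1) (nat_lit 5) (nat_lit 3) (nat_lit 4) (nat_lit 1) (nat_lit 4) (nat_lit 409) (nat_lit 264) (nat_lit 227)))))) (XT.nd (nat_lit 312) (nat_lit 0) (nat_lit 0) (XT.nd (nat_lit 156) (nat_lit 0) (nat_lit 0) (XT.nd (nat_lit 78) (nat_lit 0) (nat_lit 0) (XT.lf (nat_lit 0) (nat_lit 2032347344029) (nat_lit 152) (nat_lit 189666629023) (nat_lit 0) (nat_lit 2031673816214) (nat_lit 1) (nat_lit 5) (nat_lit 3) (nat_lit 4) (nat_lit 1) (nat_lit 4) (nat_lit 410) (nat_lit 264) (nat_lit 226)) (XT.lf (nat_lit 0) (nat_lit 2195804093062) (nat_lit 152) (nat_lit 202976798329) (nat_lit 0) (nat_lit 2195127734600) (nat_lit 1) (nat_lit 5) (nat_lit 3) (nat_lit 4) (nat_lit 1) (nat_lit 4) (nat_lit 411) (nat_lit 264) (nat_lit 225))) (XT.nd (nat_lit 78) (nat_lit 0) (nat_lit 0) (XT.lf (nat_lit 0) (nat_lit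 2372330954652) (nat_lit 152) (nat_lit 217364714766) (nat_lit 0) (nat_lit 2371651975220) (nat_lit 1) (nat_lit 5) (nat_lit 3) (nat_lit 4) (nat_lit 1) (nat_lit 4) (nat_lit 412) (nat_lit 264) (nat_lit 224)) (XT.lf (nat_lit 0) (nat_lit 2562974013904) (nat_lit 152) (nat_lit 232915640061) (nat_lit 0) (nat_lit 2562292607647) (nat_lit 1) (nat_lit 5) (nat_lit 3) (nat_lit 4) (nat_lit 1) (nat_lit 4) (nat_lit 413) (nat_lit 264) (nat_lit 223)))) (XT.nd (nat_lit 156) (nat_lit 0) (nat_lit 0) (XT.nd (nat_lit 78) (nat_lit 0) (nat_lit 0) (XT.lf (nat_lit 0) (nat_lit 2768863007465) (nat_lit 152) (nat_lit 249721727846) (nat_lit 0) (nat_lit 2768179354149) (nat_lit 1) (nat_lit 5) (nat_lit 3) (nat_lit 4) (nat_lit 1) (nat_lit 4) (nat_lit 414) (nat_lit 264) (nat_lit 222)) (XT.lf (nat_lit 0) (nat_lit 2991218018260) (nat_lit 152) (nat_lit 267882569752) (nat_lit 0) (nat_lit 2990532284333) (nat_lit 1) (nat_lit 5) (nat_lit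 3) (nat_lit 4) (nat_lit 1) (nat_lit 4) (nat_lit 415) (nat_lit 264) (nat_lit 221))) (XT.nd (nat_lit 78) (nat_lit 0) (nat_lit 0) (XT.lf (nat_lit 0) (nat_lit 3231356705613) (nat_lit 152) (nat_lit 287505785582) (nat_lit 0) (nat_lit 3230669045194) (nat_lit 1) (nat_lit 5) (nat_lit 3) (nat_lit 4) (nat_lit 1) (nat_lit 4) (nat_lit 416) (nat_lit 264) (nat_lit 220)) (XT.nd (nat_lit 78) (nat_lit 0) (nat_lit 0) (XT.lf (nat_lit 0) (nat_lit 3490702113595) (nat_lit 152) (nat_lit 308707661061) (nat_lit 0) (nat_lit 3490012669389) (nat_lit 1) (nat_lit 5) (nat_lit 3) (nat_lit 4) (nat_lit 1) (nat_lit 4) (nat_lit 417) (nat_lit 264) (nat_lit 219)) (XT.lf (nat_lit 0) (nat_lit 3770791103886) (nat_lit 152) (nat_lit 331613836932) (nat_lit 0) (nat_lit 3770100008023) (nat_lit 1) (nat_lit 5) (nat_lit 3) (nat_lit 4) (nat_lit 1) (nat_lit 4) (nat_lit 418) (nat_lit 264) (nat_lit 218))))))))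
noncomputable def xc16 : XT := (XT.nd (nat_lit 1404) (nat_lit 0) (nat_lit 0) (XT.nd (nat_lit 702) (nat_lit 0) (nat_lit 0) (XT.nd (nat_lit 312) (nat_lit 0) (nat_lit 0) (XT.nd (nat_lit 156) (nat_lit 0) (nat_lit 0) (XT.nd (nat_lit 78) (nat_lit 0) (nat_lit 0) (XT.lf (nat_lit 0) (nat_lit 36069482221) (nat_lit 152) (nat_lit 26648924616) (nat_lit 0) (nat_lit 36069482221) (nat_lit 1) (nat_lit 5) (nat_lit 3) (nat_lit 4) (nat_lit 1) (nat_lit 4) (nat_lit 370) (nat_lit 265) (nat_lit 265)) (XT.lf (nat_lit 0) (nat_lit 80500242313) (nat_lit 152) (nat_lit 52225835171) (nat_lit 0) (nat_lit 80443302988) (nat_lit 1) (nat_lit 5) (nat_lit 3) (nat_lit 4) (nat_lit 1) (nat_lit 4) (nat_lit 371) (nat_lit 265) (nat_lit 264))) (XT.nd (nat_lit 78) (nat_lit 0) (nat_lit 0) (XT.lf (nat_lit 0) (nat_lit 89401134021) (nat_lit 152) (nat_lit 51328222934) (nat_lit 0) (nat_lit 89291473099) (nat_lit 1) (nat_lit 5) (nat_lit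 3) (nat_lit 4) (nat_lit 1) (nat_lit 4) (nat_lit 372) (nat_lit 265) (nat_lit 263)) (XT.lf (nat_lit 0) (nat_lit 98894385591) (nat_lit 152) (nat_lit 50599693336) (nat_lit 0) (nat_lit 98735908376) (nat_lit 1) (nat_lit 5) (nat_lit 3) (nat_lit 4) (nat_lit 1) (nat_lit 4) (nat_lit 373) (nat_lit 265) (nat_lit 262)))) (XT.nd (nat_lit 156) (nat_lit 0) (nat_lit 0) (XT.nd (nat_lit 78) (nat_lit 0) (nat_lit 0) (XT.lf (nat_lit 0) (nat_lit 109036253331) (nat_lit 152) (nat_lit 50035929164) (nat_lit 0) (nat_lit 108832575843) (nat_lit 1) (nat_lit 5) (nat_lit 3) (nat_lit 4) (nat_lit 1) (nat_lit 4) (nat_lit 374) (nat_lit 265) (nat_lit 261)) (XT.lf (nat_lit 0) (nat_lit 119886837195) (nat_lit 152) (nat_lit 49633589595) (nat_lit 0) (nat_lit 119641307604) (nat_lit 1) (nat_lit 5) (nat_lit 3) (nat_lit 4) (nat_lit 1) (nat_lit 4) (nat_lit 375) (nat_lit 265) (nat_lit 260))) (XT.nd (nat_lit 78) (nat_lit 0) (nat_lit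 0) (XT.lf (nat_lit 0) (nat_lit 131510436942) (nat_lit 152) (nat_lit 49390290394) (nat_lit 0) (nat_lit 131226155403) (nat_lit 1) (nat_lit 5) (nat_lit 3) (nat_lit 4) (nat_lit 1) (nat_lit 4) (nat_lit 376) (nat_lit 265) (nat_lit 259)) (XT.nd (nat_lit 78) (nat_lit 0) (nat_lit 0) (XT.lf (nat_lit 0) (nat_lit 143975933161) (nat_lit 152) (nat_lit 49304589788) (nat_lit 0) (nat_lit 143655770189) (nat_lit 1) (nat_lit 5) (nat_lit 3) (nat_lit 4) (nat_lit 1) (nat_lit 4) (nat_lit 377) (nat_lit 265) (nat_lit 258)) (XT.lf (nat_lit 0) (nat_lit 157357195461) (nat_lit 152) (nat_lit 49375979921) (nat_lit 0) (nat_lit 157003808940) (nat_lit 1) (nat_lit 5) (nat_lit 3) (nat_lit 4) (nat_lit 1) (nat_lit 4) (nat_lit 378) (nat_lit 265) (nat_lit 257)))))) (XT.nd (nat_lit 312) (nat_lit 0) (nat_lit 0) (XT.nd (nat_lit 156) (nat_lit 0) (nat_lit 0) (XT.nd (nat_lit 78) (nat_lit 0) (nat_lit 0) (XT.lf (nat_lit 0) (nat_lit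 171733520210) (nat_lit 152) (nat_lit 49604883846) (nat_lit 0) (nat_lit 171349371143) (nat_lit 1) (nat_lit 5) (nat_lit 3) (nat_lit 4) (nat_lit 1) (nat_lit 4) (nat_lit 379) (nat_lit 265) (nat_lit 256)) (XT.lf (nat_lit 0) (nat_lit 187190100443) (nat_lit 152) (nat_lit 49992658031) (nat_lit 0) (nat_lit 186777467538) (nat_lit 1) (nat_lit 5) (nat_lit 3) (nat_lit 4) (nat_lit 1) (nat_lit 4) (nat_lit 380) (nat_lit 265) (nat_lit 255))) (XT.nd (nat_lit 78) (nat_lit 0) (nat_lit 0) (XT.lf (nat_lit 0) (nat_lit 203818530711) (nat_lit 152) (nat_lit 50541600396) (nat_lit 0) (nat_lit 203379523881) (nat_lit 1) (nat_lit 5) (nat_lit 3) (nat_lit 4) (nat_lit 1) (nat_lit 4) (nat_lit 381) (nat_lit 265) (nat_lit 254)) (XT.lf (nat_lit 0) (nat_lit 221717349859) (nat_lit 152) (nat_lit 51254963934) (nat_lit 0) (nat_lit 221253922729) (nat_lit 1) (nat_lit 5) (nat_lit 3) (nat_lit 4) (nat_lit 1) (nat_lit 4) (nat_lit 382)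 (nat_lit 265) (nat_lit 253)))) (XT.nd (nat_lit 156) (nat_lit 0) (nat_lit 0) (XT.nd (nat_lit 78) (nat_lit 0) (nat_lit 0) (XT.lf (nat_lit 0) (nat_lit 240992624964) (nat_lit 152) (nat_lit 52136975984) (nat_lit 0) (nat_lit 240506586445) (nat_lit 1) (nat_lit 5) (nat_lit 3) (nat_lit 4) (nat_lit 1) (nat_lit 4) (nat_lit 383) (nat_lit 265) (nat_lit 252)) (XT.lf (nat_lit 0) (nat_lit 261758579878) (nat_lit 152) (nat_lit 53192863284) (nat_lit 0) (nat_lit 261251604887) (nat_lit 1) (nat_lit 5) (nat_lit 3) (nat_lit 4) (nat_lit 1) (nat_lit 4) (nat_lit 384) (nat_lit 265) (nat_lit 251))) (XT.nd (nat_lit 78) (nat_lit 0) (nat_lit 0) (XT.lf (nat_lit 0) (nat_lit 284138272112) (nat_lit 152) (nat_lit 54428882944) (nat_lit 0) (nat_lit 283611911500) (nat_lit 1) (nat_lit 5) (nat_lit 3) (nat_lit 4) (nat_lit 1) (nat_lit 4) (nat_lit 385) (nat_lit 265) (nat_lit 250)) (XT.nd (nat_lit 78) (nat_lit 0) (nat_lit 0) (XT.lf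 (nat_lit 0) (nat_lit 308264322065) (nat_lit 152) (nat_lit 55852359525) (nat_lit 0) (nat_lit 307720011802) (nat_lit 1) (nat_lit 5) (nat_lit 3) (nat_lit 4) (nat_lit 1) (nat_lit 4) (nat_lit 386) (nat_lit 265) (nat_lit 249)) (XT.lf (nat_lit 0) (nat_lit 334279698920) (nat_lit 152) (nat_lit 57471728444) (nat_lit 0) (nat_lit 333718768612) (nat_lit 1) (nat_lit 5) (nat_lit 3) (nat_lit 4) (nat_lit 1) (nat_lit 4) (nat_lit 387) (nat_lit 265) (nat_lit 248))))))) (XT.nd (nat_lit 702) (nat_lit 0) (nat_lit 0) (XT.nd (nat_lit 312) (nat_lit 0) (nat_lit 0) (XT.nd (nat_lit 156) (nat_lit 0) (nat_lit 0) (XT.nd (nat_lit 78) (nat_lit 0) (nat_lit 0) (XT.lf (nat_lit 0) (nat_lit 362338567875) (nat_lit 152) (nat_lit 59296585961) (nat_lit 0) (nat_lit 361762248635) (nat_lit 1) (nat_lit 5) (nat_lit 3) (nat_lit 4) (nat_lit 1) (nat_lit 4) (nat_lit 388) (nat_lit 265) (nat_lit 247)) (XT.lf (nat_lit 0) (nat_lit 392607203709)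 (nat_lit 152) (nat_lit 61337746046) (nat_lit 0) (nat_lit 392016635457) (nat_lit 1) (nat_lit 5) (nat_lit 3) (nat_lit 4) (nat_lit 1) (nat_lit 4) (nat_lit 389) (nat_lit 265) (nat_lit 246))) (XT.nd (nat_lit 78) (nat_lit 0) (nat_lit 0) (XT.lf (nat_lit 0) (nat_lit 425264976114) (nat_lit 152) (nat_lit 63607304463) (nat_lit 0) (nat_lit 424661214334) (nat_lit 1) (nat_lit 5) (nat_lit 3) (nat_lit 4) (nat_lit 1) (nat_lit 4) (nat_lit 390) (nat_lit 265) (nat_lit 245)) (XT.lf (nat_lit 0) (nat_lit 460505412632) (nat_lit 152) (nat_lit 66118710447) (nat_lit 0) (nat_lit 459889434622) (nat_lit 1) (nat_lit 5) (nat_lit 3) (nat_lit 4) (nat_lit 1) (nat_lit 4) (nat_lit 391) (nat_lit 265) (nat_lit 244)))) (XT.nd (nat_lit 156) (nat_lit 0) (nat_lit 0) (XT.nd (nat_lit 78) (nat_lit 0) (nat_lit 0) (XT.lf (nat_lit 0) (nat_lit 498537345479) (nat_lit 152) (nat_lit 68886846405) (nat_lit 0) (nat_lit 497910056145) (nat_lit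 1) (nat_lit 5) (nat_lit 3) (nat_lit 4) (nat_lit 1) (nat_lit 4) (nat_lit 392) (nat_lit 265) (nat_lit 243)) (XT.lf (nat_lit 0) (nat_lit 539586149071) (nat_lit 152) (nat_lit 71928116103) (nat_lit 0) (nat_lit 538948386289) (nat_lit 1) (nat_lit 5) (nat_lit 3) (nat_lit 4) (nat_lit 1) (nat_lit 4) (nat_lit 393) (nat_lit 265) (nat_lit 242))) (XT.nd (nat_lit 78) (nat_lit 0) (nat_lit 0) (XT.lf (nat_lit 0) (nat_lit 583895075578) (nat_lit 152) (nat_lit 75260541882) (nat_lit 0) (nat_lit 583247615159) (nat_lit 1) (nat_lit 5) (nat_lit 3) (nat_lit 4) (nat_lit 1) (nat_lit 4) (nat_lit 394) (nat_lit 265) (nat_lit 241)) (XT.nd (nat_lit 78) (nat_lit 0) (nat_lit 0) (XT.lf (nat_lit 0) (nat_lit 631726696417) (nat_lit 152) (nat_lit 78903871450) (nat_lit 0) (nat_lit 631070256704) (nat_lit 1) (nat_lit 5) (nat_lit 3) (nat_lit 4) (nat_lit 1) (nat_lit 4) (nat_lit 395) (nat_lit 265) (nat_lit 240)) (XT.lf (nat_lit 0)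 (nat_lit 683364458229) (nat_lit 152) (nat_lit 82879694908) (nat_lit 0) (nat_lit 682699704355) (nat_lit 1) (nat_lit 5) (nat_lit 3) (nat_lit 4) (nat_lit 1) (nat_lit 4) (nat_lit 396) (nat_lit 265) (nat_lit 239)))))) (XT.nd (nat_lit 312) (nat_lit 0) (nat_lit 0) (XT.nd (nat_lit 156) (nat_lit 0) (nat_lit 0) (XT.nd (nat_lit 78) (nat_lit 0) (nat_lit 0) (XT.lf (nat_lit 0) (nat_lit 739114362567) (nat_lit 152) (nat_lit 87211572691) (nat_lit 0) (nat_lit 738441910395) (nat_lit 1) (nat_lit 5) (nat_lit 3) (nat_lit 4) (nat_lit 1) (nat_lit 4) (nat_lit 397) (nat_lit 265) (nat_lit 238)) (XT.lf (nat_lit 0) (nat_lit 799306779232) (nat_lit 152) (nat_lit 91925175186) (nat_lit 0) (nat_lit 798627199008) (nat_lit 1) (nat_lit 5) (nat_lit 3) (nat_lit 4) (nat_lit 1) (nat_lit 4) (nat_lit 398) (nat_lit 265) (nat_lit 237))) (XT.nd (nat_lit 78) (nat_lit 0) (nat_lit 0) (XT.lf (nat_lit 0) (nat_lit 864298404029) (nat_lit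 152) (nat_lit 97048434852) (nat_lit 0) (nat_lit 863612223755) (nat_lit 1) (nat_lit 5) (nat_lit 3) (nat_lit 4) (nat_lit 1) (nat_lit 4) (nat_lit 399) (nat_lit 265) (nat_lit 236)) (XT.lf (nat_lit 0) (nat_lit 934474372510) (nat_lit 152) (nat_lit 102611711747) (nat_lit 0) (nat_lit 933782081080) (nat_lit 1) (nat_lit 5) (nat_lit 3) (nat_lit 4) (nat_lit 1) (nat_lit 4) (nat_lit 400) (nat_lit 265) (nat_lit 235)))) (XT.nd (nat_lit 156) (nat_lit 0) (nat_lit 0) (XT.nd (nat_lit 78) (nat_lit 0) (nat_lit 0) (XT.lf (nat_lit 0) (nat_lit 1010250542268) (nat_lit 152) (nat_lit 108647973438) (nat_lit 0) (nat_lit 1009552592360) (nat_lit 1) (nat_lit 5) (nat_lit 3) (nat_lit 4) (nat_lit 1) (nat_lit 4) (nat_lit 401) (nat_lit 265) (nat_lit 234)) (XT.lf (nat_lit 0) (nat_lit 1092075957271) (nat_lit 152) (nat_lit 115192990363) (nat_lit 0) (nat_lit 1091372768031) (nat_lit 1) (nat_lit 5) (nat_lit 3) (nat_lit 4) (nat_lit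 1) (nat_lit 4) (nat_lit 402) (nat_lit 265) (nat_lit 233))) (XT.nd (nat_lit 78) (nat_lit 0) (nat_lit 0) (XT.lf (nat_lit 0) (nat_lit 1180435508867) (nat_lit 152) (nat_lit 122285547809) (nat_lit 0) (nat_lit 1179727468394) (nat_lit 1) (nat_lit 5) (nat_lit 3) (nat_lit 4) (nat_lit 1) (nat_lit 4) (nat_lit 403) (nat_lit 265) (nat_lit 232)) (XT.nd (nat_lit 78) (nat_lit 0) (nat_lit 0) (XT.lf (nat_lit 0) (nat_lit 1275852809214) (nat_lit 152) (nat_lit 129967675745) (nat_lit 0) (nat_lit 1275140276859) (nat_lit 1) (nat_lit 5) (nat_lit 3) (nat_lit 4) (nat_lit 1) (nat_lit 4) (nat_lit 404) (nat_lit 265) (nat_lit 231)) (XT.lf (nat_lit 0) (nat_lit 1378893294166) (nat_lit 152) (nat_lit 138284897893) (nat_lit 0) (nat_lit 1378176602661) (nat_lit 1) (nat_lit 5) (nat_lit 3) (nat_lit 4) (nat_lit 1) (nat_lit 4) (nat_lit 405) (nat_lit 265) (nat_lit 230))))))))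
noncomputable def xc17 : XT := (XT.nd (nat_lit 44304) (nat_lit 0) (nat_lit 0) (XT.nd (nat_lit 702) (nat_lit 0) (nat_lit 0) (XT.nd (nat_lit 312) (nat_lit 0) (nat_lit 0) (XT.nd (nat_lit 156) (nat_lit 0) (nat_lit 0) (XT.nd (nat_lit 78) (nat_lit 0) (nat_lit 0) (XT.lf (nat_lit 0) (nat_lit 1490167574004) (nat_lit 152) (nat_lit 147286501495) (nat_lit 0) (nat_lit 1489447031434) (nat_lit 1) (nat_lit 5) (nat_lit 3) (nat_lit 4) (nat_lit 1) (nat_lit 4) (nat_lit 406) (nat_lit 265) (nat_lit 229)) (XT.lf (nat_lit 0) (nat_lit 1610335051868) (nat_lit 152) (nat_lit 157025829388) (nat_lit 0) (nat_lit 1609610943496) (nat_lit 1) (nat_lit 5) (nat_lit 3) (nat_lit 4) (nat_lit 1) (nat_lit 4) (nat_lit 407) (nat_lit 265) (nat_lit 228))) (XT.nd (nat_lit 78) (nat_lit 0) (nat_lit 0) (XT.lf (nat_lit 0) (nat_lit 1740107831330) (nat_lit 152) (nat_lit 167560596106) (nat_lit 0) (nat_lit 1739380421291) (nat_lit 1) (nat_lit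 5) (nat_lit 3) (nat_lit 4) (nat_lit 1) (nat_lit 4) (nat_lit 408) (nat_lit 265) (nat_lit 227)) (XT.lf (nat_lit 0) (nat_lit 1880254936269) (nat_lit 152) (nat_lit 178953229897) (nat_lit 0) (nat_lit 1879524469130) (nat_lit 1) (nat_lit 5) (nat_lit 3) (nat_lit 4) (nat_lit 1) (nat_lit 4) (nat_lit 409) (nat_lit 265) (nat_lit 226)))) (XT.nd (nat_lit 156) (nat_lit 0) (nat_lit 0) (XT.nd (nat_lit 78) (nat_lit 0) (nat_lit 0) (XT.lf (nat_lit 0) (nat_lit 2031606868047) (nat_lit 152) (nat_lit 191271242665) (nat_lit 0) (nat_lit 2030873570260) (nat_lit 1) (nat_lit 5) (nat_lit 3) (nat_lit 4) (nat_lit 1) (nat_lit 4) (nat_lit 410) (nat_lit 265) (nat_lit 225)) (XT.lf (nat_lit 0) (nat_lit 2195060527001) (nat_lit 152) (nat_lit 204587630041) (nat_lit 0) (nat_lit 2194324608243) (nat_lit 1) (nat_lit 5) (nat_lit 3) (nat_lit 4) (nat_lit 1) (nat_lit 4) (nat_lit 411) (nat_lit 265) (nat_lit 224))) (XT.nd (nat_lit 78)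 (nat_lit 0) (nat_lit 0) (XT.lf (nat_lit 0) (nat_lit 2371584527405) (nat_lit 152) (nat_lit 218981303951) (nat_lit 0) (nat_lit 2370846181823) (nat_lit 1) (nat_lit 5) (nat_lit 3) (nat_lit 4) (nat_lit 1) (nat_lit 4) (nat_lit 412) (nat_lit 265) (nat_lit 223)) (XT.nd (nat_lit 78) (nat_lit 0) (nat_lit 0) (XT.lf (nat_lit 0) (nat_lit 2562224937411) (nat_lit 152) (nat_lit 234537560240) (nat_lit 0) (nat_lit 2561484344770) (nat_lit 1) (nat_lit 5) (nat_lit 3) (nat_lit 4) (nat_lit 1) (nat_lit 4) (nat_lit 413) (nat_lit 265) (nat_lit 222)) (XT.lf (nat_lit 0) (nat_lit 2768111477967) (nat_lit 152) (nat_lit 251348584129) (nat_lit 0) (nat_lit 2767368804715) (nat_lit 1) (nat_lit 5) (nat_lit 3) (nat_lit 4) (nat_lit 1) (nat_lit 4) (nat_lit 414) (nat_lit 265) (nat_lit 221)))))) (XT.nd (nat_lit 43212) (nat_lit 0) (nat_lit 0) (XT.nd (nat_lit 156) (nat_lit 0) (nat_lit 0) (XT.nd (nat_lit 78) (nat_lit 0) (nat_lit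 0) (XT.lf (nat_lit 0) (nat_lit 2990464217461) (nat_lit 152) (nat_lit 269513996503) (nat_lit 0) (nat_lit 2989719617718) (nat_lit 1) (nat_lit 5) (nat_lit 3) (nat_lit 4) (nat_lit 1) (nat_lit 4) (nat_lit 415) (nat_lit 265) (nat_lit 220)) (XT.lf (nat_lit 0) (nat_lit 3230600801757) (nat_lit 152) (nat_lit 289141444248) (nat_lit 0) (nat_lit 3229854418225) (nat_lit 1) (nat_lit 5) (nat_lit 3) (nat_lit 4) (nat_lit 1) (nat_lit 4) (nat_lit 416) (nat_lit 265) (nat_lit 219))) (XT.nd (nat_lit 78) (nat_lit 0) (nat_lit 0) (XT.lf (nat_lit 0) (nat_lit 3489944262465) (nat_lit 152) (nat_lit 310347238166) (nat_lit 0) (nat_lit 3489196227278) (nat_lit 1) (nat_lit 5) (nat_lit 3) (nat_lit 4) (nat_lit 1) (nat_lit 4) (nat_lit 417) (nat_lit 265) (nat_lit 218)) (XT.lf (nat_lit 0) (nat_lit 3770031449723) (nat_lit 152) (nat_lit 333257042221) (nat_lit 0) (nat_lit 3769281885225) (nat_lit 1) (nat_lit 5) (nat_lit 3) (nat_lit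 4) (nat_lit 1) (nat_lit 4) (nat_lit 418) (nat_lit 265) (nat_lit 217)))) (XT.nd (nat_lit 156) (nat_lit 0) (nat_lit 0) (XT.nd (nat_lit 78) (nat_lit 0) (nat_lit 0) (XT.lf (nat_lit 0) (nat_lit 28486978239) (nat_lit 152) (nat_lit 27922836644) (nat_lit 0) (nat_lit 28486978239) (nat_lit 1) (nat_lit 5) (nat_lit 3) (nat_lit 4) (nat_lit 1) (nat_lit 4) (nat_lit 368) (nat_lit 266) (nat_lit 266)) (XT.lf (nat_lit 0) (nat_lit 64329246569) (nat_lit 152) (nat_lit 54550617792) (nat_lit 0) (nat_lit 64267752098) (nat_lit 1) (nat_lit 5) (nat_lit 3) (nat_lit 4) (nat_lit 1) (nat_lit 4) (nat_lit 369) (nat_lit 266) (nat_lit 265))) (XT.nd (nat_lit 78) (nat_lit 0) (nat_lit 0) (XT.lf (nat_lit 0) (nat_lit 72133328403) (nat_lit 152) (nat_lit 53432933840) (nat_lit 0) (nat_lit 72014894607) (nat_lit 1) (nat_lit 5) (nat_lit 3) (nat_lit 4) (nat_lit 1) (nat_lit 4) (nat_lit 370) (nat_lit 266) (nat_lit 264)) (XT.nd (nat_lit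 78) (nat_lit 0) (nat_lit 0) (XT.lf (nat_lit 0) (nat_lit 80432448392) (nat_lit 152) (nat_lit 52485998119) (nat_lit 0) (nat_lit 80261292999) (nat_lit 1) (nat_lit 5) (nat_lit 3) (nat_lit 4) (nat_lit 1) (nat_lit 4) (nat_lit 371) (nat_lit 266) (nat_lit 263)) (XT.lf (nat_lit 0) (nat_lit 89275786507) (nat_lit 152) (nat_lit 51704199160) (nat_lit 0) (nat_lit 89055814820) (nat_lit 1) (nat_lit 5) (nat_lit 3) (nat_lit 4) (nat_lit 1) (nat_lit 4) (nat_lit 372) (nat_lit 266) (nat_lit 262))))))) (XT.nd (nat_lit 702) (nat_lit 0) (nat_lit 0) (XT.nd (nat_lit 312) (nat_lit 0) (nat_lit 0) (XT.nd (nat_lit 156) (nat_lit 0) (nat_lit 0) (XT.nd (nat_lit 78) (nat_lit 0) (nat_lit 0) (XT.lf (nat_lit 0) (nat_lit 98715747713) (nat_lit 152) (nat_lit 51082904078) (nat_lit 0) (nat_lit 98450575755) (nat_lit 1) (nat_lit 5) (nat_lit 3) (nat_lit 4) (nat_lit 1) (nat_lit 4) (nat_lit 373) (nat_lit 266) (nat_lit 261)) (XT.lf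 (nat_lit 0) (nat_lit 108808272523) (nat_lit 152) (nat_lit 50618431126) (nat_lit 0) (nat_lit 108501248461) (nat_lit 1) (nat_lit 5) (nat_lit 3) (nat_lit 4) (nat_lit 1) (nat_lit 4) (nat_lit 374) (nat_lit 266) (nat_lit 260))) (XT.nd (nat_lit 78) (nat_lit 0) (nat_lit 0) (XT.lf (nat_lit 0) (nat_lit 119613168490) (nat_lit 152) (nat_lit 50308027872) (nat_lit 0) (nat_lit 119267392480) (nat_lit 1) (nat_lit 5) (nat_lit 3) (nat_lit 4) (nat_lit 1) (nat_lit 4) (nat_lit 375) (nat_lit 266) (nat_lit 259)) (XT.lf (nat_lit 0) (nat_lit 131194464628) (nat_lit 152) (nat_lit 50149854887) (nat_lit 0) (nat_lit 130812807185) (nat_lit 1) (nat_lit 5) (nat_lit 3) (nat_lit 4) (nat_lit 1) (nat_lit 4) (nat_lit 376) (nat_lit 266) (nat_lit 258)))) (XT.nd (nat_lit 156) (nat_lit 0) (nat_lit 0) (XT.nd (nat_lit 78) (nat_lit 0) (nat_lit 0) (XT.lf (nat_lit 0) (nat_lit 143620790839) (nat_lit 152) (nat_lit 50142974852) (nat_lit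 0) (nat_lit 143205909847) (nat_lit 1) (nat_lit 5) (nat_lit 3) (nat_lit 4) (nat_lit 1) (nat_lit 4) (nat_lit 377) (nat_lit 266) (nat_lit 257)) (XT.lf (nat_lit 0) (nat_lit 156965784612) (nat_lit 152) (nat_lit 50287346995) (nat_lit 0) (nat_lit 156520141074) (nat_lit 1) (nat_lit 5) (nat_lit 3) (nat_lit 4) (nat_lit 1) (nat_lit 4) (nat_lit 378) (nat_lit 266) (nat_lit 256))) (XT.nd (nat_lit 78) (nat_lit 0) (nat_lit 0) (XT.lf (nat_lit 0) (nat_lit 171308527392) (nat_lit 152) (nat_lit 50583826856) (nat_lit 0) (nat_lit 170834400016) (nat_lit 1) (nat_lit 5) (nat_lit 3) (nat_lit 4) (nat_lit 1) (nat_lit 4) (nat_lit 379) (nat_lit 266) (nat_lit 255)) (XT.nd (nat_lit 78) (nat_lit 0) (nat_lit 0) (XT.lf (nat_lit 0) (nat_lit 186734013210) (nat_lit 152) (nat_lit 51034171351) (nat_lit 0) (nat_lit 186233511909) (nat_lit 1) (nat_lit 5) (nat_lit 3) (nat_lit 4) (nat_lit 1) (nat_lit 4) (nat_lit 380) (nat_lit 266)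 (nat_lit 254)) (XT.lf (nat_lit 0) (nat_lit 203333652352) (nat_lit 152) (nat_lit 51641049189) (nat_lit 0) (nat_lit 202808730751) (nat_lit 1) (nat_lit 5) (nat_lit 3) (nat_lit 4) (nat_lit 1) (nat_lit 4) (nat_lit 381) (nat_lit 266) (nat_lit 253)))))) (XT.nd (nat_lit 312) (nat_lit 0) (nat_lit 0) (XT.nd (nat_lit 156) (nat_lit 0) (nat_lit 0) (XT.nd (nat_lit 78) (nat_lit 0) (nat_lit 0) (XT.lf (nat_lit 0) (nat_lit 221205813051) (nat_lit 152) (nat_lit 52408056683) (nat_lit 0) (nat_lit 220658280060) (nat_lit 1) (nat_lit 5) (nat_lit 3) (nat_lit 4) (nat_lit 1) (nat_lit 4) (nat_lit 382) (nat_lit 266) (nat_lit 252)) (XT.lf (nat_lit 0) (nat_lit 240456404406) (nat_lit 152) (nat_lit 53339739063) (nat_lit 0) (nat_lit 239887934944) (nat_lit 1) (nat_lit 5) (nat_lit 3) (nat_lit 4) (nat_lit 1) (nat_lit 4) (nat_lit 383) (nat_lit 266) (nat_lit 251))) (XT.nd (nat_lit 78) (nat_lit 0) (nat_lit 0) (XT.lf (nat_lit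 0) (nat_lit 261199503996) (nat_lit 152) (nat_lit 54441617409) (nat_lit 0) (nat_lit 260611648913) (nat_lit 1) (nat_lit 5) (nat_lit 3) (nat_lit 4) (nat_lit 1) (nat_lit 4) (nat_lit 384) (nat_lit 266) (nat_lit 250)) (XT.lf (nat_lit 0) (nat_lit 283558033894) (nat_lit 152) (nat_lit 55720221371) (nat_lit 0) (nat_lit 282952229160) (nat_lit 1) (nat_lit 5) (nat_lit 3) (nat_lit 4) (nat_lit 1) (nat_lit 4) (nat_lit 385) (nat_lit 266) (nat_lit 249)))) (XT.nd (nat_lit 156) (nat_lit 0) (nat_lit 0) (XT.nd (nat_lit 78) (nat_lit 0) (nat_lit 0) (XT.lf (nat_lit 0) (nat_lit 307664489090) (nat_lit 152) (nat_lit 57183127861) (nat_lit 0) (nat_lit 307042064310) (nat_lit 1) (nat_lit 5) (nat_lit 3) (nat_lit 4) (nat_lit 1) (nat_lit 4) (nat_lit 386) (nat_lit 266) (nat_lit 248)) (XT.lf (nat_lit 0) (nat_lit 333661722653) (nat_lit 152) (nat_lit 58839005955) (nat_lit 0) (nat_lit 333023908941) (nat_lit 1) (nat_lit 5) (nat_lit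 3) (nat_lit 4) (nat_lit 1) (nat_lit 4) (nat_lit 387) (nat_lit 266) (nat_lit 247))) (XT.nd (nat_lit 78) (nat_lit 0) (nat_lit 0) (XT.lf (nat_lit 0) (nat_lit 361703792262) (nat_lit 152) (nat_lit 60697668264) (nat_lit 0) (nat_lit 361051729540) (nat_lit 1) (nat_lit 5) (nat_lit 3) (nat_lit 4) (nat_lit 1) (nat_lit 4) (nat_lit 388) (nat_lit 266) (nat_lit 246)) (XT.nd (nat_lit 78) (nat_lit 0) (nat_lit 0) (XT.lf (nat_lit 0) (nat_lit 391956873147) (nat_lit 152) (nat_lit 62770129083) (nat_lit 0) (nat_lit 391291616896) (nat_lit 1) (nat_lit 5) (nat_lit 3) (nat_lit 4) (nat_lit 1) (nat_lit 4) (nat_lit 389) (nat_lit 266) (nat_lit 245)) (XT.lf (nat_lit 0) (nat_lit 424600242821) (nat_lit 152) (nat_lit 65068669660) (nat_lit 0) (nat_lit 423922770341) (nat_lit 1) (nat_lit 5) (nat_lit 3) (nat_lit 4) (nat_lit 1) (nat_lit 4) (nat_lit 390) (nat_lit 266) (nat_lit 244))))))))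
noncomputable def xc18 : XT := (XT.nd (nat_lit 1404) (nat_lit 0) (nat_lit 0) (XT.nd (nat_lit 702) (nat_lit 0) (nat_lit 0) (XT.nd (nat_lit 312) (nat_lit 0) (nat_lit 0) (XT.nd (nat_lit 156) (nat_lit 0) (nat_lit 0) (XT.nd (nat_lit 78) (nat_lit 0) (nat_lit 0) (XT.lf (nat_lit 0) (nat_lit 459827343477) (nat_lit 152) (nat_lit 67606910978) (nat_lit 0) (nat_lit 459138559673) (nat_lit 1) (nat_lit 5) (nat_lit 3) (nat_lit 4) (nat_lit 1) (nat_lit 4) (nat_lit 391) (nat_lit 266) (nat_lit 243)) (XT.lf (nat_lit 0) (nat_lit 497846928304) (nat_lit 152) (nat_lit 70399894467) (nat_lit 0) (nat_lit 497147671051) (nat_lit 1) (nat_lit 5) (nat_lit 3) (nat_lit 4) (nat_lit 1) (nat_lit 4) (nat_lit 392) (nat_lit 266) (nat_lit 242))) (XT.nd (nat_lit 78) (nat_lit 0) (nat_lit 0) (XT.lf (nat_lit 0) (nat_lit 538884298544) (nat_lit 152) (nat_lit 73464171139) (nat_lit 0) (nat_lit 538175343654) (nat_lit 1) (nat_lit 5) (nat_lit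 3) (nat_lit 4) (nat_lit 1) (nat_lit 4) (nat_lit 393) (nat_lit 266) (nat_lit 241)) (XT.lf (nat_lit 0) (nat_lit 583182638614) (nat_lit 152) (nat_lit 76817899671) (nat_lit 0) (nat_lit 582464704430) (nat_lit 1) (nat_lit 5) (nat_lit 3) (nat_lit 4) (nat_lit 1) (nat_lit 4) (nat_lit 394) (nat_lit 266) (nat_lit 240)))) (XT.nd (nat_lit 156) (nat_lit 0) (nat_lit 0) (XT.nd (nat_lit 78) (nat_lit 0) (nat_lit 0) (XT.lf (nat_lit 0) (nat_lit 631004457196) (nat_lit 152) (nat_lit 80480954010) (nat_lit 0) (nat_lit 630278208851) (nat_lit 1) (nat_lit 5) (nat_lit 3) (nat_lit 4) (nat_lit 1) (nat_lit 4) (nat_lit 395) (nat_lit 266) (nat_lit 239)) (XT.lf (nat_lit 0) (nat_lit 682633142845) (nat_lit 152) (nat_lit 84475041145) (nat_lit 0) (nat_lit 681899196203) (nat_lit 1) (nat_lit 5) (nat_lit 3) (nat_lit 4) (nat_lit 1) (nat_lit 4) (nat_lit 396) (nat_lit 266) (nat_lit 238))) (XT.nd (nat_lit 78) (nat_lit 0) (nat_lit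 0) (XT.lf (nat_lit 0) (nat_lit 738374643327) (nat_lit 152) (nat_lit 88823829740) (nat_lit 0) (nat_lit 737633568632) (nat_lit 1) (nat_lit 5) (nat_lit 3) (nat_lit 4) (nat_lit 1) (nat_lit 4) (nat_lit 397) (nat_lit 266) (nat_lit 237)) (XT.nd (nat_lit 78) (nat_lit 0) (nat_lit 0) (XT.lf (nat_lit 0) (nat_lit 798559278646) (nat_lit 152) (nat_lit 93553090395) (nat_lit 0) (nat_lit 797811603901) (nat_lit 1) (nat_lit 5) (nat_lit 3) (nat_lit 4) (nat_lit 1) (nat_lit 4) (nat_lit 398) (nat_lit 266) (nat_lit 236)) (XT.lf (nat_lit 0) (nat_lit 863543698491) (nat_lit 152) (nat_lit 98690848357) (nat_lit 0) (nat_lit 862789912590) (nat_lit 1) (nat_lit 5) (nat_lit 3) (nat_lit 4) (nat_lit 1) (nat_lit 4) (nat_lit 399) (nat_lit 266) (nat_lit 235)))))) (XT.nd (nat_lit 312) (nat_lit 0) (nat_lit 0) (XT.nd (nat_lit 156) (nat_lit 0) (nat_lit 0) (XT.nd (nat_lit 78) (nat_lit 0) (nat_lit 0) (XT.lf (nat_lit 0) (nat_lit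 933712995721) (nat_lit 152) (nat_lit 104267549600) (nat_lit 0) (nat_lit 932953551342) (nat_lit 1) (nat_lit 5) (nat_lit 3) (nat_lit 4) (nat_lit 1) (nat_lit 4) (nat_lit 400) (nat_lit 266) (nat_lit 234)) (XT.lf (nat_lit 0) (nat_lit 1009482988395) (nat_lit 152) (nat_lit 110316241242) (nat_lit 0) (nat_lit 1008718304684) (nat_lit 1) (nat_lit 5) (nat_lit 3) (nat_lit 4) (nat_lit 1) (nat_lit 4) (nat_lit 401) (nat_lit 266) (nat_lit 233))) (XT.nd (nat_lit 78) (nat_lit 0) (nat_lit 0) (XT.lf (nat_lit 0) (nat_lit 1091302683875) (nat_lit 152) (nat_lit 116872767382) (nat_lit 0) (nat_lit 1090533148932) (nat_lit 1) (nat_lit 5) (nat_lit 3) (nat_lit 4) (nat_lit 1) (nat_lit 4) (nat_lit 402) (nat_lit 266) (nat_lit 232)) (XT.lf (nat_lit 0) (nat_lit 1179656939617) (nat_lit 152) (nat_lit 123975981508) (nat_lit 0) (nat_lit 1178882912791) (nat_lit 1) (nat_lit 5) (nat_lit 3) (nat_lit 4) (nat_lit 1) (nat_lit 4) (nat_lit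 403) (nat_lit 266) (nat_lit 231)))) (XT.nd (nat_lit 156) (nat_lit 0) (nat_lit 0) (XT.nd (nat_lit 78) (nat_lit 0) (nat_lit 0) (XT.lf (nat_lit 0) (nat_lit 1275069336396) (nat_lit 152) (nat_lit 131667976741) (nat_lit 0) (nat_lit 1274291150419) (nat_lit 1) (nat_lit 5) (nat_lit 3) (nat_lit 4) (nat_lit 1) (nat_lit 4) (nat_lit 404) (nat_lit 266) (nat_lit 230)) (XT.lf (nat_lit 0) (nat_lit 1378105281006) (nat_lit 152) (nat_lit 139994335275) (nat_lit 0) (nat_lit 1377323243964) (nat_lit 1) (nat_lit 5) (nat_lit 3) (nat_lit 4) (nat_lit 1) (nat_lit 4) (nat_lit 405) (nat_lit 266) (nat_lit 229))) (XT.nd (nat_lit 78) (nat_lit 0) (nat_lit 0) (XT.lf (nat_lit 0) (nat_lit 1489375356824) (nat_lit 152) (nat_lit 149004398493) (nat_lit 0) (nat_lit 1488589753982) (nat_lit 1) (nat_lit 5) (nat_lit 3) (nat_lit 4) (nat_lit 1) (nat_lit 4) (nat_lit 406) (nat_lit 266) (nat_lit 228)) (XT.nd (nat_lit 78) (nat_lit 0) (nat_lit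 0) (XT.lf (nat_lit 0) (nat_lit 1609538942077) (nat_lit 152) (nat_lit 158751559364) (nat_lit 0) (nat_lit 1608750037567) (nat_lit 1) (nat_lit 5) (nat_lit 3) (nat_lit 4) (nat_lit 1) (nat_lit 4) (nat_lit 407) (nat_lit 266) (nat_lit 227)) (XT.lf (nat_lit 0) (nat_lit 1739308117270) (nat_lit 152) (nat_lit 169293578839) (nat_lit 0) (nat_lit 1738516155660) (nat_lit 1) (nat_lit 5) (nat_lit 3) (nat_lit 4) (nat_lit 1) (nat_lit 4) (nat_lit 408) (nat_lit 266) (nat_lit 226))))))) (XT.nd (nat_lit 702) (nat_lit 0) (nat_lit 0) (XT.nd (nat_lit 312) (nat_lit 0) (nat_lit 0) (XT.nd (nat_lit 156) (nat_lit 0) (nat_lit 0) (XT.nd (nat_lit 78) (nat_lit 0) (nat_lit 0) (XT.lf (nat_lit 0) (nat_lit 1879451884922) (nat_lit 152) (nat_lit 180692928146) (nat_lit 0) (nat_lit 1878657092664) (nat_lit 1) (nat_lit 5) (nat_lit 3) (nat_lit 4) (nat_lit 1) (nat_lit 4) (nat_lit 409) (nat_lit 266) (nat_lit 225)) (XT.lf (nat_lit 0)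 (nat_lit 2030800726620) (nat_lit 152) (nat_lit 193017158985) (nat_lit 0) (nat_lit 2030003313392) (nat_lit 1) (nat_lit 5) (nat_lit 3) (nat_lit 4) (nat_lit 1) (nat_lit 4) (nat_lit 410) (nat_lit 266) (nat_lit 224))) (XT.nd (nat_lit 78) (nat_lit 0) (nat_lit 0) (XT.lf (nat_lit 0) (nat_lit 2194251524388) (nat_lit 152) (nat_lit 206339303834) (nat_lit 0) (nat_lit 2193451684336) (nat_lit 1) (nat_lit 5) (nat_lit 3) (nat_lit 4) (nat_lit 1) (nat_lit 4) (nat_lit 411) (nat_lit 266) (nat_lit 223)) (XT.lf (nat_lit 0) (nat_lit 2370772875547) (nat_lit 152) (nat_lit 220738308737) (nat_lit 0) (nat_lit 2369970788435) (nat_lit 1) (nat_lit 5) (nat_lit 3) (nat_lit 4) (nat_lit 1) (nat_lit 4) (nat_lit 412) (nat_lit 266) (nat_lit 222)))) (XT.nd (nat_lit 156) (nat_lit 0) (nat_lit 0) (XT.nd (nat_lit 78) (nat_lit 0) (nat_lit 0) (XT.lf (nat_lit 0) (nat_lit 2561410832548) (nat_lit 152) (nat_lit 236299501131) (nat_lit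 0) (nat_lit 2560606664825) (nat_lit 1) (nat_lit 5) (nat_lit 3) (nat_lit 4) (nat_lit 1) (nat_lit 4) (nat_lit 413) (nat_lit 266) (nat_lit 221)) (XT.lf (nat_lit 0) (nat_lit 2767295101803) (nat_lit 152) (nat_lit 253115095488) (nat_lit 0) (nat_lit 2766489007589) (nat_lit 1) (nat_lit 5) (nat_lit 3) (nat_lit 4) (nat_lit 1) (nat_lit 4) (nat_lit 414) (nat_lit 266) (nat_lit 220))) (XT.nd (nat_lit 78) (nat_lit 0) (nat_lit 0) (XT.lf (nat_lit 0) (nat_lit 2989645738240) (nat_lit 152) (nat_lit 271284739776) (nat_lit 0) (nat_lit 2988837860238) (nat_lit 1) (nat_lit 5) (nat_lit 3) (nat_lit 4) (nat_lit 1) (nat_lit 4) (nat_lit 415) (nat_lit 266) (nat_lit 219)) (XT.nd (nat_lit 78) (nat_lit 0) (nat_lit 0) (XT.lf (nat_lit 0) (nat_lit 3229780375262) (nat_lit 152) (nat_lit 290916105960) (nat_lit 0) (nat_lit 3228970845603) (nat_lit 1) (nat_lit 5) (nat_lit 3) (nat_lit 4) (nat_lit 1) (nat_lit 4) (nat_lit 416) (nat_lit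 266) (nat_lit 218)) (XT.lf (nat_lit 0) (nat_lit 3489122032938) (nat_lit 152) (nat_lit 312125528063) (nat_lit 0) (nat_lit 3488310973968) (nat_lit 1) (nat_lit 5) (nat_lit 3) (nat_lit 4) (nat_lit 1) (nat_lit 4) (nat_lit 417) (nat_lit 266) (nat_lit 217)))))) (XT.nd (nat_lit 43056) (nat_lit 0) (nat_lit 0) (XT.nd (nat_lit 42900) (nat_lit 0) (nat_lit 0) (XT.nd (nat_lit 42822) (nat_lit 0) (nat_lit 0) (XT.lf (nat_lit 0) (nat_lit 3769207550722) (nat_lit 152) (nat_lit 335038691548) (nat_lit 0) (nat_lit 3768395075724) (nat_lit 1) (nat_lit 5) (nat_lit 3) (nat_lit 4) (nat_lit 1) (nat_lit 4) (nat_lit 418) (nat_lit 266) (nat_lit 216)) (XT.lf (nat_lit 0) (nat_lit 21791260092) (nat_lit 152) (nat_lit 29421065203) (nat_lit 0) (nat_lit 21791260092) (nat_lit 1) (nat_lit 5) (nat_lit 3) (nat_lit 4) (nat_lit 1) (nat_lit 4) (nat_lit 366) (nat_lit 267) (nat_lit 267))) (XT.nd (nat_lit 78) (nat_lit 0) (nat_lit 0)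 (XT.lf (nat_lit 0) (nat_lit 50090285257) (nat_lit 152) (nat_lit 57325774731) (nat_lit 0) (nat_lit 50023871229) (nat_lit 1) (nat_lit 5) (nat_lit 3) (nat_lit 4) (nat_lit 1) (nat_lit 4) (nat_lit 367) (nat_lit 267) (nat_lit 266)) (XT.lf (nat_lit 0) (nat_lit 56967869555) (nat_lit 152) (nat_lit 55991564664) (nat_lit 0) (nat_lit 56839961056) (nat_lit 1) (nat_lit 5) (nat_lit 3) (nat_lit 4) (nat_lit 1) (nat_lit 4) (nat_lit 368) (nat_lit 267) (nat_lit 265)))) (XT.nd (nat_lit 156) (nat_lit 0) (nat_lit 0) (XT.nd (nat_lit 78) (nat_lit 0) (nat_lit 0) (XT.lf (nat_lit 0) (nat_lit 64256029134) (nat_lit 152) (nat_lit 54831593776) (nat_lit 0) (nat_lit 64071181310) (nat_lit 1) (nat_lit 5) (nat_lit 3) (nat_lit 4) (nat_lit 1) (nat_lit 4) (nat_lit 369) (nat_lit 267) (nat_lit 264)) (XT.lf (nat_lit 0) (nat_lit 71997953088) (nat_lit 152) (nat_lit 53838988164) (nat_lit 0) (nat_lit 71760383666) (nat_lit 1) (nat_lit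 5) (nat_lit 3) (nat_lit 4) (nat_lit 1) (nat_lit 4) (nat_lit 370) (nat_lit 267) (nat_lit 263))) (XT.nd (nat_lit 78) (nat_lit 0) (nat_lit 0) (XT.lf (nat_lit 0) (nat_lit 80239519484) (nat_lit 152) (nat_lit 53007865722) (nat_lit 0) (nat_lit 79953133769) (nat_lit 1) (nat_lit 5) (nat_lit 3) (nat_lit 4) (nat_lit 1) (nat_lit 4) (nat_lit 371) (nat_lit 267) (nat_lit 262)) (XT.nd (nat_lit 78) (nat_lit 0) (nat_lit 0) (XT.lf (nat_lit 0) (nat_lit 89029567235) (nat_lit 152) (nat_lit 52333301279) (nat_lit 0) (nat_lit 88697981248) (nat_lit 1) (nat_lit 5) (nat_lit 3) (nat_lit 4) (nat_lit 1) (nat_lit 4) (nat_lit 372) (nat_lit 267) (nat_lit 261)) (XT.lf (nat_lit 0) (nat_lit 98420185512) (nat_lit 152) (nat_lit 51811297417) (nat_lit 0) (nat_lit 98046747421) (nat_lit 1) (nat_lit 5) (nat_lit 3) (nat_lit 4) (nat_lit 1) (nat_lit 4) (nat_lit 373) (nat_lit 267) (nat_lit 260))))))))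
noncomputable def xc19 : XT := (XT.nd (nat_lit 1404) (nat_lit 0) (nat_lit 0) (XT.nd (nat_lit 702) (nat_lit 0) (nat_lit 0) (XT.nd (nat_lit 312) (nat_lit 0) (nat_lit 0) (XT.nd (nat_lit 156) (nat_lit 0) (nat_lit 0) (XT.nd (nat_lit 78) (nat_lit 0) (nat_lit 0) (XT.lf (nat_lit 0) (nat_lit 108467022424) (nat_lit 152) (nat_lit 51438760779) (nat_lit 0) (nat_lit 108054832385) (nat_lit 1) (nat_lit 5) (nat_lit 3) (nat_lit 4) (nat_lit 1) (nat_lit 4) (nat_lit 374) (nat_lit 267) (nat_lit 259)) (XT.lf (nat_lit 0) (nat_lit 119229614781) (nat_lit 152) (nat_lit 51213483741) (nat_lit 0) (nat_lit 118781543310) (nat_lit 1) (nat_lit 5) (nat_lit 3) (nat_lit 4) (nat_lit 1) (nat_lit 4) (nat_lit 375) (nat_lit 267) (nat_lit 258))) (XT.nd (nat_lit 78) (nat_lit 0) (nat_lit 0) (XT.lf (nat_lit 0) (nat_lit 130771740911) (nat_lit 152) (nat_lit 51134131327) (nat_lit 0) (nat_lit 130290445890) (nat_lit 1) (nat_lit 5) (nat_lit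 3) (nat_lit 4) (nat_lit 1) (nat_lit 4) (nat_lit 376) (nat_lit 267) (nat_lit 257)) (XT.lf (nat_lit 0) (nat_lit 143161798595) (nat_lit 152) (nat_lit 51200233302) (nat_lit 0) (nat_lit 142649741029) (nat_lit 1) (nat_lit 5) (nat_lit 3) (nat_lit 4) (nat_lit 1) (nat_lit 4) (nat_lit 377) (nat_lit 267) (nat_lit 256)))) (XT.nd (nat_lit 156) (nat_lit 0) (nat_lit 0) (XT.nd (nat_lit 78) (nat_lit 0) (nat_lit 0) (XT.lf (nat_lit 0) (nat_lit 156473210400) (nat_lit 152) (nat_lit 51412181381) (nat_lit 0) (nat_lit 155932668995) (nat_lit 1) (nat_lit 5) (nat_lit 3) (nat_lit 4) (nat_lit 1) (nat_lit 4) (nat_lit 378) (nat_lit 267) (nat_lit 255)) (XT.lf (nat_lit 0) (nat_lit 170784858764) (nat_lit 152) (nat_lit 51771231552) (nat_lit 0) (nat_lit 170217943435) (nat_lit 1) (nat_lit 5) (nat_lit 3) (nat_lit 4) (nat_lit 1) (nat_lit 4) (nat_lit 379) (nat_lit 267) (nat_lit 254))) (XT.nd (nat_lit 78) (nat_lit 0) (nat_lit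 0) (XT.lf (nat_lit 0) (nat_lit 186181553456) (nat_lit 152) (nat_lit 52279511520) (nat_lit 0) (nat_lit 185590217827) (nat_lit 1) (nat_lit 5) (nat_lit 3) (nat_lit 4) (nat_lit 1) (nat_lit 4) (nat_lit 380) (nat_lit 267) (nat_lit 253)) (XT.nd (nat_lit 78) (nat_lit 0) (nat_lit 0) (XT.lf (nat_lit 0) (nat_lit 202754534149) (nat_lit 152) (nat_lit 52940033314) (nat_lit 0) (nat_lit 202140587130) (nat_lit 1) (nat_lit 5) (nat_lit 3) (nat_lit 4) (nat_lit 1) (nat_lit 4) (nat_lit 381) (nat_lit 267) (nat_lit 252)) (XT.lf (nat_lit 0) (nat_lit 220602011098) (nat_lit 152) (nat_lit 53756711138) (nat_lit 0) (nat_lit 219967127608) (nat_lit 1) (nat_lit 5) (nat_lit 3) (nat_lit 4) (nat_lit 1) (nat_lit 4) (nat_lit 382) (nat_lit 267) (nat_lit 251)))))) (XT.nd (nat_lit 312) (nat_lit 0) (nat_lit 0) (XT.nd (nat_lit 156) (nat_lit 0) (nat_lit 0) (XT.nd (nat_lit 78) (nat_lit 0) (nat_lit 0) (XT.lf (nat_lit 0) (nat_lit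 239829747130) (nat_lit 152) (nat_lit 54734384564) (nat_lit 0) (nat_lit 239175478018) (nat_lit 1) (nat_lit 5) (nat_lit 3) (nat_lit 4) (nat_lit 1) (nat_lit 4) (nat_lit 383) (nat_lit 267) (nat_lit 250)) (XT.lf (nat_lit 0) (nat_lit 260551684384) (nat_lit 152) (nat_lit 55878847212) (nat_lit 0) (nat_lit 259879465622) (nat_lit 1) (nat_lit 5) (nat_lit 3) (nat_lit 4) (nat_lit 1) (nat_lit 4) (nat_lit 384) (nat_lit 267) (nat_lit 249))) (XT.nd (nat_lit 78) (nat_lit 0) (nat_lit 0) (XT.lf (nat_lit 0) (nat_lit 282890619525) (nat_lit 152) (nat_lit 57196881084) (nat_lit 0) (nat_lit 282201780717) (nat_lit 1) (nat_lit 5) (nat_lit 3) (nat_lit 4) (nat_lit 1) (nat_lit 4) (nat_lit 385) (nat_lit 267) (nat_lit 248)) (XT.lf (nat_lit 0) (nat_lit 306978931428) (nat_lit 152) (nat_lit 58696296749) (nat_lit 0) (nat_lit 306274703688) (nat_lit 1) (nat_lit 5) (nat_lit 3) (nat_lit 4) (nat_lit 1) (nat_lit 4) (nat_lit 386)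 (nat_lit 267) (nat_lit 247)))) (XT.nd (nat_lit 156) (nat_lit 0) (nat_lit 0) (XT.nd (nat_lit 78) (nat_lit 0) (nat_lit 0) (XT.lf (nat_lit 0) (nat_lit 332959365646) (nat_lit 152) (nat_lit 60385979635) (nat_lit 0) (nat_lit 332240888895) (nat_lit 1) (nat_lit 5) (nat_lit 3) (nat_lit 4) (nat_lit 1) (nat_lit 4) (nat_lit 387) (nat_lit 267) (nat_lit 246)) (XT.lf (nat_lit 0) (nat_lit 360985880306) (nat_lit 152) (nat_lit 62275942677) (nat_lit 0) (nat_lit 360254210027) (nat_lit 1) (nat_lit 5) (nat_lit 3) (nat_lit 4) (nat_lit 1) (nat_lit 4) (nat_lit 388) (nat_lit 267) (nat_lit 245))) (XT.nd (nat_lit 78) (nat_lit 0) (nat_lit 0) (XT.lf (nat_lit 0) (nat_lit 391224558459) (nat_lit 152) (nat_lit 64377385656) (nat_lit 0) (nat_lit 390480671950) (nat_lit 1) (nat_lit 5) (nat_lit 3) (nat_lit 4) (nat_lit 1) (nat_lit 4) (nat_lit 389) (nat_lit 267) (nat_lit 244)) (XT.nd (nat_lit 78) (nat_lit 0) (nat_lit 0) (XT.lf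 (nat_lit 0) (nat_lit 423854592272) (nat_lit 152) (nat_lit 66702761568) (nat_lit 0) (nat_lit 423099394439) (nat_lit 1) (nat_lit 5) (nat_lit 3) (nat_lit 4) (nat_lit 1) (nat_lit 4) (nat_lit 390) (nat_lit 267) (nat_lit 243)) (XT.lf (nat_lit 0) (nat_lit 459069344908) (nat_lit 152) (nat_lit 69265850417) (nat_lit 0) (nat_lit 458303673627) (nat_lit 1) (nat_lit 5) (nat_lit 3) (nat_lit 4) (nat_lit 1) (nat_lit 4) (nat_lit 391) (nat_lit 267) (nat_lit 242))))))) (XT.nd (nat_lit 702) (nat_lit 0) (nat_lit 0) (XT.nd (nat_lit 312) (nat_lit 0) (nat_lit 0) (XT.nd (nat_lit 156) (nat_lit 0) (nat_lit 0) (XT.nd (nat_lit 78) (nat_lit 0) (nat_lit 0) (XT.lf (nat_lit 0) (nat_lit 497077496382) (nat_lit 152) (nat_lit 72081840879) (nat_lit 0) (nat_lit 496302127464) (nat_lit 1) (nat_lit 5) (nat_lit 3) (nat_lit 4) (nat_lit 1) (nat_lit 4) (nat_lit 392) (nat_lit 267) (nat_lit 241)) (XT.lf (nat_lit 0) (nat_lit 538104280186)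 (nat_lit 152) (nat_lit 75167420304) (nat_lit 0) (nat_lit 537319931973) (nat_lit 1) (nat_lit 5) (nat_lit 3) (nat_lit 4) (nat_lit 1) (nat_lit 4) (nat_lit 393) (nat_lit 267) (nat_lit 240))) (XT.nd (nat_lit 78) (nat_lit 0) (nat_lit 0) (XT.lf (nat_lit 0) (nat_lit 582392817999) (nat_lit 152) (nat_lit 78540873607) (nat_lit 0) (nat_lit 581600155626) (nat_lit 1) (nat_lit 5) (nat_lit 3) (nat_lit 4) (nat_lit 1) (nat_lit 4) (nat_lit 394) (nat_lit 267) (nat_lit 239)) (XT.lf (nat_lit 0) (nat_lit 630205560418) (nat_lit 152) (nat_lit 82222191624) (nat_lit 0) (nat_lit 629405199747) (nat_lit 1) (nat_lit 5) (nat_lit 3) (nat_lit 4) (nat_lit 1) (nat_lit 4) (nat_lit 395) (nat_lit 267) (nat_lit 238)))) (XT.nd (nat_lit 156) (nat_lit 0) (nat_lit 0) (XT.nd (nat_lit 78) (nat_lit 0) (nat_lit 0) (XT.lf (nat_lit 0) (nat_lit 681825842212) (nat_lit 152) (nat_lit 86233189571) (nat_lit 0) (nat_lit 681018353488) (nat_lit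 1) (nat_lit 5) (nat_lit 3) (nat_lit 4) (nat_lit 1) (nat_lit 4) (nat_lit 396) (nat_lit 267) (nat_lit 237)) (XT.lf (nat_lit 0) (nat_lit 737559561346) (nat_lit 152) (nat_lit 90597636325) (nat_lit 0) (nat_lit 736745472574) (nat_lit 1) (nat_lit 5) (nat_lit 3) (nat_lit 4) (nat_lit 1) (nat_lit 4) (nat_lit 397) (nat_lit 267) (nat_lit 236))) (XT.nd (nat_lit 78) (nat_lit 0) (nat_lit 0) (XT.lf (nat_lit 0) (nat_lit 797736991714) (nat_lit 152) (nat_lit 95341395276) (nat_lit 0) (nat_lit 796916791784) (nat_lit 1) (nat_lit 5) (nat_lit 3) (nat_lit 4) (nat_lit 1) (nat_lit 4) (nat_lit 398) (nat_lit 267) (nat_lit 235)) (XT.nd (nat_lit 78) (nat_lit 0) (nat_lit 0) (XT.lf (nat_lit 0) (nat_lit 862714740308) (nat_lit 152) (nat_lit 100492577586) (nat_lit 0) (nat_lit 861888881900) (nat_lit 1) (nat_lit 5) (nat_lit 3) (nat_lit 4) (nat_lit 1) (nat_lit 4) (nat_lit 399) (nat_lit 267) (nat_lit 234)) (XT.lf (nat_lit 0)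 (nat_lit 932877860454) (nat_lit 152) (nat_lit 106081708781) (nat_lit 0) (nat_lit 932046762715) (nat_lit 1) (nat_lit 5) (nat_lit 3) (nat_lit 4) (nat_lit 1) (nat_lit 4) (nat_lit 400) (nat_lit 267) (nat_lit 233)))))) (XT.nd (nat_lit 312) (nat_lit 0) (nat_lit 0) (XT.nd (nat_lit 156) (nat_lit 0) (nat_lit 0) (XT.nd (nat_lit 78) (nat_lit 0) (nat_lit 0) (XT.lf (nat_lit 0) (nat_lit 1008642133605) (nat_lit 152) (nat_lit 112141909637) (nat_lit 0) (nat_lit 1007806184633) (nat_lit 1) (nat_lit 5) (nat_lit 3) (nat_lit 4) (nat_lit 1) (nat_lit 4) (nat_lit 401) (nat_lit 267) (nat_lit 232)) (XT.lf (nat_lit 0) (nat_lit 1090456533231) (nat_lit 152) (nat_lit 118709092458) (nat_lit 0) (nat_lit 1089616092376) (nat_lit 1) (nat_lit 5) (nat_lit 3) (nat_lit 4) (nat_lit 1) (nat_lit 4) (nat_lit 402) (nat_lit 267) (nat_lit 231))) (XT.nd (nat_lit 78) (nat_lit 0) (nat_lit 0) (XT.lf (nat_lit 0) (nat_lit 1178805885404)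 (nat_lit 152) (nat_lit 125822173880) (nat_lit 0) (nat_lit 1177961285399) (nat_lit 1) (nat_lit 5) (nat_lit 3) (nat_lit 4) (nat_lit 1) (nat_lit 4) (nat_lit 403) (nat_lit 267) (nat_lit 230)) (XT.lf (nat_lit 0) (nat_lit 1274213741841) (nat_lit 152) (nat_lit 133523305499) (nat_lit 0) (nat_lit 1273365290771) (nat_lit 1) (nat_lit 5) (nat_lit 3) (nat_lit 4) (nat_lit 1) (nat_lit 4) (nat_lit 404) (nat_lit 267) (nat_lit 229)))) (XT.nd (nat_lit 156) (nat_lit 0) (nat_lit 0) (XT.nd (nat_lit 78) (nat_lit 0) (nat_lit 0) (XT.lf (nat_lit 0) (nat_lit 1377245482432) (nat_lit 152) (nat_lit 141858123649) (nat_lit 0) (nat_lit 1376393465561) (nat_lit 1) (nat_lit 5) (nat_lit 3) (nat_lit 4) (nat_lit 1) (nat_lit 4) (nat_lit 405) (nat_lit 267) (nat_lit 228)) (XT.lf (nat_lit 0) (nat_lit 1488511665639) (nat_lit 152) (nat_lit 150876019845) (nat_lit 0) (nat_lit 1487656347100) (nat_lit 1) (nat_lit 5) (nat_lit 3) (nat_lit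 4) (nat_lit 1) (nat_lit 4) (nat_lit 406) (nat_lit 267) (nat_lit 227))) (XT.nd (nat_lit 78) (nat_lit 0) (nat_lit 0) (XT.lf (nat_lit 0) (nat_lit 1608671646622) (nat_lit 152) (nat_lit 160630433473) (nat_lit 0) (nat_lit 1607813270984) (nat_lit 1) (nat_lit 5) (nat_lit 3) (nat_lit 4) (nat_lit 1) (nat_lit 4) (nat_lit 407) (nat_lit 267) (nat_lit 226)) (XT.nd (nat_lit 78) (nat_lit 0) (nat_lit 0) (XT.lf (nat_lit 0) (nat_lit 1738437484529) (nat_lit 152) (nat_lit 171179168465) (nat_lit 0) (nat_lit 1737576278242) (nat_lit 1) (nat_lit 5) (nat_lit 3) (nat_lit 4) (nat_lit 1) (nat_lit 4) (nat_lit 408) (nat_lit 267) (nat_lit 225)) (XT.lf (nat_lit 0) (nat_lit 1878578162101) (nat_lit 152) (nat_lit 182584735843) (nat_lit 0) (nat_lit 1877714334844) (nat_lit 1) (nat_lit 5) (nat_lit 3) (nat_lit 4) (nat_lit 1) (nat_lit 4) (nat_lit 409) (nat_lit 267) (nat_lit 224))))))))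
noncomputable def xc20 : XT := (XT.nd (nat_lit 43992) (nat_lit 0) (nat_lit 0) (XT.nd (nat_lit 43290) (nat_lit 0) (nat_lit 0) (XT.nd (nat_lit 312) (nat_lit 0) (nat_lit 0) (XT.nd (nat_lit 156) (nat_lit 0) (nat_lit 0) (XT.nd (nat_lit 78) (nat_lit 0) (nat_lit 0) (XT.lf (nat_lit 0) (nat_lit 2029924142614) (nat_lit 152) (nat_lit 194914724154) (nat_lit 0) (nat_lit 2029057888532) (nat_lit 1) (nat_lit 5) (nat_lit 3) (nat_lit 4) (nat_lit 1) (nat_lit 4) (nat_lit 410) (nat_lit 267) (nat_lit 223)) (XT.lf (nat_lit 0) (nat_lit 2193372291136) (nat_lit 152) (nat_lit 208242199997) (nat_lit 0) (nat_lit 2192503789996) (nat_lit 1) (nat_lit 5) (nat_lit 3) (nat_lit 4) (nat_lit 1) (nat_lit 4) (nat_lit 411) (nat_lit 267) (nat_lit 222))) (XT.nd (nat_lit 78) (nat_lit 0) (nat_lit 0) (XT.lf (nat_lit 0) (nat_lit 2369891189290) (nat_lit 152) (nat_lit 222646141005) (nat_lit 0) (nat_lit 2369020607539) (nat_lit 1) (nat_lit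 5) (nat_lit 3) (nat_lit 4) (nat_lit 1) (nat_lit 4) (nat_lit 412) (nat_lit 267) (nat_lit 221)) (XT.lf (nat_lit 0) (nat_lit 2560526874990) (nat_lit 152) (nat_lit 238211903866) (nat_lit 0) (nat_lit 2559654366747) (nat_lit 1) (nat_lit 5) (nat_lit 3) (nat_lit 4) (nat_lit 1) (nat_lit 4) (nat_lit 413) (nat_lit 267) (nat_lit 220)))) (XT.nd (nat_lit 156) (nat_lit 0) (nat_lit 0) (XT.nd (nat_lit 78) (nat_lit 0) (nat_lit 0) (XT.lf (nat_lit 0) (nat_lit 2766409041188) (nat_lit 152) (nat_lit 255031730137) (nat_lit 0) (nat_lit 2765534749157) (nat_lit 1) (nat_lit 5) (nat_lit 3) (nat_lit 4) (nat_lit 1) (nat_lit 4) (nat_lit 414) (nat_lit 267) (nat_lit 219)) (XT.lf (nat_lit 0) (nat_lit 2988757730351) (nat_lit 152) (nat_lit 273205292864) (nat_lit 0) (nat_lit 2987881786664) (nat_lit 1) (nat_lit 5) (nat_lit 3) (nat_lit 4) (nat_lit 1) (nat_lit 4) (nat_lit 415) (nat_lit 267) (nat_lit 218))) (XT.nd (nat_lit 78)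 (nat_lit 0) (nat_lit 0) (XT.lf (nat_lit 0) (nat_lit 3228890564340) (nat_lit 152) (nat_lit 292840287233) (nat_lit 0) (nat_lit 3228013091342) (nat_lit 1) (nat_lit 5) (nat_lit 3) (nat_lit 4) (nat_lit 1) (nat_lit 4) (nat_lit 416) (nat_lit 267) (nat_lit 217)) (XT.nd (nat_lit 78) (nat_lit 0) (nat_lit 0) (XT.lf (nat_lit 0) (nat_lit 3488230552542) (nat_lit 152) (nat_lit 314053068766) (nat_lit 0) (nat_lit 3487351663516) (nat_lit 1) (nat_lit 5) (nat_lit 3) (nat_lit 4) (nat_lit 1) (nat_lit 4) (nat_lit 417) (nat_lit 267) (nat_lit 216)) (XT.lf (nat_lit 0) (nat_lit 3768314524517) (nat_lit 152) (nat_lit 336969342834) (nat_lit 0) (nat_lit 3767434324353) (nat_lit 1) (nat_lit 5) (nat_lit 3) (nat_lit 4) (nat_lit 1) (nat_lit 4) (nat_lit 418) (nat_lit 267) (nat_lit 215)))))) (XT.nd (nat_lit 312) (nat_lit 0) (nat_lit 0) (XT.nd (nat_lit 156) (nat_lit 0) (nat_lit 0) (XT.nd (nat_lit 78) (nat_lit 0) (nat_lit 0)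 (XT.lf (nat_lit 0) (nat_lit 15840222417) (nat_lit 152) (nat_lit 31144093379) (nat_lit 0) (nat_lit 15840222417) (nat_lit 1) (nat_lit 5) (nat_lit 3) (nat_lit 4) (nat_lit 1) (nat_lit 4) (nat_lit 364) (nat_lit 268) (nat_lit 268)) (XT.lf (nat_lit 0) (nat_lit 37477736956) (nat_lit 152) (nat_lit 60549617502) (nat_lit 0) (nat_lit 37406009805) (nat_lit 1) (nat_lit 5) (nat_lit 3) (nat_lit 4) (nat_lit 1) (nat_lit 4) (nat_lit 365) (nat_lit 268) (nat_lit 267))) (XT.nd (nat_lit 78) (nat_lit 0) (nat_lit 0) (XT.lf (nat_lit 0) (nat_lit 43575946308) (nat_lit 152) (nat_lit 58999693093) (nat_lit 0) (nat_lit 43437805129) (nat_lit 1) (nat_lit 5) (nat_lit 3) (nat_lit 4) (nat_lit 1) (nat_lit 4) (nat_lit 366) (nat_lit 268) (nat_lit 266)) (XT.lf (nat_lit 0) (nat_lit 50011210428) (nat_lit 152) (nat_lit 57629228794) (nat_lit 0) (nat_lit 49811574778) (nat_lit 1) (nat_lit 5) (nat_lit 3) (nat_lit 4) (nat_lit 1) (nat_lit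 4) (nat_lit 367) (nat_lit 268) (nat_lit 265)))) (XT.nd (nat_lit 156) (nat_lit 0) (nat_lit 0) (XT.nd (nat_lit 78) (nat_lit 0) (nat_lit 0) (XT.lf (nat_lit 0) (nat_lit 56821664215) (nat_lit 152) (nat_lit 56430103334) (nat_lit 0) (nat_lit 56565089240) (nat_lit 1) (nat_lit 5) (nat_lit 3) (nat_lit 4) (nat_lit 1) (nat_lit 4) (nat_lit 368) (nat_lit 268) (nat_lit 264)) (XT.lf (nat_lit 0) (nat_lit 64047665913) (nat_lit 152) (nat_lit 55395210786) (nat_lit 0) (nat_lit 63738369341) (nat_lit 1) (nat_lit 5) (nat_lit 3) (nat_lit 4) (nat_lit 1) (nat_lit 4) (nat_lit 369) (nat_lit 268) (nat_lit 263))) (XT.nd (nat_lit 78) (nat_lit 0) (nat_lit 0) (XT.lf (nat_lit 0) (nat_lit 71732036274) (nat_lit 152) (nat_lit 54518418452) (nat_lit 0) (nat_lit 71373923408) (nat_lit 1) (nat_lit 5) (nat_lit 3) (nat_lit 4) (nat_lit 1) (nat_lit 4) (nat_lit 370) (nat_lit 268) (nat_lit 262)) (XT.nd (nat_lit 78) (nat_lit 0) (nat_lit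 0) (XT.lf (nat_lit 0) (nat_lit 79920312306) (nat_lit 152) (nat_lit 53794530527) (nat_lit 0) (nat_lit 79516999168) (nat_lit 1) (nat_lit 5) (nat_lit 3) (nat_lit 4) (nat_lit 1) (nat_lit 4) (nat_lit 371) (nat_lit 268) (nat_lit 261)) (XT.lf (nat_lit 0) (nat_lit 88661017127) (nat_lit 152) (nat_lit 53219257303) (nat_lit 0) (nat_lit 88215851886) (nat_lit 1) (nat_lit 5) (nat_lit 3) (nat_lit 4) (nat_lit 1) (nat_lit 4) (nat_lit 372) (nat_lit 268) (nat_lit 260))))))) (XT.nd (nat_lit 702) (nat_lit 0) (nat_lit 0) (XT.nd (nat_lit 312) (nat_lit 0) (nat_lit 0) (XT.nd (nat_lit 156) (nat_lit 0) (nat_lit 0) (XT.nd (nat_lit 78) (nat_lit 0) (nat_lit 0) (XT.lf (nat_lit 0) (nat_lit 98005947506) (nat_lit 152) (nat_lit 52789189755) (nat_lit 0) (nat_lit 97522030317) (nat_lit 1) (nat_lit 5) (nat_lit 3) (nat_lit 4) (nat_lit 1) (nat_lit 4) (nat_lit 373) (nat_lit 268) (nat_lit 259)) (XT.lf (nat_lit 0) (nat_lit 108010480809)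 (nat_lit 152) (nat_lit 52501779334) (nat_lit 0) (nat_lit 107490682187) (nat_lit 1) (nat_lit 5) (nat_lit 3) (nat_lit 4) (nat_lit 1) (nat_lit 4) (nat_lit 374) (nat_lit 268) (nat_lit 258))) (XT.nd (nat_lit 78) (nat_lit 0) (nat_lit 0) (XT.lf (nat_lit 0) (nat_lit 118733903159) (nat_lit 152) (nat_lit 52355322867) (nat_lit 0) (nat_lit 118180880987) (nat_lit 1) (nat_lit 5) (nat_lit 3) (nat_lit 4) (nat_lit 1) (nat_lit 4) (nat_lit 375) (nat_lit 268) (nat_lit 257)) (XT.lf (nat_lit 0) (nat_lit 130239760761) (nat_lit 152) (nat_lit 52348952464) (nat_lit 0) (nat_lit 129655976045) (nat_lit 1) (nat_lit 5) (nat_lit 3) (nat_lit 4) (nat_lit 1) (nat_lit 4) (nat_lit 376) (nat_lit 268) (nat_lit 256)))) (XT.nd (nat_lit 156) (nat_lit 0) (nat_lit 0) (XT.nd (nat_lit 78) (nat_lit 0) (nat_lit 0) (XT.lf (nat_lit 0) (nat_lit 142596236477) (nat_lit 152) (nat_lit 52482630374) (nat_lit 0) (nat_lit 141983967922) (nat_lit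 1) (nat_lit 5) (nat_lit 3) (nat_lit 4) (nat_lit 1) (nat_lit 4) (nat_lit 377) (nat_lit 268) (nat_lit 255)) (XT.lf (nat_lit 0) (nat_lit 155876553866) (nat_lit 152) (nat_lit 52757148764) (nat_lit 0) (nat_lit 155237911386) (nat_lit 1) (nat_lit 5) (nat_lit 3) (nat_lit 4) (nat_lit 1) (nat_lit 4) (nat_lit 378) (nat_lit 268) (nat_lit 254))) (XT.nd (nat_lit 78) (nat_lit 0) (nat_lit 0) (XT.lf (nat_lit 0) (nat_lit 170159411105) (nat_lit 152) (nat_lit 53174134407) (nat_lit 0) (nat_lit 169496348325) (nat_lit 1) (nat_lit 5) (nat_lit 3) (nat_lit 4) (nat_lit 1) (nat_lit 4) (nat_lit 379) (nat_lit 268) (nat_lit 253)) (XT.nd (nat_lit 78) (nat_lit 0) (nat_lit 0) (XT.lf (nat_lit 0) (nat_lit 185529447348) (nat_lit 152) (nat_lit 53736058331) (nat_lit 0) (nat_lit 184843773178) (nat_lit 1) (nat_lit 5) (nat_lit 3) (nat_lit 4) (nat_lit 1) (nat_lit 4) (nat_lit 380) (nat_lit 268) (nat_lit 252)) (XT.lf (nat_lit 0)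 (nat_lit 202077744291) (nat_lit 152) (nat_lit 54446250456) (nat_lit 0) (nat_lit 201371133650) (nat_lit 1) (nat_lit 5) (nat_lit 3) (nat_lit 4) (nat_lit 1) (nat_lit 4) (nat_lit 381) (nat_lit 268) (nat_lit 251)))))) (XT.nd (nat_lit 312) (nat_lit 0) (nat_lit 0) (XT.nd (nat_lit 156) (nat_lit 0) (nat_lit 0) (XT.nd (nat_lit 78) (nat_lit 0) (nat_lit 0) (XT.lf (nat_lit 0) (nat_lit 219902365916) (nat_lit 152) (nat_lit 55308919326) (nat_lit 0) (nat_lit 219176369653) (nat_lit 1) (nat_lit 5) (nat_lit 3) (nat_lit 4) (nat_lit 1) (nat_lit 4) (nat_lit 382) (nat_lit 268) (nat_lit 250)) (XT.lf (nat_lit 0) (nat_lit 239108939611) (nat_lit 152) (nat_lit 56329177054) (nat_lit 0) (nat_lit 238364993699) (nat_lit 1) (nat_lit 5) (nat_lit 3) (nat_lit 4) (nat_lit 1) (nat_lit 4) (nat_lit 383) (nat_lit 268) (nat_lit 249))) (XT.nd (nat_lit 78) (nat_lit 0) (nat_lit 0) (XT.lf (nat_lit 0) (nat_lit 259811282109) (nat_lit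 152) (nat_lit 57513069611) (nat_lit 0) (nat_lit 259050716150) (nat_lit 1) (nat_lit 5) (nat_lit 3) (nat_lit 4) (nat_lit 1) (nat_lit 4) (nat_lit 384) (nat_lit 268) (nat_lit 248)) (XT.lf (nat_lit 0) (nat_lit 282132073957) (nat_lit 152) (nat_lit 58867612658) (nat_lit 0) (nat_lit 281356119067) (nat_lit 1) (nat_lit 5) (nat_lit 3) (nat_lit 4) (nat_lit 1) (nat_lit 4) (nat_lit 385) (nat_lit 268) (nat_lit 247)))) (XT.nd (nat_lit 156) (nat_lit 0) (nat_lit 0) (XT.nd (nat_lit 78) (nat_lit 0) (nat_lit 0) (XT.lf (nat_lit 0) (nat_lit 306203586515) (nat_lit 152) (nat_lit 60400833115) (nat_lit 0) (nat_lit 305413382614) (nat_lit 1) (nat_lit 5) (nat_lit 3) (nat_lit 4) (nat_lit 1) (nat_lit 4) (nat_lit 386) (nat_lit 268) (nat_lit 246)) (XT.lf (nat_lit 0) (nat_lit 332168465784) (nat_lit 152) (nat_lit 62121816735) (nat_lit 0) (nat_lit 331365068354) (nat_lit 1) (nat_lit 5) (nat_lit 3) (nat_lit 4) (nat_lit 1)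 (nat_lit 4) (nat_lit 387) (nat_lit 268) (nat_lit 245))) (XT.nd (nat_lit 78) (nat_lit 0) (nat_lit 0) (XT.lf (nat_lit 0) (nat_lit 360180577713) (nat_lit 152) (nat_lit 64040761937) (nat_lit 0) (nat_lit 359364964053) (nat_lit 1) (nat_lit 5) (nat_lit 3) (nat_lit 4) (nat_lit 1) (nat_lit 4) (nat_lit 388) (nat_lit 268) (nat_lit 244)) (XT.nd (nat_lit 78) (nat_lit 0) (nat_lit 0) (XT.lf (nat_lit 0) (nat_lit 390405920005) (nat_lit 152) (nat_lit 66169040250) (nat_lit 0) (nat_lit 389578995021) (nat_lit 1) (nat_lit 5) (nat_lit 3) (nat_lit 4) (nat_lit 1) (nat_lit 4) (nat_lit 389) (nat_lit 268) (nat_lit 243)) (XT.lf (nat_lit 0) (nat_lit 423023605797) (nat_lit 152) (nat_lit 68519263692) (nat_lit 0) (nat_lit 422186207365) (nat_lit 1) (nat_lit 5) (nat_lit 3) (nat_lit 4) (nat_lit 1) (nat_lit 4) (nat_lit 390) (nat_lit 268) (nat_lit 242))))))))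
noncomputable def xc21 : XT := (XT.nd (nat_lit 1404) (nat_lit 0) (nat_lit 0) (XT.nd (nat_lit 702) (nat_lit 0) (nat_lit 0) (XT.nd (nat_lit 312) (nat_lit 0) (nat_lit 0) (XT.nd (nat_lit 156) (nat_lit 0) (nat_lit 0) (XT.nd (nat_lit 78) (nat_lit 0) (nat_lit 0) (XT.lf (nat_lit 0) (nat_lit 458226925081) (nat_lit 152) (nat_lit 71105359515) (nat_lit 0) (nat_lit 457379829011) (nat_lit 1) (nat_lit 5) (nat_lit 3) (nat_lit 4) (nat_lit 1) (nat_lit 4) (nat_lit 391) (nat_lit 268) (nat_lit 241)) (XT.lf (nat_lit 0) (nat_lit 496224490118) (nat_lit 152) (nat_lit 73942652730) (nat_lit 0) (nat_lit 495368414755) (nat_lit 1) (nat_lit 5) (nat_lit 3) (nat_lit 4) (nat_lit 1) (nat_lit 4) (nat_lit 392) (nat_lit 268) (nat_lit 240))) (XT.nd (nat_lit 78) (nat_lit 0) (nat_lit 0) (XT.lf (nat_lit 0) (nat_lit 537241471665) (nat_lit 152) (nat_lit 77047956926) (nat_lit 0) (nat_lit 536377082140) (nat_lit 1) (nat_lit 5) (nat_lit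 3) (nat_lit 4) (nat_lit 1) (nat_lit 4) (nat_lit 393) (nat_lit 268) (nat_lit 239)) (XT.lf (nat_lit 0) (nat_lit 581520933315) (nat_lit 152) (nat_lit 80439673907) (nat_lit 0) (nat_lit 580648845494) (nat_lit 1) (nat_lit 5) (nat_lit 3) (nat_lit 4) (nat_lit 1) (nat_lit 4) (nat_lit 394) (nat_lit 268) (nat_lit 238)))) (XT.nd (nat_lit 156) (nat_lit 0) (nat_lit 0) (XT.nd (nat_lit 78) (nat_lit 0) (nat_lit 0) (XT.lf (nat_lit 0) (nat_lit 629325271879) (nat_lit 152) (nat_lit 84137902735) (nat_lit 0) (nat_lit 628446056004) (nat_lit 1) (nat_lit 5) (nat_lit 3) (nat_lit 4) (nat_lit 1) (nat_lit 4) (nat_lit 395) (nat_lit 268) (nat_lit 237)) (XT.lf (nat_lit 0) (nat_lit 680937772325) (nat_lit 152) (nat_lit 88164558842) (nat_lit 0) (nat_lit 680051956402) (nat_lit 1) (nat_lit 5) (nat_lit 3) (nat_lit 4) (nat_lit 1) (nat_lit 4) (nat_lit 396) (nat_lit 268) (nat_lit 236))) (XT.nd (nat_lit 78) (nat_lit 0) (nat_lit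 0) (XT.lf (nat_lit 0) (nat_lit 736664286509) (nat_lit 152) (nat_lit 92543503893) (nat_lit 0) (nat_lit 735772359429) (nat_lit 1) (nat_lit 5) (nat_lit 3) (nat_lit 4) (nat_lit 1) (nat_lit 4) (nat_lit 397) (nat_lit 268) (nat_lit 235)) (XT.nd (nat_lit 78) (nat_lit 0) (nat_lit 0) (XT.lf (nat_lit 0) (nat_lit 796835045625) (nat_lit 152) (nat_lit 97300687191) (nat_lit 0) (nat_lit 795937460066) (nat_lit 1) (nat_lit 5) (nat_lit 3) (nat_lit 4) (nat_lit 1) (nat_lit 4) (nat_lit 398) (nat_lit 268) (nat_lit 234)) (XT.lf (nat_lit 0) (nat_lit 861806617134) (nat_lit 152) (nat_lit 102464299453) (nat_lit 0) (nat_lit 860903792244) (nat_lit 1) (nat_lit 5) (nat_lit 3) (nat_lit 4) (nat_lit 1) (nat_lit 4) (nat_lit 399) (nat_lit 268) (nat_lit 233)))))) (XT.nd (nat_lit 312) (nat_lit 0) (nat_lit 0) (XT.nd (nat_lit 156) (nat_lit 0) (nat_lit 0) (XT.nd (nat_lit 78) (nat_lit 0) (nat_lit 0) (XT.lf (nat_lit 0) (nat_lit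 931964017758) (nat_lit 152) (nat_lit 108064939862) (nat_lit 0) (nat_lit 931056341635) (nat_lit 1) (nat_lit 5) (nat_lit 3) (nat_lit 4) (nat_lit 1) (nat_lit 4) (nat_lit 400) (nat_lit 268) (nat_lit 232)) (XT.lf (nat_lit 0) (nat_lit 1007722995055) (nat_lit 152) (nat_lit 114135797399) (nat_lit 0) (nat_lit 1006810827049) (nat_lit 1) (nat_lit 5) (nat_lit 3) (nat_lit 4) (nat_lit 1) (nat_lit 4) (nat_lit 401) (nat_lit 268) (nat_lit 231))) (XT.nd (nat_lit 78) (nat_lit 0) (nat_lit 0) (XT.lf (nat_lit 0) (nat_lit 1089532491112) (nat_lit 152) (nat_lit 120712847516) (nat_lit 0) (nat_lit 1088616163956) (nat_lit 1) (nat_lit 5) (nat_lit 3) (nat_lit 4) (nat_lit 1) (nat_lit 4) (nat_lit 402) (nat_lit 268) (nat_lit 230)) (XT.lf (nat_lit 0) (nat_lit 1177877302944) (nat_lit 152) (nat_lit 127835065324) (nat_lit 0) (nat_lit 1176957124723) (nat_lit 1) (nat_lit 5) (nat_lit 3) (nat_lit 4) (nat_lit 1) (nat_lit 4) (nat_lit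 403) (nat_lit 268) (nat_lit 229)))) (XT.nd (nat_lit 156) (nat_lit 0) (nat_lit 0) (XT.nd (nat_lit 78) (nat_lit 0) (nat_lit 0) (XT.lf (nat_lit 0) (nat_lit 1273280955361) (nat_lit 152) (nat_lit 135544656559) (nat_lit 0) (nat_lit 1272357211339) (nat_lit 1) (nat_lit 5) (nat_lit 3) (nat_lit 4) (nat_lit 1) (nat_lit 4) (nat_lit 404) (nat_lit 268) (nat_lit 228)) (XT.lf (nat_lit 0) (nat_lit 1376308803341) (nat_lit 152) (nat_lit 143887307687) (nat_lit 0) (nat_lit 1375381757651) (nat_lit 1) (nat_lit 5) (nat_lit 3) (nat_lit 4) (nat_lit 1) (nat_lit 4) (nat_lit 405) (nat_lit 268) (nat_lit 227))) (XT.nd (nat_lit 78) (nat_lit 0) (nat_lit 0) (XT.lf (nat_lit 0) (nat_lit 1487571382279) (nat_lit 152) (nat_lit 152912456641) (nat_lit 0) (nat_lit 1486641279489) (nat_lit 1) (nat_lit 5) (nat_lit 3) (nat_lit 4) (nat_lit 1) (nat_lit 4) (nat_lit 406) (nat_lit 268) (nat_lit 226)) (XT.nd (nat_lit 78) (nat_lit 0) (nat_lit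 0) (XT.lf (nat_lit 0) (nat_lit 1607728025976) (nat_lit 152) (nat_lit 162673585785) (nat_lit 0) (nat_lit 1606795092538) (nat_lit 1) (nat_lit 5) (nat_lit 3) (nat_lit 4) (nat_lit 1) (nat_lit 4) (nat_lit 407) (nat_lit 268) (nat_lit 225)) (XT.lf (nat_lit 0) (nat_lit 1737490773802) (nat_lit 152) (nat_lit 173228538848) (nat_lit 0) (nat_lit 1736555219394) (nat_lit 1) (nat_lit 5) (nat_lit 3) (nat_lit 4) (nat_lit 1) (nat_lit 4) (nat_lit 408) (nat_lit 268) (nat_lit 224))))))) (XT.nd (nat_lit 43212) (nat_lit 0) (nat_lit 0) (XT.nd (nat_lit 312) (nat_lit 0) (nat_lit 0) (XT.nd (nat_lit 156) (nat_lit 0) (nat_lit 0) (XT.nd (nat_lit 78) (nat_lit 0) (nat_lit 0) (XT.lf (nat_lit 0) (nat_lit 1877628590189) (nat_lit 152) (nat_lit 184639863698) (nat_lit 0) (nat_lit 1876690608957) (nat_lit 1) (nat_lit 5) (nat_lit 3) (nat_lit 4) (nat_lit 1) (nat_lit 4) (nat_lit 409) (nat_lit 268) (nat_lit 223)) (XT.lf (nat_lit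 0) (nat_lit 2028971921456) (nat_lit 152) (nat_lit 196975183003) (nat_lit 0) (nat_lit 2028031693164) (nat_lit 1) (nat_lit 5) (nat_lit 3) (nat_lit 4) (nat_lit 1) (nat_lit 4) (nat_lit 410) (nat_lit 268) (nat_lit 222))) (XT.nd (nat_lit 78) (nat_lit 0) (nat_lit 0) (XT.lf (nat_lit 0) (nat_lit 2192417616973) (nat_lit 152) (nat_lit 210307594950) (nat_lit 0) (nat_lit 2191475308071) (nat_lit 1) (nat_lit 5) (nat_lit 3) (nat_lit 4) (nat_lit 1) (nat_lit 4) (nat_lit 411) (nat_lit 268) (nat_lit 221)) (XT.lf (nat_lit 0) (nat_lit 2368934243826) (nat_lit 152) (nat_lit 224716106426) (nat_lit 0) (nat_lit 2367990008432) (nat_lit 1) (nat_lit 5) (nat_lit 3) (nat_lit 4) (nat_lit 1) (nat_lit 4) (nat_lit 412) (nat_lit 268) (nat_lit 220)))) (XT.nd (nat_lit 156) (nat_lit 0) (nat_lit 0) (XT.nd (nat_lit 78) (nat_lit 0) (nat_lit 0) (XT.lf (nat_lit 0) (nat_lit 2559567826469) (nat_lit 152) (nat_lit 240286101201) (nat_lit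 0) (nat_lit 2558621807287) (nat_lit 1) (nat_lit 5) (nat_lit 3) (nat_lit 4) (nat_lit 1) (nat_lit 4) (nat_lit 413) (nat_lit 268) (nat_lit 219)) (XT.lf (nat_lit 0) (nat_lit 2765448045393) (nat_lit 152) (nat_lit 257109845912) (nat_lit 0) (nat_lit 2764500374555) (nat_lit 1) (nat_lit 5) (nat_lit 3) (nat_lit 4) (nat_lit 1) (nat_lit 4) (nat_lit 414) (nat_lit 268) (nat_lit 218))) (XT.nd (nat_lit 78) (nat_lit 0) (nat_lit 0) (XT.lf (nat_lit 0) (nat_lit 2987794931523) (nat_lit 152) (nat_lit 275287036823) (nat_lit 0) (nat_lit 2986845731375) (nat_lit 1) (nat_lit 5) (nat_lit 3) (nat_lit 4) (nat_lit 1) (nat_lit 4) (nat_lit 415) (nat_lit 268) (nat_lit 217)) (XT.nd (nat_lit 78) (nat_lit 0) (nat_lit 0) (XT.lf (nat_lit 0) (nat_lit 3227926096039) (nat_lit 152) (nat_lit 294925390622) (nat_lit 0) (nat_lit 3226975479861) (nat_lit 1) (nat_lit 5) (nat_lit 3) (nat_lit 4) (nat_lit 1) (nat_lit 4) (nat_lit 416) (nat_lit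 268) (nat_lit 216)) (XT.lf (nat_lit 0) (nat_lit 3487264538431) (nat_lit 152) (nat_lit 316141282738) (nat_lit 0) (nat_lit 3486312611116) (nat_lit 1) (nat_lit 5) (nat_lit 3) (nat_lit 4) (nat_lit 1) (nat_lit 4) (nat_lit 417) (nat_lit 268) (nat_lit 215)))))) (XT.nd (nat_lit 312) (nat_lit 0) (nat_lit 0) (XT.nd (nat_lit 156) (nat_lit 0) (nat_lit 0) (XT.nd (nat_lit 78) (nat_lit 0) (nat_lit 0) (XT.lf (nat_lit 0) (nat_lit 10510785133) (nat_lit 152) (nat_lit 33094934086) (nat_lit 0) (nat_lit 10510785133) (nat_lit 1) (nat_lit 5) (nat_lit 3) (nat_lit 4) (nat_lit 1) (nat_lit 4) (nat_lit 362) (nat_lit 269) (nat_lit 269)) (XT.lf (nat_lit 0) (nat_lit 26227180945) (nat_lit 152) (nat_lit 64225703493) (nat_lit 0) (nat_lit 26149715622) (nat_lit 1) (nat_lit 5) (nat_lit 3) (nat_lit 4) (nat_lit 1) (nat_lit 4) (nat_lit 363) (nat_lit 269) (nat_lit 268))) (XT.nd (nat_lit 78) (nat_lit 0) (nat_lit 0) (XT.lf (nat_lit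 0) (nat_lit 31673345048) (nat_lit 152) (nat_lit 62458354459) (nat_lit 0) (nat_lit 31524152574) (nat_lit 1) (nat_lit 5) (nat_lit 3) (nat_lit 4) (nat_lit 1) (nat_lit 4) (nat_lit 364) (nat_lit 269) (nat_lit 267)) (XT.lf (nat_lit 0) (nat_lit 37392336141) (nat_lit 152) (nat_lit 60877347889) (nat_lit 0) (nat_lit 37176729638) (nat_lit 1) (nat_lit 5) (nat_lit 3) (nat_lit 4) (nat_lit 1) (nat_lit 4) (nat_lit 365) (nat_lit 269) (nat_lit 266)))) (XT.nd (nat_lit 156) (nat_lit 0) (nat_lit 0) (XT.nd (nat_lit 78) (nat_lit 0) (nat_lit 0) (XT.lf (nat_lit 0) (nat_lit 43418044541) (nat_lit 152) (nat_lit 59473314857) (nat_lit 0) (nat_lit 43140943568) (nat_lit 1) (nat_lit 5) (nat_lit 3) (nat_lit 4) (nat_lit 1) (nat_lit 4) (nat_lit 366) (nat_lit 269) (nat_lit 265)) (XT.lf (nat_lit 0) (nat_lit 49786178150) (nat_lit 152) (nat_lit 58237935165) (nat_lit 0) (nat_lit 49452137852) (nat_lit 1) (nat_lit 5) (nat_lit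 3) (nat_lit 4) (nat_lit 1) (nat_lit 4) (nat_lit 367) (nat_lit 269) (nat_lit 264))) (XT.nd (nat_lit 78) (nat_lit 0) (nat_lit 0) (XT.lf (nat_lit 0) (nat_lit 56534474056) (nat_lit 152) (nat_lit 57163888046) (nat_lit 0) (nat_lit 56147712161) (nat_lit 1) (nat_lit 5) (nat_lit 3) (nat_lit 4) (nat_lit 1) (nat_lit 4) (nat_lit 368) (nat_lit 269) (nat_lit 263)) (XT.nd (nat_lit 78) (nat_lit 0) (nat_lit 0) (XT.lf (nat_lit 0) (nat_lit 63702922161) (nat_lit 152) (nat_lit 56244808776) (nat_lit 0) (nat_lit 63267343973) (nat_lit 1) (nat_lit 5) (nat_lit 3) (nat_lit 4) (nat_lit 1) (nat_lit 4) (nat_lit 369) (nat_lit 269) (nat_lit 262)) (XT.lf (nat_lit 0) (nat_lit 71334002158) (nat_lit 152) (nat_lit 55475250959) (nat_lit 0) (nat_lit 70853223697) (nat_lit 1) (nat_lit 5) (nat_lit 3) (nat_lit 4) (nat_lit 1) (nat_lit 4) (nat_lit 370) (nat_lit 269) (nat_lit 261))))))))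
noncomputable def xc22 : XT := (XT.nd (nat_lit 1404) (nat_lit 0) (nat_lit 0) (XT.nd (nat_lit 702) (nat_lit 0) (nat_lit 0) (XT.nd (nat_lit 312) (nat_lit 0) (nat_lit 0) (XT.nd (nat_lit 156) (nat_lit 0) (nat_lit 0) (XT.nd (nat_lit 78) (nat_lit 0) (nat_lit 0) (XT.lf (nat_lit 0) (nat_lit 79472935260) (nat_lit 152) (nat_lit 54850654252) (nat_lit 0) (nat_lit 78950304696) (nat_lit 1) (nat_lit 5) (nat_lit 3) (nat_lit 4) (nat_lit 1) (nat_lit 4) (nat_lit 371) (nat_lit 269) (nat_lit 260)) (XT.lf (nat_lit 0) (nat_lit 88167952184) (nat_lit 152) (nat_lit 54367317343) (nat_lit 0) (nat_lit 87606569672) (nat_lit 1) (nat_lit 5) (nat_lit 3) (nat_lit 4) (nat_lit 1) (nat_lit 4) (nat_lit 372) (nat_lit 269) (nat_lit 259))) (XT.nd (nat_lit 78) (nat_lit 0) (nat_lit 0) (XT.lf (nat_lit 0) (nat_lit 97470578954) (nat_lit 152) (nat_lit 54022376012) (nat_lit 0) (nat_lit 96873315009) (nat_lit 1) (nat_lit 5) (nat_lit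 3) (nat_lit 4) (nat_lit 1) (nat_lit 4) (nat_lit 373) (nat_lit 269) (nat_lit 258)) (XT.lf (nat_lit 0) (nat_lit 107435942248) (nat_lit 152) (nat_lit 53813786162) (nat_lit 0) (nat_lit 106805454754) (nat_lit 1) (nat_lit 5) (nat_lit 3) (nat_lit 4) (nat_lit 1) (nat_lit 4) (nat_lit 374) (nat_lit 269) (nat_lit 257)))) (XT.nd (nat_lit 156) (nat_lit 0) (nat_lit 0) (XT.nd (nat_lit 78) (nat_lit 0) (nat_lit 0) (XT.lf (nat_lit 0) (nat_lit 118123096071) (nat_lit 152) (nat_lit 53740311705) (nat_lit 0) (nat_lit 117461846032) (nat_lit 1) (nat_lit 5) (nat_lit 3) (nat_lit 4) (nat_lit 1) (nat_lit 4) (nat_lit 375) (nat_lit 269) (nat_lit 256)) (XT.lf (nat_lit 0) (nat_lit 129595371705) (nat_lit 152) (nat_lit 53801517237) (nat_lit 0) (nat_lit 128905637827) (nat_lit 1) (nat_lit 5) (nat_lit 3) (nat_lit 4) (nat_lit 1) (nat_lit 4) (nat_lit 376) (nat_lit 269) (nat_lit 255))) (XT.nd (nat_lit 78) (nat_lit 0) (nat_lit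 0) (XT.lf (nat_lit 0) (nat_lit 141920753006) (nat_lit 152) (nat_lit 53997765458) (nat_lit 0) (nat_lit 141204645203) (nat_lit 1) (nat_lit 5) (nat_lit 3) (nat_lit 4) (nat_lit 1) (nat_lit 4) (nat_lit 377) (nat_lit 269) (nat_lit 254)) (XT.nd (nat_lit 78) (nat_lit 0) (nat_lit 0) (XT.lf (nat_lit 0) (nat_lit 155172279269) (nat_lit 152) (nat_lit 54330219320) (nat_lit 0) (nat_lit 154431751166) (nat_lit 1) (nat_lit 5) (nat_lit 3) (nat_lit 4) (nat_lit 1) (nat_lit 4) (nat_lit 378) (nat_lit 269) (nat_lit 253)) (XT.lf (nat_lit 0) (nat_lit 169428478058) (nat_lit 152) (nat_lit 54800848920) (nat_lit 0) (nat_lit 168665338566) (nat_lit 1) (nat_lit 5) (nat_lit 3) (nat_lit 4) (nat_lit 1) (nat_lit 4) (nat_lit 379) (nat_lit 269) (nat_lit 252)))))) (XT.nd (nat_lit 312) (nat_lit 0) (nat_lit 0) (XT.nd (nat_lit 156) (nat_lit 0) (nat_lit 0) (XT.nd (nat_lit 78) (nat_lit 0) (nat_lit 0) (XT.lf (nat_lit 0) (nat_lit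 184773830552) (nat_lit 152) (nat_lit 55412443174) (nat_lit 0) (nat_lit 183989754588) (nat_lit 1) (nat_lit 5) (nat_lit 3) (nat_lit 4) (nat_lit 1) (nat_lit 4) (nat_lit 380) (nat_lit 269) (nat_lit 251)) (XT.lf (nat_lit 0) (nat_lit 201299272171) (nat_lit 152) (nat_lit 56168626345) (nat_lit 0) (nat_lit 200495810585) (nat_lit 1) (nat_lit 5) (nat_lit 3) (nat_lit 4) (nat_lit 1) (nat_lit 4) (nat_lit 381) (nat_lit 269) (nat_lit 250))) (XT.nd (nat_lit 78) (nat_lit 0) (nat_lit 0) (XT.lf (nat_lit 0) (nat_lit 219102731460) (nat_lit 152) (nat_lit 57073879517) (nat_lit 0) (nat_lit 218281320224) (nat_lit 1) (nat_lit 5) (nat_lit 3) (nat_lit 4) (nat_lit 1) (nat_lit 4) (nat_lit 382) (nat_lit 269) (nat_lit 249)) (XT.lf (nat_lit 0) (nat_lit 238289710398) (nat_lit 152) (nat_lit 58133567154) (nat_lit 0) (nat_lit 237451679117) (nat_lit 1) (nat_lit 5) (nat_lit 3) (nat_lit 4) (nat_lit 1) (nat_lit 4) (nat_lit 383)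 (nat_lit 269) (nat_lit 248)))) (XT.nd (nat_lit 156) (nat_lit 0) (nat_lit 0) (XT.nd (nat_lit 78) (nat_lit 0) (nat_lit 0) (XT.lf (nat_lit 0) (nat_lit 258973909603) (nat_lit 152) (nat_lit 59353968887) (nat_lit 0) (nat_lit 258120489390) (nat_lit 1) (nat_lit 5) (nat_lit 3) (nat_lit 4) (nat_lit 1) (nat_lit 4) (nat_lit 384) (nat_lit 269) (nat_lit 247)) (XT.lf (nat_lit 0) (nat_lit 281277902106) (nat_lit 152) (nat_lit 60742316725) (nat_lit 0) (nat_lit 280410232882) (nat_lit 1) (nat_lit 5) (nat_lit 3) (nat_lit 4) (nat_lit 1) (nat_lit 4) (nat_lit 385) (nat_lit 269) (nat_lit 246))) (XT.nd (nat_lit 78) (nat_lit 0) (nat_lit 0) (XT.lf (nat_lit 0) (nat_lit 305333859715) (nat_lit 152) (nat_lit 62306837916) (nat_lit 0) (nat_lit 304452996962) (nat_lit 1) (nat_lit 5) (nat_lit 3) (nat_lit 4) (nat_lit 1) (nat_lit 4) (nat_lit 386) (nat_lit 269) (nat_lit 245)) (XT.nd (nat_lit 78) (nat_lit 0) (nat_lit 0) (XT.lf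 (nat_lit 0) (nat_lit 331284336252) (nat_lit 152) (nat_lit 64056803695) (nat_lit 0) (nat_lit 330391257270) (nat_lit 1) (nat_lit 5) (nat_lit 3) (nat_lit 4) (nat_lit 1) (nat_lit 4) (nat_lit 387) (nat_lit 269) (nat_lit 244)) (XT.lf (nat_lit 0) (nat_lit 359283112320) (nat_lit 152) (nat_lit 66002584232) (nat_lit 0) (nat_lit 358378722013) (nat_lit 1) (nat_lit 5) (nat_lit 3) (nat_lit 4) (nat_lit 1) (nat_lit 4) (nat_lit 388) (nat_lit 269) (nat_lit 243))))))) (XT.nd (nat_lit 702) (nat_lit 0) (nat_lit 0) (XT.nd (nat_lit 312) (nat_lit 0) (nat_lit 0) (XT.nd (nat_lit 156) (nat_lit 0) (nat_lit 0) (XT.nd (nat_lit 78) (nat_lit 0) (nat_lit 0) (XT.lf (nat_lit 0) (nat_lit 389496106591) (nat_lit 152) (nat_lit 68155710075) (nat_lit 0) (nat_lit 388581242836) (nat_lit 1) (nat_lit 5) (nat_lit 3) (nat_lit 4) (nat_lit 1) (nat_lit 4) (nat_lit 389) (nat_lit 269) (nat_lit 242)) (XT.lf (nat_lit 0) (nat_lit 422102359032)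 (nat_lit 152) (nat_lit 70528940491) (nat_lit 0) (nat_lit 421177797640) (nat_lit 1) (nat_lit 5) (nat_lit 3) (nat_lit 4) (nat_lit 1) (nat_lit 4) (nat_lit 390) (nat_lit 269) (nat_lit 241))) (XT.nd (nat_lit 78) (nat_lit 0) (nat_lit 0) (XT.lf (nat_lit 0) (nat_lit 457295091879) (nat_lit 152) (nat_lit 73136339067) (nat_lit 0) (nat_lit 456361551192) (nat_lit 1) (nat_lit 5) (nat_lit 3) (nat_lit 4) (nat_lit 1) (nat_lit 4) (nat_lit 391) (nat_lit 269) (nat_lit 240)) (XT.lf (nat_lit 0) (nat_lit 495282854659) (nat_lit 152) (nat_lit 75993357053) (nat_lit 0) (nat_lit 494340999812) (nat_lit 1) (nat_lit 5) (nat_lit 3) (nat_lit 4) (nat_lit 1) (nat_lit 4) (nat_lit 392) (nat_lit 269) (nat_lit 239)))) (XT.nd (nat_lit 156) (nat_lit 0) (nat_lit 0) (XT.nd (nat_lit 78) (nat_lit 0) (nat_lit 0) (XT.lf (nat_lit 0) (nat_lit 536290760042) (nat_lit 152) (nat_lit 79116924927) (nat_lit 0) (nat_lit 535341206898) (nat_lit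 1) (nat_lit 5) (nat_lit 3) (nat_lit 4) (nat_lit 1) (nat_lit 4) (nat_lit 393) (nat_lit 269) (nat_lit 238)) (XT.lf (nat_lit 0) (nat_lit 580561817838) (nat_lit 152) (nat_lit 82525552720) (nat_lit 0) (nat_lit 579605136640) (nat_lit 1) (nat_lit 5) (nat_lit 3) (nat_lit 4) (nat_lit 1) (nat_lit 4) (nat_lit 394) (nat_lit 269) (nat_lit 237))) (XT.nd (nat_lit 78) (nat_lit 0) (nat_lit 0) (XT.lf (nat_lit 0) (nat_lit 628358375054) (nat_lit 152) (nat_lit 86239439708) (nat_lit 0) (nat_lit 627395093808) (nat_lit 1) (nat_lit 5) (nat_lit 3) (nat_lit 4) (nat_lit 1) (nat_lit 4) (nat_lit 395) (nat_lit 269) (nat_lit 236)) (XT.nd (nat_lit 78) (nat_lit 0) (nat_lit 0) (XT.lf (nat_lit 0) (nat_lit 679963670549) (nat_lit 152) (nat_lit 90280594111) (nat_lit 0) (nat_lit 678994278146) (nat_lit 1) (nat_lit 5) (nat_lit 3) (nat_lit 4) (nat_lit 1) (nat_lit 4) (nat_lit 396) (nat_lit 269) (nat_lit 235)) (XT.lf (nat_lit 0)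 (nat_lit 735683513482) (nat_lit 152) (nat_lit 94672963509) (nat_lit 0) (nat_lit 734708462601) (nat_lit 1) (nat_lit 5) (nat_lit 3) (nat_lit 4) (nat_lit 1) (nat_lit 4) (nat_lit 397) (nat_lit 269) (nat_lit 234)))))) (XT.nd (nat_lit 312) (nat_lit 0) (nat_lit 0) (XT.nd (nat_lit 156) (nat_lit 0) (nat_lit 0) (XT.nd (nat_lit 78) (nat_lit 0) (nat_lit 0) (XT.lf (nat_lit 0) (nat_lit 795848095513) (nat_lit 152) (nat_lit 99442576759) (nat_lit 0) (nat_lit 794867805300) (nat_lit 1) (nat_lit 5) (nat_lit 3) (nat_lit 4) (nat_lit 1) (nat_lit 4) (nat_lit 398) (nat_lit 269) (nat_lit 233)) (XT.lf (nat_lit 0) (nat_lit 860813947500) (nat_lit 152) (nat_lit 104617698236) (nat_lit 0) (nat_lit 859828806054) (nat_lit 1) (nat_lit 5) (nat_lit 3) (nat_lit 4) (nat_lit 1) (nat_lit 4) (nat_lit 399) (nat_lit 269) (nat_lit 232))) (XT.nd (nat_lit 78) (nat_lit 0) (nat_lit 0) (XT.lf (nat_lit 0) (nat_lit 930966052270) (nat_lit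 152) (nat_lit 110228995325) (nat_lit 0) (nat_lit 929976418941) (nat_lit 1) (nat_lit 5) (nat_lit 3) (nat_lit 4) (nat_lit 1) (nat_lit 4) (nat_lit 400) (nat_lit 269) (nat_lit 231)) (XT.lf (nat_lit 0) (nat_lit 1006720125997) (nat_lit 152) (nat_lit 116309720159) (nat_lit 0) (nat_lit 1005726333519) (nat_lit 1) (nat_lit 5) (nat_lit 3) (nat_lit 4) (nat_lit 1) (nat_lit 4) (nat_lit 401) (nat_lit 269) (nat_lit 230)))) (XT.nd (nat_lit 156) (nat_lit 0) (nat_lit 0) (XT.nd (nat_lit 78) (nat_lit 0) (nat_lit 0) (XT.lf (nat_lit 0) (nat_lit 1088525081713) (nat_lit 152) (nat_lit 122895906661) (nat_lit 0) (nat_lit 1087527438170) (nat_lit 1) (nat_lit 5) (nat_lit 3) (nat_lit 4) (nat_lit 1) (nat_lit 4) (nat_lit 402) (nat_lit 269) (nat_lit 229)) (XT.lf (nat_lit 0) (nat_lit 1176865689526) (nat_lit 152) (nat_lit 130026584086) (nat_lit 0) (nat_lit 1175864480181) (nat_lit 1) (nat_lit 5) (nat_lit 3) (nat_lit 4) (nat_lit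 1) (nat_lit 4) (nat_lit 403) (nat_lit 269) (nat_lit 228))) (XT.nd (nat_lit 78) (nat_lit 0) (nat_lit 0) (XT.lf (nat_lit 0) (nat_lit 1272265449332) (nat_lit 152) (nat_lit 137744008299) (nat_lit 0) (nat_lit 1271260938319) (nat_lit 1) (nat_lit 5) (nat_lit 3) (nat_lit 4) (nat_lit 1) (nat_lit 4) (nat_lit 404) (nat_lit 269) (nat_lit 227)) (XT.nd (nat_lit 78) (nat_lit 0) (nat_lit 0) (XT.lf (nat_lit 0) (nat_lit 1375289693042) (nat_lit 152) (nat_lit 146093912185) (nat_lit 0) (nat_lit 1374282124930) (nat_lit 1) (nat_lit 5) (nat_lit 3) (nat_lit 4) (nat_lit 1) (nat_lit 4) (nat_lit 405) (nat_lit 269) (nat_lit 226)) (XT.lf (nat_lit 0) (nat_lit 1486548934694) (nat_lit 152) (nat_lit 155125776655) (nat_lit 0) (nat_lit 1485538535933) (nat_lit 1) (nat_lit 5) (nat_lit 3) (nat_lit 4) (nat_lit 1) (nat_lit 4) (nat_lit 406) (nat_lit 269) (nat_lit 225))))))))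
noncomputable def xc23 : XT := (XT.nd (nat_lit 43758) (nat_lit 0) (nat_lit 0) (XT.nd (nat_lit 702) (nat_lit 0) (nat_lit 0) (XT.nd (nat_lit 312) (nat_lit 0) (nat_lit 0) (XT.nd (nat_lit 156) (nat_lit 0) (nat_lit 0) (XT.nd (nat_lit 78) (nat_lit 0) (nat_lit 0) (XT.lf (nat_lit 0) (nat_lit 1606702488310) (nat_lit 152) (nat_lit 164893123869) (nat_lit 0) (nat_lit 1605689468580) (nat_lit 1) (nat_lit 5) (nat_lit 3) (nat_lit 4) (nat_lit 1) (nat_lit 4) (nat_lit 407) (nat_lit 269) (nat_lit 224)) (XT.lf (nat_lit 0) (nat_lit 1736462374951) (nat_lit 152) (nat_lit 175453834404) (nat_lit 0) (nat_lit 1735446928397) (nat_lit 1) (nat_lit 5) (nat_lit 3) (nat_lit 4) (nat_lit 1) (nat_lit 4) (nat_lit 408) (nat_lit 269) (nat_lit 223))) (XT.nd (nat_lit 78) (nat_lit 0) (nat_lit 0) (XT.lf (nat_lit 0) (nat_lit 1876597542093) (nat_lit 152) (nat_lit 186870490248) (nat_lit 0) (nat_lit 1875579848478) (nat_lit 1) (nat_lit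 5) (nat_lit 3) (nat_lit 4) (nat_lit 1) (nat_lit 4) (nat_lit 409) (nat_lit 269) (nat_lit 222)) (XT.lf (nat_lit 0) (nat_lit 2027938420354) (nat_lit 152) (nat_lit 199210745658) (nat_lit 0) (nat_lit 2026918646129) (nat_lit 1) (nat_lit 5) (nat_lit 3) (nat_lit 4) (nat_lit 1) (nat_lit 4) (nat_lit 410) (nat_lit 269) (nat_lit 221)))) (XT.nd (nat_lit 156) (nat_lit 0) (nat_lit 0) (XT.nd (nat_lit 78) (nat_lit 0) (nat_lit 0) (XT.lf (nat_lit 0) (nat_lit 2191381844571) (nat_lit 152) (nat_lit 212547728073) (nat_lit 0) (nat_lit 2190360143855) (nat_lit 1) (nat_lit 5) (nat_lit 3) (nat_lit 4) (nat_lit 1) (nat_lit 4) (nat_lit 411) (nat_lit 269) (nat_lit 220)) (XT.lf (nat_lit 0) (nat_lit 2367896368367) (nat_lit 152) (nat_lit 226960471462) (nat_lit 0) (nat_lit 2366872883862) (nat_lit 1) (nat_lit 5) (nat_lit 3) (nat_lit 4) (nat_lit 1) (nat_lit 4) (nat_lit 412) (nat_lit 269) (nat_lit 219))) (XT.nd (nat_lit 78)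 (nat_lit 0) (nat_lit 0) (XT.lf (nat_lit 0) (nat_lit 2558528003736) (nat_lit 152) (nat_lit 242534384677) (nat_lit 0) (nat_lit 2557502867575) (nat_lit 1) (nat_lit 5) (nat_lit 3) (nat_lit 4) (nat_lit 1) (nat_lit 4) (nat_lit 413) (nat_lit 269) (nat_lit 218)) (XT.nd (nat_lit 78) (nat_lit 0) (nat_lit 0) (XT.lf (nat_lit 0) (nat_lit 2764406419627) (nat_lit 152) (nat_lit 259361757572) (nat_lit 0) (nat_lit 2763379754156) (nat_lit 1) (nat_lit 5) (nat_lit 3) (nat_lit 4) (nat_lit 1) (nat_lit 4) (nat_lit 414) (nat_lit 269) (nat_lit 217)) (XT.lf (nat_lit 0) (nat_lit 2986751636284) (nat_lit 152) (nat_lit 277542307914) (nat_lit 0) (nat_lit 2985723554784) (nat_lit 1) (nat_lit 5) (nat_lit 3) (nat_lit 4) (nat_lit 1) (nat_lit 4) (nat_lit 415) (nat_lit 269) (nat_lit 216)))))) (XT.nd (nat_lit 42666) (nat_lit 0) (nat_lit 0) (XT.nd (nat_lit 42510) (nat_lit 0) (nat_lit 0) (XT.nd (nat_lit 78) (nat_lit 0) (nat_lit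 0) (XT.lf (nat_lit 0) (nat_lit 3226881254989) (nat_lit 152) (nat_lit 297183772296) (nat_lit 0) (nat_lit 3225851862352) (nat_lit 1) (nat_lit 5) (nat_lit 3) (nat_lit 4) (nat_lit 1) (nat_lit 4) (nat_lit 416) (nat_lit 269) (nat_lit 215)) (XT.lf (nat_lit 0) (nat_lit 3486218266077) (nat_lit 152) (nat_lit 318402544582) (nat_lit 0) (nat_lit 3485187659423) (nat_lit 1) (nat_lit 5) (nat_lit 3) (nat_lit 4) (nat_lit 1) (nat_lit 4) (nat_lit 417) (nat_lit 269) (nat_lit 214))) (XT.nd (nat_lit 78) (nat_lit 0) (nat_lit 0) (XT.lf (nat_lit 0) (nat_lit 5696079462) (nat_lit 152) (nat_lit 35278977061) (nat_lit 0) (nat_lit 5696079462) (nat_lit 1) (nat_lit 5) (nat_lit 3) (nat_lit 4) (nat_lit 1) (nat_lit 4) (nat_lit 360) (nat_lit 270) (nat_lit 270)) (XT.lf (nat_lit 0) (nat_lit 16109327499) (nat_lit 152) (nat_lit 68362487989) (nat_lit 0) (nat_lit 16025664951) (nat_lit 1) (nat_lit 5) (nat_lit 3) (nat_lit 4) (nat_lit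 1) (nat_lit 4) (nat_lit 361) (nat_lit 270) (nat_lit 269)))) (XT.nd (nat_lit 156) (nat_lit 0) (nat_lit 0) (XT.nd (nat_lit 78) (nat_lit 0) (nat_lit 0) (XT.lf (nat_lit 0) (nat_lit 21013902497) (nat_lit 152) (nat_lit 66373649289) (nat_lit 0) (nat_lit 20852774625) (nat_lit 1) (nat_lit 5) (nat_lit 3) (nat_lit 4) (nat_lit 1) (nat_lit 4) (nat_lit 362) (nat_lit 270) (nat_lit 268)) (XT.lf (nat_lit 0) (nat_lit 26134948064) (nat_lit 152) (nat_lit 64579652312) (nat_lit 0) (nat_lit 25902093042) (nat_lit 1) (nat_lit 5) (nat_lit 3) (nat_lit 4) (nat_lit 1) (nat_lit 4) (nat_lit 363) (nat_lit 270) (nat_lit 267))) (XT.nd (nat_lit 78) (nat_lit 0) (nat_lit 0) (XT.lf (nat_lit 0) (nat_lit 31502811139) (nat_lit 152) (nat_lit 62969865964) (nat_lit 0) (nat_lit 31203542088) (nat_lit 1) (nat_lit 5) (nat_lit 3) (nat_lit 4) (nat_lit 1) (nat_lit 4) (nat_lit 364) (nat_lit 270) (nat_lit 266)) (XT.nd (nat_lit 78) (nat_lit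 0) (nat_lit 0) (XT.lf (nat_lit 0) (nat_lit 37149301280) (nat_lit 152) (nat_lit 61534750770) (nat_lit 0) (nat_lit 36788537758) (nat_lit 1) (nat_lit 5) (nat_lit 3) (nat_lit 4) (nat_lit 1) (nat_lit 4) (nat_lit 365) (nat_lit 270) (nat_lit 265)) (XT.lf (nat_lit 0) (nat_lit 43107879169) (nat_lit 152) (nat_lit 60265802345) (nat_lit 0) (nat_lit 42690176322) (nat_lit 1) (nat_lit 5) (nat_lit 3) (nat_lit 4) (nat_lit 1) (nat_lit 4) (nat_lit 366) (nat_lit 270) (nat_lit 264))))))) (XT.nd (nat_lit 702) (nat_lit 0) (nat_lit 0) (XT.nd (nat_lit 312) (nat_lit 0) (nat_lit 0) (XT.nd (nat_lit 156) (nat_lit 0) (nat_lit 0) (XT.nd (nat_lit 78) (nat_lit 0) (nat_lit 0) (XT.lf (nat_lit 0) (nat_lit 49413854898) (nat_lit 152) (nat_lit 59155500994) (nat_lit 0) (nat_lit 48943430454) (nat_lit 1) (nat_lit 5) (nat_lit 3) (nat_lit 4) (nat_lit 1) (nat_lit 4) (nat_lit 367) (nat_lit 270) (nat_lit 263)) (XT.lf (nat_lit 0) (nat_lit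 56104597211) (nat_lit 152) (nat_lit 58197267153) (nat_lit 0) (nat_lit 55585356473) (nat_lit 1) (nat_lit 5) (nat_lit 3) (nat_lit 4) (nat_lit 1) (nat_lit 4) (nat_lit 368) (nat_lit 270) (nat_lit 262))) (XT.nd (nat_lit 78) (nat_lit 0) (nat_lit 0) (XT.lf (nat_lit 0) (nat_lit 63219754952) (nat_lit 152) (nat_lit 57385422399) (nat_lit 0) (nat_lit 62655313943) (nat_lit 1) (nat_lit 5) (nat_lit 3) (nat_lit 4) (nat_lit 1) (nat_lit 4) (nat_lit 369) (nat_lit 270) (nat_lit 261)) (XT.lf (nat_lit 0) (nat_lit 70801492019) (nat_lit 152) (nat_lit 56715155802) (nat_lit 0) (nat_lit 70195198906) (nat_lit 1) (nat_lit 5) (nat_lit 3) (nat_lit 4) (nat_lit 1) (nat_lit 4) (nat_lit 370) (nat_lit 270) (nat_lit 260)))) (XT.nd (nat_lit 156) (nat_lit 0) (nat_lit 0) (XT.nd (nat_lit 78) (nat_lit 0) (nat_lit 0) (XT.lf (nat_lit 0) (nat_lit 78894737223) (nat_lit 152) (nat_lit 56182495409) (nat_lit 0) (nat_lit 78249692163)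 (nat_lit 1) (nat_lit 5) (nat_lit 3) (nat_lit 4) (nat_lit 1) (nat_lit 4) (nat_lit 371) (nat_lit 270) (nat_lit 259)) (XT.lf (nat_lit 0) (nat_lit 87547450538) (nat_lit 152) (nat_lit 55784284717) (nat_lit 0) (nat_lit 86866524044) (nat_lit 1) (nat_lit 5) (nat_lit 3) (nat_lit 4) (nat_lit 1) (nat_lit 4) (nat_lit 372) (nat_lit 270) (nat_lit 258))) (XT.nd (nat_lit 78) (nat_lit 0) (nat_lit 0) (XT.lf (nat_lit 0) (nat_lit 96810907299) (nat_lit 152) (nat_lit 55518163956) (nat_lit 0) (nat_lit 96096757257) (nat_lit 1) (nat_lit 5) (nat_lit 3) (nat_lit 4) (nat_lit 1) (nat_lit 4) (nat_lit 373) (nat_lit 270) (nat_lit 257)) (XT.nd (nat_lit 78) (nat_lit 0) (nat_lit 0) (XT.lf (nat_lit 0) (nat_lit 106740002068) (nat_lit 152) (nat_lit 55382556117) (nat_lit 0) (nat_lit 105995089479) (nat_lit 1) (nat_lit 5) (nat_lit 3) (nat_lit 4) (nat_lit 1) (nat_lit 4) (nat_lit 374) (nat_lit 270) (nat_lit 256)) (XT.lf (nat_lit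 0) (nat_lit 117393573922) (nat_lit 152) (nat_lit 55376657595) (nat_lit 0) (nat_lit 116620177495) (nat_lit 1) (nat_lit 5) (nat_lit 3) (nat_lit 4) (nat_lit 1) (nat_lit 4) (nat_lit 375) (nat_lit 270) (nat_lit 255)))))) (XT.nd (nat_lit 312) (nat_lit 0) (nat_lit 0) (XT.nd (nat_lit 156) (nat_lit 0) (nat_lit 0) (XT.nd (nat_lit 78) (nat_lit 0) (nat_lit 0) (XT.lf (nat_lit 0) (nat_lit 128834755140) (nat_lit 152) (nat_lit 55500433438) (nat_lit 0) (nat_lit 128034984789) (nat_lit 1) (nat_lit 5) (nat_lit 3) (nat_lit 4) (nat_lit 1) (nat_lit 4) (nat_lit 376) (nat_lit 270) (nat_lit 254)) (XT.lf (nat_lit 0) (nat_lit 141131345315) (nat_lit 152) (nat_lit 55754617132) (nat_lit 0) (nat_lit 140307154663) (nat_lit 1) (nat_lit 5) (nat_lit 3) (nat_lit 4) (nat_lit 1) (nat_lit 4) (nat_lit 377) (nat_lit 270) (nat_lit 253))) (XT.nd (nat_lit 78) (nat_lit 0) (nat_lit 0) (XT.lf (nat_lit 0) (nat_lit 154356213129) (nat_lit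 152) (nat_lit 56140714950) (nat_lit 0) (nat_lit 153509411088) (nat_lit 1) (nat_lit 5) (nat_lit 3) (nat_lit 4) (nat_lit 1) (nat_lit 4) (nat_lit 378) (nat_lit 270) (nat_lit 252)) (XT.lf (nat_lit 0) (nat_lit 168587728169) (nat_lit 152) (nat_lit 56661014880) (nat_lit 0) (nat_lit 167719989656) (nat_lit 1) (nat_lit 5) (nat_lit 3) (nat_lit 4) (nat_lit 1) (nat_lit 4) (nat_lit 379) (nat_lit 270) (nat_lit 251)))) (XT.nd (nat_lit 156) (nat_lit 0) (nat_lit 0) (XT.nd (nat_lit 78) (nat_lit 0) (nat_lit 0) (XT.lf (nat_lit 0) (nat_lit 183910225338) (nat_lit 152) (nat_lit 57318600180) (nat_lit 0) (nat_lit 183023101204) (nat_lit 1) (nat_lit 5) (nat_lit 3) (nat_lit 4) (nat_lit 1) (nat_lit 4) (nat_lit 380) (nat_lit 270) (nat_lit 250)) (XT.lf (nat_lit 0) (nat_lit 200414504621) (nat_lit 152) (nat_lit 58117367653) (nat_lit 0) (nat_lit 199509430837) (nat_lit 1) (nat_lit 5) (nat_lit 3) (nat_lit 4) (nat_lit 1)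 (nat_lit 4) (nat_lit 381) (nat_lit 270) (nat_lit 249))) (XT.nd (nat_lit 78) (nat_lit 0) (nat_lit 0) (XT.lf (nat_lit 0) (nat_lit 218198369153) (nat_lit 152) (nat_lit 59062050734) (nat_lit 0) (nat_lit 217276675323) (nat_lit 1) (nat_lit 5) (nat_lit 3) (nat_lit 4) (nat_lit 1) (nat_lit 4) (nat_lit 382) (nat_lit 270) (nat_lit 248)) (XT.nd (nat_lit 78) (nat_lit 0) (nat_lit 0) (XT.lf (nat_lit 0) (nat_lit 237367204799) (nat_lit 152) (nat_lit 60158247547) (nat_lit 0) (nat_lit 236430122037) (nat_lit 1) (nat_lit 5) (nat_lit 3) (nat_lit 4) (nat_lit 1) (nat_lit 4) (nat_lit 383) (nat_lit 270) (nat_lit 247)) (XT.lf (nat_lit 0) (nat_lit 258034604659) (nat_lit 152) (nat_lit 61412454071) (nat_lit 0) (nat_lit 257083272886) (nat_lit 1) (nat_lit 5) (nat_lit 3) (nat_lit 4) (nat_lit 1) (nat_lit 4) (nat_lit 384) (nat_lit 270) (nat_lit 246))))))))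
noncomputable def xc24 : XT := (XT.nd (nat_lit 1404) (nat_lit 0) (nat_lit 0) (XT.nd (nat_lit 702) (nat_lit 0) (nat_lit 0) (XT.nd (nat_lit 312) (nat_lit 0) (nat_lit 0) (XT.nd (nat_lit 156) (nat_lit 0) (nat_lit 0) (XT.nd (nat_lit 78) (nat_lit 0) (nat_lit 0) (XT.lf (nat_lit 0) (nat_lit 280323042213) (nat_lit 152) (nat_lit 62832102643) (nat_lit 0) (nat_lit 279358516911) (nat_lit 1) (nat_lit 5) (nat_lit 3) (nat_lit 4) (nat_lit 1) (nat_lit 4) (nat_lit 385) (nat_lit 270) (nat_lit 245)) (XT.lf (nat_lit 0) (nat_lit 304364597091) (nat_lit 152) (nat_lit 64425605994) (nat_lit 0) (nat_lit 303387855559) (nat_lit 1) (nat_lit 5) (nat_lit 3) (nat_lit 4) (nat_lit 1) (nat_lit 4) (nat_lit 386) (nat_lit 270) (nat_lit 244))) (XT.nd (nat_lit 78) (nat_lit 0) (nat_lit 0) (XT.lf (nat_lit 0) (nat_lit 330301737766) (nat_lit 152) (nat_lit 66202407107) (nat_lit 0) (nat_lit 329313684911) (nat_lit 1) (nat_lit 5) (nat_lit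 3) (nat_lit 4) (nat_lit 1) (nat_lit 4) (nat_lit 387) (nat_lit 270) (nat_lit 243)) (XT.lf (nat_lit 0) (nat_lit 358288165814) (nat_lit 152) (nat_lit 68173035175) (nat_lit 0) (nat_lit 357289639510) (nat_lit 1) (nat_lit 5) (nat_lit 3) (nat_lit 4) (nat_lit 1) (nat_lit 4) (nat_lit 388) (nat_lit 270) (nat_lit 242)))) (XT.nd (nat_lit 156) (nat_lit 0) (nat_lit 0) (XT.nd (nat_lit 78) (nat_lit 0) (nat_lit 0) (XT.lf (nat_lit 0) (nat_lit 388489726733) (nat_lit 152) (nat_lit 70349167992) (nat_lit 0) (nat_lit 387481502792) (nat_lit 1) (nat_lit 5) (nat_lit 3) (nat_lit 4) (nat_lit 1) (nat_lit 4) (nat_lit 389) (nat_lit 270) (nat_lit 241)) (XT.lf (nat_lit 0) (nat_lit 421085392736) (nat_lit 152) (nat_lit 72743701161) (nat_lit 0) (nat_lit 420068189501) (nat_lit 1) (nat_lit 5) (nat_lit 3) (nat_lit 4) (nat_lit 1) (nat_lit 4) (nat_lit 390) (nat_lit 270) (nat_lit 240))) (XT.nd (nat_lit 78) (nat_lit 0) (nat_lit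 0) (XT.lf (nat_lit 0) (nat_lit 456268323326) (nat_lit 152) (nat_lit 75370824508) (nat_lit 0) (nat_lit 455242805930) (nat_lit 1) (nat_lit 5) (nat_lit 3) (nat_lit 4) (nat_lit 1) (nat_lit 4) (nat_lit 391) (nat_lit 270) (nat_lit 239)) (XT.nd (nat_lit 78) (nat_lit 0) (nat_lit 0) (XT.lf (nat_lit 0) (nat_lit 494247009944) (nat_lit 152) (nat_lit 78246106171) (nat_lit 0) (nat_lit 493213794251) (nat_lit 1) (nat_lit 5) (nat_lit 3) (nat_lit 4) (nat_lit 1) (nat_lit 4) (nat_lit 392) (nat_lit 270) (nat_lit 238)) (XT.lf (nat_lit 0) (nat_lit 535246511472) (nat_lit 152) (nat_lit 81386584857) (nat_lit 0) (nat_lit 534206167726) (nat_lit 1) (nat_lit 5) (nat_lit 3) (nat_lit 4) (nat_lit 1) (nat_lit 4) (nat_lit 393) (nat_lit 270) (nat_lit 237)))))) (XT.nd (nat_lit 312) (nat_lit 0) (nat_lit 0) (XT.nd (nat_lit 156) (nat_lit 0) (nat_lit 0) (XT.nd (nat_lit 78) (nat_lit 0) (nat_lit 0) (XT.lf (nat_lit 0) (nat_lit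 579509787919) (nat_lit 152) (nat_lit 84810870810) (nat_lit 0) (nat_lit 578462844124) (nat_lit 1) (nat_lit 5) (nat_lit 3) (nat_lit 4) (nat_lit 1) (nat_lit 4) (nat_lit 394) (nat_lit 270) (nat_lit 236)) (XT.lf (nat_lit 0) (nat_lit 627299140185) (nat_lit 152) (nat_lit 88539256094) (nat_lit 0) (nat_lit 626246085233) (nat_lit 1) (nat_lit 5) (nat_lit 3) (nat_lit 4) (nat_lit 1) (nat_lit 4) (nat_lit 395) (nat_lit 270) (nat_lit 235))) (XT.nd (nat_lit 78) (nat_lit 0) (nat_lit 0) (XT.lf (nat_lit 0) (nat_lit 678897764429) (nat_lit 152) (nat_lit 92593834844) (nat_lit 0) (nat_lit 677839050999) (nat_lit 1) (nat_lit 5) (nat_lit 3) (nat_lit 4) (nat_lit 1) (nat_lit 4) (nat_lit 396) (nat_lit 270) (nat_lit 234)) (XT.lf (nat_lit 0) (nat_lit 734611430277) (nat_lit 152) (nat_lit 96998634194) (nat_lit 0) (nat_lit 733547477515) (nat_lit 1) (nat_lit 5) (nat_lit 3) (nat_lit 4) (nat_lit 1) (nat_lit 4) (nat_lit 397)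 (nat_lit 270) (nat_lit 233)))) (XT.nd (nat_lit 156) (nat_lit 0) (nat_lit 0) (XT.nd (nat_lit 78) (nat_lit 0) (nat_lit 0) (XT.lf (nat_lit 0) (nat_lit 794770292786) (nat_lit 152) (nat_lit 101779756659) (nat_lit 0) (nat_lit 793701488791) (nat_lit 1) (nat_lit 5) (nat_lit 3) (nat_lit 4) (nat_lit 1) (nat_lit 4) (nat_lit 398) (nat_lit 270) (nat_lit 232)) (XT.lf (nat_lit 0) (nat_lit 859730848919) (nat_lit 152) (nat_lit 106965534816) (nat_lit 0) (nat_lit 858657553042) (nat_lit 1) (nat_lit 5) (nat_lit 3) (nat_lit 4) (nat_lit 1) (nat_lit 4) (nat_lit 399) (nat_lit 270) (nat_lit 231))) (XT.nd (nat_lit 78) (nat_lit 0) (nat_lit 0) (XT.lf (nat_lit 0) (nat_lit 929878050119) (nat_lit 152) (nat_lit 112586699202) (nat_lit 0) (nat_lit 928800595092) (nat_lit 1) (nat_lit 5) (nat_lit 3) (nat_lit 4) (nat_lit 1) (nat_lit 4) (nat_lit 400) (nat_lit 270) (nat_lit 230)) (XT.nd (nat_lit 78) (nat_lit 0) (nat_lit 0) (XT.lf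 (nat_lit 0) (nat_lit 1005627583506) (nat_lit 152) (nat_lit 118676560421) (nat_lit 0) (nat_lit 1004546277413) (nat_lit 1) (nat_lit 5) (nat_lit 3) (nat_lit 4) (nat_lit 1) (nat_lit 4) (nat_lit 401) (nat_lit 270) (nat_lit 229)) (XT.lf (nat_lit 0) (nat_lit 1087428335202) (nat_lit 152) (nat_lit 125271206540) (nat_lit 0) (nat_lit 1086343463308) (nat_lit 1) (nat_lit 5) (nat_lit 3) (nat_lit 4) (nat_lit 1) (nat_lit 4) (nat_lit 402) (nat_lit 270) (nat_lit 228))))))) (XT.nd (nat_lit 702) (nat_lit 0) (nat_lit 0) (XT.nd (nat_lit 312) (nat_lit 0) (nat_lit 0) (XT.nd (nat_lit 156) (nat_lit 0) (nat_lit 0) (XT.nd (nat_lit 78) (nat_lit 0) (nat_lit 0) (XT.lf (nat_lit 0) (nat_lit 1175765050403) (nat_lit 152) (nat_lit 132409716943) (nat_lit 0) (nat_lit 1174676876842) (nat_lit 1) (nat_lit 5) (nat_lit 3) (nat_lit 4) (nat_lit 1) (nat_lit 4) (nat_lit 403) (nat_lit 270) (nat_lit 227)) (XT.lf (nat_lit 0) (nat_lit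 1271161205940) (nat_lit 152) (nat_lit 140134393913) (nat_lit 0) (nat_lit 1270069975279) (nat_lit 1) (nat_lit 5) (nat_lit 3) (nat_lit 4) (nat_lit 1) (nat_lit 4) (nat_lit 404) (nat_lit 270) (nat_lit 226))) (XT.nd (nat_lit 78) (nat_lit 0) (nat_lit 0) (XT.lf (nat_lit 0) (nat_lit 1374182112364) (nat_lit 152) (nat_lit 148491013315) (nat_lit 0) (nat_lit 1373088051055) (nat_lit 1) (nat_lit 5) (nat_lit 3) (nat_lit 4) (nat_lit 1) (nat_lit 4) (nat_lit 405) (nat_lit 270) (nat_lit 225)) (XT.lf (nat_lit 0) (nat_lit 1485438263935) (nat_lit 152) (nat_lit 157529095856) (nat_lit 0) (nat_lit 1484341581656) (nat_lit 1) (nat_lit 5) (nat_lit 3) (nat_lit 4) (nat_lit 1) (nat_lit 4) (nat_lit 406) (nat_lit 270) (nat_lit 224)))) (XT.nd (nat_lit 156) (nat_lit 0) (nat_lit 0) (XT.nd (nat_lit 78) (nat_lit 0) (nat_lit 0) (XT.lf (nat_lit 0) (nat_lit 1605588956367) (nat_lit 152) (nat_lit 167302200543) (nat_lit 0) (nat_lit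 1604489847263) (nat_lit 1) (nat_lit 5) (nat_lit 3) (nat_lit 4) (nat_lit 1) (nat_lit 4) (nat_lit 407) (nat_lit 270) (nat_lit 223)) (XT.lf (nat_lit 0) (nat_lit 1735346193762) (nat_lit 152) (nat_lit 177868242072) (nat_lit 0) (nat_lit 1734244837599) (nat_lit 1) (nat_lit 5) (nat_lit 3) (nat_lit 4) (nat_lit 1) (nat_lit 4) (nat_lit 408) (nat_lit 270) (nat_lit 222))) (XT.nd (nat_lit 78) (nat_lit 0) (nat_lit 0) (XT.lf (nat_lit 0) (nat_lit 1875478907898) (nat_lit 152) (nat_lit 189289834020) (nat_lit 0) (nat_lit 1874375471124) (nat_lit 1) (nat_lit 5) (nat_lit 3) (nat_lit 4) (nat_lit 1) (nat_lit 4) (nat_lit 409) (nat_lit 270) (nat_lit 221)) (XT.nd (nat_lit 78) (nat_lit 0) (nat_lit 0) (XT.lf (nat_lit 0) (nat_lit 2026817514859) (nat_lit 152) (nat_lit 201634659898) (nat_lit 0) (nat_lit 2025712151594) (nat_lit 1) (nat_lit 5) (nat_lit 3) (nat_lit 4) (nat_lit 1) (nat_lit 4) (nat_lit 410) (nat_lit 270)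 (nat_lit 220)) (XT.lf (nat_lit 0) (nat_lit 2190258836019) (nat_lit 152) (nat_lit 214975874227) (nat_lit 0) (nat_lit 2189151688965) (nat_lit 1) (nat_lit 5) (nat_lit 3) (nat_lit 4) (nat_lit 1) (nat_lit 4) (nat_lit 411) (nat_lit 270) (nat_lit 219)))))) (XT.nd (nat_lit 312) (nat_lit 0) (nat_lit 0) (XT.nd (nat_lit 156) (nat_lit 0) (nat_lit 0) (XT.nd (nat_lit 78) (nat_lit 0) (nat_lit 0) (XT.lf (nat_lit 0) (nat_lit 2366771412540) (nat_lit 152) (nat_lit 229392536056) (nat_lit 0) (nat_lit 2365662613831) (nat_lit 1) (nat_lit 5) (nat_lit 3) (nat_lit 4) (nat_lit 1) (nat_lit 4) (nat_lit 412) (nat_lit 270) (nat_lit 218)) (XT.lf (nat_lit 0) (nat_lit 2557401244877) (nat_lit 152) (nat_lit 244970077455) (nat_lit 0) (nat_lit 2556290916857) (nat_lit 1) (nat_lit 5) (nat_lit 3) (nat_lit 4) (nat_lit 1) (nat_lit 4) (nat_lit 413) (nat_lit 270) (nat_lit 217))) (XT.nd (nat_lit 78) (nat_lit 0) (nat_lit 0) (XT.lf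 (nat_lit 0) (nat_lit 2763277991294) (nat_lit 152) (nat_lit 261800809780) (nat_lit 0) (nat_lit 2762166247245) (nat_lit 1) (nat_lit 5) (nat_lit 3) (nat_lit 4) (nat_lit 1) (nat_lit 4) (nat_lit 414) (nat_lit 270) (nat_lit 216)) (XT.lf (nat_lit 0) (nat_lit 2985621662141) (nat_lit 152) (nat_lit 279984470705) (nat_lit 0) (nat_lit 2984508606955) (nat_lit 1) (nat_lit 5) (nat_lit 3) (nat_lit 4) (nat_lit 1) (nat_lit 4) (nat_lit 415) (nat_lit 270) (nat_lit 215)))) (XT.nd (nat_lit 42354) (nat_lit 0) (nat_lit 0) (XT.nd (nat_lit 78) (nat_lit 0) (nat_lit 0) (XT.lf (nat_lit 0) (nat_lit 3225749849542) (nat_lit 152) (nat_lit 299628815257) (nat_lit 0) (nat_lit 3224635580339) (nat_lit 1) (nat_lit 5) (nat_lit 3) (nat_lit 4) (nat_lit 1) (nat_lit 4) (nat_lit 416) (nat_lit 270) (nat_lit 214)) (XT.lf (nat_lit 0) (nat_lit 3485085535348) (nat_lit 152) (nat_lit 320850254366) (nat_lit 0) (nat_lit 3483970142055) (nat_lit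 1) (nat_lit 5) (nat_lit 3) (nat_lit 4) (nat_lit 1) (nat_lit 4) (nat_lit 417) (nat_lit 270) (nat_lit 213))) (XT.nd (nat_lit 78) (nat_lit 0) (nat_lit 0) (XT.lf (nat_lit 0) (nat_lit 1303027408) (nat_lit 152) (nat_lit 37703874314) (nat_lit 0) (nat_lit 1303027408) (nat_lit 1) (nat_lit 5) (nat_lit 3) (nat_lit 4) (nat_lit 1) (nat_lit 4) (nat_lit 358) (nat_lit 271) (nat_lit 271)) (XT.nd (nat_lit 78) (nat_lit 0) (nat_lit 0) (XT.lf (nat_lit 0) (nat_lit 6924798733) (nat_lit 152) (nat_lit 72973057858) (nat_lit 0) (nat_lit 6834443180) (nat_lit 1) (nat_lit 5) (nat_lit 3) (nat_lit 4) (nat_lit 1) (nat_lit 4) (nat_lit 359) (nat_lit 271) (nat_lit 270)) (XT.lf (nat_lit 0) (nat_lit 11383877732) (nat_lit 152) (nat_lit 70756437729) (nat_lit 0) (nat_lit 11209859631) (nat_lit 1) (nat_lit 5) (nat_lit 3) (nat_lit 4) (nat_lit 1) (nat_lit 4) (nat_lit 360) (nat_lit 271) (nat_lit 269))))))))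
noncomputable def xc25 : XT := (XT.nd (nat_lit 1404) (nat_lit 0) (nat_lit 0) (XT.nd (nat_lit 702) (nat_lit 0) (nat_lit 0) (XT.nd (nat_lit 312) (nat_lit 0) (nat_lit 0) (XT.nd (nat_lit 156) (nat_lit 0) (nat_lit 0) (XT.nd (nat_lit 78) (nat_lit 0) (nat_lit 0) (XT.lf (nat_lit 0) (nat_lit 16009715988) (nat_lit 152) (nat_lit 68744752713) (nat_lit 0) (nat_lit 15758232564) (nat_lit 1) (nat_lit 5) (nat_lit 3) (nat_lit 4) (nat_lit 1) (nat_lit 4) (nat_lit 361) (nat_lit 271) (nat_lit 268)) (XT.lf (nat_lit 0) (nat_lit 20829725875) (nat_lit 152) (nat_lit 66926081714) (nat_lit 0) (nat_lit 20506515300) (nat_lit 1) (nat_lit 5) (nat_lit 3) (nat_lit 4) (nat_lit 1) (nat_lit 4) (nat_lit 362) (nat_lit 271) (nat_lit 267))) (XT.nd (nat_lit 78) (nat_lit 0) (nat_lit 0) (XT.lf (nat_lit 0) (nat_lit 25872470415) (nat_lit 152) (nat_lit 65289647423) (nat_lit 0) (nat_lit 25482845811) (nat_lit 1) (nat_lit 5) (nat_lit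 3) (nat_lit 4) (nat_lit 1) (nat_lit 4) (nat_lit 363) (nat_lit 271) (nat_lit 266)) (XT.lf (nat_lit 0) (nat_lit 31167832538) (nat_lit 152) (nat_lit 63825752451) (nat_lit 0) (nat_lit 30716713463) (nat_lit 1) (nat_lit 5) (nat_lit 3) (nat_lit 4) (nat_lit 1) (nat_lit 4) (nat_lit 364) (nat_lit 271) (nat_lit 265)))) (XT.nd (nat_lit 156) (nat_lit 0) (nat_lit 0) (XT.nd (nat_lit 78) (nat_lit 0) (nat_lit 0) (XT.lf (nat_lit 0) (nat_lit 36747192167) (nat_lit 152) (nat_lit 62525721865) (nat_lit 0) (nat_lit 36239133768) (nat_lit 1) (nat_lit 5) (nat_lit 3) (nat_lit 4) (nat_lit 1) (nat_lit 4) (nat_lit 365) (nat_lit 271) (nat_lit 264)) (XT.lf (nat_lit 0) (nat_lit 42643612176) (nat_lit 152) (nat_lit 61381851781) (nat_lit 0) (nat_lit 42082832180) (nat_lit 1) (nat_lit 5) (nat_lit 3) (nat_lit 4) (nat_lit 1) (nat_lit 4) (nat_lit 366) (nat_lit 271) (nat_lit 263))) (XT.nd (nat_lit 78) (nat_lit 0) (nat_lit 0) (XT.lf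 (nat_lit 0) (nat_lit 48892034311) (nat_lit 152) (nat_lit 60387363707) (nat_lit 0) (nat_lit 48282438021) (nat_lit 1) (nat_lit 5) (nat_lit 3) (nat_lit 4) (nat_lit 1) (nat_lit 4) (nat_lit 367) (nat_lit 271) (nat_lit 262)) (XT.nd (nat_lit 78) (nat_lit 0) (nat_lit 0) (XT.lf (nat_lit 0) (nat_lit 55529486261) (nat_lit 152) (nat_lit 59536364383) (nat_lit 0) (nat_lit 54874689699) (nat_lit 1) (nat_lit 5) (nat_lit 3) (nat_lit 4) (nat_lit 1) (nat_lit 4) (nat_lit 368) (nat_lit 271) (nat_lit 261)) (XT.lf (nat_lit 0) (nat_lit 62595301072) (nat_lit 152) (nat_lit 58823810849) (nat_lit 0) (nat_lit 61898652407) (nat_lit 1) (nat_lit 5) (nat_lit 3) (nat_lit 4) (nat_lit 1) (nat_lit 4) (nat_lit 369) (nat_lit 271) (nat_lit 260)))))) (XT.nd (nat_lit 312) (nat_lit 0) (nat_lit 0) (XT.nd (nat_lit 156) (nat_lit 0) (nat_lit 0) (XT.nd (nat_lit 78) (nat_lit 0) (nat_lit 0) (XT.lf (nat_lit 0) (nat_lit 70131350241) (nat_lit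 152) (nat_lit 58245480565) (nat_lit 0) (nat_lit 69395949628) (nat_lit 1) (nat_lit 5) (nat_lit 3) (nat_lit 4) (nat_lit 1) (nat_lit 4) (nat_lit 370) (nat_lit 271) (nat_lit 259)) (XT.lf (nat_lit 0) (nat_lit 78182291837) (nat_lit 152) (nat_lit 57797946390) (nat_lit 0) (nat_lit 77411009791) (nat_lit 1) (nat_lit 5) (nat_lit 3) (nat_lit 4) (nat_lit 1) (nat_lit 4) (nat_lit 371) (nat_lit 271) (nat_lit 258))) (XT.nd (nat_lit 78) (nat_lit 0) (nat_lit 0) (XT.lf (nat_lit 0) (nat_lit 86795835143) (nat_lit 152) (nat_lit 57478556268) (nat_lit 0) (nat_lit 85991329547) (nat_lit 1) (nat_lit 5) (nat_lit 3) (nat_lit 4) (nat_lit 1) (nat_lit 4) (nat_lit 372) (nat_lit 271) (nat_lit 257)) (XT.lf (nat_lit 0) (nat_lit 96023023378) (nat_lit 152) (nat_lit 57285417518) (nat_lit 0) (nat_lit 95187755237) (nat_lit 1) (nat_lit 5) (nat_lit 3) (nat_lit 4) (nat_lit 1) (nat_lit 4) (nat_lit 373) (nat_lit 271) (nat_lit 256))))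 (XT.nd (nat_lit 156) (nat_lit 0) (nat_lit 0) (XT.nd (nat_lit 78) (nat_lit 0) (nat_lit 0) (XT.lf (nat_lit 0) (nat_lit 105918536177) (nat_lit 152) (nat_lit 57217385614) (nat_lit 0) (nat_lit 105054784198) (nat_lit 1) (nat_lit 5) (nat_lit 3) (nat_lit 4) (nat_lit 1) (nat_lit 4) (nat_lit 374) (nat_lit 271) (nat_lit 255)) (XT.lf (nat_lit 0) (nat_lit 116541013616) (nat_lit 152) (nat_lit 57274057403) (nat_lit 0) (nat_lit 115650887712) (nat_lit 1) (nat_lit 5) (nat_lit 3) (nat_lit 4) (nat_lit 1) (nat_lit 4) (nat_lit 375) (nat_lit 271) (nat_lit 254))) (XT.nd (nat_lit 78) (nat_lit 0) (nat_lit 0) (XT.lf (nat_lit 0) (nat_lit 127953403709) (nat_lit 152) (nat_lit 57455768719) (nat_lit 0) (nat_lit 127038857505) (nat_lit 1) (nat_lit 5) (nat_lit 3) (nat_lit 4) (nat_lit 1) (nat_lit 4) (nat_lit 376) (nat_lit 271) (nat_lit 253)) (XT.nd (nat_lit 78) (nat_lit 0) (nat_lit 0) (XT.lf (nat_lit 0) (nat_lit 140223335434)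 (nat_lit 152) (nat_lit 57763596369) (nat_lit 0) (nat_lit 139286177841) (nat_lit 1) (nat_lit 5) (nat_lit 3) (nat_lit 4) (nat_lit 1) (nat_lit 4) (nat_lit 377) (nat_lit 271) (nat_lit 252)) (XT.lf (nat_lit 0) (nat_lit 153423519499) (nat_lit 152) (nat_lit 58199364517) (nat_lit 0) (nat_lit 152465425433) (nat_lit 1) (nat_lit 5) (nat_lit 3) (nat_lit 4) (nat_lit 1) (nat_lit 4) (nat_lit 378) (nat_lit 271) (nat_lit 251))))))) (XT.nd (nat_lit 702) (nat_lit 0) (nat_lit 0) (XT.nd (nat_lit 312) (nat_lit 0) (nat_lit 0) (XT.nd (nat_lit 156) (nat_lit 0) (nat_lit 0) (XT.nd (nat_lit 78) (nat_lit 0) (nat_lit 0) (XT.lf (nat_lit 0) (nat_lit 167632179215) (nat_lit 152) (nat_lit 58765655493) (nat_lit 0) (nat_lit 166654699527) (nat_lit 1) (nat_lit 5) (nat_lit 3) (nat_lit 4) (nat_lit 1) (nat_lit 4) (nat_lit 379) (nat_lit 271) (nat_lit 250)) (XT.lf (nat_lit 0) (nat_lit 182933514047) (nat_lit 152) (nat_lit 59465825095)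 (nat_lit 0) (nat_lit 181938084710) (nat_lit 1) (nat_lit 5) (nat_lit 3) (nat_lit 4) (nat_lit 1) (nat_lit 4) (nat_lit 380) (nat_lit 271) (nat_lit 249))) (XT.nd (nat_lit 78) (nat_lit 0) (nat_lit 0) (XT.lf (nat_lit 0) (nat_lit 199418198574) (nat_lit 152) (nat_lit 60304022477) (nat_lit 0) (nat_lit 198406149191) (nat_lit 1) (nat_lit 5) (nat_lit 3) (nat_lit 4) (nat_lit 1) (nat_lit 4) (nat_lit 381) (nat_lit 271) (nat_lit 248)) (XT.lf (nat_lit 0) (nat_lit 217183919813) (nat_lit 152) (nat_lit 61285214733) (nat_lit 0) (nat_lit 216156481499) (nat_lit 1) (nat_lit 5) (nat_lit 3) (nat_lit 4) (nat_lit 1) (nat_lit 4) (nat_lit 382) (nat_lit 271) (nat_lit 247)))) (XT.nd (nat_lit 156) (nat_lit 0) (nat_lit 0) (XT.nd (nat_lit 78) (nat_lit 0) (nat_lit 0) (XT.lf (nat_lit 0) (nat_lit 236335956114) (nat_lit 152) (nat_lit 62415216338) (nat_lit 0) (nat_lit 235294268789) (nat_lit 1) (nat_lit 5) (nat_lit 3) (nat_lit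 4) (nat_lit 1) (nat_lit 4) (nat_lit 383) (nat_lit 271) (nat_lit 246)) (XT.lf (nat_lit 0) (nat_lit 256987801024) (nat_lit 152) (nat_lit 63700723596) (nat_lit 0) (nat_lit 255932920170) (nat_lit 1) (nat_lit 5) (nat_lit 3) (nat_lit 4) (nat_lit 1) (nat_lit 4) (nat_lit 384) (nat_lit 271) (nat_lit 245))) (XT.nd (nat_lit 78) (nat_lit 0) (nat_lit 0) (XT.lf (nat_lit 0) (nat_lit 279261835847) (nat_lit 152) (nat_lit 65149354328) (nat_lit 0) (nat_lit 278194738763) (nat_lit 1) (nat_lit 5) (nat_lit 3) (nat_lit 4) (nat_lit 1) (nat_lit 4) (nat_lit 385) (nat_lit 271) (nat_lit 244)) (XT.nd (nat_lit 78) (nat_lit 0) (nat_lit 0) (XT.lf (nat_lit 0) (nat_lit 303290054864) (nat_lit 152) (nat_lit 66769693013) (nat_lit 0) (nat_lit 302211646455) (nat_lit 1) (nat_lit 5) (nat_lit 3) (nat_lit 4) (nat_lit 1) (nat_lit 4) (nat_lit 386) (nat_lit 271) (nat_lit 243)) (XT.lf (nat_lit 0) (nat_lit 329214847519) (nat_lit 152)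 (nat_lit 68571341657) (nat_lit 0) (nat_lit 328125965662) (nat_lit 1) (nat_lit 5) (nat_lit 3) (nat_lit 4) (nat_lit 1) (nat_lit 4) (nat_lit 387) (nat_lit 271) (nat_lit 242)))))) (XT.nd (nat_lit 312) (nat_lit 0) (nat_lit 0) (XT.nd (nat_lit 156) (nat_lit 0) (nat_lit 0) (XT.nd (nat_lit 78) (nat_lit 0) (nat_lit 0) (XT.lf (nat_lit 0) (nat_lit 357189842214) (nat_lit 152) (nat_lit 70564976698) (nat_lit 0) (nat_lit 356091262721) (nat_lit 1) (nat_lit 5) (nat_lit 3) (nat_lit 4) (nat_lit 1) (nat_lit 4) (nat_lit 388) (nat_lit 271) (nat_lit 241)) (XT.lf (nat_lit 0) (nat_lit 387380816696) (nat_lit 152) (nat_lit 72762412268) (nat_lit 0) (nat_lit 386273257909) (nat_lit 1) (nat_lit 5) (nat_lit 3) (nat_lit 4) (nat_lit 1) (nat_lit 4) (nat_lit 389) (nat_lit 271) (nat_lit 240))) (XT.nd (nat_lit 78) (nat_lit 0) (nat_lit 0) (XT.lf (nat_lit 0) (nat_lit 419966680443) (nat_lit 152) (nat_lit 75176670208) (nat_lit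 0) (nat_lit 418850807495) (nat_lit 1) (nat_lit 5) (nat_lit 3) (nat_lit 4) (nat_lit 1) (nat_lit 4) (nat_lit 390) (nat_lit 271) (nat_lit 239)) (XT.lf (nat_lit 0) (nat_lit 455140534870) (nat_lit 152) (nat_lit 77822057233) (nat_lit 0) (nat_lit 454016963624) (nat_lit 1) (nat_lit 5) (nat_lit 3) (nat_lit 4) (nat_lit 1) (nat_lit 4) (nat_lit 391) (nat_lit 271) (nat_lit 238)))) (XT.nd (nat_lit 156) (nat_lit 0) (nat_lit 0) (XT.nd (nat_lit 78) (nat_lit 0) (nat_lit 0) (XT.lf (nat_lit 0) (nat_lit 493110817632) (nat_lit 152) (nat_lit 80714249708) (nat_lit 0) (nat_lit 491980118333) (nat_lit 1) (nat_lit 5) (nat_lit 3) (nat_lit 4) (nat_lit 1) (nat_lit 4) (nat_lit 392) (nat_lit 271) (nat_lit 237)) (XT.lf (nat_lit 0) (nat_lit 534102537813) (nat_lit 152) (nat_lit 83870386554) (nat_lit 0) (nat_lit 532965238465) (nat_lit 1) (nat_lit 5) (nat_lit 3) (nat_lit 4) (nat_lit 1) (nat_lit 4) (nat_lit 393) (nat_lit 271)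 (nat_lit 236))) (XT.nd (nat_lit 78) (nat_lit 0) (nat_lit 0) (XT.lf (nat_lit 0) (nat_lit 578358609309) (nat_lit 152) (nat_lit 87309170802) (nat_lit 0) (nat_lit 577215198805) (nat_lit 1) (nat_lit 5) (nat_lit 3) (nat_lit 4) (nat_lit 1) (nat_lit 4) (nat_lit 394) (nat_lit 271) (nat_lit 235)) (XT.nd (nat_lit 78) (nat_lit 0) (nat_lit 0) (XT.lf (nat_lit 0) (nat_lit 626141290323) (nat_lit 152) (nat_lit 91050980434) (nat_lit 0) (nat_lit 624992221341) (nat_lit 1) (nat_lit 5) (nat_lit 3) (nat_lit 4) (nat_lit 1) (nat_lit 4) (nat_lit 395) (nat_lit 271) (nat_lit 234)) (XT.lf (nat_lit 0) (nat_lit 677733737483) (nat_lit 152) (nat_lit 95117989136) (nat_lit 0) (nat_lit 676579429169) (nat_lit 1) (nat_lit 5) (nat_lit 3) (nat_lit 4) (nat_lit 1) (nat_lit 4) (nat_lit 396) (nat_lit 271) (nat_lit 233))))))))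
noncomputable def xc26 : XT := (XT.nd (nat_lit 1404) (nat_lit 0) (nat_lit 0) (XT.nd (nat_lit 702) (nat_lit 0) (nat_lit 0) (XT.nd (nat_lit 312) (nat_lit 0) (nat_lit 0) (XT.nd (nat_lit 156) (nat_lit 0) (nat_lit 0) (XT.nd (nat_lit 78) (nat_lit 0) (nat_lit 0) (XT.lf (nat_lit 0) (nat_lit 733441683809) (nat_lit 152) (nat_lit 99534297701) (nat_lit 0) (nat_lit 732282524262) (nat_lit 1) (nat_lit 5) (nat_lit 3) (nat_lit 4) (nat_lit 1) (nat_lit 4) (nat_lit 397) (nat_lit 271) (nat_lit 232)) (XT.lf (nat_lit 0) (nat_lit 793595250463) (nat_lit 152) (nat_lit 104326076846) (nat_lit 0) (nat_lit 792431599034) (nat_lit 1) (nat_lit 5) (nat_lit 3) (nat_lit 4) (nat_lit 1) (nat_lit 4) (nat_lit 398) (nat_lit 271) (nat_lit 231))) (XT.nd (nat_lit 78) (nat_lit 0) (nat_lit 0) (XT.lf (nat_lit 0) (nat_lit 858550903028) (nat_lit 152) (nat_lit 109521722299) (nat_lit 0) (nat_lit 857383092448) (nat_lit 1) (nat_lit 5) (nat_lit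 3) (nat_lit 4) (nat_lit 1) (nat_lit 4) (nat_lit 399) (nat_lit 271) (nat_lit 230)) (XT.lf (nat_lit 0) (nat_lit 928693563887) (nat_lit 152) (nat_lit 115152023071) (nat_lit 0) (nat_lit 927521902242) (nat_lit 1) (nat_lit 5) (nat_lit 3) (nat_lit 4) (nat_lit 1) (nat_lit 4) (nat_lit 400) (nat_lit 271) (nat_lit 229)))) (XT.nd (nat_lit 156) (nat_lit 0) (nat_lit 0) (XT.nd (nat_lit 78) (nat_lit 0) (nat_lit 0) (XT.lf (nat_lit 0) (nat_lit 1004438893253) (nat_lit 152) (nat_lit 121250343907) (nat_lit 0) (nat_lit 1003263665807) (nat_lit 1) (nat_lit 5) (nat_lit 3) (nat_lit 4) (nat_lit 1) (nat_lit 4) (nat_lit 401) (nat_lit 271) (nat_lit 228)) (XT.lf (nat_lit 0) (nat_lit 1086235752339) (nat_lit 152) (nat_lit 127852823004) (nat_lit 0) (nat_lit 1085057223225) (nat_lit 1) (nat_lit 5) (nat_lit 3) (nat_lit 4) (nat_lit 1) (nat_lit 4) (nat_lit 402) (nat_lit 271) (nat_lit 227))) (XT.nd (nat_lit 78) (nat_lit 0)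 (nat_lit 0) (XT.lf (nat_lit 0) (nat_lit 1174568863270) (nat_lit 152) (nat_lit 134998586164) (nat_lit 0) (nat_lit 1173387277057) (nat_lit 1) (nat_lit 5) (nat_lit 3) (nat_lit 4) (nat_lit 1) (nat_lit 4) (nat_lit 403) (nat_lit 271) (nat_lit 226)) (XT.nd (nat_lit 78) (nat_lit 0) (nat_lit 0) (XT.lf (nat_lit 0) (nat_lit 1269961681521) (nat_lit 152) (nat_lit 142729978651) (nat_lit 0) (nat_lit 1268777264659) (nat_lit 1) (nat_lit 5) (nat_lit 3) (nat_lit 4) (nat_lit 1) (nat_lit 4) (nat_lit 404) (nat_lit 271) (nat_lit 225)) (XT.lf (nat_lit 0) (nat_lit 1372979497865) (nat_lit 152) (nat_lit 151092816123) (nat_lit 0) (nat_lit 1371792460033) (nat_lit 1) (nat_lit 5) (nat_lit 3) (nat_lit 4) (nat_lit 1) (nat_lit 4) (nat_lit 405) (nat_lit 271) (nat_lit 224)))))) (XT.nd (nat_lit 312) (nat_lit 0) (nat_lit 0) (XT.nd (nat_lit 156) (nat_lit 0) (nat_lit 0) (XT.nd (nat_lit 78) (nat_lit 0) (nat_lit 0) (XT.lf (nat_lit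 0) (nat_lit 1484232788251) (nat_lit 152) (nat_lit 160136656137) (nat_lit 0) (nat_lit 1483043323594) (nat_lit 1) (nat_lit 5) (nat_lit 3) (nat_lit 4) (nat_lit 1) (nat_lit 4) (nat_lit 406) (nat_lit 271) (nat_lit 223)) (XT.lf (nat_lit 0) (nat_lit 1604380831437) (nat_lit 152) (nat_lit 169915091817) (nat_lit 0) (nat_lit 1603189119721) (nat_lit 1) (nat_lit 5) (nat_lit 3) (nat_lit 4) (nat_lit 1) (nat_lit 4) (nat_lit 407) (nat_lit 271) (nat_lit 222))) (XT.nd (nat_lit 78) (nat_lit 0) (nat_lit 0) (XT.lf (nat_lit 0) (nat_lit 1734135615827) (nat_lit 152) (nat_lit 180486069450) (nat_lit 0) (nat_lit 1732941823500) (nat_lit 1) (nat_lit 5) (nat_lit 3) (nat_lit 4) (nat_lit 1) (nat_lit 4) (nat_lit 408) (nat_lit 271) (nat_lit 221)) (XT.lf (nat_lit 0) (nat_lit 1874266058662) (nat_lit 152) (nat_lit 191912231867) (nat_lit 0) (nat_lit 1873070339844) (nat_lit 1) (nat_lit 5) (nat_lit 3) (nat_lit 4) (nat_lit 1)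 (nat_lit 4) (nat_lit 409) (nat_lit 271) (nat_lit 220)))) (XT.nd (nat_lit 156) (nat_lit 0) (nat_lit 0) (XT.nd (nat_lit 78) (nat_lit 0) (nat_lit 0) (XT.lf (nat_lit 0) (nat_lit 2025602562566) (nat_lit 152) (nat_lit 204261289658) (nat_lit 0) (nat_lit 2024405059960) (nat_lit 1) (nat_lit 5) (nat_lit 3) (nat_lit 4) (nat_lit 1) (nat_lit 4) (nat_lit 410) (nat_lit 271) (nat_lit 219)) (XT.lf (nat_lit 0) (nat_lit 2189041936451) (nat_lit 152) (nat_lit 217606422426) (nat_lit 0) (nat_lit 2187842782189) (nat_lit 1) (nat_lit 5) (nat_lit 3) (nat_lit 4) (nat_lit 1) (nat_lit 4) (nat_lit 411) (nat_lit 271) (nat_lit 218))) (XT.nd (nat_lit 78) (nat_lit 0) (nat_lit 0) (XT.lf (nat_lit 0) (nat_lit 2365552709941) (nat_lit 152) (nat_lit 232026712440) (nat_lit 0) (nat_lit 2364352026368) (nat_lit 1) (nat_lit 5) (nat_lit 3) (nat_lit 4) (nat_lit 1) (nat_lit 4) (nat_lit 412) (nat_lit 271) (nat_lit 217)) (XT.nd (nat_lit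 78) (nat_lit 0) (nat_lit 0) (XT.lf (nat_lit 0) (nat_lit 2556180872803) (nat_lit 152) (nat_lit 247607613269) (nat_lit 0) (nat_lit 2554978773202) (nat_lit 1) (nat_lit 5) (nat_lit 3) (nat_lit 4) (nat_lit 1) (nat_lit 4) (nat_lit 413) (nat_lit 271) (nat_lit 216)) (XT.lf (nat_lit 0) (nat_lit 2762056073411) (nat_lit 152) (nat_lit 264441456178) (nat_lit 0) (nat_lit 2760852662672) (nat_lit 1) (nat_lit 5) (nat_lit 3) (nat_lit 4) (nat_lit 1) (nat_lit 4) (nat_lit 414) (nat_lit 271) (nat_lit 215))))))) (XT.nd (nat_lit 42744) (nat_lit 0) (nat_lit 0) (XT.nd (nat_lit 42354) (nat_lit 0) (nat_lit 0) (XT.nd (nat_lit 156) (nat_lit 0) (nat_lit 0) (XT.nd (nat_lit 78) (nat_lit 0) (nat_lit 0) (XT.lf (nat_lit 0) (nat_lit 2984398312953) (nat_lit 152) (nat_lit 282627997272) (nat_lit 0) (nat_lit 2983193688198) (nat_lit 1) (nat_lit 5) (nat_lit 3) (nat_lit 4) (nat_lit 1) (nat_lit 4) (nat_lit 415) (nat_lit 271) (nat_lit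 214)) (XT.lf (nat_lit 0) (nat_lit 3224525175072) (nat_lit 152) (nat_lit 302275008648) (nat_lit 0) (nat_lit 3223319426227) (nat_lit 1) (nat_lit 5) (nat_lit 3) (nat_lit 4) (nat_lit 1) (nat_lit 4) (nat_lit 416) (nat_lit 271) (nat_lit 213))) (XT.nd (nat_lit 42120) (nat_lit 0) (nat_lit 152) (XT.lf (nat_lit 0) (nat_lit 3483859633764) (nat_lit 152) (nat_lit 323498917039) (nat_lit 0) (nat_lit 3482652844096) (nat_lit 1) (nat_lit 5) (nat_lit 3) (nat_lit 4) (nat_lit 1) (nat_lit 4) (nat_lit 417) (nat_lit 271) (nat_lit 212)) (XT.lf (nat_lit 0) (nat_lit 29498267721) (nat_lit 76) (nat_lit 2680128344) (nat_lit 76) (nat_lit 2680128344) (nat_lit 3) (nat_lit 4) (nat_lit 4) (nat_lit 5) (nat_lit 4) (nat_lit 4) (nat_lit 356) (nat_lit 272) (nat_lit 272)))) (XT.nd (nat_lit 156) (nat_lit 0) (nat_lit 0) (XT.nd (nat_lit 78) (nat_lit 152) (nat_lit 0) (XT.lf (nat_lit 0) (nat_lit 71944672462) (nat_lit 76) (nat_lit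 1562630826) (nat_lit 76) (nat_lit 1457240110) (nat_lit 3) (nat_lit 4) (nat_lit 4) (nat_lit 5) (nat_lit 4) (nat_lit 4) (nat_lit 357) (nat_lit 272) (nat_lit 271)) (XT.lf (nat_lit 0) (nat_lit 2597111130) (nat_lit 152) (nat_lit 75622110923) (nat_lit 0) (nat_lit 2409171580) (nat_lit 1) (nat_lit 5) (nat_lit 3) (nat_lit 4) (nat_lit 1) (nat_lit 4) (nat_lit 358) (nat_lit 272) (nat_lit 270))) (XT.nd (nat_lit 78) (nat_lit 0) (nat_lit 0) (XT.lf (nat_lit 0) (nat_lit 6817218301) (nat_lit 152) (nat_lit 73385903760) (nat_lit 0) (nat_lit 6545616202) (nat_lit 1) (nat_lit 5) (nat_lit 3) (nat_lit 4) (nat_lit 1) (nat_lit 4) (nat_lit 359) (nat_lit 272) (nat_lit 269)) (XT.nd (nat_lit 78) (nat_lit 0) (nat_lit 0) (XT.lf (nat_lit 0) (nat_lit 11184966981) (nat_lit 152) (nat_lit 71353064748) (nat_lit 0) (nat_lit 10835899560) (nat_lit 1) (nat_lit 5) (nat_lit 3) (nat_lit 4) (nat_lit 1) (nat_lit 4) (nat_lit 360) (nat_lit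 272) (nat_lit 268)) (XT.lf (nat_lit 0) (nat_lit 15726240127) (nat_lit 152) (nat_lit 69511547433) (nat_lit 0) (nat_lit 15305445555) (nat_lit 1) (nat_lit 5) (nat_lit 3) (nat_lit 4) (nat_lit 1) (nat_lit 4) (nat_lit 361) (nat_lit 272) (nat_lit 267)))))) (XT.nd (nat_lit 312) (nat_lit 0) (nat_lit 0) (XT.nd (nat_lit 156) (nat_lit 0) (nat_lit 0) (XT.nd (nat_lit 78) (nat_lit 0) (nat_lit 0) (XT.lf (nat_lit 0) (nat_lit 20467948986) (nat_lit 152) (nat_lit 67850439121) (nat_lit 0) (nat_lit 19980740385) (nat_lit 1) (nat_lit 5) (nat_lit 3) (nat_lit 4) (nat_lit 1) (nat_lit 4) (nat_lit 362) (nat_lit 272) (nat_lit 266)) (XT.lf (nat_lit 0) (nat_lit 25438192573) (nat_lit 152) (nat_lit 66359896206) (nat_lit 0) (nat_lit 24889489502) (nat_lit 1) (nat_lit 5) (nat_lit 3) (nat_lit 4) (nat_lit 1) (nat_lit 4) (nat_lit 363) (nat_lit 272) (nat_lit 265))) (XT.nd (nat_lit 78) (nat_lit 0) (nat_lit 0) (XT.lf (nat_lit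 0) (nat_lit 30666424185) (nat_lit 152) (nat_lit 65031085842) (nat_lit 0) (nat_lit 30060781789) (nat_lit 1) (nat_lit 5) (nat_lit 3) (nat_lit 4) (nat_lit 1) (nat_lit 4) (nat_lit 364) (nat_lit 272) (nat_lit 264)) (XT.lf (nat_lit 0) (nat_lit 36183625934) (nat_lit 152) (nat_lit 63856133596) (nat_lit 0) (nat_lit 35525261941) (nat_lit 1) (nat_lit 5) (nat_lit 3) (nat_lit 4) (nat_lit 1) (nat_lit 4) (nat_lit 365) (nat_lit 272) (nat_lit 263)))) (XT.nd (nat_lit 156) (nat_lit 0) (nat_lit 0) (XT.nd (nat_lit 78) (nat_lit 0) (nat_lit 0) (XT.lf (nat_lit 0) (nat_lit 42022492350) (nat_lit 152) (nat_lit 62828076789) (nat_lit 0) (nat_lit 41315312063) (nat_lit 1) (nat_lit 5) (nat_lit 3) (nat_lit 4) (nat_lit 1) (nat_lit 4) (nat_lit 366) (nat_lit 272) (nat_lit 262)) (XT.lf (nat_lit 0) (nat_lit 48217624121) (nat_lit 152) (nat_lit 61940823233) (nat_lit 0) (nat_lit 47465243563) (nat_lit 1) (nat_lit 5) (nat_lit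 3) (nat_lit 4) (nat_lit 1) (nat_lit 4) (nat_lit 367) (nat_lit 272) (nat_lit 261))) (XT.nd (nat_lit 78) (nat_lit 0) (nat_lit 0) (XT.lf (nat_lit 0) (nat_lit 54805733141) (nat_lit 152) (nat_lit 61189115128) (nat_lit 0) (nat_lit 54011500479) (nat_lit 1) (nat_lit 5) (nat_lit 3) (nat_lit 4) (nat_lit 1) (nat_lit 4) (nat_lit 368) (nat_lit 272) (nat_lit 260)) (XT.nd (nat_lit 78) (nat_lit 0) (nat_lit 0) (XT.lf (nat_lit 0) (nat_lit 61825860055) (nat_lit 152) (nat_lit 60568497908) (nat_lit 0) (nat_lit 60992875445) (nat_lit 1) (nat_lit 5) (nat_lit 3) (nat_lit 4) (nat_lit 1) (nat_lit 4) (nat_lit 369) (nat_lit 272) (nat_lit 259)) (XT.lf (nat_lit 0) (nat_lit 69319605614) (nat_lit 152) (nat_lit 60075293841) (nat_lit 0) (nat_lit 68450739571) (nat_lit 1) (nat_lit 5) (nat_lit 3) (nat_lit 4) (nat_lit 1) (nat_lit 4) (nat_lit 370) (nat_lit 272) (nat_lit 258))))))))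
noncomputable def xc27 : XT := (XT.nd (nat_lit 1404) (nat_lit 0) (nat_lit 0) (XT.nd (nat_lit 702) (nat_lit 0) (nat_lit 0) (XT.nd (nat_lit 312) (nat_lit 0) (nat_lit 0) (XT.nd (nat_lit 156) (nat_lit 0) (nat_lit 0) (XT.nd (nat_lit 78) (nat_lit 0) (nat_lit 0) (XT.lf (nat_lit 0) (nat_lit 77331377202) (nat_lit 152) (nat_lit 59706580237) (nat_lit 0) (nat_lit 76429287609) (nat_lit 1) (nat_lit 5) (nat_lit 3) (nat_lit 4) (nat_lit 1) (nat_lit 4) (nat_lit 371) (nat_lit 272) (nat_lit 257)) (XT.lf (nat_lit 0) (nat_lit 85908651981) (nat_lit 152) (nat_lit 59460172125) (nat_lit 0) (nat_lit 84975799843) (nat_lit 1) (nat_lit 5) (nat_lit 3) (nat_lit 4) (nat_lit 1) (nat_lit 4) (nat_lit 372) (nat_lit 272) (nat_lit 256))) (XT.nd (nat_lit 78) (nat_lit 0) (nat_lit 0) (XT.lf (nat_lit 0) (nat_lit 95102258248) (nat_lit 152) (nat_lit 59334609311) (nat_lit 0) (nat_lit 94140922272) (nat_lit 1) (nat_lit 5) (nat_lit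 3) (nat_lit 4) (nat_lit 1) (nat_lit 4) (nat_lit 373) (nat_lit 272) (nat_lit 255)) (XT.lf (nat_lit 0) (nat_lit 104966676632) (nat_lit 152) (nat_lit 59329147717) (nat_lit 0) (nat_lit 103978966731) (nat_lit 1) (nat_lit 5) (nat_lit 3) (nat_lit 4) (nat_lit 1) (nat_lit 4) (nat_lit 374) (nat_lit 272) (nat_lit 254)))) (XT.nd (nat_lit 156) (nat_lit 0) (nat_lit 0) (XT.nd (nat_lit 78) (nat_lit 0) (nat_lit 0) (XT.lf (nat_lit 0) (nat_lit 115560362945) (nat_lit 152) (nat_lit 59443754979) (nat_lit 0) (nat_lit 114548232744) (nat_lit 1) (nat_lit 5) (nat_lit 3) (nat_lit 4) (nat_lit 1) (nat_lit 4) (nat_lit 375) (nat_lit 272) (nat_lit 253)) (XT.lf (nat_lit 0) (nat_lit 126946094588) (nat_lit 152) (nat_lit 59679110251) (nat_lit 0) (nat_lit 125911352998) (nat_lit 1) (nat_lit 5) (nat_lit 3) (nat_lit 4) (nat_lit 1) (nat_lit 4) (nat_lit 376) (nat_lit 272) (nat_lit 252))) (XT.nd (nat_lit 78) (nat_lit 0) (nat_lit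 0) (XT.lf (nat_lit 0) (nat_lit 139191342564) (nat_lit 152) (nat_lit 60036608231) (nat_lit 0) (nat_lit 138135664502) (nat_lit 1) (nat_lit 5) (nat_lit 3) (nat_lit 4) (nat_lit 1) (nat_lit 4) (nat_lit 377) (nat_lit 272) (nat_lit 251)) (XT.nd (nat_lit 78) (nat_lit 0) (nat_lit 0) (XT.lf (nat_lit 0) (nat_lit 152368671304) (nat_lit 152) (nat_lit 60518367425) (nat_lit 0) (nat_lit 151293607621) (nat_lit 1) (nat_lit 5) (nat_lit 3) (nat_lit 4) (nat_lit 1) (nat_lit 4) (nat_lit 378) (nat_lit 272) (nat_lit 250)) (XT.lf (nat_lit 0) (nat_lit 166556168684) (nat_lit 152) (nat_lit 61127242703) (nat_lit 0) (nat_lit 165463155350) (nat_lit 1) (nat_lit 5) (nat_lit 3) (nat_lit 4) (nat_lit 1) (nat_lit 4) (nat_lit 379) (nat_lit 272) (nat_lit 249)))))) (XT.nd (nat_lit 312) (nat_lit 0) (nat_lit 0) (XT.nd (nat_lit 156) (nat_lit 0) (nat_lit 0) (XT.nd (nat_lit 78) (nat_lit 0) (nat_lit 0) (XT.lf (nat_lit 0) (nat_lit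 181837908760) (nat_lit 152) (nat_lit 61866842214) (nat_lit 0) (nat_lit 180728275380) (nat_lit 1) (nat_lit 5) (nat_lit 3) (nat_lit 4) (nat_lit 1) (nat_lit 4) (nat_lit 380) (nat_lit 272) (nat_lit 248)) (XT.lf (nat_lit 0) (nat_lit 198304449994) (nat_lit 152) (nat_lit 62741548771) (nat_lit 0) (nat_lit 197179427682) (nat_lit 1) (nat_lit 5) (nat_lit 3) (nat_lit 4) (nat_lit 1) (nat_lit 4) (nat_lit 381) (nat_lit 272) (nat_lit 247))) (XT.nd (nat_lit 78) (nat_lit 0) (nat_lit 0) (XT.lf (nat_lit 0) (nat_lit 216053371888) (nat_lit 152) (nat_lit 63756545820) (nat_lit 0) (nat_lit 214914100566) (nat_lit 1) (nat_lit 5) (nat_lit 3) (nat_lit 4) (nat_lit 1) (nat_lit 4) (nat_lit 382) (nat_lit 272) (nat_lit 246)) (XT.lf (nat_lit 0) (nat_lit 235189853240) (nat_lit 152) (nat_lit 64917848157) (nat_lit 0) (nat_lit 234037388389) (nat_lit 1) (nat_lit 5) (nat_lit 3) (nat_lit 4) (nat_lit 1) (nat_lit 4) (nat_lit 383)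 (nat_lit 272) (nat_lit 245)))) (XT.nd (nat_lit 156) (nat_lit 0) (nat_lit 0) (XT.nd (nat_lit 78) (nat_lit 0) (nat_lit 0) (XT.lf (nat_lit 0) (nat_lit 255827295419) (nat_lit 152) (nat_lit 66232337576) (nat_lit 0) (nat_lit 254662614338) (nat_lit 1) (nat_lit 5) (nat_lit 3) (nat_lit 4) (nat_lit 1) (nat_lit 4) (nat_lit 384) (nat_lit 272) (nat_lit 244)) (XT.lf (nat_lit 0) (nat_lit 278087994380) (nat_lit 152) (nat_lit 67707803641) (nat_lit 0) (nat_lit 276912001975) (nat_lit 1) (nat_lit 5) (nat_lit 3) (nat_lit 4) (nat_lit 1) (nat_lit 4) (nat_lit 385) (nat_lit 272) (nat_lit 243))) (XT.nd (nat_lit 78) (nat_lit 0) (nat_lit 0) (XT.lf (nat_lit 0) (nat_lit 302103865376) (nat_lit 152) (nat_lit 69352989858) (nat_lit 0) (nat_lit 300917399523) (nat_lit 1) (nat_lit 5) (nat_lit 3) (nat_lit 4) (nat_lit 1) (nat_lit 4) (nat_lit 386) (nat_lit 272) (nat_lit 242)) (XT.nd (nat_lit 78) (nat_lit 0) (nat_lit 0) (XT.lf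 (nat_lit 0) (nat_lit 328017224680) (nat_lit 152) (nat_lit 71177645475) (nat_lit 0) (nat_lit 326821061189) (nat_lit 1) (nat_lit 5) (nat_lit 3) (nat_lit 4) (nat_lit 1) (nat_lit 4) (nat_lit 387) (nat_lit 272) (nat_lit 241)) (XT.lf (nat_lit 0) (nat_lit 355981632938) (nat_lit 152) (nat_lit 73192583269) (nat_lit 0) (nat_lit 354776490154) (nat_lit 1) (nat_lit 5) (nat_lit 3) (nat_lit 4) (nat_lit 1) (nat_lit 4) (nat_lit 388) (nat_lit 272) (nat_lit 240))))))) (XT.nd (nat_lit 702) (nat_lit 0) (nat_lit 0) (XT.nd (nat_lit 312) (nat_lit 0) (nat_lit 0) (XT.nd (nat_lit 156) (nat_lit 0) (nat_lit 0) (XT.nd (nat_lit 78) (nat_lit 0) (nat_lit 0) (XT.lf (nat_lit 0) (nat_lit 386162805163) (nat_lit 152) (nat_lit 75409743611) (nat_lit 0) (nat_lit 384949348218) (nat_lit 1) (nat_lit 5) (nat_lit 3) (nat_lit 4) (nat_lit 1) (nat_lit 4) (nat_lit 389) (nat_lit 272) (nat_lit 239)) (XT.lf (nat_lit 0) (nat_lit 418739592747)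 (nat_lit 152) (nat_lit 77842265228) (nat_lit 0) (nat_lit 417518437504) (nat_lit 1) (nat_lit 5) (nat_lit 3) (nat_lit 4) (nat_lit 1) (nat_lit 4) (nat_lit 390) (nat_lit 272) (nat_lit 238))) (XT.nd (nat_lit 78) (nat_lit 0) (nat_lit 0) (XT.lf (nat_lit 0) (nat_lit 453905043318) (nat_lit 152) (nat_lit 80504563065) (nat_lit 0) (nat_lit 452676760023) (nat_lit 1) (nat_lit 5) (nat_lit 3) (nat_lit 4) (nat_lit 1) (nat_lit 4) (nat_lit 391) (nat_lit 272) (nat_lit 237)) (XT.lf (nat_lit 0) (nat_lit 491867544733) (nat_lit 152) (nat_lit 83412413700) (nat_lit 0) (nat_lit 490632661389) (nat_lit 1) (nat_lit 5) (nat_lit 3) (nat_lit 4) (nat_lit 1) (nat_lit 4) (nat_lit 392) (nat_lit 272) (nat_lit 236)))) (XT.nd (nat_lit 156) (nat_lit 0) (nat_lit 0) (XT.nd (nat_lit 78) (nat_lit 0) (nat_lit 0) (XT.lf (nat_lit 0) (nat_lit 532852059963) (nat_lit 152) (nat_lit 86583048841) (nat_lit 0) (nat_lit 531611065462) (nat_lit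 1) (nat_lit 5) (nat_lit 3) (nat_lit 4) (nat_lit 1) (nat_lit 4) (nat_lit 393) (nat_lit 272) (nat_lit 235)) (XT.lf (nat_lit 0) (nat_lit 577101460208) (nat_lit 152) (nat_lit 90035257437) (nat_lit 0) (nat_lit 575854807229) (nat_lit 1) (nat_lit 5) (nat_lit 3) (nat_lit 4) (nat_lit 1) (nat_lit 4) (nat_lit 394) (nat_lit 272) (nat_lit 234))) (XT.nd (nat_lit 78) (nat_lit 0) (nat_lit 0) (XT.lf (nat_lit 0) (nat_lit 624877964138) (nat_lit 152) (nat_lit 93789497021) (nat_lit 0) (nat_lit 623626071827) (nat_lit 1) (nat_lit 5) (nat_lit 3) (nat_lit 4) (nat_lit 1) (nat_lit 4) (nat_lit 395) (nat_lit 272) (nat_lit 233)) (XT.nd (nat_lit 78) (nat_lit 0) (nat_lit 0) (XT.lf (nat_lit 0) (nat_lit 676464691775) (nat_lit 152) (nat_lit 97868014938) (nat_lit 0) (nat_lit 675207948231) (nat_lit 1) (nat_lit 5) (nat_lit 3) (nat_lit 4) (nat_lit 1) (nat_lit 4) (nat_lit 396) (nat_lit 272) (nat_lit 232)) (XT.lf (nat_lit 0)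 (nat_lit 732167342246) (nat_lit 152) (nat_lit 102294980183) (nat_lit 0) (nat_lit 730906106820) (nat_lit 1) (nat_lit 5) (nat_lit 3) (nat_lit 4) (nat_lit 1) (nat_lit 4) (nat_lit 397) (nat_lit 272) (nat_lit 231)))))) (XT.nd (nat_lit 312) (nat_lit 0) (nat_lit 0) (XT.nd (nat_lit 156) (nat_lit 0) (nat_lit 0) (XT.nd (nat_lit 78) (nat_lit 0) (nat_lit 0) (XT.lf (nat_lit 0) (nat_lit 792316005332) (nat_lit 152) (nat_lit 107096626625) (nat_lit 0) (nat_lit 791050610756) (nat_lit 1) (nat_lit 5) (nat_lit 3) (nat_lit 4) (nat_lit 1) (nat_lit 4) (nat_lit 398) (nat_lit 272) (nat_lit 230)) (XT.lf (nat_lit 0) (nat_lit 857267117555) (nat_lit 152) (nat_lit 112301408464) (nat_lit 0) (nat_lit 855997871913) (nat_lit 1) (nat_lit 5) (nat_lit 3) (nat_lit 4) (nat_lit 1) (nat_lit 4) (nat_lit 399) (nat_lit 272) (nat_lit 229))) (XT.nd (nat_lit 78) (nat_lit 0) (nat_lit 0) (XT.lf (nat_lit 0) (nat_lit 927405574394) (nat_lit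 152) (nat_lit 117940168852) (nat_lit 0) (nat_lit 926132762951) (nat_lit 1) (nat_lit 5) (nat_lit 3) (nat_lit 4) (nat_lit 1) (nat_lit 4) (nat_lit 400) (nat_lit 272) (nat_lit 228)) (XT.lf (nat_lit 0) (nat_lit 1003147011150) (nat_lit 152) (nat_lit 124046322666) (nat_lit 0) (nat_lit 1001870898039) (nat_lit 1) (nat_lit 5) (nat_lit 3) (nat_lit 4) (nat_lit 1) (nat_lit 4) (nat_lit 401) (nat_lit 272) (nat_lit 227)))) (XT.nd (nat_lit 156) (nat_lit 0) (nat_lit 0) (XT.nd (nat_lit 78) (nat_lit 0) (nat_lit 0) (XT.lf (nat_lit 0) (nat_lit 1084940265966) (nat_lit 152) (nat_lit 130656054520) (nat_lit 0) (nat_lit 1083661095756) (nat_lit 1) (nat_lit 5) (nat_lit 3) (nat_lit 4) (nat_lit 1) (nat_lit 4) (nat_lit 402) (nat_lit 272) (nat_lit 226)) (XT.lf (nat_lit 0) (nat_lit 1173270039611) (nat_lit 152) (nat_lit 137808533196) (nat_lit 0) (nat_lit 1171988038753) (nat_lit 1) (nat_lit 5) (nat_lit 3) (nat_lit 4) (nat_lit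 1) (nat_lit 4) (nat_lit 403) (nat_lit 272) (nat_lit 225))) (XT.nd (nat_lit 78) (nat_lit 0) (nat_lit 0) (XT.lf (nat_lit 0) (nat_lit 1268659767781) (nat_lit 152) (nat_lit 145546143754) (nat_lit 0) (nat_lit 1267375145953) (nat_lit 1) (nat_lit 5) (nat_lit 3) (nat_lit 4) (nat_lit 1) (nat_lit 4) (nat_lit 404) (nat_lit 272) (nat_lit 224)) (XT.nd (nat_lit 78) (nat_lit 0) (nat_lit 0) (XT.lf (nat_lit 0) (nat_lit 1371674722940) (nat_lit 152) (nat_lit 153914738699) (nat_lit 0) (nat_lit 1370387674287) (nat_lit 1) (nat_lit 5) (nat_lit 3) (nat_lit 4) (nat_lit 1) (nat_lit 4) (nat_lit 405) (nat_lit 272) (nat_lit 223)) (XT.lf (nat_lit 0) (nat_lit 1482925364080) (nat_lit 152) (nat_lit 162963909706) (nat_lit 0) (nat_lit 1481636068368) (nat_lit 1) (nat_lit 5) (nat_lit 3) (nat_lit 4) (nat_lit 1) (nat_lit 4) (nat_lit 406) (nat_lit 272) (nat_lit 222))))))))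
noncomputable def xc28 : XT := (XT.nd (nat_lit 43290) (nat_lit 0) (nat_lit 0) (XT.nd (nat_lit 702) (nat_lit 0) (nat_lit 0) (XT.nd (nat_lit 312) (nat_lit 0) (nat_lit 0) (XT.nd (nat_lit 156) (nat_lit 0) (nat_lit 0) (XT.nd (nat_lit 78) (nat_lit 0) (nat_lit 0) (XT.lf (nat_lit 0) (nat_lit 1603070954261) (nat_lit 152) (nat_lit 172747281491) (nat_lit 0) (nat_lit 1601779577938) (nat_lit 1) (nat_lit 5) (nat_lit 3) (nat_lit 4) (nat_lit 1) (nat_lit 4) (nat_lit 407) (nat_lit 272) (nat_lit 221)) (XT.lf (nat_lit 0) (nat_lit 1732823467350) (nat_lit 152) (nat_lit 183322829592) (nat_lit 0) (nat_lit 1731530164536) (nat_lit 1) (nat_lit 5) (nat_lit 3) (nat_lit 4) (nat_lit 1) (nat_lit 4) (nat_lit 408) (nat_lit 272) (nat_lit 220))) (XT.nd (nat_lit 78) (nat_lit 0) (nat_lit 0) (XT.lf (nat_lit 0) (nat_lit 1872951807129) (nat_lit 152) (nat_lit 194753223923) (nat_lit 0) (nat_lit 1871656720526) (nat_lit 1) (nat_lit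 5) (nat_lit 3) (nat_lit 4) (nat_lit 1) (nat_lit 4) (nat_lit 409) (nat_lit 272) (nat_lit 219)) (XT.lf (nat_lit 0) (nat_lit 2024286363758) (nat_lit 152) (nat_lit 207106200153) (nat_lit 0) (nat_lit 2022989625500) (nat_lit 1) (nat_lit 5) (nat_lit 3) (nat_lit 4) (nat_lit 1) (nat_lit 4) (nat_lit 410) (nat_lit 272) (nat_lit 218)))) (XT.nd (nat_lit 156) (nat_lit 0) (nat_lit 0) (XT.nd (nat_lit 78) (nat_lit 0) (nat_lit 0) (XT.lf (nat_lit 0) (nat_lit 2187723934612) (nat_lit 152) (nat_lit 220454961106) (nat_lit 0) (nat_lit 2186425667042) (nat_lit 1) (nat_lit 5) (nat_lit 3) (nat_lit 4) (nat_lit 1) (nat_lit 4) (nat_lit 411) (nat_lit 272) (nat_lit 217)) (XT.lf (nat_lit 0) (nat_lit 2364233038627) (nat_lit 152) (nat_lit 234878610549) (nat_lit 0) (nat_lit 2362933355029) (nat_lit 1) (nat_lit 5) (nat_lit 3) (nat_lit 4) (nat_lit 1) (nat_lit 4) (nat_lit 412) (nat_lit 272) (nat_lit 216))) (XT.nd (nat_lit 78)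 (nat_lit 0) (nat_lit 0) (XT.lf (nat_lit 0) (nat_lit 2554859655680) (nat_lit 152) (nat_lit 250462621962) (nat_lit 0) (nat_lit 2553558660944) (nat_lit 1) (nat_lit 5) (nat_lit 3) (nat_lit 4) (nat_lit 1) (nat_lit 4) (nat_lit 413) (nat_lit 272) (nat_lit 215)) (XT.nd (nat_lit 78) (nat_lit 0) (nat_lit 0) (XT.lf (nat_lit 0) (nat_lit 2760733424983) (nat_lit 152) (nat_lit 267299345040) (nat_lit 0) (nat_lit 2759431216231) (nat_lit 1) (nat_lit 5) (nat_lit 3) (nat_lit 4) (nat_lit 1) (nat_lit 4) (nat_lit 414) (nat_lit 272) (nat_lit 214)) (XT.lf (nat_lit 0) (nat_lit 2983074339243) (nat_lit 152) (nat_lit 285488552959) (nat_lit 0) (nat_lit 2981771006401) (nat_lit 1) (nat_lit 5) (nat_lit 3) (nat_lit 4) (nat_lit 1) (nat_lit 4) (nat_lit 415) (nat_lit 272) (nat_lit 213)))))) (XT.nd (nat_lit 42198) (nat_lit 0) (nat_lit 0) (XT.nd (nat_lit 42042) (nat_lit 0) (nat_lit 152) (XT.nd (nat_lit 78) (nat_lit 0) (nat_lit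 0) (XT.lf (nat_lit 0) (nat_lit 3223199974248) (nat_lit 152) (nat_lit 305138033616) (nat_lit 0) (nat_lit 3221895600583) (nat_lit 1) (nat_lit 5) (nat_lit 3) (nat_lit 4) (nat_lit 1) (nat_lit 4) (nat_lit 416) (nat_lit 272) (nat_lit 212)) (XT.lf (nat_lit 0) (nat_lit 3482533296724) (nat_lit 152) (nat_lit 326364228379) (nat_lit 0) (nat_lit 3481227959334) (nat_lit 1) (nat_lit 5) (nat_lit 3) (nat_lit 4) (nat_lit 1) (nat_lit 4) (nat_lit 417) (nat_lit 272) (nat_lit 211))) (XT.nd (nat_lit 78) (nat_lit 0) (nat_lit 0) (XT.lf (nat_lit 0) (nat_lit 17462793742) (nat_lit 76) (nat_lit 6368279066) (nat_lit 76) (nat_lit 6368279066) (nat_lit 3) (nat_lit 4) (nat_lit 4) (nat_lit 5) (nat_lit 4) (nat_lit 4) (nat_lit 354) (nat_lit 273) (nat_lit 273)) (XT.lf (nat_lit 0) (nat_lit 46606321803) (nat_lit 76) (nat_lit 9190920676) (nat_lit 76) (nat_lit 9077098702) (nat_lit 3) (nat_lit 4) (nat_lit 4) (nat_lit 5) (nat_lit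 4) (nat_lit 4) (nat_lit 355) (nat_lit 273) (nat_lit 272)))) (XT.nd (nat_lit 156) (nat_lit 152) (nat_lit 0) (XT.nd (nat_lit 78) (nat_lit 0) (nat_lit 0) (XT.lf (nat_lit 0) (nat_lit 58788221158) (nat_lit 76) (nat_lit 5578195735) (nat_lit 76) (nat_lit 5358983045) (nat_lit 3) (nat_lit 4) (nat_lit 4) (nat_lit 5) (nat_lit 4) (nat_lit 4) (nat_lit 356) (nat_lit 273) (nat_lit 271)) (XT.lf (nat_lit 0) (nat_lit 71543474583) (nat_lit 76) (nat_lit 1876974572) (nat_lit 76) (nat_lit 1560177885) (nat_lit 3) (nat_lit 4) (nat_lit 4) (nat_lit 5) (nat_lit 4) (nat_lit 4) (nat_lit 357) (nat_lit 273) (nat_lit 270))) (XT.nd (nat_lit 78) (nat_lit 0) (nat_lit 0) (XT.lf (nat_lit 0) (nat_lit 2382287519) (nat_lit 152) (nat_lit 76266468104) (nat_lit 0) (nat_lit 2005294704) (nat_lit 1) (nat_lit 5) (nat_lit 3) (nat_lit 4) (nat_lit 1) (nat_lit 4) (nat_lit 358) (nat_lit 273) (nat_lit 269)) (XT.nd (nat_lit 78) (nat_lit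 0) (nat_lit 0) (XT.lf (nat_lit 0) (nat_lit 6511064370) (nat_lit 152) (nat_lit 74214042058) (nat_lit 0) (nat_lit 6056606233) (nat_lit 1) (nat_lit 5) (nat_lit 3) (nat_lit 4) (nat_lit 1) (nat_lit 4) (nat_lit 359) (nat_lit 273) (nat_lit 268)) (XT.lf (nat_lit 0) (nat_lit 10794247940) (nat_lit 152) (nat_lit 72351370747) (nat_lit 0) (nat_lit 10268062652) (nat_lit 1) (nat_lit 5) (nat_lit 3) (nat_lit 4) (nat_lit 1) (nat_lit 4) (nat_lit 360) (nat_lit 273) (nat_lit 267))))))) (XT.nd (nat_lit 702) (nat_lit 0) (nat_lit 0) (XT.nd (nat_lit 312) (nat_lit 0) (nat_lit 0) (XT.nd (nat_lit 156) (nat_lit 0) (nat_lit 0) (XT.nd (nat_lit 78) (nat_lit 0) (nat_lit 0) (XT.lf (nat_lit 0) (nat_lit 15257220058) (nat_lit 152) (nat_lit 70667416119) (nat_lit 0) (nat_lit 14664620741) (nat_lit 1) (nat_lit 5) (nat_lit 3) (nat_lit 4) (nat_lit 1) (nat_lit 4) (nat_lit 361) (nat_lit 273) (nat_lit 266)) (XT.lf (nat_lit 0) (nat_lit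 19926427965) (nat_lit 152) (nat_lit 69152199183) (nat_lit 0) (nat_lit 19272334177) (nat_lit 1) (nat_lit 5) (nat_lit 3) (nat_lit 4) (nat_lit 1) (nat_lit 4) (nat_lit 362) (nat_lit 273) (nat_lit 265))) (XT.nd (nat_lit 78) (nat_lit 0) (nat_lit 0) (XT.lf (nat_lit 0) (nat_lit 24829541042) (nat_lit 152) (nat_lit 67796740875) (nat_lit 0) (nat_lit 24118507929) (nat_lit 1) (nat_lit 5) (nat_lit 3) (nat_lit 4) (nat_lit 1) (nat_lit 4) (nat_lit 363) (nat_lit 273) (nat_lit 264)) (XT.lf (nat_lit 0) (nat_lit 29995614773) (nat_lit 152) (nat_lit 66593008851) (nat_lit 0) (nat_lit 29231860063) (nat_lit 1) (nat_lit 5) (nat_lit 3) (nat_lit 4) (nat_lit 1) (nat_lit 4) (nat_lit 364) (nat_lit 273) (nat_lit 263)))) (XT.nd (nat_lit 156) (nat_lit 0) (nat_lit 0) (XT.nd (nat_lit 78) (nat_lit 0) (nat_lit 0) (XT.lf (nat_lit 0) (nat_lit 35455262929) (nat_lit 152) (nat_lit 65533869884) (nat_lit 0) (nat_lit 34642691926)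 (nat_lit 1) (nat_lit 5) (nat_lit 3) (nat_lit 4) (nat_lit 1) (nat_lit 4) (nat_lit 365) (nat_lit 273) (nat_lit 262)) (XT.lf (nat_lit 0) (nat_lit 41240838980) (nat_lit 152) (nat_lit 64613047594) (nat_lit 0) (nat_lit 40383067705) (nat_lit 1) (nat_lit 5) (nat_lit 3) (nat_lit 4) (nat_lit 1) (nat_lit 4) (nat_lit 366) (nat_lit 273) (nat_lit 261))) (XT.nd (nat_lit 78) (nat_lit 0) (nat_lit 0) (XT.lf (nat_lit 0) (nat_lit 47386627822) (nat_lit 152) (nat_lit 63825085256) (nat_lit 0) (nat_lit 46487004444) (nat_lit 1) (nat_lit 5) (nat_lit 3) (nat_lit 4) (nat_lit 1) (nat_lit 4) (nat_lit 367) (nat_lit 273) (nat_lit 260)) (XT.nd (nat_lit 78) (nat_lit 0) (nat_lit 0) (XT.lf (nat_lit 0) (nat_lit 53929048944) (nat_lit 152) (nat_lit 63165313466) (nat_lit 0) (nat_lit 52990673618) (nat_lit 1) (nat_lit 5) (nat_lit 3) (nat_lit 4) (nat_lit 1) (nat_lit 4) (nat_lit 368) (nat_lit 273) (nat_lit 259)) (XT.lf (nat_lit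 0) (nat_lit 60906872249) (nat_lit 152) (nat_lit 62629822462) (nat_lit 0) (nat_lit 59932615489) (nat_lit 1) (nat_lit 5) (nat_lit 3) (nat_lit 4) (nat_lit 1) (nat_lit 4) (nat_lit 369) (nat_lit 273) (nat_lit 258)))))) (XT.nd (nat_lit 312) (nat_lit 0) (nat_lit 0) (XT.nd (nat_lit 156) (nat_lit 0) (nat_lit 0) (XT.nd (nat_lit 78) (nat_lit 0) (nat_lit 0) (XT.lf (nat_lit 0) (nat_lit 68361447800) (nat_lit 152) (nat_lit 62215438966) (nat_lit 0) (nat_lit 67353967491) (nat_lit 1) (nat_lit 5) (nat_lit 3) (nat_lit 4) (nat_lit 1) (nat_lit 4) (nat_lit 370) (nat_lit 273) (nat_lit 257)) (XT.lf (nat_lit 0) (nat_lit 76336950861) (nat_lit 152) (nat_lit 61919707372) (nat_lit 0) (nat_lit 75298708007) (nat_lit 1) (nat_lit 5) (nat_lit 3) (nat_lit 4) (nat_lit 1) (nat_lit 4) (nat_lit 371) (nat_lit 273) (nat_lit 256))) (XT.nd (nat_lit 78) (nat_lit 0) (nat_lit 0) (XT.lf (nat_lit 0) (nat_lit 84880643672) (nat_lit 152)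 (nat_lit 61740875196) (nat_lit 0) (nat_lit 83813916979) (nat_lit 1) (nat_lit 5) (nat_lit 3) (nat_lit 4) (nat_lit 1) (nat_lit 4) (nat_lit 372) (nat_lit 273) (nat_lit 255)) (XT.lf (nat_lit 0) (nat_lit 94043155523) (nat_lit 152) (nat_lit 61677882692) (nat_lit 0) (nat_lit 92950054906) (nat_lit 1) (nat_lit 5) (nat_lit 3) (nat_lit 4) (nat_lit 1) (nat_lit 4) (nat_lit 373) (nat_lit 273) (nat_lit 254)))) (XT.nd (nat_lit 156) (nat_lit 0) (nat_lit 0) (XT.nd (nat_lit 78) (nat_lit 0) (nat_lit 0) (XT.lf (nat_lit 0) (nat_lit 103878782781) (nat_lit 152) (nat_lit 61730356571) (nat_lit 0) (nat_lit 102761261863) (nat_lit 1) (nat_lit 5) (nat_lit 3) (nat_lit 4) (nat_lit 1) (nat_lit 4) (nat_lit 374) (nat_lit 273) (nat_lit 253)) (XT.lf (nat_lit 0) (nat_lit 114445810645) (nat_lit 152) (nat_lit 61898607790) (nat_lit 0) (nat_lit 113305678338) (nat_lit 1) (nat_lit 5) (nat_lit 3) (nat_lit 4) (nat_lit 1) (nat_lit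 4) (nat_lit 375) (nat_lit 273) (nat_lit 252))) (XT.nd (nat_lit 78) (nat_lit 0) (nat_lit 0) (XT.lf (nat_lit 0) (nat_lit 125806858539) (nat_lit 152) (nat_lit 62183633391) (nat_lit 0) (nat_lit 124645789760) (nat_lit 1) (nat_lit 5) (nat_lit 3) (nat_lit 4) (nat_lit 1) (nat_lit 4) (nat_lit 376) (nat_lit 273) (nat_lit 251)) (XT.nd (nat_lit 78) (nat_lit 0) (nat_lit 0) (XT.lf (nat_lit 0) (nat_lit 138029251191) (nat_lit 152) (nat_lit 62587122417) (nat_lit 0) (nat_lit 136848796790) (nat_lit 1) (nat_lit 5) (nat_lit 3) (nat_lit 4) (nat_lit 1) (nat_lit 4) (nat_lit 377) (nat_lit 273) (nat_lit 250)) (XT.lf (nat_lit 0) (nat_lit 151185417594) (nat_lit 152) (nat_lit 63111465914) (nat_lit 0) (nat_lit 149987013544) (nat_lit 1) (nat_lit 5) (nat_lit 3) (nat_lit 4) (nat_lit 1) (nat_lit 4) (nat_lit 378) (nat_lit 273) (nat_lit 249))))))))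
noncomputable def xc29 : XT := (XT.nd (nat_lit 1404) (nat_lit 0) (nat_lit 0) (XT.nd (nat_lit 702) (nat_lit 0) (nat_lit 0) (XT.nd (nat_lit 312) (nat_lit 0) (nat_lit 0) (XT.nd (nat_lit 156) (nat_lit 0) (nat_lit 0) (XT.nd (nat_lit 78) (nat_lit 0) (nat_lit 0) (XT.lf (nat_lit 0) (nat_lit 165353320217) (nat_lit 152) (nat_lit 63759771101) (nat_lit 0) (nat_lit 164138296121) (nat_lit 1) (nat_lit 5) (nat_lit 3) (nat_lit 4) (nat_lit 1) (nat_lit 4) (nat_lit 379) (nat_lit 273) (nat_lit 248)) (XT.lf (nat_lit 0) (nat_lit 180616917001) (nat_lit 152) (nat_lit 64535879788) (nat_lit 0) (nat_lit 179386503973) (nat_lit 1) (nat_lit 5) (nat_lit 3) (nat_lit 4) (nat_lit 1) (nat_lit 4) (nat_lit 380) (nat_lit 273) (nat_lit 247))) (XT.nd (nat_lit 78) (nat_lit 0) (nat_lit 0) (XT.lf (nat_lit 0) (nat_lit 197066658890) (nat_lit 152) (nat_lit 65444391136) (nat_lit 0) (nat_lit 195821996851) (nat_lit 1) (nat_lit 5) (nat_lit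 3) (nat_lit 4) (nat_lit 1) (nat_lit 4) (nat_lit 381) (nat_lit 273) (nat_lit 246)) (XT.lf (nat_lit 0) (nat_lit 214800025835) (nat_lit 152) (nat_lit 66490688918) (nat_lit 0) (nat_lit 213542170267) (nat_lit 1) (nat_lit 5) (nat_lit 3) (nat_lit 4) (nat_lit 1) (nat_lit 4) (nat_lit 382) (nat_lit 273) (nat_lit 245)))) (XT.nd (nat_lit 156) (nat_lit 0) (nat_lit 0) (XT.nd (nat_lit 78) (nat_lit 0) (nat_lit 0) (XT.lf (nat_lit 0) (nat_lit 233922104455) (nat_lit 152) (nat_lit 67680973416) (nat_lit 0) (nat_lit 232652032658) (nat_lit 1) (nat_lit 5) (nat_lit 3) (nat_lit 4) (nat_lit 1) (nat_lit 4) (nat_lit 383) (nat_lit 273) (nat_lit 244)) (XT.lf (nat_lit 0) (nat_lit 254546210773) (nat_lit 152) (nat_lit 69022298168) (nat_lit 0) (nat_lit 253264827651) (nat_lit 1) (nat_lit 5) (nat_lit 3) (nat_lit 4) (nat_lit 1) (nat_lit 4) (nat_lit 384) (nat_lit 273) (nat_lit 243))) (XT.nd (nat_lit 78) (nat_lit 0) (nat_lit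 0) (XT.lf (nat_lit 0) (nat_lit 276794561714) (nat_lit 152) (nat_lit 70522611765) (nat_lit 0) (nat_lit 275502705144) (nat_lit 1) (nat_lit 5) (nat_lit 3) (nat_lit 4) (nat_lit 1) (nat_lit 4) (nat_lit 385) (nat_lit 273) (nat_lit 242)) (XT.nd (nat_lit 78) (nat_lit 0) (nat_lit 0) (XT.lf (nat_lit 0) (nat_lit 300798999358) (nat_lit 152) (nat_lit 72190804955) (nat_lit 0) (nat_lit 299497445151) (nat_lit 1) (nat_lit 5) (nat_lit 3) (nat_lit 4) (nat_lit 1) (nat_lit 4) (nat_lit 386) (nat_lit 273) (nat_lit 241)) (XT.lf (nat_lit 0) (nat_lit 326701772224) (nat_lit 152) (nat_lit 74036763326) (nat_lit 0) (nat_lit 325391238723) (nat_lit 1) (nat_lit 5) (nat_lit 3) (nat_lit 4) (nat_lit 1) (nat_lit 4) (nat_lit 387) (nat_lit 273) (nat_lit 240)))))) (XT.nd (nat_lit 312) (nat_lit 0) (nat_lit 0) (XT.nd (nat_lit 156) (nat_lit 0) (nat_lit 0) (XT.nd (nat_lit 78) (nat_lit 0) (nat_lit 0) (XT.lf (nat_lit 0) (nat_lit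 354656378226) (nat_lit 152) (nat_lit 76071425891) (nat_lit 0) (nat_lit 353337530564) (nat_lit 1) (nat_lit 5) (nat_lit 3) (nat_lit 4) (nat_lit 1) (nat_lit 4) (nat_lit 388) (nat_lit 273) (nat_lit 239)) (XT.lf (nat_lit 0) (nat_lit 384828474288) (nat_lit 152) (nat_lit 78306849910) (nat_lit 0) (nat_lit 383501928329) (nat_lit 1) (nat_lit 5) (nat_lit 3) (nat_lit 4) (nat_lit 1) (nat_lit 4) (nat_lit 389) (nat_lit 273) (nat_lit 238))) (XT.nd (nat_lit 78) (nat_lit 0) (nat_lit 0) (XT.lf (nat_lit 0) (nat_lit 417396858016) (nat_lit 152) (nat_lit 80756282339) (nat_lit 0) (nat_lit 416063184004) (nat_lit 1) (nat_lit 5) (nat_lit 3) (nat_lit 4) (nat_lit 1) (nat_lit 4) (nat_lit 390) (nat_lit 273) (nat_lit 237)) (XT.lf (nat_lit 0) (nat_lit 452554527240) (nat_lit 152) (nat_lit 83434238335) (nat_lit 0) (nat_lit 451214253179) (nat_lit 1) (nat_lit 5) (nat_lit 3) (nat_lit 4) (nat_lit 1) (nat_lit 4) (nat_lit 391)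 (nat_lit 273) (nat_lit 236)))) (XT.nd (nat_lit 156) (nat_lit 0) (nat_lit 0) (XT.nd (nat_lit 78) (nat_lit 0) (nat_lit 0) (XT.lf (nat_lit 0) (nat_lit 490509823704) (nat_lit 152) (nat_lit 86356587266) (nat_lit 0) (nat_lit 489163438486) (nat_lit 1) (nat_lit 5) (nat_lit 3) (nat_lit 4) (nat_lit 1) (nat_lit 4) (nat_lit 392) (nat_lit 273) (nat_lit 235)) (XT.lf (nat_lit 0) (nat_lit 531487667682) (nat_lit 152) (nat_lit 89540646755) (nat_lit 0) (nat_lit 530135623987) (nat_lit 1) (nat_lit 5) (nat_lit 3) (nat_lit 4) (nat_lit 1) (nat_lit 4) (nat_lit 393) (nat_lit 273) (nat_lit 234))) (XT.nd (nat_lit 78) (nat_lit 0) (nat_lit 0) (XT.lf (nat_lit 0) (nat_lit 575730890843) (nat_lit 152) (nat_lit 93005285304) (nat_lit 0) (nat_lit 574373607816) (nat_lit 1) (nat_lit 5) (nat_lit 3) (nat_lit 4) (nat_lit 1) (nat_lit 4) (nat_lit 394) (nat_lit 273) (nat_lit 233)) (XT.nd (nat_lit 78) (nat_lit 0) (nat_lit 0) (XT.lf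 (nat_lit 0) (nat_lit 623501675250) (nat_lit 152) (nat_lit 96771034102) (nat_lit 0) (nat_lit 622139540990) (nat_lit 1) (nat_lit 5) (nat_lit 3) (nat_lit 4) (nat_lit 1) (nat_lit 4) (nat_lit 395) (nat_lit 273) (nat_lit 232)) (XT.lf (nat_lit 0) (nat_lit 675083107033) (nat_lit 152) (nat_lit 100860208699) (nat_lit 0) (nat_lit 673716480890) (nat_lit 1) (nat_lit 5) (nat_lit 3) (nat_lit 4) (nat_lit 1) (nat_lit 4) (nat_lit 396) (nat_lit 273) (nat_lit 231))))))) (XT.nd (nat_lit 702) (nat_lit 0) (nat_lit 0) (XT.nd (nat_lit 312) (nat_lit 0) (nat_lit 0) (XT.nd (nat_lit 156) (nat_lit 0) (nat_lit 0) (XT.nd (nat_lit 78) (nat_lit 0) (nat_lit 0) (XT.lf (nat_lit 0) (nat_lit 730780853936) (nat_lit 152) (nat_lit 105297041241) (nat_lit 0) (nat_lit 729410068643) (nat_lit 1) (nat_lit 5) (nat_lit 3) (nat_lit 4) (nat_lit 1) (nat_lit 4) (nat_lit 397) (nat_lit 273) (nat_lit 230)) (XT.lf (nat_lit 0) (nat_lit 790924976681)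 (nat_lit 152) (nat_lit 110107824068) (nat_lit 0) (nat_lit 789550340322) (nat_lit 1) (nat_lit 5) (nat_lit 3) (nat_lit 4) (nat_lit 1) (nat_lit 4) (nat_lit 398) (nat_lit 273) (nat_lit 229))) (XT.nd (nat_lit 78) (nat_lit 0) (nat_lit 0) (XT.lf (nat_lit 0) (nat_lit 855871884883) (nat_lit 152) (nat_lit 115321065523) (nat_lit 0) (nat_lit 854493682724) (nat_lit 1) (nat_lit 5) (nat_lit 3) (nat_lit 4) (nat_lit 1) (nat_lit 4) (nat_lit 399) (nat_lit 273) (nat_lit 228)) (XT.lf (nat_lit 0) (nat_lit 926006449112) (nat_lit 152) (nat_lit 120967658890) (nat_lit 0) (nat_lit 924624945285) (nat_lit 1) (nat_lit 5) (nat_lit 3) (nat_lit 4) (nat_lit 1) (nat_lit 4) (nat_lit 400) (nat_lit 273) (nat_lit 227)))) (XT.nd (nat_lit 156) (nat_lit 0) (nat_lit 0) (XT.nd (nat_lit 78) (nat_lit 0) (nat_lit 0) (XT.lf (nat_lit 0) (nat_lit 1001744281598) (nat_lit 152) (nat_lit 127081065461) (nat_lit 0) (nat_lit 1000359720671)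 (nat_lit 1) (nat_lit 5) (nat_lit 3) (nat_lit 4) (nat_lit 1) (nat_lit 4) (nat_lit 401) (nat_lit 273) (nat_lit 226)) (XT.lf (nat_lit 0) (nat_lit 1083534199128) (nat_lit 152) (nat_lit 133697512831) (nat_lit 0) (nat_lit 1082146807553) (nat_lit 1) (nat_lit 5) (nat_lit 3) (nat_lit 4) (nat_lit 1) (nat_lit 4) (nat_lit 402) (nat_lit 273) (nat_lit 225))) (XT.nd (nat_lit 78) (nat_lit 0) (nat_lit 0) (XT.lf (nat_lit 0) (nat_lit 1171860882693) (nat_lit 152) (nat_lit 140856209578) (nat_lit 0) (nat_lit 1170470870148) (nat_lit 1) (nat_lit 5) (nat_lit 3) (nat_lit 4) (nat_lit 1) (nat_lit 4) (nat_lit 403) (nat_lit 273) (nat_lit 224)) (XT.nd (nat_lit 78) (nat_lit 0) (nat_lit 0) (XT.lf (nat_lit 0) (nat_lit 1267247749678) (nat_lit 152) (nat_lit 148599577608) (nat_lit 0) (nat_lit 1265855310308) (nat_lit 1) (nat_lit 5) (nat_lit 3) (nat_lit 4) (nat_lit 1) (nat_lit 4) (nat_lit 404) (nat_lit 273) (nat_lit 223))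 (XT.lf (nat_lit 0) (nat_lit 1370260055591) (nat_lit 152) (nat_lit 156973503547) (nat_lit 0) (nat_lit 1368865369162) (nat_lit 1) (nat_lit 5) (nat_lit 3) (nat_lit 4) (nat_lit 1) (nat_lit 4) (nat_lit 405) (nat_lit 273) (nat_lit 222)))))) (XT.nd (nat_lit 312) (nat_lit 0) (nat_lit 0) (XT.nd (nat_lit 156) (nat_lit 0) (nat_lit 0) (XT.nd (nat_lit 78) (nat_lit 0) (nat_lit 0) (XT.lf (nat_lit 0) (nat_lit 1481508243726) (nat_lit 152) (nat_lit 166027610658) (nat_lit 0) (nat_lit 1480111476686) (nat_lit 1) (nat_lit 5) (nat_lit 3) (nat_lit 4) (nat_lit 1) (nat_lit 4) (nat_lit 406) (nat_lit 273) (nat_lit 221)) (XT.lf (nat_lit 0) (nat_lit 1601651562606) (nat_lit 152) (nat_lit 175815552911) (nat_lit 0) (nat_lit 1600252869075) (nat_lit 1) (nat_lit 5) (nat_lit 3) (nat_lit 4) (nat_lit 1) (nat_lit 4) (nat_lit 407) (nat_lit 273) (nat_lit 220))) (XT.nd (nat_lit 78) (nat_lit 0) (nat_lit 0) (XT.lf (nat_lit 0) (nat_lit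 1731401972638) (nat_lit 152) (nat_lit 186395332926) (nat_lit 0) (nat_lit 1730001495319) (nat_lit 1) (nat_lit 5) (nat_lit 3) (nat_lit 4) (nat_lit 1) (nat_lit 4) (nat_lit 408) (nat_lit 273) (nat_lit 219)) (XT.lf (nat_lit 0) (nat_lit 1871528365142) (nat_lit 152) (nat_lit 197829645696) (nat_lit 0) (nat_lit 1870126236167) (nat_lit 1) (nat_lit 5) (nat_lit 3) (nat_lit 4) (nat_lit 1) (nat_lit 4) (nat_lit 409) (nat_lit 273) (nat_lit 218)))) (XT.nd (nat_lit 156) (nat_lit 0) (nat_lit 0) (XT.nd (nat_lit 78) (nat_lit 0) (nat_lit 0) (XT.lf (nat_lit 0) (nat_lit 2022861118739) (nat_lit 152) (nat_lit 210186250111) (nat_lit 0) (nat_lit 2021457460453) (nat_lit 1) (nat_lit 5) (nat_lit 3) (nat_lit 4) (nat_lit 1) (nat_lit 4) (nat_lit 410) (nat_lit 273) (nat_lit 217)) (XT.lf (nat_lit 0) (nat_lit 2186297020119) (nat_lit 152) (nat_lit 223538370494) (nat_lit 0) (nat_lit 2184891945804) (nat_lit 1) (nat_lit 5) (nat_lit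 3) (nat_lit 4) (nat_lit 1) (nat_lit 4) (nat_lit 411) (nat_lit 273) (nat_lit 216))) (XT.nd (nat_lit 78) (nat_lit 0) (nat_lit 0) (XT.lf (nat_lit 0) (nat_lit 2362804578325) (nat_lit 152) (nat_lit 237965130521) (nat_lit 0) (nat_lit 2361398192872) (nat_lit 1) (nat_lit 5) (nat_lit 3) (nat_lit 4) (nat_lit 1) (nat_lit 4) (nat_lit 412) (nat_lit 273) (nat_lit 215)) (XT.nd (nat_lit 78) (nat_lit 0) (nat_lit 0) (XT.lf (nat_lit 0) (nat_lit 2553429764073) (nat_lit 152) (nat_lit 253552022103) (nat_lit 0) (nat_lit 2552022164604) (nat_lit 1) (nat_lit 5) (nat_lit 3) (nat_lit 4) (nat_lit 1) (nat_lit 4) (nat_lit 413) (nat_lit 273) (nat_lit 214)) (XT.lf (nat_lit 0) (nat_lit 2759302208093) (nat_lit 152) (nat_lit 270391412006) (nat_lit 0) (nat_lit 2757893484535) (nat_lit 1) (nat_lit 5) (nat_lit 3) (nat_lit 4) (nat_lit 1) (nat_lit 4) (nat_lit 414) (nat_lit 273) (nat_lit 213))))))))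
noncomputable def xc30 : XT := (XT.nd (nat_lit 43134) (nat_lit 0) (nat_lit 0) (XT.nd (nat_lit 42432) (nat_lit 0) (nat_lit 0) (XT.nd (nat_lit 42042) (nat_lit 0) (nat_lit 152) (XT.nd (nat_lit 156) (nat_lit 0) (nat_lit 0) (XT.nd (nat_lit 78) (nat_lit 0) (nat_lit 0) (XT.lf (nat_lit 0) (nat_lit 2981641895240) (nat_lit 152) (nat_lit 288583089205) (nat_lit 0) (nat_lit 2980232130858) (nat_lit 1) (nat_lit 5) (nat_lit 3) (nat_lit 4) (nat_lit 1) (nat_lit 4) (nat_lit 415) (nat_lit 273) (nat_lit 212)) (XT.lf (nat_lit 0) (nat_lit 3221766394029) (nat_lit 152) (nat_lit 308234856234) (nat_lit 0) (nat_lit 3220355665922) (nat_lit 1) (nat_lit 5) (nat_lit 3) (nat_lit 4) (nat_lit 1) (nat_lit 4) (nat_lit 416) (nat_lit 273) (nat_lit 211))) (XT.nd (nat_lit 41808) (nat_lit 0) (nat_lit 152) (XT.lf (nat_lit 0) (nat_lit 3481098664453) (nat_lit 152) (nat_lit 329463168008) (nat_lit 0) (nat_lit 3479687044008) (nat_lit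 1) (nat_lit 5) (nat_lit 3) (nat_lit 4) (nat_lit 1) (nat_lit 4) (nat_lit 417) (nat_lit 273) (nat_lit 210)) (XT.lf (nat_lit 0) (nat_lit 6518137375) (nat_lit 76) (nat_lit 9855913936) (nat_lit 76) (nat_lit 9855913936) (nat_lit 3) (nat_lit 4) (nat_lit 4) (nat_lit 5) (nat_lit 4) (nat_lit 4) (nat_lit 352) (nat_lit 274) (nat_lit 274)))) (XT.nd (nat_lit 156) (nat_lit 0) (nat_lit 0) (XT.nd (nat_lit 78) (nat_lit 0) (nat_lit 0) (XT.lf (nat_lit 0) (nat_lit 23676799036) (nat_lit 76) (nat_lit 16359047025) (nat_lit 76) (nat_lit 16236119293) (nat_lit 3) (nat_lit 4) (nat_lit 4) (nat_lit 5) (nat_lit 4) (nat_lit 4) (nat_lit 353) (nat_lit 274) (nat_lit 273)) (XT.lf (nat_lit 0) (nat_lit 34700608059) (nat_lit 76) (nat_lit 12971932305) (nat_lit 76) (nat_lit 12735182599) (nat_lit 3) (nat_lit 4) (nat_lit 4) (nat_lit 5) (nat_lit 4) (nat_lit 4) (nat_lit 354) (nat_lit 274) (nat_lit 272))) (XT.nd (nat_lit 78) (nat_lit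 0) (nat_lit 0) (XT.lf (nat_lit 0) (nat_lit 46173028094) (nat_lit 76) (nat_lit 9530411921) (nat_lit 76) (nat_lit 9188271499) (nat_lit 3) (nat_lit 4) (nat_lit 4) (nat_lit 5) (nat_lit 4) (nat_lit 4) (nat_lit 355) (nat_lit 274) (nat_lit 271)) (XT.nd (nat_lit 78) (nat_lit 0) (nat_lit 0) (XT.lf (nat_lit 0) (nat_lit 58162043854) (nat_lit 76) (nat_lit 6014091679) (nat_lit 76) (nat_lit 5574367260) (nat_lit 3) (nat_lit 4) (nat_lit 4) (nat_lit 5) (nat_lit 4) (nat_lit 4) (nat_lit 356) (nat_lit 274) (nat_lit 270)) (XT.lf (nat_lit 0) (nat_lit 70738701357) (nat_lit 76) (nat_lit 2402134125) (nat_lit 76) (nat_lit 1872054154) (nat_lit 3) (nat_lit 4) (nat_lit 4) (nat_lit 5) (nat_lit 4) (nat_lit 4) (nat_lit 357) (nat_lit 274) (nat_lit 269)))))) (XT.nd (nat_lit 312) (nat_lit 0) (nat_lit 0) (XT.nd (nat_lit 156) (nat_lit 0) (nat_lit 0) (XT.nd (nat_lit 78) (nat_lit 0) (nat_lit 0) (XT.lf (nat_lit 0) (nat_lit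 1960310955) (nat_lit 152) (nat_lit 77344638583) (nat_lit 0) (nat_lit 1392030843) (nat_lit 1) (nat_lit 5) (nat_lit 3) (nat_lit 4) (nat_lit 1) (nat_lit 4) (nat_lit 358) (nat_lit 274) (nat_lit 268)) (XT.lf (nat_lit 0) (nat_lit 6004522696) (nat_lit 152) (nat_lit 75462380238) (nat_lit 0) (nat_lit 5364515434) (nat_lit 1) (nat_lit 5) (nat_lit 3) (nat_lit 4) (nat_lit 1) (nat_lit 4) (nat_lit 359) (nat_lit 274) (nat_lit 267))) (XT.nd (nat_lit 78) (nat_lit 0) (nat_lit 0) (XT.lf (nat_lit 0) (nat_lit 10209405238) (nat_lit 152) (nat_lit 73757271614) (nat_lit 0) (nat_lit 9502983947) (nat_lit 1) (nat_lit 5) (nat_lit 3) (nat_lit 4) (nat_lit 1) (nat_lit 4) (nat_lit 360) (nat_lit 274) (nat_lit 266)) (XT.lf (nat_lit 0) (nat_lit 14599876404) (nat_lit 152) (nat_lit 72219208361) (nat_lit 0) (nat_lit 13831960642) (nat_lit 1) (nat_lit 5) (nat_lit 3) (nat_lit 4) (nat_lit 1) (nat_lit 4) (nat_lit 361) (nat_lit 274)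 (nat_lit 265)))) (XT.nd (nat_lit 156) (nat_lit 0) (nat_lit 0) (XT.nd (nat_lit 78) (nat_lit 0) (nat_lit 0) (XT.lf (nat_lit 0) (nat_lit 19201953800) (nat_lit 152) (nat_lit 70839076033) (nat_lit 0) (nat_lit 18377098713) (nat_lit 1) (nat_lit 5) (nat_lit 3) (nat_lit 4) (nat_lit 1) (nat_lit 4) (nat_lit 362) (nat_lit 274) (nat_lit 264)) (XT.lf (nat_lit 0) (nat_lit 24042908996) (nat_lit 152) (nat_lit 69608696066) (nat_lit 0) (nat_lit 23165332312) (nat_lit 1) (nat_lit 5) (nat_lit 3) (nat_lit 4) (nat_lit 1) (nat_lit 4) (nat_lit 363) (nat_lit 274) (nat_lit 263))) (XT.nd (nat_lit 78) (nat_lit 0) (nat_lit 0) (XT.lf (nat_lit 0) (nat_lit 29151429134) (nat_lit 152) (nat_lit 68520777320) (nat_lit 0) (nat_lit 28225036157) (nat_lit 1) (nat_lit 5) (nat_lit 3) (nat_lit 4) (nat_lit 1) (nat_lit 4) (nat_lit 364) (nat_lit 274) (nat_lit 262)) (XT.nd (nat_lit 78) (nat_lit 0) (nat_lit 0) (XT.lf (nat_lit 0) (nat_lit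 34557786926) (nat_lit 152) (nat_lit 67568872869) (nat_lit 0) (nat_lit 33586193677) (nat_lit 1) (nat_lit 5) (nat_lit 3) (nat_lit 4) (nat_lit 1) (nat_lit 4) (nat_lit 365) (nat_lit 274) (nat_lit 261)) (XT.lf (nat_lit 0) (nat_lit 40294020048) (nat_lit 152) (nat_lit 66747341798) (nat_lit 0) (nat_lit 39280574695) (nat_lit 1) (nat_lit 5) (nat_lit 3) (nat_lit 4) (nat_lit 1) (nat_lit 4) (nat_lit 366) (nat_lit 274) (nat_lit 260))))))) (XT.nd (nat_lit 702) (nat_lit 0) (nat_lit 0) (XT.nd (nat_lit 312) (nat_lit 0) (nat_lit 0) (XT.nd (nat_lit 156) (nat_lit 0) (nat_lit 0) (XT.nd (nat_lit 78) (nat_lit 0) (nat_lit 0) (XT.lf (nat_lit 0) (nat_lit 46394120992) (nat_lit 152) (nat_lit 66051315775) (nat_lit 0) (nat_lit 45341923692) (nat_lit 1) (nat_lit 5) (nat_lit 3) (nat_lit 4) (nat_lit 1) (nat_lit 4) (nat_lit 367) (nat_lit 274) (nat_lit 259)) (XT.lf (nat_lit 0) (nat_lit 52894238505) (nat_lit 152) (nat_lit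 65476670201) (nat_lit 0) (nat_lit 51806159771) (nat_lit 1) (nat_lit 5) (nat_lit 3) (nat_lit 4) (nat_lit 1) (nat_lit 4) (nat_lit 368) (nat_lit 274) (nat_lit 258))) (XT.nd (nat_lit 78) (nat_lit 0) (nat_lit 0) (XT.lf (nat_lit 0) (nat_lit 59832891801) (nat_lit 152) (nat_lit 65019999769) (nat_lit 0) (nat_lit 58711589518) (nat_lit 1) (nat_lit 5) (nat_lit 3) (nat_lit 4) (nat_lit 1) (nat_lit 4) (nat_lit 369) (nat_lit 274) (nat_lit 257)) (XT.lf (nat_lit 0) (nat_lit 67251198826) (nat_lit 152) (nat_lit 64678598283) (nat_lit 0) (nat_lit 66099133998) (nat_lit 1) (nat_lit 5) (nat_lit 3) (nat_lit 4) (nat_lit 1) (nat_lit 4) (nat_lit 370) (nat_lit 274) (nat_lit 256)))) (XT.nd (nat_lit 156) (nat_lit 0) (nat_lit 0) (XT.nd (nat_lit 78) (nat_lit 0) (nat_lit 0) (XT.lf (nat_lit 0) (nat_lit 75193119918) (nat_lit 152) (nat_lit 64450442625) (nat_lit 0) (nat_lit 74012571252) (nat_lit 1) (nat_lit 5) (nat_lit 3)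 (nat_lit 4) (nat_lit 1) (nat_lit 4) (nat_lit 371) (nat_lit 274) (nat_lit 255)) (XT.lf (nat_lit 0) (nat_lit 83705718313) (nat_lit 152) (nat_lit 64334180759) (nat_lit 0) (nat_lit 82498795722) (nat_lit 1) (nat_lit 5) (nat_lit 3) (nat_lit 4) (nat_lit 1) (nat_lit 4) (nat_lit 372) (nat_lit 274) (nat_lit 254))) (XT.nd (nat_lit 78) (nat_lit 0) (nat_lit 0) (XT.lf (nat_lit 0) (nat_lit 92839439039) (nat_lit 152) (nat_lit 64329123728) (nat_lit 0) (nat_lit 91608096147) (nat_lit 1) (nat_lit 5) (nat_lit 3) (nat_lit 4) (nat_lit 1) (nat_lit 4) (nat_lit 373) (nat_lit 274) (nat_lit 253)) (XT.nd (nat_lit 78) (nat_lit 0) (nat_lit 0) (XT.lf (nat_lit 0) (nat_lit 102648407848) (nat_lit 152) (nat_lit 64435241563) (nat_lit 0) (nat_lit 101394453567) (nat_lit 1) (nat_lit 5) (nat_lit 3) (nat_lit 4) (nat_lit 1) (nat_lit 4) (nat_lit 374) (nat_lit 274) (nat_lit 252)) (XT.lf (nat_lit 0) (nat_lit 113190751962) (nat_lit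 152) (nat_lit 64653163111) (nat_lit 0) (nat_lit 111915861209) (nat_lit 1) (nat_lit 5) (nat_lit 3) (nat_lit 4) (nat_lit 1) (nat_lit 4) (nat_lit 375) (nat_lit 274) (nat_lit 251)))))) (XT.nd (nat_lit 312) (nat_lit 0) (nat_lit 0) (XT.nd (nat_lit 156) (nat_lit 0) (nat_lit 0) (XT.nd (nat_lit 78) (nat_lit 0) (nat_lit 0) (XT.lf (nat_lit 0) (nat_lit 124528944532) (nat_lit 152) (nat_lit 64984179759) (nat_lit 0) (nat_lit 123234668158) (nat_lit 1) (nat_lit 5) (nat_lit 3) (nat_lit 4) (nat_lit 1) (nat_lit 4) (nat_lit 376) (nat_lit 274) (nat_lit 250)) (XT.lf (nat_lit 0) (nat_lit 136730174847) (nat_lit 152) (nat_lit 65430253087) (nat_lit 0) (nat_lit 135417948823) (nat_lit 1) (nat_lit 5) (nat_lit 3) (nat_lit 4) (nat_lit 1) (nat_lit 4) (nat_lit 377) (nat_lit 274) (nat_lit 249))) (XT.nd (nat_lit 78) (nat_lit 0) (nat_lit 0) (XT.lf (nat_lit 0) (nat_lit 149866746495) (nat_lit 152) (nat_lit 65994026493) (nat_lit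 0) (nat_lit 148537900424) (nat_lit 1) (nat_lit 5) (nat_lit 3) (nat_lit 4) (nat_lit 1) (nat_lit 4) (nat_lit 378) (nat_lit 274) (nat_lit 248)) (XT.lf (nat_lit 0) (nat_lit 164016505825) (nat_lit 152) (nat_lit 66678840855) (nat_lit 0) (nat_lit 162672270823) (nat_lit 1) (nat_lit 5) (nat_lit 3) (nat_lit 4) (nat_lit 1) (nat_lit 4) (nat_lit 379) (nat_lit 274) (nat_lit 247)))) (XT.nd (nat_lit 156) (nat_lit 0) (nat_lit 0) (XT.nd (nat_lit 78) (nat_lit 0) (nat_lit 0) (XT.lf (nat_lit 0) (nat_lit 179263303263) (nat_lit 152) (nat_lit 67488754334) (nat_lit 0) (nat_lit 177904819251) (nat_lit 1) (nat_lit 5) (nat_lit 3) (nat_lit 4) (nat_lit 1) (nat_lit 4) (nat_lit 380) (nat_lit 274) (nat_lit 246)) (XT.lf (nat_lit 0) (nat_lit 195697490203) (nat_lit 152) (nat_lit 68428566416) (nat_lit 0) (nat_lit 194325812661) (nat_lit 1) (nat_lit 5) (nat_lit 3) (nat_lit 4) (nat_lit 1) (nat_lit 4) (nat_lit 381) (nat_lit 274)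 (nat_lit 245))) (XT.nd (nat_lit 78) (nat_lit 0) (nat_lit 0) (XT.lf (nat_lit 0) (nat_lit 213416454417) (nat_lit 152) (nat_lit 69503846358) (nat_lit 0) (nat_lit 212032560646) (nat_lit 1) (nat_lit 5) (nat_lit 3) (nat_lit 4) (nat_lit 1) (nat_lit 4) (nat_lit 382) (nat_lit 274) (nat_lit 244)) (XT.nd (nat_lit 78) (nat_lit 0) (nat_lit 0) (XT.lf (nat_lit 0) (nat_lit 232525197176) (nat_lit 152) (nat_lit 70720966190) (nat_lit 0) (nat_lit 231129992080) (nat_lit 1) (nat_lit 5) (nat_lit 3) (nat_lit 4) (nat_lit 1) (nat_lit 4) (nat_lit 383) (nat_lit 274) (nat_lit 243)) (XT.lf (nat_lit 0) (nat_lit 253136955473) (nat_lit 152) (nat_lit 72087138473) (nat_lit 0) (nat_lit 251731276929) (nat_lit 1) (nat_lit 5) (nat_lit 3) (nat_lit 4) (nat_lit 1) (nat_lit 4) (nat_lit 384) (nat_lit 274) (nat_lit 242))))))))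
noncomputable def xc31 : XT := (XT.nd (nat_lit 1404) (nat_lit 0) (nat_lit 0) (XT.nd (nat_lit 702) (nat_lit 0) (nat_lit 0) (XT.nd (nat_lit 312) (nat_lit 0) (nat_lit 0) (XT.nd (nat_lit 156) (nat_lit 0) (nat_lit 0) (XT.nd (nat_lit 78) (nat_lit 0) (nat_lit 0) (XT.lf (nat_lit 0) (nat_lit 275373873062) (nat_lit 152) (nat_lit 73610459043) (nat_lit 0) (nat_lit 273958496881) (nat_lit 1) (nat_lit 5) (nat_lit 3) (nat_lit 4) (nat_lit 1) (nat_lit 4) (nat_lit 385) (nat_lit 274) (nat_lit 241)) (XT.lf (nat_lit 0) (nat_lit 299367724269) (nat_lit 152) (nat_lit 75299954986) (nat_lit 0) (nat_lit 297943368794) (nat_lit 1) (nat_lit 5) (nat_lit 3) (nat_lit 4) (nat_lit 1) (nat_lit 4) (nat_lit 386) (nat_lit 274) (nat_lit 240))) (XT.nd (nat_lit 78) (nat_lit 0) (nat_lit 0) (XT.lf (nat_lit 0) (nat_lit 325260694878) (nat_lit 152) (nat_lit 77165638128) (nat_lit 0) (nat_lit 323828025242) (nat_lit 1) (nat_lit 5) (nat_lit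 3) (nat_lit 4) (nat_lit 1) (nat_lit 4) (nat_lit 387) (nat_lit 274) (nat_lit 239)) (XT.lf (nat_lit 0) (nat_lit 353206224717) (nat_lit 152) (nat_lit 79218564371) (nat_lit 0) (nat_lit 351765856784) (nat_lit 1) (nat_lit 5) (nat_lit 3) (nat_lit 4) (nat_lit 1) (nat_lit 4) (nat_lit 388) (nat_lit 274) (nat_lit 238)))) (XT.nd (nat_lit 156) (nat_lit 0) (nat_lit 0) (XT.nd (nat_lit 78) (nat_lit 0) (nat_lit 0) (XT.lf (nat_lit 0) (nat_lit 383369916923) (nat_lit 152) (nat_lit 81470899202) (nat_lit 0) (nat_lit 381922420938) (nat_lit 1) (nat_lit 5) (nat_lit 3) (nat_lit 4) (nat_lit 1) (nat_lit 4) (nat_lit 389) (nat_lit 274) (nat_lit 237)) (XT.lf (nat_lit 0) (nat_lit 415930519304) (nat_lit 152) (nat_lit 83935989791) (nat_lit 0) (nat_lit 414476423270) (nat_lit 1) (nat_lit 5) (nat_lit 3) (nat_lit 4) (nat_lit 1) (nat_lit 4) (nat_lit 390) (nat_lit 274) (nat_lit 236))) (XT.nd (nat_lit 78) (nat_lit 0) (nat_lit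 0) (XT.lf (nat_lit 0) (nat_lit 451080983577) (nat_lit 152) (nat_lit 86628444083) (nat_lit 0) (nat_lit 449620776386) (nat_lit 1) (nat_lit 5) (nat_lit 3) (nat_lit 4) (nat_lit 1) (nat_lit 4) (nat_lit 391) (nat_lit 274) (nat_lit 235)) (XT.nd (nat_lit 78) (nat_lit 0) (nat_lit 0) (XT.lf (nat_lit 0) (nat_lit 489029608790) (nat_lit 152) (nat_lit 89564217362) (nat_lit 0) (nat_lit 487563743120) (nat_lit 1) (nat_lit 5) (nat_lit 3) (nat_lit 4) (nat_lit 1) (nat_lit 4) (nat_lit 392) (nat_lit 274) (nat_lit 234)) (XT.lf (nat_lit 0) (nat_lit 530001275684) (nat_lit 152) (nat_lit 92760706803) (nat_lit 0) (nat_lit 528530170683) (nat_lit 1) (nat_lit 5) (nat_lit 3) (nat_lit 4) (nat_lit 1) (nat_lit 4) (nat_lit 393) (nat_lit 274) (nat_lit 233)))))) (XT.nd (nat_lit 312) (nat_lit 0) (nat_lit 0) (XT.nd (nat_lit 156) (nat_lit 0) (nat_lit 0) (XT.nd (nat_lit 78) (nat_lit 0) (nat_lit 0) (XT.lf (nat_lit 0) (nat_lit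 574238779322) (nat_lit 152) (nat_lit 96236854565) (nat_lit 0) (nat_lit 572762823088) (nat_lit 1) (nat_lit 5) (nat_lit 3) (nat_lit 4) (nat_lit 1) (nat_lit 4) (nat_lit 394) (nat_lit 274) (nat_lit 232)) (XT.lf (nat_lit 0) (nat_lit 622004267875) (nat_lit 152) (nat_lit 100013260044) (nat_lit 0) (nat_lit 620523819759) (nat_lit 1) (nat_lit 5) (nat_lit 3) (nat_lit 4) (nat_lit 1) (nat_lit 4) (nat_lit 395) (nat_lit 274) (nat_lit 231))) (XT.nd (nat_lit 78) (nat_lit 0) (nat_lit 0) (XT.lf (nat_lit 0) (nat_lit 673580796089) (nat_lit 152) (nat_lit 104112301938) (nat_lit 0) (nat_lit 672096188822) (nat_lit 1) (nat_lit 5) (nat_lit 3) (nat_lit 4) (nat_lit 1) (nat_lit 4) (nat_lit 396) (nat_lit 274) (nat_lit 230)) (XT.lf (nat_lit 0) (nat_lit 729274002651) (nat_lit 152) (nat_lit 108558270865) (nat_lit 0) (nat_lit 727785544318) (nat_lit 1) (nat_lit 5) (nat_lit 3) (nat_lit 4) (nat_lit 1) (nat_lit 4) (nat_lit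 397) (nat_lit 274) (nat_lit 229)))) (XT.nd (nat_lit 156) (nat_lit 0) (nat_lit 0) (XT.nd (nat_lit 78) (nat_lit 0) (nat_lit 0) (XT.lf (nat_lit 0) (nat_lit 789413921375) (nat_lit 152) (nat_lit 113377513309) (nat_lit 0) (nat_lit 787921897242) (nat_lit 1) (nat_lit 5) (nat_lit 3) (nat_lit 4) (nat_lit 1) (nat_lit 4) (nat_lit 398) (nat_lit 274) (nat_lit 228)) (XT.lf (nat_lit 0) (nat_lit 854356936967) (nat_lit 152) (nat_lit 118598587742) (nat_lit 0) (nat_lit 852861611166) (nat_lit 1) (nat_lit 5) (nat_lit 3) (nat_lit 4) (nat_lit 1) (nat_lit 4) (nat_lit 399) (nat_lit 274) (nat_lit 227))) (XT.nd (nat_lit 78) (nat_lit 0) (nat_lit 0) (XT.lf (nat_lit 0) (nat_lit 924487896926) (nat_lit 152) (nat_lit 124252433866) (nat_lit 0) (nat_lit 922989514026) (nat_lit 1) (nat_lit 5) (nat_lit 3) (nat_lit 4) (nat_lit 1) (nat_lit 4) (nat_lit 400) (nat_lit 274) (nat_lit 226)) (XT.nd (nat_lit 78) (nat_lit 0) (nat_lit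 0) (XT.lf (nat_lit 0) (nat_lit 1000222392126) (nat_lit 152) (nat_lit 130372555953) (nat_lit 0) (nat_lit 998721178578) (nat_lit 1) (nat_lit 5) (nat_lit 3) (nat_lit 4) (nat_lit 1) (nat_lit 4) (nat_lit 401) (nat_lit 274) (nat_lit 225)) (XT.lf (nat_lit 0) (nat_lit 1082009219576) (nat_lit 152) (nat_lit 136995221394) (nat_lit 0) (nat_lit 1080505385057) (nat_lit 1) (nat_lit 5) (nat_lit 3) (nat_lit 4) (nat_lit 1) (nat_lit 4) (nat_lit 402) (nat_lit 274) (nat_lit 224))))))) (XT.nd (nat_lit 702) (nat_lit 0) (nat_lit 0) (XT.nd (nat_lit 312) (nat_lit 0) (nat_lit 0) (XT.nd (nat_lit 156) (nat_lit 0) (nat_lit 0) (XT.nd (nat_lit 78) (nat_lit 0) (nat_lit 0) (XT.lf (nat_lit 0) (nat_lit 1170333041955) (nat_lit 152) (nat_lit 144159675614) (nat_lit 0) (nat_lit 1168826780612) (nat_lit 1) (nat_lit 5) (nat_lit 3) (nat_lit 4) (nat_lit 1) (nat_lit 4) (nat_lit 403) (nat_lit 274) (nat_lit 223)) (XT.lf (nat_lit 0)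 (nat_lit 1265717259695) (nat_lit 152) (nat_lit 151908374637) (nat_lit 0) (nat_lit 1264208751292) (nat_lit 1) (nat_lit 5) (nat_lit 3) (nat_lit 4) (nat_lit 1) (nat_lit 4) (nat_lit 404) (nat_lit 274) (nat_lit 222))) (XT.nd (nat_lit 78) (nat_lit 0) (nat_lit 0) (XT.lf (nat_lit 0) (nat_lit 1368727112603) (nat_lit 152) (nat_lit 160287236681) (nat_lit 0) (nat_lit 1367216523589) (nat_lit 1) (nat_lit 5) (nat_lit 3) (nat_lit 4) (nat_lit 1) (nat_lit 4) (nat_lit 405) (nat_lit 274) (nat_lit 221)) (XT.lf (nat_lit 0) (nat_lit 1479973029437) (nat_lit 152) (nat_lit 169345914260) (nat_lit 0) (nat_lit 1478460513932) (nat_lit 1) (nat_lit 5) (nat_lit 3) (nat_lit 4) (nat_lit 1) (nat_lit 4) (nat_lit 406) (nat_lit 274) (nat_lit 220)))) (XT.nd (nat_lit 156) (nat_lit 0) (nat_lit 0) (XT.nd (nat_lit 78) (nat_lit 0) (nat_lit 0) (XT.lf (nat_lit 0) (nat_lit 1600114245260) (nat_lit 152) (nat_lit 179138088427) (nat_lit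 0) (nat_lit 1598599945967) (nat_lit 1) (nat_lit 5) (nat_lit 3) (nat_lit 4) (nat_lit 1) (nat_lit 4) (nat_lit 407) (nat_lit 274) (nat_lit 219)) (XT.lf (nat_lit 0) (nat_lit 1729862708018) (nat_lit 152) (nat_lit 189721786881) (nat_lit 0) (nat_lit 1728346757069) (nat_lit 1) (nat_lit 5) (nat_lit 3) (nat_lit 4) (nat_lit 1) (nat_lit 4) (nat_lit 408) (nat_lit 274) (nat_lit 218))) (XT.nd (nat_lit 78) (nat_lit 0) (nat_lit 0) (XT.lf (nat_lit 0) (nat_lit 1869987297490) (nat_lit 152) (nat_lit 201159727836) (nat_lit 0) (nat_lit 1868469817229) (nat_lit 1) (nat_lit 5) (nat_lit 3) (nat_lit 4) (nat_lit 1) (nat_lit 4) (nat_lit 409) (nat_lit 274) (nat_lit 217)) (XT.nd (nat_lit 78) (nat_lit 0) (nat_lit 0) (XT.lf (nat_lit 0) (nat_lit 2021318381613) (nat_lit 152) (nat_lit 213519691681) (nat_lit 0) (nat_lit 2019799485324) (nat_lit 1) (nat_lit 5) (nat_lit 3) (nat_lit 4) (nat_lit 1) (nat_lit 4) (nat_lit 410) (nat_lit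 274) (nat_lit 216)) (XT.lf (nat_lit 0) (nat_lit 2184752737183) (nat_lit 152) (nat_lit 226874922647) (nat_lit 0) (nat_lit 2183232529756) (nat_lit 1) (nat_lit 5) (nat_lit 3) (nat_lit 4) (nat_lit 1) (nat_lit 4) (nat_lit 411) (nat_lit 274) (nat_lit 215)))))) (XT.nd (nat_lit 390) (nat_lit 0) (nat_lit 0) (XT.nd (nat_lit 156) (nat_lit 0) (nat_lit 0) (XT.nd (nat_lit 78) (nat_lit 0) (nat_lit 0) (XT.lf (nat_lit 0) (nat_lit 2361258864084) (nat_lit 152) (nat_lit 241304562844) (nat_lit 0) (nat_lit 2359737442641) (nat_lit 1) (nat_lit 5) (nat_lit 3) (nat_lit 4) (nat_lit 1) (nat_lit 4) (nat_lit 412) (nat_lit 274) (nat_lit 214)) (XT.lf (nat_lit 0) (nat_lit 2551882724550) (nat_lit 152) (nat_lit 256894121250) (nat_lit 0) (nat_lit 2550360179017) (nat_lit 1) (nat_lit 5) (nat_lit 3) (nat_lit 4) (nat_lit 1) (nat_lit 4) (nat_lit 413) (nat_lit 274) (nat_lit 213))) (XT.nd (nat_lit 78) (nat_lit 0) (nat_lit 0) (XT.lf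 (nat_lit 0) (nat_lit 2757753941457) (nat_lit 152) (nat_lit 273735980433) (nat_lit 0) (nat_lit 2756230355101) (nat_lit 1) (nat_lit 5) (nat_lit 3) (nat_lit 4) (nat_lit 1) (nat_lit 4) (nat_lit 414) (nat_lit 274) (nat_lit 212)) (XT.nd (nat_lit 78) (nat_lit 0) (nat_lit 0) (XT.lf (nat_lit 0) (nat_lit 2980092492387) (nat_lit 152) (nat_lit 291929944005) (nat_lit 0) (nat_lit 2978567942307) (nat_lit 1) (nat_lit 5) (nat_lit 3) (nat_lit 4) (nat_lit 1) (nat_lit 4) (nat_lit 415) (nat_lit 274) (nat_lit 211)) (XT.lf (nat_lit 0) (nat_lit 3220215939124) (nat_lit 152) (nat_lit 311583828044) (nat_lit 0) (nat_lit 3218690496705) (nat_lit 1) (nat_lit 5) (nat_lit 3) (nat_lit 4) (nat_lit 1) (nat_lit 4) (nat_lit 416) (nat_lit 274) (nat_lit 210))))) (XT.nd (nat_lit 41730) (nat_lit 0) (nat_lit 152) (XT.nd (nat_lit 41652) (nat_lit 0) (nat_lit 228) (XT.lf (nat_lit 0) (nat_lit 3479547235427) (nat_lit 152) (nat_lit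 332814100013) (nat_lit 0) (nat_lit 3478020966768) (nat_lit 1) (nat_lit 5) (nat_lit 3) (nat_lit 4) (nat_lit 1) (nat_lit 4) (nat_lit 417) (nat_lit 274) (nat_lit 209)) (XT.lf (nat_lit 0) (nat_lit 9741448160) (nat_lit 152) (nat_lit 3364257075) (nat_lit 0) (nat_lit 9741448160) (nat_lit 4) (nat_lit 5) (nat_lit 6) (nat_lit 4) (nat_lit 4) (nat_lit 4) (nat_lit 350) (nat_lit 275) (nat_lit 275))) (XT.nd (nat_lit 78) (nat_lit 0) (nat_lit 0) (XT.lf (nat_lit 0) (nat_lit 2715980244) (nat_lit 76) (nat_lit 23182905128) (nat_lit 76) (nat_lit 23050143177) (nat_lit 3) (nat_lit 4) (nat_lit 4) (nat_lit 5) (nat_lit 4) (nat_lit 4) (nat_lit 351) (nat_lit 275) (nat_lit 274)) (XT.nd (nat_lit 78) (nat_lit 0) (nat_lit 0) (XT.lf (nat_lit 0) (nat_lit 12793296971) (nat_lit 76) (nat_lit 19966031978) (nat_lit 76) (nat_lit 19710342295) (nat_lit 3) (nat_lit 4) (nat_lit 4) (nat_lit 5) (nat_lit 4) (nat_lit 4) (nat_lit 352)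 (nat_lit 275) (nat_lit 273)) (XT.lf (nat_lit 0) (nat_lit 23208841831) (nat_lit 76) (nat_lit 16725697570) (nat_lit 76) (nat_lit 16356185914) (nat_lit 3) (nat_lit 4) (nat_lit 4) (nat_lit 5) (nat_lit 4) (nat_lit 4) (nat_lit 353) (nat_lit 275) (nat_lit 272))))))))
noncomputable def xc32 : XT := (XT.nd (nat_lit 1404) (nat_lit 0) (nat_lit 0) (XT.nd (nat_lit 702) (nat_lit 0) (nat_lit 0) (XT.nd (nat_lit 312) (nat_lit 152) (nat_lit 0) (XT.nd (nat_lit 156) (nat_lit 0) (nat_lit 0) (XT.nd (nat_lit 78) (nat_lit 0) (nat_lit 0) (XT.lf (nat_lit 0) (nat_lit 34024336570) (nat_lit 76) (nat_lit 13442699924) (nat_lit 76) (nat_lit 12967797552) (nat_lit 3) (nat_lit 4) (nat_lit 4) (nat_lit 5) (nat_lit 4) (nat_lit 4) (nat_lit 354) (nat_lit 275) (nat_lit 271)) (XT.lf (nat_lit 0) (nat_lit 45303873010) (nat_lit 76) (nat_lit 10097584239) (nat_lit 76) (nat_lit 9525097870) (nat_lit 3) (nat_lit 4) (nat_lit 4) (nat_lit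 5) (nat_lit 4) (nat_lit 4) (nat_lit 355) (nat_lit 275) (nat_lit 270))) (XT.nd (nat_lit 78) (nat_lit 0) (nat_lit 0) (XT.lf (nat_lit 0) (nat_lit 57114292848) (nat_lit 76) (nat_lit 6670527606) (nat_lit 76) (nat_lit 6007685684) (nat_lit 3) (nat_lit 4) (nat_lit 4) (nat_lit 5) (nat_lit 4) (nat_lit 4) (nat_lit 356) (nat_lit 275) (nat_lit 269)) (XT.lf (nat_lit 0) (nat_lit 69525583757) (nat_lit 76) (nat_lit 3141221542) (nat_lit 76) (nat_lit 2394717072) (nat_lit 3) (nat_lit 4) (nat_lit 4) (nat_lit 5) (nat_lit 4) (nat_lit 4) (nat_lit 357) (nat_lit 275) (nat_lit 268)))) (XT.nd (nat_lit 156) (nat_lit 0) (nat_lit 0) (XT.nd (nat_lit 78) (nat_lit 0) (nat_lit 0) (XT.lf (nat_lit 0) (nat_lit 1328680836) (nat_lit 152) (nat_lit 78863011519) (nat_lit 0) (nat_lit 565745842) (nat_lit 1) (nat_lit 5) (nat_lit 3) (nat_lit 4) (nat_lit 1) (nat_lit 4) (nat_lit 358) (nat_lit 275) (nat_lit 267)) (XT.lf (nat_lit 0) (nat_lit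 5294591549) (nat_lit 152) (nat_lit 77138315860) (nat_lit 0) (nat_lit 4465242527) (nat_lit 1) (nat_lit 5) (nat_lit 3) (nat_lit 4) (nat_lit 1) (nat_lit 4) (nat_lit 359) (nat_lit 275) (nat_lit 266))) (XT.nd (nat_lit 78) (nat_lit 0) (nat_lit 0) (XT.lf (nat_lit 0) (nat_lit 9426973140) (nat_lit 152) (nat_lit 75579098612) (nat_lit 0) (nat_lit 8536129646) (nat_lit 1) (nat_lit 5) (nat_lit 3) (nat_lit 4) (nat_lit 1) (nat_lit 4) (nat_lit 360) (nat_lit 275) (nat_lit 265)) (XT.nd (nat_lit 78) (nat_lit 0) (nat_lit 0) (XT.lf (nat_lit 0) (nat_lit 13750313794) (nat_lit 152) (nat_lit 74176119967) (nat_lit 0) (nat_lit 12802530976) (nat_lit 1) (nat_lit 5) (nat_lit 3) (nat_lit 4) (nat_lit 1) (nat_lit 4) (nat_lit 361) (nat_lit 275) (nat_lit 264)) (XT.lf (nat_lit 0) (nat_lit 18290233310) (nat_lit 152) (nat_lit 72921065979) (nat_lit 0) (nat_lit 17289728895) (nat_lit 1) (nat_lit 5) (nat_lit 3) (nat_lit 4) (nat_lit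 1) (nat_lit 4) (nat_lit 362) (nat_lit 275) (nat_lit 263)))))) (XT.nd (nat_lit 312) (nat_lit 0) (nat_lit 0) (XT.nd (nat_lit 156) (nat_lit 0) (nat_lit 0) (XT.nd (nat_lit 78) (nat_lit 0) (nat_lit 0) (XT.lf (nat_lit 0) (nat_lit 23073634913) (nat_lit 152) (nat_lit 71806499290) (nat_lit 0) (nat_lit 22024314204) (nat_lit 1) (nat_lit 5) (nat_lit 3) (nat_lit 4) (nat_lit 1) (nat_lit 4) (nat_lit 363) (nat_lit 275) (nat_lit 262)) (XT.lf (nat_lit 0) (nat_lit 28128864687) (nat_lit 152) (nat_lit 70825815061) (nat_lit 0) (nat_lit 27034343706) (nat_lit 1) (nat_lit 5) (nat_lit 3) (nat_lit 4) (nat_lit 1) (nat_lit 4) (nat_lit 364) (nat_lit 275) (nat_lit 261))) (XT.nd (nat_lit 78) (nat_lit 0) (nat_lit 0) (XT.lf (nat_lit 0) (nat_lit 33485879549) (nat_lit 152) (nat_lit 69973201829) (nat_lit 0) (nat_lit 32349506465) (nat_lit 1) (nat_lit 5) (nat_lit 3) (nat_lit 4) (nat_lit 1) (nat_lit 4) (nat_lit 365) (nat_lit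 275) (nat_lit 260)) (XT.lf (nat_lit 0) (nat_lit 39176424773) (nat_lit 152) (nat_lit 69243607073) (nat_lit 0) (nat_lit 38001299741) (nat_lit 1) (nat_lit 5) (nat_lit 3) (nat_lit 4) (nat_lit 1) (nat_lit 4) (nat_lit 366) (nat_lit 275) (nat_lit 259)))) (XT.nd (nat_lit 156) (nat_lit 0) (nat_lit 0) (XT.nd (nat_lit 78) (nat_lit 0) (nat_lit 0) (XT.lf (nat_lit 0) (nat_lit 45234222108) (nat_lit 152) (nat_lit 68632707266) (nat_lit 0) (nat_lit 44023215643) (nat_lit 1) (nat_lit 5) (nat_lit 3) (nat_lit 4) (nat_lit 1) (nat_lit 4) (nat_lit 367) (nat_lit 275) (nat_lit 258)) (XT.lf (nat_lit 0) (nat_lit 51695169613) (nat_lit 152) (nat_lit 68136882263) (nat_lit 0) (nat_lit 50450939598) (nat_lit 1) (nat_lit 5) (nat_lit 3) (nat_lit 4) (nat_lit 1) (nat_lit 4) (nat_lit 368) (nat_lit 275) (nat_lit 257))) (XT.nd (nat_lit 78) (nat_lit 0) (nat_lit 0) (XT.lf (nat_lit 0) (nat_lit 58597554382) (nat_lit 152) (nat_lit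 67753193841) (nat_lit 0) (nat_lit 57322561822) (nat_lit 1) (nat_lit 5) (nat_lit 3) (nat_lit 4) (nat_lit 1) (nat_lit 4) (nat_lit 369) (nat_lit 275) (nat_lit 256)) (XT.nd (nat_lit 78) (nat_lit 0) (nat_lit 0) (XT.lf (nat_lit 0) (nat_lit 65982279439) (nat_lit 152) (nat_lit 67479368291) (nat_lit 0) (nat_lit 64678803040) (nat_lit 1) (nat_lit 5) (nat_lit 3) (nat_lit 4) (nat_lit 1) (nat_lit 4) (nat_lit 370) (nat_lit 275) (nat_lit 255)) (XT.lf (nat_lit 0) (nat_lit 73893106115) (nat_lit 152) (nat_lit 67313782943) (nat_lit 0) (nat_lit 72563255792) (nat_lit 1) (nat_lit 5) (nat_lit 3) (nat_lit 4) (nat_lit 1) (nat_lit 4) (nat_lit 371) (nat_lit 275) (nat_lit 254))))))) (XT.nd (nat_lit 702) (nat_lit 0) (nat_lit 0) (XT.nd (nat_lit 312) (nat_lit 0) (nat_lit 0) (XT.nd (nat_lit 156) (nat_lit 0) (nat_lit 0) (XT.nd (nat_lit 78) (nat_lit 0) (nat_lit 0) (XT.lf (nat_lit 0) (nat_lit 82376913385) (nat_lit 152)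 (nat_lit 67255456550) (nat_lit 0) (nat_lit 81022642762) (nat_lit 1) (nat_lit 5) (nat_lit 3) (nat_lit 4) (nat_lit 1) (nat_lit 4) (nat_lit 372) (nat_lit 275) (nat_lit 253)) (XT.lf (nat_lit 0) (nat_lit 91483975661) (nat_lit 152) (nat_lit 67304043475) (nat_lit 0) (nat_lit 90107093648) (nat_lit 1) (nat_lit 5) (nat_lit 3) (nat_lit 4) (nat_lit 1) (nat_lit 4) (nat_lit 373) (nat_lit 275) (nat_lit 252))) (XT.nd (nat_lit 78) (nat_lit 0) (nat_lit 0) (XT.lf (nat_lit 0) (nat_lit 101268260720) (nat_lit 152) (nat_lit 67459831640) (nat_lit 0) (nat_lit 99870442236) (nat_lit 1) (nat_lit 5) (nat_lit 3) (nat_lit 4) (nat_lit 1) (nat_lit 4) (nat_lit 374) (nat_lit 275) (nat_lit 251)) (XT.lf (nat_lit 0) (nat_lit 111787749511) (nat_lit 152) (nat_lit 67723744235) (nat_lit 0) (nat_lit 110370545405) (nat_lit 1) (nat_lit 5) (nat_lit 3) (nat_lit 4) (nat_lit 1) (nat_lit 4) (nat_lit 375) (nat_lit 275) (nat_lit 250))))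 (XT.nd (nat_lit 156) (nat_lit 0) (nat_lit 0) (XT.nd (nat_lit 78) (nat_lit 0) (nat_lit 0) (XT.lf (nat_lit 0) (nat_lit 123104779744) (nat_lit 152) (nat_lit 68097345185) (nat_lit 0) (nat_lit 121669625988) (nat_lit 1) (nat_lit 5) (nat_lit 3) (nat_lit 4) (nat_lit 1) (nat_lit 4) (nat_lit 376) (nat_lit 275) (nat_lit 249)) (XT.lf (nat_lit 0) (nat_lit 135286415303) (nat_lit 152) (nat_lit 68582848422) (nat_lit 0) (nat_lit 133834641501) (nat_lit 1) (nat_lit 5) (nat_lit 3) (nat_lit 4) (nat_lit 1) (nat_lit 4) (nat_lit 377) (nat_lit 275) (nat_lit 248))) (XT.nd (nat_lit 78) (nat_lit 0) (nat_lit 0) (XT.lf (nat_lit 0) (nat_lit 148404843658) (nat_lit 152) (nat_lit 69183131003) (nat_lit 0) (nat_lit 146937680924) (nat_lit 1) (nat_lit 5) (nat_lit 3) (nat_lit 4) (nat_lit 1) (nat_lit 4) (nat_lit 378) (nat_lit 275) (nat_lit 247)) (XT.nd (nat_lit 78) (nat_lit 0) (nat_lit 0) (XT.lf (nat_lit 0) (nat_lit 162537803643)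 (nat_lit 152) (nat_lit 69901750157) (nat_lit 0) (nat_lit 161056391898) (nat_lit 1) (nat_lit 5) (nat_lit 3) (nat_lit 4) (nat_lit 1) (nat_lit 4) (nat_lit 379) (nat_lit 275) (nat_lit 246)) (XT.lf (nat_lit 0) (nat_lit 177769046132) (nat_lit 152) (nat_lit 70742964369) (nat_lit 0) (nat_lit 176274440859) (nat_lit 1) (nat_lit 5) (nat_lit 3) (nat_lit 4) (nat_lit 1) (nat_lit 4) (nat_lit 380) (nat_lit 275) (nat_lit 245)))))) (XT.nd (nat_lit 312) (nat_lit 0) (nat_lit 0) (XT.nd (nat_lit 156) (nat_lit 0) (nat_lit 0) (XT.nd (nat_lit 78) (nat_lit 0) (nat_lit 0) (XT.lf (nat_lit 0) (nat_lit 194188830340) (nat_lit 152) (nat_lit 71711758611) (nat_lit 0) (nat_lit 192682008837) (nat_lit 1) (nat_lit 5) (nat_lit 3) (nat_lit 4) (nat_lit 1) (nat_lit 4) (nat_lit 381) (nat_lit 275) (nat_lit 244)) (XT.lf (nat_lit 0) (nat_lit 211894458693) (nat_lit 152) (nat_lit 72813873887) (nat_lit 0) (nat_lit 210376325866) (nat_lit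 1) (nat_lit 5) (nat_lit 3) (nat_lit 4) (nat_lit 1) (nat_lit 4) (nat_lit 382) (nat_lit 275) (nat_lit 243))) (XT.nd (nat_lit 78) (nat_lit 0) (nat_lit 0) (XT.lf (nat_lit 0) (nat_lit 230990853431) (nat_lit 152) (nat_lit 74055841250) (nat_lit 0) (nat_lit 229462247156) (nat_lit 1) (nat_lit 5) (nat_lit 3) (nat_lit 4) (nat_lit 1) (nat_lit 4) (nat_lit 383) (nat_lit 275) (nat_lit 242)) (XT.lf (nat_lit 0) (nat_lit 251591178377) (nat_lit 152) (nat_lit 75445020507) (nat_lit 0) (nat_lit 250052874464) (nat_lit 1) (nat_lit 5) (nat_lit 3) (nat_lit 4) (nat_lit 1) (nat_lit 4) (nat_lit 384) (nat_lit 275) (nat_lit 241)))) (XT.nd (nat_lit 156) (nat_lit 0) (nat_lit 0) (XT.nd (nat_lit 78) (nat_lit 0) (nat_lit 0) (XT.lf (nat_lit 0) (nat_lit 273817509528) (nat_lit 152) (nat_lit 76989643830) (nat_lit 0) (nat_lit 272270226322) (nat_lit 1) (nat_lit 5) (nat_lit 3) (nat_lit 4) (nat_lit 1) (nat_lit 4) (nat_lit 385)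 (nat_lit 275) (nat_lit 240)) (XT.lf (nat_lit 0) (nat_lit 297801558479) (nat_lit 152) (nat_lit 78698864544) (nat_lit 0) (nat_lit 296245961111) (nat_lit 1) (nat_lit 5) (nat_lit 3) (nat_lit 4) (nat_lit 1) (nat_lit 4) (nat_lit 386) (nat_lit 275) (nat_lit 239))) (XT.nd (nat_lit 78) (nat_lit 0) (nat_lit 0) (XT.lf (nat_lit 0) (nat_lit 323685452925) (nat_lit 152) (nat_lit 80582811364) (nat_lit 0) (nat_lit 322122157260) (nat_lit 1) (nat_lit 5) (nat_lit 3) (nat_lit 4) (nat_lit 1) (nat_lit 4) (nat_lit 387) (nat_lit 275) (nat_lit 238)) (XT.nd (nat_lit 78) (nat_lit 0) (nat_lit 0) (XT.lf (nat_lit 0) (nat_lit 351622578908) (nat_lit 152) (nat_lit 82652648418) (nat_lit 0) (nat_lit 350052155190) (nat_lit 1) (nat_lit 5) (nat_lit 3) (nat_lit 4) (nat_lit 1) (nat_lit 4) (nat_lit 388) (nat_lit 275) (nat_lit 237)) (XT.lf (nat_lit 0) (nat_lit 381778489768) (nat_lit 152) (nat_lit 84920641409) (nat_lit 0) (nat_lit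 380201466001) (nat_lit 1) (nat_lit 5) (nat_lit 3) (nat_lit 4) (nat_lit 1) (nat_lit 4) (nat_lit 389) (nat_lit 275) (nat_lit 236))))))))
noncomputable def xc33 : XT := (XT.nd (nat_lit 1404) (nat_lit 0) (nat_lit 0) (XT.nd (nat_lit 702) (nat_lit 0) (nat_lit 0) (XT.nd (nat_lit 312) (nat_lit 0) (nat_lit 0) (XT.nd (nat_lit 156) (nat_lit 0) (nat_lit 0) (XT.nd (nat_lit 78) (nat_lit 0) (nat_lit 0) (XT.lf (nat_lit 0) (nat_lit 414331887197) (nat_lit 152) (nat_lit 87400230294) (nat_lit 0) (nat_lit 412748752274) (nat_lit 1) (nat_lit 5) (nat_lit 3) (nat_lit 4) (nat_lit 1) (nat_lit 4) (nat_lit 390) (nat_lit 275) (nat_lit 235)) (XT.lf (nat_lit 0) (nat_lit 449475680219) (nat_lit 152) (nat_lit 90106108934) (nat_lit 0) (nat_lit 447886886818) (nat_lit 1) (nat_lit 5) (nat_lit 3) (nat_lit 4) (nat_lit 1) (nat_lit 4) (nat_lit 391) (nat_lit 275) (nat_lit 234))) (XT.nd (nat_lit 78) (nat_lit 0) (nat_lit 0) (XT.lf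 (nat_lit 0) (nat_lit 487418128347) (nat_lit 152) (nat_lit 93054312164) (nat_lit 0) (nat_lit 485824095614) (nat_lit 1) (nat_lit 5) (nat_lit 3) (nat_lit 4) (nat_lit 1) (nat_lit 4) (nat_lit 392) (nat_lit 275) (nat_lit 233)) (XT.lf (nat_lit 0) (nat_lit 528384075719) (nat_lit 152) (nat_lit 96262310820) (nat_lit 0) (nat_lit 526785191753) (nat_lit 1) (nat_lit 5) (nat_lit 3) (nat_lit 4) (nat_lit 1) (nat_lit 4) (nat_lit 393) (nat_lit 275) (nat_lit 232)))) (XT.nd (nat_lit 156) (nat_lit 0) (nat_lit 0) (XT.nd (nat_lit 78) (nat_lit 0) (nat_lit 0) (XT.lf (nat_lit 0) (nat_lit 572616283503) (nat_lit 152) (nat_lit 99749115263) (nat_lit 0) (nat_lit 571012907655) (nat_lit 1) (nat_lit 5) (nat_lit 3) (nat_lit 4) (nat_lit 1) (nat_lit 4) (nat_lit 394) (nat_lit 275) (nat_lit 231)) (XT.lf (nat_lit 0) (nat_lit 620376868487) (nat_lit 152) (nat_lit 103535388038) (nat_lit 0) (nat_lit 618769333488) (nat_lit 1) (nat_lit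 5) (nat_lit 3) (nat_lit 4) (nat_lit 1) (nat_lit 4) (nat_lit 395) (nat_lit 275) (nat_lit 230))) (XT.nd (nat_lit 78) (nat_lit 0) (nat_lit 0) (XT.lf (nat_lit 0) (nat_lit 671948856360) (nat_lit 152) (nat_lit 107643566317) (nat_lit 0) (nat_lit 670337470296) (nat_lit 1) (nat_lit 5) (nat_lit 3) (nat_lit 4) (nat_lit 1) (nat_lit 4) (nat_lit 396) (nat_lit 275) (nat_lit 229)) (XT.nd (nat_lit 78) (nat_lit 0) (nat_lit 0) (XT.lf (nat_lit 0) (nat_lit 727637858901) (nat_lit 152) (nat_lit 112097994861) (nat_lit 0) (nat_lit 726022907036) (nat_lit 1) (nat_lit 5) (nat_lit 3) (nat_lit 4) (nat_lit 1) (nat_lit 4) (nat_lit 397) (nat_lit 275) (nat_lit 228)) (XT.lf (nat_lit 0) (nat_lit 787773885015) (nat_lit 152) (nat_lit 116925070283) (nat_lit 0) (nat_lit 786155631482) (nat_lit 1) (nat_lit 5) (nat_lit 3) (nat_lit 4) (nat_lit 1) (nat_lit 4) (nat_lit 398) (nat_lit 275) (nat_lit 227)))))) (XT.nd (nat_lit 312) (nat_lit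 0) (nat_lit 0) (XT.nd (nat_lit 156) (nat_lit 0) (nat_lit 0) (XT.nd (nat_lit 78) (nat_lit 0) (nat_lit 0) (XT.lf (nat_lit 0) (nat_lit 852713296338) (nat_lit 152) (nat_lit 122153397474) (nat_lit 0) (nat_lit 851091985705) (nat_lit 1) (nat_lit 5) (nat_lit 3) (nat_lit 4) (nat_lit 1) (nat_lit 4) (nat_lit 399) (nat_lit 275) (nat_lit 226)) (XT.lf (nat_lit 0) (nat_lit 922840919010) (nat_lit 152) (nat_lit 127813959114) (nat_lit 0) (nat_lit 921216777730) (nat_lit 1) (nat_lit 5) (nat_lit 3) (nat_lit 4) (nat_lit 1) (nat_lit 4) (nat_lit 400) (nat_lit 275) (nat_lit 225))) (XT.nd (nat_lit 78) (nat_lit 0) (nat_lit 0) (XT.lf (nat_lit 0) (nat_lit 998572324130) (nat_lit 152) (nat_lit 133940299272) (nat_lit 0) (nat_lit 996945561879) (nat_lit 1) (nat_lit 5) (nat_lit 3) (nat_lit 4) (nat_lit 1) (nat_lit 4) (nat_lit 401) (nat_lit 275) (nat_lit 224)) (XT.lf (nat_lit 0) (nat_lit 1080356290394) (nat_lit 152) (nat_lit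 140568722186) (nat_lit 0) (nat_lit 1078727101319) (nat_lit 1) (nat_lit 5) (nat_lit 3) (nat_lit 4) (nat_lit 1) (nat_lit 4) (nat_lit 402) (nat_lit 275) (nat_lit 223)))) (XT.nd (nat_lit 156) (nat_lit 0) (nat_lit 0) (XT.nd (nat_lit 78) (nat_lit 0) (nat_lit 0) (XT.lf (nat_lit 0) (nat_lit 1168677463528) (nat_lit 152) (nat_lit 147738507399) (nat_lit 0) (nat_lit 1167046027394) (nat_lit 1) (nat_lit 5) (nat_lit 3) (nat_lit 4) (nat_lit 1) (nat_lit 4) (nat_lit 403) (nat_lit 275) (nat_lit 222)) (XT.lf (nat_lit 0) (nat_lit 1264059228263) (nat_lit 152) (nat_lit 155492142527) (nat_lit 0) (nat_lit 1262425711517) (nat_lit 1) (nat_lit 5) (nat_lit 3) (nat_lit 4) (nat_lit 1) (nat_lit 4) (nat_lit 404) (nat_lit 275) (nat_lit 221))) (XT.nd (nat_lit 78) (nat_lit 0) (nat_lit 0) (XT.lf (nat_lit 0) (nat_lit 1367066809869) (nat_lit 152) (nat_lit 163875575038) (nat_lit 0) (nat_lit 1365431366632) (nat_lit 1) (nat_lit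 5) (nat_lit 3) (nat_lit 4) (nat_lit 1) (nat_lit 4) (nat_lit 405) (nat_lit 275) (nat_lit 220)) (XT.nd (nat_lit 78) (nat_lit 0) (nat_lit 0) (XT.lf (nat_lit 0) (nat_lit 1478310623647) (nat_lit 152) (nat_lit 172938484531) (nat_lit 0) (nat_lit 1476673396622) (nat_lit 1) (nat_lit 5) (nat_lit 3) (nat_lit 4) (nat_lit 1) (nat_lit 4) (nat_lit 406) (nat_lit 275) (nat_lit 219)) (XT.lf (nat_lit 0) (nat_lit 1598449892195) (nat_lit 152) (nat_lit 182734577138) (nat_lit 0) (nat_lit 1596811013514) (nat_lit 1) (nat_lit 5) (nat_lit 3) (nat_lit 4) (nat_lit 1) (nat_lit 4) (nat_lit 407) (nat_lit 275) (nat_lit 218))))))) (XT.nd (nat_lit 702) (nat_lit 0) (nat_lit 0) (XT.nd (nat_lit 312) (nat_lit 0) (nat_lit 0) (XT.nd (nat_lit 156) (nat_lit 0) (nat_lit 0) (XT.nd (nat_lit 78) (nat_lit 0) (nat_lit 0) (XT.lf (nat_lit 0) (nat_lit 1728196551921) (nat_lit 152) (nat_lit 193321903776) (nat_lit 0) (nat_lit 1726556143929)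 (nat_lit 1) (nat_lit 5) (nat_lit 3) (nat_lit 4) (nat_lit 1) (nat_lit 4) (nat_lit 408) (nat_lit 275) (nat_lit 217)) (XT.lf (nat_lit 0) (nat_lit 1868319471919) (nat_lit 152) (nat_lit 204763204161) (nat_lit 0) (nat_lit 1866677647898) (nat_lit 1) (nat_lit 5) (nat_lit 3) (nat_lit 4) (nat_lit 1) (nat_lit 4) (nat_lit 409) (nat_lit 275) (nat_lit 216))) (XT.nd (nat_lit 78) (nat_lit 0) (nat_lit 0) (XT.lf (nat_lit 0) (nat_lit 2019649010233) (nat_lit 152) (nat_lit 217126278589) (nat_lit 0) (nat_lit 2018005875075) (nat_lit 1) (nat_lit 5) (nat_lit 3) (nat_lit 4) (nat_lit 1) (nat_lit 4) (nat_lit 410) (nat_lit 275) (nat_lit 215)) (XT.lf (nat_lit 0) (nat_lit 2183081934498) (nat_lit 152) (nat_lit 230484389725) (nat_lit 0) (nat_lit 2181437585323) (nat_lit 1) (nat_lit 5) (nat_lit 3) (nat_lit 4) (nat_lit 1) (nat_lit 4) (nat_lit 411) (nat_lit 275) (nat_lit 214)))) (XT.nd (nat_lit 156) (nat_lit 0) (nat_lit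 0) (XT.nd (nat_lit 78) (nat_lit 0) (nat_lit 0) (XT.lf (nat_lit 0) (nat_lit 2359586736116) (nat_lit 152) (nat_lit 244916696746) (nat_lit 0) (nat_lit 2357941262852) (nat_lit 1) (nat_lit 5) (nat_lit 3) (nat_lit 4) (nat_lit 1) (nat_lit 4) (nat_lit 412) (nat_lit 275) (nat_lit 213)) (XT.lf (nat_lit 0) (nat_lit 2550209369469) (nat_lit 152) (nat_lit 260508724433) (nat_lit 0) (nat_lit 2548562855382) (nat_lit 1) (nat_lit 5) (nat_lit 3) (nat_lit 4) (nat_lit 1) (nat_lit 4) (nat_lit 413) (nat_lit 275) (nat_lit 212))) (XT.nd (nat_lit 78) (nat_lit 0) (nat_lit 0) (XT.lf (nat_lit 0) (nat_lit 2756079450160) (nat_lit 152) (nat_lit 277352869988) (nat_lit 0) (nat_lit 2754431972347) (nat_lit 1) (nat_lit 5) (nat_lit 3) (nat_lit 4) (nat_lit 1) (nat_lit 4) (nat_lit 414) (nat_lit 275) (nat_lit 211)) (XT.nd (nat_lit 78) (nat_lit 0) (nat_lit 0) (XT.lf (nat_lit 0) (nat_lit 2978416949039) (nat_lit 152) (nat_lit 295548950571)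 (nat_lit 0) (nat_lit 2976768578888) (nat_lit 1) (nat_lit 5) (nat_lit 3) (nat_lit 4) (nat_lit 1) (nat_lit 4) (nat_lit 415) (nat_lit 275) (nat_lit 210)) (XT.lf (nat_lit 0) (nat_lit 3218539421654) (nat_lit 152) (nat_lit 315204794805) (nat_lit 0) (nat_lit 3216890225264) (nat_lit 1) (nat_lit 5) (nat_lit 3) (nat_lit 4) (nat_lit 1) (nat_lit 4) (nat_lit 416) (nat_lit 275) (nat_lit 209)))))) (XT.nd (nat_lit 41730) (nat_lit 0) (nat_lit 152) (XT.nd (nat_lit 41574) (nat_lit 0) (nat_lit 228) (XT.nd (nat_lit 41496) (nat_lit 0) (nat_lit 228) (XT.lf (nat_lit 0) (nat_lit 3477869815991) (nat_lit 152) (nat_lit 336436881770) (nat_lit 0) (nat_lit 3476219854565) (nat_lit 1) (nat_lit 5) (nat_lit 3) (nat_lit 4) (nat_lit 1) (nat_lit 4) (nat_lit 417) (nat_lit 275) (nat_lit 208)) (XT.lf (nat_lit 0) (nat_lit 3856476473) (nat_lit 152) (nat_lit 12251107450) (nat_lit 0) (nat_lit 3856476473) (nat_lit 4) (nat_lit 5)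 (nat_lit 6) (nat_lit 4) (nat_lit 4) (nat_lit 4) (nat_lit 348) (nat_lit 276) (nat_lit 276))) (XT.nd (nat_lit 78) (nat_lit 0) (nat_lit 0) (XT.lf (nat_lit 0) (nat_lit 13505390174) (nat_lit 152) (nat_lit 15827728001) (nat_lit 0) (nat_lit 13362007267) (nat_lit 4) (nat_lit 5) (nat_lit 6) (nat_lit 4) (nat_lit 4) (nat_lit 4) (nat_lit 349) (nat_lit 276) (nat_lit 275)) (XT.lf (nat_lit 0) (nat_lit 19501331863) (nat_lit 152) (nat_lit 6977803042) (nat_lit 0) (nat_lit 19225187007) (nat_lit 4) (nat_lit 5) (nat_lit 6) (nat_lit 4) (nat_lit 4) (nat_lit 4) (nat_lit 350) (nat_lit 276) (nat_lit 274)))) (XT.nd (nat_lit 156) (nat_lit 0) (nat_lit 0) (XT.nd (nat_lit 78) (nat_lit 0) (nat_lit 0) (XT.lf (nat_lit 0) (nat_lit 2210586462) (nat_lit 76) (nat_lit 23578887717) (nat_lit 76) (nat_lit 23179815128) (nat_lit 3) (nat_lit 4) (nat_lit 4) (nat_lit 5) (nat_lit 4) (nat_lit 4) (nat_lit 351) (nat_lit 276) (nat_lit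 273)) (XT.lf (nat_lit 0) (nat_lit 12062923763) (nat_lit 76) (nat_lit 20474461006) (nat_lit 76) (nat_lit 19961566444) (nat_lit 3) (nat_lit 4) (nat_lit 4) (nat_lit 5) (nat_lit 4) (nat_lit 4) (nat_lit 352) (nat_lit 276) (nat_lit 272))) (XT.nd (nat_lit 78) (nat_lit 0) (nat_lit 0) (XT.lf (nat_lit 0) (nat_lit 22270154340) (nat_lit 76) (nat_lit 17338243673) (nat_lit 76) (nat_lit 16719958394) (nat_lit 3) (nat_lit 4) (nat_lit 4) (nat_lit 5) (nat_lit 4) (nat_lit 4) (nat_lit 353) (nat_lit 276) (nat_lit 271)) (XT.nd (nat_lit 78) (nat_lit 0) (nat_lit 0) (XT.lf (nat_lit 0) (nat_lit 32892765483) (nat_lit 76) (nat_lit 14151650725) (nat_lit 76) (nat_lit 13435781450) (nat_lit 3) (nat_lit 4) (nat_lit 4) (nat_lit 5) (nat_lit 4) (nat_lit 4) (nat_lit 354) (nat_lit 276) (nat_lit 270)) (XT.lf (nat_lit 0) (nat_lit 43993706002) (nat_lit 76) (nat_lit 10895798649) (nat_lit 76) (nat_lit 10089573821) (nat_lit 3) (nat_lit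 4) (nat_lit 4) (nat_lit 5) (nat_lit 4) (nat_lit 4) (nat_lit 355) (nat_lit 276) (nat_lit 269))))))))
noncomputable def xc34 : XT := (XT.nd (nat_lit 1404) (nat_lit 0) (nat_lit 0) (XT.nd (nat_lit 702) (nat_lit 0) (nat_lit 0) (XT.nd (nat_lit 312) (nat_lit 0) (nat_lit 0) (XT.nd (nat_lit 156) (nat_lit 152) (nat_lit 0) (XT.nd (nat_lit 78) (nat_lit 0) (nat_lit 0) (XT.lf (nat_lit 0) (nat_lit 55638759245) (nat_lit 76) (nat_lit 7551393507) (nat_lit 76) (nat_lit 6661506130) (nat_lit 3) (nat_lit 4) (nat_lit 4) (nat_lit 5) (nat_lit 4) (nat_lit 4) (nat_lit 356) (nat_lit 276) (nat_lit 268)) (XT.lf (nat_lit 0) (nat_lit 67896932937) (nat_lit 76) (nat_lit 4098616601) (nat_lit 76) (nat_lit 3131263901) (nat_lit 3) (nat_lit 4) (nat_lit 4) (nat_lit 5) (nat_lit 4) (nat_lit 4) (nat_lit 357) (nat_lit 276) (nat_lit 267))) (XT.nd (nat_lit 78) (nat_lit 76) (nat_lit 0) (XT.lf (nat_lit 0) (nat_lit 495956622) (nat_lit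 152) (nat_lit 7490074) (nat_lit 76) (nat_lit 80331351151) (nat_lit 2) (nat_lit 5) (nat_lit 4) (nat_lit 5) (nat_lit 3) (nat_lit 4) (nat_lit 358) (nat_lit 276) (nat_lit 266)) (XT.lf (nat_lit 0) (nat_lit 4377063931) (nat_lit 152) (nat_lit 79251780395) (nat_lit 0) (nat_lit 3353458487) (nat_lit 1) (nat_lit 5) (nat_lit 3) (nat_lit 4) (nat_lit 1) (nat_lit 4) (nat_lit 359) (nat_lit 276) (nat_lit 265)))) (XT.nd (nat_lit 156) (nat_lit 0) (nat_lit 0) (XT.nd (nat_lit 78) (nat_lit 0) (nat_lit 0) (XT.lf (nat_lit 0) (nat_lit 8442315011) (nat_lit 152) (nat_lit 77827647754) (nat_lit 0) (nat_lit 7361770242) (nat_lit 1) (nat_lit 5) (nat_lit 3) (nat_lit 4) (nat_lit 1) (nat_lit 4) (nat_lit 360) (nat_lit 276) (nat_lit 264)) (XT.lf (nat_lit 0) (nat_lit 12703497785) (nat_lit 152) (nat_lit 76549747450) (nat_lit 0) (nat_lit 11570231419) (nat_lit 1) (nat_lit 5) (nat_lit 3) (nat_lit 4) (nat_lit 1) (nat_lit 4) (nat_lit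 361) (nat_lit 276) (nat_lit 263))) (XT.nd (nat_lit 78) (nat_lit 0) (nat_lit 0) (XT.lf (nat_lit 0) (nat_lit 17185863707) (nat_lit 152) (nat_lit 75410506739) (nat_lit 0) (nat_lit 16003781048) (nat_lit 1) (nat_lit 5) (nat_lit 3) (nat_lit 4) (nat_lit 1) (nat_lit 4) (nat_lit 362) (nat_lit 276) (nat_lit 262)) (XT.nd (nat_lit 78) (nat_lit 0) (nat_lit 0) (XT.lf (nat_lit 0) (nat_lit 21915974946) (nat_lit 152) (nat_lit 74403174567) (nat_lit 0) (nat_lit 20688692015) (nat_lit 1) (nat_lit 5) (nat_lit 3) (nat_lit 4) (nat_lit 1) (nat_lit 4) (nat_lit 363) (nat_lit 276) (nat_lit 261)) (XT.lf (nat_lit 0) (nat_lit 26921861790) (nat_lit 152) (nat_lit 73521781557) (nat_lit 0) (nat_lit 25652726756) (nat_lit 1) (nat_lit 5) (nat_lit 3) (nat_lit 4) (nat_lit 1) (nat_lit 4) (nat_lit 364) (nat_lit 276) (nat_lit 260)))))) (XT.nd (nat_lit 312) (nat_lit 0) (nat_lit 0) (XT.nd (nat_lit 156) (nat_lit 0) (nat_lit 0) (XT.nd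 (nat_lit 78) (nat_lit 0) (nat_lit 0) (XT.lf (nat_lit 0) (nat_lit 32233188755) (nat_lit 152) (nat_lit 72761104640) (nat_lit 0) (nat_lit 30925301772) (nat_lit 1) (nat_lit 5) (nat_lit 3) (nat_lit 4) (nat_lit 1) (nat_lit 4) (nat_lit 365) (nat_lit 276) (nat_lit 259)) (XT.lf (nat_lit 0) (nat_lit 37881430370) (nat_lit 152) (nat_lit 72116636100) (nat_lit 0) (nat_lit 36537661954) (nat_lit 1) (nat_lit 5) (nat_lit 3) (nat_lit 4) (nat_lit 1) (nat_lit 4) (nat_lit 366) (nat_lit 276) (nat_lit 258))) (XT.nd (nat_lit 78) (nat_lit 0) (nat_lit 0) (XT.lf (nat_lit 0) (nat_lit 43900057696) (nat_lit 152) (nat_lit 71584556865) (nat_lit 0) (nat_lit 42523065732) (nat_lit 1) (nat_lit 5) (nat_lit 3) (nat_lit 4) (nat_lit 1) (nat_lit 4) (nat_lit 367) (nat_lit 276) (nat_lit 257)) (XT.lf (nat_lit 0) (nat_lit 50324736674) (nat_lit 152) (nat_lit 71161713872) (nat_lit 0) (nat_lit 48916982164) (nat_lit 1) (nat_lit 5) (nat_lit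 3) (nat_lit 4) (nat_lit 1) (nat_lit 4) (nat_lit 368) (nat_lit 276) (nat_lit 256)))) (XT.nd (nat_lit 156) (nat_lit 0) (nat_lit 0) (XT.nd (nat_lit 78) (nat_lit 0) (nat_lit 0) (XT.lf (nat_lit 0) (nat_lit 57193539475) (nat_lit 152) (nat_lit 70845601385) (nat_lit 0) (nat_lit 55757301127) (nat_lit 1) (nat_lit 5) (nat_lit 3) (nat_lit 4) (nat_lit 1) (nat_lit 4) (nat_lit 369) (nat_lit 276) (nat_lit 255)) (XT.lf (nat_lit 0) (nat_lit 64547170116) (nat_lit 152) (nat_lit 70634346146) (nat_lit 0) (nat_lit 63084557843) (nat_lit 1) (nat_lit 5) (nat_lit 3) (nat_lit 4) (nat_lit 1) (nat_lit 4) (nat_lit 370) (nat_lit 276) (nat_lit 254))) (XT.nd (nat_lit 78) (nat_lit 0) (nat_lit 0) (XT.lf (nat_lit 0) (nat_lit 72429205667) (nat_lit 152) (nat_lit 70526696270) (nat_lit 0) (nat_lit 70942173094) (nat_lit 1) (nat_lit 5) (nat_lit 3) (nat_lit 4) (nat_lit 1) (nat_lit 4) (nat_lit 371) (nat_lit 276) (nat_lit 253)) (XT.nd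 (nat_lit 78) (nat_lit 0) (nat_lit 0) (XT.lf (nat_lit 0) (nat_lit 80886354487) (nat_lit 152) (nat_lit 70522013834) (nat_lit 0) (nat_lit 79376710524) (nat_lit 1) (nat_lit 5) (nat_lit 3) (nat_lit 4) (nat_lit 1) (nat_lit 4) (nat_lit 372) (nat_lit 276) (nat_lit 252)) (XT.lf (nat_lit 0) (nat_lit 89968733014) (nat_lit 152) (nat_lit 70620271089) (nat_lit 0) (nat_lit 88438152579) (nat_lit 1) (nat_lit 5) (nat_lit 3) (nat_lit 4) (nat_lit 1) (nat_lit 4) (nat_lit 373) (nat_lit 276) (nat_lit 251))))))) (XT.nd (nat_lit 702) (nat_lit 0) (nat_lit 0) (XT.nd (nat_lit 312) (nat_lit 0) (nat_lit 0) (XT.nd (nat_lit 156) (nat_lit 0) (nat_lit 0) (XT.nd (nat_lit 78) (nat_lit 0) (nat_lit 0) (XT.lf (nat_lit 0) (nat_lit 99730162749) (nat_lit 152) (nat_lit 70822050300) (nat_lit 0) (nat_lit 98180196693) (nat_lit 1) (nat_lit 5) (nat_lit 3) (nat_lit 4) (nat_lit 1) (nat_lit 4) (nat_lit 374) (nat_lit 276) (nat_lit 250))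 (XT.lf (nat_lit 0) (nat_lit 110228489203) (nat_lit 152) (nat_lit 71128547196) (nat_lit 0) (nat_lit 108660573497) (nat_lit 1) (nat_lit 5) (nat_lit 3) (nat_lit 4) (nat_lit 1) (nat_lit 4) (nat_lit 375) (nat_lit 276) (nat_lit 249))) (XT.nd (nat_lit 78) (nat_lit 0) (nat_lit 0) (XT.lf (nat_lit 0) (nat_lit 121525924680) (nat_lit 152) (nat_lit 71541578055) (nat_lit 0) (nat_lit 119941388928) (nat_lit 1) (nat_lit 5) (nat_lit 3) (nat_lit 4) (nat_lit 1) (nat_lit 4) (nat_lit 376) (nat_lit 276) (nat_lit 248)) (XT.lf (nat_lit 0) (nat_lit 133689416946) (nat_lit 152) (nat_lit 72063590468) (nat_lit 0) (nat_lit 132089492262) (nat_lit 1) (nat_lit 5) (nat_lit 3) (nat_lit 4) (nat_lit 1) (nat_lit 4) (nat_lit 377) (nat_lit 276) (nat_lit 247)))) (XT.nd (nat_lit 156) (nat_lit 0) (nat_lit 0) (XT.nd (nat_lit 78) (nat_lit 0) (nat_lit 0) (XT.lf (nat_lit 0) (nat_lit 146791045956) (nat_lit 152) (nat_lit 72697677841)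 (nat_lit 0) (nat_lit 145176872261) (nat_lit 1) (nat_lit 5) (nat_lit 3) (nat_lit 4) (nat_lit 1) (nat_lit 4) (nat_lit 378) (nat_lit 276) (nat_lit 246)) (XT.lf (nat_lit 0) (nat_lit 160908450992) (nat_lit 152) (nat_lit 73447597728) (nat_lit 0) (nat_lit 159281083768) (nat_lit 1) (nat_lit 5) (nat_lit 3) (nat_lit 4) (nat_lit 1) (nat_lit 4) (nat_lit 379) (nat_lit 276) (nat_lit 245))) (XT.nd (nat_lit 78) (nat_lit 0) (nat_lit 0) (XT.lf (nat_lit 0) (nat_lit 176125290750) (nat_lit 152) (nat_lit 74317794101) (nat_lit 0) (nat_lit 174485707297) (nat_lit 1) (nat_lit 5) (nat_lit 3) (nat_lit 4) (nat_lit 1) (nat_lit 4) (nat_lit 380) (nat_lit 276) (nat_lit 244)) (XT.nd (nat_lit 78) (nat_lit 0) (nat_lit 0) (XT.lf (nat_lit 0) (nat_lit 192531739097) (nat_lit 152) (nat_lit 75313423677) (nat_lit 0) (nat_lit 190880844319) (nat_lit 1) (nat_lit 5) (nat_lit 3) (nat_lit 4) (nat_lit 1) (nat_lit 4) (nat_lit 381) (nat_lit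 276) (nat_lit 243)) (XT.lf (nat_lit 0) (nat_lit 210225019429) (nat_lit 152) (nat_lit 76440386484) (nat_lit 0) (nat_lit 208563651203) (nat_lit 1) (nat_lit 5) (nat_lit 3) (nat_lit 4) (nat_lit 1) (nat_lit 4) (nat_lit 382) (nat_lit 276) (nat_lit 242)))))) (XT.nd (nat_lit 312) (nat_lit 0) (nat_lit 0) (XT.nd (nat_lit 156) (nat_lit 0) (nat_lit 0) (XT.nd (nat_lit 78) (nat_lit 0) (nat_lit 0) (XT.lf (nat_lit 0) (nat_lit 229309980815) (nat_lit 152) (nat_lit 77705360820) (nat_lit 0) (nat_lit 227638914952) (nat_lit 1) (nat_lit 5) (nat_lit 3) (nat_lit 4) (nat_lit 1) (nat_lit 4) (nat_lit 383) (nat_lit 276) (nat_lit 241)) (XT.lf (nat_lit 0) (nat_lit 249899719323) (nat_lit 152) (nat_lit 79115842830) (nat_lit 0) (nat_lit 248219674166) (nat_lit 1) (nat_lit 5) (nat_lit 3) (nat_lit 4) (nat_lit 1) (nat_lit 4) (nat_lit 384) (nat_lit 276) (nat_lit 240))) (XT.nd (nat_lit 78) (nat_lit 0) (nat_lit 0) (XT.lf (nat_lit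 0) (nat_lit 272116248219) (nat_lit 152) (nat_lit 80680190925) (nat_lit 0) (nat_lit 270427888901) (nat_lit 1) (nat_lit 5) (nat_lit 3) (nat_lit 4) (nat_lit 1) (nat_lit 4) (nat_lit 385) (nat_lit 276) (nat_lit 239)) (XT.lf (nat_lit 0) (nat_lit 296091221005) (nat_lit 152) (nat_lit 82407675316) (nat_lit 0) (nat_lit 294395163390) (nat_lit 1) (nat_lit 5) (nat_lit 3) (nat_lit 4) (nat_lit 1) (nat_lit 4) (nat_lit 386) (nat_lit 276) (nat_lit 238)))) (XT.nd (nat_lit 156) (nat_lit 0) (nat_lit 0) (XT.nd (nat_lit 78) (nat_lit 0) (nat_lit 0) (XT.lf (nat_lit 0) (nat_lit 321966711596) (nat_lit 152) (nat_lit 84308532947) (nat_lit 0) (nat_lit 320263525928) (nat_lit 1) (nat_lit 5) (nat_lit 3) (nat_lit 4) (nat_lit 1) (nat_lit 4) (nat_lit 387) (nat_lit 276) (nat_lit 237)) (XT.lf (nat_lit 0) (nat_lit 349896056232) (nat_lit 152) (nat_lit 86394028161) (nat_lit 0) (nat_lit 348186270515) (nat_lit 1) (nat_lit 5) (nat_lit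 3) (nat_lit 4) (nat_lit 1) (nat_lit 4) (nat_lit 388) (nat_lit 276) (nat_lit 236))) (XT.nd (nat_lit 78) (nat_lit 0) (nat_lit 0) (XT.lf (nat_lit 0) (nat_lit 380044762141) (nat_lit 152) (nat_lit 88676519448) (nat_lit 0) (nat_lit 378328865267) (nat_lit 1) (nat_lit 5) (nat_lit 3) (nat_lit 4) (nat_lit 1) (nat_lit 4) (nat_lit 389) (nat_lit 276) (nat_lit 235)) (XT.nd (nat_lit 78) (nat_lit 0) (nat_lit 0) (XT.lf (nat_lit 0) (nat_lit 412591488319) (nat_lit 152) (nat_lit 91169532681) (nat_lit 0) (nat_lit 410869932968) (nat_lit 1) (nat_lit 5) (nat_lit 3) (nat_lit 4) (nat_lit 1) (nat_lit 4) (nat_lit 390) (nat_lit 276) (nat_lit 234)) (XT.lf (nat_lit 0) (nat_lit 447729104257) (nat_lit 152) (nat_lit 93887841273) (nat_lit 0) (nat_lit 446002309573) (nat_lit 1) (nat_lit 5) (nat_lit 3) (nat_lit 4) (nat_lit 1) (nat_lit 4) (nat_lit 391) (nat_lit 276) (nat_lit 233))))))))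
noncomputable def xc35 : XT := (XT.nd (nat_lit 1404) (nat_lit 0) (nat_lit 0) (XT.nd (nat_lit 702) (nat_lit 0) (nat_lit 0) (XT.nd (nat_lit 312) (nat_lit 0) (nat_lit 0) (XT.nd (nat_lit 156) (nat_lit 0) (nat_lit 0) (XT.nd (nat_lit 78) (nat_lit 0) (nat_lit 0) (XT.lf (nat_lit 0) (nat_lit 485665832862) (nat_lit 152) (nat_lit 96847553718) (nat_lit 0) (nat_lit 483934186946) (nat_lit 1) (nat_lit 5) (nat_lit 3) (nat_lit 4) (nat_lit 1) (nat_lit 4) (nat_lit 392) (nat_lit 276) (nat_lit 232)) (XT.lf (nat_lit 0) (nat_lit 526626484380) (nat_lit 152) (nat_lit 100066209054) (nat_lit 0) (nat_lit 524890346581) (nat_lit 1) (nat_lit 5) (nat_lit 3) (nat_lit 4) (nat_lit 1) (nat_lit 4) (nat_lit 393) (nat_lit 276) (nat_lit 231))) (XT.nd (nat_lit 78) (nat_lit 0) (nat_lit 0) (XT.lf (nat_lit 0) (nat_lit 570853788595) (nat_lit 152) (nat_lit 103562880793) (nat_lit 0) (nat_lit 569113491646) (nat_lit 1) (nat_lit 5) (nat_lit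 3) (nat_lit 4) (nat_lit 1) (nat_lit 4) (nat_lit 394) (nat_lit 276) (nat_lit 230)) (XT.lf (nat_lit 0) (nat_lit 618609833238) (nat_lit 152) (nat_lit 107358289954) (nat_lit 0) (nat_lit 616865685223) (nat_lit 1) (nat_lit 5) (nat_lit 3) (nat_lit 4) (nat_lit 1) (nat_lit 4) (nat_lit 395) (nat_lit 276) (nat_lit 229)))) (XT.nd (nat_lit 156) (nat_lit 0) (nat_lit 0) (XT.nd (nat_lit 78) (nat_lit 0) (nat_lit 0) (XT.lf (nat_lit 0) (nat_lit 670177617091) (nat_lit 152) (nat_lit 111474927850) (nat_lit 0) (nat_lit 668429903275) (nat_lit 1) (nat_lit 5) (nat_lit 3) (nat_lit 4) (nat_lit 1) (nat_lit 4) (nat_lit 396) (nat_lit 276) (nat_lit 228)) (XT.lf (nat_lit 0) (nat_lit 725862727021) (nat_lit 152) (nat_lit 115937189372) (nat_lit 0) (nat_lit 724111711538) (nat_lit 1) (nat_lit 5) (nat_lit 3) (nat_lit 4) (nat_lit 1) (nat_lit 4) (nat_lit 397) (nat_lit 276) (nat_lit 227))) (XT.nd (nat_lit 78) (nat_lit 0) (nat_lit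 0) (XT.lf (nat_lit 0) (nat_lit 785995148866) (nat_lit 152) (nat_lit 120771517551) (nat_lit 0) (nat_lit 784241076283) (nat_lit 1) (nat_lit 5) (nat_lit 3) (nat_lit 4) (nat_lit 1) (nat_lit 4) (nat_lit 398) (nat_lit 276) (nat_lit 226)) (XT.nd (nat_lit 78) (nat_lit 0) (nat_lit 0) (XT.lf (nat_lit 0) (nat_lit 850931222902) (nat_lit 152) (nat_lit 126006560258) (nat_lit 0) (nat_lit 849174319671) (nat_lit 1) (nat_lit 5) (nat_lit 3) (nat_lit 4) (nat_lit 1) (nat_lit 4) (nat_lit 399) (nat_lit 276) (nat_lit 225)) (XT.lf (nat_lit 0) (nat_lit 921055755494) (nat_lit 152) (nat_lit 131673339968) (nat_lit 0) (nat_lit 919296231293) (nat_lit 1) (nat_lit 5) (nat_lit 3) (nat_lit 4) (nat_lit 1) (nat_lit 4) (nat_lit 400) (nat_lit 276) (nat_lit 224)))))) (XT.nd (nat_lit 312) (nat_lit 0) (nat_lit 0) (XT.nd (nat_lit 156) (nat_lit 0) (nat_lit 0) (XT.nd (nat_lit 78) (nat_lit 0) (nat_lit 0) (XT.lf (nat_lit 0) (nat_lit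 996784299429) (nat_lit 152) (nat_lit 137805437599) (nat_lit 0) (nat_lit 995022348403) (nat_lit 1) (nat_lit 5) (nat_lit 3) (nat_lit 4) (nat_lit 1) (nat_lit 4) (nat_lit 401) (nat_lit 276) (nat_lit 223)) (XT.lf (nat_lit 0) (nat_lit 1078565616447) (nat_lit 152) (nat_lit 144439191506) (nat_lit 0) (nat_lit 1076801418362) (nat_lit 1) (nat_lit 5) (nat_lit 3) (nat_lit 4) (nat_lit 1) (nat_lit 4) (nat_lit 402) (nat_lit 276) (nat_lit 222))) (XT.nd (nat_lit 78) (nat_lit 0) (nat_lit 0) (XT.lf (nat_lit 0) (nat_lit 1166884336576) (nat_lit 152) (nat_lit 151613912824) (nat_lit 0) (nat_lit 1165118057881) (nat_lit 1) (nat_lit 5) (nat_lit 3) (nat_lit 4) (nat_lit 1) (nat_lit 4) (nat_lit 403) (nat_lit 276) (nat_lit 221)) (XT.lf (nat_lit 0) (nat_lit 1262263830009) (nat_lit 152) (nat_lit 159372118420) (nat_lit 0) (nat_lit 1260495624822) (nat_lit 1) (nat_lit 5) (nat_lit 3) (nat_lit 4) (nat_lit 1) (nat_lit 4) (nat_lit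 404) (nat_lit 276) (nat_lit 220)))) (XT.nd (nat_lit 156) (nat_lit 0) (nat_lit 0) (XT.nd (nat_lit 78) (nat_lit 0) (nat_lit 0) (XT.lf (nat_lit 0) (nat_lit 1365269308559) (nat_lit 152) (nat_lit 167759782845) (nat_lit 0) (nat_lit 1363499319584) (nat_lit 1) (nat_lit 5) (nat_lit 3) (nat_lit 4) (nat_lit 1) (nat_lit 4) (nat_lit 405) (nat_lit 276) (nat_lit 219)) (XT.lf (nat_lit 0) (nat_lit 1476511175062) (nat_lit 152) (nat_lit 176826610778) (nat_lit 0) (nat_lit 1474739534431) (nat_lit 1) (nat_lit 5) (nat_lit 3) (nat_lit 4) (nat_lit 1) (nat_lit 4) (nat_lit 406) (nat_lit 276) (nat_lit 218))) (XT.nd (nat_lit 78) (nat_lit 0) (nat_lit 0) (XT.lf (nat_lit 0) (nat_lit 1596648640579) (nat_lit 152) (nat_lit 186626331569) (nat_lit 0) (nat_lit 1594875470637) (nat_lit 1) (nat_lit 5) (nat_lit 3) (nat_lit 4) (nat_lit 1) (nat_lit 4) (nat_lit 407) (nat_lit 276) (nat_lit 217)) (XT.nd (nat_lit 78) (nat_lit 0) (nat_lit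 0) (XT.lf (nat_lit 0) (nat_lit 1726393630831) (nat_lit 152) (nat_lit 197217017637) (nat_lit 0) (nat_lit 1724619044860) (nat_lit 1) (nat_lit 5) (nat_lit 3) (nat_lit 4) (nat_lit 1) (nat_lit 4) (nat_lit 408) (nat_lit 276) (nat_lit 216)) (XT.lf (nat_lit 0) (nat_lit 1866515005019) (nat_lit 152) (nat_lit 208661428605) (nat_lit 0) (nat_lit 1864739107910) (nat_lit 1) (nat_lit 5) (nat_lit 3) (nat_lit 4) (nat_lit 1) (nat_lit 4) (nat_lit 409) (nat_lit 276) (nat_lit 215))))))) (XT.nd (nat_lit 41964) (nat_lit 0) (nat_lit 152) (XT.nd (nat_lit 312) (nat_lit 0) (nat_lit 0) (XT.nd (nat_lit 156) (nat_lit 0) (nat_lit 0) (XT.nd (nat_lit 78) (nat_lit 0) (nat_lit 0) (XT.lf (nat_lit 0) (nat_lit 2017843112028) (nat_lit 152) (nat_lit 221027383203) (nat_lit 0) (nat_lit 2016066000903) (nat_lit 1) (nat_lit 5) (nat_lit 3) (nat_lit 4) (nat_lit 1) (nat_lit 4) (nat_lit 410) (nat_lit 276) (nat_lit 214)) (XT.lf (nat_lit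 0) (nat_lit 2181274711010) (nat_lit 152) (nat_lit 234388161163) (nat_lit 0) (nat_lit 2179496475796) (nat_lit 1) (nat_lit 5) (nat_lit 3) (nat_lit 4) (nat_lit 1) (nat_lit 4) (nat_lit 411) (nat_lit 276) (nat_lit 213))) (XT.nd (nat_lit 78) (nat_lit 0) (nat_lit 0) (XT.lf (nat_lit 0) (nat_lit 2357778285516) (nat_lit 152) (nat_lit 248822937465) (nat_lit 0) (nat_lit 2355999009478) (nat_lit 1) (nat_lit 5) (nat_lit 3) (nat_lit 4) (nat_lit 1) (nat_lit 4) (nat_lit 412) (nat_lit 276) (nat_lit 212)) (XT.lf (nat_lit 0) (nat_lit 2548399782652) (nat_lit 152) (nat_lit 264417251524) (nat_lit 0) (nat_lit 2546619542889) (nat_lit 1) (nat_lit 5) (nat_lit 3) (nat_lit 4) (nat_lit 1) (nat_lit 4) (nat_lit 413) (nat_lit 276) (nat_lit 211)))) (XT.nd (nat_lit 156) (nat_lit 0) (nat_lit 0) (XT.nd (nat_lit 78) (nat_lit 0) (nat_lit 0) (XT.lf (nat_lit 0) (nat_lit 2754268811292) (nat_lit 152) (nat_lit 281263514090) (nat_lit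 0) (nat_lit 2752487679190) (nat_lit 1) (nat_lit 5) (nat_lit 3) (nat_lit 4) (nat_lit 1) (nat_lit 4) (nat_lit 414) (nat_lit 276) (nat_lit 210)) (XT.lf (nat_lit 0) (nat_lit 2976605336048) (nat_lit 152) (nat_lit 299461554868) (nat_lit 0) (nat_lit 2974823377708) (nat_lit 1) (nat_lit 5) (nat_lit 3) (nat_lit 4) (nat_lit 1) (nat_lit 4) (nat_lit 415) (nat_lit 276) (nat_lit 209))) (XT.nd (nat_lit 78) (nat_lit 0) (nat_lit 0) (XT.lf (nat_lit 0) (nat_lit 3216726906698) (nat_lit 152) (nat_lit 319119214098) (nat_lit 0) (nat_lit 3214944183322) (nat_lit 1) (nat_lit 5) (nat_lit 3) (nat_lit 4) (nat_lit 1) (nat_lit 4) (nat_lit 416) (nat_lit 276) (nat_lit 208)) (XT.nd (nat_lit 41340) (nat_lit 0) (nat_lit 380) (XT.lf (nat_lit 0) (nat_lit 3476056465883) (nat_lit 152) (nat_lit 340352981614) (nat_lit 0) (nat_lit 3474273034139) (nat_lit 1) (nat_lit 5) (nat_lit 3) (nat_lit 4) (nat_lit 1) (nat_lit 4) (nat_lit 417)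 (nat_lit 276) (nat_lit 207)) (XT.lf (nat_lit 0) (nat_lit 14491589253) (nat_lit 76) (nat_lit 1509353831) (nat_lit 76) (nat_lit 1509353831) (nat_lit 6) (nat_lit 4) (nat_lit 7) (nat_lit 5) (nat_lit 7) (nat_lit 4) (nat_lit 346) (nat_lit 277) (nat_lit 277)))))) (XT.nd (nat_lit 312) (nat_lit 76) (nat_lit 0) (XT.nd (nat_lit 156) (nat_lit 0) (nat_lit 0) (XT.nd (nat_lit 78) (nat_lit 0) (nat_lit 0) (XT.lf (nat_lit 0) (nat_lit 2244548165) (nat_lit 152) (nat_lit 33052668109) (nat_lit 0) (nat_lit 2089694626) (nat_lit 4) (nat_lit 5) (nat_lit 6) (nat_lit 4) (nat_lit 4) (nat_lit 4) (nat_lit 347) (nat_lit 277) (nat_lit 276)) (XT.lf (nat_lit 0) (nat_lit 7732863332) (nat_lit 152) (nat_lit 24771446903) (nat_lit 0) (nat_lit 7434626887) (nat_lit 4) (nat_lit 5) (nat_lit 6) (nat_lit 4) (nat_lit 4) (nat_lit 4) (nat_lit 348) (nat_lit 277) (nat_lit 275))) (XT.nd (nat_lit 78) (nat_lit 0) (nat_lit 0) (XT.lf (nat_lit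 0) (nat_lit 13400353196) (nat_lit 152) (nat_lit 16346248894) (nat_lit 0) (nat_lit 12969354801) (nat_lit 4) (nat_lit 5) (nat_lit 6) (nat_lit 4) (nat_lit 4) (nat_lit 4) (nat_lit 349) (nat_lit 277) (nat_lit 274)) (XT.lf (nat_lit 0) (nat_lit 19280602883) (nat_lit 152) (nat_lit 7727146983) (nat_lit 0) (nat_lit 18726676755) (nat_lit 4) (nat_lit 5) (nat_lit 6) (nat_lit 4) (nat_lit 4) (nat_lit 4) (nat_lit 350) (nat_lit 277) (nat_lit 273)))) (XT.nd (nat_lit 156) (nat_lit 0) (nat_lit 0) (XT.nd (nat_lit 78) (nat_lit 0) (nat_lit 0) (XT.lf (nat_lit 0) (nat_lit 1196803971) (nat_lit 76) (nat_lit 24240437508) (nat_lit 76) (nat_lit 23572689407) (nat_lit 3) (nat_lit 4) (nat_lit 4) (nat_lit 5) (nat_lit 4) (nat_lit 4) (nat_lit 351) (nat_lit 277) (nat_lit 272)) (XT.lf (nat_lit 0) (nat_lit 10840826989) (nat_lit 76) (nat_lit 21240127872) (nat_lit 76) (nat_lit 20466989054) (nat_lit 3) (nat_lit 4) (nat_lit 4)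 (nat_lit 5) (nat_lit 4) (nat_lit 4) (nat_lit 352) (nat_lit 277) (nat_lit 271))) (XT.nd (nat_lit 78) (nat_lit 0) (nat_lit 0) (XT.lf (nat_lit 0) (nat_lit 20855173970) (nat_lit 76) (nat_lit 18200315236) (nat_lit 76) (nat_lit 17329592422) (nat_lit 3) (nat_lit 4) (nat_lit 4) (nat_lit 5) (nat_lit 4) (nat_lit 4) (nat_lit 353) (nat_lit 277) (nat_lit 270)) (XT.nd (nat_lit 78) (nat_lit 0) (nat_lit 0) (XT.lf (nat_lit 0) (nat_lit 31299189193) (nat_lit 76) (nat_lit 15102985898) (nat_lit 76) (nat_lit 14141907531) (nat_lit 3) (nat_lit 4) (nat_lit 4) (nat_lit 5) (nat_lit 4) (nat_lit 4) (nat_lit 354) (nat_lit 277) (nat_lit 269)) (XT.lf (nat_lit 0) (nat_lit 42234763116) (nat_lit 76) (nat_lit 11929785312) (nat_lit 76) (nat_lit 10885044396) (nat_lit 3) (nat_lit 4) (nat_lit 4) (nat_lit 5) (nat_lit 4) (nat_lit 4) (nat_lit 355) (nat_lit 277) (nat_lit 268))))))))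
noncomputable def xc36 : XT := (XT.nd (nat_lit 1404) (nat_lit 0) (nat_lit 0) (XT.nd (nat_lit 702) (nat_lit 0) (nat_lit 0) (XT.nd (nat_lit 312) (nat_lit 0) (nat_lit 0) (XT.nd (nat_lit 156) (nat_lit 152) (nat_lit 0) (XT.nd (nat_lit 78) (nat_lit 0) (nat_lit 0) (XT.lf (nat_lit 0) (nat_lit 53726699143) (nat_lit 76) (nat_lit 8661909327) (nat_lit 76) (nat_lit 7539703088) (nat_lit 3) (nat_lit 4) (nat_lit 4) (nat_lit 5) (nat_lit 4) (nat_lit 4) (nat_lit 356) (nat_lit 277) (nat_lit 267)) (XT.lf (nat_lit 0) (nat_lit 65843097634) (nat_lit 76) (nat_lit 5279992752) (nat_lit 76) (nat_lit 4086059362) (nat_lit 3) (nat_lit 4) (nat_lit 4) (nat_lit 5) (nat_lit 4) (nat_lit 4) (nat_lit 357) (nat_lit 277) (nat_lit 266))) (XT.nd (nat_lit 78) (nat_lit 152) (nat_lit 0) (XT.lf (nat_lit 0) (nat_lit 78655759470) (nat_lit 76) (nat_lit 1763994600) (nat_lit 76) (nat_lit 503647181) (nat_lit 3) (nat_lit 4) (nat_lit 4)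 (nat_lit 5) (nat_lit 4) (nat_lit 4) (nat_lit 358) (nat_lit 277) (nat_lit 265)) (XT.lf (nat_lit 0) (nat_lit 3246502641) (nat_lit 152) (nat_lit 81815298076) (nat_lit 0) (nat_lit 2022574966) (nat_lit 1) (nat_lit 5) (nat_lit 3) (nat_lit 4) (nat_lit 1) (nat_lit 4) (nat_lit 359) (nat_lit 277) (nat_lit 264)))) (XT.nd (nat_lit 156) (nat_lit 0) (nat_lit 0) (XT.nd (nat_lit 78) (nat_lit 0) (nat_lit 0) (XT.lf (nat_lit 0) (nat_lit 7249595839) (nat_lit 152) (nat_lit 80516243775) (nat_lit 0) (nat_lit 5972946567) (nat_lit 1) (nat_lit 5) (nat_lit 3) (nat_lit 4) (nat_lit 1) (nat_lit 4) (nat_lit 360) (nat_lit 277) (nat_lit 263)) (XT.lf (nat_lit 0) (nat_lit 11453225020) (nat_lit 152) (nat_lit 79354156749) (nat_lit 0) (nat_lit 10127759455) (nat_lit 1) (nat_lit 5) (nat_lit 3) (nat_lit 4) (nat_lit 1) (nat_lit 4) (nat_lit 361) (nat_lit 277) (nat_lit 262))) (XT.nd (nat_lit 78) (nat_lit 0) (nat_lit 0) (XT.lf (nat_lit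 0) (nat_lit 15882300579) (nat_lit 152) (nat_lit 78322150555) (nat_lit 0) (nat_lit 14511634741) (nat_lit 1) (nat_lit 5) (nat_lit 3) (nat_lit 4) (nat_lit 1) (nat_lit 4) (nat_lit 362) (nat_lit 277) (nat_lit 261)) (XT.nd (nat_lit 78) (nat_lit 0) (nat_lit 0) (XT.lf (nat_lit 0) (nat_lit 20563068888) (nat_lit 152) (nat_lit 77414109602) (nat_lit 0) (nat_lit 19150550947) (nat_lit 1) (nat_lit 5) (nat_lit 3) (nat_lit 4) (nat_lit 1) (nat_lit 4) (nat_lit 363) (nat_lit 277) (nat_lit 260)) (XT.lf (nat_lit 0) (nat_lit 25523267835) (nat_lit 152) (nat_lit 76624652907) (nat_lit 0) (nat_lit 24071997946) (nat_lit 1) (nat_lit 5) (nat_lit 3) (nat_lit 4) (nat_lit 1) (nat_lit 4) (nat_lit 364) (nat_lit 277) (nat_lit 259)))))) (XT.nd (nat_lit 312) (nat_lit 0) (nat_lit 0) (XT.nd (nat_lit 156) (nat_lit 0) (nat_lit 0) (XT.nd (nat_lit 78) (nat_lit 0) (nat_lit 0) (XT.lf (nat_lit 0) (nat_lit 30792291190) (nat_lit 152)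 (nat_lit 75949102206) (nat_lit 0) (nat_lit 29305139868) (nat_lit 1) (nat_lit 5) (nat_lit 3) (nat_lit 4) (nat_lit 1) (nat_lit 4) (nat_lit 365) (nat_lit 277) (nat_lit 258)) (XT.lf (nat_lit 0) (nat_lit 36401362797) (nat_lit 152) (nat_lit 75383454237) (nat_lit 0) (nat_lit 34880987926) (nat_lit 1) (nat_lit 5) (nat_lit 3) (nat_lit 4) (nat_lit 1) (nat_lit 4) (nat_lit 366) (nat_lit 277) (nat_lit 257))) (XT.nd (nat_lit 78) (nat_lit 0) (nat_lit 0) (XT.lf (nat_lit 0) (nat_lit 42383721597) (nat_lit 152) (nat_lit 74924357012) (nat_lit 0) (nat_lit 40832584180) (nat_lit 1) (nat_lit 5) (nat_lit 3) (nat_lit 4) (nat_lit 1) (nat_lit 4) (nat_lit 367) (nat_lit 277) (nat_lit 256)) (XT.lf (nat_lit 0) (nat_lit 48774818606) (nat_lit 152) (nat_lit 74569089955) (nat_lit 0) (nat_lit 47195197351) (nat_lit 1) (nat_lit 5) (nat_lit 3) (nat_lit 4) (nat_lit 1) (nat_lit 4) (nat_lit 368) (nat_lit 277) (nat_lit 255)))) (XT.nd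 (nat_lit 156) (nat_lit 0) (nat_lit 0) (XT.nd (nat_lit 78) (nat_lit 0) (nat_lit 0) (XT.lf (nat_lit 0) (nat_lit 55612526992) (nat_lit 152) (nat_lit 74315547779) (nat_lit 0) (nat_lit 54006531812) (nat_lit 1) (nat_lit 5) (nat_lit 3) (nat_lit 4) (nat_lit 1) (nat_lit 4) (nat_lit 369) (nat_lit 277) (nat_lit 254)) (XT.lf (nat_lit 0) (nat_lit 62937366507) (nat_lit 152) (nat_lit 74162228012) (nat_lit 0) (nat_lit 61306951027) (nat_lit 1) (nat_lit 5) (nat_lit 3) (nat_lit 4) (nat_lit 1) (nat_lit 4) (nat_lit 370) (nat_lit 277) (nat_lit 253))) (XT.nd (nat_lit 78) (nat_lit 0) (nat_lit 0) (XT.lf (nat_lit 0) (nat_lit 70792743608) (nat_lit 152) (nat_lit 74108222093) (nat_lit 0) (nat_lit 69139716739) (nat_lit 1) (nat_lit 5) (nat_lit 3) (nat_lit 4) (nat_lit 1) (nat_lit 4) (nat_lit 371) (nat_lit 277) (nat_lit 252)) (XT.nd (nat_lit 78) (nat_lit 0) (nat_lit 0) (XT.lf (nat_lit 0) (nat_lit 79225208679) (nat_lit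 152) (nat_lit 74153209986) (nat_lit 0) (nat_lit 77551245338) (nat_lit 1) (nat_lit 5) (nat_lit 3) (nat_lit 4) (nat_lit 1) (nat_lit 4) (nat_lit 372) (nat_lit 277) (nat_lit 251)) (XT.lf (nat_lit 0) (nat_lit 88284731882) (nat_lit 152) (nat_lit 74297458287) (nat_lit 0) (nat_lit 86591382919) (nat_lit 1) (nat_lit 5) (nat_lit 3) (nat_lit 4) (nat_lit 1) (nat_lit 4) (nat_lit 373) (nat_lit 277) (nat_lit 250))))))) (XT.nd (nat_lit 702) (nat_lit 0) (nat_lit 0) (XT.nd (nat_lit 312) (nat_lit 0) (nat_lit 0) (XT.nd (nat_lit 156) (nat_lit 0) (nat_lit 0) (XT.nd (nat_lit 78) (nat_lit 0) (nat_lit 0) (XT.lf (nat_lit 0) (nat_lit 98024999280) (nat_lit 152) (nat_lit 74541821800) (nat_lit 0) (nat_lit 96313700668) (nat_lit 1) (nat_lit 5) (nat_lit 3) (nat_lit 4) (nat_lit 1) (nat_lit 4) (nat_lit 374) (nat_lit 277) (nat_lit 249)) (XT.lf (nat_lit 0) (nat_lit 108503730978) (nat_lit 152) (nat_lit 74887748606) (nat_lit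 0) (nat_lit 106775812319) (nat_lit 1) (nat_lit 5) (nat_lit 3) (nat_lit 4) (nat_lit 1) (nat_lit 4) (nat_lit 375) (nat_lit 277) (nat_lit 248))) (XT.nd (nat_lit 78) (nat_lit 0) (nat_lit 0) (XT.lf (nat_lit 0) (nat_lit 119783023162) (nat_lit 152) (nat_lit 75337288640) (nat_lit 0) (nat_lit 118039715572) (nat_lit 1) (nat_lit 5) (nat_lit 3) (nat_lit 4) (nat_lit 1) (nat_lit 4) (nat_lit 376) (nat_lit 277) (nat_lit 247)) (XT.lf (nat_lit 0) (nat_lit 131929716083) (nat_lit 152) (nat_lit 75893105845) (nat_lit 0) (nat_lit 130172159482) (nat_lit 1) (nat_lit 5) (nat_lit 3) (nat_lit 4) (nat_lit 1) (nat_lit 4) (nat_lit 377) (nat_lit 277) (nat_lit 246)))) (XT.nd (nat_lit 156) (nat_lit 0) (nat_lit 0) (XT.nd (nat_lit 78) (nat_lit 0) (nat_lit 0) (XT.lf (nat_lit 0) (nat_lit 145015790143) (nat_lit 152) (nat_lit 76558493951) (nat_lit 0) (nat_lit 143245040014) (nat_lit 1) (nat_lit 5) (nat_lit 3) (nat_lit 4) (nat_lit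 1) (nat_lit 4) (nat_lit 378) (nat_lit 277) (nat_lit 245)) (XT.lf (nat_lit 0) (nat_lit 159118792448) (nat_lit 152) (nat_lit 77337395999) (nat_lit 0) (nat_lit 157335826088) (nat_lit 1) (nat_lit 5) (nat_lit 3) (nat_lit 4) (nat_lit 1) (nat_lit 4) (nat_lit 379) (nat_lit 277) (nat_lit 244))) (XT.nd (nat_lit 78) (nat_lit 0) (nat_lit 0) (XT.lf (nat_lit 0) (nat_lit 174322296345) (nat_lit 152) (nat_lit 78234427705) (nat_lit 0) (nat_lit 172528018661) (nat_lit 1) (nat_lit 5) (nat_lit 3) (nat_lit 4) (nat_lit 1) (nat_lit 4) (nat_lit 380) (nat_lit 277) (nat_lit 243)) (XT.nd (nat_lit 78) (nat_lit 0) (nat_lit 0) (XT.lf (nat_lit 0) (nat_lit 190716396671) (nat_lit 152) (nat_lit 79254904812) (nat_lit 0) (nat_lit 188911645539) (nat_lit 1) (nat_lit 5) (nat_lit 3) (nat_lit 4) (nat_lit 1) (nat_lit 4) (nat_lit 381) (nat_lit 277) (nat_lit 242)) (XT.lf (nat_lit 0) (nat_lit 208398243651) (nat_lit 152) (nat_lit 80404874593)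 (nat_lit 0) (nat_lit 206583794882) (nat_lit 1) (nat_lit 5) (nat_lit 3) (nat_lit 4) (nat_lit 1) (nat_lit 4) (nat_lit 382) (nat_lit 277) (nat_lit 241)))))) (XT.nd (nat_lit 312) (nat_lit 0) (nat_lit 0) (XT.nd (nat_lit 156) (nat_lit 0) (nat_lit 0) (XT.nd (nat_lit 78) (nat_lit 0) (nat_lit 0) (XT.lf (nat_lit 0) (nat_lit 227472618601) (nat_lit 152) (nat_lit 81691151682) (nat_lit 0) (nat_lit 225649190537) (nat_lit 1) (nat_lit 5) (nat_lit 3) (nat_lit 4) (nat_lit 1) (nat_lit 4) (nat_lit 383) (nat_lit 277) (nat_lit 240)) (XT.lf (nat_lit 0) (nat_lit 248052554852) (nat_lit 152) (nat_lit 83121358463) (nat_lit 0) (nat_lit 246220812628) (nat_lit 1) (nat_lit 5) (nat_lit 3) (nat_lit 4) (nat_lit 1) (nat_lit 4) (nat_lit 384) (nat_lit 277) (nat_lit 239))) (XT.nd (nat_lit 78) (nat_lit 0) (nat_lit 0) (XT.lf (nat_lit 0) (nat_lit 270260007584) (nat_lit 152) (nat_lit 84703970235) (nat_lit 0) (nat_lit 268420567063)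 (nat_lit 1) (nat_lit 5) (nat_lit 3) (nat_lit 4) (nat_lit 1) (nat_lit 4) (nat_lit 385) (nat_lit 277) (nat_lit 238)) (XT.lf (nat_lit 0) (nat_lit 294226576516) (nat_lit 152) (nat_lit 86448365438) (nat_lit 0) (nat_lit 292380007941) (nat_lit 1) (nat_lit 5) (nat_lit 3) (nat_lit 4) (nat_lit 1) (nat_lit 4) (nat_lit 386) (nat_lit 277) (nat_lit 237)))) (XT.nd (nat_lit 156) (nat_lit 0) (nat_lit 0) (XT.nd (nat_lit 78) (nat_lit 0) (nat_lit 0) (XT.lf (nat_lit 0) (nat_lit 320094285759) (nat_lit 152) (nat_lit 88364881230) (nat_lit 0) (nat_lit 318241117136) (nat_lit 1) (nat_lit 5) (nat_lit 3) (nat_lit 4) (nat_lit 1) (nat_lit 4) (nat_lit 387) (nat_lit 277) (nat_lit 236)) (XT.lf (nat_lit 0) (nat_lit 348016425444) (nat_lit 152) (nat_lit 90464874739) (nat_lit 0) (nat_lit 346157145664) (nat_lit 1) (nat_lit 5) (nat_lit 3) (nat_lit 4) (nat_lit 1) (nat_lit 4) (nat_lit 388) (nat_lit 277) (nat_lit 235))) (XT.nd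 (nat_lit 78) (nat_lit 0) (nat_lit 0) (XT.lf (nat_lit 0) (nat_lit 378158460101) (nat_lit 152) (nat_lit 92760790374) (nat_lit 0) (nat_lit 376293521843) (nat_lit 1) (nat_lit 5) (nat_lit 3) (nat_lit 4) (nat_lit 1) (nat_lit 4) (nat_lit 389) (nat_lit 277) (nat_lit 234)) (XT.nd (nat_lit 78) (nat_lit 0) (nat_lit 0) (XT.lf (nat_lit 0) (nat_lit 410699009196) (nat_lit 152) (nat_lit 95266233559) (nat_lit 0) (nat_lit 408828831606) (nat_lit 1) (nat_lit 5) (nat_lit 3) (nat_lit 4) (nat_lit 1) (nat_lit 4) (nat_lit 390) (nat_lit 277) (nat_lit 233)) (XT.lf (nat_lit 0) (nat_lit 445830905611) (nat_lit 152) (nat_lit 97996051365) (nat_lit 0) (nat_lit 443955876788) (nat_lit 1) (nat_lit 5) (nat_lit 3) (nat_lit 4) (nat_lit 1) (nat_lit 4) (nat_lit 391) (nat_lit 277) (nat_lit 232))))))))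
noncomputable def xc37 : XT := (XT.nd (nat_lit 1404) (nat_lit 0) (nat_lit 0) (XT.nd (nat_lit 702) (nat_lit 0) (nat_lit 0) (XT.nd (nat_lit 312) (nat_lit 0) (nat_lit 0) (XT.nd (nat_lit 156) (nat_lit 0) (nat_lit 0) (XT.nd (nat_lit 78) (nat_lit 0) (nat_lit 0) (XT.lf (nat_lit 0) (nat_lit 483762338362) (nat_lit 152) (nat_lit 100966420491) (nat_lit 0) (nat_lit 481882817657) (nat_lit 1) (nat_lit 5) (nat_lit 3) (nat_lit 4) (nat_lit 1) (nat_lit 4) (nat_lit 392) (nat_lit 277) (nat_lit 231)) (XT.lf (nat_lit 0) (nat_lit 524718086310) (nat_lit 152) (nat_lit 104194943123) (nat_lit 0) (nat_lit 522834406455) (nat_lit 1) (nat_lit 5) (nat_lit 3) (nat_lit 4) (nat_lit 1) (nat_lit 4) (nat_lit 393) (nat_lit 277) (nat_lit 230))) (XT.nd (nat_lit 78) (nat_lit 0) (nat_lit 0) (XT.lf (nat_lit 0) (nat_lit 568940850185) (nat_lit 152) (nat_lit 107700751248) (nat_lit 0) (nat_lit 567053319264) (nat_lit 1) (nat_lit 5)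 (nat_lit 3) (nat_lit 4) (nat_lit 1) (nat_lit 4) (nat_lit 394) (nat_lit 277) (nat_lit 229)) (XT.lf (nat_lit 0) (nat_lit 616692690807) (nat_lit 152) (nat_lit 111504620025) (nat_lit 0) (nat_lit 614801594086) (nat_lit 1) (nat_lit 5) (nat_lit 3) (nat_lit 4) (nat_lit 1) (nat_lit 4) (nat_lit 395) (nat_lit 277) (nat_lit 228)))) (XT.nd (nat_lit 156) (nat_lit 0) (nat_lit 0) (XT.nd (nat_lit 78) (nat_lit 0) (nat_lit 0) (XT.lf (nat_lit 0) (nat_lit 668256582049) (nat_lit 152) (nat_lit 115629090899) (nat_lit 0) (nat_lit 666362183660) (nat_lit 1) (nat_lit 5) (nat_lit 3) (nat_lit 4) (nat_lit 1) (nat_lit 4) (nat_lit 396) (nat_lit 277) (nat_lit 227)) (XT.lf (nat_lit 0) (nat_lit 723938087710) (nat_lit 152) (nat_lit 120098605178) (nat_lit 0) (nat_lit 722040632221) (nat_lit 1) (nat_lit 5) (nat_lit 3) (nat_lit 4) (nat_lit 1) (nat_lit 4) (nat_lit 397) (nat_lit 277) (nat_lit 226))) (XT.nd (nat_lit 78) (nat_lit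 0) (nat_lit 0) (XT.lf (nat_lit 0) (nat_lit 784067172268) (nat_lit 152) (nat_lit 124939648874) (nat_lit 0) (nat_lit 782166886131) (nat_lit 1) (nat_lit 5) (nat_lit 3) (nat_lit 4) (nat_lit 1) (nat_lit 4) (nat_lit 398) (nat_lit 277) (nat_lit 225)) (XT.nd (nat_lit 78) (nat_lit 0) (nat_lit 0) (XT.lf (nat_lit 0) (nat_lit 849000156224) (nat_lit 152) (nat_lit 130180909651) (nat_lit 0) (nat_lit 847097249117) (nat_lit 1) (nat_lit 5) (nat_lit 3) (nat_lit 4) (nat_lit 1) (nat_lit 4) (nat_lit 399) (nat_lit 277) (nat_lit 224)) (XT.lf (nat_lit 0) (nat_lit 919121827632) (nat_lit 152) (nat_lit 135853446835) (nat_lit 0) (nat_lit 917216493700) (nat_lit 1) (nat_lit 5) (nat_lit 3) (nat_lit 4) (nat_lit 1) (nat_lit 4) (nat_lit 400) (nat_lit 277) (nat_lit 223)))))) (XT.nd (nat_lit 312) (nat_lit 0) (nat_lit 0) (XT.nd (nat_lit 156) (nat_lit 0) (nat_lit 0) (XT.nd (nat_lit 78) (nat_lit 0) (nat_lit 0) (XT.lf (nat_lit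 0) (nat_lit 994847722321) (nat_lit 152) (nat_lit 141990875459) (nat_lit 0) (nat_lit 992940141329) (nat_lit 1) (nat_lit 5) (nat_lit 3) (nat_lit 4) (nat_lit 1) (nat_lit 4) (nat_lit 401) (nat_lit 277) (nat_lit 222)) (XT.lf (nat_lit 0) (nat_lit 1076626586334) (nat_lit 152) (nat_lit 148629565471) (nat_lit 0) (nat_lit 1074716924732) (nat_lit 1) (nat_lit 5) (nat_lit 3) (nat_lit 4) (nat_lit 1) (nat_lit 4) (nat_lit 402) (nat_lit 277) (nat_lit 221))) (XT.nd (nat_lit 78) (nat_lit 0) (nat_lit 0) (XT.lf (nat_lit 0) (nat_lit 1164943035162) (nat_lit 152) (nat_lit 155808857256) (nat_lit 0) (nat_lit 1163031447068) (nat_lit 1) (nat_lit 5) (nat_lit 3) (nat_lit 4) (nat_lit 1) (nat_lit 4) (nat_lit 403) (nat_lit 277) (nat_lit 220)) (XT.lf (nat_lit 0) (nat_lit 1260320425538) (nat_lit 152) (nat_lit 163571294766) (nat_lit 0) (nat_lit 1258407053657) (nat_lit 1) (nat_lit 5) (nat_lit 3) (nat_lit 4) (nat_lit 1) (nat_lit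 4) (nat_lit 404) (nat_lit 277) (nat_lit 219)))) (XT.nd (nat_lit 156) (nat_lit 0) (nat_lit 0) (XT.nd (nat_lit 78) (nat_lit 0) (nat_lit 0) (XT.lf (nat_lit 0) (nat_lit 1363323956814) (nat_lit 152) (nat_lit 171962877630) (nat_lit 0) (nat_lit 1361408933276) (nat_lit 1) (nat_lit 5) (nat_lit 3) (nat_lit 4) (nat_lit 1) (nat_lit 4) (nat_lit 405) (nat_lit 277) (nat_lit 218)) (XT.lf (nat_lit 0) (nat_lit 1474564020285) (nat_lit 152) (nat_lit 181033333748) (nat_lit 0) (nat_lit 1472647467436) (nat_lit 1) (nat_lit 5) (nat_lit 3) (nat_lit 4) (nat_lit 1) (nat_lit 4) (nat_lit 406) (nat_lit 277) (nat_lit 217))) (XT.nd (nat_lit 78) (nat_lit 0) (nat_lit 0) (XT.lf (nat_lit 0) (nat_lit 1594699816327) (nat_lit 152) (nat_lit 190836413969) (nat_lit 0) (nat_lit 1592781847450) (nat_lit 1) (nat_lit 5) (nat_lit 3) (nat_lit 4) (nat_lit 1) (nat_lit 4) (nat_lit 407) (nat_lit 277) (nat_lit 216)) (XT.nd (nat_lit 78) (nat_lit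 0) (nat_lit 0) (XT.lf (nat_lit 0) (nat_lit 1724443260769) (nat_lit 152) (nat_lit 201430210621) (nat_lit 0) (nat_lit 1722523980754) (nat_lit 1) (nat_lit 5) (nat_lit 3) (nat_lit 4) (nat_lit 1) (nat_lit 4) (nat_lit 408) (nat_lit 277) (nat_lit 215)) (XT.lf (nat_lit 0) (nat_lit 1864563203653) (nat_lit 152) (nat_lit 212877501758) (nat_lit 0) (nat_lit 1862642709621) (nat_lit 1) (nat_lit 5) (nat_lit 3) (nat_lit 4) (nat_lit 1) (nat_lit 4) (nat_lit 409) (nat_lit 277) (nat_lit 214))))))) (XT.nd (nat_lit 41808) (nat_lit 0) (nat_lit 152) (XT.nd (nat_lit 312) (nat_lit 0) (nat_lit 0) (XT.nd (nat_lit 156) (nat_lit 0) (nat_lit 0) (XT.nd (nat_lit 78) (nat_lit 0) (nat_lit 0) (XT.lf (nat_lit 0) (nat_lit 2015889985379) (nat_lit 152) (nat_lit 225246123180) (nat_lit 0) (nat_lit 2013968367259) (nat_lit 1) (nat_lit 5) (nat_lit 3) (nat_lit 4) (nat_lit 1) (nat_lit 4) (nat_lit 410) (nat_lit 277) (nat_lit 213)) (XT.lf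 (nat_lit 0) (nat_lit 2179320357248) (nat_lit 152) (nat_lit 238609370422) (nat_lit 0) (nat_lit 2177397698305) (nat_lit 1) (nat_lit 5) (nat_lit 3) (nat_lit 4) (nat_lit 1) (nat_lit 4) (nat_lit 411) (nat_lit 277) (nat_lit 212))) (XT.nd (nat_lit 78) (nat_lit 0) (nat_lit 0) (XT.lf (nat_lit 0) (nat_lit 2355822795538) (nat_lit 152) (nat_lit 253046433095) (nat_lit 0) (nat_lit 2353899172869) (nat_lit 1) (nat_lit 5) (nat_lit 3) (nat_lit 4) (nat_lit 1) (nat_lit 4) (nat_lit 412) (nat_lit 277) (nat_lit 211)) (XT.lf (nat_lit 0) (nat_lit 2546443240622) (nat_lit 152) (nat_lit 268642864165) (nat_lit 0) (nat_lit 2544518725615) (nat_lit 1) (nat_lit 5) (nat_lit 3) (nat_lit 4) (nat_lit 1) (nat_lit 4) (nat_lit 413) (nat_lit 277) (nat_lit 210)))) (XT.nd (nat_lit 156) (nat_lit 0) (nat_lit 0) (XT.nd (nat_lit 78) (nat_lit 0) (nat_lit 0) (XT.lf (nat_lit 0) (nat_lit 2752311295140) (nat_lit 152) (nat_lit 285491086926)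 (nat_lit 0) (nat_lit 2750385953893) (nat_lit 1) (nat_lit 5) (nat_lit 3) (nat_lit 4) (nat_lit 1) (nat_lit 4) (nat_lit 414) (nat_lit 277) (nat_lit 209)) (XT.lf (nat_lit 0) (nat_lit 2974646917931) (nat_lit 152) (nat_lit 303690942699) (nat_lit 0) (nat_lit 2972720811648) (nat_lit 1) (nat_lit 5) (nat_lit 3) (nat_lit 4) (nat_lit 1) (nat_lit 4) (nat_lit 415) (nat_lit 277) (nat_lit 208))) (XT.nd (nat_lit 78) (nat_lit 0) (nat_lit 0) (XT.lf (nat_lit 0) (nat_lit 3214767653429) (nat_lit 152) (nat_lit 323350282481) (nat_lit 0) (nat_lit 3212840838779) (nat_lit 1) (nat_lit 5) (nat_lit 3) (nat_lit 4) (nat_lit 1) (nat_lit 4) (nat_lit 416) (nat_lit 277) (nat_lit 207)) (XT.nd (nat_lit 41184) (nat_lit 0) (nat_lit 380) (XT.lf (nat_lit 0) (nat_lit 3474096439324) (nat_lit 152) (nat_lit 344585606063) (nat_lit 0) (nat_lit 3472168968779) (nat_lit 1) (nat_lit 5) (nat_lit 3) (nat_lit 4) (nat_lit 1) (nat_lit 4) (nat_lit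 417) (nat_lit 277) (nat_lit 206)) (XT.lf (nat_lit 0) (nat_lit 2601198123) (nat_lit 76) (nat_lit 6404541027) (nat_lit 76) (nat_lit 6404541027) (nat_lit 6) (nat_lit 4) (nat_lit 7) (nat_lit 5) (nat_lit 7) (nat_lit 4) (nat_lit 344) (nat_lit 278) (nat_lit 278)))))) (XT.nd (nat_lit 312) (nat_lit 76) (nat_lit 0) (XT.nd (nat_lit 156) (nat_lit 152) (nat_lit 0) (XT.nd (nat_lit 78) (nat_lit 0) (nat_lit 0) (XT.lf (nat_lit 0) (nat_lit 16771207330) (nat_lit 76) (nat_lit 8121860417) (nat_lit 76) (nat_lit 7941239250) (nat_lit 6) (nat_lit 4) (nat_lit 7) (nat_lit 5) (nat_lit 7) (nat_lit 4) (nat_lit 345) (nat_lit 278) (nat_lit 277)) (XT.lf (nat_lit 0) (nat_lit 28721748141) (nat_lit 76) (nat_lit 3328650849) (nat_lit 76) (nat_lit 2980787859) (nat_lit 6) (nat_lit 4) (nat_lit 7) (nat_lit 5) (nat_lit 7) (nat_lit 4) (nat_lit 346) (nat_lit 278) (nat_lit 276))) (XT.nd (nat_lit 78) (nat_lit 0) (nat_lit 0) (XT.lf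 (nat_lit 0) (nat_lit 2131108229) (nat_lit 152) (nat_lit 33612670674) (nat_lit 0) (nat_lit 1665629962) (nat_lit 4) (nat_lit 5) (nat_lit 6) (nat_lit 4) (nat_lit 4) (nat_lit 4) (nat_lit 347) (nat_lit 278) (nat_lit 275)) (XT.lf (nat_lit 0) (nat_lit 7494476033) (nat_lit 152) (nat_lit 25580738359) (nat_lit 0) (nat_lit 6896235815) (nat_lit 4) (nat_lit 5) (nat_lit 6) (nat_lit 4) (nat_lit 4) (nat_lit 4) (nat_lit 348) (nat_lit 278) (nat_lit 274)))) (XT.nd (nat_lit 156) (nat_lit 76) (nat_lit 0) (XT.nd (nat_lit 78) (nat_lit 0) (nat_lit 0) (XT.lf (nat_lit 0) (nat_lit 13046273894) (nat_lit 152) (nat_lit 17386363397) (nat_lit 0) (nat_lit 12325105944) (nat_lit 4) (nat_lit 5) (nat_lit 6) (nat_lit 4) (nat_lit 4) (nat_lit 4) (nat_lit 349) (nat_lit 278) (nat_lit 273)) (XT.lf (nat_lit 0) (nat_lit 18819401355) (nat_lit 152) (nat_lit 8980986530) (nat_lit 0) (nat_lit 17984411432) (nat_lit 4) (nat_lit 5) (nat_lit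 6) (nat_lit 4) (nat_lit 4) (nat_lit 4) (nat_lit 350) (nat_lit 278) (nat_lit 272))) (XT.nd (nat_lit 78) (nat_lit 76) (nat_lit 0) (XT.lf (nat_lit 0) (nat_lit 24848069542) (nat_lit 152) (nat_lit 314798115) (nat_lit 0) (nat_lit 23907688902) (nat_lit 4) (nat_lit 5) (nat_lit 6) (nat_lit 4) (nat_lit 4) (nat_lit 4) (nat_lit 351) (nat_lit 278) (nat_lit 271)) (XT.nd (nat_lit 78) (nat_lit 0) (nat_lit 0) (XT.lf (nat_lit 0) (nat_lit 9119764595) (nat_lit 76) (nat_lit 22267569858) (nat_lit 76) (nat_lit 21229605221) (nat_lit 3) (nat_lit 4) (nat_lit 4) (nat_lit 5) (nat_lit 4) (nat_lit 4) (nat_lit 352) (nat_lit 278) (nat_lit 270)) (XT.lf (nat_lit 0) (nat_lit 18955515654) (nat_lit 76) (nat_lit 19317020832) (nat_lit 76) (nat_lit 18188700643) (nat_lit 3) (nat_lit 4) (nat_lit 4) (nat_lit 5) (nat_lit 4) (nat_lit 4) (nat_lit 353) (nat_lit 278) (nat_lit 269))))))))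
noncomputable def xc38 : XT := (XT.nd (nat_lit 1404) (nat_lit 0) (nat_lit 0) (XT.nd (nat_lit 702) (nat_lit 0) (nat_lit 0) (XT.nd (nat_lit 312) (nat_lit 152) (nat_lit 0) (XT.nd (nat_lit 156) (nat_lit 0) (nat_lit 0) (XT.nd (nat_lit 78) (nat_lit 0) (nat_lit 0) (XT.lf (nat_lit 0) (nat_lit 29234164282) (nat_lit 76) (nat_lit 16302342984) (nat_lit 76) (nat_lit 15090360246) (nat_lit 3) (nat_lit 4) (nat_lit 4) (nat_lit 5) (nat_lit 4) (nat_lit 4) (nat_lit 354) (nat_lit 278) (nat_lit 268)) (XT.lf (nat_lit 0) (nat_lit 40016620989) (nat_lit 76) (nat_lit 13205671556) (nat_lit 76) (nat_lit 11916223495) (nat_lit 3) (nat_lit 4) (nat_lit 4) (nat_lit 5) (nat_lit 4) (nat_lit 4) (nat_lit 355) (nat_lit 278) (nat_lit 267))) (XT.nd (nat_lit 78) (nat_lit 0) (nat_lit 0) (XT.lf (nat_lit 0) (nat_lit 51366781815) (nat_lit 76) (nat_lit 10008655902) (nat_lit 76) (nat_lit 8647480690) (nat_lit 3) (nat_lit 4) (nat_lit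 4) (nat_lit 5) (nat_lit 4) (nat_lit 4) (nat_lit 356) (nat_lit 278) (nat_lit 266)) (XT.lf (nat_lit 0) (nat_lit 63351906972) (nat_lit 76) (nat_lit 6692350744) (nat_lit 76) (nat_lit 5264761504) (nat_lit 3) (nat_lit 4) (nat_lit 4) (nat_lit 5) (nat_lit 4) (nat_lit 4) (nat_lit 357) (nat_lit 278) (nat_lit 265)))) (XT.nd (nat_lit 156) (nat_lit 0) (nat_lit 0) (XT.nd (nat_lit 78) (nat_lit 152) (nat_lit 0) (XT.lf (nat_lit 0) (nat_lit 76043019424) (nat_lit 76) (nat_lit 3237103905) (nat_lit 76) (nat_lit 1748020194) (nat_lit 3) (nat_lit 4) (nat_lit 4) (nat_lit 5) (nat_lit 4) (nat_lit 4) (nat_lit 358) (nat_lit 278) (nat_lit 264)) (XT.lf (nat_lit 0) (nat_lit 1896208055) (nat_lit 152) (nat_lit 84844060119) (nat_lit 0) (nat_lit 464705244) (nat_lit 1) (nat_lit 5) (nat_lit 3) (nat_lit 4) (nat_lit 1) (nat_lit 4) (nat_lit 359) (nat_lit 278) (nat_lit 263))) (XT.nd (nat_lit 78) (nat_lit 0) (nat_lit 0) (XT.lf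 (nat_lit 0) (nat_lit 5841747661) (nat_lit 152) (nat_lit 83660819096) (nat_lit 0) (nat_lit 4361428556) (nat_lit 1) (nat_lit 5) (nat_lit 3) (nat_lit 4) (nat_lit 1) (nat_lit 4) (nat_lit 360) (nat_lit 278) (nat_lit 262)) (XT.nd (nat_lit 78) (nat_lit 0) (nat_lit 0) (XT.lf (nat_lit 0) (nat_lit 9992086478) (nat_lit 152) (nat_lit 82605966587) (nat_lit 0) (nat_lit 8466567101) (nat_lit 1) (nat_lit 5) (nat_lit 3) (nat_lit 4) (nat_lit 1) (nat_lit 4) (nat_lit 361) (nat_lit 278) (nat_lit 261)) (XT.lf (nat_lit 0) (nat_lit 14371819106) (nat_lit 152) (nat_lit 81673251613) (nat_lit 0) (nat_lit 12804447627) (nat_lit 1) (nat_lit 5) (nat_lit 3) (nat_lit 4) (nat_lit 1) (nat_lit 4) (nat_lit 362) (nat_lit 278) (nat_lit 260)))))) (XT.nd (nat_lit 312) (nat_lit 0) (nat_lit 0) (XT.nd (nat_lit 156) (nat_lit 0) (nat_lit 0) (XT.nd (nat_lit 78) (nat_lit 0) (nat_lit 0) (XT.lf (nat_lit 0) (nat_lit 19006899518) (nat_lit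 152) (nat_lit 80857146974) (nat_lit 0) (nat_lit 17400776090) (nat_lit 1) (nat_lit 5) (nat_lit 3) (nat_lit 4) (nat_lit 1) (nat_lit 4) (nat_lit 363) (nat_lit 278) (nat_lit 259)) (XT.lf (nat_lit 0) (nat_lit 23924794856) (nat_lit 152) (nat_lit 80152816495) (nat_lit 0) (nat_lit 22282789995) (nat_lit 1) (nat_lit 5) (nat_lit 3) (nat_lit 4) (nat_lit 1) (nat_lit 4) (nat_lit 364) (nat_lit 278) (nat_lit 258))) (XT.nd (nat_lit 78) (nat_lit 0) (nat_lit 0) (XT.lf (nat_lit 0) (nat_lit 29154648203) (nat_lit 152) (nat_lit 79556086365) (nat_lit 0) (nat_lit 27479419793) (nat_lit 1) (nat_lit 5) (nat_lit 3) (nat_lit 4) (nat_lit 1) (nat_lit 4) (nat_lit 365) (nat_lit 278) (nat_lit 257)) (XT.lf (nat_lit 0) (nat_lit 34727451283) (nat_lit 152) (nat_lit 79063420407) (nat_lit 0) (nat_lit 33021460327) (nat_lit 1) (nat_lit 5) (nat_lit 3) (nat_lit 4) (nat_lit 1) (nat_lit 4) (nat_lit 366) (nat_lit 278) (nat_lit 256))))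 (XT.nd (nat_lit 156) (nat_lit 0) (nat_lit 0) (XT.nd (nat_lit 78) (nat_lit 0) (nat_lit 0) (XT.lf (nat_lit 0) (nat_lit 40676228114) (nat_lit 152) (nat_lit 78671899117) (nat_lit 0) (nat_lit 38941753320) (nat_lit 1) (nat_lit 5) (nat_lit 3) (nat_lit 4) (nat_lit 1) (nat_lit 4) (nat_lit 367) (nat_lit 278) (nat_lit 255)) (XT.lf (nat_lit 0) (nat_lit 47036230708) (nat_lit 152) (nat_lit 78379202370) (nat_lit 0) (nat_lit 45275381989) (nat_lit 1) (nat_lit 5) (nat_lit 3) (nat_lit 4) (nat_lit 1) (nat_lit 4) (nat_lit 368) (nat_lit 278) (nat_lit 254))) (XT.nd (nat_lit 78) (nat_lit 0) (nat_lit 0) (XT.lf (nat_lit 0) (nat_lit 53845147968) (nat_lit 152) (nat_lit 78183595667) (nat_lit 0) (nat_lit 52059878949) (nat_lit 1) (nat_lit 5) (nat_lit 3) (nat_lit 4) (nat_lit 1) (nat_lit 4) (nat_lit 369) (nat_lit 278) (nat_lit 253)) (XT.nd (nat_lit 78) (nat_lit 0) (nat_lit 0) (XT.lf (nat_lit 0) (nat_lit 61143329034)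 (nat_lit 152) (nat_lit 78083919856) (nat_lit 0) (nat_lit 59335448626) (nat_lit 1) (nat_lit 5) (nat_lit 3) (nat_lit 4) (nat_lit 1) (nat_lit 4) (nat_lit 370) (nat_lit 278) (nat_lit 252)) (XT.lf (nat_lit 0) (nat_lit 68974022386) (nat_lit 152) (nat_lit 78079584267) (nat_lit 0) (nat_lit 67145205506) (nat_lit 1) (nat_lit 5) (nat_lit 3) (nat_lit 4) (nat_lit 1) (nat_lit 4) (nat_lit 371) (nat_lit 278) (nat_lit 251))))))) (XT.nd (nat_lit 702) (nat_lit 0) (nat_lit 0) (XT.nd (nat_lit 312) (nat_lit 0) (nat_lit 0) (XT.nd (nat_lit 156) (nat_lit 0) (nat_lit 0) (XT.nd (nat_lit 78) (nat_lit 0) (nat_lit 0) (XT.lf (nat_lit 0) (nat_lit 77383632132) (nat_lit 152) (nat_lit 78170563207) (nat_lit 0) (nat_lit 75535429631) (nat_lit 1) (nat_lit 5) (nat_lit 3) (nat_lit 4) (nat_lit 1) (nat_lit 4) (nat_lit 372) (nat_lit 278) (nat_lit 250)) (XT.lf (nat_lit 0) (nat_lit 86421992999) (nat_lit 152) (nat_lit 78357395810)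 (nat_lit 0) (nat_lit 84555840847) (nat_lit 1) (nat_lit 5) (nat_lit 3) (nat_lit 4) (nat_lit 1) (nat_lit 4) (nat_lit 373) (nat_lit 278) (nat_lit 249))) (XT.nd (nat_lit 78) (nat_lit 0) (nat_lit 0) (XT.lf (nat_lit 0) (nat_lit 96142665641) (nat_lit 152) (nat_lit 78641189232) (nat_lit 0) (nat_lit 94259893443) (nat_lit 1) (nat_lit 5) (nat_lit 3) (nat_lit 4) (nat_lit 1) (nat_lit 4) (nat_lit 374) (nat_lit 278) (nat_lit 248)) (XT.lf (nat_lit 0) (nat_lit 106603254046) (nat_lit 152) (nat_lit 79023625213) (nat_lit 0) (nat_lit 104705092916) (nat_lit 1) (nat_lit 5) (nat_lit 3) (nat_lit 4) (nat_lit 1) (nat_lit 4) (nat_lit 375) (nat_lit 278) (nat_lit 247)))) (XT.nd (nat_lit 156) (nat_lit 0) (nat_lit 0) (XT.nd (nat_lit 78) (nat_lit 0) (nat_lit 0) (XT.lf (nat_lit 0) (nat_lit 117865746885) (nat_lit 152) (nat_lit 79506970039) (nat_lit 0) (nat_lit 115953336745) (nat_lit 1) (nat_lit 5) (nat_lit 3) (nat_lit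 4) (nat_lit 1) (nat_lit 4) (nat_lit 376) (nat_lit 278) (nat_lit 246)) (XT.lf (nat_lit 0) (nat_lit 129996884856) (nat_lit 152) (nat_lit 80094087977) (nat_lit 0) (nat_lit 128071281188) (nat_lit 1) (nat_lit 5) (nat_lit 3) (nat_lit 4) (nat_lit 1) (nat_lit 4) (nat_lit 377) (nat_lit 278) (nat_lit 245))) (XT.nd (nat_lit 78) (nat_lit 0) (nat_lit 0) (XT.lf (nat_lit 0) (nat_lit 143068556186) (nat_lit 152) (nat_lit 80788458243) (nat_lit 0) (nat_lit 141130736287) (nat_lit 1) (nat_lit 5) (nat_lit 3) (nat_lit 4) (nat_lit 1) (nat_lit 4) (nat_lit 378) (nat_lit 278) (nat_lit 244)) (XT.nd (nat_lit 78) (nat_lit 0) (nat_lit 0) (XT.lf (nat_lit 0) (nat_lit 157158222629) (nat_lit 152) (nat_lit 81594195625) (nat_lit 0) (nat_lit 155209091406) (nat_lit 1) (nat_lit 5) (nat_lit 3) (nat_lit 4) (nat_lit 1) (nat_lit 4) (nat_lit 379) (nat_lit 278) (nat_lit 243)) (XT.lf (nat_lit 0) (nat_lit 172349378505) (nat_lit 152)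 (nat_lit 82516074862) (nat_lit 0) (nat_lit 170389773834) (nat_lit 1) (nat_lit 5) (nat_lit 3) (nat_lit 4) (nat_lit 1) (nat_lit 4) (nat_lit 380) (nat_lit 278) (nat_lit 242)))))) (XT.nd (nat_lit 312) (nat_lit 0) (nat_lit 0) (XT.nd (nat_lit 156) (nat_lit 0) (nat_lit 0) (XT.nd (nat_lit 78) (nat_lit 0) (nat_lit 0) (XT.lf (nat_lit 0) (nat_lit 188732045479) (nat_lit 152) (nat_lit 83559558943) (nat_lit 0) (nat_lit 186762743171) (nat_lit 1) (nat_lit 5) (nat_lit 3) (nat_lit 4) (nat_lit 1) (nat_lit 4) (nat_lit 381) (nat_lit 278) (nat_lit 241)) (XT.lf (nat_lit 0) (nat_lit 206403306022) (nat_lit 152) (nat_lit 84730831477) (nat_lit 0) (nat_lit 204425024420) (nat_lit 1) (nat_lit 5) (nat_lit 3) (nat_lit 4) (nat_lit 1) (nat_lit 4) (nat_lit 382) (nat_lit 278) (nat_lit 240))) (XT.nd (nat_lit 78) (nat_lit 0) (nat_lit 0) (XT.lf (nat_lit 0) (nat_lit 225467878715) (nat_lit 152) (nat_lit 86036833337) (nat_lit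 0) (nat_lit 223481282952) (nat_lit 1) (nat_lit 5) (nat_lit 3) (nat_lit 4) (nat_lit 1) (nat_lit 4) (nat_lit 383) (nat_lit 278) (nat_lit 239)) (XT.lf (nat_lit 0) (nat_lit 246038738803) (nat_lit 152) (nat_lit 87485303795) (nat_lit 0) (nat_lit 244044444743) (nat_lit 1) (nat_lit 5) (nat_lit 3) (nat_lit 4) (nat_lit 1) (nat_lit 4) (nat_lit 384) (nat_lit 278) (nat_lit 238)))) (XT.nd (nat_lit 156) (nat_lit 0) (nat_lit 0) (XT.nd (nat_lit 78) (nat_lit 0) (nat_lit 0) (XT.lf (nat_lit 0) (nat_lit 268237787680) (nat_lit 152) (nat_lit 89084826380) (nat_lit 0) (nat_lit 266236365567) (nat_lit 1) (nat_lit 5) (nat_lit 3) (nat_lit 4) (nat_lit 1) (nat_lit 4) (nat_lit 385) (nat_lit 278) (nat_lit 237)) (XT.lf (nat_lit 0) (nat_lit 292196575264) (nat_lit 152) (nat_lit 90844879743) (nat_lit 0) (nat_lit 290188553102) (nat_lit 1) (nat_lit 5) (nat_lit 3) (nat_lit 4) (nat_lit 1) (nat_lit 4) (nat_lit 386) (nat_lit 278)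 (nat_lit 236))) (XT.nd (nat_lit 78) (nat_lit 0) (nat_lit 0) (XT.lf (nat_lit 0) (nat_lit 318057079557) (nat_lit 152) (nat_lit 92775893830) (nat_lit 0) (nat_lit 316042946238) (nat_lit 1) (nat_lit 5) (nat_lit 3) (nat_lit 4) (nat_lit 1) (nat_lit 4) (nat_lit 387) (nat_lit 278) (nat_lit 235)) (XT.nd (nat_lit 78) (nat_lit 0) (nat_lit 0) (XT.lf (nat_lit 0) (nat_lit 345972547990) (nat_lit 152) (nat_lit 94889311687) (nat_lit 0) (nat_lit 343952756194) (nat_lit 1) (nat_lit 5) (nat_lit 3) (nat_lit 4) (nat_lit 1) (nat_lit 4) (nat_lit 388) (nat_lit 278) (nat_lit 234)) (XT.lf (nat_lit 0) (nat_lit 376108405563) (nat_lit 152) (nat_lit 97197657274) (nat_lit 0) (nat_lit 374083374435) (nat_lit 1) (nat_lit 5) (nat_lit 3) (nat_lit 4) (nat_lit 1) (nat_lit 4) (nat_lit 389) (nat_lit 278) (nat_lit 233))))))))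
noncomputable def xc39 : XT := (XT.nd (nat_lit 1404) (nat_lit 0) (nat_lit 0) (XT.nd (nat_lit 702) (nat_lit 0) (nat_lit 0) (XT.nd (nat_lit 312) (nat_lit 0) (nat_lit 0) (XT.nd (nat_lit 156) (nat_lit 0) (nat_lit 0) (XT.nd (nat_lit 78) (nat_lit 0) (nat_lit 0) (XT.lf (nat_lit 0) (nat_lit 408643235135) (nat_lit 152) (nat_lit 99714609673) (nat_lit 0) (nat_lit 406613352773) (nat_lit 1) (nat_lit 5) (nat_lit 3) (nat_lit 4) (nat_lit 1) (nat_lit 4) (nat_lit 390) (nat_lit 278) (nat_lit 232)) (XT.lf (nat_lit 0) (nat_lit 443769835696) (nat_lit 152) (nat_lit 102455084160) (nat_lit 0) (nat_lit 441735461452) (nat_lit 1) (nat_lit 5) (nat_lit 3) (nat_lit 4) (nat_lit 1) (nat_lit 4) (nat_lit 391) (nat_lit 278) (nat_lit 231))) (XT.nd (nat_lit 78) (nat_lit 0) (nat_lit 0) (XT.lf (nat_lit 0) (nat_lit 481696364878) (nat_lit 152) (nat_lit 105435320582) (nat_lit 0) (nat_lit 479657831484) (nat_lit 1) (nat_lit 5) (nat_lit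 3) (nat_lit 4) (nat_lit 1) (nat_lit 4) (nat_lit 392) (nat_lit 278) (nat_lit 230)) (XT.lf (nat_lit 0) (nat_lit 522647572485) (nat_lit 152) (nat_lit 108672979600) (nat_lit 0) (nat_lit 520605188026) (nat_lit 1) (nat_lit 5) (nat_lit 3) (nat_lit 4) (nat_lit 1) (nat_lit 4) (nat_lit 393) (nat_lit 278) (nat_lit 229)))) (XT.nd (nat_lit 156) (nat_lit 0) (nat_lit 0) (XT.nd (nat_lit 78) (nat_lit 0) (nat_lit 0) (XT.lf (nat_lit 0) (nat_lit 566866132340) (nat_lit 152) (nat_lit 112187247341) (nat_lit 0) (nat_lit 564820182079) (nat_lit 1) (nat_lit 5) (nat_lit 3) (nat_lit 4) (nat_lit 1) (nat_lit 4) (nat_lit 394) (nat_lit 278) (nat_lit 228)) (XT.lf (nat_lit 0) (nat_lit 614614080352) (nat_lit 152) (nat_lit 115998949097) (nat_lit 0) (nat_lit 612564828423) (nat_lit 1) (nat_lit 5) (nat_lit 3) (nat_lit 4) (nat_lit 1) (nat_lit 4) (nat_lit 395) (nat_lit 278) (nat_lit 227))) (XT.nd (nat_lit 78) (nat_lit 0) (nat_lit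 0) (XT.lf (nat_lit 0) (nat_lit 666174367324) (nat_lit 152) (nat_lit 120130672728) (nat_lit 0) (nat_lit 664122058296) (nat_lit 1) (nat_lit 5) (nat_lit 3) (nat_lit 4) (nat_lit 1) (nat_lit 4) (nat_lit 396) (nat_lit 278) (nat_lit 226)) (XT.nd (nat_lit 78) (nat_lit 0) (nat_lit 0) (XT.lf (nat_lit 0) (nat_lit 721852535699) (nat_lit 152) (nat_lit 124606902523) (nat_lit 0) (nat_lit 719797396023) (nat_lit 1) (nat_lit 5) (nat_lit 3) (nat_lit 4) (nat_lit 1) (nat_lit 4) (nat_lit 397) (nat_lit 278) (nat_lit 225)) (XT.lf (nat_lit 0) (nat_lit 781978530177) (nat_lit 152) (nat_lit 129454164289) (nat_lit 0) (nat_lit 779920769530) (nat_lit 1) (nat_lit 5) (nat_lit 3) (nat_lit 4) (nat_lit 1) (nat_lit 4) (nat_lit 398) (nat_lit 278) (nat_lit 224)))))) (XT.nd (nat_lit 312) (nat_lit 0) (nat_lit 0) (XT.nd (nat_lit 156) (nat_lit 0) (nat_lit 0) (XT.nd (nat_lit 78) (nat_lit 0) (nat_lit 0) (XT.lf (nat_lit 0) (nat_lit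 846908652947) (nat_lit 152) (nat_lit 134701182540) (nat_lit 0) (nat_lit 844848465477) (nat_lit 1) (nat_lit 5) (nat_lit 3) (nat_lit 4) (nat_lit 1) (nat_lit 4) (nat_lit 399) (nat_lit 278) (nat_lit 223)) (XT.lf (nat_lit 0) (nat_lit 917027675109) (nat_lit 152) (nat_lit 140379050716) (nat_lit 0) (nat_lit 914965240579) (nat_lit 1) (nat_lit 5) (nat_lit 3) (nat_lit 4) (nat_lit 1) (nat_lit 4) (nat_lit 400) (nat_lit 278) (nat_lit 222))) (XT.nd (nat_lit 78) (nat_lit 0) (nat_lit 0) (XT.lf (nat_lit 0) (nat_lit 992751116793) (nat_lit 152) (nat_lit 146521415445) (nat_lit 0) (nat_lit 990686601652) (nat_lit 1) (nat_lit 5) (nat_lit 3) (nat_lit 4) (nat_lit 1) (nat_lit 4) (nat_lit 401) (nat_lit 278) (nat_lit 221)) (XT.lf (nat_lit 0) (nat_lit 1074527709505) (nat_lit 152) (nat_lit 153164675925) (nat_lit 0) (nat_lit 1072461267873) (nat_lit 1) (nat_lit 5) (nat_lit 3) (nat_lit 4) (nat_lit 1) (nat_lit 4) (nat_lit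 402) (nat_lit 278) (nat_lit 220)))) (XT.nd (nat_lit 156) (nat_lit 0) (nat_lit 0) (XT.nd (nat_lit 78) (nat_lit 0) (nat_lit 0) (XT.lf (nat_lit 0) (nat_lit 1162842055276) (nat_lit 152) (nat_lit 160348199624) (nat_lit 0) (nat_lit 1160773829856) (nat_lit 1) (nat_lit 5) (nat_lit 3) (nat_lit 4) (nat_lit 1) (nat_lit 4) (nat_lit 403) (nat_lit 278) (nat_lit 219)) (XT.lf (nat_lit 0) (nat_lit 1258217498378) (nat_lit 152) (nat_lit 168114555574) (nat_lit 0) (nat_lit 1256147621302) (nat_lit 1) (nat_lit 5) (nat_lit 3) (nat_lit 4) (nat_lit 1) (nat_lit 4) (nat_lit 404) (nat_lit 278) (nat_lit 218))) (XT.nd (nat_lit 78) (nat_lit 0) (nat_lit 0) (XT.lf (nat_lit 0) (nat_lit 1361219226622) (nat_lit 152) (nat_lit 176509766622) (nat_lit 0) (nat_lit 1359147820234) (nat_lit 1) (nat_lit 5) (nat_lit 3) (nat_lit 4) (nat_lit 1) (nat_lit 4) (nat_lit 405) (nat_lit 278) (nat_lit 217)) (XT.nd (nat_lit 78) (nat_lit 0) (nat_lit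 0) (XT.lf (nat_lit 0) (nat_lit 1472457620619) (nat_lit 152) (nat_lit 185583582170) (nat_lit 0) (nat_lit 1470384798202) (nat_lit 1) (nat_lit 5) (nat_lit 3) (nat_lit 4) (nat_lit 1) (nat_lit 4) (nat_lit 406) (nat_lit 278) (nat_lit 216)) (XT.lf (nat_lit 0) (nat_lit 1592591870852) (nat_lit 152) (nat_lit 195389772974) (nat_lit 0) (nat_lit 1590517737298) (nat_lit 1) (nat_lit 5) (nat_lit 3) (nat_lit 4) (nat_lit 1) (nat_lit 4) (nat_lit 407) (nat_lit 278) (nat_lit 215))))))) (XT.nd (nat_lit 702) (nat_lit 0) (nat_lit 0) (XT.nd (nat_lit 312) (nat_lit 0) (nat_lit 0) (XT.nd (nat_lit 156) (nat_lit 0) (nat_lit 0) (XT.nd (nat_lit 78) (nat_lit 0) (nat_lit 0) (XT.lf (nat_lit 0) (nat_lit 1722333883989) (nat_lit 152) (nat_lit 205986449796) (nat_lit 0) (nat_lit 1720258536419) (nat_lit 1) (nat_lit 5) (nat_lit 3) (nat_lit 4) (nat_lit 1) (nat_lit 4) (nat_lit 408) (nat_lit 278) (nat_lit 214)) (XT.lf (nat_lit 0)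 (nat_lit 1862452501590) (nat_lit 152) (nat_lit 217436407757) (nat_lit 0) (nat_lit 1860376029930) (nat_lit 1) (nat_lit 5) (nat_lit 3) (nat_lit 4) (nat_lit 1) (nat_lit 4) (nat_lit 409) (nat_lit 278) (nat_lit 213))) (XT.nd (nat_lit 78) (nat_lit 0) (nat_lit 0) (XT.lf (nat_lit 0) (nat_lit 2013778056203) (nat_lit 152) (nat_lit 229807498461) (nat_lit 0) (nat_lit 2011700543720) (nat_lit 1) (nat_lit 5) (nat_lit 3) (nat_lit 4) (nat_lit 1) (nat_lit 4) (nat_lit 410) (nat_lit 278) (nat_lit 212)) (XT.lf (nat_lit 0) (nat_lit 2177207291856) (nat_lit 152) (nat_lit 243173032074) (nat_lit 0) (nat_lit 2175128815648) (nat_lit 1) (nat_lit 5) (nat_lit 3) (nat_lit 4) (nat_lit 1) (nat_lit 4) (nat_lit 411) (nat_lit 278) (nat_lit 211)))) (XT.nd (nat_lit 156) (nat_lit 0) (nat_lit 0) (XT.nd (nat_lit 78) (nat_lit 0) (nat_lit 0) (XT.lf (nat_lit 0) (nat_lit 2353708678094) (nat_lit 152) (nat_lit 257612211758) (nat_lit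 0) (nat_lit 2351629309547) (nat_lit 1) (nat_lit 5) (nat_lit 3) (nat_lit 4) (nat_lit 1) (nat_lit 4) (nat_lit 412) (nat_lit 278) (nat_lit 210)) (XT.lf (nat_lit 0) (nat_lit 2544328149056) (nat_lit 152) (nat_lit 273210603023) (nat_lit 0) (nat_lit 2542247954271) (nat_lit 1) (nat_lit 5) (nat_lit 3) (nat_lit 4) (nat_lit 1) (nat_lit 4) (nat_lit 413) (nat_lit 278) (nat_lit 209))) (XT.nd (nat_lit 78) (nat_lit 0) (nat_lit 0) (XT.lf (nat_lit 0) (nat_lit 2750195301609) (nat_lit 152) (nat_lit 290060640780) (nat_lit 0) (nat_lit 2748114341787) (nat_lit 1) (nat_lit 5) (nat_lit 3) (nat_lit 4) (nat_lit 1) (nat_lit 4) (nat_lit 414) (nat_lit 278) (nat_lit 208)) (XT.nd (nat_lit 78) (nat_lit 0) (nat_lit 0) (XT.lf (nat_lit 0) (nat_lit 2972530089247) (nat_lit 152) (nat_lit 308262177104) (nat_lit 0) (nat_lit 2970448421059) (nat_lit 1) (nat_lit 5) (nat_lit 3) (nat_lit 4) (nat_lit 1) (nat_lit 4) (nat_lit 415) (nat_lit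 278) (nat_lit 207)) (XT.lf (nat_lit 0) (nat_lit 3212650051455) (nat_lit 152) (nat_lit 327923072952) (nat_lit 0) (nat_lit 3210567727371) (nat_lit 1) (nat_lit 5) (nat_lit 3) (nat_lit 4) (nat_lit 1) (nat_lit 4) (nat_lit 416) (nat_lit 278) (nat_lit 206)))))) (XT.nd (nat_lit 41262) (nat_lit 0) (nat_lit 228) (XT.nd (nat_lit 41106) (nat_lit 0) (nat_lit 380) (XT.nd (nat_lit 41028) (nat_lit 0) (nat_lit 456) (XT.lf (nat_lit 0) (nat_lit 3471978121341) (nat_lit 152) (nat_lit 349159837336) (nat_lit 0) (nat_lit 3469895189947) (nat_lit 1) (nat_lit 5) (nat_lit 3) (nat_lit 4) (nat_lit 1) (nat_lit 4) (nat_lit 417) (nat_lit 278) (nat_lit 205)) (XT.lf (nat_lit 0) (nat_lit 2832988825) (nat_lit 152) (nat_lit 7959597780) (nat_lit 0) (nat_lit 2832988825) (nat_lit 7) (nat_lit 5) (nat_lit 9) (nat_lit 4) (nat_lit 7) (nat_lit 4) (nat_lit 342) (nat_lit 279) (nat_lit 279))) (XT.nd (nat_lit 78) (nat_lit 76) (nat_lit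 0) (XT.lf (nat_lit 0) (nat_lit 11705502315) (nat_lit 152) (nat_lit 5750433395) (nat_lit 0) (nat_lit 11510431454) (nat_lit 7) (nat_lit 5) (nat_lit 9) (nat_lit 4) (nat_lit 7) (nat_lit 4) (nat_lit 343) (nat_lit 279) (nat_lit 278)) (XT.lf (nat_lit 0) (nat_lit 4920051452) (nat_lit 76) (nat_lit 13143820697) (nat_lit 76) (nat_lit 12768128668) (nat_lit 6) (nat_lit 4) (nat_lit 7) (nat_lit 5) (nat_lit 7) (nat_lit 4) (nat_lit 344) (nat_lit 279) (nat_lit 277)))) (XT.nd (nat_lit 156) (nat_lit 152) (nat_lit 0) (XT.nd (nat_lit 78) (nat_lit 0) (nat_lit 0) (XT.lf (nat_lit 0) (nat_lit 16227432170) (nat_lit 76) (nat_lit 8585921078) (nat_lit 76) (nat_lit 8042987228) (nat_lit 6) (nat_lit 4) (nat_lit 7) (nat_lit 5) (nat_lit 7) (nat_lit 4) (nat_lit 345) (nat_lit 279) (nat_lit 276)) (XT.lf (nat_lit 0) (nat_lit 27935907828) (nat_lit 76) (nat_lit 3912454120) (nat_lit 76) (nat_lit 3214666731) (nat_lit 6) (nat_lit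 4) (nat_lit 7) (nat_lit 5) (nat_lit 7) (nat_lit 4) (nat_lit 346) (nat_lit 279) (nat_lit 275))) (XT.nd (nat_lit 78) (nat_lit 0) (nat_lit 0) (XT.lf (nat_lit 0) (nat_lit 1748702583) (nat_lit 152) (nat_lit 34735994337) (nat_lit 0) (nat_lit 969841197) (nat_lit 4) (nat_lit 5) (nat_lit 6) (nat_lit 4) (nat_lit 4) (nat_lit 4) (nat_lit 347) (nat_lit 279) (nat_lit 274)) (XT.nd (nat_lit 78) (nat_lit 0) (nat_lit 0) (XT.lf (nat_lit 0) (nat_lit 6996378383) (nat_lit 152) (nat_lit 26934885070) (nat_lit 0) (nat_lit 6094589266) (nat_lit 4) (nat_lit 5) (nat_lit 6) (nat_lit 4) (nat_lit 4) (nat_lit 4) (nat_lit 348) (nat_lit 279) (nat_lit 273)) (XT.lf (nat_lit 0) (nat_lit 12441054018) (nat_lit 152) (nat_lit 18954235152) (nat_lit 0) (nat_lit 11425442927) (nat_lit 4) (nat_lit 5) (nat_lit 6) (nat_lit 4) (nat_lit 4) (nat_lit 4) (nat_lit 349) (nat_lit 279) (nat_lit 272))))))))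
noncomputable def xc40 : XT := (XT.nd (nat_lit 1404) (nat_lit 0) (nat_lit 0) (XT.nd (nat_lit 702) (nat_lit 152) (nat_lit 0) (XT.nd (nat_lit 312) (nat_lit 0) (nat_lit 0) (XT.nd (nat_lit 156) (nat_lit 76) (nat_lit 0) (XT.nd (nat_lit 78) (nat_lit 0) (nat_lit 0) (XT.lf (nat_lit 0) (nat_lit 18114994234) (nat_lit 152) (nat_lit 10746751843) (nat_lit 0) (nat_lit 16993992426) (nat_lit 4) (nat_lit 5) (nat_lit 6) (nat_lit 4) (nat_lit 4) (nat_lit 4) (nat_lit 350) (nat_lit 279) (nat_lit 271)) (XT.lf (nat_lit 0) (nat_lit 24051822379) (nat_lit 152) (nat_lit 2263798206) (nat_lit 0) (nat_lit 22833236574) (nat_lit 4) (nat_lit 5) (nat_lit 6) (nat_lit 4) (nat_lit 4) (nat_lit 4) (nat_lit 351) (nat_lit 279) (nat_lit 270))) (XT.nd (nat_lit 78) (nat_lit 0) (nat_lit 0) (XT.lf (nat_lit 0) (nat_lit 6889537692) (nat_lit 76) (nat_lit 23562875511) (nat_lit 76) (nat_lit 22253934154) (nat_lit 3) (nat_lit 4) (nat_lit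 4) (nat_lit 5) (nat_lit 4) (nat_lit 4) (nat_lit 352) (nat_lit 279) (nat_lit 269)) (XT.lf (nat_lit 0) (nat_lit 16559922157) (nat_lit 76) (nat_lit 20694977975) (nat_lit 76) (nat_lit 19302374070) (nat_lit 3) (nat_lit 4) (nat_lit 4) (nat_lit 5) (nat_lit 4) (nat_lit 4) (nat_lit 353) (nat_lit 279) (nat_lit 268)))) (XT.nd (nat_lit 156) (nat_lit 0) (nat_lit 0) (XT.nd (nat_lit 78) (nat_lit 0) (nat_lit 0) (XT.lf (nat_lit 0) (nat_lit 26685453568) (nat_lit 76) (nat_lit 17756829285) (nat_lit 76) (nat_lit 16286760056) (nat_lit 3) (nat_lit 4) (nat_lit 4) (nat_lit 5) (nat_lit 4) (nat_lit 4) (nat_lit 354) (nat_lit 279) (nat_lit 267)) (XT.lf (nat_lit 0) (nat_lit 37326135074) (nat_lit 76) (nat_lit 14731018187) (nat_lit 76) (nat_lit 13189221808) (nat_lit 3) (nat_lit 4) (nat_lit 4) (nat_lit 5) (nat_lit 4) (nat_lit 4) (nat_lit 355) (nat_lit 279) (nat_lit 266))) (XT.nd (nat_lit 78) (nat_lit 0) (nat_lit 0) (XT.lf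 (nat_lit 0) (nat_lit 48545022566) (nat_lit 76) (nat_lit 11599613951) (nat_lit 76) (nat_lit 9991403543) (nat_lit 3) (nat_lit 4) (nat_lit 4) (nat_lit 5) (nat_lit 4) (nat_lit 4) (nat_lit 356) (nat_lit 279) (nat_lit 265)) (XT.nd (nat_lit 78) (nat_lit 0) (nat_lit 0) (XT.lf (nat_lit 0) (nat_lit 60408598340) (nat_lit 76) (nat_lit 8344060106) (nat_lit 76) (nat_lit 6674355228) (nat_lit 3) (nat_lit 4) (nat_lit 4) (nat_lit 5) (nat_lit 4) (nat_lit 4) (nat_lit 357) (nat_lit 279) (nat_lit 264)) (XT.lf (nat_lit 0) (nat_lit 72987165066) (nat_lit 76) (nat_lit 4945064482) (nat_lit 76) (nat_lit 3218420278) (nat_lit 3) (nat_lit 4) (nat_lit 4) (nat_lit 5) (nat_lit 4) (nat_lit 4) (nat_lit 358) (nat_lit 279) (nat_lit 263)))))) (XT.nd (nat_lit 312) (nat_lit 0) (nat_lit 0) (XT.nd (nat_lit 156) (nat_lit 0) (nat_lit 0) (XT.nd (nat_lit 78) (nat_lit 76) (nat_lit 0) (XT.lf (nat_lit 0) (nat_lit 377027327) (nat_lit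 152) (nat_lit 995148959) (nat_lit 76) (nat_lit 85967926478) (nat_lit 2) (nat_lit 5) (nat_lit 4) (nat_lit 5) (nat_lit 3) (nat_lit 4) (nat_lit 359) (nat_lit 279) (nat_lit 262)) (XT.lf (nat_lit 0) (nat_lit 4210427671) (nat_lit 152) (nat_lit 87280008238) (nat_lit 0) (nat_lit 2517666473) (nat_lit 1) (nat_lit 5) (nat_lit 3) (nat_lit 4) (nat_lit 1) (nat_lit 4) (nat_lit 360) (nat_lit 279) (nat_lit 261))) (XT.nd (nat_lit 78) (nat_lit 0) (nat_lit 0) (XT.lf (nat_lit 0) (nat_lit 8311423558) (nat_lit 152) (nat_lit 86324446948) (nat_lit 0) (nat_lit 6576810256) (nat_lit 1) (nat_lit 5) (nat_lit 3) (nat_lit 4) (nat_lit 1) (nat_lit 4) (nat_lit 361) (nat_lit 279) (nat_lit 260)) (XT.lf (nat_lit 0) (nat_lit 12645468289) (nat_lit 152) (nat_lit 85483668288) (nat_lit 0) (nat_lit 10872103039) (nat_lit 1) (nat_lit 5) (nat_lit 3) (nat_lit 4) (nat_lit 1) (nat_lit 4) (nat_lit 362) (nat_lit 279) (nat_lit 259)))) (XT.nd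 (nat_lit 156) (nat_lit 0) (nat_lit 0) (XT.nd (nat_lit 78) (nat_lit 0) (nat_lit 0) (XT.lf (nat_lit 0) (nat_lit 17238245092) (nat_lit 152) (nat_lit 84752689866) (nat_lit 0) (nat_lit 15428998409) (nat_lit 1) (nat_lit 5) (nat_lit 3) (nat_lit 4) (nat_lit 1) (nat_lit 4) (nat_lit 363) (nat_lit 279) (nat_lit 258)) (XT.lf (nat_lit 0) (nat_lit 22116970421) (nat_lit 152) (nat_lit 84127179958) (nat_lit 0) (nat_lit 20274500189) (nat_lit 1) (nat_lit 5) (nat_lit 3) (nat_lit 4) (nat_lit 1) (nat_lit 4) (nat_lit 364) (nat_lit 279) (nat_lit 257))) (XT.nd (nat_lit 78) (nat_lit 0) (nat_lit 0) (XT.lf (nat_lit 0) (nat_lit 27310555242) (nat_lit 152) (nat_lit 83603431839) (nat_lit 0) (nat_lit 25437322464) (nat_lit 1) (nat_lit 5) (nat_lit 3) (nat_lit 4) (nat_lit 1) (nat_lit 4) (nat_lit 365) (nat_lit 279) (nat_lit 256)) (XT.nd (nat_lit 78) (nat_lit 0) (nat_lit 0) (XT.lf (nat_lit 0) (nat_lit 32849776353) (nat_lit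 152) (nat_lit 83178341815) (nat_lit 0) (nat_lit 30948059737) (nat_lit 1) (nat_lit 5) (nat_lit 3) (nat_lit 4) (nat_lit 1) (nat_lit 4) (nat_lit 366) (nat_lit 279) (nat_lit 255)) (XT.lf (nat_lit 0) (nat_lit 38767458769) (nat_lit 152) (nat_lit 82849390836) (nat_lit 0) (nat_lit 36839368228) (nat_lit 1) (nat_lit 5) (nat_lit 3) (nat_lit 4) (nat_lit 1) (nat_lit 4) (nat_lit 367) (nat_lit 279) (nat_lit 254))))))) (XT.nd (nat_lit 702) (nat_lit 0) (nat_lit 0) (XT.nd (nat_lit 312) (nat_lit 0) (nat_lit 0) (XT.nd (nat_lit 156) (nat_lit 0) (nat_lit 0) (XT.nd (nat_lit 78) (nat_lit 0) (nat_lit 0) (XT.lf (nat_lit 0) (nat_lit 45098670237) (nat_lit 152) (nat_lit 82614629562) (nat_lit 0) (nat_lit 43146159396) (nat_lit 1) (nat_lit 5) (nat_lit 3) (nat_lit 4) (nat_lit 1) (nat_lit 4) (nat_lit 368) (nat_lit 279) (nat_lit 253)) (XT.lf (nat_lit 0) (nat_lit 51880929047) (nat_lit 152) (nat_lit 82472666815) (nat_lit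 0) (nat_lit 49905806817) (nat_lit 1) (nat_lit 5) (nat_lit 3) (nat_lit 4) (nat_lit 1) (nat_lit 4) (nat_lit 369) (nat_lit 279) (nat_lit 252))) (XT.nd (nat_lit 78) (nat_lit 0) (nat_lit 0) (XT.lf (nat_lit 0) (nat_lit 59154426364) (nat_lit 152) (nat_lit 82422661334) (nat_lit 0) (nat_lit 57158367662) (nat_lit 1) (nat_lit 5) (nat_lit 3) (nat_lit 4) (nat_lit 1) (nat_lit 4) (nat_lit 370) (nat_lit 279) (nat_lit 251)) (XT.lf (nat_lit 0) (nat_lit 66962264392) (nat_lit 152) (nat_lit 82464316791) (nat_lit 0) (nat_lit 64946820068) (nat_lit 1) (nat_lit 5) (nat_lit 3) (nat_lit 4) (nat_lit 1) (nat_lit 4) (nat_lit 371) (nat_lit 279) (nat_lit 250)))) (XT.nd (nat_lit 156) (nat_lit 0) (nat_lit 0) (XT.nd (nat_lit 78) (nat_lit 0) (nat_lit 0) (XT.lf (nat_lit 0) (nat_lit 75350711802) (nat_lit 152) (nat_lit 82597880033) (nat_lit 0) (nat_lit 73317317828) (nat_lit 1) (nat_lit 5) (nat_lit 3) (nat_lit 4) (nat_lit 1)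 (nat_lit 4) (nat_lit 372) (nat_lit 279) (nat_lit 249)) (XT.lf (nat_lit 0) (nat_lit 84369477912) (nat_lit 152) (nat_lit 82824142545) (nat_lit 0) (nat_lit 82319463892) (nat_lit 1) (nat_lit 5) (nat_lit 3) (nat_lit 4) (nat_lit 1) (nat_lit 4) (nat_lit 373) (nat_lit 279) (nat_lit 248))) (XT.nd (nat_lit 78) (nat_lit 0) (nat_lit 0) (XT.lf (nat_lit 0) (nat_lit 94072007261) (nat_lit 152) (nat_lit 83144445143) (nat_lit 0) (nat_lit 92006604310) (nat_lit 1) (nat_lit 5) (nat_lit 3) (nat_lit 4) (nat_lit 1) (nat_lit 4) (nat_lit 374) (nat_lit 279) (nat_lit 247)) (XT.nd (nat_lit 78) (nat_lit 0) (nat_lit 0) (XT.lf (nat_lit 0) (nat_lit 104515796321) (nat_lit 152) (nat_lit 83560685916) (nat_lit 0) (nat_lit 102436144359) (nat_lit 1) (nat_lit 5) (nat_lit 3) (nat_lit 4) (nat_lit 1) (nat_lit 4) (nat_lit 375) (nat_lit 279) (nat_lit 246)) (XT.lf (nat_lit 0) (nat_lit 115762734211) (nat_lit 152) (nat_lit 84075331475)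 (nat_lit 0) (nat_lit 113669888720) (nat_lit 1) (nat_lit 5) (nat_lit 3) (nat_lit 4) (nat_lit 1) (nat_lit 4) (nat_lit 376) (nat_lit 279) (nat_lit 245)))))) (XT.nd (nat_lit 312) (nat_lit 0) (nat_lit 0) (XT.nd (nat_lit 156) (nat_lit 0) (nat_lit 0) (XT.nd (nat_lit 78) (nat_lit 0) (nat_lit 0) (XT.lf (nat_lit 0) (nat_lit 127879469451) (nat_lit 152) (nat_lit 84691431573) (nat_lit 0) (nat_lit 125774407731) (nat_lit 1) (nat_lit 5) (nat_lit 3) (nat_lit 4) (nat_lit 1) (nat_lit 4) (nat_lit 377) (nat_lit 279) (nat_lit 244)) (XT.lf (nat_lit 0) (nat_lit 140937804919) (nat_lit 152) (nat_lit 85412637173) (nat_lit 0) (nat_lit 138821431874) (nat_lit 1) (nat_lit 5) (nat_lit 3) (nat_lit 4) (nat_lit 1) (nat_lit 4) (nat_lit 378) (nat_lit 279) (nat_lit 243))) (XT.nd (nat_lit 78) (nat_lit 0) (nat_lit 0) (XT.lf (nat_lit 0) (nat_lit 155015123342) (nat_lit 152) (nat_lit 86243222086) (nat_lit 0) (nat_lit 152888276849)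 (nat_lit 1) (nat_lit 5) (nat_lit 3) (nat_lit 4) (nat_lit 1) (nat_lit 4) (nat_lit 379) (nat_lit 279) (nat_lit 242)) (XT.lf (nat_lit 0) (nat_lit 170194845866) (nat_lit 152) (nat_lit 87188108297) (nat_lit 0) (nat_lit 168058301736) (nat_lit 1) (nat_lit 5) (nat_lit 3) (nat_lit 4) (nat_lit 1) (nat_lit 4) (nat_lit 380) (nat_lit 279) (nat_lit 241)))) (XT.nd (nat_lit 156) (nat_lit 0) (nat_lit 0) (XT.nd (nat_lit 78) (nat_lit 0) (nat_lit 0) (XT.lf (nat_lit 0) (nat_lit 186566926403) (nat_lit 152) (nat_lit 88252895131) (nat_lit 0) (nat_lit 184421402979) (nat_lit 1) (nat_lit 5) (nat_lit 3) (nat_lit 4) (nat_lit 1) (nat_lit 4) (nat_lit 381) (nat_lit 279) (nat_lit 240)) (XT.lf (nat_lit 0) (nat_lit 204228384690) (nat_lit 152) (nat_lit 89443892436) (nat_lit 0) (nat_lit 202074547105) (nat_lit 1) (nat_lit 5) (nat_lit 3) (nat_lit 4) (nat_lit 1) (nat_lit 4) (nat_lit 382) (nat_lit 279) (nat_lit 239))) (XT.nd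 (nat_lit 78) (nat_lit 0) (nat_lit 0) (XT.lf (nat_lit 0) (nat_lit 223283881219) (nat_lit 152) (nat_lit 90768157974) (nat_lit 0) (nat_lit 221122345337) (nat_lit 1) (nat_lit 5) (nat_lit 3) (nat_lit 4) (nat_lit 1) (nat_lit 4) (nat_lit 383) (nat_lit 279) (nat_lit 238)) (XT.nd (nat_lit 78) (nat_lit 0) (nat_lit 0) (XT.lf (nat_lit 0) (nat_lit 243846337452) (nat_lit 152) (nat_lit 92233539244) (nat_lit 0) (nat_lit 241677673517) (nat_lit 1) (nat_lit 5) (nat_lit 3) (nat_lit 4) (nat_lit 1) (nat_lit 4) (nat_lit 384) (nat_lit 279) (nat_lit 237)) (XT.lf (nat_lit 0) (nat_lit 266037604981) (nat_lit 152) (nat_lit 93848719988) (nat_lit 0) (nat_lit 263862340997) (nat_lit 1) (nat_lit 5) (nat_lit 3) (nat_lit 4) (nat_lit 1) (nat_lit 4) (nat_lit 385) (nat_lit 279) (nat_lit 236))))))))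
noncomputable def xc41 : XT := (XT.nd (nat_lit 1404) (nat_lit 0) (nat_lit 0) (XT.nd (nat_lit 702) (nat_lit 0) (nat_lit 0) (XT.nd (nat_lit 312) (nat_lit 0) (nat_lit 0) (XT.nd (nat_lit 156) (nat_lit 0) (nat_lit 0) (XT.nd (nat_lit 78) (nat_lit 0) (nat_lit 0) (XT.lf (nat_lit 0) (nat_lit 289989187614) (nat_lit 152) (nat_lit 95623271646) (nat_lit 0) (nat_lit 287807812474) (nat_lit 1) (nat_lit 5) (nat_lit 3) (nat_lit 4) (nat_lit 1) (nat_lit 4) (nat_lit 386) (nat_lit 279) (nat_lit 235)) (XT.lf (nat_lit 0) (nat_lit 315843020656) (nat_lit 152) (nat_lit 97567710081) (nat_lit 0) (nat_lit 313655987037) (nat_lit 1) (nat_lit 5) (nat_lit 3) (nat_lit 4) (nat_lit 1) (nat_lit 4) (nat_lit 387) (nat_lit 279) (nat_lit 234))) (XT.nd (nat_lit 78) (nat_lit 0) (nat_lit 0) (XT.lf (nat_lit 0) (nat_lit 343752312005) (nat_lit 152) (nat_lit 99693557891) (nat_lit 0) (nat_lit 341560039055) (nat_lit 1) (nat_lit 5) (nat_lit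 3) (nat_lit 4) (nat_lit 1) (nat_lit 4) (nat_lit 388) (nat_lit 279) (nat_lit 233)) (XT.lf (nat_lit 0) (nat_lit 373882450055) (nat_lit 152) (nat_lit 102013412692) (nat_lit 0) (nat_lit 371685325872) (nat_lit 1) (nat_lit 5) (nat_lit 3) (nat_lit 4) (nat_lit 1) (nat_lit 4) (nat_lit 389) (nat_lit 279) (nat_lit 232)))) (XT.nd (nat_lit 156) (nat_lit 0) (nat_lit 0) (XT.nd (nat_lit 78) (nat_lit 0) (nat_lit 0) (XT.lf (nat_lit 0) (nat_lit 406411983773) (nat_lit 152) (nat_lit 104541021772) (nat_lit 0) (nat_lit 404210367707) (nat_lit 1) (nat_lit 5) (nat_lit 3) (nat_lit 4) (nat_lit 1) (nat_lit 4) (nat_lit 390) (nat_lit 279) (nat_lit 231)) (XT.lf (nat_lit 0) (nat_lit 441533680765) (nat_lit 152) (nat_lit 107291363555) (nat_lit 0) (nat_lit 439327905548) (nat_lit 1) (nat_lit 5) (nat_lit 3) (nat_lit 4) (nat_lit 1) (nat_lit 4) (nat_lit 391) (nat_lit 279) (nat_lit 230))) (XT.nd (nat_lit 78) (nat_lit 0) (nat_lit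 0) (XT.lf (nat_lit 0) (nat_lit 479455669606) (nat_lit 152) (nat_lit 110280736362) (nat_lit 0) (nat_lit 477246043324) (nat_lit 1) (nat_lit 5) (nat_lit 3) (nat_lit 4) (nat_lit 1) (nat_lit 4) (nat_lit 392) (nat_lit 279) (nat_lit 229)) (XT.nd (nat_lit 78) (nat_lit 0) (nat_lit 0) (XT.lf (nat_lit 0) (nat_lit 520402673193) (nat_lit 152) (nat_lit 113526854997) (nat_lit 0) (nat_lit 518189481111) (nat_lit 1) (nat_lit 5) (nat_lit 3) (nat_lit 4) (nat_lit 1) (nat_lit 4) (nat_lit 393) (nat_lit 279) (nat_lit 228)) (XT.lf (nat_lit 0) (nat_lit 564617340437) (nat_lit 152) (nat_lit 117048955716) (nat_lit 0) (nat_lit 562400846686) (nat_lit 1) (nat_lit 5) (nat_lit 3) (nat_lit 4) (nat_lit 1) (nat_lit 4) (nat_lit 394) (nat_lit 279) (nat_lit 227)))))) (XT.nd (nat_lit 312) (nat_lit 0) (nat_lit 0) (XT.nd (nat_lit 156) (nat_lit 0) (nat_lit 0) (XT.nd (nat_lit 78) (nat_lit 0) (nat_lit 0) (XT.lf (nat_lit 0) (nat_lit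 612361684179) (nat_lit 152) (nat_lit 120867910229) (nat_lit 0) (nat_lit 610142133329) (nat_lit 1) (nat_lit 5) (nat_lit 3) (nat_lit 4) (nat_lit 1) (nat_lit 4) (nat_lit 395) (nat_lit 279) (nat_lit 226)) (XT.lf (nat_lit 0) (nat_lit 663918633865) (nat_lit 152) (nat_lit 125006349377) (nat_lit 0) (nat_lit 661696252367) (nat_lit 1) (nat_lit 5) (nat_lit 3) (nat_lit 4) (nat_lit 1) (nat_lit 4) (nat_lit 396) (nat_lit 279) (nat_lit 225))) (XT.nd (nat_lit 78) (nat_lit 0) (nat_lit 0) (XT.lf (nat_lit 0) (nat_lit 719593712160) (nat_lit 152) (nat_lit 129488797243) (nat_lit 0) (nat_lit 717368709691) (nat_lit 1) (nat_lit 5) (nat_lit 3) (nat_lit 4) (nat_lit 1) (nat_lit 4) (nat_lit 397) (nat_lit 279) (nat_lit 224)) (XT.lf (nat_lit 0) (nat_lit 779716845452) (nat_lit 152) (nat_lit 134341816481) (nat_lit 0) (nat_lit 777489416160) (nat_lit 1) (nat_lit 5) (nat_lit 3) (nat_lit 4) (nat_lit 1) (nat_lit 4) (nat_lit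 398) (nat_lit 279) (nat_lit 223)))) (XT.nd (nat_lit 156) (nat_lit 0) (nat_lit 0) (XT.nd (nat_lit 78) (nat_lit 0) (nat_lit 0) (XT.lf (nat_lit 0) (nat_lit 844644318978) (nat_lit 152) (nat_lit 139594165725) (nat_lit 0) (nat_lit 842414642625) (nat_lit 1) (nat_lit 5) (nat_lit 3) (nat_lit 4) (nat_lit 1) (nat_lit 4) (nat_lit 399) (nat_lit 279) (nat_lit 222)) (XT.lf (nat_lit 0) (nat_lit 914760888134) (nat_lit 152) (nat_lit 145276970007) (nat_lit 0) (nat_lit 912529131171) (nat_lit 1) (nat_lit 5) (nat_lit 3) (nat_lit 4) (nat_lit 1) (nat_lit 4) (nat_lit 400) (nat_lit 279) (nat_lit 221))) (XT.nd (nat_lit 78) (nat_lit 0) (nat_lit 0) (XT.lf (nat_lit 0) (nat_lit 990482058517) (nat_lit 152) (nat_lit 151423905203) (nat_lit 0) (nat_lit 988248375062) (nat_lit 1) (nat_lit 5) (nat_lit 3) (nat_lit 4) (nat_lit 1) (nat_lit 4) (nat_lit 401) (nat_lit 279) (nat_lit 220)) (XT.nd (nat_lit 78) (nat_lit 0) (nat_lit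 0) (XT.lf (nat_lit 0) (nat_lit 1072256548172) (nat_lit 152) (nat_lit 158071397597) (nat_lit 0) (nat_lit 1070021080930) (nat_lit 1) (nat_lit 5) (nat_lit 3) (nat_lit 4) (nat_lit 1) (nat_lit 4) (nat_lit 402) (nat_lit 279) (nat_lit 219)) (XT.lf (nat_lit 0) (nat_lit 1160568946669) (nat_lit 152) (nat_lit 165258839736) (nat_lit 0) (nat_lit 1158331827771) (nat_lit 1) (nat_lit 5) (nat_lit 3) (nat_lit 4) (nat_lit 1) (nat_lit 4) (nat_lit 403) (nat_lit 279) (nat_lit 218))))))) (XT.nd (nat_lit 702) (nat_lit 0) (nat_lit 0) (XT.nd (nat_lit 312) (nat_lit 0) (nat_lit 0) (XT.nd (nat_lit 156) (nat_lit 0) (nat_lit 0) (XT.nd (nat_lit 78) (nat_lit 0) (nat_lit 0) (XT.lf (nat_lit 0) (nat_lit 1255942586739) (nat_lit 152) (nat_lit 173028823869) (nat_lit 0) (nat_lit 1253703938529) (nat_lit 1) (nat_lit 5) (nat_lit 3) (nat_lit 4) (nat_lit 1) (nat_lit 4) (nat_lit 404) (nat_lit 279) (nat_lit 217)) (XT.lf (nat_lit 0)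 (nat_lit 1358942645508) (nat_lit 152) (nat_lit 181427394348) (nat_lit 0) (nat_lit 1356702581270) (nat_lit 1) (nat_lit 5) (nat_lit 3) (nat_lit 4) (nat_lit 1) (nat_lit 4) (nat_lit 405) (nat_lit 279) (nat_lit 216))) (XT.nd (nat_lit 78) (nat_lit 0) (nat_lit 0) (XT.lf (nat_lit 0) (nat_lit 1470179493696) (nat_lit 152) (nat_lit 190504320479) (nat_lit 0) (nat_lit 1467938118320) (nat_lit 1) (nat_lit 5) (nat_lit 3) (nat_lit 4) (nat_lit 1) (nat_lit 4) (nat_lit 406) (nat_lit 279) (nat_lit 215)) (XT.lf (nat_lit 0) (nat_lit 1590312312624) (nat_lit 152) (nat_lit 200313391453) (nat_lit 0) (nat_lit 1588069723232) (nat_lit 1) (nat_lit 5) (nat_lit 3) (nat_lit 4) (nat_lit 1) (nat_lit 4) (nat_lit 407) (nat_lit 279) (nat_lit 214)))) (XT.nd (nat_lit 156) (nat_lit 0) (nat_lit 0) (XT.nd (nat_lit 78) (nat_lit 0) (nat_lit 0) (XT.lf (nat_lit 0) (nat_lit 1720053000479) (nat_lit 152) (nat_lit 210912735099) (nat_lit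 0) (nat_lit 1717809286997) (nat_lit 1) (nat_lit 5) (nat_lit 3) (nat_lit 4) (nat_lit 1) (nat_lit 4) (nat_lit 408) (nat_lit 279) (nat_lit 213)) (XT.lf (nat_lit 0) (nat_lit 1860170390966) (nat_lit 152) (nat_lit 222365162342) (nat_lit 0) (nat_lit 1857925636662) (nat_lit 1) (nat_lit 5) (nat_lit 3) (nat_lit 4) (nat_lit 1) (nat_lit 4) (nat_lit 409) (nat_lit 279) (nat_lit 212))) (XT.nd (nat_lit 78) (nat_lit 0) (nat_lit 0) (XT.lf (nat_lit 0) (nat_lit 2011494809364) (nat_lit 152) (nat_lit 234738539417) (nat_lit 0) (nat_lit 2009249091334) (nat_lit 1) (nat_lit 5) (nat_lit 3) (nat_lit 4) (nat_lit 1) (nat_lit 4) (nat_lit 410) (nat_lit 279) (nat_lit 211)) (XT.nd (nat_lit 78) (nat_lit 0) (nat_lit 0) (XT.lf (nat_lit 0) (nat_lit 2174922992965) (nat_lit 152) (nat_lit 248106190040) (nat_lit 0) (nat_lit 2172676382596) (nat_lit 1) (nat_lit 5) (nat_lit 3) (nat_lit 4) (nat_lit 1) (nat_lit 4) (nat_lit 411) (nat_lit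 279) (nat_lit 210)) (XT.lf (nat_lit 0) (nat_lit 2351423405080) (nat_lit 152) (nat_lit 262547329920) (nat_lit 0) (nat_lit 2349175968473) (nat_lit 1) (nat_lit 5) (nat_lit 3) (nat_lit 4) (nat_lit 1) (nat_lit 4) (nat_lit 412) (nat_lit 279) (nat_lit 209)))))) (XT.nd (nat_lit 312) (nat_lit 0) (nat_lit 0) (XT.nd (nat_lit 156) (nat_lit 0) (nat_lit 0) (XT.nd (nat_lit 78) (nat_lit 0) (nat_lit 0) (XT.lf (nat_lit 0) (nat_lit 2542041974078) (nat_lit 152) (nat_lit 278147536180) (nat_lit 0) (nat_lit 2539793772434) (nat_lit 1) (nat_lit 5) (nat_lit 3) (nat_lit 4) (nat_lit 1) (nat_lit 4) (nat_lit 413) (nat_lit 279) (nat_lit 208)) (XT.lf (nat_lit 0) (nat_lit 2747908291477) (nat_lit 152) (nat_lit 294999254489) (nat_lit 0) (nat_lit 2745659381467) (nat_lit 1) (nat_lit 5) (nat_lit 3) (nat_lit 4) (nat_lit 1) (nat_lit 4) (nat_lit 414) (nat_lit 279) (nat_lit 207))) (XT.nd (nat_lit 78) (nat_lit 0) (nat_lit 0) (XT.lf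 (nat_lit 0) (nat_lit 2970242305827) (nat_lit 152) (nat_lit 313202346879) (nat_lit 0) (nat_lit 2967992739921) (nat_lit 1) (nat_lit 5) (nat_lit 3) (nat_lit 4) (nat_lit 1) (nat_lit 4) (nat_lit 415) (nat_lit 279) (nat_lit 206)) (XT.lf (nat_lit 0) (nat_lit 3210361552026) (nat_lit 152) (nat_lit 332864683529) (nat_lit 0) (nat_lit 3208111378809) (nat_lit 1) (nat_lit 5) (nat_lit 3) (nat_lit 4) (nat_lit 1) (nat_lit 4) (nat_lit 416) (nat_lit 279) (nat_lit 205)))) (XT.nd (nat_lit 40950) (nat_lit 0) (nat_lit 456) (XT.nd (nat_lit 40872) (nat_lit 0) (nat_lit 608) (XT.lf (nat_lit 0) (nat_lit 3469688958941) (nat_lit 152) (nat_lit 354102781989) (nat_lit 0) (nat_lit 3467438223400) (nat_lit 1) (nat_lit 5) (nat_lit 3) (nat_lit 4) (nat_lit 1) (nat_lit 4) (nat_lit 417) (nat_lit 279) (nat_lit 204)) (XT.lf (nat_lit 0) (nat_lit 6659015169) (nat_lit 76) (nat_lit 2721573036) (nat_lit 76) (nat_lit 2721573036) (nat_lit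 9) (nat_lit 4) (nat_lit 10) (nat_lit 5) (nat_lit 10) (nat_lit 4) (nat_lit 340) (nat_lit 280) (nat_lit 280))) (XT.nd (nat_lit 78) (nat_lit 76) (nat_lit 0) (XT.lf (nat_lit 0) (nat_lit 12258853) (nat_lit 152) (nat_lit 202032236) (nat_lit 76) (nat_lit 25470530664) (nat_lit 8) (nat_lit 5) (nat_lit 10) (nat_lit 5) (nat_lit 9) (nat_lit 4) (nat_lit 341) (nat_lit 280) (nat_lit 279)) (XT.nd (nat_lit 78) (nat_lit 0) (nat_lit 0) (XT.lf (nat_lit 0) (nat_lit 5729896638) (nat_lit 152) (nat_lit 16208873986) (nat_lit 0) (nat_lit 5324149246) (nat_lit 7) (nat_lit 5) (nat_lit 9) (nat_lit 4) (nat_lit 7) (nat_lit 4) (nat_lit 342) (nat_lit 280) (nat_lit 278)) (XT.lf (nat_lit 0) (nat_lit 11633534686) (nat_lit 152) (nat_lit 6308332585) (nat_lit 0) (nat_lit 11047166128) (nat_lit 7) (nat_lit 5) (nat_lit 9) (nat_lit 4) (nat_lit 7) (nat_lit 4) (nat_lit 343) (nat_lit 280) (nat_lit 277))))))))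
noncomputable def xc42 : XT := (XT.nd (nat_lit 1404) (nat_lit 0) (nat_lit 0) (XT.nd (nat_lit 702) (nat_lit 152) (nat_lit 0) (XT.nd (nat_lit 312) (nat_lit 76) (nat_lit 0) (XT.nd (nat_lit 156) (nat_lit 152) (nat_lit 0) (XT.nd (nat_lit 78) (nat_lit 0) (nat_lit 0) (XT.lf (nat_lit 0) (nat_lit 4071343914) (nat_lit 76) (nat_lit 13774328230) (nat_lit 76) (nat_lit 13020717849) (nat_lit 6) (nat_lit 4) (nat_lit 7) (nat_lit 5) (nat_lit 7) (nat_lit 4) (nat_lit 344) (nat_lit 280) (nat_lit 276)) (XT.lf (nat_lit 0) (nat_lit 15136659479) (nat_lit 76) (nat_lit 9336171222) (nat_lit 76) (nat_lit 8427707302) (nat_lit 6) (nat_lit 4) (nat_lit 7) (nat_lit 5) (nat_lit 7) (nat_lit 4) (nat_lit 345) (nat_lit 280) (nat_lit 275))) (XT.nd (nat_lit 78) (nat_lit 152) (nat_lit 0) (XT.lf (nat_lit 0) (nat_lit 26621000736) (nat_lit 76) (nat_lit 4773577052) (nat_lit 76) (nat_lit 3721730225) (nat_lit 6) (nat_lit 4) (nat_lit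 7) (nat_lit 5) (nat_lit 7) (nat_lit 4) (nat_lit 346) (nat_lit 280) (nat_lit 274)) (XT.lf (nat_lit 0) (nat_lit 1093221182) (nat_lit 76) (nat_lit 1889374) (nat_lit 152) (nat_lit 36427451897) (nat_lit 4) (nat_lit 5) (nat_lit 5) (nat_lit 5) (nat_lit 6) (nat_lit 4) (nat_lit 347) (nat_lit 280) (nat_lit 273)))) (XT.nd (nat_lit 156) (nat_lit 76) (nat_lit 0) (XT.nd (nat_lit 78) (nat_lit 0) (nat_lit 0) (XT.lf (nat_lit 0) (nat_lit 6235618692) (nat_lit 152) (nat_lit 28841911608) (nat_lit 0) (nat_lit 5024936740) (nat_lit 4) (nat_lit 5) (nat_lit 6) (nat_lit 4) (nat_lit 4) (nat_lit 4) (nat_lit 348) (nat_lit 280) (nat_lit 272)) (XT.lf (nat_lit 0) (nat_lit 11581107082) (nat_lit 152) (nat_lit 21059155249) (nat_lit 0) (nat_lit 10265034413) (nat_lit 4) (nat_lit 5) (nat_lit 6) (nat_lit 4) (nat_lit 4) (nat_lit 4) (nat_lit 349) (nat_lit 280) (nat_lit 271))) (XT.nd (nat_lit 78) (nat_lit 76) (nat_lit 0) (XT.lf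 (nat_lit 0) (nat_lit 17163207255) (nat_lit 152) (nat_lit 13034906718) (nat_lit 0) (nat_lit 15749550590) (nat_lit 4) (nat_lit 5) (nat_lit 6) (nat_lit 4) (nat_lit 4) (nat_lit 4) (nat_lit 350) (nat_lit 280) (nat_lit 270)) (XT.nd (nat_lit 78) (nat_lit 76) (nat_lit 0) (XT.lf (nat_lit 0) (nat_lit 23014998324) (nat_lit 152) (nat_lit 4721614911) (nat_lit 0) (nat_lit 21510986106) (nat_lit 4) (nat_lit 5) (nat_lit 6) (nat_lit 4) (nat_lit 4) (nat_lit 4) (nat_lit 351) (nat_lit 280) (nat_lit 269)) (XT.lf (nat_lit 0) (nat_lit 4136930121) (nat_lit 76) (nat_lit 25133720716) (nat_lit 76) (nat_lit 23546045949) (nat_lit 3) (nat_lit 4) (nat_lit 4) (nat_lit 5) (nat_lit 4) (nat_lit 4) (nat_lit 352) (nat_lit 280) (nat_lit 268)))))) (XT.nd (nat_lit 312) (nat_lit 152) (nat_lit 0) (XT.nd (nat_lit 156) (nat_lit 0) (nat_lit 0) (XT.nd (nat_lit 78) (nat_lit 0) (nat_lit 0) (XT.lf (nat_lit 0) (nat_lit 13654197369) (nat_lit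 76) (nat_lit 22342352338) (nat_lit 76) (nat_lit 20677212248) (nat_lit 3) (nat_lit 4) (nat_lit 4) (nat_lit 5) (nat_lit 4) (nat_lit 4) (nat_lit 353) (nat_lit 280) (nat_lit 267)) (XT.lf (nat_lit 0) (nat_lit 23637953579) (nat_lit 76) (nat_lit 19475063978) (nat_lit 76) (nat_lit 17738196738) (nat_lit 3) (nat_lit 4) (nat_lit 4) (nat_lit 5) (nat_lit 4) (nat_lit 4) (nat_lit 354) (nat_lit 280) (nat_lit 266))) (XT.nd (nat_lit 78) (nat_lit 0) (nat_lit 0) (XT.lf (nat_lit 0) (nat_lit 34147361751) (nat_lit 76) (nat_lit 16514864298) (nat_lit 76) (nat_lit 14711583030) (nat_lit 3) (nat_lit 4) (nat_lit 4) (nat_lit 5) (nat_lit 4) (nat_lit 4) (nat_lit 355) (nat_lit 280) (nat_lit 265)) (XT.lf (nat_lit 0) (nat_lit 45244699860) (nat_lit 76) (nat_lit 13444211375) (nat_lit 76) (nat_lit 11579435635) (nat_lit 3) (nat_lit 4) (nat_lit 4) (nat_lit 5) (nat_lit 4) (nat_lit 4) (nat_lit 356) (nat_lit 280) (nat_lit 264))))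 (XT.nd (nat_lit 156) (nat_lit 152) (nat_lit 0) (XT.nd (nat_lit 78) (nat_lit 0) (nat_lit 0) (XT.lf (nat_lit 0) (nat_lit 56995729908) (nat_lit 76) (nat_lit 10244908745) (nat_lit 76) (nat_lit 8323193681) (nat_lit 3) (nat_lit 4) (nat_lit 4) (nat_lit 5) (nat_lit 4) (nat_lit 4) (nat_lit 357) (nat_lit 280) (nat_lit 263)) (XT.lf (nat_lit 0) (nat_lit 69470087629) (nat_lit 76) (nat_lit 6897997580) (nat_lit 76) (nat_lit 4923560918) (nat_lit 3) (nat_lit 4) (nat_lit 4) (nat_lit 5) (nat_lit 4) (nat_lit 4) (nat_lit 358) (nat_lit 280) (nat_lit 262))) (XT.nd (nat_lit 78) (nat_lit 152) (nat_lit 0) (XT.lf (nat_lit 0) (nat_lit 82741695144) (nat_lit 76) (nat_lit 3383644330) (nat_lit 76) (nat_lit 1360391375) (nat_lit 3) (nat_lit 4) (nat_lit 4) (nat_lit 5) (nat_lit 4) (nat_lit 4) (nat_lit 359) (nat_lit 280) (nat_lit 261)) (XT.nd (nat_lit 78) (nat_lit 0) (nat_lit 0) (XT.lf (nat_lit 0) (nat_lit 2345968788) (nat_lit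 152) (nat_lit 91395258247) (nat_lit 0) (nat_lit 430734318) (nat_lit 1) (nat_lit 5) (nat_lit 3) (nat_lit 4) (nat_lit 1) (nat_lit 4) (nat_lit 360) (nat_lit 280) (nat_lit 260)) (XT.lf (nat_lit 0) (nat_lit 6401276778) (nat_lit 152) (nat_lit 90531633271) (nat_lit 0) (nat_lit 4447290360) (nat_lit 1) (nat_lit 5) (nat_lit 3) (nat_lit 4) (nat_lit 1) (nat_lit 4) (nat_lit 361) (nat_lit 280) (nat_lit 259))))))) (XT.nd (nat_lit 702) (nat_lit 0) (nat_lit 0) (XT.nd (nat_lit 312) (nat_lit 0) (nat_lit 0) (XT.nd (nat_lit 156) (nat_lit 0) (nat_lit 0) (XT.nd (nat_lit 78) (nat_lit 0) (nat_lit 0) (XT.lf (nat_lit 0) (nat_lit 10693017899) (nat_lit 152) (nat_lit 89775980828) (nat_lit 0) (nat_lit 8703150049) (nat_lit 1) (nat_lit 5) (nat_lit 3) (nat_lit 4) (nat_lit 1) (nat_lit 4) (nat_lit 362) (nat_lit 280) (nat_lit 258)) (XT.lf (nat_lit 0) (nat_lit 15246624693) (nat_lit 152) (nat_lit 89123822977) (nat_lit 0) (nat_lit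 13223533294) (nat_lit 1) (nat_lit 5) (nat_lit 3) (nat_lit 4) (nat_lit 1) (nat_lit 4) (nat_lit 363) (nat_lit 280) (nat_lit 257))) (XT.nd (nat_lit 78) (nat_lit 0) (nat_lit 0) (XT.lf (nat_lit 0) (nat_lit 20089081496) (nat_lit 152) (nat_lit 88571295079) (nat_lit 0) (nat_lit 18035227551) (nat_lit 1) (nat_lit 5) (nat_lit 3) (nat_lit 4) (nat_lit 1) (nat_lit 4) (nat_lit 364) (nat_lit 280) (nat_lit 256)) (XT.lf (nat_lit 0) (nat_lit 25249084348) (nat_lit 152) (nat_lit 88115122895) (nat_lit 0) (nat_lit 23166746565) (nat_lit 1) (nat_lit 5) (nat_lit 3) (nat_lit 4) (nat_lit 1) (nat_lit 4) (nat_lit 365) (nat_lit 280) (nat_lit 255)))) (XT.nd (nat_lit 156) (nat_lit 0) (nat_lit 0) (XT.nd (nat_lit 78) (nat_lit 0) (nat_lit 0) (XT.lf (nat_lit 0) (nat_lit 30757211044) (nat_lit 152) (nat_lit 87752603183) (nat_lit 0) (nat_lit 28648499336) (nat_lit 1) (nat_lit 5) (nat_lit 3) (nat_lit 4) (nat_lit 1) (nat_lit 4)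 (nat_lit 366) (nat_lit 280) (nat_lit 254)) (XT.lf (nat_lit 0) (nat_lit 36646102335) (nat_lit 152) (nat_lit 87481587676) (nat_lit 0) (nat_lit 34512970326) (nat_lit 1) (nat_lit 5) (nat_lit 3) (nat_lit 4) (nat_lit 1) (nat_lit 4) (nat_lit 367) (nat_lit 280) (nat_lit 253))) (XT.nd (nat_lit 78) (nat_lit 0) (nat_lit 0) (XT.lf (nat_lit 0) (nat_lit 42950655353) (nat_lit 152) (nat_lit 87300470359) (nat_lit 0) (nat_lit 40794911955) (nat_lit 1) (nat_lit 5) (nat_lit 3) (nat_lit 4) (nat_lit 1) (nat_lit 4) (nat_lit 368) (nat_lit 280) (nat_lit 252)) (XT.nd (nat_lit 78) (nat_lit 0) (nat_lit 0) (XT.lf (nat_lit 0) (nat_lit 49708230414) (nat_lit 152) (nat_lit 87208177941) (nat_lit 0) (nat_lit 47531550544) (nat_lit 1) (nat_lit 5) (nat_lit 3) (nat_lit 4) (nat_lit 1) (nat_lit 4) (nat_lit 369) (nat_lit 280) (nat_lit 251)) (XT.lf (nat_lit 0) (nat_lit 56958872406) (nat_lit 152) (nat_lit 87204163507) (nat_lit 0)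 (nat_lit 54762806915) (nat_lit 1) (nat_lit 5) (nat_lit 3) (nat_lit 4) (nat_lit 1) (nat_lit 4) (nat_lit 370) (nat_lit 280) (nat_lit 250)))))) (XT.nd (nat_lit 312) (nat_lit 0) (nat_lit 0) (XT.nd (nat_lit 156) (nat_lit 0) (nat_lit 0) (XT.nd (nat_lit 78) (nat_lit 0) (nat_lit 0) (XT.lf (nat_lit 0) (nat_lit 64745548098) (nat_lit 152) (nat_lit 87288403266) (nat_lit 0) (nat_lit 62531532957) (nat_lit 1) (nat_lit 5) (nat_lit 3) (nat_lit 4) (nat_lit 1) (nat_lit 4) (nat_lit 371) (nat_lit 280) (nat_lit 249)) (XT.lf (nat_lit 0) (nat_lit 73114400752) (nat_lit 152) (nat_lit 87461396417) (nat_lit 0) (nat_lit 70883765564) (nat_lit 1) (nat_lit 5) (nat_lit 3) (nat_lit 4) (nat_lit 1) (nat_lit 4) (nat_lit 372) (nat_lit 280) (nat_lit 248))) (XT.nd (nat_lit 78) (nat_lit 0) (nat_lit 0) (XT.lf (nat_lit 0) (nat_lit 82115023569) (nat_lit 152) (nat_lit 87724168104) (nat_lit 0) (nat_lit 79868999450) (nat_lit 1) (nat_lit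 5) (nat_lit 3) (nat_lit 4) (nat_lit 1) (nat_lit 4) (nat_lit 373) (nat_lit 280) (nat_lit 247)) (XT.lf (nat_lit 0) (nat_lit 91800753573) (nat_lit 152) (nat_lit 88078275494) (nat_lit 0) (nat_lit 89540480443) (nat_lit 1) (nat_lit 5) (nat_lit 3) (nat_lit 4) (nat_lit 1) (nat_lit 4) (nat_lit 374) (nat_lit 280) (nat_lit 246)))) (XT.nd (nat_lit 156) (nat_lit 0) (nat_lit 0) (XT.nd (nat_lit 78) (nat_lit 0) (nat_lit 0) (XT.lf (nat_lit 0) (nat_lit 102228987683) (nat_lit 152) (nat_lit 88525817000) (nat_lit 0) (nat_lit 99955521025) (nat_lit 1) (nat_lit 5) (nat_lit 3) (nat_lit 4) (nat_lit 1) (nat_lit 4) (nat_lit 375) (nat_lit 280) (nat_lit 245)) (XT.lf (nat_lit 0) (nat_lit 113461522842) (nat_lit 152) (nat_lit 89069444720) (nat_lit 0) (nat_lit 111175839954) (nat_lit 1) (nat_lit 5) (nat_lit 3) (nat_lit 4) (nat_lit 1) (nat_lit 4) (nat_lit 376) (nat_lit 280) (nat_lit 244))) (XT.nd (nat_lit 78) (nat_lit 0)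 (nat_lit 0) (XT.lf (nat_lit 0) (nat_lit 125564922221) (nat_lit 152) (nat_lit 89712380152) (nat_lit 0) (nat_lit 123267928009) (nat_lit 1) (nat_lit 5) (nat_lit 3) (nat_lit 4) (nat_lit 1) (nat_lit 4) (nat_lit 377) (nat_lit 280) (nat_lit 243)) (XT.nd (nat_lit 78) (nat_lit 0) (nat_lit 0) (XT.lf (nat_lit 0) (nat_lit 138610909669) (nat_lit 152) (nat_lit 90458433283) (nat_lit 0) (nat_lit 136303442008) (nat_lit 1) (nat_lit 5) (nat_lit 3) (nat_lit 4) (nat_lit 1) (nat_lit 4) (nat_lit 378) (nat_lit 280) (nat_lit 242)) (XT.lf (nat_lit 0) (nat_lit 152676794739) (nat_lit 152) (nat_lit 91312025169) (nat_lit 0) (nat_lit 150359629441) (nat_lit 1) (nat_lit 5) (nat_lit 3) (nat_lit 4) (nat_lit 1) (nat_lit 4) (nat_lit 379) (nat_lit 280) (nat_lit 241))))))))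
noncomputable def xc43 : XT := (XT.nd (nat_lit 1404) (nat_lit 0) (nat_lit 0) (XT.nd (nat_lit 702) (nat_lit 0) (nat_lit 0) (XT.nd (nat_lit 312) (nat_lit 0) (nat_lit 0) (XT.nd (nat_lit 156) (nat_lit 0) (nat_lit 0) (XT.nd (nat_lit 78) (nat_lit 0) (nat_lit 0) (XT.lf (nat_lit 0) (nat_lit 167845930827) (nat_lit 152) (nat_lit 92278214133) (nat_lit 0) (nat_lit 165519786235) (nat_lit 1) (nat_lit 5) (nat_lit 3) (nat_lit 4) (nat_lit 1) (nat_lit 4) (nat_lit 380) (nat_lit 280) (nat_lit 240)) (XT.lf (nat_lit 0) (nat_lit 184208209107) (nat_lit 152) (nat_lit 93362725738) (nat_lit 0) (nat_lit 181873750354) (nat_lit 1) (nat_lit 5) (nat_lit 3) (nat_lit 4) (nat_lit 1) (nat_lit 4) (nat_lit 381) (nat_lit 280) (nat_lit 239))) (XT.nd (nat_lit 78) (nat_lit 0) (nat_lit 0) (XT.lf (nat_lit 0) (nat_lit 201860591230) (nat_lit 152) (nat_lit 94571986720) (nat_lit 0) (nat_lit 199518434180) (nat_lit 1) (nat_lit 5) (nat_lit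 3) (nat_lit 4) (nat_lit 1) (nat_lit 4) (nat_lit 382) (nat_lit 280) (nat_lit 238)) (XT.lf (nat_lit 0) (nat_lit 220907683904) (nat_lit 152) (nat_lit 95913163070) (nat_lit 0) (nat_lit 218558398801) (nat_lit 1) (nat_lit 5) (nat_lit 3) (nat_lit 4) (nat_lit 1) (nat_lit 4) (nat_lit 383) (nat_lit 280) (nat_lit 237)))) (XT.nd (nat_lit 156) (nat_lit 0) (nat_lit 0) (XT.nd (nat_lit 78) (nat_lit 0) (nat_lit 0) (XT.lf (nat_lit 0) (nat_lit 241462358790) (nat_lit 152) (nat_lit 97394202500) (nat_lit 0) (nat_lit 239106473638) (nat_lit 1) (nat_lit 5) (nat_lit 3) (nat_lit 4) (nat_lit 1) (nat_lit 4) (nat_lit 384) (nat_lit 280) (nat_lit 236)) (XT.lf (nat_lit 0) (nat_lit 263646421368) (nat_lit 152) (nat_lit 99023881540) (nat_lit 0) (nat_lit 261284425060) (nat_lit 1) (nat_lit 5) (nat_lit 3) (nat_lit 4) (nat_lit 1) (nat_lit 4) (nat_lit 385) (nat_lit 280) (nat_lit 235))) (XT.nd (nat_lit 78) (nat_lit 0) (nat_lit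 0) (XT.lf (nat_lit 0) (nat_lit 287591332750) (nat_lit 152) (nat_lit 100811857546) (nat_lit 0) (nat_lit 285223677964) (nat_lit 1) (nat_lit 5) (nat_lit 3) (nat_lit 4) (nat_lit 1) (nat_lit 4) (nat_lit 386) (nat_lit 280) (nat_lit 234)) (XT.nd (nat_lit 78) (nat_lit 0) (nat_lit 0) (XT.lf (nat_lit 0) (nat_lit 313438988707) (nat_lit 152) (nat_lit 102768725933) (nat_lit 0) (nat_lit 311066094589) (nat_lit 1) (nat_lit 5) (nat_lit 3) (nat_lit 4) (nat_lit 1) (nat_lit 4) (nat_lit 387) (nat_lit 280) (nat_lit 233)) (XT.lf (nat_lit 0) (nat_lit 341342560534) (nat_lit 152) (nat_lit 104906082957) (nat_lit 0) (nat_lit 338964815183) (nat_lit 1) (nat_lit 5) (nat_lit 3) (nat_lit 4) (nat_lit 1) (nat_lit 4) (nat_lit 388) (nat_lit 280) (nat_lit 232)))))) (XT.nd (nat_lit 312) (nat_lit 0) (nat_lit 0) (XT.nd (nat_lit 156) (nat_lit 0) (nat_lit 0) (XT.nd (nat_lit 78) (nat_lit 0) (nat_lit 0) (XT.lf (nat_lit 0) (nat_lit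 371467402730) (nat_lit 152) (nat_lit 107236594438) (nat_lit 0) (nat_lit 369085165496) (nat_lit 1) (nat_lit 5) (nat_lit 3) (nat_lit 4) (nat_lit 1) (nat_lit 4) (nat_lit 389) (nat_lit 280) (nat_lit 231)) (XT.lf (nat_lit 0) (nat_lit 403992032879) (nat_lit 152) (nat_lit 109774070815) (nat_lit 0) (nat_lit 401605636495) (nat_lit 1) (nat_lit 5) (nat_lit 3) (nat_lit 4) (nat_lit 1) (nat_lit 4) (nat_lit 390) (nat_lit 280) (nat_lit 230))) (XT.nd (nat_lit 78) (nat_lit 0) (nat_lit 0) (XT.lf (nat_lit 0) (nat_lit 439109189529) (nat_lit 152) (nat_lit 112533548983) (nat_lit 0) (nat_lit 436718942080) (nat_lit 1) (nat_lit 5) (nat_lit 3) (nat_lit 4) (nat_lit 1) (nat_lit 4) (nat_lit 391) (nat_lit 280) (nat_lit 229)) (XT.lf (nat_lit 0) (nat_lit 477026974351) (nat_lit 152) (nat_lit 115531381408) (nat_lit 0) (nat_lit 474633161100) (nat_lit 1) (nat_lit 5) (nat_lit 3) (nat_lit 4) (nat_lit 1) (nat_lit 4) (nat_lit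 392) (nat_lit 280) (nat_lit 228)))) (XT.nd (nat_lit 156) (nat_lit 0) (nat_lit 0) (XT.nd (nat_lit 78) (nat_lit 0) (nat_lit 0) (XT.lf (nat_lit 0) (nat_lit 517970085327) (nat_lit 152) (nat_lit 118785333020) (nat_lit 0) (nat_lit 515572970409) (nat_lit 1) (nat_lit 5) (nat_lit 3) (nat_lit 4) (nat_lit 1) (nat_lit 4) (nat_lit 393) (nat_lit 280) (nat_lit 227)) (XT.lf (nat_lit 0) (nat_lit 562181148301) (nat_lit 152) (nat_lit 122314686497) (nat_lit 0) (nat_lit 559780976283) (nat_lit 1) (nat_lit 5) (nat_lit 3) (nat_lit 4) (nat_lit 1) (nat_lit 4) (nat_lit 394) (nat_lit 280) (nat_lit 226))) (XT.nd (nat_lit 78) (nat_lit 0) (nat_lit 0) (XT.lf (nat_lit 0) (nat_lit 609922154757) (nat_lit 152) (nat_lit 126140356526) (nat_lit 0) (nat_lit 607519152091) (nat_lit 1) (nat_lit 5) (nat_lit 3) (nat_lit 4) (nat_lit 1) (nat_lit 4) (nat_lit 395) (nat_lit 280) (nat_lit 225)) (XT.nd (nat_lit 78) (nat_lit 0) (nat_lit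 0) (XT.lf (nat_lit 0) (nat_lit 661476014363) (nat_lit 152) (nat_lit 130285013744) (nat_lit 0) (nat_lit 659070390727) (nat_lit 1) (nat_lit 5) (nat_lit 3) (nat_lit 4) (nat_lit 1) (nat_lit 4) (nat_lit 396) (nat_lit 280) (nat_lit 224)) (XT.lf (nat_lit 0) (nat_lit 717148231472) (nat_lit 152) (nat_lit 134773219083) (nat_lit 0) (nat_lit 714740181012) (nat_lit 1) (nat_lit 5) (nat_lit 3) (nat_lit 4) (nat_lit 1) (nat_lit 4) (nat_lit 397) (nat_lit 280) (nat_lit 223))))))) (XT.nd (nat_lit 702) (nat_lit 0) (nat_lit 0) (XT.nd (nat_lit 312) (nat_lit 0) (nat_lit 0) (XT.nd (nat_lit 156) (nat_lit 0) (nat_lit 0) (XT.nd (nat_lit 78) (nat_lit 0) (nat_lit 0) (XT.lf (nat_lit 0) (nat_lit 777268715519) (nat_lit 152) (nat_lit 139631569315) (nat_lit 0) (nat_lit 774858417999) (nat_lit 1) (nat_lit 5) (nat_lit 3) (nat_lit 4) (nat_lit 1) (nat_lit 4) (nat_lit 398) (nat_lit 280) (nat_lit 222)) (XT.lf (nat_lit 0) (nat_lit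 842193736039) (nat_lit 152) (nat_lit 144888854664) (nat_lit 0) (nat_lit 839781357909) (nat_lit 1) (nat_lit 5) (nat_lit 3) (nat_lit 4) (nat_lit 1) (nat_lit 4) (nat_lit 399) (nat_lit 280) (nat_lit 221))) (XT.nd (nat_lit 78) (nat_lit 0) (nat_lit 0) (XT.lf (nat_lit 0) (nat_lit 912308033895) (nat_lit 152) (nat_lit 150576229412) (nat_lit 0) (nat_lit 909893729273) (nat_lit 1) (nat_lit 5) (nat_lit 3) (nat_lit 4) (nat_lit 1) (nat_lit 4) (nat_lit 400) (nat_lit 280) (nat_lit 220)) (XT.lf (nat_lit 0) (nat_lit 988027101221) (nat_lit 152) (nat_lit 156727396523) (nat_lit 0) (nat_lit 985611012810) (nat_lit 1) (nat_lit 5) (nat_lit 3) (nat_lit 4) (nat_lit 1) (nat_lit 4) (nat_lit 401) (nat_lit 280) (nat_lit 219)))) (XT.nd (nat_lit 156) (nat_lit 0) (nat_lit 0) (XT.nd (nat_lit 78) (nat_lit 0) (nat_lit 0) (XT.lf (nat_lit 0) (nat_lit 1069799643602) (nat_lit 152) (nat_lit 163378807356) (nat_lit 0) (nat_lit 1067381903535)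 (nat_lit 1) (nat_lit 5) (nat_lit 3) (nat_lit 4) (nat_lit 1) (nat_lit 4) (nat_lit 402) (nat_lit 280) (nat_lit 218)) (XT.lf (nat_lit 0) (nat_lit 1158110239066) (nat_lit 152) (nat_lit 170569877680) (nat_lit 0) (nat_lit 1155690969689) (nat_lit 1) (nat_lit 5) (nat_lit 3) (nat_lit 4) (nat_lit 1) (nat_lit 4) (nat_lit 403) (nat_lit 280) (nat_lit 217))) (XT.nd (nat_lit 78) (nat_lit 0) (nat_lit 0) (XT.lf (nat_lit 0) (nat_lit 1253482209662) (nat_lit 152) (nat_lit 178343221243) (nat_lit 0) (nat_lit 1251061524256) (nat_lit 1) (nat_lit 5) (nat_lit 3) (nat_lit 4) (nat_lit 1) (nat_lit 4) (nat_lit 404) (nat_lit 280) (nat_lit 216)) (XT.nd (nat_lit 78) (nat_lit 0) (nat_lit 0) (XT.lf (nat_lit 0) (nat_lit 1356480722622) (nat_lit 152) (nat_lit 186744902305) (nat_lit 0) (nat_lit 1354058726079) (nat_lit 1) (nat_lit 5) (nat_lit 3) (nat_lit 4) (nat_lit 1) (nat_lit 4) (nat_lit 405) (nat_lit 280) (nat_lit 215))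 (XT.lf (nat_lit 0) (nat_lit 1467716139505) (nat_lit 152) (nat_lit 195824708606) (nat_lit 0) (nat_lit 1465292928945) (nat_lit 1) (nat_lit 5) (nat_lit 3) (nat_lit 4) (nat_lit 1) (nat_lit 4) (nat_lit 406) (nat_lit 280) (nat_lit 214)))))) (XT.nd (nat_lit 312) (nat_lit 0) (nat_lit 0) (XT.nd (nat_lit 156) (nat_lit 0) (nat_lit 0) (XT.nd (nat_lit 78) (nat_lit 0) (nat_lit 0) (XT.lf (nat_lit 0) (nat_lit 1587847633150) (nat_lit 152) (nat_lit 205636446404) (nat_lit 0) (nat_lit 1585423298501) (nat_lit 1) (nat_lit 5) (nat_lit 3) (nat_lit 4) (nat_lit 1) (nat_lit 4) (nat_lit 407) (nat_lit 280) (nat_lit 213)) (XT.lf (nat_lit 0) (nat_lit 1717587093892) (nat_lit 152) (nat_lit 216238259331) (nat_lit 0) (nat_lit 1715161718419) (nat_lit 1) (nat_lit 5) (nat_lit 3) (nat_lit 4) (nat_lit 1) (nat_lit 4) (nat_lit 408) (nat_lit 280) (nat_lit 212))) (XT.nd (nat_lit 78) (nat_lit 0) (nat_lit 0) (XT.lf (nat_lit 0) (nat_lit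 1857703348163) (nat_lit 152) (nat_lit 227692972946) (nat_lit 0) (nat_lit 1855277008966) (nat_lit 1) (nat_lit 5) (nat_lit 3) (nat_lit 4) (nat_lit 1) (nat_lit 4) (nat_lit 409) (nat_lit 280) (nat_lit 211)) (XT.lf (nat_lit 0) (nat_lit 2009026714509) (nat_lit 152) (nat_lit 240068467032) (nat_lit 0) (nat_lit 2006599482973) (nat_lit 1) (nat_lit 5) (nat_lit 3) (nat_lit 4) (nat_lit 1) (nat_lit 4) (nat_lit 410) (nat_lit 280) (nat_lit 210)))) (XT.nd (nat_lit 156) (nat_lit 0) (nat_lit 0) (XT.nd (nat_lit 78) (nat_lit 0) (nat_lit 0) (XT.lf (nat_lit 0) (nat_lit 2172453923988) (nat_lit 152) (nat_lit 253438077850) (nat_lit 0) (nat_lit 2170025866213) (nat_lit 1) (nat_lit 5) (nat_lit 3) (nat_lit 4) (nat_lit 1) (nat_lit 4) (nat_lit 411) (nat_lit 280) (nat_lit 209)) (XT.lf (nat_lit 0) (nat_lit 2348953434138) (nat_lit 152) (nat_lit 267881032725) (nat_lit 0) (nat_lit 2346524611327) (nat_lit 1) (nat_lit 5) (nat_lit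 3) (nat_lit 4) (nat_lit 1) (nat_lit 4) (nat_lit 412) (nat_lit 280) (nat_lit 208))) (XT.nd (nat_lit 78) (nat_lit 0) (nat_lit 0) (XT.lf (nat_lit 0) (nat_lit 2539571167983) (nat_lit 152) (nat_lit 283482919537) (nat_lit 0) (nat_lit 2537141636805) (nat_lit 1) (nat_lit 5) (nat_lit 3) (nat_lit 4) (nat_lit 1) (nat_lit 4) (nat_lit 413) (nat_lit 280) (nat_lit 207)) (XT.nd (nat_lit 78) (nat_lit 0) (nat_lit 0) (XT.lf (nat_lit 0) (nat_lit 2745436712093) (nat_lit 152) (nat_lit 300336193912) (nat_lit 0) (nat_lit 2743006525020) (nat_lit 1) (nat_lit 5) (nat_lit 3) (nat_lit 4) (nat_lit 1) (nat_lit 4) (nat_lit 414) (nat_lit 280) (nat_lit 206)) (XT.lf (nat_lit 0) (nat_lit 2967770010434) (nat_lit 152) (nat_lit 318540727104) (nat_lit 0) (nat_lit 2965339216050) (nat_lit 1) (nat_lit 5) (nat_lit 3) (nat_lit 4) (nat_lit 1) (nat_lit 4) (nat_lit 415) (nat_lit 280) (nat_lit 205))))))))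
noncomputable def xc44 : XT := (XT.nd (nat_lit 42042) (nat_lit 0) (nat_lit 0) (XT.nd (nat_lit 41340) (nat_lit 0) (nat_lit 152) (XT.nd (nat_lit 40950) (nat_lit 0) (nat_lit 380) (XT.nd (nat_lit 40794) (nat_lit 0) (nat_lit 608) (XT.nd (nat_lit 78) (nat_lit 0) (nat_lit 0) (XT.lf (nat_lit 0) (nat_lit 3207888593662) (nat_lit 152) (nat_lit 338204397830) (nat_lit 0) (nat_lit 3205457236953) (nat_lit 1) (nat_lit 5) (nat_lit 3) (nat_lit 4) (nat_lit 1) (nat_lit 4) (nat_lit 416) (nat_lit 280) (nat_lit 204)) (XT.lf (nat_lit 0) (nat_lit 3467215386715) (nat_lit 152) (nat_lit 359443731545) (nat_lit 0) (nat_lit 3464783509335) (nat_lit 1) (nat_lit 5) (nat_lit 3) (nat_lit 4) (nat_lit 1) (nat_lit 4) (nat_lit 417) (nat_lit 280) (nat_lit 203))) (XT.nd (nat_lit 78) (nat_lit 76) (nat_lit 0) (XT.lf (nat_lit 0) (nat_lit 3096540058) (nat_lit 152) (nat_lit 4606839141) (nat_lit 0) (nat_lit 3096540058) (nat_lit 10)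 (nat_lit 5) (nat_lit 12) (nat_lit 4) (nat_lit 10) (nat_lit 4) (nat_lit 338) (nat_lit 281) (nat_lit 281)) (XT.lf (nat_lit 0) (nat_lit 1512861490) (nat_lit 76) (nat_lit 10794281618) (nat_lit 76) (nat_lit 10548548513) (nat_lit 9) (nat_lit 4) (nat_lit 10) (nat_lit 5) (nat_lit 10) (nat_lit 4) (nat_lit 339) (nat_lit 281) (nat_lit 280)))) (XT.nd (nat_lit 156) (nat_lit 228) (nat_lit 0) (XT.nd (nat_lit 78) (nat_lit 0) (nat_lit 0) (XT.lf (nat_lit 0) (nat_lit 13037026493) (nat_lit 76) (nat_lit 5826049769) (nat_lit 76) (nat_lit 5352786012) (nat_lit 9) (nat_lit 4) (nat_lit 10) (nat_lit 5) (nat_lit 10) (nat_lit 4) (nat_lit 340) (nat_lit 281) (nat_lit 279)) (XT.lf (nat_lit 0) (nat_lit 24941932104) (nat_lit 76) (nat_lit 724539773) (nat_lit 76) (nat_lit 40599486) (nat_lit 9) (nat_lit 4) (nat_lit 10) (nat_lit 5) (nat_lit 10) (nat_lit 4) (nat_lit 341) (nat_lit 281) (nat_lit 278))) (XT.nd (nat_lit 78) (nat_lit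 76) (nat_lit 0) (XT.lf (nat_lit 0) (nat_lit 5516284984) (nat_lit 152) (nat_lit 17079625875) (nat_lit 0) (nat_lit 4702385773) (nat_lit 7) (nat_lit 5) (nat_lit 9) (nat_lit 4) (nat_lit 7) (nat_lit 4) (nat_lit 342) (nat_lit 281) (nat_lit 277)) (XT.nd (nat_lit 78) (nat_lit 76) (nat_lit 0) (XT.lf (nat_lit 0) (nat_lit 11294102094) (nat_lit 152) (nat_lit 7427437035) (nat_lit 0) (nat_lit 10312961060) (nat_lit 7) (nat_lit 5) (nat_lit 9) (nat_lit 4) (nat_lit 7) (nat_lit 4) (nat_lit 343) (nat_lit 281) (nat_lit 276)) (XT.lf (nat_lit 0) (nat_lit 2651244254) (nat_lit 76) (nat_lit 14704340996) (nat_lit 76) (nat_lit 13568346423) (nat_lit 6) (nat_lit 4) (nat_lit 7) (nat_lit 5) (nat_lit 7) (nat_lit 4) (nat_lit 344) (nat_lit 281) (nat_lit 275)))))) (XT.nd (nat_lit 312) (nat_lit 76) (nat_lit 0) (XT.nd (nat_lit 156) (nat_lit 152) (nat_lit 0) (XT.nd (nat_lit 78) (nat_lit 0) (nat_lit 0) (XT.lf (nat_lit 0) (nat_lit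 13492425419) (nat_lit 76) (nat_lit 10377056775) (nat_lit 76) (nat_lit 9097679297) (nat_lit 6) (nat_lit 4) (nat_lit 7) (nat_lit 5) (nat_lit 7) (nat_lit 4) (nat_lit 345) (nat_lit 281) (nat_lit 274)) (XT.lf (nat_lit 0) (nat_lit 24769234823) (nat_lit 76) (nat_lit 5917122593) (nat_lit 76) (nat_lit 4504983164) (nat_lit 6) (nat_lit 4) (nat_lit 7) (nat_lit 5) (nat_lit 7) (nat_lit 4) (nat_lit 346) (nat_lit 281) (nat_lit 273))) (XT.nd (nat_lit 78) (nat_lit 76) (nat_lit 0) (XT.lf (nat_lit 0) (nat_lit 225104354) (nat_lit 152) (nat_lit 1066850103) (nat_lit 76) (nat_lit 36317238897) (nat_lit 5) (nat_lit 5) (nat_lit 7) (nat_lit 5) (nat_lit 6) (nat_lit 4) (nat_lit 347) (nat_lit 281) (nat_lit 272)) (XT.lf (nat_lit 0) (nat_lit 5207688755) (nat_lit 152) (nat_lit 31313118873) (nat_lit 0) (nat_lit 3680939557) (nat_lit 4) (nat_lit 5) (nat_lit 6) (nat_lit 4) (nat_lit 4) (nat_lit 4) (nat_lit 348) (nat_lit 281)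 (nat_lit 271)))) (XT.nd (nat_lit 156) (nat_lit 76) (nat_lit 0) (XT.nd (nat_lit 78) (nat_lit 0) (nat_lit 0) (XT.lf (nat_lit 0) (nat_lit 10461337103) (nat_lit 152) (nat_lit 23713597291) (nat_lit 0) (nat_lit 8837003907) (nat_lit 4) (nat_lit 5) (nat_lit 6) (nat_lit 4) (nat_lit 4) (nat_lit 4) (nat_lit 349) (nat_lit 281) (nat_lit 270)) (XT.lf (nat_lit 0) (nat_lit 15958400200) (nat_lit 152) (nat_lit 15859010589) (nat_lit 0) (nat_lit 14243711452) (nat_lit 4) (nat_lit 5) (nat_lit 6) (nat_lit 4) (nat_lit 4) (nat_lit 4) (nat_lit 350) (nat_lit 281) (nat_lit 269))) (XT.nd (nat_lit 78) (nat_lit 76) (nat_lit 0) (XT.lf (nat_lit 0) (nat_lit 21731453235) (nat_lit 152) (nat_lit 7702813070) (nat_lit 0) (nat_lit 19933101938) (nat_lit 4) (nat_lit 5) (nat_lit 6) (nat_lit 4) (nat_lit 4) (nat_lit 4) (nat_lit 351) (nat_lit 281) (nat_lit 268)) (XT.nd (nat_lit 78) (nat_lit 0) (nat_lit 0) (XT.lf (nat_lit 0) (nat_lit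 845630133) (nat_lit 76) (nat_lit 26989414184) (nat_lit 76) (nat_lit 25113597565) (nat_lit 3) (nat_lit 4) (nat_lit 4) (nat_lit 5) (nat_lit 4) (nat_lit 4) (nat_lit 352) (nat_lit 281) (nat_lit 267)) (XT.lf (nat_lit 0) (nat_lit 10221122180) (nat_lit 76) (nat_lit 24268906137) (nat_lit 76) (nat_lit 22321362367) (nat_lit 3) (nat_lit 4) (nat_lit 4) (nat_lit 5) (nat_lit 4) (nat_lit 4) (nat_lit 353) (nat_lit 281) (nat_lit 266))))))) (XT.nd (nat_lit 702) (nat_lit 0) (nat_lit 0) (XT.nd (nat_lit 312) (nat_lit 152) (nat_lit 0) (XT.nd (nat_lit 156) (nat_lit 0) (nat_lit 0) (XT.nd (nat_lit 78) (nat_lit 0) (nat_lit 0) (XT.lf (nat_lit 0) (nat_lit 20073605056) (nat_lit 76) (nat_lit 21467229196) (nat_lit 76) (nat_lit 19453271397) (nat_lit 3) (nat_lit 4) (nat_lit 4) (nat_lit 5) (nat_lit 4) (nat_lit 4) (nat_lit 354) (nat_lit 281) (nat_lit 265)) (XT.lf (nat_lit 0) (nat_lit 30461463845) (nat_lit 76) (nat_lit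 18567780829) (nat_lit 76) (nat_lit 16492328559) (nat_lit 3) (nat_lit 4) (nat_lit 4) (nat_lit 5) (nat_lit 4) (nat_lit 4) (nat_lit 355) (nat_lit 281) (nat_lit 264))) (XT.nd (nat_lit 78) (nat_lit 0) (nat_lit 0) (XT.lf (nat_lit 0) (nat_lit 41446256228) (nat_lit 76) (nat_lit 15553379120) (nat_lit 76) (nat_lit 13420987526) (nat_lit 3) (nat_lit 4) (nat_lit 4) (nat_lit 5) (nat_lit 4) (nat_lit 4) (nat_lit 356) (nat_lit 281) (nat_lit 263)) (XT.lf (nat_lit 0) (nat_lit 53093077271) (nat_lit 76) (nat_lit 12406160950) (nat_lit 76) (nat_lit 10221047758) (nat_lit 3) (nat_lit 4) (nat_lit 4) (nat_lit 5) (nat_lit 4) (nat_lit 4) (nat_lit 357) (nat_lit 281) (nat_lit 262)))) (XT.nd (nat_lit 156) (nat_lit 152) (nat_lit 0) (XT.nd (nat_lit 78) (nat_lit 0) (nat_lit 0) (XT.lf (nat_lit 0) (nat_lit 65470945173) (nat_lit 76) (nat_lit 9107476135) (nat_lit 76) (nat_lit 6873546649) (nat_lit 3) (nat_lit 4) (nat_lit 4)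 (nat_lit 5) (nat_lit 4) (nat_lit 4) (nat_lit 358) (nat_lit 281) (nat_lit 261)) (XT.lf (nat_lit 0) (nat_lit 78653210263) (nat_lit 76) (nat_lit 5637776914) (nat_lit 76) (nat_lit 3358647156) (nat_lit 3) (nat_lit 4) (nat_lit 4) (nat_lit 5) (nat_lit 4) (nat_lit 4) (nat_lit 359) (nat_lit 281) (nat_lit 260))) (XT.nd (nat_lit 78) (nat_lit 76) (nat_lit 0) (XT.lf (nat_lit 0) (nat_lit 327247481) (nat_lit 152) (nat_lit 1640307098) (nat_lit 76) (nat_lit 92381794658) (nat_lit 2) (nat_lit 5) (nat_lit 4) (nat_lit 5) (nat_lit 3) (nat_lit 4) (nat_lit 360) (nat_lit 281) (nat_lit 259)) (XT.nd (nat_lit 78) (nat_lit 0) (nat_lit 0) (XT.lf (nat_lit 0) (nat_lit 4250326748) (nat_lit 152) (nat_lit 95252457031) (nat_lit 0) (nat_lit 2065388036) (nat_lit 1) (nat_lit 5) (nat_lit 3) (nat_lit 4) (nat_lit 1) (nat_lit 4) (nat_lit 361) (nat_lit 281) (nat_lit 258)) (XT.lf (nat_lit 0) (nat_lit 8502897861) (nat_lit 152) (nat_lit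 94575625159) (nat_lit 0) (nat_lit 6284735600) (nat_lit 1) (nat_lit 5) (nat_lit 3) (nat_lit 4) (nat_lit 1) (nat_lit 4) (nat_lit 362) (nat_lit 281) (nat_lit 257)))))) (XT.nd (nat_lit 312) (nat_lit 0) (nat_lit 0) (XT.nd (nat_lit 156) (nat_lit 0) (nat_lit 0) (XT.nd (nat_lit 78) (nat_lit 0) (nat_lit 0) (XT.lf (nat_lit 0) (nat_lit 13020236129) (nat_lit 152) (nat_lit 93996449318) (nat_lit 0) (nat_lit 10771311322) (nat_lit 1) (nat_lit 5) (nat_lit 3) (nat_lit 4) (nat_lit 1) (nat_lit 4) (nat_lit 363) (nat_lit 281) (nat_lit 256)) (XT.lf (nat_lit 0) (nat_lit 17829110963) (nat_lit 152) (nat_lit 93511497356) (nat_lit 0) (nat_lit 15551702318) (nat_lit 1) (nat_lit 5) (nat_lit 3) (nat_lit 4) (nat_lit 1) (nat_lit 4) (nat_lit 364) (nat_lit 281) (nat_lit 255))) (XT.nd (nat_lit 78) (nat_lit 0) (nat_lit 0) (XT.lf (nat_lit 0) (nat_lit 22958019399) (nat_lit 152) (nat_lit 93117895483) (nat_lit 0) (nat_lit 20654236830)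 (nat_lit 1) (nat_lit 5) (nat_lit 3) (nat_lit 4) (nat_lit 1) (nat_lit 4) (nat_lit 365) (nat_lit 281) (nat_lit 254)) (XT.lf (nat_lit 0) (nat_lit 28437354970) (nat_lit 152) (nat_lit 92813311243) (nat_lit 0) (nat_lit 26109152100) (nat_lit 1) (nat_lit 5) (nat_lit 3) (nat_lit 4) (nat_lit 1) (nat_lit 4) (nat_lit 366) (nat_lit 281) (nat_lit 253)))) (XT.nd (nat_lit 156) (nat_lit 0) (nat_lit 0) (XT.nd (nat_lit 78) (nat_lit 0) (nat_lit 0) (XT.lf (nat_lit 0) (nat_lit 34299587810) (nat_lit 152) (nat_lit 92595939693) (nat_lit 0) (nat_lit 31948773551) (nat_lit 1) (nat_lit 5) (nat_lit 3) (nat_lit 4) (nat_lit 1) (nat_lit 4) (nat_lit 367) (nat_lit 281) (nat_lit 252)) (XT.lf (nat_lit 0) (nat_lit 40579457079) (nat_lit 152) (nat_lit 92464492705) (nat_lit 0) (nat_lit 38207706349) (nat_lit 1) (nat_lit 5) (nat_lit 3) (nat_lit 4) (nat_lit 1) (nat_lit 4) (nat_lit 368) (nat_lit 281) (nat_lit 251))) (XT.nd (nat_lit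 78) (nat_lit 0) (nat_lit 0) (XT.lf (nat_lit 0) (nat_lit 47314176817) (nat_lit 152) (nat_lit 92418191334) (nat_lit 0) (nat_lit 44923040464) (nat_lit 1) (nat_lit 5) (nat_lit 3) (nat_lit 4) (nat_lit 1) (nat_lit 4) (nat_lit 369) (nat_lit 281) (nat_lit 250)) (XT.nd (nat_lit 78) (nat_lit 0) (nat_lit 0) (XT.lf (nat_lit 0) (nat_lit 54543656472) (nat_lit 152) (nat_lit 92456761201) (nat_lit 0) (nat_lit 52134570470) (nat_lit 1) (nat_lit 5) (nat_lit 3) (nat_lit 4) (nat_lit 1) (nat_lit 4) (nat_lit 370) (nat_lit 281) (nat_lit 249)) (XT.lf (nat_lit 0) (nat_lit 62310737408) (nat_lit 152) (nat_lit 92580430869) (nat_lit 0) (nat_lit 59885031359) (nat_lit 1) (nat_lit 5) (nat_lit 3) (nat_lit 4) (nat_lit 1) (nat_lit 4) (nat_lit 371) (nat_lit 281) (nat_lit 248))))))))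
noncomputable def xc45 : XT := (XT.nd (nat_lit 1404) (nat_lit 0) (nat_lit 0) (XT.nd (nat_lit 702) (nat_lit 0) (nat_lit 0) (XT.nd (nat_lit 312) (nat_lit 0) (nat_lit 0) (XT.nd (nat_lit 156) (nat_lit 0) (nat_lit 0) (XT.nd (nat_lit 78) (nat_lit 0) (nat_lit 0) (XT.lf (nat_lit 0) (nat_lit 70661446769) (nat_lit 152) (nat_lit 92789933196) (nat_lit 0) (nat_lit 68220351788) (nat_lit 1) (nat_lit 5) (nat_lit 3) (nat_lit 4) (nat_lit 1) (nat_lit 4) (nat_lit 372) (nat_lit 281) (nat_lit 247)) (XT.lf (nat_lit 0) (nat_lit 79645270240) (nat_lit 152) (nat_lit 93086509675) (nat_lit 0) (nat_lit 77189926249) (nat_lit 1) (nat_lit 5) (nat_lit 3) (nat_lit 4) (nat_lit 1) (nat_lit 4) (nat_lit 373) (nat_lit 281) (nat_lit 246))) (XT.nd (nat_lit 78) (nat_lit 0) (nat_lit 0) (XT.lf (nat_lit 0) (nat_lit 89315445295) (nat_lit 152) (nat_lit 93471917798) (nat_lit 0) (nat_lit 86846907776) (nat_lit 1) (nat_lit 5) (nat_lit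 3) (nat_lit 4) (nat_lit 1) (nat_lit 4) (nat_lit 374) (nat_lit 281) (nat_lit 245)) (XT.lf (nat_lit 0) (nat_lit 99729276675) (nat_lit 152) (nat_lit 93948441464) (nat_lit 0) (nat_lit 97248522925) (nat_lit 1) (nat_lit 5) (nat_lit 3) (nat_lit 4) (nat_lit 1) (nat_lit 4) (nat_lit 375) (nat_lit 281) (nat_lit 244)))) (XT.nd (nat_lit 156) (nat_lit 0) (nat_lit 0) (XT.nd (nat_lit 78) (nat_lit 0) (nat_lit 0) (XT.lf (nat_lit 0) (nat_lit 110948475972) (nat_lit 152) (nat_lit 94518904518) (nat_lit 0) (nat_lit 108456410898) (nat_lit 1) (nat_lit 5) (nat_lit 3) (nat_lit 4) (nat_lit 1) (nat_lit 4) (nat_lit 376) (nat_lit 281) (nat_lit 243)) (XT.lf (nat_lit 0) (nat_lit 123039527331) (nat_lit 152) (nat_lit 95186687481) (nat_lit 0) (nat_lit 120536988809) (nat_lit 1) (nat_lit 5) (nat_lit 3) (nat_lit 4) (nat_lit 1) (nat_lit 4) (nat_lit 377) (nat_lit 281) (nat_lit 242))) (XT.nd (nat_lit 78) (nat_lit 0) (nat_lit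 0) (XT.lf (nat_lit 0) (nat_lit 136074081426) (nat_lit 152) (nat_lit 95955747585) (nat_lit 0) (nat_lit 133561845267) (nat_lit 1) (nat_lit 5) (nat_lit 3) (nat_lit 4) (nat_lit 1) (nat_lit 4) (nat_lit 378) (nat_lit 281) (nat_lit 241)) (XT.nd (nat_lit 78) (nat_lit 0) (nat_lit 0) (XT.lf (nat_lit 0) (nat_lit 150129380060) (nat_lit 152) (nat_lit 96830642225) (nat_lit 0) (nat_lit 147608164607) (nat_lit 1) (nat_lit 5) (nat_lit 3) (nat_lit 4) (nat_lit 1) (nat_lit 4) (nat_lit 379) (nat_lit 281) (nat_lit 240)) (XT.lf (nat_lit 0) (nat_lit 165288713890) (nat_lit 152) (nat_lit 97816555960) (nat_lit 0) (nat_lit 162759184276) (nat_lit 1) (nat_lit 5) (nat_lit 3) (nat_lit 4) (nat_lit 1) (nat_lit 4) (nat_lit 380) (nat_lit 281) (nat_lit 239)))))) (XT.nd (nat_lit 312) (nat_lit 0) (nat_lit 0) (XT.nd (nat_lit 156) (nat_lit 0) (nat_lit 0) (XT.nd (nat_lit 78) (nat_lit 0) (nat_lit 0) (XT.lf (nat_lit 0) (nat_lit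 181641916007) (nat_lit 152) (nat_lit 98919331242) (nat_lit 0) (nat_lit 179104688096) (nat_lit 1) (nat_lit 5) (nat_lit 3) (nat_lit 4) (nat_lit 1) (nat_lit 4) (nat_lit 381) (nat_lit 281) (nat_lit 238)) (XT.lf (nat_lit 0) (nat_lit 199285894275) (nat_lit 152) (nat_lit 100145503037) (nat_lit 0) (nat_lit 196741538311) (nat_lit 1) (nat_lit 5) (nat_lit 3) (nat_lit 4) (nat_lit 1) (nat_lit 4) (nat_lit 382) (nat_lit 281) (nat_lit 237))) (XT.nd (nat_lit 78) (nat_lit 0) (nat_lit 0) (XT.lf (nat_lit 0) (nat_lit 218325205602) (nat_lit 152) (nat_lit 101502337546) (nat_lit 0) (nat_lit 215774249589) (nat_lit 1) (nat_lit 5) (nat_lit 3) (nat_lit 4) (nat_lit 1) (nat_lit 4) (nat_lit 383) (nat_lit 281) (nat_lit 236)) (XT.lf (nat_lit 0) (nat_lit 238872675537) (nat_lit 152) (nat_lit 102997875272) (nat_lit 0) (nat_lit 236315608367) (nat_lit 1) (nat_lit 5) (nat_lit 3) (nat_lit 4) (nat_lit 1) (nat_lit 4) (nat_lit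 384) (nat_lit 281) (nat_lit 235)))) (XT.nd (nat_lit 156) (nat_lit 0) (nat_lit 0) (XT.nd (nat_lit 78) (nat_lit 0) (nat_lit 0) (XT.lf (nat_lit 0) (nat_lit 261050066864) (nat_lit 152) (nat_lit 104640978660) (nat_lit 0) (nat_lit 258487341216) (nat_lit 1) (nat_lit 5) (nat_lit 3) (nat_lit 4) (nat_lit 1) (nat_lit 4) (nat_lit 385) (nat_lit 281) (nat_lit 234)) (XT.lf (nat_lit 0) (nat_lit 284988801161) (nat_lit 152) (nat_lit 106441384618) (nat_lit 0) (nat_lit 282420836182) (nat_lit 1) (nat_lit 5) (nat_lit 3) (nat_lit 4) (nat_lit 1) (nat_lit 4) (nat_lit 386) (nat_lit 281) (nat_lit 233))) (XT.nd (nat_lit 78) (nat_lit 0) (nat_lit 0) (XT.lf (nat_lit 0) (nat_lit 310830737596) (nat_lit 152) (nat_lit 108409762219) (nat_lit 0) (nat_lit 308257921383) (nat_lit 1) (nat_lit 5) (nat_lit 3) (nat_lit 4) (nat_lit 1) (nat_lit 4) (nat_lit 387) (nat_lit 281) (nat_lit 232)) (XT.nd (nat_lit 78) (nat_lit 0) (nat_lit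 0) (XT.lf (nat_lit 0) (nat_lit 338729013568) (nat_lit 152) (nat_lit 110557775924) (nat_lit 0) (nat_lit 336151705473) (nat_lit 1) (nat_lit 5) (nat_lit 3) (nat_lit 4) (nat_lit 1) (nat_lit 4) (nat_lit 388) (nat_lit 281) (nat_lit 231)) (XT.lf (nat_lit 0) (nat_lit 368848952196) (nat_lit 152) (nat_lit 112898154702) (nat_lit 0) (nat_lit 366267484950) (nat_lit 1) (nat_lit 5) (nat_lit 3) (nat_lit 4) (nat_lit 1) (nat_lit 4) (nat_lit 389) (nat_lit 281) (nat_lit 230))))))) (XT.nd (nat_lit 702) (nat_lit 0) (nat_lit 0) (XT.nd (nat_lit 312) (nat_lit 0) (nat_lit 0) (XT.nd (nat_lit 156) (nat_lit 0) (nat_lit 0) (XT.nd (nat_lit 78) (nat_lit 0) (nat_lit 0) (XT.lf (nat_lit 0) (nat_lit 401369042003) (nat_lit 152) (nat_lit 115444767464) (nat_lit 0) (nat_lit 398783723693) (nat_lit 1) (nat_lit 5) (nat_lit 3) (nat_lit 4) (nat_lit 1) (nat_lit 4) (nat_lit 390) (nat_lit 281) (nat_lit 229)) (XT.lf (nat_lit 0) (nat_lit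 436481994634) (nat_lit 152) (nat_lit 118212705249) (nat_lit 0) (nat_lit 433893110522) (nat_lit 1) (nat_lit 5) (nat_lit 3) (nat_lit 4) (nat_lit 1) (nat_lit 4) (nat_lit 391) (nat_lit 281) (nat_lit 228))) (XT.nd (nat_lit 78) (nat_lit 0) (nat_lit 0) (XT.lf (nat_lit 0) (nat_lit 474395886844) (nat_lit 152) (nat_lit 121218370651) (nat_lit 0) (nat_lit 471803701065) (nat_lit 1) (nat_lit 5) (nat_lit 3) (nat_lit 4) (nat_lit 1) (nat_lit 4) (nat_lit 392) (nat_lit 281) (nat_lit 227)) (XT.lf (nat_lit 0) (nat_lit 515335393551) (nat_lit 152) (nat_lit 124479575021) (nat_lit 0) (nat_lit 512740150672) (nat_lit 1) (nat_lit 5) (nat_lit 3) (nat_lit 4) (nat_lit 1) (nat_lit 4) (nat_lit 393) (nat_lit 281) (nat_lit 226)))) (XT.nd (nat_lit 156) (nat_lit 0) (nat_lit 0) (XT.nd (nat_lit 78) (nat_lit 0) (nat_lit 0) (XT.lf (nat_lit 0) (nat_lit 559543119239) (nat_lit 152) (nat_lit 128015644014) (nat_lit 0) (nat_lit 556945045712)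 (nat_lit 1) (nat_lit 5) (nat_lit 3) (nat_lit 4) (nat_lit 1) (nat_lit 4) (nat_lit 394) (nat_lit 281) (nat_lit 225)) (XT.lf (nat_lit 0) (nat_lit 607281035615) (nat_lit 152) (nat_lit 131847532114) (nat_lit 0) (nat_lit 604680341117) (nat_lit 1) (nat_lit 5) (nat_lit 3) (nat_lit 4) (nat_lit 1) (nat_lit 4) (nat_lit 395) (nat_lit 281) (nat_lit 224))) (XT.nd (nat_lit 78) (nat_lit 0) (nat_lit 0) (XT.lf (nat_lit 0) (nat_lit 658832034035) (nat_lit 152) (nat_lit 135997946804) (nat_lit 0) (nat_lit 656228912714) (nat_lit 1) (nat_lit 5) (nat_lit 3) (nat_lit 4) (nat_lit 1) (nat_lit 4) (nat_lit 396) (nat_lit 281) (nat_lit 223)) (XT.nd (nat_lit 78) (nat_lit 0) (nat_lit 0) (XT.lf (nat_lit 0) (nat_lit 714501601899) (nat_lit 152) (nat_lit 140491483136) (nat_lit 0) (nat_lit 711896233518) (nat_lit 1) (nat_lit 5) (nat_lit 3) (nat_lit 4) (nat_lit 1) (nat_lit 4) (nat_lit 397) (nat_lit 281) (nat_lit 222)) (XT.lf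 (nat_lit 0) (nat_lit 774619632941) (nat_lit 152) (nat_lit 145354769473) (nat_lit 0) (nat_lit 772012183949) (nat_lit 1) (nat_lit 5) (nat_lit 3) (nat_lit 4) (nat_lit 1) (nat_lit 4) (nat_lit 398) (nat_lit 281) (nat_lit 221)))))) (XT.nd (nat_lit 312) (nat_lit 0) (nat_lit 0) (XT.nd (nat_lit 156) (nat_lit 0) (nat_lit 0) (XT.nd (nat_lit 78) (nat_lit 0) (nat_lit 0) (XT.lf (nat_lit 0) (nat_lit 839542382160) (nat_lit 152) (nat_lit 150616625289) (nat_lit 0) (nat_lit 836933006676) (nat_lit 1) (nat_lit 5) (nat_lit 3) (nat_lit 4) (nat_lit 1) (nat_lit 4) (nat_lit 399) (nat_lit 281) (nat_lit 220)) (XT.lf (nat_lit 0) (nat_lit 909654576958) (nat_lit 152) (nat_lit 156308231953) (nat_lit 0) (nat_lit 907043417687) (nat_lit 1) (nat_lit 5) (nat_lit 3) (nat_lit 4) (nat_lit 1) (nat_lit 4) (nat_lit 400) (nat_lit 281) (nat_lit 219))) (XT.nd (nat_lit 78) (nat_lit 0) (nat_lit 0) (XT.lf (nat_lit 0) (nat_lit 985371697010)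 (nat_lit 152) (nat_lit 162463317502) (nat_lit 0) (nat_lit 982758886082) (nat_lit 1) (nat_lit 5) (nat_lit 3) (nat_lit 4) (nat_lit 1) (nat_lit 4) (nat_lit 401) (nat_lit 281) (nat_lit 218)) (XT.lf (nat_lit 0) (nat_lit 1067142436359) (nat_lit 152) (nat_lit 169118356520) (nat_lit 0) (nat_lit 1064528096120) (nat_lit 1) (nat_lit 5) (nat_lit 3) (nat_lit 4) (nat_lit 1) (nat_lit 4) (nat_lit 402) (nat_lit 281) (nat_lit 217)))) (XT.nd (nat_lit 156) (nat_lit 0) (nat_lit 0) (XT.nd (nat_lit 78) (nat_lit 0) (nat_lit 0) (XT.lf (nat_lit 0) (nat_lit 1155451362349) (nat_lit 152) (nat_lit 176312786273) (nat_lit 0) (nat_lit 1152835606082) (nat_lit 1) (nat_lit 5) (nat_lit 3) (nat_lit 4) (nat_lit 1) (nat_lit 4) (nat_lit 403) (nat_lit 281) (nat_lit 216)) (XT.lf (nat_lit 0) (nat_lit 1250821787136) (nat_lit 152) (nat_lit 184089240421) (nat_lit 0) (nat_lit 1248204719731) (nat_lit 1) (nat_lit 5) (nat_lit 3) (nat_lit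 4) (nat_lit 1) (nat_lit 4) (nat_lit 404) (nat_lit 281) (nat_lit 215))) (XT.nd (nat_lit 78) (nat_lit 0) (nat_lit 0) (XT.lf (nat_lit 0) (nat_lit 1353818868791) (nat_lit 152) (nat_lit 192493801653) (nat_lit 0) (nat_lit 1351200587370) (nat_lit 1) (nat_lit 5) (nat_lit 3) (nat_lit 4) (nat_lit 1) (nat_lit 4) (nat_lit 405) (nat_lit 281) (nat_lit 214)) (XT.nd (nat_lit 78) (nat_lit 0) (nat_lit 0) (XT.lf (nat_lit 0) (nat_lit 1465052960391) (nat_lit 152) (nat_lit 201576274777) (nat_lit 0) (nat_lit 1462433554881) (nat_lit 1) (nat_lit 5) (nat_lit 3) (nat_lit 4) (nat_lit 1) (nat_lit 4) (nat_lit 406) (nat_lit 281) (nat_lit 213)) (XT.lf (nat_lit 0) (nat_lit 1585183226923) (nat_lit 152) (nat_lit 211390481856) (nat_lit 0) (nat_lit 1582562780590) (nat_lit 1) (nat_lit 5) (nat_lit 3) (nat_lit 4) (nat_lit 1) (nat_lit 4) (nat_lit 407) (nat_lit 281) (nat_lit 212))))))))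
noncomputable def xc46 : XT := (XT.nd (nat_lit 41886) (nat_lit 0) (nat_lit 0) (XT.nd (nat_lit 702) (nat_lit 0) (nat_lit 0) (XT.nd (nat_lit 312) (nat_lit 0) (nat_lit 0) (XT.nd (nat_lit 156) (nat_lit 0) (nat_lit 0) (XT.nd (nat_lit 78) (nat_lit 0) (nat_lit 0) (XT.lf (nat_lit 0) (nat_lit 1714921551449) (nat_lit 152) (nat_lit 221994581155) (nat_lit 0) (nat_lit 1712300141390) (nat_lit 1) (nat_lit 5) (nat_lit 3) (nat_lit 4) (nat_lit 1) (nat_lit 4) (nat_lit 408) (nat_lit 281) (nat_lit 211)) (XT.lf (nat_lit 0) (nat_lit 1855036753669) (nat_lit 152) (nat_lit 233451411780) (nat_lit 0) (nat_lit 1852414451271) (nat_lit 1) (nat_lit 5) (nat_lit 3) (nat_lit 4) (nat_lit 1) (nat_lit 4) (nat_lit 409) (nat_lit 281) (nat_lit 210))) (XT.nd (nat_lit 78) (nat_lit 0) (nat_lit 0) (XT.lf (nat_lit 0) (nat_lit 2006359145892) (nat_lit 152) (nat_lit 245828866061) (nat_lit 0) (nat_lit 2003736017256) (nat_lit 1) (nat_lit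 5) (nat_lit 3) (nat_lit 4) (nat_lit 1) (nat_lit 4) (nat_lit 410) (nat_lit 281) (nat_lit 209)) (XT.lf (nat_lit 0) (nat_lit 2169785453406) (nat_lit 152) (nat_lit 259200291876) (nat_lit 0) (nat_lit 2167161559733) (nat_lit 1) (nat_lit 5) (nat_lit 3) (nat_lit 4) (nat_lit 1) (nat_lit 4) (nat_lit 411) (nat_lit 281) (nat_lit 208)))) (XT.nd (nat_lit 156) (nat_lit 0) (nat_lit 0) (XT.nd (nat_lit 78) (nat_lit 0) (nat_lit 0) (XT.lf (nat_lit 0) (nat_lit 2346284128404) (nat_lit 152) (nat_lit 273644927302) (nat_lit 0) (nat_lit 2343659526364) (nat_lit 1) (nat_lit 5) (nat_lit 3) (nat_lit 4) (nat_lit 1) (nat_lit 4) (nat_lit 412) (nat_lit 281) (nat_lit 207)) (XT.lf (nat_lit 0) (nat_lit 2536901088959) (nat_lit 152) (nat_lit 289248370180) (nat_lit 0) (nat_lit 2534275831024) (nat_lit 1) (nat_lit 5) (nat_lit 3) (nat_lit 4) (nat_lit 1) (nat_lit 4) (nat_lit 413) (nat_lit 281) (nat_lit 206))) (XT.nd (nat_lit 78)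 (nat_lit 0) (nat_lit 0) (XT.lf (nat_lit 0) (nat_lit 2742765917060) (nat_lit 152) (nat_lit 306103085357) (nat_lit 0) (nat_lit 2740140051815) (nat_lit 1) (nat_lit 5) (nat_lit 3) (nat_lit 4) (nat_lit 1) (nat_lit 4) (nat_lit 414) (nat_lit 281) (nat_lit 205)) (XT.nd (nat_lit 78) (nat_lit 0) (nat_lit 0) (XT.lf (nat_lit 0) (nat_lit 2965098552430) (nat_lit 152) (nat_lit 324308952625) (nat_lit 0) (nat_lit 2962472124860) (nat_lit 1) (nat_lit 5) (nat_lit 3) (nat_lit 4) (nat_lit 1) (nat_lit 4) (nat_lit 415) (nat_lit 281) (nat_lit 204)) (XT.lf (nat_lit 0) (nat_lit 3205216521795) (nat_lit 152) (nat_lit 343973858606) (nat_lit 0) (nat_lit 3202589573555) (nat_lit 1) (nat_lit 5) (nat_lit 3) (nat_lit 4) (nat_lit 1) (nat_lit 4) (nat_lit 416) (nat_lit 281) (nat_lit 203)))))) (XT.nd (nat_lit 40794) (nat_lit 0) (nat_lit 456) (XT.nd (nat_lit 40638) (nat_lit 0) (nat_lit 684) (XT.nd (nat_lit 40560) (nat_lit 0)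 (nat_lit 836) (XT.lf (nat_lit 0) (nat_lit 3464542746457) (nat_lit 152) (nat_lit 365214336076) (nat_lit 0) (nat_lit 3461915316114) (nat_lit 1) (nat_lit 5) (nat_lit 3) (nat_lit 4) (nat_lit 1) (nat_lit 4) (nat_lit 417) (nat_lit 281) (nat_lit 202)) (XT.lf (nat_lit 0) (nat_lit 4737466839) (nat_lit 76) (nat_lit 2474132816) (nat_lit 76) (nat_lit 2474132816) (nat_lit 12) (nat_lit 4) (nat_lit 13) (nat_lit 5) (nat_lit 13) (nat_lit 4) (nat_lit 336) (nat_lit 282) (nat_lit 282))) (XT.nd (nat_lit 78) (nat_lit 0) (nat_lit 0) (XT.lf (nat_lit 0) (nat_lit 545875431) (nat_lit 152) (nat_lit 19630835525) (nat_lit 0) (nat_lit 280483678) (nat_lit 10) (nat_lit 5) (nat_lit 12) (nat_lit 4) (nat_lit 10) (nat_lit 4) (nat_lit 337) (nat_lit 282) (nat_lit 281)) (XT.lf (nat_lit 0) (nat_lit 6310430755) (nat_lit 152) (nat_lit 9501980930) (nat_lit 0) (nat_lit 5799305898) (nat_lit 10) (nat_lit 5) (nat_lit 12) (nat_lit 4)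 (nat_lit 10) (nat_lit 4) (nat_lit 338) (nat_lit 282) (nat_lit 280)))) (XT.nd (nat_lit 156) (nat_lit 152) (nat_lit 0) (XT.nd (nat_lit 78) (nat_lit 0) (nat_lit 0) (XT.lf (nat_lit 0) (nat_lit 928373489) (nat_lit 76) (nat_lit 11344988202) (nat_lit 76) (nat_lit 10606332692) (nat_lit 9) (nat_lit 4) (nat_lit 10) (nat_lit 5) (nat_lit 10) (nat_lit 4) (nat_lit 339) (nat_lit 282) (nat_lit 279)) (XT.lf (nat_lit 0) (nat_lit 12192349746) (nat_lit 76) (nat_lit 6503766161) (nat_lit 76) (nat_lit 5554434121) (nat_lit 9) (nat_lit 4) (nat_lit 10) (nat_lit 5) (nat_lit 10) (nat_lit 4) (nat_lit 340) (nat_lit 282) (nat_lit 278))) (XT.nd (nat_lit 78) (nat_lit 152) (nat_lit 0) (XT.lf (nat_lit 0) (nat_lit 23856339851) (nat_lit 76) (nat_lit 1519857838) (nat_lit 76) (nat_lit 375454937) (nat_lit 9) (nat_lit 4) (nat_lit 10) (nat_lit 5) (nat_lit 10) (nat_lit 4) (nat_lit 341) (nat_lit 282) (nat_lit 277)) (XT.nd (nat_lit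 78) (nat_lit 0) (nat_lit 0) (XT.lf (nat_lit 0) (nat_lit 5023876844) (nat_lit 152) (nat_lit 18536611240) (nat_lit 0) (nat_lit 3797002707) (nat_lit 7) (nat_lit 5) (nat_lit 9) (nat_lit 4) (nat_lit 7) (nat_lit 4) (nat_lit 342) (nat_lit 282) (nat_lit 276)) (XT.lf (nat_lit 0) (nat_lit 10685193084) (nat_lit 152) (nat_lit 9114378473) (nat_lit 0) (nat_lit 9303465407) (nat_lit 7) (nat_lit 5) (nat_lit 9) (nat_lit 4) (nat_lit 7) (nat_lit 4) (nat_lit 343) (nat_lit 282) (nat_lit 275))))))) (XT.nd (nat_lit 702) (nat_lit 228) (nat_lit 0) (XT.nd (nat_lit 312) (nat_lit 152) (nat_lit 0) (XT.nd (nat_lit 156) (nat_lit 0) (nat_lit 0) (XT.nd (nat_lit 78) (nat_lit 0) (nat_lit 0) (XT.lf (nat_lit 0) (nat_lit 651337068) (nat_lit 76) (nat_lit 15939370180) (nat_lit 76) (nat_lit 14414259597) (nat_lit 6) (nat_lit 4) (nat_lit 7) (nat_lit 5) (nat_lit 7) (nat_lit 4) (nat_lit 344) (nat_lit 282) (nat_lit 274)) (XT.lf (nat_lit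 0) (nat_lit 11284986380) (nat_lit 76) (nat_lit 11714745948) (nat_lit 76) (nat_lit 10056873415) (nat_lit 6) (nat_lit 4) (nat_lit 7) (nat_lit 5) (nat_lit 7) (nat_lit 4) (nat_lit 345) (nat_lit 282) (nat_lit 273))) (XT.nd (nat_lit 78) (nat_lit 0) (nat_lit 0) (XT.lf (nat_lit 0) (nat_lit 22369636661) (nat_lit 76) (nat_lit 7349867311) (nat_lit 76) (nat_lit 5569067045) (nat_lit 6) (nat_lit 4) (nat_lit 7) (nat_lit 5) (nat_lit 7) (nat_lit 4) (nat_lit 346) (nat_lit 282) (nat_lit 272)) (XT.lf (nat_lit 0) (nat_lit 33970974727) (nat_lit 76) (nat_lit 2818868320) (nat_lit 76) (nat_lit 924246081) (nat_lit 6) (nat_lit 4) (nat_lit 7) (nat_lit 5) (nat_lit 7) (nat_lit 4) (nat_lit 347) (nat_lit 282) (nat_lit 271)))) (XT.nd (nat_lit 156) (nat_lit 0) (nat_lit 0) (XT.nd (nat_lit 78) (nat_lit 0) (nat_lit 0) (XT.lf (nat_lit 0) (nat_lit 3906497135) (nat_lit 152) (nat_lit 34363151054) (nat_lit 0) (nat_lit 2054633288)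 (nat_lit 4) (nat_lit 5) (nat_lit 6) (nat_lit 4) (nat_lit 4) (nat_lit 4) (nat_lit 348) (nat_lit 282) (nat_lit 270)) (XT.lf (nat_lit 0) (nat_lit 9075108407) (nat_lit 152) (nat_lit 26933291303) (nat_lit 0) (nat_lit 7132889006) (nat_lit 4) (nat_lit 5) (nat_lit 6) (nat_lit 4) (nat_lit 4) (nat_lit 4) (nat_lit 349) (nat_lit 282) (nat_lit 269))) (XT.nd (nat_lit 78) (nat_lit 0) (nat_lit 0) (XT.lf (nat_lit 0) (nat_lit 14493433470) (nat_lit 152) (nat_lit 19235798889) (nat_lit 0) (nat_lit 12467551521) (nat_lit 4) (nat_lit 5) (nat_lit 6) (nat_lit 4) (nat_lit 4) (nat_lit 4) (nat_lit 350) (nat_lit 282) (nat_lit 268)) (XT.nd (nat_lit 78) (nat_lit 0) (nat_lit 0) (XT.lf (nat_lit 0) (nat_lit 20193580919) (nat_lit 152) (nat_lit 11225059043) (nat_lit 0) (nat_lit 18090233647) (nat_lit 4) (nat_lit 5) (nat_lit 6) (nat_lit 4) (nat_lit 4) (nat_lit 4) (nat_lit 351) (nat_lit 282) (nat_lit 267)) (XT.lf (nat_lit 0)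 (nat_lit 26209329404) (nat_lit 152) (nat_lit 2853600714) (nat_lit 0) (nat_lit 24034254981) (nat_lit 4) (nat_lit 5) (nat_lit 6) (nat_lit 4) (nat_lit 4) (nat_lit 4) (nat_lit 352) (nat_lit 282) (nat_lit 266)))))) (XT.nd (nat_lit 312) (nat_lit 152) (nat_lit 0) (XT.nd (nat_lit 156) (nat_lit 0) (nat_lit 0) (XT.nd (nat_lit 78) (nat_lit 0) (nat_lit 0) (XT.lf (nat_lit 0) (nat_lit 6240352441) (nat_lit 76) (nat_lit 26486055990) (nat_lit 76) (nat_lit 24244567539) (nat_lit 3) (nat_lit 4) (nat_lit 4) (nat_lit 5) (nat_lit 4) (nat_lit 4) (nat_lit 353) (nat_lit 282) (nat_lit 265)) (XT.lf (nat_lit 0) (nat_lit 15971285934) (nat_lit 76) (nat_lit 23745130361) (nat_lit 76) (nat_lit 21442147439) (nat_lit 3) (nat_lit 4) (nat_lit 4) (nat_lit 5) (nat_lit 4) (nat_lit 4) (nat_lit 354) (nat_lit 282) (nat_lit 264))) (XT.nd (nat_lit 78) (nat_lit 0) (nat_lit 0) (XT.lf (nat_lit 0) (nat_lit 26246598997) (nat_lit 76) (nat_lit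 20901933209) (nat_lit 76) (nat_lit 18542010962) (nat_lit 3) (nat_lit 4) (nat_lit 4) (nat_lit 5) (nat_lit 4) (nat_lit 4) (nat_lit 355) (nat_lit 282) (nat_lit 263)) (XT.lf (nat_lit 0) (nat_lit 37127182375) (nat_lit 76) (nat_lit 17939615960) (nat_lit 76) (nat_lit 15526972116) (nat_lit 3) (nat_lit 4) (nat_lit 4) (nat_lit 5) (nat_lit 4) (nat_lit 4) (nat_lit 356) (nat_lit 282) (nat_lit 262)))) (XT.nd (nat_lit 156) (nat_lit 152) (nat_lit 0) (XT.nd (nat_lit 78) (nat_lit 0) (nat_lit 0) (XT.lf (nat_lit 0) (nat_lit 48677513599) (nat_lit 76) (nat_lit 14840624140) (nat_lit 76) (nat_lit 12379164002) (nat_lit 3) (nat_lit 4) (nat_lit 4) (nat_lit 5) (nat_lit 4) (nat_lit 4) (nat_lit 357) (nat_lit 282) (nat_lit 261)) (XT.lf (nat_lit 0) (nat_lit 60966039076) (nat_lit 76) (nat_lit 11586593353) (nat_lit 76) (nat_lit 9079932944) (nat_lit 3) (nat_lit 4) (nat_lit 4) (nat_lit 5) (nat_lit 4) (nat_lit 4) (nat_lit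 358) (nat_lit 282) (nat_lit 260))) (XT.nd (nat_lit 78) (nat_lit 152) (nat_lit 0) (XT.lf (nat_lit 0) (nat_lit 74065579697) (nat_lit 76) (nat_lit 8158240455) (nat_lit 76) (nat_lit 5609727942) (nat_lit 3) (nat_lit 4) (nat_lit 4) (nat_lit 5) (nat_lit 4) (nat_lit 4) (nat_lit 359) (nat_lit 282) (nat_lit 259)) (XT.nd (nat_lit 78) (nat_lit 152) (nat_lit 0) (XT.lf (nat_lit 0) (nat_lit 88053762371) (nat_lit 76) (nat_lit 4535249279) (nat_lit 76) (nat_lit 1947984818) (nat_lit 3) (nat_lit 4) (nat_lit 4) (nat_lit 5) (nat_lit 4) (nat_lit 4) (nat_lit 360) (nat_lit 282) (nat_lit 258)) (XT.lf (nat_lit 0) (nat_lit 1246874832) (nat_lit 76) (nat_lit 613712055) (nat_lit 152) (nat_lit 99915941215) (nat_lit 1) (nat_lit 5) (nat_lit 2) (nat_lit 5) (nat_lit 3) (nat_lit 4) (nat_lit 361) (nat_lit 282) (nat_lit 257))))))))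
noncomputable def xc47 : XT := (XT.nd (nat_lit 1404) (nat_lit 0) (nat_lit 0) (XT.nd (nat_lit 702) (nat_lit 0) (nat_lit 0) (XT.nd (nat_lit 312) (nat_lit 0) (nat_lit 0) (XT.nd (nat_lit 156) (nat_lit 0) (nat_lit 0) (XT.nd (nat_lit 78) (nat_lit 0) (nat_lit 0) (XT.lf (nat_lit 0) (nat_lit 6062129685) (nat_lit 152) (nat_lit 99911043618) (nat_lit 0) (nat_lit 3602528349) (nat_lit 1) (nat_lit 5) (nat_lit 3) (nat_lit 4) (nat_lit 1) (nat_lit 4) (nat_lit 362) (nat_lit 282) (nat_lit 256)) (XT.lf (nat_lit 0) (nat_lit 10545885984) (nat_lit 152) (nat_lit 99399443713) (nat_lit 0) (nat_lit 8057800809) (nat_lit 1) (nat_lit 5) (nat_lit 3) (nat_lit 4) (nat_lit 1) (nat_lit 4) (nat_lit 363) (nat_lit 282) (nat_lit 255))) (XT.nd (nat_lit 78) (nat_lit 0) (nat_lit 0) (XT.lf (nat_lit 0) (nat_lit 15323666402) (nat_lit 152) (nat_lit 98977062061) (nat_lit 0) (nat_lit 12809207303) (nat_lit 1) (nat_lit 5) (nat_lit 3)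 (nat_lit 4) (nat_lit 1) (nat_lit 4) (nat_lit 364) (nat_lit 282) (nat_lit 254)) (XT.lf (nat_lit 0) (nat_lit 20423783713) (nat_lit 152) (nat_lit 98641395660) (nat_lit 0) (nat_lit 17884904314) (nat_lit 1) (nat_lit 5) (nat_lit 3) (nat_lit 4) (nat_lit 1) (nat_lit 4) (nat_lit 365) (nat_lit 282) (nat_lit 253)))) (XT.nd (nat_lit 156) (nat_lit 0) (nat_lit 0) (XT.nd (nat_lit 78) (nat_lit 0) (nat_lit 0) (XT.lf (nat_lit 0) (nat_lit 25876460834) (nat_lit 152) (nat_lit 98390455377) (nat_lit 0) (nat_lit 23314970045) (nat_lit 1) (nat_lit 5) (nat_lit 3) (nat_lit 4) (nat_lit 1) (nat_lit 4) (nat_lit 366) (nat_lit 282) (nat_lit 252)) (XT.lf (nat_lit 0) (nat_lit 31714009925) (nat_lit 152) (nat_lit 98222754156) (nat_lit 0) (nat_lit 29131582665) (nat_lit 1) (nat_lit 5) (nat_lit 3) (nat_lit 4) (nat_lit 1) (nat_lit 4) (nat_lit 367) (nat_lit 282) (nat_lit 251))) (XT.nd (nat_lit 78) (nat_lit 0) (nat_lit 0) (XT.lf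 (nat_lit 0) (nat_lit 37971023871) (nat_lit 152) (nat_lit 98137298215) (nat_lit 0) (nat_lit 35369210988) (nat_lit 1) (nat_lit 5) (nat_lit 3) (nat_lit 4) (nat_lit 1) (nat_lit 4) (nat_lit 368) (nat_lit 282) (nat_lit 250)) (XT.nd (nat_lit 78) (nat_lit 0) (nat_lit 0) (XT.lf (nat_lit 0) (nat_lit 44684581271) (nat_lit 152) (nat_lit 98133581146) (nat_lit 0) (nat_lit 42064818739) (nat_lit 1) (nat_lit 5) (nat_lit 3) (nat_lit 4) (nat_lit 1) (nat_lit 4) (nat_lit 369) (nat_lit 282) (nat_lit 249)) (XT.lf (nat_lit 0) (nat_lit 51894466171) (nat_lit 152) (nat_lit 98211580922) (nat_lit 0) (nat_lit 49258083592) (nat_lit 1) (nat_lit 5) (nat_lit 3) (nat_lit 4) (nat_lit 1) (nat_lit 4) (nat_lit 370) (nat_lit 282) (nat_lit 248)))))) (XT.nd (nat_lit 312) (nat_lit 0) (nat_lit 0) (XT.nd (nat_lit 156) (nat_lit 0) (nat_lit 0) (XT.nd (nat_lit 78) (nat_lit 0) (nat_lit 0) (XT.lf (nat_lit 0) (nat_lit 59643403813) (nat_lit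 152) (nat_lit 98371759766) (nat_lit 0) (nat_lit 56991632303) (nat_lit 1) (nat_lit 5) (nat_lit 3) (nat_lit 4) (nat_lit 1) (nat_lit 4) (nat_lit 371) (nat_lit 282) (nat_lit 247)) (XT.lf (nat_lit 0) (nat_lit 67977313829) (nat_lit 152) (nat_lit 98615066884) (nat_lit 0) (nat_lit 65311293308) (nat_lit 1) (nat_lit 5) (nat_lit 3) (nat_lit 4) (nat_lit 1) (nat_lit 4) (nat_lit 372) (nat_lit 282) (nat_lit 246))) (XT.nd (nat_lit 78) (nat_lit 0) (nat_lit 0) (XT.lf (nat_lit 0) (nat_lit 76945582351) (nat_lit 152) (nat_lit 98942944097) (nat_lit 0) (nat_lit 74266368302) (nat_lit 1) (nat_lit 5) (nat_lit 3) (nat_lit 4) (nat_lit 1) (nat_lit 4) (nat_lit 373) (nat_lit 282) (nat_lit 245)) (XT.lf (nat_lit 0) (nat_lit 86601354676) (nat_lit 152) (nat_lit 99357334380) (nat_lit 0) (nat_lit 83909924396) (nat_lit 1) (nat_lit 5) (nat_lit 3) (nat_lit 4) (nat_lit 1) (nat_lit 4) (nat_lit 374) (nat_lit 282) (nat_lit 244))))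 (XT.nd (nat_lit 156) (nat_lit 0) (nat_lit 0) (XT.nd (nat_lit 78) (nat_lit 0) (nat_lit 0) (XT.lf (nat_lit 0) (nat_lit 97001850193) (nat_lit 152) (nat_lit 99860693380) (nat_lit 0) (nat_lit 94299108589) (nat_lit 1) (nat_lit 5) (nat_lit 3) (nat_lit 4) (nat_lit 1) (nat_lit 4) (nat_lit 375) (nat_lit 282) (nat_lit 243)) (XT.lf (nat_lit 0) (nat_lit 108208701470) (nat_lit 152) (nat_lit 100456003965) (nat_lit 0) (nat_lit 105495486418) (nat_lit 1) (nat_lit 5) (nat_lit 3) (nat_lit 4) (nat_lit 1) (nat_lit 4) (nat_lit 376) (nat_lit 282) (nat_lit 242))) (XT.nd (nat_lit 78) (nat_lit 0) (nat_lit 0) (XT.lf (nat_lit 0) (nat_lit 120288319477) (nat_lit 152) (nat_lit 101146793901) (nat_lit 0) (nat_lit 117565406788) (nat_lit 1) (nat_lit 5) (nat_lit 3) (nat_lit 4) (nat_lit 1) (nat_lit 4) (nat_lit 377) (nat_lit 282) (nat_lit 241)) (XT.nd (nat_lit 78) (nat_lit 0) (nat_lit 0) (XT.lf (nat_lit 0) (nat_lit 133312287135)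 (nat_lit 152) (nat_lit 101937156759) (nat_lit 0) (nat_lit 130580395152) (nat_lit 1) (nat_lit 5) (nat_lit 3) (nat_lit 4) (nat_lit 1) (nat_lit 4) (nat_lit 378) (nat_lit 282) (nat_lit 240)) (XT.lf (nat_lit 0) (nat_lit 147357783512) (nat_lit 152) (nat_lit 102831776170) (nat_lit 0) (nat_lit 144617577368) (nat_lit 1) (nat_lit 5) (nat_lit 3) (nat_lit 4) (nat_lit 1) (nat_lit 4) (nat_lit 379) (nat_lit 282) (nat_lit 239))))))) (XT.nd (nat_lit 702) (nat_lit 0) (nat_lit 0) (XT.nd (nat_lit 312) (nat_lit 0) (nat_lit 0) (XT.nd (nat_lit 156) (nat_lit 0) (nat_lit 0) (XT.nd (nat_lit 78) (nat_lit 0) (nat_lit 0) (XT.lf (nat_lit 0) (nat_lit 162508041179) (nat_lit 152) (nat_lit 103835953582) (nat_lit 0) (nat_lit 159760136738) (nat_lit 1) (nat_lit 5) (nat_lit 3) (nat_lit 4) (nat_lit 1) (nat_lit 4) (nat_lit 380) (nat_lit 282) (nat_lit 238)) (XT.lf (nat_lit 0) (nat_lit 178852839441) (nat_lit 152) (nat_lit 104955639676)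 (nat_lit 0) (nat_lit 176097806947) (nat_lit 1) (nat_lit 5) (nat_lit 3) (nat_lit 4) (nat_lit 1) (nat_lit 4) (nat_lit 381) (nat_lit 282) (nat_lit 237))) (XT.nd (nat_lit 78) (nat_lit 0) (nat_lit 0) (XT.lf (nat_lit 0) (nat_lit 196489036362) (nat_lit 152) (nat_lit 106197469630) (nat_lit 0) (nat_lit 193727403819) (nat_lit 1) (nat_lit 5) (nat_lit 3) (nat_lit 4) (nat_lit 1) (nat_lit 4) (nat_lit 382) (nat_lit 282) (nat_lit 236)) (XT.lf (nat_lit 0) (nat_lit 215521142737) (nat_lit 152) (nat_lit 107568802436) (nat_lit 0) (nat_lit 212753399038) (nat_lit 1) (nat_lit 5) (nat_lit 3) (nat_lit 4) (nat_lit 1) (nat_lit 4) (nat_lit 383) (nat_lit 282) (nat_lit 235)))) (XT.nd (nat_lit 156) (nat_lit 0) (nat_lit 0) (XT.nd (nat_lit 78) (nat_lit 0) (nat_lit 0) (XT.lf (nat_lit 0) (nat_lit 236061941421) (nat_lit 152) (nat_lit 109077764509) (nat_lit 0) (nat_lit 233288539243) (nat_lit 1) (nat_lit 5) (nat_lit 3) (nat_lit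 4) (nat_lit 1) (nat_lit 4) (nat_lit 384) (nat_lit 282) (nat_lit 234)) (XT.lf (nat_lit 0) (nat_lit 258233155663) (nat_lit 152) (nat_lit 110733297849) (nat_lit 0) (nat_lit 255454514154) (nat_lit 1) (nat_lit 5) (nat_lit 3) (nat_lit 4) (nat_lit 1) (nat_lit 4) (nat_lit 385) (nat_lit 282) (nat_lit 233))) (XT.nd (nat_lit 78) (nat_lit 0) (nat_lit 0) (XT.lf (nat_lit 0) (nat_lit 282166170438) (nat_lit 152) (nat_lit 112545213022) (nat_lit 0) (nat_lit 279382677696) (nat_lit 1) (nat_lit 5) (nat_lit 3) (nat_lit 4) (nat_lit 1) (nat_lit 4) (nat_lit 386) (nat_lit 282) (nat_lit 232)) (XT.nd (nat_lit 78) (nat_lit 0) (nat_lit 0) (XT.lf (nat_lit 0) (nat_lit 308002811019) (nat_lit 152) (nat_lit 114524247304) (nat_lit 0) (nat_lit 305214826394) (nat_lit 1) (nat_lit 5) (nat_lit 3) (nat_lit 4) (nat_lit 1) (nat_lit 4) (nat_lit 387) (nat_lit 282) (nat_lit 231)) (XT.lf (nat_lit 0) (nat_lit 335896183422) (nat_lit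 152) (nat_lit 116682128305) (nat_lit 0) (nat_lit 333104039647) (nat_lit 1) (nat_lit 5) (nat_lit 3) (nat_lit 4) (nat_lit 1) (nat_lit 4) (nat_lit 388) (nat_lit 282) (nat_lit 230)))))) (XT.nd (nat_lit 390) (nat_lit 0) (nat_lit 0) (XT.nd (nat_lit 156) (nat_lit 0) (nat_lit 0) (XT.nd (nat_lit 78) (nat_lit 0) (nat_lit 0) (XT.lf (nat_lit 0) (nat_lit 366011581708) (nat_lit 152) (nat_lit 119031643468) (nat_lit 0) (nat_lit 363215586868) (nat_lit 1) (nat_lit 5) (nat_lit 3) (nat_lit 4) (nat_lit 1) (nat_lit 4) (nat_lit 389) (nat_lit 282) (nat_lit 229)) (XT.lf (nat_lit 0) (nat_lit 398527467496) (nat_lit 152) (nat_lit 121586715846) (nat_lit 0) (nat_lit 395727906854) (nat_lit 1) (nat_lit 5) (nat_lit 3) (nat_lit 4) (nat_lit 1) (nat_lit 4) (nat_lit 390) (nat_lit 282) (nat_lit 228))) (XT.nd (nat_lit 78) (nat_lit 0) (nat_lit 0) (XT.lf (nat_lit 0) (nat_lit 433636527516) (nat_lit 152) (nat_lit 124362486609)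 (nat_lit 0) (nat_lit 430833665206) (nat_lit 1) (nat_lit 5) (nat_lit 3) (nat_lit 4) (nat_lit 1) (nat_lit 4) (nat_lit 391) (nat_lit 282) (nat_lit 227)) (XT.nd (nat_lit 78) (nat_lit 0) (nat_lit 0) (XT.lf (nat_lit 0) (nat_lit 471546815457) (nat_lit 152) (nat_lit 127375404769) (nat_lit 0) (nat_lit 468740896048) (nat_lit 1) (nat_lit 5) (nat_lit 3) (nat_lit 4) (nat_lit 1) (nat_lit 4) (nat_lit 392) (nat_lit 282) (nat_lit 226)) (XT.lf (nat_lit 0) (nat_lit 512482984877) (nat_lit 152) (nat_lit 130643324655) (nat_lit 0) (nat_lit 509674234820) (nat_lit 1) (nat_lit 5) (nat_lit 3) (nat_lit 4) (nat_lit 1) (nat_lit 4) (nat_lit 393) (nat_lit 282) (nat_lit 225))))) (XT.nd (nat_lit 156) (nat_lit 0) (nat_lit 0) (XT.nd (nat_lit 78) (nat_lit 0) (nat_lit 0) (XT.lf (nat_lit 0) (nat_lit 556687620485) (nat_lit 152) (nat_lit 134185611719) (nat_lit 0) (nat_lit 553876249457) (nat_lit 1) (nat_lit 5) (nat_lit 3) (nat_lit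 4) (nat_lit 1) (nat_lit 4) (nat_lit 394) (nat_lit 282) (nat_lit 224)) (XT.lf (nat_lit 0) (nat_lit 604422675675) (nat_lit 152) (nat_lit 138023257291) (nat_lit 0) (nat_lit 601608877824) (nat_lit 1) (nat_lit 5) (nat_lit 3) (nat_lit 4) (nat_lit 1) (nat_lit 4) (nat_lit 395) (nat_lit 282) (nat_lit 223))) (XT.nd (nat_lit 78) (nat_lit 0) (nat_lit 0) (XT.lf (nat_lit 0) (nat_lit 655971024850) (nat_lit 152) (nat_lit 142179002975) (nat_lit 0) (nat_lit 653154979939) (nat_lit 1) (nat_lit 5) (nat_lit 3) (nat_lit 4) (nat_lit 1) (nat_lit 4) (nat_lit 396) (nat_lit 282) (nat_lit 222)) (XT.nd (nat_lit 78) (nat_lit 0) (nat_lit 0) (XT.lf (nat_lit 0) (nat_lit 711638139709) (nat_lit 152) (nat_lit 146677475412) (nat_lit 0) (nat_lit 708820014187) (nat_lit 1) (nat_lit 5) (nat_lit 3) (nat_lit 4) (nat_lit 1) (nat_lit 4) (nat_lit 397) (nat_lit 282) (nat_lit 221)) (XT.lf (nat_lit 0) (nat_lit 771753899450) (nat_lit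 152) (nat_lit 151545332217) (nat_lit 0) (nat_lit 768933847436) (nat_lit 1) (nat_lit 5) (nat_lit 3) (nat_lit 4) (nat_lit 1) (nat_lit 4) (nat_lit 398) (nat_lit 282) (nat_lit 220))))))))
noncomputable def xc48 : XT := (XT.nd (nat_lit 1404) (nat_lit 0) (nat_lit 0) (XT.nd (nat_lit 702) (nat_lit 0) (nat_lit 0) (XT.nd (nat_lit 312) (nat_lit 0) (nat_lit 0) (XT.nd (nat_lit 156) (nat_lit 0) (nat_lit 0) (XT.nd (nat_lit 78) (nat_lit 0) (nat_lit 0) (XT.lf (nat_lit 0) (nat_lit 836674545612) (nat_lit 152) (nat_lit 156811419947) (nat_lit 0) (nat_lit 833852709810) (nat_lit 1) (nat_lit 5) (nat_lit 3) (nat_lit 4) (nat_lit 1) (nat_lit 4) (nat_lit 399) (nat_lit 282) (nat_lit 219)) (XT.lf (nat_lit 0) (nat_lit 906784793136) (nat_lit 152) (nat_lit 162506945050) (nat_lit 0) (nat_lit 903961305679) (nat_lit 1) (nat_lit 5) (nat_lit 3) (nat_lit 4) (nat_lit 1) (nat_lit 4) (nat_lit 400) (nat_lit 282) (nat_lit 218)))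 (XT.nd (nat_lit 78) (nat_lit 0) (nat_lit 0) (XT.lf (nat_lit 0) (nat_lit 982500110155) (nat_lit 152) (nat_lit 168665658784) (nat_lit 0) (nat_lit 979675093387) (nat_lit 1) (nat_lit 5) (nat_lit 3) (nat_lit 4) (nat_lit 1) (nat_lit 4) (nat_lit 401) (nat_lit 282) (nat_lit 217)) (XT.lf (nat_lit 0) (nat_lit 1064269180030) (nat_lit 152) (nat_lit 175324057231) (nat_lit 0) (nat_lit 1061442747233) (nat_lit 1) (nat_lit 5) (nat_lit 3) (nat_lit 4) (nat_lit 1) (nat_lit 4) (nat_lit 402) (nat_lit 282) (nat_lit 216)))) (XT.nd (nat_lit 156) (nat_lit 0) (nat_lit 0) (XT.nd (nat_lit 78) (nat_lit 0) (nat_lit 0) (XT.lf (nat_lit 0) (nat_lit 1152576560211) (nat_lit 152) (nat_lit 182521597568) (nat_lit 0) (nat_lit 1149748816277) (nat_lit 1) (nat_lit 5) (nat_lit 3) (nat_lit 4) (nat_lit 1) (nat_lit 4) (nat_lit 403) (nat_lit 282) (nat_lit 215)) (XT.lf (nat_lit 0) (nat_lit 1247945553693) (nat_lit 152) (nat_lit 190300931885)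 (nat_lit 0) (nat_lit 1245116595742) (nat_lit 1) (nat_lit 5) (nat_lit 3) (nat_lit 4) (nat_lit 1) (nat_lit 4) (nat_lit 404) (nat_lit 282) (nat_lit 214))) (XT.nd (nat_lit 78) (nat_lit 0) (nat_lit 0) (XT.lf (nat_lit 0) (nat_lit 1350941310066) (nat_lit 152) (nat_lit 198708159941) (nat_lit 0) (nat_lit 1348111228025) (nat_lit 1) (nat_lit 5) (nat_lit 3) (nat_lit 4) (nat_lit 1) (nat_lit 4) (nat_lit 405) (nat_lit 282) (nat_lit 213)) (XT.nd (nat_lit 78) (nat_lit 0) (nat_lit 0) (XT.lf (nat_lit 0) (nat_lit 1462174174552) (nat_lit 152) (nat_lit 207793102347) (nat_lit 0) (nat_lit 1459343051689) (nat_lit 1) (nat_lit 5) (nat_lit 3) (nat_lit 4) (nat_lit 1) (nat_lit 4) (nat_lit 406) (nat_lit 282) (nat_lit 212)) (XT.lf (nat_lit 0) (nat_lit 1582303304869) (nat_lit 152) (nat_lit 217609595798) (nat_lit 0) (nat_lit 1579471218280) (nat_lit 1) (nat_lit 5) (nat_lit 3) (nat_lit 4) (nat_lit 1) (nat_lit 4) (nat_lit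 407) (nat_lit 282) (nat_lit 211)))))) (XT.nd (nat_lit 312) (nat_lit 0) (nat_lit 0) (XT.nd (nat_lit 156) (nat_lit 0) (nat_lit 0) (XT.nd (nat_lit 78) (nat_lit 0) (nat_lit 0) (XT.lf (nat_lit 0) (nat_lit 1712040577342) (nat_lit 152) (nat_lit 228215812107) (nat_lit 0) (nat_lit 1709207598415) (nat_lit 1) (nat_lit 5) (nat_lit 3) (nat_lit 4) (nat_lit 1) (nat_lit 4) (nat_lit 408) (nat_lit 282) (nat_lit 210)) (XT.lf (nat_lit 0) (nat_lit 1852154805440) (nat_lit 152) (nat_lit 239674602928) (nat_lit 0) (nat_lit 1849321000274) (nat_lit 1) (nat_lit 5) (nat_lit 3) (nat_lit 4) (nat_lit 1) (nat_lit 4) (nat_lit 409) (nat_lit 282) (nat_lit 209))) (XT.nd (nat_lit 78) (nat_lit 0) (nat_lit 0) (XT.lf (nat_lit 0) (nat_lit 2003476295698) (nat_lit 152) (nat_lit 252053872204) (nat_lit 0) (nat_lit 2000641725496) (nat_lit 1) (nat_lit 5) (nat_lit 3) (nat_lit 4) (nat_lit 1) (nat_lit 4) (nat_lit 410) (nat_lit 282) (nat_lit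 208)) (XT.lf (nat_lit 0) (nat_lit 2166901768060) (nat_lit 152) (nat_lit 265426978570) (nat_lit 0) (nat_lit 2164066489490) (nat_lit 1) (nat_lit 5) (nat_lit 3) (nat_lit 4) (nat_lit 1) (nat_lit 4) (nat_lit 411) (nat_lit 282) (nat_lit 207)))) (XT.nd (nat_lit 156) (nat_lit 0) (nat_lit 0) (XT.nd (nat_lit 78) (nat_lit 0) (nat_lit 0) (XT.lf (nat_lit 0) (nat_lit 2343399669768) (nat_lit 152) (nat_lit 279873170063) (nat_lit 0) (nat_lit 2340563735303) (nat_lit 1) (nat_lit 5) (nat_lit 3) (nat_lit 4) (nat_lit 1) (nat_lit 4) (nat_lit 412) (nat_lit 282) (nat_lit 206)) (XT.lf (nat_lit 0) (nat_lit 2534015914314) (nat_lit 152) (nat_lit 295478053743) (nat_lit 0) (nat_lit 2531179372539) (nat_lit 1) (nat_lit 5) (nat_lit 3) (nat_lit 4) (nat_lit 1) (nat_lit 4) (nat_lit 413) (nat_lit 282) (nat_lit 205))) (XT.nd (nat_lit 78) (nat_lit 0) (nat_lit 0) (XT.lf (nat_lit 0) (nat_lit 2739880079445) (nat_lit 152) (nat_lit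 312334102995) (nat_lit 0) (nat_lit 2737042975345) (nat_lit 1) (nat_lit 5) (nat_lit 3) (nat_lit 4) (nat_lit 1) (nat_lit 4) (nat_lit 414) (nat_lit 282) (nat_lit 204)) (XT.nd (nat_lit 78) (nat_lit 0) (nat_lit 0) (XT.lf (nat_lit 0) (nat_lit 2962212100952) (nat_lit 152) (nat_lit 330541205519) (nat_lit 0) (nat_lit 2959374476181) (nat_lit 1) (nat_lit 5) (nat_lit 3) (nat_lit 4) (nat_lit 1) (nat_lit 4) (nat_lit 415) (nat_lit 282) (nat_lit 203)) (XT.lf (nat_lit 0) (nat_lit 3202329501927) (nat_lit 152) (nat_lit 350207255255) (nat_lit 0) (nat_lit 3199491395054) (nat_lit 1) (nat_lit 5) (nat_lit 3) (nat_lit 4) (nat_lit 1) (nat_lit 4) (nat_lit 416) (nat_lit 282) (nat_lit 202))))))) (XT.nd (nat_lit 41028) (nat_lit 0) (nat_lit 228) (XT.nd (nat_lit 40638) (nat_lit 0) (nat_lit 608) (XT.nd (nat_lit 40482) (nat_lit 0) (nat_lit 836) (XT.nd (nat_lit 40404) (nat_lit 0) (nat_lit 912) (XT.lf (nat_lit 0) (nat_lit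 3461655200301) (nat_lit 152) (nat_lit 371448791758) (nat_lit 0) (nat_lit 3458816647036) (nat_lit 1) (nat_lit 5) (nat_lit 3) (nat_lit 4) (nat_lit 1) (nat_lit 4) (nat_lit 417) (nat_lit 282) (nat_lit 201)) (XT.lf (nat_lit 0) (nat_lit 1309161930) (nat_lit 152) (nat_lit 6111551202) (nat_lit 0) (nat_lit 1309161930) (nat_lit 13) (nat_lit 5) (nat_lit 15) (nat_lit 4) (nat_lit 13) (nat_lit 4) (nat_lit 334) (nat_lit 283) (nat_lit 283))) (XT.nd (nat_lit 78) (nat_lit 76) (nat_lit 0) (XT.lf (nat_lit 0) (nat_lit 8404965231) (nat_lit 152) (nat_lit 1881452841) (nat_lit 0) (nat_lit 8095412290) (nat_lit 13) (nat_lit 5) (nat_lit 15) (nat_lit 4) (nat_lit 13) (nat_lit 4) (nat_lit 335) (nat_lit 283) (nat_lit 282)) (XT.lf (nat_lit 0) (nat_lit 9195619041) (nat_lit 76) (nat_lit 5391843427) (nat_lit 76) (nat_lit 4795667393) (nat_lit 12) (nat_lit 4) (nat_lit 13) (nat_lit 5) (nat_lit 13) (nat_lit 4) (nat_lit 336)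 (nat_lit 283) (nat_lit 281)))) (XT.nd (nat_lit 156) (nat_lit 76) (nat_lit 0) (XT.nd (nat_lit 78) (nat_lit 0) (nat_lit 0) (XT.lf (nat_lit 0) (nat_lit 243928979) (nat_lit 76) (nat_lit 287559850) (nat_lit 152) (nat_lit 19949861003) (nat_lit 10) (nat_lit 5) (nat_lit 11) (nat_lit 5) (nat_lit 12) (nat_lit 4) (nat_lit 337) (nat_lit 283) (nat_lit 280)) (XT.lf (nat_lit 0) (nat_lit 6152053228) (nat_lit 152) (nat_lit 10368597333) (nat_lit 0) (nat_lit 5126774624) (nat_lit 10) (nat_lit 5) (nat_lit 12) (nat_lit 4) (nat_lit 10) (nat_lit 4) (nat_lit 338) (nat_lit 283) (nat_lit 279))) (XT.nd (nat_lit 78) (nat_lit 76) (nat_lit 0) (XT.lf (nat_lit 0) (nat_lit 11965735366) (nat_lit 152) (nat_lit 231856966) (nat_lit 0) (nat_lit 10729780233) (nat_lit 10) (nat_lit 5) (nat_lit 12) (nat_lit 4) (nat_lit 10) (nat_lit 4) (nat_lit 339) (nat_lit 283) (nat_lit 278)) (XT.nd (nat_lit 78) (nat_lit 0) (nat_lit 0) (XT.lf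 (nat_lit 0) (nat_lit 10778994607) (nat_lit 76) (nat_lit 7480311346) (nat_lit 76) (nat_lit 6049285351) (nat_lit 9) (nat_lit 4) (nat_lit 10) (nat_lit 5) (nat_lit 10) (nat_lit 4) (nat_lit 340) (nat_lit 283) (nat_lit 277)) (XT.lf (nat_lit 0) (nat_lit 22219914798) (nat_lit 76) (nat_lit 2605293461) (nat_lit 76) (nat_lit 993646299) (nat_lit 9) (nat_lit 4) (nat_lit 10) (nat_lit 5) (nat_lit 10) (nat_lit 4) (nat_lit 341) (nat_lit 283) (nat_lit 276)))))) (XT.nd (nat_lit 312) (nat_lit 152) (nat_lit 0) (XT.nd (nat_lit 156) (nat_lit 76) (nat_lit 0) (XT.nd (nat_lit 78) (nat_lit 0) (nat_lit 0) (XT.lf (nat_lit 0) (nat_lit 4249754244) (nat_lit 152) (nat_lit 20588464068) (nat_lit 0) (nat_lit 2602634814) (nat_lit 7) (nat_lit 5) (nat_lit 9) (nat_lit 4) (nat_lit 7) (nat_lit 4) (nat_lit 342) (nat_lit 283) (nat_lit 275)) (XT.lf (nat_lit 0) (nat_lit 9803199308) (nat_lit 152) (nat_lit 11379153591) (nat_lit 0)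 (nat_lit 8012696971) (nat_lit 7) (nat_lit 5) (nat_lit 9) (nat_lit 4) (nat_lit 7) (nat_lit 4) (nat_lit 343) (nat_lit 283) (nat_lit 274))) (XT.nd (nat_lit 78) (nat_lit 76) (nat_lit 0) (XT.lf (nat_lit 0) (nat_lit 15593168082) (nat_lit 152) (nat_lit 1843170836) (nat_lit 0) (nat_lit 13669903795) (nat_lit 7) (nat_lit 5) (nat_lit 9) (nat_lit 4) (nat_lit 7) (nat_lit 4) (nat_lit 344) (nat_lit 283) (nat_lit 273)) (XT.lf (nat_lit 0) (nat_lit 8501261242) (nat_lit 76) (nat_lit 13357165788) (nat_lit 76) (nat_lit 11310973770) (nat_lit 6) (nat_lit 4) (nat_lit 7) (nat_lit 5) (nat_lit 7) (nat_lit 4) (nat_lit 345) (nat_lit 283) (nat_lit 272)))) (XT.nd (nat_lit 156) (nat_lit 152) (nat_lit 0) (XT.nd (nat_lit 78) (nat_lit 0) (nat_lit 0) (XT.lf (nat_lit 0) (nat_lit 19407986409) (nat_lit 76) (nat_lit 9080301544) (nat_lit 76) (nat_lit 6920287552) (nat_lit 6) (nat_lit 4) (nat_lit 7) (nat_lit 5) (nat_lit 7) (nat_lit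 4) (nat_lit 346) (nat_lit 283) (nat_lit 271)) (XT.lf (nat_lit 0) (nat_lit 30844579000) (nat_lit 76) (nat_lit 4630797362) (nat_lit 76) (nat_lit 2365392653) (nat_lit 6) (nat_lit 4) (nat_lit 7) (nat_lit 5) (nat_lit 7) (nat_lit 4) (nat_lit 347) (nat_lit 283) (nat_lit 270))) (XT.nd (nat_lit 78) (nat_lit 0) (nat_lit 0) (XT.lf (nat_lit 0) (nat_lit 2324333068) (nat_lit 152) (nat_lit 38010082418) (nat_lit 0) (nat_lit 136380563) (nat_lit 4) (nat_lit 5) (nat_lit 6) (nat_lit 4) (nat_lit 4) (nat_lit 4) (nat_lit 348) (nat_lit 283) (nat_lit 269)) (XT.nd (nat_lit 78) (nat_lit 0) (nat_lit 0) (XT.lf (nat_lit 0) (nat_lit 7414206306) (nat_lit 152) (nat_lit 30737316954) (nat_lit 0) (nat_lit 5142591252) (nat_lit 4) (nat_lit 5) (nat_lit 6) (nat_lit 4) (nat_lit 4) (nat_lit 4) (nat_lit 349) (nat_lit 283) (nat_lit 268)) (XT.lf (nat_lit 0) (nat_lit 12759625783) (nat_lit 152) (nat_lit 23185282213) (nat_lit 0) (nat_lit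 10410545406) (nat_lit 4) (nat_lit 5) (nat_lit 6) (nat_lit 4) (nat_lit 4) (nat_lit 4) (nat_lit 350) (nat_lit 283) (nat_lit 267))))))))
noncomputable def xc49 : XT := (XT.nd (nat_lit 1404) (nat_lit 0) (nat_lit 0) (XT.nd (nat_lit 702) (nat_lit 152) (nat_lit 0) (XT.nd (nat_lit 312) (nat_lit 0) (nat_lit 0) (XT.nd (nat_lit 156) (nat_lit 76) (nat_lit 0) (XT.nd (nat_lit 78) (nat_lit 0) (nat_lit 0) (XT.lf (nat_lit 0) (nat_lit 18392268058) (nat_lit 152) (nat_lit 15309225399) (nat_lit 0) (nat_lit 15971460531) (nat_lit 4) (nat_lit 5) (nat_lit 6) (nat_lit 4) (nat_lit 4) (nat_lit 4) (nat_lit 351) (nat_lit 283) (nat_lit 266)) (XT.lf (nat_lit 0) (nat_lit 24345511754) (nat_lit 152) (nat_lit 7062473580) (nat_lit 0) (nat_lit 21858290198) (nat_lit 4) (nat_lit 5) (nat_lit 6) (nat_lit 4) (nat_lit 4) (nat_lit 4) (nat_lit 352) (nat_lit 283) (nat_lit 265))) (XT.nd (nat_lit 78) (nat_lit 0) (nat_lit 0) (XT.lf (nat_lit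 0) (nat_lit 1688298406) (nat_lit 76) (nat_lit 29006940561) (nat_lit 76) (nat_lit 26458224534) (nat_lit 3) (nat_lit 4) (nat_lit 4) (nat_lit 5) (nat_lit 4) (nat_lit 4) (nat_lit 353) (nat_lit 283) (nat_lit 264)) (XT.lf (nat_lit 0) (nat_lit 11306686173) (nat_lit 76) (nat_lit 26322266147) (nat_lit 76) (nat_lit 23716610796) (nat_lit 3) (nat_lit 4) (nat_lit 4) (nat_lit 5) (nat_lit 4) (nat_lit 4) (nat_lit 354) (nat_lit 283) (nat_lit 263)))) (XT.nd (nat_lit 156) (nat_lit 0) (nat_lit 0) (XT.nd (nat_lit 78) (nat_lit 0) (nat_lit 0) (XT.lf (nat_lit 0) (nat_lit 21477790231) (nat_lit 76) (nat_lit 23531153455) (nat_lit 76) (nat_lit 20872776506) (nat_lit 3) (nat_lit 4) (nat_lit 4) (nat_lit 5) (nat_lit 4) (nat_lit 4) (nat_lit 355) (nat_lit 283) (nat_lit 262)) (XT.lf (nat_lit 0) (nat_lit 32261883790) (nat_lit 76) (nat_lit 20617062556) (nat_lit 76) (nat_lit 17909869313) (nat_lit 3) (nat_lit 4) (nat_lit 4)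 (nat_lit 5) (nat_lit 4) (nat_lit 4) (nat_lit 356) (nat_lit 283) (nat_lit 261))) (XT.nd (nat_lit 78) (nat_lit 0) (nat_lit 0) (XT.lf (nat_lit 0) (nat_lit 43722872588) (nat_lit 76) (nat_lit 17562724764) (nat_lit 76) (nat_lit 14810331250) (nat_lit 3) (nat_lit 4) (nat_lit 4) (nat_lit 5) (nat_lit 4) (nat_lit 4) (nat_lit 357) (nat_lit 283) (nat_lit 260)) (XT.nd (nat_lit 78) (nat_lit 0) (nat_lit 0) (XT.lf (nat_lit 0) (nat_lit 55928673597) (nat_lit 76) (nat_lit 14350040300) (nat_lit 76) (nat_lit 11555794682) (nat_lit 3) (nat_lit 4) (nat_lit 4) (nat_lit 5) (nat_lit 4) (nat_lit 4) (nat_lit 358) (nat_lit 283) (nat_lit 259)) (XT.lf (nat_lit 0) (nat_lit 68951617489) (nat_lit 76) (nat_lit 10959971034) (nat_lit 76) (nat_lit 8126973468) (nat_lit 3) (nat_lit 4) (nat_lit 4) (nat_lit 5) (nat_lit 4) (nat_lit 4) (nat_lit 359) (nat_lit 283) (nat_lit 258)))))) (XT.nd (nat_lit 312) (nat_lit 0) (nat_lit 0) (XT.nd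 (nat_lit 156) (nat_lit 152) (nat_lit 0) (XT.nd (nat_lit 78) (nat_lit 0) (nat_lit 0) (XT.lf (nat_lit 0) (nat_lit 82868877265) (nat_lit 76) (nat_lit 7372427666) (nat_lit 76) (nat_lit 4503548667) (nat_lit 3) (nat_lit 4) (nat_lit 4) (nat_lit 5) (nat_lit 4) (nat_lit 4) (nat_lit 360) (nat_lit 283) (nat_lit 257)) (XT.lf (nat_lit 0) (nat_lit 97762925575) (nat_lit 76) (nat_lit 3566150679) (nat_lit 76) (nat_lit 664048131) (nat_lit 3) (nat_lit 4) (nat_lit 4) (nat_lit 5) (nat_lit 4) (nat_lit 4) (nat_lit 361) (nat_lit 283) (nat_lit 256))) (XT.nd (nat_lit 78) (nat_lit 0) (nat_lit 0) (XT.lf (nat_lit 0) (nat_lit 3356249560) (nat_lit 152) (nat_lit 105813853499) (nat_lit 0) (nat_lit 640633732) (nat_lit 1) (nat_lit 5) (nat_lit 3) (nat_lit 4) (nat_lit 1) (nat_lit 4) (nat_lit 362) (nat_lit 283) (nat_lit 255)) (XT.lf (nat_lit 0) (nat_lit 7808911443) (nat_lit 152) (nat_lit 105364823905) (nat_lit 0) (nat_lit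 5066921691) (nat_lit 1) (nat_lit 5) (nat_lit 3) (nat_lit 4) (nat_lit 1) (nat_lit 4) (nat_lit 363) (nat_lit 283) (nat_lit 254)))) (XT.nd (nat_lit 156) (nat_lit 0) (nat_lit 0) (XT.nd (nat_lit 78) (nat_lit 0) (nat_lit 0) (XT.lf (nat_lit 0) (nat_lit 12557900736) (nat_lit 152) (nat_lit 105000377726) (nat_lit 0) (nat_lit 9791490684) (nat_lit 1) (nat_lit 5) (nat_lit 3) (nat_lit 4) (nat_lit 1) (nat_lit 4) (nat_lit 364) (nat_lit 283) (nat_lit 253)) (XT.lf (nat_lit 0) (nat_lit 17631359597) (nat_lit 152) (nat_lit 104718355281) (nat_lit 0) (nat_lit 14842338156) (nat_lit 1) (nat_lit 5) (nat_lit 3) (nat_lit 4) (nat_lit 1) (nat_lit 4) (nat_lit 365) (nat_lit 283) (nat_lit 252))) (XT.nd (nat_lit 78) (nat_lit 0) (nat_lit 0) (XT.lf (nat_lit 0) (nat_lit 23059352969) (nat_lit 152) (nat_lit 104517085327) (nat_lit 0) (nat_lit 20249395055) (nat_lit 1) (nat_lit 5) (nat_lit 3) (nat_lit 4) (nat_lit 1) (nat_lit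 4) (nat_lit 366) (nat_lit 283) (nat_lit 251)) (XT.nd (nat_lit 78) (nat_lit 0) (nat_lit 0) (XT.lf (nat_lit 0) (nat_lit 28874046736) (nat_lit 152) (nat_lit 104395375153) (nat_lit 0) (nat_lit 26044703201) (nat_lit 1) (nat_lit 5) (nat_lit 3) (nat_lit 4) (nat_lit 1) (nat_lit 4) (nat_lit 367) (nat_lit 283) (nat_lit 250)) (XT.lf (nat_lit 0) (nat_lit 35109898345) (nat_lit 152) (nat_lit 104352503514) (nat_lit 0) (nat_lit 32262605160) (nat_lit 1) (nat_lit 5) (nat_lit 3) (nat_lit 4) (nat_lit 1) (nat_lit 4) (nat_lit 368) (nat_lit 283) (nat_lit 249))))))) (XT.nd (nat_lit 702) (nat_lit 0) (nat_lit 0) (XT.nd (nat_lit 312) (nat_lit 0) (nat_lit 0) (XT.nd (nat_lit 156) (nat_lit 0) (nat_lit 0) (XT.nd (nat_lit 78) (nat_lit 0) (nat_lit 0) (XT.lf (nat_lit 0) (nat_lit 41803860989) (nat_lit 152) (nat_lit 104388216354) (nat_lit 0) (nat_lit 38939947758) (nat_lit 1) (nat_lit 5) (nat_lit 3) (nat_lit 4) (nat_lit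 1) (nat_lit 4) (nat_lit 369) (nat_lit 283) (nat_lit 248)) (XT.lf (nat_lit 0) (nat_lit 48995602596) (nat_lit 152) (nat_lit 104502725306) (nat_lit 0) (nat_lit 46116300433) (nat_lit 1) (nat_lit 5) (nat_lit 3) (nat_lit 4) (nat_lit 1) (nat_lit 4) (nat_lit 370) (nat_lit 283) (nat_lit 247))) (XT.nd (nat_lit 78) (nat_lit 0) (nat_lit 0) (XT.lf (nat_lit 0) (nat_lit 56727740893) (nat_lit 152) (nat_lit 104696708941) (nat_lit 0) (nat_lit 53834189719) (nat_lit 1) (nat_lit 5) (nat_lit 3) (nat_lit 4) (nat_lit 1) (nat_lit 4) (nat_lit 371) (nat_lit 283) (nat_lit 246)) (XT.lf (nat_lit 0) (nat_lit 65046095959) (nat_lit 152) (nat_lit 104971316792) (nat_lit 0) (nat_lit 62139351257) (nat_lit 1) (nat_lit 5) (nat_lit 3) (nat_lit 4) (nat_lit 1) (nat_lit 4) (nat_lit 372) (nat_lit 283) (nat_lit 245)))) (XT.nd (nat_lit 156) (nat_lit 0) (nat_lit 0) (XT.nd (nat_lit 78) (nat_lit 0) (nat_lit 0) (XT.lf (nat_lit 0) (nat_lit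 73999961751) (nat_lit 152) (nat_lit 105328176166) (nat_lit 0) (nat_lit 71081000819) (nat_lit 1) (nat_lit 5) (nat_lit 3) (nat_lit 4) (nat_lit 1) (nat_lit 4) (nat_lit 373) (nat_lit 283) (nat_lit 244)) (XT.lf (nat_lit 0) (nat_lit 83642398213) (nat_lit 152) (nat_lit 105769401783) (nat_lit 0) (nat_lit 80712125957) (nat_lit 1) (nat_lit 5) (nat_lit 3) (nat_lit 4) (nat_lit 1) (nat_lit 4) (nat_lit 374) (nat_lit 283) (nat_lit 243))) (XT.nd (nat_lit 78) (nat_lit 0) (nat_lit 0) (XT.lf (nat_lit 0) (nat_lit 94030545711) (nat_lit 152) (nat_lit 106297608314) (nat_lit 0) (nat_lit 91089800006) (nat_lit 1) (nat_lit 5) (nat_lit 3) (nat_lit 4) (nat_lit 1) (nat_lit 4) (nat_lit 375) (nat_lit 283) (nat_lit 242)) (XT.nd (nat_lit 78) (nat_lit 0) (nat_lit 0) (XT.lf (nat_lit 0) (nat_lit 105225963636) (nat_lit 152) (nat_lit 106915925872) (nat_lit 0) (nat_lit 102275520294) (nat_lit 1) (nat_lit 5) (nat_lit 3) (nat_lit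 4) (nat_lit 1) (nat_lit 4) (nat_lit 376) (nat_lit 283) (nat_lit 241)) (XT.lf (nat_lit 0) (nat_lit 117294995205) (nat_lit 152) (nat_lit 107628018561) (nat_lit 0) (nat_lit 114335572570) (nat_lit 1) (nat_lit 5) (nat_lit 3) (nat_lit 4) (nat_lit 1) (nat_lit 4) (nat_lit 377) (nat_lit 283) (nat_lit 240)))))) (XT.nd (nat_lit 312) (nat_lit 0) (nat_lit 0) (XT.nd (nat_lit 156) (nat_lit 0) (nat_lit 0) (XT.nd (nat_lit 78) (nat_lit 0) (nat_lit 0) (XT.lf (nat_lit 0) (nat_lit 130309160607) (nat_lit 152) (nat_lit 108438106191) (nat_lit 0) (nat_lit 127341423810) (nat_lit 1) (nat_lit 5) (nat_lit 3) (nat_lit 4) (nat_lit 1) (nat_lit 4) (nat_lit 378) (nat_lit 283) (nat_lit 239)) (XT.lf (nat_lit 0) (nat_lit 144345580820) (nat_lit 152) (nat_lit 109350989278) (nat_lit 0) (nat_lit 141370145727) (nat_lit 1) (nat_lit 5) (nat_lit 3) (nat_lit 4) (nat_lit 1) (nat_lit 4) (nat_lit 379) (nat_lit 283) (nat_lit 238))) (XT.nd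 (nat_lit 78) (nat_lit 0) (nat_lit 0) (XT.lf (nat_lit 0) (nat_lit 159487434632) (nat_lit 152) (nat_lit 110372077503) (nat_lit 0) (nat_lit 156504871486) (nat_lit 1) (nat_lit 5) (nat_lit 3) (nat_lit 4) (nat_lit 1) (nat_lit 4) (nat_lit 380) (nat_lit 283) (nat_lit 237)) (XT.lf (nat_lit 0) (nat_lit 175824451547) (nat_lit 152) (nat_lit 111507421757) (nat_lit 0) (nat_lit 172835288352) (nat_lit 1) (nat_lit 5) (nat_lit 3) (nat_lit 4) (nat_lit 1) (nat_lit 4) (nat_lit 381) (nat_lit 283) (nat_lit 236)))) (XT.nd (nat_lit 156) (nat_lit 0) (nat_lit 0) (XT.nd (nat_lit 78) (nat_lit 0) (nat_lit 0) (XT.lf (nat_lit 0) (nat_lit 193453443516) (nat_lit 152) (nat_lit 112763750007) (nat_lit 0) (nat_lit 190458169164) (nat_lit 1) (nat_lit 5) (nat_lit 3) (nat_lit 4) (nat_lit 1) (nat_lit 4) (nat_lit 382) (nat_lit 283) (nat_lit 235)) (XT.lf (nat_lit 0) (nat_lit 212478878641) (nat_lit 152) (nat_lit 114148507160) (nat_lit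 0) (nat_lit 209477945811) (nat_lit 1) (nat_lit 5) (nat_lit 3) (nat_lit 4) (nat_lit 1) (nat_lit 4) (nat_lit 383) (nat_lit 283) (nat_lit 234))) (XT.nd (nat_lit 78) (nat_lit 0) (nat_lit 0) (XT.lf (nat_lit 0) (nat_lit 233013500240) (nat_lit 152) (nat_lit 115669899186) (nat_lit 0) (nat_lit 230007328078) (nat_lit 1) (nat_lit 5) (nat_lit 3) (nat_lit 4) (nat_lit 1) (nat_lit 4) (nat_lit 384) (nat_lit 283) (nat_lit 233)) (XT.nd (nat_lit 78) (nat_lit 0) (nat_lit 0) (XT.lf (nat_lit 0) (nat_lit 255178994960) (nat_lit 152) (nat_lit 117336941740) (nat_lit 0) (nat_lit 252167971565) (nat_lit 1) (nat_lit 5) (nat_lit 3) (nat_lit 4) (nat_lit 1) (nat_lit 4) (nat_lit 385) (nat_lit 283) (nat_lit 232)) (XT.lf (nat_lit 0) (nat_lit 279106713881) (nat_lit 152) (nat_lit 119159513593) (nat_lit 0) (nat_lit 276091198604) (nat_lit 1) (nat_lit 5) (nat_lit 3) (nat_lit 4) (nat_lit 1) (nat_lit 4) (nat_lit 386) (nat_lit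 283) (nat_lit 231))))))))
noncomputable def xc50 : XT := (XT.nd (nat_lit 1404) (nat_lit 0) (nat_lit 0) (XT.nd (nat_lit 702) (nat_lit 0) (nat_lit 0) (XT.nd (nat_lit 312) (nat_lit 0) (nat_lit 0) (XT.nd (nat_lit 156) (nat_lit 0) (nat_lit 0) (XT.nd (nat_lit 78) (nat_lit 0) (nat_lit 0) (XT.lf (nat_lit 0) (nat_lit 304938450893) (nat_lit 152) (nat_lit 121148415171) (nat_lit 0) (nat_lit 301918776465) (nat_lit 1) (nat_lit 5) (nat_lit 3) (nat_lit 4) (nat_lit 1) (nat_lit 4) (nat_lit 387) (nat_lit 283) (nat_lit 230)) (XT.lf (nat_lit 0) (nat_lit 332827282955) (nat_lit 152) (nat_lit 123315432558) (nat_lit 0) (nat_lit 329803757462) (nat_lit 1) (nat_lit 5) (nat_lit 3) (nat_lit 4) (nat_lit 1) (nat_lit 4) (nat_lit 388) (nat_lit 283) (nat_lit 229))) (XT.nd (nat_lit 78) (nat_lit 0) (nat_lit 0) (XT.lf (nat_lit 0) (nat_lit 362938477221) (nat_lit 152) (nat_lit 125673407337) (nat_lit 0) (nat_lit 359911385927)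 (nat_lit 1) (nat_lit 5) (nat_lit 3) (nat_lit 4) (nat_lit 1) (nat_lit 4) (nat_lit 389) (nat_lit 283) (nat_lit 228)) (XT.lf (nat_lit 0) (nat_lit 395450470398) (nat_lit 152) (nat_lit 128236312694) (nat_lit 0) (nat_lit 392420077436) (nat_lit 1) (nat_lit 5) (nat_lit 3) (nat_lit 4) (nat_lit 1) (nat_lit 4) (nat_lit 390) (nat_lit 283) (nat_lit 227)))) (XT.nd (nat_lit 156) (nat_lit 0) (nat_lit 0) (XT.nd (nat_lit 78) (nat_lit 0) (nat_lit 0) (XT.lf (nat_lit 0) (nat_lit 430555926148) (nat_lit 152) (nat_lit 131019336214) (nat_lit 0) (nat_lit 427522476086) (nat_lit 1) (nat_lit 5) (nat_lit 3) (nat_lit 4) (nat_lit 1) (nat_lit 4) (nat_lit 391) (nat_lit 283) (nat_lit 226)) (XT.lf (nat_lit 0) (nat_lit 468462876802) (nat_lit 152) (nat_lit 134038969890) (nat_lit 0) (nat_lit 465426596093) (nat_lit 1) (nat_lit 5) (nat_lit 3) (nat_lit 4) (nat_lit 1) (nat_lit 4) (nat_lit 392) (nat_lit 283) (nat_lit 225))) (XT.nd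 (nat_lit 78) (nat_lit 0) (nat_lit 0) (XT.lf (nat_lit 0) (nat_lit 509395956143) (nat_lit 152) (nat_lit 137313107847) (nat_lit 0) (nat_lit 506357054463) (nat_lit 1) (nat_lit 5) (nat_lit 3) (nat_lit 4) (nat_lit 1) (nat_lit 4) (nat_lit 393) (nat_lit 283) (nat_lit 224)) (XT.nd (nat_lit 78) (nat_lit 0) (nat_lit 0) (XT.lf (nat_lit 0) (nat_lit 553597730565) (nat_lit 152) (nat_lit 140861152384) (nat_lit 0) (nat_lit 550556402061) (nat_lit 1) (nat_lit 5) (nat_lit 3) (nat_lit 4) (nat_lit 1) (nat_lit 4) (nat_lit 394) (nat_lit 283) (nat_lit 223)) (XT.lf (nat_lit 0) (nat_lit 601330136510) (nat_lit 152) (nat_lit 144704128949) (nat_lit 0) (nat_lit 598286560947) (nat_lit 1) (nat_lit 5) (nat_lit 3) (nat_lit 4) (nat_lit 1) (nat_lit 4) (nat_lit 395) (nat_lit 283) (nat_lit 222)))))) (XT.nd (nat_lit 312) (nat_lit 0) (nat_lit 0) (XT.nd (nat_lit 156) (nat_lit 0) (nat_lit 0) (XT.nd (nat_lit 78) (nat_lit 0) (nat_lit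 0) (XT.lf (nat_lit 0) (nat_lit 652876032680) (nat_lit 152) (nat_lit 148864810738) (nat_lit 0) (nat_lit 649830376506) (nat_lit 1) (nat_lit 5) (nat_lit 3) (nat_lit 4) (nat_lit 1) (nat_lit 4) (nat_lit 396) (nat_lit 283) (nat_lit 221)) (XT.lf (nat_lit 0) (nat_lit 708540876237) (nat_lit 152) (nat_lit 153367853643) (nat_lit 0) (nat_lit 705493293572) (nat_lit 1) (nat_lit 5) (nat_lit 3) (nat_lit 4) (nat_lit 1) (nat_lit 4) (nat_lit 397) (nat_lit 283) (nat_lit 220))) (XT.nd (nat_lit 78) (nat_lit 0) (nat_lit 0) (XT.lf (nat_lit 0) (nat_lit 768654532921) (nat_lit 152) (nat_lit 158239942361) (nat_lit 0) (nat_lit 765605166468) (nat_lit 1) (nat_lit 5) (nat_lit 3) (nat_lit 4) (nat_lit 1) (nat_lit 4) (nat_lit 398) (nat_lit 283) (nat_lit 219)) (XT.lf (nat_lit 0) (nat_lit 833573231809) (nat_lit 152) (nat_lit 163509948531) (nat_lit 0) (nat_lit 830522213699) (nat_lit 1) (nat_lit 5) (nat_lit 3) (nat_lit 4)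 (nat_lit 1) (nat_lit 4) (nat_lit 399) (nat_lit 283) (nat_lit 218)))) (XT.nd (nat_lit 156) (nat_lit 0) (nat_lit 0) (XT.nd (nat_lit 78) (nat_lit 0) (nat_lit 0) (XT.lf (nat_lit 0) (nat_lit 903681676301) (nat_lit 152) (nat_lit 169209101818) (nat_lit 0) (nat_lit 900629128880) (nat_lit 1) (nat_lit 5) (nat_lit 3) (nat_lit 4) (nat_lit 1) (nat_lit 4) (nat_lit 400) (nat_lit 283) (nat_lit 217)) (XT.lf (nat_lit 0) (nat_lit 979395323847) (nat_lit 152) (nat_lit 175371174982) (nat_lit 0) (nat_lit 976341360397) (nat_lit 1) (nat_lit 5) (nat_lit 3) (nat_lit 4) (nat_lit 1) (nat_lit 4) (nat_lit 401) (nat_lit 283) (nat_lit 216))) (XT.nd (nat_lit 78) (nat_lit 0) (nat_lit 0) (XT.lf (nat_lit 0) (nat_lit 1061162847912) (nat_lit 152) (nat_lit 182032684013) (nat_lit 0) (nat_lit 1058107573325) (nat_lit 1) (nat_lit 5) (nat_lit 3) (nat_lit 4) (nat_lit 1) (nat_lit 4) (nat_lit 402) (nat_lit 283) (nat_lit 215)) (XT.nd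 (nat_lit 78) (nat_lit 0) (nat_lit 0) (XT.lf (nat_lit 0) (nat_lit 1149468796788) (nat_lit 152) (nat_lit 189233104520) (nat_lit 0) (nat_lit 1146412308185) (nat_lit 1) (nat_lit 5) (nat_lit 3) (nat_lit 4) (nat_lit 1) (nat_lit 4) (nat_lit 403) (nat_lit 283) (nat_lit 214)) (XT.lf (nat_lit 0) (nat_lit 1244836464987) (nat_lit 152) (nat_lit 197015105661) (nat_lit 0) (nat_lit 1241778852295) (nat_lit 1) (nat_lit 5) (nat_lit 3) (nat_lit 4) (nat_lit 1) (nat_lit 4) (nat_lit 404) (nat_lit 283) (nat_lit 213))))))) (XT.nd (nat_lit 702) (nat_lit 0) (nat_lit 0) (XT.nd (nat_lit 312) (nat_lit 0) (nat_lit 0) (XT.nd (nat_lit 156) (nat_lit 0) (nat_lit 0) (XT.nd (nat_lit 78) (nat_lit 0) (nat_lit 0) (XT.lf (nat_lit 0) (nat_lit 1347830994247) (nat_lit 152) (nat_lit 205424802998) (nat_lit 0) (nat_lit 1344772340731) (nat_lit 1) (nat_lit 5) (nat_lit 3) (nat_lit 4) (nat_lit 1) (nat_lit 4) (nat_lit 405) (nat_lit 283)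 (nat_lit 212)) (XT.lf (nat_lit 0) (nat_lit 1459062722517) (nat_lit 152) (nat_lit 214512031775) (nat_lit 0) (nat_lit 1456003105276) (nat_lit 1) (nat_lit 5) (nat_lit 3) (nat_lit 4) (nat_lit 1) (nat_lit 4) (nat_lit 406) (nat_lit 283) (nat_lit 211))) (XT.nd (nat_lit 78) (nat_lit 0) (nat_lit 0) (XT.lf (nat_lit 0) (nat_lit 1579190800782) (nat_lit 152) (nat_lit 224330642237) (nat_lit 0) (nat_lit 1576130291202) (nat_lit 1) (nat_lit 5) (nat_lit 3) (nat_lit 4) (nat_lit 1) (nat_lit 4) (nat_lit 407) (nat_lit 283) (nat_lit 210)) (XT.lf (nat_lit 0) (nat_lit 1708927099133) (nat_lit 152) (nat_lit 234938818742) (nat_lit 0) (nat_lit 1705865763315) (nat_lit 1) (nat_lit 5) (nat_lit 3) (nat_lit 4) (nat_lit 1) (nat_lit 4) (nat_lit 408) (nat_lit 283) (nat_lit 209)))) (XT.nd (nat_lit 156) (nat_lit 0) (nat_lit 0) (XT.nd (nat_lit 78) (nat_lit 0) (nat_lit 0) (XT.lf (nat_lit 0) (nat_lit 1849040425266) (nat_lit 152)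 (nat_lit 246399424558) (nat_lit 0) (nat_lit 1845978324411) (nat_lit 1) (nat_lit 5) (nat_lit 3) (nat_lit 4) (nat_lit 1) (nat_lit 4) (nat_lit 409) (nat_lit 283) (nat_lit 208)) (XT.lf (nat_lit 0) (nat_lit 2000361080372) (nat_lit 152) (nat_lit 258780374386) (nat_lit 0) (nat_lit 1997298271150) (nat_lit 1) (nat_lit 5) (nat_lit 3) (nat_lit 4) (nat_lit 1) (nat_lit 4) (nat_lit 410) (nat_lit 283) (nat_lit 207))) (XT.nd (nat_lit 78) (nat_lit 0) (nat_lit 0) (XT.lf (nat_lit 0) (nat_lit 2163785779444) (nat_lit 152) (nat_lit 272155036818) (nat_lit 0) (nat_lit 2160722314327) (nat_lit 1) (nat_lit 5) (nat_lit 3) (nat_lit 4) (nat_lit 1) (nat_lit 4) (nat_lit 411) (nat_lit 283) (nat_lit 206)) (XT.nd (nat_lit 78) (nat_lit 0) (nat_lit 0) (XT.lf (nat_lit 0) (nat_lit 2340282965143) (nat_lit 152) (nat_lit 286602669112) (nat_lit 0) (nat_lit 2337218892716) (nat_lit 1) (nat_lit 5) (nat_lit 3) (nat_lit 4) (nat_lit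 1) (nat_lit 4) (nat_lit 412) (nat_lit 283) (nat_lit 205)) (XT.lf (nat_lit 0) (nat_lit 2530898546718) (nat_lit 152) (nat_lit 302208886868) (nat_lit 0) (nat_lit 2527833911966) (nat_lit 1) (nat_lit 5) (nat_lit 3) (nat_lit 4) (nat_lit 1) (nat_lit 4) (nat_lit 413) (nat_lit 283) (nat_lit 204)))))) (XT.nd (nat_lit 40482) (nat_lit 0) (nat_lit 836) (XT.nd (nat_lit 156) (nat_lit 0) (nat_lit 0) (XT.nd (nat_lit 78) (nat_lit 0) (nat_lit 0) (XT.lf (nat_lit 0) (nat_lit 2736762097986) (nat_lit 152) (nat_lit 319066171376) (nat_lit 0) (nat_lit 2733696942564) (nat_lit 1) (nat_lit 5) (nat_lit 3) (nat_lit 4) (nat_lit 1) (nat_lit 4) (nat_lit 414) (nat_lit 283) (nat_lit 203)) (XT.lf (nat_lit 0) (nat_lit 2959093551103) (nat_lit 152) (nat_lit 337274417655) (nat_lit 0) (nat_lit 2956027913577) (nat_lit 1) (nat_lit 5) (nat_lit 3) (nat_lit 4) (nat_lit 1) (nat_lit 4) (nat_lit 415) (nat_lit 283) (nat_lit 202))) (XT.nd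 (nat_lit 78) (nat_lit 0) (nat_lit 0) (XT.lf (nat_lit 0) (nat_lit 3199210425790) (nat_lit 152) (nat_lit 356941526423) (nat_lit 0) (nat_lit 3196144341873) (nat_lit 1) (nat_lit 5) (nat_lit 3) (nat_lit 4) (nat_lit 1) (nat_lit 4) (nat_lit 416) (nat_lit 283) (nat_lit 201)) (XT.lf (nat_lit 0) (nat_lit 3458535636860) (nat_lit 152) (nat_lit 378184043511) (nat_lit 0) (nat_lit 3455469139618) (nat_lit 1) (nat_lit 5) (nat_lit 3) (nat_lit 4) (nat_lit 1) (nat_lit 4) (nat_lit 417) (nat_lit 283) (nat_lit 200)))) (XT.nd (nat_lit 156) (nat_lit 228) (nat_lit 0) (XT.nd (nat_lit 78) (nat_lit 0) (nat_lit 0) (XT.lf (nat_lit 0) (nat_lit 37627009) (nat_lit 76) (nat_lit 3933452781) (nat_lit 76) (nat_lit 3933452781) (nat_lit 15) (nat_lit 4) (nat_lit 16) (nat_lit 5) (nat_lit 16) (nat_lit 4) (nat_lit 332) (nat_lit 284) (nat_lit 284)) (XT.lf (nat_lit 0) (nat_lit 11030149840) (nat_lit 76) (nat_lit 2968856369) (nat_lit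 76) (nat_lit 2607793819) (nat_lit 15) (nat_lit 4) (nat_lit 16) (nat_lit 5) (nat_lit 16) (nat_lit 4) (nat_lit 333) (nat_lit 284) (nat_lit 283))) (XT.nd (nat_lit 78) (nat_lit 76) (nat_lit 0) (XT.lf (nat_lit 0) (nat_lit 2802982995) (nat_lit 152) (nat_lit 12509671968) (nat_lit 0) (nat_lit 2159112878) (nat_lit 13) (nat_lit 5) (nat_lit 15) (nat_lit 4) (nat_lit 13) (nat_lit 4) (nat_lit 334) (nat_lit 284) (nat_lit 282)) (XT.nd (nat_lit 78) (nat_lit 76) (nat_lit 0) (XT.lf (nat_lit 0) (nat_lit 8451052105) (nat_lit 152) (nat_lit 2433364593) (nat_lit 0) (nat_lit 7520558895) (nat_lit 13) (nat_lit 5) (nat_lit 15) (nat_lit 4) (nat_lit 13) (nat_lit 4) (nat_lit 335) (nat_lit 284) (nat_lit 281)) (XT.lf (nat_lit 0) (nat_lit 8356019930) (nat_lit 76) (nat_lit 6129029384) (nat_lit 76) (nat_lit 4933144421) (nat_lit 12) (nat_lit 4) (nat_lit 13) (nat_lit 5) (nat_lit 13) (nat_lit 4) (nat_lit 336) (nat_lit 284)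 (nat_lit 280))))))))
noncomputable def xc51 : XT := (XT.nd (nat_lit 1404) (nat_lit 152) (nat_lit 0) (XT.nd (nat_lit 702) (nat_lit 228) (nat_lit 0) (XT.nd (nat_lit 312) (nat_lit 228) (nat_lit 0) (XT.nd (nat_lit 156) (nat_lit 76) (nat_lit 0) (XT.nd (nat_lit 78) (nat_lit 76) (nat_lit 0) (XT.lf (nat_lit 0) (nat_lit 267190507) (nat_lit 152) (nat_lit 885861811) (nat_lit 76) (nat_lit 19374354900) (nat_lit 11) (nat_lit 5) (nat_lit 13) (nat_lit 5) (nat_lit 12) (nat_lit 4) (nat_lit 337) (nat_lit 284) (nat_lit 279)) (XT.lf (nat_lit 0) (nat_lit 5717008999) (nat_lit 152) (nat_lit 11818662996) (nat_lit 0) (nat_lit 4171500925) (nat_lit 10) (nat_lit 5) (nat_lit 12) (nat_lit 4) (nat_lit 10) (nat_lit 4) (nat_lit 338) (nat_lit 284) (nat_lit 278))) (XT.nd (nat_lit 78) (nat_lit 76) (nat_lit 0) (XT.lf (nat_lit 0) (nat_lit 11413171329) (nat_lit 152) (nat_lit 1910786565) (nat_lit 0) (nat_lit 9672592393) (nat_lit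 10) (nat_lit 5) (nat_lit 12) (nat_lit 4) (nat_lit 10) (nat_lit 4) (nat_lit 339) (nat_lit 284) (nat_lit 277)) (XT.lf (nat_lit 0) (nat_lit 8788585637) (nat_lit 76) (nat_lit 8761472257) (nat_lit 76) (nat_lit 6840272154) (nat_lit 9) (nat_lit 4) (nat_lit 10) (nat_lit 5) (nat_lit 10) (nat_lit 4) (nat_lit 340) (nat_lit 284) (nat_lit 276)))) (XT.nd (nat_lit 156) (nat_lit 76) (nat_lit 0) (XT.nd (nat_lit 78) (nat_lit 152) (nat_lit 0) (XT.lf (nat_lit 0) (nat_lit 20022959612) (nat_lit 76) (nat_lit 3987278852) (nat_lit 76) (nat_lit 1898836927) (nat_lit 9) (nat_lit 4) (nat_lit 10) (nat_lit 5) (nat_lit 10) (nat_lit 4) (nat_lit 341) (nat_lit 284) (nat_lit 275)) (XT.lf (nat_lit 0) (nat_lit 3189329790) (nat_lit 152) (nat_lit 23247343485) (nat_lit 0) (nat_lit 1112204360) (nat_lit 7) (nat_lit 5) (nat_lit 9) (nat_lit 4) (nat_lit 7) (nat_lit 4) (nat_lit 342) (nat_lit 284) (nat_lit 274))) (XT.nd (nat_lit 78)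 (nat_lit 76) (nat_lit 0) (XT.lf (nat_lit 0) (nat_lit 8642894135) (nat_lit 152) (nat_lit 14235183278) (nat_lit 0) (nat_lit 6433006755) (nat_lit 7) (nat_lit 5) (nat_lit 9) (nat_lit 4) (nat_lit 7) (nat_lit 4) (nat_lit 343) (nat_lit 284) (nat_lit 273)) (XT.nd (nat_lit 78) (nat_lit 76) (nat_lit 0) (XT.lf (nat_lit 0) (nat_lit 14340380763) (nat_lit 152) (nat_lit 4881747068) (nat_lit 0) (nat_lit 12007565651) (nat_lit 7) (nat_lit 5) (nat_lit 9) (nat_lit 4) (nat_lit 7) (nat_lit 4) (nat_lit 344) (nat_lit 284) (nat_lit 272)) (XT.lf (nat_lit 0) (nat_lit 5124753857) (nat_lit 76) (nat_lit 15314049153) (nat_lit 76) (nat_lit 12867412068) (nat_lit 6) (nat_lit 4) (nat_lit 7) (nat_lit 5) (nat_lit 7) (nat_lit 4) (nat_lit 345) (nat_lit 284) (nat_lit 271)))))) (XT.nd (nat_lit 312) (nat_lit 76) (nat_lit 0) (XT.nd (nat_lit 156) (nat_lit 152) (nat_lit 0) (XT.nd (nat_lit 78) (nat_lit 0) (nat_lit 0) (XT.lf (nat_lit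 0) (nat_lit 15866733548) (nat_lit 76) (nat_lit 11118679718) (nat_lit 76) (nat_lit 8566651916) (nat_lit 6) (nat_lit 4) (nat_lit 7) (nat_lit 5) (nat_lit 7) (nat_lit 4) (nat_lit 346) (nat_lit 284) (nat_lit 270)) (XT.lf (nat_lit 0) (nat_lit 27150784032) (nat_lit 76) (nat_lit 6744633692) (nat_lit 76) (nat_lit 4095021893) (nat_lit 6) (nat_lit 4) (nat_lit 7) (nat_lit 5) (nat_lit 7) (nat_lit 4) (nat_lit 347) (nat_lit 284) (nat_lit 269))) (XT.nd (nat_lit 78) (nat_lit 76) (nat_lit 0) (XT.lf (nat_lit 0) (nat_lit 545263915) (nat_lit 152) (nat_lit 1605818406) (nat_lit 76) (nat_lit 38483601357) (nat_lit 5) (nat_lit 5) (nat_lit 7) (nat_lit 5) (nat_lit 6) (nat_lit 4) (nat_lit 348) (nat_lit 284) (nat_lit 268)) (XT.lf (nat_lit 0) (nat_lit 5468788416) (nat_lit 152) (nat_lit 35148216618) (nat_lit 0) (nat_lit 2854316286) (nat_lit 4) (nat_lit 5) (nat_lit 6) (nat_lit 4) (nat_lit 4) (nat_lit 4) (nat_lit 349)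 (nat_lit 284) (nat_lit 267)))) (XT.nd (nat_lit 156) (nat_lit 76) (nat_lit 0) (XT.nd (nat_lit 78) (nat_lit 0) (nat_lit 0) (XT.lf (nat_lit 0) (nat_lit 10746702720) (nat_lit 152) (nat_lit 27730864908) (nat_lit 0) (nat_lit 8060503440) (nat_lit 4) (nat_lit 5) (nat_lit 6) (nat_lit 4) (nat_lit 4) (nat_lit 4) (nat_lit 350) (nat_lit 284) (nat_lit 266)) (XT.lf (nat_lit 0) (nat_lit 16316840207) (nat_lit 152) (nat_lit 19979514604) (nat_lit 0) (nat_lit 13564226897) (nat_lit 4) (nat_lit 5) (nat_lit 6) (nat_lit 4) (nat_lit 4) (nat_lit 4) (nat_lit 351) (nat_lit 284) (nat_lit 265))) (XT.nd (nat_lit 78) (nat_lit 76) (nat_lit 0) (XT.lf (nat_lit 0) (nat_lit 22212209097) (nat_lit 152) (nat_lit 11848231776) (nat_lit 0) (nat_lit 19398101317) (nat_lit 4) (nat_lit 5) (nat_lit 6) (nat_lit 4) (nat_lit 4) (nat_lit 4) (nat_lit 352) (nat_lit 284) (nat_lit 264)) (XT.nd (nat_lit 78) (nat_lit 76) (nat_lit 0) (XT.lf (nat_lit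 0) (nat_lit 28467744911) (nat_lit 152) (nat_lit 3288831046) (nat_lit 0) (nat_lit 25596697806) (nat_lit 4) (nat_lit 5) (nat_lit 6) (nat_lit 4) (nat_lit 4) (nat_lit 4) (nat_lit 353) (nat_lit 284) (nat_lit 263)) (XT.lf (nat_lit 0) (nat_lit 6052163701) (nat_lit 76) (nat_lit 29213908471) (nat_lit 76) (nat_lit 26290139769) (nat_lit 3) (nat_lit 4) (nat_lit 4) (nat_lit 5) (nat_lit 4) (nat_lit 4) (nat_lit 354) (nat_lit 284) (nat_lit 262))))))) (XT.nd (nat_lit 702) (nat_lit 0) (nat_lit 0) (XT.nd (nat_lit 312) (nat_lit 152) (nat_lit 0) (XT.nd (nat_lit 156) (nat_lit 0) (nat_lit 0) (XT.nd (nat_lit 78) (nat_lit 0) (nat_lit 0) (XT.lf (nat_lit 0) (nat_lit 16126777940) (nat_lit 76) (nat_lit 26471022129) (nat_lit 76) (nat_lit 23498437134) (nat_lit 3) (nat_lit 4) (nat_lit 4) (nat_lit 5) (nat_lit 4) (nat_lit 4) (nat_lit 355) (nat_lit 284) (nat_lit 261)) (XT.lf (nat_lit 0) (nat_lit 26821529073) (nat_lit 76)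 (nat_lit 23601585259) (nat_lit 76) (nat_lit 20583799991) (nat_lit 3) (nat_lit 4) (nat_lit 4) (nat_lit 5) (nat_lit 4) (nat_lit 4) (nat_lit 356) (nat_lit 284) (nat_lit 260))) (XT.nd (nat_lit 78) (nat_lit 0) (nat_lit 0) (XT.lf (nat_lit 0) (nat_lit 38199793403) (nat_lit 76) (nat_lit 20588593790) (nat_lit 76) (nat_lit 17528956419) (nat_lit 3) (nat_lit 4) (nat_lit 4) (nat_lit 5) (nat_lit 4) (nat_lit 4) (nat_lit 357) (nat_lit 284) (nat_lit 259)) (XT.lf (nat_lit 0) (nat_lit 50328997682) (nat_lit 76) (nat_lit 17414192958) (nat_lit 76) (nat_lit 14315803639) (nat_lit 3) (nat_lit 4) (nat_lit 4) (nat_lit 5) (nat_lit 4) (nat_lit 4) (nat_lit 358) (nat_lit 284) (nat_lit 258)))) (XT.nd (nat_lit 156) (nat_lit 152) (nat_lit 0) (XT.nd (nat_lit 78) (nat_lit 0) (nat_lit 0) (XT.lf (nat_lit 0) (nat_lit 63281018676) (nat_lit 76) (nat_lit 14059571499) (nat_lit 76) (nat_lit 10925300747) (nat_lit 3) (nat_lit 4)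 (nat_lit 4) (nat_lit 5) (nat_lit 4) (nat_lit 4) (nat_lit 359) (nat_lit 284) (nat_lit 257)) (XT.lf (nat_lit 0) (nat_lit 77132609103) (nat_lit 76) (nat_lit 10504850174) (nat_lit 76) (nat_lit 7337355873) (nat_lit 3) (nat_lit 4) (nat_lit 4) (nat_lit 5) (nat_lit 4) (nat_lit 4) (nat_lit 360) (nat_lit 284) (nat_lit 256))) (XT.nd (nat_lit 78) (nat_lit 152) (nat_lit 0) (XT.lf (nat_lit 0) (nat_lit 91965852460) (nat_lit 76) (nat_lit 6728963969) (nat_lit 76) (nat_lit 3530707123) (nat_lit 3) (nat_lit 4) (nat_lit 4) (nat_lit 5) (nat_lit 4) (nat_lit 4) (nat_lit 361) (nat_lit 284) (nat_lit 255)) (XT.nd (nat_lit 78) (nat_lit 76) (nat_lit 0) (XT.lf (nat_lit 0) (nat_lit 491330812) (nat_lit 152) (nat_lit 2204772594) (nat_lit 76) (nat_lit 107363884781) (nat_lit 2) (nat_lit 5) (nat_lit 4) (nat_lit 5) (nat_lit 3) (nat_lit 4) (nat_lit 362) (nat_lit 284) (nat_lit 254)) (XT.lf (nat_lit 0) (nat_lit 4793093398)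 (nat_lit 152) (nat_lit 111927940295) (nat_lit 0) (nat_lit 1780950241) (nat_lit 1) (nat_lit 5) (nat_lit 3) (nat_lit 4) (nat_lit 1) (nat_lit 4) (nat_lit 363) (nat_lit 284) (nat_lit 253)))))) (XT.nd (nat_lit 312) (nat_lit 0) (nat_lit 0) (XT.nd (nat_lit 156) (nat_lit 0) (nat_lit 0) (XT.nd (nat_lit 78) (nat_lit 0) (nat_lit 0) (XT.lf (nat_lit 0) (nat_lit 9515424241) (nat_lit 152) (nat_lit 111617138072) (nat_lit 0) (nat_lit 6480669695) (nat_lit 1) (nat_lit 5) (nat_lit 3) (nat_lit 4) (nat_lit 1) (nat_lit 4) (nat_lit 364) (nat_lit 284) (nat_lit 252)) (XT.lf (nat_lit 0) (nat_lit 14564199353) (nat_lit 152) (nat_lit 111384785958) (nat_lit 0) (nat_lit 11508508335) (nat_lit 1) (nat_lit 5) (nat_lit 3) (nat_lit 4) (nat_lit 1) (nat_lit 4) (nat_lit 365) (nat_lit 284) (nat_lit 251))) (XT.nd (nat_lit 78) (nat_lit 0) (nat_lit 0) (XT.lf (nat_lit 0) (nat_lit 19969337401) (nat_lit 152) (nat_lit 111229507050)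 (nat_lit 0) (nat_lit 16894260761) (nat_lit 1) (nat_lit 5) (nat_lit 3) (nat_lit 4) (nat_lit 1) (nat_lit 4) (nat_lit 366) (nat_lit 284) (nat_lit 250)) (XT.lf (nat_lit 0) (nat_lit 25762868831) (nat_lit 152) (nat_lit 111150381178) (nat_lit 0) (nat_lit 22669842542) (nat_lit 1) (nat_lit 5) (nat_lit 3) (nat_lit 4) (nat_lit 1) (nat_lit 4) (nat_lit 367) (nat_lit 284) (nat_lit 249)))) (XT.nd (nat_lit 156) (nat_lit 0) (nat_lit 0) (XT.nd (nat_lit 78) (nat_lit 0) (nat_lit 0) (XT.lf (nat_lit 0) (nat_lit 31979125684) (nat_lit 152) (nat_lit 111146939448) (nat_lit 0) (nat_lit 28869479348) (nat_lit 1) (nat_lit 5) (nat_lit 3) (nat_lit 4) (nat_lit 1) (nat_lit 4) (nat_lit 368) (nat_lit 284) (nat_lit 248)) (XT.lf (nat_lit 0) (nat_lit 38654945035) (nat_lit 152) (nat_lit 111219161463) (nat_lit 0) (nat_lit 35529909768) (nat_lit 1) (nat_lit 5) (nat_lit 3) (nat_lit 4) (nat_lit 1) (nat_lit 4) (nat_lit 369) (nat_lit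 284) (nat_lit 247))) (XT.nd (nat_lit 78) (nat_lit 0) (nat_lit 0) (XT.lf (nat_lit 0) (nat_lit 45829887296) (nat_lit 152) (nat_lit 111367475207) (nat_lit 0) (nat_lit 42690603018) (nat_lit 1) (nat_lit 5) (nat_lit 3) (nat_lit 4) (nat_lit 1) (nat_lit 4) (nat_lit 370) (nat_lit 284) (nat_lit 246)) (XT.nd (nat_lit 78) (nat_lit 0) (nat_lit 0) (XT.lf (nat_lit 0) (nat_lit 53546470644) (nat_lit 152) (nat_lit 111592759576) (nat_lit 0) (nat_lit 50393992838) (nat_lit 1) (nat_lit 5) (nat_lit 3) (nat_lit 4) (nat_lit 1) (nat_lit 4) (nat_lit 371) (nat_lit 284) (nat_lit 245)) (XT.lf (nat_lit 0) (nat_lit 61850422980) (nat_lit 152) (nat_lit 111896349587) (nat_lit 0) (nat_lit 58685728943) (nat_lit 1) (nat_lit 5) (nat_lit 3) (nat_lit 4) (nat_lit 1) (nat_lit 4) (nat_lit 372) (nat_lit 284) (nat_lit 244))))))))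
noncomputable def xc52 : XT := (XT.nd (nat_lit 1404) (nat_lit 0) (nat_lit 0) (XT.nd (nat_lit 702) (nat_lit 0) (nat_lit 0) (XT.nd (nat_lit 312) (nat_lit 0) (nat_lit 0) (XT.nd (nat_lit 156) (nat_lit 0) (nat_lit 0) (XT.nd (nat_lit 78) (nat_lit 0) (nat_lit 0) (XT.lf (nat_lit 0) (nat_lit 70790952910) (nat_lit 152) (nat_lit 112280044294) (nat_lit 0) (nat_lit 67614947549) (nat_lit 1) (nat_lit 5) (nat_lit 3) (nat_lit 4) (nat_lit 1) (nat_lit 4) (nat_lit 373) (nat_lit 284) (nat_lit 243)) (XT.lf (nat_lit 0) (nat_lit 80421041352) (nat_lit 152) (nat_lit 112746117442) (nat_lit 0) (nat_lit 77234562543) (nat_lit 1) (nat_lit 5) (nat_lit 3) (nat_lit 4) (nat_lit 1) (nat_lit 4) (nat_lit 374) (nat_lit 284) (nat_lit 242))) (XT.nd (nat_lit 78) (nat_lit 0) (nat_lit 0) (XT.lf (nat_lit 0) (nat_lit 90797755497) (nat_lit 152) (nat_lit 113297330947) (nat_lit 0) (nat_lit 87601579051) (nat_lit 1) (nat_lit 5) (nat_lit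 3) (nat_lit 4) (nat_lit 1) (nat_lit 4) (nat_lit 375) (nat_lit 284) (nat_lit 241)) (XT.lf (nat_lit 0) (nat_lit 101982586985) (nat_lit 152) (nat_lit 113936951258) (nat_lit 0) (nat_lit 98777431245) (nat_lit 1) (nat_lit 5) (nat_lit 3) (nat_lit 4) (nat_lit 1) (nat_lit 4) (nat_lit 376) (nat_lit 284) (nat_lit 240)))) (XT.nd (nat_lit 156) (nat_lit 0) (nat_lit 0) (XT.nd (nat_lit 78) (nat_lit 0) (nat_lit 0) (XT.lf (nat_lit 0) (nat_lit 114041816298) (nat_lit 152) (nat_lit 114668768719) (nat_lit 0) (nat_lit 110828346397) (nat_lit 1) (nat_lit 5) (nat_lit 3) (nat_lit 4) (nat_lit 1) (nat_lit 4) (nat_lit 377) (nat_lit 284) (nat_lit 239)) (XT.lf (nat_lit 0) (nat_lit 127046905536) (nat_lit 152) (nat_lit 115497120025) (nat_lit 0) (nat_lit 123825737338) (nat_lit 1) (nat_lit 5) (nat_lit 3) (nat_lit 4) (nat_lit 1) (nat_lit 4) (nat_lit 378) (nat_lit 284) (nat_lit 238))) (XT.nd (nat_lit 78) (nat_lit 0) (nat_lit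 0) (XT.lf (nat_lit 0) (nat_lit 141074921895) (nat_lit 152) (nat_lit 116426913926) (nat_lit 0) (nat_lit 137846625644) (nat_lit 1) (nat_lit 5) (nat_lit 3) (nat_lit 4) (nat_lit 1) (nat_lit 4) (nat_lit 379) (nat_lit 284) (nat_lit 237)) (XT.nd (nat_lit 78) (nat_lit 0) (nat_lit 0) (XT.lf (nat_lit 0) (nat_lit 156208994360) (nat_lit 152) (nat_lit 117463660309) (nat_lit 0) (nat_lit 152974098059) (nat_lit 1) (nat_lit 5) (nat_lit 3) (nat_lit 4) (nat_lit 1) (nat_lit 4) (nat_lit 380) (nat_lit 284) (nat_lit 236)) (XT.lf (nat_lit 0) (nat_lit 172538806323) (nat_lit 152) (nat_lit 118613502859) (nat_lit 0) (nat_lit 169297798866) (nat_lit 1) (nat_lit 5) (nat_lit 3) (nat_lit 4) (nat_lit 1) (nat_lit 4) (nat_lit 381) (nat_lit 284) (nat_lit 235)))))) (XT.nd (nat_lit 312) (nat_lit 0) (nat_lit 0) (XT.nd (nat_lit 156) (nat_lit 0) (nat_lit 0) (XT.nd (nat_lit 78) (nat_lit 0) (nat_lit 0) (XT.lf (nat_lit 0) (nat_lit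 190161127041) (nat_lit 152) (nat_lit 119883255457) (nat_lit 0) (nat_lit 186914461106) (nat_lit 1) (nat_lit 5) (nat_lit 3) (nat_lit 4) (nat_lit 1) (nat_lit 4) (nat_lit 382) (nat_lit 284) (nat_lit 234)) (XT.lf (nat_lit 0) (nat_lit 209180385082) (nat_lit 152) (nat_lit 121280442562) (nat_lit 0) (nat_lit 205928479815) (nat_lit 1) (nat_lit 5) (nat_lit 3) (nat_lit 4) (nat_lit 1) (nat_lit 4) (nat_lit 383) (nat_lit 284) (nat_lit 233))) (XT.nd (nat_lit 78) (nat_lit 0) (nat_lit 0) (XT.lf (nat_lit 0) (nat_lit 229709287158) (nat_lit 152) (nat_lit 122813343802) (nat_lit 0) (nat_lit 226452530658) (nat_lit 1) (nat_lit 5) (nat_lit 3) (nat_lit 4) (nat_lit 1) (nat_lit 4) (nat_lit 384) (nat_lit 284) (nat_lit 232)) (XT.lf (nat_lit 0) (nat_lit 251869486024) (nat_lit 152) (nat_lit 124491043037) (nat_lit 0) (nat_lit 248608237642) (nat_lit 1) (nat_lit 5) (nat_lit 3) (nat_lit 4) (nat_lit 1) (nat_lit 4) (nat_lit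 385) (nat_lit 284) (nat_lit 231)))) (XT.nd (nat_lit 156) (nat_lit 0) (nat_lit 0) (XT.nd (nat_lit 78) (nat_lit 0) (nat_lit 0) (XT.lf (nat_lit 0) (nat_lit 275792301376) (nat_lit 152) (nat_lit 126323482186) (nat_lit 0) (nat_lit 272526893843) (nat_lit 1) (nat_lit 5) (nat_lit 3) (nat_lit 4) (nat_lit 1) (nat_lit 4) (nat_lit 386) (nat_lit 284) (nat_lit 230)) (XT.lf (nat_lit 0) (nat_lit 301619498046) (nat_lit 152) (nat_lit 128321520150) (nat_lit 0) (nat_lit 298350239448) (nat_lit 1) (nat_lit 5) (nat_lit 3) (nat_lit 4) (nat_lit 1) (nat_lit 4) (nat_lit 387) (nat_lit 284) (nat_lit 229))) (XT.nd (nat_lit 78) (nat_lit 0) (nat_lit 0) (XT.lf (nat_lit 0) (nat_lit 329504126089) (nat_lit 152) (nat_lit 130496997153) (nat_lit 0) (nat_lit 326231301690) (nat_lit 1) (nat_lit 5) (nat_lit 3) (nat_lit 4) (nat_lit 1) (nat_lit 4) (nat_lit 388) (nat_lit 284) (nat_lit 228)) (XT.nd (nat_lit 78) (nat_lit 0) (nat_lit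 0) (XT.lf (nat_lit 0) (nat_lit 359611427744) (nat_lit 152) (nat_lit 132862804911) (nat_lit 0) (nat_lit 356335301677) (nat_lit 1) (nat_lit 5) (nat_lit 3) (nat_lit 4) (nat_lit 1) (nat_lit 4) (nat_lit 389) (nat_lit 284) (nat_lit 227)) (XT.lf (nat_lit 0) (nat_lit 392119816651) (nat_lit 152) (nat_lit 135432963025) (nat_lit 0) (nat_lit 388840633485) (nat_lit 1) (nat_lit 5) (nat_lit 3) (nat_lit 4) (nat_lit 1) (nat_lit 4) (nat_lit 390) (nat_lit 284) (nat_lit 226))))))) (XT.nd (nat_lit 702) (nat_lit 0) (nat_lit 0) (XT.nd (nat_lit 312) (nat_lit 0) (nat_lit 0) (XT.nd (nat_lit 156) (nat_lit 0) (nat_lit 0) (XT.nd (nat_lit 78) (nat_lit 0) (nat_lit 0) (XT.lf (nat_lit 0) (nat_lit 427221935115) (nat_lit 152) (nat_lit 138222702062) (nat_lit 0) (nat_lit 423939921301) (nat_lit 1) (nat_lit 5) (nat_lit 3) (nat_lit 4) (nat_lit 1) (nat_lit 4) (nat_lit 391) (nat_lit 284) (nat_lit 225)) (XT.lf (nat_lit 0) (nat_lit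 465125795689) (nat_lit 152) (nat_lit 141248553808) (nat_lit 0) (nat_lit 461841160905) (nat_lit 1) (nat_lit 5) (nat_lit 3) (nat_lit 4) (nat_lit 1) (nat_lit 4) (nat_lit 392) (nat_lit 284) (nat_lit 224))) (XT.nd (nat_lit 78) (nat_lit 0) (nat_lit 0) (XT.lf (nat_lit 0) (nat_lit 506056013844) (nat_lit 152) (nat_lit 144528449238) (nat_lit 0) (nat_lit 502768952236) (nat_lit 1) (nat_lit 5) (nat_lit 3) (nat_lit 4) (nat_lit 1) (nat_lit 4) (nat_lit 393) (nat_lit 284) (nat_lit 223)) (XT.lf (nat_lit 0) (nat_lit 550255139021) (nat_lit 152) (nat_lit 148081824768) (nat_lit 0) (nat_lit 546965830353) (nat_lit 1) (nat_lit 5) (nat_lit 3) (nat_lit 4) (nat_lit 1) (nat_lit 4) (nat_lit 394) (nat_lit 284) (nat_lit 222)))) (XT.nd (nat_lit 156) (nat_lit 0) (nat_lit 0) (XT.nd (nat_lit 78) (nat_lit 0) (nat_lit 0) (XT.lf (nat_lit 0) (nat_lit 597985091961) (nat_lit 152) (nat_lit 151929737438) (nat_lit 0) (nat_lit 594693702682)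 (nat_lit 1) (nat_lit 5) (nat_lit 3) (nat_lit 4) (nat_lit 1) (nat_lit 4) (nat_lit 395) (nat_lit 284) (nat_lit 221)) (XT.lf (nat_lit 0) (nat_lit 649528716830) (nat_lit 152) (nat_lit 156094989695) (nat_lit 0) (nat_lit 646235401059) (nat_lit 1) (nat_lit 5) (nat_lit 3) (nat_lit 4) (nat_lit 1) (nat_lit 4) (nat_lit 396) (nat_lit 284) (nat_lit 220))) (XT.nd (nat_lit 78) (nat_lit 0) (nat_lit 0) (XT.lf (nat_lit 0) (nat_lit 705191457330) (nat_lit 152) (nat_lit 160602264513) (nat_lit 0) (nat_lit 701896357772) (nat_lit 1) (nat_lit 5) (nat_lit 3) (nat_lit 4) (nat_lit 1) (nat_lit 4) (nat_lit 397) (nat_lit 284) (nat_lit 219)) (XT.nd (nat_lit 78) (nat_lit 0) (nat_lit 0) (XT.lf (nat_lit 0) (nat_lit 765303166740) (nat_lit 152) (nat_lit 165478271671) (nat_lit 0) (nat_lit 762006415525) (nat_lit 1) (nat_lit 5) (nat_lit 3) (nat_lit 4) (nat_lit 1) (nat_lit 4) (nat_lit 398) (nat_lit 284) (nat_lit 218)) (XT.lf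 (nat_lit 0) (nat_lit 830220062596) (nat_lit 152) (nat_lit 170751906025) (nat_lit 0) (nat_lit 826921782070) (nat_lit 1) (nat_lit 5) (nat_lit 3) (nat_lit 4) (nat_lit 1) (nat_lit 4) (nat_lit 399) (nat_lit 284) (nat_lit 217)))))) (XT.nd (nat_lit 312) (nat_lit 0) (nat_lit 0) (XT.nd (nat_lit 156) (nat_lit 0) (nat_lit 0) (XT.nd (nat_lit 78) (nat_lit 0) (nat_lit 0) (XT.lf (nat_lit 0) (nat_lit 900326837614) (nat_lit 152) (nat_lit 176454418742) (nat_lit 0) (nat_lit 897027141059) (nat_lit 1) (nat_lit 5) (nat_lit 3) (nat_lit 4) (nat_lit 1) (nat_lit 4) (nat_lit 400) (nat_lit 284) (nat_lit 216)) (XT.lf (nat_lit 0) (nat_lit 976038939349) (nat_lit 152) (nat_lit 182619602490) (nat_lit 0) (nat_lit 972737931658) (nat_lit 1) (nat_lit 5) (nat_lit 3) (nat_lit 4) (nat_lit 1) (nat_lit 4) (nat_lit 401) (nat_lit 284) (nat_lit 215))) (XT.nd (nat_lit 78) (nat_lit 0) (nat_lit 0) (XT.lf (nat_lit 0) (nat_lit 1057805032110)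 (nat_lit 152) (nat_lit 189283991691) (nat_lit 0) (nat_lit 1054502810402) (nat_lit 1) (nat_lit 5) (nat_lit 3) (nat_lit 4) (nat_lit 1) (nat_lit 4) (nat_lit 402) (nat_lit 284) (nat_lit 214)) (XT.lf (nat_lit 0) (nat_lit 1146109655704) (nat_lit 152) (nat_lit 196487079021) (nat_lit 0) (nat_lit 1142806309906) (nat_lit 1) (nat_lit 5) (nat_lit 3) (nat_lit 4) (nat_lit 1) (nat_lit 4) (nat_lit 403) (nat_lit 284) (nat_lit 213)))) (XT.nd (nat_lit 156) (nat_lit 0) (nat_lit 0) (XT.nd (nat_lit 78) (nat_lit 0) (nat_lit 0) (XT.lf (nat_lit 0) (nat_lit 1241476096790) (nat_lit 152) (nat_lit 204271549443) (nat_lit 0) (nat_lit 1238171710169) (nat_lit 1) (nat_lit 5) (nat_lit 3) (nat_lit 4) (nat_lit 1) (nat_lit 4) (nat_lit 404) (nat_lit 284) (nat_lit 212)) (XT.lf (nat_lit 0) (nat_lit 1344469489833) (nat_lit 152) (nat_lit 212683533152) (nat_lit 0) (nat_lit 1341164139487) (nat_lit 1) (nat_lit 5) (nat_lit 3) (nat_lit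 4) (nat_lit 1) (nat_lit 4) (nat_lit 405) (nat_lit 284) (nat_lit 211))) (XT.nd (nat_lit 78) (nat_lit 0) (nat_lit 0) (XT.lf (nat_lit 0) (nat_lit 1455700166052) (nat_lit 152) (nat_lit 221772878940) (nat_lit 0) (nat_lit 1452393923367) (nat_lit 1) (nat_lit 5) (nat_lit 3) (nat_lit 4) (nat_lit 1) (nat_lit 4) (nat_lit 406) (nat_lit 284) (nat_lit 210)) (XT.nd (nat_lit 78) (nat_lit 0) (nat_lit 0) (XT.lf (nat_lit 0) (nat_lit 1575827270194) (nat_lit 152) (nat_lit 231593449597) (nat_lit 0) (nat_lit 1572520201271) (nat_lit 1) (nat_lit 5) (nat_lit 3) (nat_lit 4) (nat_lit 1) (nat_lit 4) (nat_lit 407) (nat_lit 284) (nat_lit 209)) (XT.lf (nat_lit 0) (nat_lit 1705562666581) (nat_lit 152) (nat_lit 242203441098) (nat_lit 0) (nat_lit 1702254832621) (nat_lit 1) (nat_lit 5) (nat_lit 3) (nat_lit 4) (nat_lit 1) (nat_lit 4) (nat_lit 408) (nat_lit 284) (nat_lit 208))))))))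
noncomputable def xc53 : XT := (XT.nd (nat_lit 41418) (nat_lit 0) (nat_lit 152) (XT.nd (nat_lit 40716) (nat_lit 0) (nat_lit 684) (XT.nd (nat_lit 312) (nat_lit 0) (nat_lit 0) (XT.nd (nat_lit 156) (nat_lit 0) (nat_lit 0) (XT.nd (nat_lit 78) (nat_lit 0) (nat_lit 0) (XT.lf (nat_lit 0) (nat_lit 1845675157561) (nat_lit 152) (nat_lit 253665727465) (nat_lit 0) (nat_lit 1842366615234) (nat_lit 1) (nat_lit 5) (nat_lit 3) (nat_lit 4) (nat_lit 1) (nat_lit 4) (nat_lit 409) (nat_lit 284) (nat_lit 207)) (XT.lf (nat_lit 0) (nat_lit 1996995039377) (nat_lit 152) (nat_lit 266048233359) (nat_lit 0) (nat_lit 1993685841155) (nat_lit 1) (nat_lit 5) (nat_lit 3) (nat_lit 4) (nat_lit 1) (nat_lit 4) (nat_lit 410) (nat_lit 284) (nat_lit 206))) (XT.nd (nat_lit 78) (nat_lit 0) (nat_lit 0) (XT.lf (nat_lit 0) (nat_lit 2160419022440) (nat_lit 152) (nat_lit 279424336593) (nat_lit 0) (nat_lit 2157109216908) (nat_lit 1)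 (nat_lit 5) (nat_lit 3) (nat_lit 4) (nat_lit 1) (nat_lit 4) (nat_lit 411) (nat_lit 284) (nat_lit 205)) (XT.lf (nat_lit 0) (nat_lit 2336915545168) (nat_lit 152) (nat_lit 293873302963) (nat_lit 0) (nat_lit 2333605177312) (nat_lit 1) (nat_lit 5) (nat_lit 3) (nat_lit 4) (nat_lit 1) (nat_lit 4) (nat_lit 412) (nat_lit 284) (nat_lit 204)))) (XT.nd (nat_lit 156) (nat_lit 0) (nat_lit 0) (XT.nd (nat_lit 78) (nat_lit 0) (nat_lit 0) (XT.lf (nat_lit 0) (nat_lit 2527530512881) (nat_lit 152) (nat_lit 309480755975) (nat_lit 0) (nat_lit 2524219624354) (nat_lit 1) (nat_lit 5) (nat_lit 3) (nat_lit 4) (nat_lit 1) (nat_lit 4) (nat_lit 413) (nat_lit 284) (nat_lit 203)) (XT.lf (nat_lit 0) (nat_lit 2733393495758) (nat_lit 152) (nat_lit 326339184238) (nat_lit 0) (nat_lit 2730082125128) (nat_lit 1) (nat_lit 5) (nat_lit 3) (nat_lit 4) (nat_lit 1) (nat_lit 4) (nat_lit 414) (nat_lit 284) (nat_lit 202))) (XT.nd (nat_lit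 78) (nat_lit 0) (nat_lit 0) (XT.lf (nat_lit 0) (nat_lit 2955724422587) (nat_lit 152) (nat_lit 344548489549) (nat_lit 0) (nat_lit 2952412605566) (nat_lit 1) (nat_lit 5) (nat_lit 3) (nat_lit 4) (nat_lit 1) (nat_lit 4) (nat_lit 415) (nat_lit 284) (nat_lit 201)) (XT.nd (nat_lit 78) (nat_lit 0) (nat_lit 0) (XT.lf (nat_lit 0) (nat_lit 3195840809970) (nat_lit 152) (nat_lit 364216578903) (nat_lit 0) (nat_lit 3192528579624) (nat_lit 1) (nat_lit 5) (nat_lit 3) (nat_lit 4) (nat_lit 1) (nat_lit 4) (nat_lit 416) (nat_lit 284) (nat_lit 200)) (XT.lf (nat_lit 0) (nat_lit 3455165569834) (nat_lit 152) (nat_lit 385460003941) (nat_lit 0) (nat_lit 3451852956778) (nat_lit 1) (nat_lit 5) (nat_lit 3) (nat_lit 4) (nat_lit 1) (nat_lit 4) (nat_lit 417) (nat_lit 284) (nat_lit 199)))))) (XT.nd (nat_lit 312) (nat_lit 380) (nat_lit 0) (XT.nd (nat_lit 156) (nat_lit 76) (nat_lit 0) (XT.nd (nat_lit 78) (nat_lit 152) (nat_lit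 0) (XT.lf (nat_lit 0) (nat_lit 4595842417) (nat_lit 76) (nat_lit 1297440105) (nat_lit 76) (nat_lit 1297440105) (nat_lit 18) (nat_lit 4) (nat_lit 19) (nat_lit 5) (nat_lit 19) (nat_lit 4) (nat_lit 330) (nat_lit 285) (nat_lit 285)) (XT.lf (nat_lit 0) (nat_lit 2695543320) (nat_lit 152) (nat_lit 10071653695) (nat_lit 0) (nat_lit 2305595766) (nat_lit 16) (nat_lit 5) (nat_lit 18) (nat_lit 4) (nat_lit 16) (nat_lit 4) (nat_lit 331) (nat_lit 285) (nat_lit 284))) (XT.nd (nat_lit 78) (nat_lit 76) (nat_lit 0) (XT.lf (nat_lit 0) (nat_lit 8189839029) (nat_lit 152) (nat_lit 191831210) (nat_lit 0) (nat_lit 7438828925) (nat_lit 16) (nat_lit 5) (nat_lit 18) (nat_lit 4) (nat_lit 16) (nat_lit 4) (nat_lit 332) (nat_lit 285) (nat_lit 283)) (XT.lf (nat_lit 0) (nat_lit 10496308747) (nat_lit 76) (nat_lit 3609293949) (nat_lit 76) (nat_lit 2523966668) (nat_lit 15) (nat_lit 4) (nat_lit 16) (nat_lit 5) (nat_lit 16)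 (nat_lit 4) (nat_lit 333) (nat_lit 285) (nat_lit 282)))) (XT.nd (nat_lit 156) (nat_lit 228) (nat_lit 0) (XT.nd (nat_lit 78) (nat_lit 0) (nat_lit 0) (XT.lf (nat_lit 0) (nat_lit 2714184558) (nat_lit 152) (nat_lit 13371078849) (nat_lit 0) (nat_lit 1422628798) (nat_lit 13) (nat_lit 5) (nat_lit 15) (nat_lit 4) (nat_lit 13) (nat_lit 4) (nat_lit 334) (nat_lit 285) (nat_lit 281)) (XT.lf (nat_lit 0) (nat_lit 8233946019) (nat_lit 152) (nat_lit 3540458685) (nat_lit 0) (nat_lit 6676998506) (nat_lit 13) (nat_lit 5) (nat_lit 15) (nat_lit 4) (nat_lit 13) (nat_lit 4) (nat_lit 335) (nat_lit 285) (nat_lit 280))) (XT.nd (nat_lit 78) (nat_lit 152) (nat_lit 0) (XT.lf (nat_lit 0) (nat_lit 6951160943) (nat_lit 76) (nat_lit 7164192015) (nat_lit 76) (nat_lit 5361511397) (nat_lit 12) (nat_lit 4) (nat_lit 13) (nat_lit 5) (nat_lit 13) (nat_lit 4) (nat_lit 336) (nat_lit 285) (nat_lit 279)) (XT.nd (nat_lit 78) (nat_lit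 152) (nat_lit 0) (XT.lf (nat_lit 0) (nat_lit 18022262918) (nat_lit 76) (nat_lit 2301913661) (nat_lit 76) (nat_lit 271702391) (nat_lit 12) (nat_lit 4) (nat_lit 13) (nat_lit 5) (nat_lit 13) (nat_lit 4) (nat_lit 337) (nat_lit 285) (nat_lit 278)) (XT.lf (nat_lit 0) (nat_lit 5002720030) (nat_lit 152) (nat_lit 13860770900) (nat_lit 0) (nat_lit 2927823919) (nat_lit 10) (nat_lit 5) (nat_lit 12) (nat_lit 4) (nat_lit 10) (nat_lit 4) (nat_lit 338) (nat_lit 285) (nat_lit 277))))))) (XT.nd (nat_lit 702) (nat_lit 228) (nat_lit 0) (XT.nd (nat_lit 312) (nat_lit 76) (nat_lit 0) (XT.nd (nat_lit 156) (nat_lit 152) (nat_lit 0) (XT.nd (nat_lit 78) (nat_lit 76) (nat_lit 0) (XT.lf (nat_lit 0) (nat_lit 10590067722) (nat_lit 152) (nat_lit 4164805522) (nat_lit 0) (nat_lit 8334550443) (nat_lit 10) (nat_lit 5) (nat_lit 12) (nat_lit 4) (nat_lit 10) (nat_lit 4) (nat_lit 339) (nat_lit 285) (nat_lit 276)) (XT.lf (nat_lit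 0) (nat_lit 6209327821) (nat_lit 76) (nat_lit 10354840959) (nat_lit 76) (nat_lit 7932081858) (nat_lit 9) (nat_lit 4) (nat_lit 10) (nat_lit 5) (nat_lit 10) (nat_lit 4) (nat_lit 340) (nat_lit 285) (nat_lit 275))) (XT.nd (nat_lit 78) (nat_lit 152) (nat_lit 0) (XT.lf (nat_lit 0) (nat_lit 17252455300) (nat_lit 76) (nat_lit 5674003554) (nat_lit 76) (nat_lit 3096390915) (nat_lit 9) (nat_lit 4) (nat_lit 10) (nat_lit 5) (nat_lit 10) (nat_lit 4) (nat_lit 341) (nat_lit 285) (nat_lit 274)) (XT.lf (nat_lit 0) (nat_lit 1134520916) (nat_lit 76) (nat_lit 719092767) (nat_lit 152) (nat_lit 25827207247) (nat_lit 7) (nat_lit 5) (nat_lit 8) (nat_lit 5) (nat_lit 9) (nat_lit 4) (nat_lit 342) (nat_lit 285) (nat_lit 273)))) (XT.nd (nat_lit 156) (nat_lit 76) (nat_lit 0) (XT.nd (nat_lit 78) (nat_lit 0) (nat_lit 0) (XT.lf (nat_lit 0) (nat_lit 7197401684) (nat_lit 152) (nat_lit 17699392154) (nat_lit 0) (nat_lit 4555033631)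 (nat_lit 7) (nat_lit 5) (nat_lit 9) (nat_lit 4) (nat_lit 7) (nat_lit 4) (nat_lit 343) (nat_lit 285) (nat_lit 272)) (XT.lf (nat_lit 0) (nat_lit 12809256694) (nat_lit 152) (nat_lit 8514980523) (nat_lit 0) (nat_lit 10053066668) (nat_lit 7) (nat_lit 5) (nat_lit 9) (nat_lit 4) (nat_lit 7) (nat_lit 4) (nat_lit 344) (nat_lit 285) (nat_lit 271))) (XT.nd (nat_lit 78) (nat_lit 0) (nat_lit 0) (XT.lf (nat_lit 0) (nat_lit 1135455291) (nat_lit 76) (nat_lit 17596992390) (nat_lit 76) (nat_lit 14735411647) (nat_lit 6) (nat_lit 4) (nat_lit 7) (nat_lit 5) (nat_lit 7) (nat_lit 4) (nat_lit 345) (nat_lit 285) (nat_lit 270)) (XT.nd (nat_lit 78) (nat_lit 0) (nat_lit 0) (XT.lf (nat_lit 0) (nat_lit 11724892875) (nat_lit 76) (nat_lit 13477081110) (nat_lit 76) (nat_lit 10517916371) (nat_lit 6) (nat_lit 4) (nat_lit 7) (nat_lit 5) (nat_lit 7) (nat_lit 4) (nat_lit 346) (nat_lit 285) (nat_lit 269)) (XT.lf (nat_lit 0)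 (nat_lit 22867700667) (nat_lit 76) (nat_lit 9172903748) (nat_lit 76) (nat_lit 6123383456) (nat_lit 6) (nat_lit 4) (nat_lit 7) (nat_lit 5) (nat_lit 7) (nat_lit 4) (nat_lit 347) (nat_lit 285) (nat_lit 268)))))) (XT.nd (nat_lit 312) (nat_lit 76) (nat_lit 0) (XT.nd (nat_lit 156) (nat_lit 0) (nat_lit 0) (XT.nd (nat_lit 78) (nat_lit 152) (nat_lit 0) (XT.lf (nat_lit 0) (nat_lit 34629910120) (nat_lit 76) (nat_lit 4658954066) (nat_lit 76) (nat_lit 1525771225) (nat_lit 6) (nat_lit 4) (nat_lit 7) (nat_lit 5) (nat_lit 7) (nat_lit 4) (nat_lit 348) (nat_lit 285) (nat_lit 267)) (XT.lf (nat_lit 0) (nat_lit 3227326336) (nat_lit 152) (nat_lit 40192128959) (nat_lit 0) (nat_lit 254503962) (nat_lit 4) (nat_lit 5) (nat_lit 6) (nat_lit 4) (nat_lit 4) (nat_lit 4) (nat_lit 349) (nat_lit 285) (nat_lit 266))) (XT.nd (nat_lit 78) (nat_lit 0) (nat_lit 0) (XT.lf (nat_lit 0) (nat_lit 8442735851) (nat_lit 152) (nat_lit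 32899483760) (nat_lit 0) (nat_lit 5403499448) (nat_lit 4) (nat_lit 5) (nat_lit 6) (nat_lit 4) (nat_lit 4) (nat_lit 4) (nat_lit 350) (nat_lit 285) (nat_lit 265)) (XT.lf (nat_lit 0) (nat_lit 13954998532) (nat_lit 152) (nat_lit 25263602447) (nat_lit 0) (nat_lit 10854267659) (nat_lit 4) (nat_lit 5) (nat_lit 6) (nat_lit 4) (nat_lit 4) (nat_lit 4) (nat_lit 351) (nat_lit 285) (nat_lit 264)))) (XT.nd (nat_lit 156) (nat_lit 76) (nat_lit 0) (XT.nd (nat_lit 78) (nat_lit 0) (nat_lit 0) (XT.lf (nat_lit 0) (nat_lit 19796779640) (nat_lit 152) (nat_lit 17239235352) (nat_lit 0) (nat_lit 16639109441) (nat_lit 4) (nat_lit 5) (nat_lit 6) (nat_lit 4) (nat_lit 4) (nat_lit 4) (nat_lit 352) (nat_lit 285) (nat_lit 263)) (XT.lf (nat_lit 0) (nat_lit 26002697136) (nat_lit 152) (nat_lit 8778830670) (nat_lit 0) (nat_lit 22792305341) (nat_lit 4) (nat_lit 5) (nat_lit 6) (nat_lit 4) (nat_lit 4) (nat_lit 4) (nat_lit 353)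 (nat_lit 285) (nat_lit 262))) (XT.nd (nat_lit 78) (nat_lit 0) (nat_lit 0) (XT.lf (nat_lit 0) (nat_lit 176580606) (nat_lit 76) (nat_lit 32437192990) (nat_lit 76) (nat_lit 29177984901) (nat_lit 3) (nat_lit 4) (nat_lit 4) (nat_lit 5) (nat_lit 4) (nat_lit 4) (nat_lit 354) (nat_lit 285) (nat_lit 261)) (XT.nd (nat_lit 78) (nat_lit 0) (nat_lit 0) (XT.lf (nat_lit 0) (nat_lit 10161852420) (nat_lit 76) (nat_lit 29738960676) (nat_lit 76) (nat_lit 26434552316) (nat_lit 3) (nat_lit 4) (nat_lit 4) (nat_lit 5) (nat_lit 4) (nat_lit 4) (nat_lit 355) (nat_lit 285) (nat_lit 260)) (XT.lf (nat_lit 0) (nat_lit 20773879085) (nat_lit 76) (nat_lit 26910870129) (nat_lit 76) (nat_lit 23564609664) (nat_lit 3) (nat_lit 4) (nat_lit 4) (nat_lit 5) (nat_lit 4) (nat_lit 4) (nat_lit 356) (nat_lit 285) (nat_lit 259))))))))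
noncomputable def xc54 : XT := (XT.nd (nat_lit 1404) (nat_lit 0) (nat_lit 0) (XT.nd (nat_lit 702) (nat_lit 0) (nat_lit 0) (XT.nd (nat_lit 312) (nat_lit 152) (nat_lit 0) (XT.nd (nat_lit 156) (nat_lit 0) (nat_lit 0) (XT.nd (nat_lit 78) (nat_lit 0) (nat_lit 0) (XT.lf (nat_lit 0) (nat_lit 32075546686) (nat_lit 76) (nat_lit 23936162292) (nat_lit 76) (nat_lit 20551149880) (nat_lit 3) (nat_lit 4) (nat_lit 4) (nat_lit 5) (nat_lit 4) (nat_lit 4) (nat_lit 357) (nat_lit 285) (nat_lit 258)) (XT.lf (nat_lit 0) (nat_lit 44133828067) (nat_lit 76) (nat_lit 20797209267) (nat_lit 76) (nat_lit 17376315422) (nat_lit 3) (nat_lit 4) (nat_lit 4) (nat_lit 5) (nat_lit 4) (nat_lit 4) (nat_lit 358) (nat_lit 285) (nat_lit 257))) (XT.nd (nat_lit 78) (nat_lit 0) (nat_lit 0) (XT.lf (nat_lit 0) (nat_lit 57020179711) (nat_lit 76) (nat_lit 17475409852) (nat_lit 76) (nat_lit 14021292458) (nat_lit 3) (nat_lit 4) (nat_lit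 4) (nat_lit 5) (nat_lit 4) (nat_lit 4) (nat_lit 359) (nat_lit 285) (nat_lit 256)) (XT.lf (nat_lit 0) (nat_lit 70810965184) (nat_lit 76) (nat_lit 13951079309) (nat_lit 76) (nat_lit 10466199369) (nat_lit 3) (nat_lit 4) (nat_lit 4) (nat_lit 5) (nat_lit 4) (nat_lit 4) (nat_lit 360) (nat_lit 285) (nat_lit 255)))) (XT.nd (nat_lit 156) (nat_lit 152) (nat_lit 0) (XT.nd (nat_lit 78) (nat_lit 0) (nat_lit 0) (XT.lf (nat_lit 0) (nat_lit 85587907658) (nat_lit 76) (nat_lit 10203332716) (nat_lit 76) (nat_lit 6689968938) (nat_lit 3) (nat_lit 4) (nat_lit 4) (nat_lit 5) (nat_lit 4) (nat_lit 4) (nat_lit 361) (nat_lit 285) (nat_lit 254)) (XT.lf (nat_lit 0) (nat_lit 101438574200) (nat_lit 76) (nat_lit 6209961206) (nat_lit 76) (nat_lit 2670223503) (nat_lit 3) (nat_lit 4) (nat_lit 4) (nat_lit 5) (nat_lit 4) (nat_lit 4) (nat_lit 362) (nat_lit 285) (nat_lit 253))) (XT.nd (nat_lit 78) (nat_lit 76) (nat_lit 0)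 (XT.lf (nat_lit 0) (nat_lit 1535975882) (nat_lit 152) (nat_lit 369328168) (nat_lit 76) (nat_lit 116878922501) (nat_lit 2) (nat_lit 5) (nat_lit 4) (nat_lit 5) (nat_lit 3) (nat_lit 4) (nat_lit 363) (nat_lit 285) (nat_lit 252)) (XT.nd (nat_lit 78) (nat_lit 0) (nat_lit 0) (XT.lf (nat_lit 0) (nat_lit 6178207428) (nat_lit 152) (nat_lit 118866553533) (nat_lit 0) (nat_lit 2857124657) (nat_lit 1) (nat_lit 5) (nat_lit 3) (nat_lit 4) (nat_lit 1) (nat_lit 4) (nat_lit 364) (nat_lit 285) (nat_lit 251)) (XT.lf (nat_lit 0) (nat_lit 11204127216) (nat_lit 152) (nat_lit 118680192465) (nat_lit 0) (nat_lit 7863658823) (nat_lit 1) (nat_lit 5) (nat_lit 3) (nat_lit 4) (nat_lit 1) (nat_lit 4) (nat_lit 365) (nat_lit 285) (nat_lit 250)))))) (XT.nd (nat_lit 312) (nat_lit 0) (nat_lit 0) (XT.nd (nat_lit 156) (nat_lit 0) (nat_lit 0) (XT.nd (nat_lit 78) (nat_lit 0) (nat_lit 0) (XT.lf (nat_lit 0) (nat_lit 16588102927)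 (nat_lit 152) (nat_lit 118567497859) (nat_lit 0) (nat_lit 13229684884) (nat_lit 1) (nat_lit 5) (nat_lit 3) (nat_lit 4) (nat_lit 1) (nat_lit 4) (nat_lit 366) (nat_lit 285) (nat_lit 249)) (XT.lf (nat_lit 0) (nat_lit 22362039601) (nat_lit 152) (nat_lit 118527801896) (nat_lit 0) (nat_lit 18987001512) (nat_lit 1) (nat_lit 5) (nat_lit 3) (nat_lit 4) (nat_lit 1) (nat_lit 4) (nat_lit 367) (nat_lit 285) (nat_lit 248))) (XT.nd (nat_lit 78) (nat_lit 0) (nat_lit 0) (XT.lf (nat_lit 0) (nat_lit 28560153161) (nat_lit 152) (nat_lit 118560869341) (nat_lit 0) (nat_lit 25169726140) (nat_lit 1) (nat_lit 5) (nat_lit 3) (nat_lit 4) (nat_lit 1) (nat_lit 4) (nat_lit 368) (nat_lit 285) (nat_lit 247)) (XT.lf (nat_lit 0) (nat_lit 35219173167) (nat_lit 152) (nat_lit 118666896148) (nat_lit 0) (nat_lit 31814497136) (nat_lit 1) (nat_lit 5) (nat_lit 3) (nat_lit 4) (nat_lit 1) (nat_lit 4) (nat_lit 369) (nat_lit 285)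 (nat_lit 246)))) (XT.nd (nat_lit 156) (nat_lit 0) (nat_lit 0) (XT.nd (nat_lit 78) (nat_lit 0) (nat_lit 0) (XT.lf (nat_lit 0) (nat_lit 42378560479) (nat_lit 152) (nat_lit 118846510626) (nat_lit 0) (nat_lit 38960690919) (nat_lit 1) (nat_lit 5) (nat_lit 3) (nat_lit 4) (nat_lit 1) (nat_lit 4) (nat_lit 370) (nat_lit 285) (nat_lit 245)) (XT.lf (nat_lit 0) (nat_lit 50080741096) (nat_lit 152) (nat_lit 119100777155) (nat_lit 0) (nat_lit 46650655307) (nat_lit 1) (nat_lit 5) (nat_lit 3) (nat_lit 4) (nat_lit 1) (nat_lit 4) (nat_lit 371) (nat_lit 285) (nat_lit 244))) (XT.nd (nat_lit 78) (nat_lit 0) (nat_lit 0) (XT.lf (nat_lit 0) (nat_lit 58371357570) (nat_lit 152) (nat_lit 119431202500) (nat_lit 0) (nat_lit 54929960456) (nat_lit 1) (nat_lit 5) (nat_lit 3) (nat_lit 4) (nat_lit 1) (nat_lit 4) (nat_lit 372) (nat_lit 285) (nat_lit 243)) (XT.nd (nat_lit 78) (nat_lit 0) (nat_lit 0) (XT.lf (nat_lit 0) (nat_lit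 67299539480) (nat_lit 152) (nat_lit 119839744738) (nat_lit 0) (nat_lit 63847668918) (nat_lit 1) (nat_lit 5) (nat_lit 3) (nat_lit 4) (nat_lit 1) (nat_lit 4) (nat_lit 373) (nat_lit 285) (nat_lit 242)) (XT.lf (nat_lit 0) (nat_lit 76918194570) (nat_lit 152) (nat_lit 120328824859) (nat_lit 0) (nat_lit 73456626370) (nat_lit 1) (nat_lit 5) (nat_lit 3) (nat_lit 4) (nat_lit 1) (nat_lit 4) (nat_lit 374) (nat_lit 285) (nat_lit 241))))))) (XT.nd (nat_lit 702) (nat_lit 0) (nat_lit 0) (XT.nd (nat_lit 312) (nat_lit 0) (nat_lit 0) (XT.nd (nat_lit 156) (nat_lit 0) (nat_lit 0) (XT.nd (nat_lit 78) (nat_lit 0) (nat_lit 0) (XT.lf (nat_lit 0) (nat_lit 87284322278) (nat_lit 152) (nat_lit 120901341117) (nat_lit 0) (nat_lit 83813774785) (nat_lit 1) (nat_lit 5) (nat_lit 3) (nat_lit 4) (nat_lit 1) (nat_lit 4) (nat_lit 375) (nat_lit 285) (nat_lit 240)) (XT.lf (nat_lit 0) (nat_lit 98459351509) (nat_lit 152) (nat_lit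 121560686200) (nat_lit 0) (nat_lit 94980489855) (nat_lit 1) (nat_lit 5) (nat_lit 3) (nat_lit 4) (nat_lit 1) (nat_lit 4) (nat_lit 376) (nat_lit 285) (nat_lit 239))) (XT.nd (nat_lit 78) (nat_lit 0) (nat_lit 0) (XT.lf (nat_lit 0) (nat_lit 110509504659) (nat_lit 152) (nat_lit 122310767338) (nat_lit 0) (nat_lit 107022944707) (nat_lit 1) (nat_lit 5) (nat_lit 3) (nat_lit 4) (nat_lit 1) (nat_lit 4) (nat_lit 377) (nat_lit 285) (nat_lit 238)) (XT.lf (nat_lit 0) (nat_lit 123506190042) (nat_lit 152) (nat_lit 123156029456) (nat_lit 0) (nat_lit 120012502037) (nat_lit 1) (nat_lit 5) (nat_lit 3) (nat_lit 4) (nat_lit 1) (nat_lit 4) (nat_lit 378) (nat_lit 285) (nat_lit 237)))) (XT.nd (nat_lit 156) (nat_lit 0) (nat_lit 0) (XT.nd (nat_lit 78) (nat_lit 0) (nat_lit 0) (XT.lf (nat_lit 0) (nat_lit 137526425053) (nat_lit 152) (nat_lit 124101481516) (nat_lit 0) (nat_lit 134026137000) (nat_lit 1) (nat_lit 5) (nat_lit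 3) (nat_lit 4) (nat_lit 1) (nat_lit 4) (nat_lit 379) (nat_lit 285) (nat_lit 236)) (XT.lf (nat_lit 0) (nat_lit 152653292566) (nat_lit 152) (nat_lit 125152726196) (nat_lit 0) (nat_lit 149146893357) (nat_lit 1) (nat_lit 5) (nat_lit 3) (nat_lit 4) (nat_lit 1) (nat_lit 4) (nat_lit 380) (nat_lit 285) (nat_lit 235))) (XT.nd (nat_lit 78) (nat_lit 0) (nat_lit 0) (XT.lf (nat_lit 0) (nat_lit 168976433279) (nat_lit 152) (nat_lit 126315993094) (nat_lit 0) (nat_lit 165464375591) (nat_lit 1) (nat_lit 5) (nat_lit 3) (nat_lit 4) (nat_lit 1) (nat_lit 4) (nat_lit 381) (nat_lit 285) (nat_lit 234)) (XT.nd (nat_lit 78) (nat_lit 0) (nat_lit 0) (XT.lf (nat_lit 0) (nat_lit 186592576913) (nat_lit 152) (nat_lit 127598175643) (nat_lit 0) (nat_lit 183075279893) (nat_lit 1) (nat_lit 5) (nat_lit 3) (nat_lit 4) (nat_lit 1) (nat_lit 4) (nat_lit 382) (nat_lit 285) (nat_lit 233)) (XT.lf (nat_lit 0) (nat_lit 205606115430)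 (nat_lit 152) (nat_lit 129006871963) (nat_lit 0) (nat_lit 202083967178) (nat_lit 1) (nat_lit 5) (nat_lit 3) (nat_lit 4) (nat_lit 1) (nat_lit 4) (nat_lit 383) (nat_lit 285) (nat_lit 232)))))) (XT.nd (nat_lit 312) (nat_lit 0) (nat_lit 0) (XT.nd (nat_lit 156) (nat_lit 0) (nat_lit 0) (XT.nd (nat_lit 78) (nat_lit 0) (nat_lit 0) (XT.lf (nat_lit 0) (nat_lit 226129721653) (nat_lit 152) (nat_lit 130550429883) (nat_lit 0) (nat_lit 222603081517) (nat_lit 1) (nat_lit 5) (nat_lit 3) (nat_lit 4) (nat_lit 1) (nat_lit 4) (nat_lit 384) (nat_lit 285) (nat_lit 231)) (XT.lf (nat_lit 0) (nat_lit 248285016950) (nat_lit 152) (nat_lit 132237996414) (nat_lit 0) (nat_lit 244754217664) (nat_lit 1) (nat_lit 5) (nat_lit 3) (nat_lit 4) (nat_lit 1) (nat_lit 4) (nat_lit 385) (nat_lit 285) (nat_lit 230))) (XT.nd (nat_lit 78) (nat_lit 0) (nat_lit 0) (XT.lf (nat_lit 0) (nat_lit 272203291960) (nat_lit 152) (nat_lit 134079571950)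 (nat_lit 0) (nat_lit 268668641610) (nat_lit 1) (nat_lit 5) (nat_lit 3) (nat_lit 4) (nat_lit 1) (nat_lit 4) (nat_lit 386) (nat_lit 285) (nat_lit 229)) (XT.lf (nat_lit 0) (nat_lit 298026284611) (nat_lit 152) (nat_lit 136086069530) (nat_lit 0) (nat_lit 294488068459) (nat_lit 1) (nat_lit 5) (nat_lit 3) (nat_lit 4) (nat_lit 1) (nat_lit 4) (nat_lit 387) (nat_lit 285) (nat_lit 228)))) (XT.nd (nat_lit 156) (nat_lit 0) (nat_lit 0) (XT.nd (nat_lit 78) (nat_lit 0) (nat_lit 0) (XT.lf (nat_lit 0) (nat_lit 325907020042) (nat_lit 152) (nat_lit 138269379511) (nat_lit 0) (nat_lit 322365502223) (nat_lit 1) (nat_lit 5) (nat_lit 3) (nat_lit 4) (nat_lit 1) (nat_lit 4) (nat_lit 388) (nat_lit 285) (nat_lit 227)) (XT.lf (nat_lit 0) (nat_lit 356010717428) (nat_lit 152) (nat_lit 140642440026) (nat_lit 0) (nat_lit 352466142509) (nat_lit 1) (nat_lit 5) (nat_lit 3) (nat_lit 4) (nat_lit 1) (nat_lit 4) (nat_lit 389)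 (nat_lit 285) (nat_lit 226))) (XT.nd (nat_lit 78) (nat_lit 0) (nat_lit 0) (XT.lf (nat_lit 0) (nat_lit 388515769049) (nat_lit 152) (nat_lit 143219313656) (nat_lit 0) (nat_lit 384968363482) (nat_lit 1) (nat_lit 5) (nat_lit 3) (nat_lit 4) (nat_lit 1) (nat_lit 4) (nat_lit 390) (nat_lit 285) (nat_lit 225)) (XT.nd (nat_lit 78) (nat_lit 0) (nat_lit 0) (XT.lf (nat_lit 0) (nat_lit 423614797432) (nat_lit 152) (nat_lit 146015270764) (nat_lit 0) (nat_lit 420064770895) (nat_lit 1) (nat_lit 5) (nat_lit 3) (nat_lit 4) (nat_lit 1) (nat_lit 4) (nat_lit 391) (nat_lit 285) (nat_lit 224)) (XT.lf (nat_lit 0) (nat_lit 461515796822) (nat_lit 152) (nat_lit 149046879983) (nat_lit 0) (nat_lit 457963343460) (nat_lit 1) (nat_lit 5) (nat_lit 3) (nat_lit 4) (nat_lit 1) (nat_lit 4) (nat_lit 392) (nat_lit 285) (nat_lit 223))))))))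
noncomputable def xc55 : XT := (XT.nd (nat_lit 1404) (nat_lit 0) (nat_lit 0) (XT.nd (nat_lit 702) (nat_lit 0) (nat_lit 0) (XT.nd (nat_lit 312) (nat_lit 0) (nat_lit 0) (XT.nd (nat_lit 156) (nat_lit 0) (nat_lit 0) (XT.nd (nat_lit 78) (nat_lit 0) (nat_lit 0) (XT.lf (nat_lit 0) (nat_lit 502443365731) (nat_lit 152) (nat_lit 152332106406) (nat_lit 0) (nat_lit 498888665310) (nat_lit 1) (nat_lit 5) (nat_lit 3) (nat_lit 4) (nat_lit 1) (nat_lit 4) (nat_lit 393) (nat_lit 285) (nat_lit 222)) (XT.lf (nat_lit 0) (nat_lit 546640037903) (nat_lit 152) (nat_lit 155890418040) (nat_lit 0) (nat_lit 543083256871) (nat_lit 1) (nat_lit 5) (nat_lit 3) (nat_lit 4) (nat_lit 1) (nat_lit 4) (nat_lit 394) (nat_lit 285) (nat_lit 221))) (XT.nd (nat_lit 78) (nat_lit 0) (nat_lit 0) (XT.lf (nat_lit 0) (nat_lit 594367719541) (nat_lit 152) (nat_lit 159742901178) (nat_lit 0) (nat_lit 590809012018) (nat_lit 1) (nat_lit 5)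 (nat_lit 3) (nat_lit 4) (nat_lit 1) (nat_lit 4) (nat_lit 395) (nat_lit 285) (nat_lit 220)) (XT.lf (nat_lit 0) (nat_lit 645909241354) (nat_lit 152) (nat_lit 163912385349) (nat_lit 0) (nat_lit 642348750042) (nat_lit 1) (nat_lit 5) (nat_lit 3) (nat_lit 4) (nat_lit 1) (nat_lit 4) (nat_lit 396) (nat_lit 285) (nat_lit 219)))) (XT.nd (nat_lit 156) (nat_lit 0) (nat_lit 0) (XT.nd (nat_lit 78) (nat_lit 0) (nat_lit 0) (XT.lf (nat_lit 0) (nat_lit 701570034580) (nat_lit 152) (nat_lit 168423578607) (nat_lit 0) (nat_lit 698007891612) (nat_lit 1) (nat_lit 5) (nat_lit 3) (nat_lit 4) (nat_lit 1) (nat_lit 4) (nat_lit 397) (nat_lit 285) (nat_lit 218)) (XT.lf (nat_lit 0) (nat_lit 761679940957) (nat_lit 152) (nat_lit 173303213950) (nat_lit 0) (nat_lit 758116268679) (nat_lit 1) (nat_lit 5) (nat_lit 3) (nat_lit 4) (nat_lit 1) (nat_lit 4) (nat_lit 398) (nat_lit 285) (nat_lit 217))) (XT.nd (nat_lit 78) (nat_lit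 0) (nat_lit 0) (XT.lf (nat_lit 0) (nat_lit 826595167339) (nat_lit 152) (nat_lit 178580207734) (nat_lit 0) (nat_lit 823030079032) (nat_lit 1) (nat_lit 5) (nat_lit 3) (nat_lit 4) (nat_lit 1) (nat_lit 4) (nat_lit 399) (nat_lit 285) (nat_lit 216)) (XT.nd (nat_lit 78) (nat_lit 0) (nat_lit 0) (XT.lf (nat_lit 0) (nat_lit 896700396547) (nat_lit 152) (nat_lit 184285831034) (nat_lit 0) (nat_lit 893133997103) (nat_lit 1) (nat_lit 5) (nat_lit 3) (nat_lit 4) (nat_lit 1) (nat_lit 4) (nat_lit 400) (nat_lit 285) (nat_lit 215)) (XT.lf (nat_lit 0) (nat_lit 972411066978) (nat_lit 152) (nat_lit 190453894952) (nat_lit 0) (nat_lit 968843453517) (nat_lit 1) (nat_lit 5) (nat_lit 3) (nat_lit 4) (nat_lit 1) (nat_lit 4) (nat_lit 401) (nat_lit 285) (nat_lit 214)))))) (XT.nd (nat_lit 312) (nat_lit 0) (nat_lit 0) (XT.nd (nat_lit 156) (nat_lit 0) (nat_lit 0) (XT.nd (nat_lit 78) (nat_lit 0) (nat_lit 0) (XT.lf (nat_lit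 0) (nat_lit 1054175834456) (nat_lit 152) (nat_lit 197120950976) (nat_lit 0) (nat_lit 1050607096906) (nat_lit 1) (nat_lit 5) (nat_lit 3) (nat_lit 4) (nat_lit 1) (nat_lit 4) (nat_lit 402) (nat_lit 285) (nat_lit 213)) (XT.lf (nat_lit 0) (nat_lit 1142479230937) (nat_lit 152) (nat_lit 204326507588) (nat_lit 0) (nat_lit 1138909452563) (nat_lit 1) (nat_lit 5) (nat_lit 3) (nat_lit 4) (nat_lit 1) (nat_lit 4) (nat_lit 403) (nat_lit 285) (nat_lit 212))) (XT.nd (nat_lit 78) (nat_lit 0) (nat_lit 0) (XT.lf (nat_lit 0) (nat_lit 1237844535807) (nat_lit 152) (nat_lit 212113264382) (nat_lit 0) (nat_lit 1234273793708) (nat_lit 1) (nat_lit 5) (nat_lit 3) (nat_lit 4) (nat_lit 1) (nat_lit 4) (nat_lit 404) (nat_lit 285) (nat_lit 211)) (XT.lf (nat_lit 0) (nat_lit 1340836876798) (nat_lit 152) (nat_lit 220527365102) (nat_lit 0) (nat_lit 1337265242361) (nat_lit 1) (nat_lit 5) (nat_lit 3) (nat_lit 4) (nat_lit 1)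 (nat_lit 4) (nat_lit 405) (nat_lit 285) (nat_lit 210)))) (XT.nd (nat_lit 156) (nat_lit 0) (nat_lit 0) (XT.nd (nat_lit 78) (nat_lit 0) (nat_lit 0) (XT.lf (nat_lit 0) (nat_lit 1452066578895) (nat_lit 152) (nat_lit 229618671085) (nat_lit 0) (nat_lit 1448494118218) (nat_lit 1) (nat_lit 5) (nat_lit 3) (nat_lit 4) (nat_lit 1) (nat_lit 4) (nat_lit 406) (nat_lit 285) (nat_lit 209)) (XT.lf (nat_lit 0) (nat_lit 1572192781072) (nat_lit 152) (nat_lit 239441056737) (nat_lit 0) (nat_lit 1568619555360) (nat_lit 1) (nat_lit 5) (nat_lit 3) (nat_lit 4) (nat_lit 1) (nat_lit 4) (nat_lit 407) (nat_lit 285) (nat_lit 208))) (XT.nd (nat_lit 78) (nat_lit 0) (nat_lit 0) (XT.lf (nat_lit 0) (nat_lit 1701927342306) (nat_lit 152) (nat_lit 250052728789) (nat_lit 0) (nat_lit 1698353408227) (nat_lit 1) (nat_lit 5) (nat_lit 3) (nat_lit 4) (nat_lit 1) (nat_lit 4) (nat_lit 408) (nat_lit 285) (nat_lit 207)) (XT.nd (nat_lit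 78) (nat_lit 0) (nat_lit 0) (XT.lf (nat_lit 0) (nat_lit 1842039059997) (nat_lit 152) (nat_lit 261516571222) (nat_lit 0) (nat_lit 1838464470022) (nat_lit 1) (nat_lit 5) (nat_lit 3) (nat_lit 4) (nat_lit 1) (nat_lit 4) (nat_lit 409) (nat_lit 285) (nat_lit 206)) (XT.lf (nat_lit 0) (nat_lit 1993358225804) (nat_lit 152) (nat_lit 273900517919) (nat_lit 0) (nat_lit 1989783028519) (nat_lit 1) (nat_lit 5) (nat_lit 3) (nat_lit 4) (nat_lit 1) (nat_lit 4) (nat_lit 410) (nat_lit 285) (nat_lit 205))))))) (XT.nd (nat_lit 40560) (nat_lit 0) (nat_lit 684) (XT.nd (nat_lit 312) (nat_lit 0) (nat_lit 0) (XT.nd (nat_lit 156) (nat_lit 0) (nat_lit 0) (XT.nd (nat_lit 78) (nat_lit 0) (nat_lit 0) (XT.lf (nat_lit 0) (nat_lit 2156781545896) (nat_lit 152) (nat_lit 287277955228) (nat_lit 0) (nat_lit 2153205786286) (nat_lit 1) (nat_lit 5) (nat_lit 3) (nat_lit 4) (nat_lit 1) (nat_lit 4) (nat_lit 411) (nat_lit 285) (nat_lit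 204)) (XT.lf (nat_lit 0) (nat_lit 2333277454762) (nat_lit 152) (nat_lit 301728156854) (nat_lit 0) (nat_lit 2329701174482) (nat_lit 1) (nat_lit 5) (nat_lit 3) (nat_lit 4) (nat_lit 1) (nat_lit 4) (nat_lit 412) (nat_lit 285) (nat_lit 203))) (XT.nd (nat_lit 78) (nat_lit 0) (nat_lit 0) (XT.lf (nat_lit 0) (nat_lit 2523891854084) (nat_lit 152) (nat_lit 317336753621) (nat_lit 0) (nat_lit 2520315091701) (nat_lit 1) (nat_lit 5) (nat_lit 3) (nat_lit 4) (nat_lit 1) (nat_lit 4) (nat_lit 413) (nat_lit 285) (nat_lit 202)) (XT.lf (nat_lit 0) (nat_lit 2729754310674) (nat_lit 152) (nat_lit 334196240916) (nat_lit 0) (nat_lit 2726177101899) (nat_lit 1) (nat_lit 5) (nat_lit 3) (nat_lit 4) (nat_lit 1) (nat_lit 4) (nat_lit 414) (nat_lit 285) (nat_lit 201)))) (XT.nd (nat_lit 156) (nat_lit 0) (nat_lit 0) (XT.nd (nat_lit 78) (nat_lit 0) (nat_lit 0) (XT.lf (nat_lit 0) (nat_lit 2952084750198) (nat_lit 152) (nat_lit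 352406526813) (nat_lit 0) (nat_lit 2948507128099) (nat_lit 1) (nat_lit 5) (nat_lit 3) (nat_lit 4) (nat_lit 1) (nat_lit 4) (nat_lit 415) (nat_lit 285) (nat_lit 200)) (XT.lf (nat_lit 0) (nat_lit 3192200686375) (nat_lit 152) (nat_lit 372075524117) (nat_lit 0) (nat_lit 3188622681567) (nat_lit 1) (nat_lit 5) (nat_lit 3) (nat_lit 4) (nat_lit 1) (nat_lit 4) (nat_lit 416) (nat_lit 285) (nat_lit 199))) (XT.nd (nat_lit 39936) (nat_lit 0) (nat_lit 1368) (XT.lf (nat_lit 0) (nat_lit 3451525028454) (nat_lit 152) (nat_lit 393319789848) (nat_lit 0) (nat_lit 3447946669286) (nat_lit 1) (nat_lit 5) (nat_lit 3) (nat_lit 4) (nat_lit 1) (nat_lit 4) (nat_lit 417) (nat_lit 285) (nat_lit 198)) (XT.nd (nat_lit 78) (nat_lit 0) (nat_lit 0) (XT.lf (nat_lit 0) (nat_lit 621429028) (nat_lit 152) (nat_lit 5329457559) (nat_lit 0) (nat_lit 621429028) (nat_lit 19) (nat_lit 5) (nat_lit 21) (nat_lit 4) (nat_lit 19) (nat_lit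 4) (nat_lit 328) (nat_lit 286) (nat_lit 286)) (XT.lf (nat_lit 0) (nat_lit 6493009796) (nat_lit 152) (nat_lit 1211045454) (nat_lit 0) (nat_lit 6038174969) (nat_lit 19) (nat_lit 5) (nat_lit 21) (nat_lit 4) (nat_lit 19) (nat_lit 4) (nat_lit 329) (nat_lit 286) (nat_lit 285)))))) (XT.nd (nat_lit 312) (nat_lit 380) (nat_lit 0) (XT.nd (nat_lit 156) (nat_lit 76) (nat_lit 0) (XT.nd (nat_lit 78) (nat_lit 152) (nat_lit 0) (XT.lf (nat_lit 0) (nat_lit 8937512464) (nat_lit 76) (nat_lit 3165520812) (nat_lit 76) (nat_lit 2289542627) (nat_lit 18) (nat_lit 4) (nat_lit 19) (nat_lit 5) (nat_lit 19) (nat_lit 4) (nat_lit 330) (nat_lit 286) (nat_lit 284)) (XT.lf (nat_lit 0) (nat_lit 2824533528) (nat_lit 152) (nat_lit 10619360790) (nat_lit 0) (nat_lit 1652380066) (nat_lit 16) (nat_lit 5) (nat_lit 18) (nat_lit 4) (nat_lit 16) (nat_lit 4) (nat_lit 331) (nat_lit 286) (nat_lit 283))) (XT.nd (nat_lit 78) (nat_lit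 76) (nat_lit 0) (XT.lf (nat_lit 0) (nat_lit 8188775306) (nat_lit 152) (nat_lit 983353786) (nat_lit 0) (nat_lit 6682304667) (nat_lit 16) (nat_lit 5) (nat_lit 18) (nat_lit 4) (nat_lit 16) (nat_lit 4) (nat_lit 332) (nat_lit 286) (nat_lit 282)) (XT.lf (nat_lit 0) (nat_lit 9425463057) (nat_lit 76) (nat_lit 4532901744) (nat_lit 76) (nat_lit 2716878164) (nat_lit 15) (nat_lit 4) (nat_lit 16) (nat_lit 5) (nat_lit 16) (nat_lit 4) (nat_lit 333) (nat_lit 286) (nat_lit 281)))) (XT.nd (nat_lit 156) (nat_lit 228) (nat_lit 0) (XT.nd (nat_lit 78) (nat_lit 0) (nat_lit 0) (XT.lf (nat_lit 0) (nat_lit 2351402337) (nat_lit 152) (nat_lit 14812427679) (nat_lit 0) (nat_lit 404507270) (nat_lit 13) (nat_lit 5) (nat_lit 15) (nat_lit 4) (nat_lit 13) (nat_lit 4) (nat_lit 334) (nat_lit 286) (nat_lit 280)) (XT.lf (nat_lit 0) (nat_lit 7752360420) (nat_lit 152) (nat_lit 5209295674) (nat_lit 0) (nat_lit 5559732248) (nat_lit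 13) (nat_lit 5) (nat_lit 15) (nat_lit 4) (nat_lit 13) (nat_lit 4) (nat_lit 335) (nat_lit 286) (nat_lit 279))) (XT.nd (nat_lit 78) (nat_lit 152) (nat_lit 0) (XT.lf (nat_lit 0) (nat_lit 4972716991) (nat_lit 76) (nat_lit 8503465615) (nat_lit 76) (nat_lit 6083306791) (nat_lit 12) (nat_lit 4) (nat_lit 13) (nat_lit 5) (nat_lit 13) (nat_lit 4) (nat_lit 336) (nat_lit 286) (nat_lit 278)) (XT.nd (nat_lit 78) (nat_lit 152) (nat_lit 0) (XT.lf (nat_lit 0) (nat_lit 15838514369) (nat_lit 76) (nat_lit 3739699529) (nat_lit 76) (nat_lit 1108864175) (nat_lit 12) (nat_lit 4) (nat_lit 13) (nat_lit 5) (nat_lit 13) (nat_lit 4) (nat_lit 337) (nat_lit 286) (nat_lit 277)) (XT.lf (nat_lit 0) (nat_lit 4004953497) (nat_lit 152) (nat_lit 16507022425) (nat_lit 0) (nat_lit 1388373668) (nat_lit 10) (nat_lit 5) (nat_lit 12) (nat_lit 4) (nat_lit 10) (nat_lit 4) (nat_lit 338) (nat_lit 286) (nat_lit 276))))))))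
noncomputable def xc56 : XT := (XT.nd (nat_lit 1404) (nat_lit 152) (nat_lit 0) (XT.nd (nat_lit 702) (nat_lit 228) (nat_lit 0) (XT.nd (nat_lit 312) (nat_lit 152) (nat_lit 0) (XT.nd (nat_lit 156) (nat_lit 76) (nat_lit 0) (XT.nd (nat_lit 78) (nat_lit 76) (nat_lit 0) (XT.lf (nat_lit 0) (nat_lit 9491546894) (nat_lit 152) (nat_lit 7007270985) (nat_lit 0) (nat_lit 6707725243) (nat_lit 10) (nat_lit 5) (nat_lit 12) (nat_lit 4) (nat_lit 10) (nat_lit 4) (nat_lit 339) (nat_lit 286) (nat_lit 275)) (XT.lf (nat_lit 0) (nat_lit 3025936667) (nat_lit 76) (nat_lit 12269859638) (nat_lit 76) (nat_lit 9331184448) (nat_lit 9) (nat_lit 4) (nat_lit 10) (nat_lit 5) (nat_lit 10) (nat_lit 4) (nat_lit 340) (nat_lit 286) (nat_lit 274))) (XT.nd (nat_lit 78) (nat_lit 76) (nat_lit 0) (XT.lf (nat_lit 0) (nat_lit 13891984058) (nat_lit 76) (nat_lit 7675462974) (nat_lit 76) (nat_lit 4593404878) (nat_lit 9) (nat_lit 4) (nat_lit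 10) (nat_lit 5) (nat_lit 10) (nat_lit 4) (nat_lit 341) (nat_lit 286) (nat_lit 273)) (XT.lf (nat_lit 0) (nat_lit 318077602) (nat_lit 152) (nat_lit 2553218633) (nat_lit 76) (nat_lit 24959497698) (nat_lit 8) (nat_lit 5) (nat_lit 10) (nat_lit 5) (nat_lit 9) (nat_lit 4) (nat_lit 342) (nat_lit 286) (nat_lit 272)))) (XT.nd (nat_lit 156) (nat_lit 76) (nat_lit 0) (XT.nd (nat_lit 78) (nat_lit 0) (nat_lit 0) (XT.lf (nat_lit 0) (nat_lit 5458156072) (nat_lit 152) (nat_lit 21792308864) (nat_lit 0) (nat_lit 2367648870) (nat_lit 7) (nat_lit 5) (nat_lit 9) (nat_lit 4) (nat_lit 7) (nat_lit 4) (nat_lit 343) (nat_lit 286) (nat_lit 271)) (XT.lf (nat_lit 0) (nat_lit 10990722548) (nat_lit 152) (nat_lit 12764401473) (nat_lit 0) (nat_lit 7794824630) (nat_lit 7) (nat_lit 5) (nat_lit 9) (nat_lit 4) (nat_lit 7) (nat_lit 4) (nat_lit 344) (nat_lit 286) (nat_lit 270))) (XT.nd (nat_lit 78) (nat_lit 76) (nat_lit 0) (XT.lf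 (nat_lit 0) (nat_lit 16813190498) (nat_lit 152) (nat_lit 3315677064) (nat_lit 0) (nat_lit 13519708583) (nat_lit 7) (nat_lit 5) (nat_lit 9) (nat_lit 4) (nat_lit 7) (nat_lit 4) (nat_lit 345) (nat_lit 286) (nat_lit 269)) (XT.nd (nat_lit 78) (nat_lit 0) (nat_lit 0) (XT.lf (nat_lit 0) (nat_lit 6957920149) (nat_lit 76) (nat_lit 16169481433) (nat_lit 76) (nat_lit 12785643965) (nat_lit 6) (nat_lit 4) (nat_lit 7) (nat_lit 5) (nat_lit 7) (nat_lit 4) (nat_lit 346) (nat_lit 286) (nat_lit 268)) (XT.lf (nat_lit 0) (nat_lit 17969947671) (nat_lit 76) (nat_lit 11929997277) (nat_lit 76) (nat_lit 8462497260) (nat_lit 6) (nat_lit 4) (nat_lit 7) (nat_lit 5) (nat_lit 7) (nat_lit 4) (nat_lit 347) (nat_lit 286) (nat_lit 267)))))) (XT.nd (nat_lit 312) (nat_lit 76) (nat_lit 0) (XT.nd (nat_lit 156) (nat_lit 76) (nat_lit 0) (XT.nd (nat_lit 78) (nat_lit 76) (nat_lit 0) (XT.lf (nat_lit 0) (nat_lit 29611064281) (nat_lit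 76) (nat_lit 7475948712) (nat_lit 76) (nat_lit 3930983373) (nat_lit 6) (nat_lit 4) (nat_lit 7) (nat_lit 5) (nat_lit 7) (nat_lit 4) (nat_lit 348) (nat_lit 286) (nat_lit 266)) (XT.lf (nat_lit 0) (nat_lit 793943457) (nat_lit 152) (nat_lit 1965290098) (nat_lit 76) (nat_lit 41134603096) (nat_lit 5) (nat_lit 5) (nat_lit 7) (nat_lit 5) (nat_lit 6) (nat_lit 4) (nat_lit 349) (nat_lit 286) (nat_lit 265))) (XT.nd (nat_lit 78) (nat_lit 0) (nat_lit 0) (XT.lf (nat_lit 0) (nat_lit 5834072037) (nat_lit 152) (nat_lit 38721767622) (nat_lit 0) (nat_lit 2423788223) (nat_lit 4) (nat_lit 5) (nat_lit 6) (nat_lit 4) (nat_lit 4) (nat_lit 4) (nat_lit 350) (nat_lit 286) (nat_lit 264)) (XT.lf (nat_lit 0) (nat_lit 11292746935) (nat_lit 152) (nat_lit 31192802041) (nat_lit 0) (nat_lit 7825523797) (nat_lit 4) (nat_lit 5) (nat_lit 6) (nat_lit 4) (nat_lit 4) (nat_lit 4) (nat_lit 351) (nat_lit 286) (nat_lit 263)))) (XT.nd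 (nat_lit 156) (nat_lit 76) (nat_lit 0) (XT.nd (nat_lit 78) (nat_lit 0) (nat_lit 0) (XT.lf (nat_lit 0) (nat_lit 17084909726) (nat_lit 152) (nat_lit 23267430994) (nat_lit 0) (nat_lit 13564964990) (nat_lit 4) (nat_lit 5) (nat_lit 6) (nat_lit 4) (nat_lit 4) (nat_lit 4) (nat_lit 352) (nat_lit 286) (nat_lit 262)) (XT.lf (nat_lit 0) (nat_lit 23244884336) (nat_lit 152) (nat_lit 14898689320) (nat_lit 0) (nat_lit 19676123307) (nat_lit 4) (nat_lit 5) (nat_lit 6) (nat_lit 4) (nat_lit 4) (nat_lit 4) (nat_lit 353) (nat_lit 286) (nat_lit 261))) (XT.nd (nat_lit 78) (nat_lit 76) (nat_lit 0) (XT.lf (nat_lit 0) (nat_lit 29809174320) (nat_lit 152) (nat_lit 6036984476) (nat_lit 0) (nat_lit 26195213018) (nat_lit 4) (nat_lit 5) (nat_lit 6) (nat_lit 4) (nat_lit 4) (nat_lit 4) (nat_lit 354) (nat_lit 286) (nat_lit 260)) (XT.nd (nat_lit 78) (nat_lit 0) (nat_lit 0) (XT.lf (nat_lit 0) (nat_lit 3547665965) (nat_lit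 76) (nat_lit 33354334659) (nat_lit 76) (nat_lit 29698521254) (nat_lit 3) (nat_lit 4) (nat_lit 4) (nat_lit 5) (nat_lit 4) (nat_lit 4) (nat_lit 355) (nat_lit 286) (nat_lit 259)) (XT.lf (nat_lit 0) (nat_lit 14083095900) (nat_lit 76) (nat_lit 30564527743) (nat_lit 76) (nat_lit 26869962390) (nat_lit 3) (nat_lit 4) (nat_lit 4) (nat_lit 5) (nat_lit 4) (nat_lit 4) (nat_lit 356) (nat_lit 286) (nat_lit 258))))))) (XT.nd (nat_lit 702) (nat_lit 0) (nat_lit 0) (XT.nd (nat_lit 312) (nat_lit 152) (nat_lit 0) (XT.nd (nat_lit 156) (nat_lit 0) (nat_lit 0) (XT.nd (nat_lit 78) (nat_lit 0) (nat_lit 0) (XT.lf (nat_lit 0) (nat_lit 25313840603) (nat_lit 76) (nat_lit 27625267713) (nat_lit 76) (nat_lit 23894820927) (nat_lit 3) (nat_lit 4) (nat_lit 4) (nat_lit 5) (nat_lit 4) (nat_lit 4) (nat_lit 357) (nat_lit 286) (nat_lit 257)) (XT.lf (nat_lit 0) (nat_lit 37306452635) (nat_lit 76) (nat_lit 24519136733) (nat_lit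 76) (nat_lit 20755466398) (nat_lit 3) (nat_lit 4) (nat_lit 4) (nat_lit 5) (nat_lit 4) (nat_lit 4) (nat_lit 358) (nat_lit 286) (nat_lit 256))) (XT.nd (nat_lit 78) (nat_lit 0) (nat_lit 0) (XT.lf (nat_lit 0) (nat_lit 50131999326) (nat_lit 76) (nat_lit 21227728099) (nat_lit 76) (nat_lit 17433295218) (nat_lit 3) (nat_lit 4) (nat_lit 4) (nat_lit 5) (nat_lit 4) (nat_lit 4) (nat_lit 359) (nat_lit 286) (nat_lit 255)) (XT.lf (nat_lit 0) (nat_lit 63866483916) (nat_lit 76) (nat_lit 17731537168) (nat_lit 76) (nat_lit 13908620449) (nat_lit 3) (nat_lit 4) (nat_lit 4) (nat_lit 5) (nat_lit 4) (nat_lit 4) (nat_lit 360) (nat_lit 286) (nat_lit 254)))) (XT.nd (nat_lit 156) (nat_lit 152) (nat_lit 0) (XT.nd (nat_lit 78) (nat_lit 0) (nat_lit 0) (XT.lf (nat_lit 0) (nat_lit 78591295943) (nat_lit 76) (nat_lit 14009845773) (nat_lit 76) (nat_lit 10160555129) (nat_lit 3) (nat_lit 4) (nat_lit 4) (nat_lit 5) (nat_lit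 4) (nat_lit 4) (nat_lit 361) (nat_lit 286) (nat_lit 253)) (XT.lf (nat_lit 0) (nat_lit 94393693552) (nat_lit 76) (nat_lit 10040599444) (nat_lit 76) (nat_lit 6166888500) (nat_lit 3) (nat_lit 4) (nat_lit 4) (nat_lit 5) (nat_lit 4) (nat_lit 4) (nat_lit 362) (nat_lit 286) (nat_lit 252))) (XT.nd (nat_lit 78) (nat_lit 152) (nat_lit 0) (XT.lf (nat_lit 0) (nat_lit 111367320582) (nat_lit 76) (nat_lit 5800276722) (nat_lit 76) (nat_lit 1903954389) (nat_lit 3) (nat_lit 4) (nat_lit 4) (nat_lit 5) (nat_lit 4) (nat_lit 4) (nat_lit 363) (nat_lit 286) (nat_lit 251)) (XT.nd (nat_lit 78) (nat_lit 0) (nat_lit 0) (XT.lf (nat_lit 0) (nat_lit 1395764079) (nat_lit 76) (nat_lit 1158573845) (nat_lit 152) (nat_lit 125660873490) (nat_lit 1) (nat_lit 5) (nat_lit 2) (nat_lit 5) (nat_lit 3) (nat_lit 4) (nat_lit 364) (nat_lit 286) (nat_lit 250)) (XT.lf (nat_lit 0) (nat_lit 7531231647) (nat_lit 152) (nat_lit 126647806840)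 (nat_lit 0) (nat_lit 3886190512) (nat_lit 1) (nat_lit 5) (nat_lit 3) (nat_lit 4) (nat_lit 1) (nat_lit 4) (nat_lit 365) (nat_lit 286) (nat_lit 249)))))) (XT.nd (nat_lit 312) (nat_lit 0) (nat_lit 0) (XT.nd (nat_lit 156) (nat_lit 0) (nat_lit 0) (XT.nd (nat_lit 78) (nat_lit 0) (nat_lit 0) (XT.lf (nat_lit 0) (nat_lit 12895612602) (nat_lit 152) (nat_lit 126574542144) (nat_lit 0) (nat_lit 9233951420) (nat_lit 1) (nat_lit 5) (nat_lit 3) (nat_lit 4) (nat_lit 1) (nat_lit 4) (nat_lit 366) (nat_lit 286) (nat_lit 248)) (XT.lf (nat_lit 0) (nat_lit 18651405984) (nat_lit 152) (nat_lit 126571355356) (nat_lit 0) (nat_lit 14974355870) (nat_lit 1) (nat_lit 5) (nat_lit 3) (nat_lit 4) (nat_lit 1) (nat_lit 4) (nat_lit 367) (nat_lit 286) (nat_lit 247))) (XT.nd (nat_lit 78) (nat_lit 0) (nat_lit 0) (XT.lf (nat_lit 0) (nat_lit 24832720198) (nat_lit 152) (nat_lit 126638227593) (nat_lit 0) (nat_lit 21141421073) (nat_lit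 1) (nat_lit 5) (nat_lit 3) (nat_lit 4) (nat_lit 1) (nat_lit 4) (nat_lit 368) (nat_lit 286) (nat_lit 246)) (XT.lf (nat_lit 0) (nat_lit 31476185255) (nat_lit 152) (nat_lit 126775555134) (nat_lit 0) (nat_lit 27771692602) (nat_lit 1) (nat_lit 5) (nat_lit 3) (nat_lit 4) (nat_lit 1) (nat_lit 4) (nat_lit 369) (nat_lit 286) (nat_lit 245)))) (XT.nd (nat_lit 156) (nat_lit 0) (nat_lit 0) (XT.nd (nat_lit 78) (nat_lit 0) (nat_lit 0) (XT.lf (nat_lit 0) (nat_lit 38621169836) (nat_lit 152) (nat_lit 126984151771) (nat_lit 0) (nat_lit 34904460953) (nat_lit 1) (nat_lit 5) (nat_lit 3) (nat_lit 4) (nat_lit 1) (nat_lit 4) (nat_lit 370) (nat_lit 286) (nat_lit 244)) (XT.lf (nat_lit 0) (nat_lit 46310014591) (nat_lit 152) (nat_lit 127265253634) (nat_lit 0) (nat_lit 42581994384) (nat_lit 1) (nat_lit 5) (nat_lit 3) (nat_lit 4) (nat_lit 1) (nat_lit 4) (nat_lit 371) (nat_lit 286) (nat_lit 243))) (XT.nd (nat_lit 78)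 (nat_lit 0) (nat_lit 0) (XT.lf (nat_lit 0) (nat_lit 54588283045) (nat_lit 152) (nat_lit 127620526510) (nat_lit 0) (nat_lit 50849789390) (nat_lit 1) (nat_lit 5) (nat_lit 3) (nat_lit 4) (nat_lit 1) (nat_lit 4) (nat_lit 372) (nat_lit 286) (nat_lit 242)) (XT.nd (nat_lit 78) (nat_lit 0) (nat_lit 0) (XT.lf (nat_lit 0) (nat_lit 63505031603) (nat_lit 152) (nat_lit 128052075722) (nat_lit 0) (nat_lit 59756840310) (nat_lit 1) (nat_lit 5) (nat_lit 3) (nat_lit 4) (nat_lit 1) (nat_lit 4) (nat_lit 373) (nat_lit 286) (nat_lit 241)) (XT.lf (nat_lit 0) (nat_lit 73113100256) (nat_lit 152) (nat_lit 128562458596) (nat_lit 0) (nat_lit 69355929669) (nat_lit 1) (nat_lit 5) (nat_lit 3) (nat_lit 4) (nat_lit 1) (nat_lit 4) (nat_lit 374) (nat_lit 286) (nat_lit 240))))))))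
noncomputable def xc57 : XT := (XT.nd (nat_lit 1404) (nat_lit 0) (nat_lit 0) (XT.nd (nat_lit 702) (nat_lit 0) (nat_lit 0) (XT.nd (nat_lit 312) (nat_lit 0) (nat_lit 0) (XT.nd (nat_lit 156) (nat_lit 0) (nat_lit 0) (XT.nd (nat_lit 78) (nat_lit 0) (nat_lit 0) (XT.lf (nat_lit 0) (nat_lit 83469425707) (nat_lit 152) (nat_lit 129154699625) (nat_lit 0) (nat_lit 79703940960) (nat_lit 1) (nat_lit 5) (nat_lit 3) (nat_lit 4) (nat_lit 1) (nat_lit 4) (nat_lit 375) (nat_lit 286) (nat_lit 239)) (XT.lf (nat_lit 0) (nat_lit 94635378775) (nat_lit 152) (nat_lit 129832308385) (nat_lit 0) (nat_lit 90862195730) (nat_lit 1) (nat_lit 5) (nat_lit 3) (nat_lit 4) (nat_lit 1) (nat_lit 4) (nat_lit 376) (nat_lit 286) (nat_lit 238))) (XT.nd (nat_lit 78) (nat_lit 0) (nat_lit 0) (XT.lf (nat_lit 0) (nat_lit 106677128069) (nat_lit 152) (nat_lit 130599300336) (nat_lit 0) (nat_lit 102896816972) (nat_lit 1) (nat_lit 5) (nat_lit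 3) (nat_lit 4) (nat_lit 1) (nat_lit 4) (nat_lit 377) (nat_lit 286) (nat_lit 237)) (XT.lf (nat_lit 0) (nat_lit 119666032105) (nat_lit 152) (nat_lit 131460220614) (nat_lit 0) (nat_lit 115879120959) (nat_lit 1) (nat_lit 5) (nat_lit 3) (nat_lit 4) (nat_lit 1) (nat_lit 4) (nat_lit 378) (nat_lit 286) (nat_lit 236)))) (XT.nd (nat_lit 156) (nat_lit 0) (nat_lit 0) (XT.nd (nat_lit 78) (nat_lit 0) (nat_lit 0) (XT.lf (nat_lit 0) (nat_lit 133679062165) (nat_lit 152) (nat_lit 132420170969) (nat_lit 0) (nat_lit 129886039862) (nat_lit 1) (nat_lit 5) (nat_lit 3) (nat_lit 4) (nat_lit 1) (nat_lit 4) (nat_lit 379) (nat_lit 286) (nat_lit 235)) (XT.lf (nat_lit 0) (nat_lit 148799258427) (nat_lit 152) (nat_lit 133484839997) (nat_lit 0) (nat_lit 145000577646) (nat_lit 1) (nat_lit 5) (nat_lit 3) (nat_lit 4) (nat_lit 1) (nat_lit 4) (nat_lit 380) (nat_lit 286) (nat_lit 234))) (XT.nd (nat_lit 78) (nat_lit 0) (nat_lit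 0) (XT.lf (nat_lit 0) (nat_lit 165116222055) (nat_lit 152) (nat_lit 134660536846) (nat_lit 0) (nat_lit 161312301943) (nat_lit 1) (nat_lit 5) (nat_lit 3) (nat_lit 4) (nat_lit 1) (nat_lit 4) (nat_lit 381) (nat_lit 286) (nat_lit 233)) (XT.nd (nat_lit 78) (nat_lit 0) (nat_lit 0) (XT.lf (nat_lit 0) (nat_lit 182726646167) (nat_lit 152) (nat_lit 135954228611) (nat_lit 0) (nat_lit 178917874821) (nat_lit 1) (nat_lit 5) (nat_lit 3) (nat_lit 4) (nat_lit 1) (nat_lit 4) (nat_lit 382) (nat_lit 286) (nat_lit 232)) (XT.lf (nat_lit 0) (nat_lit 201734888830) (nat_lit 152) (nat_lit 137373581611) (nat_lit 0) (nat_lit 197921625602) (nat_lit 1) (nat_lit 5) (nat_lit 3) (nat_lit 4) (nat_lit 1) (nat_lit 4) (nat_lit 383) (nat_lit 286) (nat_lit 231)))))) (XT.nd (nat_lit 312) (nat_lit 0) (nat_lit 0) (XT.nd (nat_lit 156) (nat_lit 0) (nat_lit 0) (XT.nd (nat_lit 78) (nat_lit 0) (nat_lit 0) (XT.lf (nat_lit 0) (nat_lit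 222253591484) (nat_lit 152) (nat_lit 138927006828) (nat_lit 0) (nat_lit 218436169105) (nat_lit 1) (nat_lit 5) (nat_lit 3) (nat_lit 4) (nat_lit 1) (nat_lit 4) (nat_lit 384) (nat_lit 286) (nat_lit 230)) (XT.lf (nat_lit 0) (nat_lit 244404346439) (nat_lit 152) (nat_lit 140623709744) (nat_lit 0) (nat_lit 240583072995) (nat_lit 1) (nat_lit 5) (nat_lit 3) (nat_lit 4) (nat_lit 1) (nat_lit 4) (nat_lit 385) (nat_lit 286) (nat_lit 229))) (XT.nd (nat_lit 78) (nat_lit 0) (nat_lit 0) (XT.lf (nat_lit 0) (nat_lit 268318417430) (nat_lit 152) (nat_lit 142473744896) (nat_lit 0) (nat_lit 264493578185) (nat_lit 1) (nat_lit 5) (nat_lit 3) (nat_lit 4) (nat_lit 1) (nat_lit 4) (nat_lit 386) (nat_lit 286) (nat_lit 228)) (XT.lf (nat_lit 0) (nat_lit 294137517470) (nat_lit 152) (nat_lit 144488075454) (nat_lit 0) (nat_lit 290309376557) (nat_lit 1) (nat_lit 5) (nat_lit 3) (nat_lit 4) (nat_lit 1) (nat_lit 4) (nat_lit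 387) (nat_lit 286) (nat_lit 227)))) (XT.nd (nat_lit 156) (nat_lit 0) (nat_lit 0) (XT.nd (nat_lit 78) (nat_lit 0) (nat_lit 0) (XT.lf (nat_lit 0) (nat_lit 322014648632) (nat_lit 152) (nat_lit 146678638193) (nat_lit 0) (nat_lit 318183450619) (nat_lit 1) (nat_lit 5) (nat_lit 3) (nat_lit 4) (nat_lit 1) (nat_lit 4) (nat_lit 388) (nat_lit 286) (nat_lit 226)) (XT.lf (nat_lit 0) (nat_lit 352115008731) (nat_lit 152) (nat_lit 149058414224) (nat_lit 0) (nat_lit 348280980071) (nat_lit 1) (nat_lit 5) (nat_lit 3) (nat_lit 4) (nat_lit 1) (nat_lit 4) (nat_lit 389) (nat_lit 286) (nat_lit 225))) (XT.nd (nat_lit 78) (nat_lit 0) (nat_lit 0) (XT.lf (nat_lit 0) (nat_lit 384616970272) (nat_lit 152) (nat_lit 151641505925) (nat_lit 0) (nat_lit 380780320641) (nat_lit 1) (nat_lit 5) (nat_lit 3) (nat_lit 4) (nat_lit 1) (nat_lit 4) (nat_lit 390) (nat_lit 286) (nat_lit 224)) (XT.nd (nat_lit 78) (nat_lit 0) (nat_lit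 0) (XT.lf (nat_lit 0) (nat_lit 419713137470) (nat_lit 152) (nat_lit 154443220505) (nat_lit 0) (nat_lit 415874061015) (nat_lit 1) (nat_lit 5) (nat_lit 3) (nat_lit 4) (nat_lit 1) (nat_lit 4) (nat_lit 391) (nat_lit 286) (nat_lit 223)) (XT.lf (nat_lit 0) (nat_lit 457611487614) (nat_lit 152) (nat_lit 157480160718) (nat_lit 0) (nat_lit 453770164099) (nat_lit 1) (nat_lit 5) (nat_lit 3) (nat_lit 4) (nat_lit 1) (nat_lit 4) (nat_lit 392) (nat_lit 286) (nat_lit 222))))))) (XT.nd (nat_lit 702) (nat_lit 0) (nat_lit 0) (XT.nd (nat_lit 312) (nat_lit 0) (nat_lit 0) (XT.nd (nat_lit 156) (nat_lit 0) (nat_lit 0) (XT.nd (nat_lit 78) (nat_lit 0) (nat_lit 0) (XT.lf (nat_lit 0) (nat_lit 498536603518) (nat_lit 152) (nat_lit 160770323245) (nat_lit 0) (nat_lit 494693199393) (nat_lit 1) (nat_lit 5) (nat_lit 3) (nat_lit 4) (nat_lit 1) (nat_lit 4) (nat_lit 393) (nat_lit 286) (nat_lit 221)) (XT.lf (nat_lit 0) (nat_lit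 542731004388) (nat_lit 152) (nat_lit 164333205347) (nat_lit 0) (nat_lit 538885673772) (nat_lit 1) (nat_lit 5) (nat_lit 3) (nat_lit 4) (nat_lit 1) (nat_lit 4) (nat_lit 394) (nat_lit 286) (nat_lit 220))) (XT.nd (nat_lit 78) (nat_lit 0) (nat_lit 0) (XT.lf (nat_lit 0) (nat_lit 590456582971) (nat_lit 152) (nat_lit 168189920400) (nat_lit 0) (nat_lit 586609468566) (nat_lit 1) (nat_lit 5) (nat_lit 3) (nat_lit 4) (nat_lit 1) (nat_lit 4) (nat_lit 395) (nat_lit 286) (nat_lit 219)) (XT.lf (nat_lit 0) (nat_lit 641996157508) (nat_lit 152) (nat_lit 172363323010) (nat_lit 0) (nat_lit 638147391448) (nat_lit 1) (nat_lit 5) (nat_lit 3) (nat_lit 4) (nat_lit 1) (nat_lit 4) (nat_lit 396) (nat_lit 286) (nat_lit 218)))) (XT.nd (nat_lit 156) (nat_lit 0) (nat_lit 0) (XT.nd (nat_lit 78) (nat_lit 0) (nat_lit 0) (XT.lf (nat_lit 0) (nat_lit 697655147702) (nat_lit 152) (nat_lit 176878144452) (nat_lit 0) (nat_lit 693804852331)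 (nat_lit 1) (nat_lit 5) (nat_lit 3) (nat_lit 4) (nat_lit 1) (nat_lit 4) (nat_lit 397) (nat_lit 286) (nat_lit 217)) (XT.lf (nat_lit 0) (nat_lit 757763384606) (nat_lit 152) (nat_lit 181761139225) (nat_lit 0) (nat_lit 753911673205) (nat_lit 1) (nat_lit 5) (nat_lit 3) (nat_lit 4) (nat_lit 1) (nat_lit 4) (nat_lit 398) (nat_lit 286) (nat_lit 216))) (XT.nd (nat_lit 78) (nat_lit 0) (nat_lit 0) (XT.lf (nat_lit 0) (nat_lit 822677065178) (nat_lit 152) (nat_lit 187041243592) (nat_lit 0) (nat_lit 818824042640) (nat_lit 1) (nat_lit 5) (nat_lit 3) (nat_lit 4) (nat_lit 1) (nat_lit 4) (nat_lit 399) (nat_lit 286) (nat_lit 215)) (XT.nd (nat_lit 78) (nat_lit 0) (nat_lit 0) (XT.lf (nat_lit 0) (nat_lit 892780863082) (nat_lit 152) (nat_lit 192749747062) (nat_lit 0) (nat_lit 888926626527) (nat_lit 1) (nat_lit 5) (nat_lit 3) (nat_lit 4) (nat_lit 1) (nat_lit 4) (nat_lit 400) (nat_lit 286) (nat_lit 214)) (XT.lf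 (nat_lit 0) (nat_lit 968490208230) (nat_lit 152) (nat_lit 198920477804) (nat_lit 0) (nat_lit 964634847586) (nat_lit 1) (nat_lit 5) (nat_lit 3) (nat_lit 4) (nat_lit 1) (nat_lit 4) (nat_lit 401) (nat_lit 286) (nat_lit 213)))))) (XT.nd (nat_lit 312) (nat_lit 0) (nat_lit 0) (XT.nd (nat_lit 156) (nat_lit 0) (nat_lit 0) (XT.nd (nat_lit 78) (nat_lit 0) (nat_lit 0) (XT.lf (nat_lit 0) (nat_lit 1050253748595) (nat_lit 152) (nat_lit 205590003110) (nat_lit 0) (nat_lit 1046397347128) (nat_lit 1) (nat_lit 5) (nat_lit 3) (nat_lit 4) (nat_lit 1) (nat_lit 4) (nat_lit 402) (nat_lit 286) (nat_lit 212)) (XT.lf (nat_lit 0) (nat_lit 1138556008859) (nat_lit 152) (nat_lit 212797846093) (nat_lit 0) (nat_lit 1134698643667) (nat_lit 1) (nat_lit 5) (nat_lit 3) (nat_lit 4) (nat_lit 1) (nat_lit 4) (nat_lit 403) (nat_lit 286) (nat_lit 211))) (XT.nd (nat_lit 78) (nat_lit 0) (nat_lit 0) (XT.lf (nat_lit 0) (nat_lit 1233920261677)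 (nat_lit 152) (nat_lit 220586719898) (nat_lit 0) (nat_lit 1230062004147) (nat_lit 1) (nat_lit 5) (nat_lit 3) (nat_lit 4) (nat_lit 1) (nat_lit 4) (nat_lit 404) (nat_lit 286) (nat_lit 210)) (XT.lf (nat_lit 0) (nat_lit 1336911628547) (nat_lit 152) (nat_lit 229002780813) (nat_lit 0) (nat_lit 1333052544777) (nat_lit 1) (nat_lit 5) (nat_lit 3) (nat_lit 4) (nat_lit 1) (nat_lit 4) (nat_lit 405) (nat_lit 286) (nat_lit 209)))) (XT.nd (nat_lit 156) (nat_lit 0) (nat_lit 0) (XT.nd (nat_lit 78) (nat_lit 0) (nat_lit 0) (XT.lf (nat_lit 0) (nat_lit 1448140428678) (nat_lit 152) (nat_lit 238095901791) (nat_lit 0) (nat_lit 1444280579872) (nat_lit 1) (nat_lit 5) (nat_lit 3) (nat_lit 4) (nat_lit 1) (nat_lit 4) (nat_lit 406) (nat_lit 286) (nat_lit 208)) (XT.lf (nat_lit 0) (nat_lit 1568265795703) (nat_lit 152) (nat_lit 247919967995) (nat_lit 0) (nat_lit 1564405238530) (nat_lit 1) (nat_lit 5) (nat_lit 3) (nat_lit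 4) (nat_lit 1) (nat_lit 4) (nat_lit 407) (nat_lit 286) (nat_lit 207))) (XT.nd (nat_lit 78) (nat_lit 0) (nat_lit 0) (XT.lf (nat_lit 0) (nat_lit 1697999583648) (nat_lit 152) (nat_lit 258533196113) (nat_lit 0) (nat_lit 1694138370579) (nat_lit 1) (nat_lit 5) (nat_lit 3) (nat_lit 4) (nat_lit 1) (nat_lit 4) (nat_lit 408) (nat_lit 286) (nat_lit 206)) (XT.nd (nat_lit 78) (nat_lit 0) (nat_lit 0) (XT.lf (nat_lit 0) (nat_lit 1838110585329) (nat_lit 152) (nat_lit 269998479349) (nat_lit 0) (nat_lit 1834248764951) (nat_lit 1) (nat_lit 5) (nat_lit 3) (nat_lit 4) (nat_lit 1) (nat_lit 4) (nat_lit 409) (nat_lit 286) (nat_lit 205)) (XT.lf (nat_lit 0) (nat_lit 1989429088165) (nat_lit 152) (nat_lit 282383760121) (nat_lit 0) (nat_lit 1985566705462) (nat_lit 1) (nat_lit 5) (nat_lit 3) (nat_lit 4) (nat_lit 1) (nat_lit 4) (nat_lit 410) (nat_lit 286) (nat_lit 204))))))))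
noncomputable def xc58 : XT := (XT.nd (nat_lit 41106) (nat_lit 0) (nat_lit 228) (XT.nd (nat_lit 40404) (nat_lit 0) (nat_lit 836) (XT.nd (nat_lit 312) (nat_lit 0) (nat_lit 0) (XT.nd (nat_lit 156) (nat_lit 0) (nat_lit 0) (XT.nd (nat_lit 78) (nat_lit 0) (nat_lit 0) (XT.lf (nat_lit 0) (nat_lit 2152851794395) (nat_lit 152) (nat_lit 295762432686) (nat_lit 0) (nat_lit 2148988891021) (nat_lit 1) (nat_lit 5) (nat_lit 3) (nat_lit 4) (nat_lit 1) (nat_lit 4) (nat_lit 411) (nat_lit 286) (nat_lit 203)) (XT.lf (nat_lit 0) (nat_lit 2329347134870) (nat_lit 152) (nat_lit 310213778067) (nat_lit 0) (nat_lit 2325483749394) (nat_lit 1) (nat_lit 5) (nat_lit 3) (nat_lit 4) (nat_lit 1) (nat_lit 4) (nat_lit 412) (nat_lit 286) (nat_lit 202))) (XT.nd (nat_lit 78) (nat_lit 0) (nat_lit 0) (XT.lf (nat_lit 0) (nat_lit 2519961007905) (nat_lit 152) (nat_lit 325823433865) (nat_lit 0) (nat_lit 2516097176037) (nat_lit 1)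 (nat_lit 5) (nat_lit 3) (nat_lit 4) (nat_lit 1) (nat_lit 4) (nat_lit 413) (nat_lit 286) (nat_lit 201)) (XT.lf (nat_lit 0) (nat_lit 2725822977190) (nat_lit 152) (nat_lit 342683901746) (nat_lit 0) (nat_lit 2721958731997) (nat_lit 1) (nat_lit 5) (nat_lit 3) (nat_lit 4) (nat_lit 1) (nat_lit 4) (nat_lit 414) (nat_lit 286) (nat_lit 200)))) (XT.nd (nat_lit 156) (nat_lit 0) (nat_lit 0) (XT.nd (nat_lit 78) (nat_lit 0) (nat_lit 0) (XT.lf (nat_lit 0) (nat_lit 2948152965508) (nat_lit 152) (nat_lit 360895095593) (nat_lit 0) (nat_lit 2944288337607) (nat_lit 1) (nat_lit 5) (nat_lit 3) (nat_lit 4) (nat_lit 1) (nat_lit 4) (nat_lit 415) (nat_lit 286) (nat_lit 199)) (XT.lf (nat_lit 0) (nat_lit 3188268483900) (nat_lit 152) (nat_lit 380564933591) (nat_lit 0) (nat_lit 3184403501639) (nat_lit 1) (nat_lit 5) (nat_lit 3) (nat_lit 4) (nat_lit 1) (nat_lit 4) (nat_lit 416) (nat_lit 286) (nat_lit 198))) (XT.nd (nat_lit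 39780) (nat_lit 0) (nat_lit 1520) (XT.lf (nat_lit 0) (nat_lit 3447592439142) (nat_lit 152) (nat_lit 401809977743) (nat_lit 0) (nat_lit 3443727128770) (nat_lit 1) (nat_lit 5) (nat_lit 3) (nat_lit 4) (nat_lit 1) (nat_lit 4) (nat_lit 417) (nat_lit 286) (nat_lit 197)) (XT.nd (nat_lit 78) (nat_lit 152) (nat_lit 0) (XT.lf (nat_lit 0) (nat_lit 2038215697) (nat_lit 152) (nat_lit 1953771041) (nat_lit 0) (nat_lit 2038215697) (nat_lit 23) (nat_lit 5) (nat_lit 25) (nat_lit 4) (nat_lit 23) (nat_lit 4) (nat_lit 326) (nat_lit 287) (nat_lit 287)) (XT.lf (nat_lit 0) (nat_lit 5473936810) (nat_lit 152) (nat_lit 3820779051) (nat_lit 152) (nat_lit 3290259709) (nat_lit 21) (nat_lit 4) (nat_lit 23) (nat_lit 5) (nat_lit 23) (nat_lit 4) (nat_lit 327) (nat_lit 287) (nat_lit 286)))))) (XT.nd (nat_lit 312) (nat_lit 304) (nat_lit 0) (XT.nd (nat_lit 156) (nat_lit 228) (nat_lit 0) (XT.nd (nat_lit 78) (nat_lit 0) (nat_lit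 0) (XT.lf (nat_lit 0) (nat_lit 1591245627) (nat_lit 152) (nat_lit 10919689368) (nat_lit 0) (nat_lit 645189187) (nat_lit 19) (nat_lit 5) (nat_lit 21) (nat_lit 4) (nat_lit 19) (nat_lit 4) (nat_lit 328) (nat_lit 287) (nat_lit 285)) (XT.lf (nat_lit 0) (nat_lit 6709143622) (nat_lit 152) (nat_lit 1713277343) (nat_lit 0) (nat_lit 5341943824) (nat_lit 19) (nat_lit 5) (nat_lit 21) (nat_lit 4) (nat_lit 19) (nat_lit 4) (nat_lit 329) (nat_lit 287) (nat_lit 284))) (XT.nd (nat_lit 78) (nat_lit 152) (nat_lit 0) (XT.lf (nat_lit 0) (nat_lit 8173489147) (nat_lit 76) (nat_lit 4004846007) (nat_lit 76) (nat_lit 2247698654) (nat_lit 18) (nat_lit 4) (nat_lit 19) (nat_lit 5) (nat_lit 19) (nat_lit 4) (nat_lit 330) (nat_lit 287) (nat_lit 283)) (XT.lf (nat_lit 0) (nat_lit 2693330776) (nat_lit 152) (nat_lit 11718020653) (nat_lit 0) (nat_lit 732025311) (nat_lit 16) (nat_lit 5) (nat_lit 18) (nat_lit 4) (nat_lit 16)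 (nat_lit 4) (nat_lit 331) (nat_lit 287) (nat_lit 282)))) (XT.nd (nat_lit 156) (nat_lit 228) (nat_lit 0) (XT.nd (nat_lit 78) (nat_lit 76) (nat_lit 0) (XT.lf (nat_lit 0) (nat_lit 7937152247) (nat_lit 152) (nat_lit 2307768724) (nat_lit 0) (nat_lit 5666293841) (nat_lit 16) (nat_lit 5) (nat_lit 18) (nat_lit 4) (nat_lit 16) (nat_lit 4) (nat_lit 332) (nat_lit 287) (nat_lit 281)) (XT.lf (nat_lit 0) (nat_lit 7811267020) (nat_lit 76) (nat_lit 5745152985) (nat_lit 76) (nat_lit 3187671486) (nat_lit 15) (nat_lit 4) (nat_lit 16) (nat_lit 5) (nat_lit 16) (nat_lit 4) (nat_lit 333) (nat_lit 287) (nat_lit 280))) (XT.nd (nat_lit 78) (nat_lit 76) (nat_lit 0) (XT.lf (nat_lit 0) (nat_lit 786558762) (nat_lit 76) (nat_lit 948745090) (nat_lit 152) (nat_lit 15916332038) (nat_lit 13) (nat_lit 5) (nat_lit 14) (nat_lit 5) (nat_lit 15) (nat_lit 4) (nat_lit 334) (nat_lit 287) (nat_lit 279)) (XT.nd (nat_lit 78) (nat_lit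 76) (nat_lit 0) (XT.lf (nat_lit 0) (nat_lit 7003441466) (nat_lit 152) (nat_lit 7449764966) (nat_lit 0) (nat_lit 4162139283) (nat_lit 13) (nat_lit 5) (nat_lit 15) (nat_lit 4) (nat_lit 13) (nat_lit 4) (nat_lit 335) (nat_lit 287) (nat_lit 278)) (XT.lf (nat_lit 0) (nat_lit 2408963960) (nat_lit 76) (nat_lit 10154786621) (nat_lit 76) (nat_lit 7102807909) (nat_lit 12) (nat_lit 4) (nat_lit 13) (nat_lit 5) (nat_lit 13) (nat_lit 4) (nat_lit 336) (nat_lit 287) (nat_lit 277))))))) (XT.nd (nat_lit 702) (nat_lit 228) (nat_lit 0) (XT.nd (nat_lit 312) (nat_lit 228) (nat_lit 0) (XT.nd (nat_lit 156) (nat_lit 0) (nat_lit 0) (XT.nd (nat_lit 78) (nat_lit 152) (nat_lit 0) (XT.lf (nat_lit 0) (nat_lit 13084664489) (nat_lit 76) (nat_lit 5482235599) (nat_lit 76) (nat_lit 2235186025) (nat_lit 12) (nat_lit 4) (nat_lit 13) (nat_lit 5) (nat_lit 13) (nat_lit 4) (nat_lit 337) (nat_lit 287) (nat_lit 276)) (XT.lf (nat_lit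 0) (nat_lit 2249357116) (nat_lit 76) (nat_lit 479983199) (nat_lit 152) (nat_lit 19304659471) (nat_lit 10) (nat_lit 5) (nat_lit 11) (nat_lit 5) (nat_lit 12) (nat_lit 4) (nat_lit 338) (nat_lit 287) (nat_lit 275))) (XT.nd (nat_lit 78) (nat_lit 0) (nat_lit 0) (XT.lf (nat_lit 0) (nat_lit 8111099093) (nat_lit 152) (nat_lit 10455027195) (nat_lit 0) (nat_lit 4782476349) (nat_lit 10) (nat_lit 5) (nat_lit 12) (nat_lit 4) (nat_lit 10) (nat_lit 4) (nat_lit 339) (nat_lit 287) (nat_lit 274)) (XT.lf (nat_lit 0) (nat_lit 13756194087) (nat_lit 152) (nat_lit 741410974) (nat_lit 0) (nat_lit 10284188436) (nat_lit 10) (nat_lit 5) (nat_lit 12) (nat_lit 4) (nat_lit 10) (nat_lit 4) (nat_lit 340) (nat_lit 287) (nat_lit 273)))) (XT.nd (nat_lit 156) (nat_lit 152) (nat_lit 0) (XT.nd (nat_lit 78) (nat_lit 0) (nat_lit 0) (XT.lf (nat_lit 0) (nat_lit 9921631982) (nat_lit 76) (nat_lit 10003517611) (nat_lit 76) (nat_lit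 6398750010) (nat_lit 9) (nat_lit 4) (nat_lit 10) (nat_lit 5) (nat_lit 10) (nat_lit 4) (nat_lit 341) (nat_lit 287) (nat_lit 272)) (XT.lf (nat_lit 0) (nat_lit 21164102394) (nat_lit 76) (nat_lit 5282156681) (nat_lit 76) (nat_lit 1554461348) (nat_lit 9) (nat_lit 4) (nat_lit 10) (nat_lit 5) (nat_lit 10) (nat_lit 4) (nat_lit 342) (nat_lit 287) (nat_lit 271))) (XT.nd (nat_lit 78) (nat_lit 0) (nat_lit 0) (XT.lf (nat_lit 0) (nat_lit 3268855318) (nat_lit 76) (nat_lit 149593058) (nat_lit 152) (nat_lit 26392192389) (nat_lit 7) (nat_lit 5) (nat_lit 8) (nat_lit 5) (nat_lit 9) (nat_lit 4) (nat_lit 343) (nat_lit 287) (nat_lit 270)) (XT.nd (nat_lit 78) (nat_lit 0) (nat_lit 0) (XT.lf (nat_lit 0) (nat_lit 8874001827) (nat_lit 152) (nat_lit 17655191673) (nat_lit 0) (nat_lit 5219457361) (nat_lit 7) (nat_lit 5) (nat_lit 9) (nat_lit 4) (nat_lit 7) (nat_lit 4) (nat_lit 344) (nat_lit 287) (nat_lit 269)) (XT.lf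 (nat_lit 0) (nat_lit 14628492638) (nat_lit 152) (nat_lit 8340644424) (nat_lit 0) (nat_lit 10883592620) (nat_lit 7) (nat_lit 5) (nat_lit 9) (nat_lit 4) (nat_lit 7) (nat_lit 4) (nat_lit 345) (nat_lit 287) (nat_lit 268)))))) (XT.nd (nat_lit 312) (nat_lit 152) (nat_lit 0) (XT.nd (nat_lit 156) (nat_lit 0) (nat_lit 0) (XT.nd (nat_lit 78) (nat_lit 0) (nat_lit 0) (XT.lf (nat_lit 0) (nat_lit 1537566643) (nat_lit 76) (nat_lit 19211835652) (nat_lit 76) (nat_lit 15383273085) (nat_lit 6) (nat_lit 4) (nat_lit 7) (nat_lit 5) (nat_lit 7) (nat_lit 4) (nat_lit 346) (nat_lit 287) (nat_lit 267)) (XT.lf (nat_lit 0) (nat_lit 12428501322) (nat_lit 76) (nat_lit 15032252613) (nat_lit 76) (nat_lit 11126224723) (nat_lit 6) (nat_lit 4) (nat_lit 7) (nat_lit 5) (nat_lit 7) (nat_lit 4) (nat_lit 347) (nat_lit 287) (nat_lit 266))) (XT.nd (nat_lit 78) (nat_lit 0) (nat_lit 0) (XT.lf (nat_lit 0) (nat_lit 23957494929) (nat_lit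 76) (nat_lit 10633668046) (nat_lit 76) (nat_lit 6655913005) (nat_lit 6) (nat_lit 4) (nat_lit 7) (nat_lit 5) (nat_lit 7) (nat_lit 4) (nat_lit 348) (nat_lit 287) (nat_lit 265)) (XT.lf (nat_lit 0) (nat_lit 36192867428) (nat_lit 76) (nat_lit 5990016263) (nat_lit 76) (nat_lit 1945847194) (nat_lit 6) (nat_lit 4) (nat_lit 7) (nat_lit 5) (nat_lit 7) (nat_lit 4) (nat_lit 349) (nat_lit 287) (nat_lit 264)))) (XT.nd (nat_lit 156) (nat_lit 0) (nat_lit 0) (XT.nd (nat_lit 78) (nat_lit 0) (nat_lit 0) (XT.lf (nat_lit 0) (nat_lit 1984458650) (nat_lit 76) (nat_lit 943484710) (nat_lit 152) (nat_lit 44311425035) (nat_lit 4) (nat_lit 5) (nat_lit 5) (nat_lit 5) (nat_lit 6) (nat_lit 4) (nat_lit 350) (nat_lit 287) (nat_lit 263)) (XT.lf (nat_lit 0) (nat_lit 8314309112) (nat_lit 152) (nat_lit 37802249383) (nat_lit 0) (nat_lit 4460047200) (nat_lit 4) (nat_lit 5) (nat_lit 6) (nat_lit 4) (nat_lit 4) (nat_lit 4) (nat_lit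 351) (nat_lit 287) (nat_lit 262))) (XT.nd (nat_lit 78) (nat_lit 0) (nat_lit 0) (XT.lf (nat_lit 0) (nat_lit 14060529016) (nat_lit 152) (nat_lit 29968541344) (nat_lit 0) (nat_lit 10157450810) (nat_lit 4) (nat_lit 5) (nat_lit 6) (nat_lit 4) (nat_lit 4) (nat_lit 4) (nat_lit 352) (nat_lit 287) (nat_lit 261)) (XT.nd (nat_lit 78) (nat_lit 0) (nat_lit 0) (XT.lf (nat_lit 0) (nat_lit 20177963917) (nat_lit 152) (nat_lit 21684672826) (nat_lit 0) (nat_lit 16229685439) (nat_lit 4) (nat_lit 5) (nat_lit 6) (nat_lit 4) (nat_lit 4) (nat_lit 4) (nat_lit 353) (nat_lit 287) (nat_lit 260)) (XT.lf (nat_lit 0) (nat_lit 26702865280) (nat_lit 152) (nat_lit 12901554236) (nat_lit 0) (nat_lit 22712734699) (nat_lit 4) (nat_lit 5) (nat_lit 6) (nat_lit 4) (nat_lit 4) (nat_lit 4) (nat_lit 354) (nat_lit 287) (nat_lit 259))))))))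
noncomputable def xc59 : XT := (XT.nd (nat_lit 1404) (nat_lit 0) (nat_lit 0) (XT.nd (nat_lit 702) (nat_lit 152) (nat_lit 0) (XT.nd (nat_lit 312) (nat_lit 0) (nat_lit 0) (XT.nd (nat_lit 156) (nat_lit 0) (nat_lit 0) (XT.nd (nat_lit 78) (nat_lit 76) (nat_lit 0) (XT.lf (nat_lit 0) (nat_lit 33673899188) (nat_lit 152) (nat_lit 3567137465) (nat_lit 0) (nat_lit 29645016659) (nat_lit 4) (nat_lit 5) (nat_lit 6) (nat_lit 4) (nat_lit 4) (nat_lit 4) (nat_lit 355) (nat_lit 287) (nat_lit 258)) (XT.lf (nat_lit 0) (nat_lit 6709530434) (nat_lit 76) (nat_lit 34584209406) (nat_lit 76) (nat_lit 30519445444) (nat_lit 3) (nat_lit 4) (nat_lit 4) (nat_lit 5) (nat_lit 4) (nat_lit 4) (nat_lit 356) (nat_lit 287) (nat_lit 257))) (XT.nd (nat_lit 78) (nat_lit 0) (nat_lit 0) (XT.lf (nat_lit 0) (nat_lit 17874605787) (nat_lit 76) (nat_lit 31677771420) (nat_lit 76) (nat_lit 27579783909) (nat_lit 3) (nat_lit 4) (nat_lit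 4) (nat_lit 5) (nat_lit 4) (nat_lit 4) (nat_lit 357) (nat_lit 287) (nat_lit 256)) (XT.lf (nat_lit 0) (nat_lit 29806412865) (nat_lit 76) (nat_lit 28602031221) (nat_lit 76) (nat_lit 24473281164) (nat_lit 3) (nat_lit 4) (nat_lit 4) (nat_lit 5) (nat_lit 4) (nat_lit 4) (nat_lit 358) (nat_lit 287) (nat_lit 255)))) (XT.nd (nat_lit 156) (nat_lit 0) (nat_lit 0) (XT.nd (nat_lit 78) (nat_lit 0) (nat_lit 0) (XT.lf (nat_lit 0) (nat_lit 42575658673) (nat_lit 76) (nat_lit 25338762199) (nat_lit 76) (nat_lit 21181528305) (nat_lit 3) (nat_lit 4) (nat_lit 4) (nat_lit 5) (nat_lit 4) (nat_lit 4) (nat_lit 359) (nat_lit 287) (nat_lit 254)) (XT.lf (nat_lit 0) (nat_lit 56258012816) (nat_lit 76) (nat_lit 21868626466) (nat_lit 76) (nat_lit 17685018646) (nat_lit 3) (nat_lit 4) (nat_lit 4) (nat_lit 5) (nat_lit 4) (nat_lit 4) (nat_lit 360) (nat_lit 287) (nat_lit 253))) (XT.nd (nat_lit 78) (nat_lit 0) (nat_lit 0) (XT.lf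 (nat_lit 0) (nat_lit 70934555910) (nat_lit 76) (nat_lit 18171060252) (nat_lit 76) (nat_lit 13963032132) (nat_lit 3) (nat_lit 4) (nat_lit 4) (nat_lit 5) (nat_lit 4) (nat_lit 4) (nat_lit 361) (nat_lit 287) (nat_lit 252)) (XT.nd (nat_lit 78) (nat_lit 0) (nat_lit 0) (XT.lf (nat_lit 0) (nat_lit 86692260064) (nat_lit 76) (nat_lit 14224152055) (nat_lit 76) (nat_lit 9993512545) (nat_lit 3) (nat_lit 4) (nat_lit 4) (nat_lit 5) (nat_lit 4) (nat_lit 4) (nat_lit 362) (nat_lit 287) (nat_lit 251)) (XT.lf (nat_lit 0) (nat_lit 103624504264) (nat_lit 76) (nat_lit 10004512788) (nat_lit 76) (nat_lit 5752936808) (nat_lit 3) (nat_lit 4) (nat_lit 4) (nat_lit 5) (nat_lit 4) (nat_lit 4) (nat_lit 363) (nat_lit 287) (nat_lit 250)))))) (XT.nd (nat_lit 312) (nat_lit 0) (nat_lit 0) (XT.nd (nat_lit 156) (nat_lit 0) (nat_lit 0) (XT.nd (nat_lit 78) (nat_lit 152) (nat_lit 0) (XT.lf (nat_lit 0) (nat_lit 121831627735) (nat_lit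 76) (nat_lit 5487137183) (nat_lit 76) (nat_lit 1216175581) (nat_lit 3) (nat_lit 4) (nat_lit 4) (nat_lit 5) (nat_lit 4) (nat_lit 4) (nat_lit 364) (nat_lit 287) (nat_lit 249)) (XT.lf (nat_lit 0) (nat_lit 3064046024) (nat_lit 76) (nat_lit 471029589) (nat_lit 152) (nat_lit 134875143260) (nat_lit 1) (nat_lit 5) (nat_lit 2) (nat_lit 5) (nat_lit 3) (nat_lit 4) (nat_lit 365) (nat_lit 287) (nat_lit 248))) (XT.nd (nat_lit 78) (nat_lit 0) (nat_lit 0) (XT.lf (nat_lit 0) (nat_lit 8869985002) (nat_lit 152) (nat_lit 135298089056) (nat_lit 0) (nat_lit 4883381948) (nat_lit 1) (nat_lit 5) (nat_lit 3) (nat_lit 4) (nat_lit 1) (nat_lit 4) (nat_lit 366) (nat_lit 287) (nat_lit 247)) (XT.lf (nat_lit 0) (nat_lit 14608979038) (nat_lit 152) (nat_lit 135328707060) (nat_lit 0) (nat_lit 10608126973) (nat_lit 1) (nat_lit 5) (nat_lit 3) (nat_lit 4) (nat_lit 1) (nat_lit 4) (nat_lit 367) (nat_lit 287) (nat_lit 246))))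 (XT.nd (nat_lit 156) (nat_lit 0) (nat_lit 0) (XT.nd (nat_lit 78) (nat_lit 0) (nat_lit 0) (XT.lf (nat_lit 0) (nat_lit 20774738303) (nat_lit 152) (nat_lit 135426880030) (nat_lit 0) (nat_lit 16760692710) (nat_lit 1) (nat_lit 5) (nat_lit 3) (nat_lit 4) (nat_lit 1) (nat_lit 4) (nat_lit 368) (nat_lit 287) (nat_lit 245)) (XT.lf (nat_lit 0) (nat_lit 27403800630) (nat_lit 152) (nat_lit 135593189731) (nat_lit 0) (nat_lit 23377538806) (nat_lit 1) (nat_lit 5) (nat_lit 3) (nat_lit 4) (nat_lit 1) (nat_lit 4) (nat_lit 369) (nat_lit 287) (nat_lit 244))) (XT.nd (nat_lit 78) (nat_lit 0) (nat_lit 0) (XT.lf (nat_lit 0) (nat_lit 34535449349) (nat_lit 152) (nat_lit 135828621703) (nat_lit 0) (nat_lit 30497876201) (nat_lit 1) (nat_lit 5) (nat_lit 3) (nat_lit 4) (nat_lit 1) (nat_lit 4) (nat_lit 370) (nat_lit 287) (nat_lit 243)) (XT.nd (nat_lit 78) (nat_lit 0) (nat_lit 0) (XT.lf (nat_lit 0) (nat_lit 42211946084)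 (nat_lit 152) (nat_lit 136134571096) (nat_lit 0) (nat_lit 38163899488) (nat_lit 1) (nat_lit 5) (nat_lit 3) (nat_lit 4) (nat_lit 1) (nat_lit 4) (nat_lit 371) (nat_lit 287) (nat_lit 242)) (XT.lf (nat_lit 0) (nat_lit 50478781186) (nat_lit 152) (nat_lit 136512850946) (nat_lit 0) (nat_lit 46421036952) (nat_lit 1) (nat_lit 5) (nat_lit 3) (nat_lit 4) (nat_lit 1) (nat_lit 4) (nat_lit 372) (nat_lit 287) (nat_lit 241))))))) (XT.nd (nat_lit 702) (nat_lit 0) (nat_lit 0) (XT.nd (nat_lit 312) (nat_lit 0) (nat_lit 0) (XT.nd (nat_lit 156) (nat_lit 0) (nat_lit 0) (XT.nd (nat_lit 78) (nat_lit 0) (nat_lit 0) (XT.lf (nat_lit 0) (nat_lit 59384943306) (nat_lit 152) (nat_lit 136965702911) (nat_lit 0) (nat_lit 55318219779) (nat_lit 1) (nat_lit 5) (nat_lit 3) (nat_lit 4) (nat_lit 1) (nat_lit 4) (nat_lit 373) (nat_lit 287) (nat_lit 240)) (XT.lf (nat_lit 0) (nat_lit 68983209703) (nat_lit 152) (nat_lit 137495810557)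 (nat_lit 0) (nat_lit 64908172015) (nat_lit 1) (nat_lit 5) (nat_lit 3) (nat_lit 4) (nat_lit 1) (nat_lit 4) (nat_lit 374) (nat_lit 287) (nat_lit 239))) (XT.nd (nat_lit 78) (nat_lit 0) (nat_lit 0) (XT.lf (nat_lit 0) (nat_lit 79330458991) (nat_lit 152) (nat_lit 138106315263) (nat_lit 0) (nat_lit 75247723006) (nat_lit 1) (nat_lit 5) (nat_lit 3) (nat_lit 4) (nat_lit 1) (nat_lit 4) (nat_lit 375) (nat_lit 287) (nat_lit 238)) (XT.lf (nat_lit 0) (nat_lit 90488008203) (nat_lit 152) (nat_lit 138800834835) (nat_lit 0) (nat_lit 86398144165) (nat_lit 1) (nat_lit 5) (nat_lit 3) (nat_lit 4) (nat_lit 1) (nat_lit 4) (nat_lit 376) (nat_lit 287) (nat_lit 237)))) (XT.nd (nat_lit 156) (nat_lit 0) (nat_lit 0) (XT.nd (nat_lit 78) (nat_lit 0) (nat_lit 0) (XT.lf (nat_lit 0) (nat_lit 102521976150) (nat_lit 152) (nat_lit 139583484945) (nat_lit 0) (nat_lit 98425512063) (nat_lit 1) (nat_lit 5) (nat_lit 3) (nat_lit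 4) (nat_lit 1) (nat_lit 4) (nat_lit 377) (nat_lit 287) (nat_lit 236)) (XT.lf (nat_lit 0) (nat_lit 115503675235) (nat_lit 152) (nat_lit 140458903519) (nat_lit 0) (nat_lit 111401099991) (nat_lit 1) (nat_lit 5) (nat_lit 3) (nat_lit 4) (nat_lit 1) (nat_lit 4) (nat_lit 378) (nat_lit 287) (nat_lit 235))) (XT.nd (nat_lit 78) (nat_lit 0) (nat_lit 0) (XT.lf (nat_lit 0) (nat_lit 129510034044) (nat_lit 152) (nat_lit 141432278222) (nat_lit 0) (nat_lit 125401800322) (nat_lit 1) (nat_lit 5) (nat_lit 3) (nat_lit 4) (nat_lit 1) (nat_lit 4) (nat_lit 379) (nat_lit 287) (nat_lit 234)) (XT.nd (nat_lit 78) (nat_lit 0) (nat_lit 0) (XT.lf (nat_lit 0) (nat_lit 144624053222) (nat_lit 152) (nat_lit 142509377202) (nat_lit 0) (nat_lit 140510580168) (nat_lit 1) (nat_lit 5) (nat_lit 3) (nat_lit 4) (nat_lit 1) (nat_lit 4) (nat_lit 380) (nat_lit 287) (nat_lit 233)) (XT.lf (nat_lit 0) (nat_lit 160935297327) (nat_lit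 152) (nat_lit 143696583266) (nat_lit 0) (nat_lit 156816973041) (nat_lit 1) (nat_lit 5) (nat_lit 3) (nat_lit 4) (nat_lit 1) (nat_lit 4) (nat_lit 381) (nat_lit 287) (nat_lit 232)))))) (XT.nd (nat_lit 312) (nat_lit 0) (nat_lit 0) (XT.nd (nat_lit 156) (nat_lit 0) (nat_lit 0) (XT.nd (nat_lit 78) (nat_lit 0) (nat_lit 0) (XT.lf (nat_lit 0) (nat_lit 178540425584) (nat_lit 152) (nat_lit 145000931710) (nat_lit 0) (nat_lit 174417609415) (nat_lit 1) (nat_lit 5) (nat_lit 3) (nat_lit 4) (nat_lit 1) (nat_lit 4) (nat_lit 382) (nat_lit 287) (nat_lit 231)) (XT.lf (nat_lit 0) (nat_lit 197543764679) (nat_lit 152) (nat_lit 146430152007) (nat_lit 0) (nat_lit 193416789360) (nat_lit 1) (nat_lit 5) (nat_lit 3) (nat_lit 4) (nat_lit 1) (nat_lit 4) (nat_lit 383) (nat_lit 287) (nat_lit 230))) (XT.nd (nat_lit 78) (nat_lit 0) (nat_lit 0) (XT.lf (nat_lit 0) (nat_lit 218057926991) (nat_lit 152) (nat_lit 147992713610)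 (nat_lit 0) (nat_lit 213927100607) (nat_lit 1) (nat_lit 5) (nat_lit 3) (nat_lit 4) (nat_lit 1) (nat_lit 4) (nat_lit 384) (nat_lit 287) (nat_lit 229)) (XT.lf (nat_lit 0) (nat_lit 240204477927) (nat_lit 152) (nat_lit 149697876142) (nat_lit 0) (nat_lit 236070085741) (nat_lit 1) (nat_lit 5) (nat_lit 3) (nat_lit 4) (nat_lit 1) (nat_lit 4) (nat_lit 385) (nat_lit 287) (nat_lit 228)))) (XT.nd (nat_lit 156) (nat_lit 0) (nat_lit 0) (XT.nd (nat_lit 78) (nat_lit 0) (nat_lit 0) (XT.lf (nat_lit 0) (nat_lit 264114656307) (nat_lit 152) (nat_lit 151555744272) (nat_lit 0) (nat_lit 259976962454) (nat_lit 1) (nat_lit 5) (nat_lit 3) (nat_lit 4) (nat_lit 1) (nat_lit 4) (nat_lit 386) (nat_lit 287) (nat_lit 227)) (XT.lf (nat_lit 0) (nat_lit 289930152077) (nat_lit 152) (nat_lit 153577327588) (nat_lit 0) (nat_lit 285789401124) (nat_lit 1) (nat_lit 5) (nat_lit 3) (nat_lit 4) (nat_lit 1) (nat_lit 4) (nat_lit 387)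 (nat_lit 287) (nat_lit 226))) (XT.nd (nat_lit 78) (nat_lit 0) (nat_lit 0) (XT.lf (nat_lit 0) (nat_lit 317803945953) (nat_lit 152) (nat_lit 155774605843) (nat_lit 0) (nat_lit 313660364352) (nat_lit 1) (nat_lit 5) (nat_lit 3) (nat_lit 4) (nat_lit 1) (nat_lit 4) (nat_lit 388) (nat_lit 287) (nat_lit 225)) (XT.nd (nat_lit 78) (nat_lit 0) (nat_lit 0) (XT.lf (nat_lit 0) (nat_lit 347901215972) (nat_lit 152) (nat_lit 158160599945) (nat_lit 0) (nat_lit 343755013400) (nat_lit 1) (nat_lit 5) (nat_lit 3) (nat_lit 4) (nat_lit 1) (nat_lit 4) (nat_lit 389) (nat_lit 287) (nat_lit 224)) (XT.lf (nat_lit 0) (nat_lit 380400316327) (nat_lit 152) (nat_lit 160749449118) (nat_lit 0) (nat_lit 376251686932) (nat_lit 1) (nat_lit 5) (nat_lit 3) (nat_lit 4) (nat_lit 1) (nat_lit 4) (nat_lit 390) (nat_lit 287) (nat_lit 223))))))))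
noncomputable def xc60 : XT := (XT.nd (nat_lit 1404) (nat_lit 0) (nat_lit 0) (XT.nd (nat_lit 702) (nat_lit 0) (nat_lit 0) (XT.nd (nat_lit 312) (nat_lit 0) (nat_lit 0) (XT.nd (nat_lit 156) (nat_lit 0) (nat_lit 0) (XT.nd (nat_lit 78) (nat_lit 0) (nat_lit 0) (XT.lf (nat_lit 0) (nat_lit 415493834280) (nat_lit 152) (nat_lit 163556494692) (nat_lit 0) (nat_lit 411342957825) (nat_lit 1) (nat_lit 5) (nat_lit 3) (nat_lit 4) (nat_lit 1) (nat_lit 4) (nat_lit 391) (nat_lit 287) (nat_lit 222)) (XT.lf (nat_lit 0) (nat_lit 453389731419) (nat_lit 152) (nat_lit 166598371009) (nat_lit 0) (nat_lit 449236774353) (nat_lit 1) (nat_lit 5) (nat_lit 3) (nat_lit 4) (nat_lit 1) (nat_lit 4) (nat_lit 392) (nat_lit 287) (nat_lit 221))) (XT.nd (nat_lit 78) (nat_lit 0) (nat_lit 0) (XT.lf (nat_lit 0) (nat_lit 494312576022) (nat_lit 152) (nat_lit 169893104004) (nat_lit 0) (nat_lit 490157692464) (nat_lit 1) (nat_lit 5)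 (nat_lit 3) (nat_lit 4) (nat_lit 1) (nat_lit 4) (nat_lit 393) (nat_lit 287) (nat_lit 220)) (XT.lf (nat_lit 0) (nat_lit 538504873835) (nat_lit 152) (nat_lit 173460218021) (nat_lit 0) (nat_lit 534348206490) (nat_lit 1) (nat_lit 5) (nat_lit 3) (nat_lit 4) (nat_lit 1) (nat_lit 4) (nat_lit 394) (nat_lit 287) (nat_lit 219)))) (XT.nd (nat_lit 156) (nat_lit 0) (nat_lit 0) (XT.nd (nat_lit 78) (nat_lit 0) (nat_lit 0) (XT.lf (nat_lit 0) (nat_lit 586228505143) (nat_lit 152) (nat_lit 177320851512) (nat_lit 0) (nat_lit 582070186142) (nat_lit 1) (nat_lit 5) (nat_lit 3) (nat_lit 4) (nat_lit 1) (nat_lit 4) (nat_lit 395) (nat_lit 287) (nat_lit 218)) (XT.lf (nat_lit 0) (nat_lit 637766276649) (nat_lit 152) (nat_lit 181497882307) (nat_lit 0) (nat_lit 633606428336) (nat_lit 1) (nat_lit 5) (nat_lit 3) (nat_lit 4) (nat_lit 1) (nat_lit 4) (nat_lit 396) (nat_lit 287) (nat_lit 217))) (XT.nd (nat_lit 78) (nat_lit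 0) (nat_lit 0) (XT.lf (nat_lit 0) (nat_lit 693423597369) (nat_lit 152) (nat_lit 186016063179) (nat_lit 0) (nat_lit 689262333028) (nat_lit 1) (nat_lit 5) (nat_lit 3) (nat_lit 4) (nat_lit 1) (nat_lit 4) (nat_lit 397) (nat_lit 287) (nat_lit 216)) (XT.nd (nat_lit 78) (nat_lit 0) (nat_lit 0) (XT.lf (nat_lit 0) (nat_lit 753530288463) (nat_lit 152) (nat_lit 190902168535) (nat_lit 0) (nat_lit 749367712984) (nat_lit 1) (nat_lit 5) (nat_lit 3) (nat_lit 4) (nat_lit 1) (nat_lit 4) (nat_lit 398) (nat_lit 287) (nat_lit 215)) (XT.lf (nat_lit 0) (nat_lit 818442537730) (nat_lit 152) (nat_lit 196185153072) (nat_lit 0) (nat_lit 814278748235) (nat_lit 1) (nat_lit 5) (nat_lit 3) (nat_lit 4) (nat_lit 1) (nat_lit 4) (nat_lit 399) (nat_lit 287) (nat_lit 214)))))) (XT.nd (nat_lit 312) (nat_lit 0) (nat_lit 0) (XT.nd (nat_lit 156) (nat_lit 0) (nat_lit 0) (XT.nd (nat_lit 78) (nat_lit 0) (nat_lit 0) (XT.lf (nat_lit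 0) (nat_lit 888545010351) (nat_lit 152) (nat_lit 201896323366) (nat_lit 0) (nat_lit 884380096767) (nat_lit 1) (nat_lit 5) (nat_lit 3) (nat_lit 4) (nat_lit 1) (nat_lit 4) (nat_lit 400) (nat_lit 287) (nat_lit 213)) (XT.lf (nat_lit 0) (nat_lit 964253128386) (nat_lit 152) (nat_lit 208069523389) (nat_lit 0) (nat_lit 960087173979) (nat_lit 1) (nat_lit 5) (nat_lit 3) (nat_lit 4) (nat_lit 1) (nat_lit 4) (nat_lit 401) (nat_lit 287) (nat_lit 212))) (XT.nd (nat_lit 78) (nat_lit 0) (nat_lit 0) (XT.lf (nat_lit 0) (nat_lit 1046015532535) (nat_lit 152) (nat_lit 214741335067) (nat_lit 0) (nat_lit 1041848614402) (nat_lit 1) (nat_lit 5) (nat_lit 3) (nat_lit 4) (nat_lit 1) (nat_lit 4) (nat_lit 402) (nat_lit 287) (nat_lit 211)) (XT.lf (nat_lit 0) (nat_lit 1134316740748) (nat_lit 152) (nat_lit 221951295061) (nat_lit 0) (nat_lit 1130148930276) (nat_lit 1) (nat_lit 5) (nat_lit 3) (nat_lit 4) (nat_lit 1) (nat_lit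 4) (nat_lit 403) (nat_lit 287) (nat_lit 210)))) (XT.nd (nat_lit 156) (nat_lit 0) (nat_lit 0) (XT.nd (nat_lit 78) (nat_lit 0) (nat_lit 0) (XT.lf (nat_lit 0) (nat_lit 1229680019444) (nat_lit 152) (nat_lit 229742129061) (nat_lit 0) (nat_lit 1225511382733) (nat_lit 1) (nat_lit 5) (nat_lit 3) (nat_lit 4) (nat_lit 1) (nat_lit 4) (nat_lit 404) (nat_lit 287) (nat_lit 209)) (XT.lf (nat_lit 0) (nat_lit 1332670484348) (nat_lit 152) (nat_lit 238160004971) (nat_lit 0) (nat_lit 1328501082601) (nat_lit 1) (nat_lit 5) (nat_lit 3) (nat_lit 4) (nat_lit 1) (nat_lit 4) (nat_lit 405) (nat_lit 287) (nat_lit 208))) (XT.nd (nat_lit 78) (nat_lit 0) (nat_lit 0) (XT.lf (nat_lit 0) (nat_lit 1443898449327) (nat_lit 152) (nat_lit 247254806501) (nat_lit 0) (nat_lit 1439728339213) (nat_lit 1) (nat_lit 5) (nat_lit 3) (nat_lit 4) (nat_lit 1) (nat_lit 4) (nat_lit 406) (nat_lit 287) (nat_lit 207)) (XT.nd (nat_lit 78) (nat_lit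 0) (nat_lit 0) (XT.lf (nat_lit 0) (nat_lit 1564023043062) (nat_lit 152) (nat_lit 257080428771) (nat_lit 0) (nat_lit 1559852277053) (nat_lit 1) (nat_lit 5) (nat_lit 3) (nat_lit 4) (nat_lit 1) (nat_lit 4) (nat_lit 407) (nat_lit 287) (nat_lit 206)) (XT.lf (nat_lit 0) (nat_lit 1693756114998) (nat_lit 152) (nat_lit 267695097691) (nat_lit 0) (nat_lit 1689584741679) (nat_lit 1) (nat_lit 5) (nat_lit 3) (nat_lit 4) (nat_lit 1) (nat_lit 4) (nat_lit 408) (nat_lit 287) (nat_lit 205))))))) (XT.nd (nat_lit 40248) (nat_lit 0) (nat_lit 1140) (XT.nd (nat_lit 312) (nat_lit 0) (nat_lit 0) (XT.nd (nat_lit 156) (nat_lit 0) (nat_lit 0) (XT.nd (nat_lit 78) (nat_lit 0) (nat_lit 0) (XT.lf (nat_lit 0) (nat_lit 1833866453708) (nat_lit 152) (nat_lit 279161715003) (nat_lit 0) (nat_lit 1829694518065) (nat_lit 1) (nat_lit 5) (nat_lit 3) (nat_lit 4) (nat_lit 1) (nat_lit 4) (nat_lit 409) (nat_lit 287) (nat_lit 204))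 (XT.lf (nat_lit 0) (nat_lit 1985184342682) (nat_lit 152) (nat_lit 291548231030) (nat_lit 0) (nat_lit 1981011886368) (nat_lit 1) (nat_lit 5) (nat_lit 3) (nat_lit 4) (nat_lit 1) (nat_lit 4) (nat_lit 410) (nat_lit 287) (nat_lit 203))) (XT.nd (nat_lit 78) (nat_lit 0) (nat_lit 0) (XT.lf (nat_lit 0) (nat_lit 2148606480521) (nat_lit 152) (nat_lit 304928047350) (nat_lit 0) (nat_lit 2144433542104) (nat_lit 1) (nat_lit 5) (nat_lit 3) (nat_lit 4) (nat_lit 1) (nat_lit 4) (nat_lit 411) (nat_lit 287) (nat_lit 202)) (XT.lf (nat_lit 0) (nat_lit 2325101294709) (nat_lit 152) (nat_lit 319380451764) (nat_lit 0) (nat_lit 2320927909900) (nat_lit 1) (nat_lit 5) (nat_lit 3) (nat_lit 4) (nat_lit 1) (nat_lit 4) (nat_lit 412) (nat_lit 287) (nat_lit 201)))) (XT.nd (nat_lit 156) (nat_lit 0) (nat_lit 0) (XT.nd (nat_lit 78) (nat_lit 0) (nat_lit 0) (XT.lf (nat_lit 0) (nat_lit 2515714680439) (nat_lit 152) (nat_lit 334991088148)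 (nat_lit 0) (nat_lit 2511540882306) (nat_lit 1) (nat_lit 5) (nat_lit 3) (nat_lit 4) (nat_lit 1) (nat_lit 4) (nat_lit 413) (nat_lit 287) (nat_lit 200)) (XT.lf (nat_lit 0) (nat_lit 2721576198518) (nat_lit 152) (nat_lit 351852463979) (nat_lit 0) (nat_lit 2717402017676) (nat_lit 1) (nat_lit 5) (nat_lit 3) (nat_lit 4) (nat_lit 1) (nat_lit 4) (nat_lit 414) (nat_lit 287) (nat_lit 199))) (XT.nd (nat_lit 78) (nat_lit 0) (nat_lit 0) (XT.lf (nat_lit 0) (nat_lit 2943905769052) (nat_lit 152) (nat_lit 370064498519) (nat_lit 0) (nat_lit 2939731233849) (nat_lit 1) (nat_lit 5) (nat_lit 3) (nat_lit 4) (nat_lit 1) (nat_lit 4) (nat_lit 415) (nat_lit 287) (nat_lit 198)) (XT.nd (nat_lit 78) (nat_lit 0) (nat_lit 0) (XT.lf (nat_lit 0) (nat_lit 3184020900606) (nat_lit 152) (nat_lit 389735114938) (nat_lit 0) (nat_lit 3179846037293) (nat_lit 1) (nat_lit 5) (nat_lit 3) (nat_lit 4) (nat_lit 1) (nat_lit 4) (nat_lit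 416) (nat_lit 287) (nat_lit 197)) (XT.lf (nat_lit 0) (nat_lit 3443344497666) (nat_lit 152) (nat_lit 410980879850) (nat_lit 0) (nat_lit 3439169330546) (nat_lit 1) (nat_lit 5) (nat_lit 3) (nat_lit 4) (nat_lit 1) (nat_lit 4) (nat_lit 417) (nat_lit 287) (nat_lit 196)))))) (XT.nd (nat_lit 312) (nat_lit 380) (nat_lit 0) (XT.nd (nat_lit 156) (nat_lit 304) (nat_lit 0) (XT.nd (nat_lit 78) (nat_lit 0) (nat_lit 0) (XT.lf (nat_lit 0) (nat_lit 629725374) (nat_lit 152) (nat_lit 2464626001) (nat_lit 152) (nat_lit 2464626001) (nat_lit 25) (nat_lit 4) (nat_lit 27) (nat_lit 5) (nat_lit 27) (nat_lit 4) (nat_lit 324) (nat_lit 288) (nat_lit 288)) (XT.lf (nat_lit 0) (nat_lit 10397921599) (nat_lit 152) (nat_lit 901016544) (nat_lit 152) (nat_lit 282218783) (nat_lit 25) (nat_lit 4) (nat_lit 27) (nat_lit 5) (nat_lit 27) (nat_lit 4) (nat_lit 325) (nat_lit 288) (nat_lit 287))) (XT.nd (nat_lit 78) (nat_lit 152) (nat_lit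 0) (XT.lf (nat_lit 0) (nat_lit 4514367411) (nat_lit 152) (nat_lit 4146029521) (nat_lit 0) (nat_lit 3410887179) (nat_lit 23) (nat_lit 5) (nat_lit 25) (nat_lit 4) (nat_lit 23) (nat_lit 4) (nat_lit 326) (nat_lit 288) (nat_lit 286)) (XT.lf (nat_lit 0) (nat_lit 4990441266) (nat_lit 152) (nat_lit 4605559499) (nat_lit 152) (nat_lit 3010857654) (nat_lit 21) (nat_lit 4) (nat_lit 23) (nat_lit 5) (nat_lit 23) (nat_lit 4) (nat_lit 327) (nat_lit 288) (nat_lit 285)))) (XT.nd (nat_lit 156) (nat_lit 228) (nat_lit 0) (XT.nd (nat_lit 78) (nat_lit 0) (nat_lit 0) (XT.lf (nat_lit 0) (nat_lit 1481500350) (nat_lit 76) (nat_lit 216113602) (nat_lit 152) (nat_lit 11492641382) (nat_lit 19) (nat_lit 5) (nat_lit 20) (nat_lit 5) (nat_lit 21) (nat_lit 4) (nat_lit 328) (nat_lit 288) (nat_lit 284)) (XT.lf (nat_lit 0) (nat_lit 6687857241) (nat_lit 152) (nat_lit 2720717309) (nat_lit 0) (nat_lit 4400190546) (nat_lit 19)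 (nat_lit 5) (nat_lit 21) (nat_lit 4) (nat_lit 19) (nat_lit 4) (nat_lit 329) (nat_lit 288) (nat_lit 283))) (XT.nd (nat_lit 78) (nat_lit 152) (nat_lit 0) (XT.lf (nat_lit 0) (nat_lit 6895087337) (nat_lit 76) (nat_lit 5117829572) (nat_lit 76) (nat_lit 2469100327) (nat_lit 18) (nat_lit 4) (nat_lit 19) (nat_lit 5) (nat_lit 19) (nat_lit 4) (nat_lit 330) (nat_lit 288) (nat_lit 282)) (XT.nd (nat_lit 78) (nat_lit 0) (nat_lit 0) (XT.lf (nat_lit 0) (nat_lit 1827632677) (nat_lit 76) (nat_lit 485193811) (nat_lit 152) (nat_lit 12900618972) (nat_lit 16) (nat_lit 5) (nat_lit 17) (nat_lit 5) (nat_lit 18) (nat_lit 4) (nat_lit 331) (nat_lit 288) (nat_lit 281)) (XT.lf (nat_lit 0) (nat_lit 7433478754) (nat_lit 152) (nat_lit 4172924408) (nat_lit 0) (nat_lit 4384775641) (nat_lit 16) (nat_lit 5) (nat_lit 18) (nat_lit 4) (nat_lit 16) (nat_lit 4) (nat_lit 332) (nat_lit 288) (nat_lit 280))))))))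
noncomputable def xc61 : XT := (XT.nd (nat_lit 1404) (nat_lit 380) (nat_lit 0) (XT.nd (nat_lit 702) (nat_lit 228) (nat_lit 0) (XT.nd (nat_lit 312) (nat_lit 304) (nat_lit 0) (XT.nd (nat_lit 156) (nat_lit 76) (nat_lit 0) (XT.nd (nat_lit 78) (nat_lit 76) (nat_lit 0) (XT.lf (nat_lit 0) (nat_lit 5644155028) (nat_lit 76) (nat_lit 7253231385) (nat_lit 76) (nat_lit 3939136519) (nat_lit 15) (nat_lit 4) (nat_lit 16) (nat_lit 5) (nat_lit 16) (nat_lit 4) (nat_lit 333) (nat_lit 288) (nat_lit 279)) (XT.lf (nat_lit 0) (nat_lit 899748078) (nat_lit 152) (nat_lit 1688351966) (nat_lit 76) (nat_lit 15167180802) (nat_lit 14) (nat_lit 5) (nat_lit 16) (nat_lit 5) (nat_lit 15) (nat_lit 4) (nat_lit 334) (nat_lit 288) (nat_lit 278))) (XT.nd (nat_lit 78) (nat_lit 0) (nat_lit 0) (XT.lf (nat_lit 0) (nat_lit 5982751119) (nat_lit 152) (nat_lit 10275143414) (nat_lit 0) (nat_lit 2475937579) (nat_lit 13) (nat_lit 5) (nat_lit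 15) (nat_lit 4) (nat_lit 13) (nat_lit 4) (nat_lit 335) (nat_lit 288) (nat_lit 277)) (XT.lf (nat_lit 0) (nat_lit 11390814641) (nat_lit 152) (nat_lit 717508056) (nat_lit 0) (nat_lit 7688930240) (nat_lit 13) (nat_lit 5) (nat_lit 15) (nat_lit 4) (nat_lit 13) (nat_lit 4) (nat_lit 336) (nat_lit 288) (nat_lit 276)))) (XT.nd (nat_lit 156) (nat_lit 152) (nat_lit 0) (XT.nd (nat_lit 78) (nat_lit 76) (nat_lit 0) (XT.lf (nat_lit 0) (nat_lit 9744394168) (nat_lit 76) (nat_lit 7539848009) (nat_lit 76) (nat_lit 3657342441) (nat_lit 12) (nat_lit 4) (nat_lit 13) (nat_lit 5) (nat_lit 13) (nat_lit 4) (nat_lit 337) (nat_lit 288) (nat_lit 275)) (XT.lf (nat_lit 0) (nat_lit 1237228552) (nat_lit 152) (nat_lit 1476312001) (nat_lit 76) (nat_lit 19474004307) (nat_lit 11) (nat_lit 5) (nat_lit 13) (nat_lit 5) (nat_lit 12) (nat_lit 4) (nat_lit 338) (nat_lit 288) (nat_lit 274))) (XT.nd (nat_lit 78) (nat_lit 76) (nat_lit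 0) (XT.lf (nat_lit 0) (nat_lit 6440543886) (nat_lit 152) (nat_lit 14528505299) (nat_lit 0) (nat_lit 2547394878) (nat_lit 10) (nat_lit 5) (nat_lit 12) (nat_lit 4) (nat_lit 10) (nat_lit 4) (nat_lit 339) (nat_lit 288) (nat_lit 273)) (XT.nd (nat_lit 78) (nat_lit 76) (nat_lit 0) (XT.lf (nat_lit 0) (nat_lit 12005656873) (nat_lit 152) (nat_lit 4970650028) (nat_lit 0) (nat_lit 7979745914) (nat_lit 10) (nat_lit 5) (nat_lit 12) (nat_lit 4) (nat_lit 10) (nat_lit 4) (nat_lit 340) (nat_lit 288) (nat_lit 272)) (XT.lf (nat_lit 0) (nat_lit 5317871059) (nat_lit 76) (nat_lit 12671963344) (nat_lit 76) (nat_lit 8523124654) (nat_lit 9) (nat_lit 4) (nat_lit 10) (nat_lit 5) (nat_lit 10) (nat_lit 4) (nat_lit 341) (nat_lit 288) (nat_lit 271)))))) (XT.nd (nat_lit 312) (nat_lit 76) (nat_lit 0) (XT.nd (nat_lit 156) (nat_lit 76) (nat_lit 0) (XT.nd (nat_lit 78) (nat_lit 76) (nat_lit 0) (XT.lf (nat_lit 0) (nat_lit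 16419769588) (nat_lit 76) (nat_lit 8019221861) (nat_lit 76) (nat_lit 3756561196) (nat_lit 9) (nat_lit 4) (nat_lit 10) (nat_lit 5) (nat_lit 10) (nat_lit 4) (nat_lit 342) (nat_lit 288) (nat_lit 270)) (XT.lf (nat_lit 0) (nat_lit 1179522770) (nat_lit 152) (nat_lit 1914644017) (nat_lit 76) (nat_lit 26927315950) (nat_lit 8) (nat_lit 5) (nat_lit 10) (nat_lit 5) (nat_lit 9) (nat_lit 4) (nat_lit 343) (nat_lit 288) (nat_lit 269))) (XT.nd (nat_lit 78) (nat_lit 0) (nat_lit 0) (XT.lf (nat_lit 0) (nat_lit 6446550999) (nat_lit 152) (nat_lit 23216333582) (nat_lit 0) (nat_lit 2311703427) (nat_lit 7) (nat_lit 5) (nat_lit 9) (nat_lit 4) (nat_lit 7) (nat_lit 4) (nat_lit 344) (nat_lit 288) (nat_lit 268)) (XT.lf (nat_lit 0) (nat_lit 12138100015) (nat_lit 152) (nat_lit 14026024444) (nat_lit 0) (nat_lit 7919589894) (nat_lit 7) (nat_lit 5) (nat_lit 9) (nat_lit 4) (nat_lit 7) (nat_lit 4) (nat_lit 345) (nat_lit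 288) (nat_lit 267)))) (XT.nd (nat_lit 156) (nat_lit 0) (nat_lit 0) (XT.nd (nat_lit 78) (nat_lit 76) (nat_lit 0) (XT.lf (nat_lit 0) (nat_lit 18163751718) (nat_lit 152) (nat_lit 4339763976) (nat_lit 0) (nat_lit 13867776274) (nat_lit 7) (nat_lit 5) (nat_lit 9) (nat_lit 4) (nat_lit 7) (nat_lit 4) (nat_lit 346) (nat_lit 288) (nat_lit 266)) (XT.lf (nat_lit 0) (nat_lit 6210523419) (nat_lit 76) (nat_lit 18498053490) (nat_lit 76) (nat_lit 14130350896) (nat_lit 6) (nat_lit 4) (nat_lit 7) (nat_lit 5) (nat_lit 7) (nat_lit 4) (nat_lit 347) (nat_lit 288) (nat_lit 265))) (XT.nd (nat_lit 78) (nat_lit 0) (nat_lit 0) (XT.lf (nat_lit 0) (nat_lit 17635699432) (nat_lit 76) (nat_lit 14150824476) (nat_lit 76) (nat_lit 9716707853) (nat_lit 6) (nat_lit 4) (nat_lit 7) (nat_lit 5) (nat_lit 7) (nat_lit 4) (nat_lit 348) (nat_lit 288) (nat_lit 264)) (XT.nd (nat_lit 78) (nat_lit 0) (nat_lit 0) (XT.lf (nat_lit 0) (nat_lit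 29774944528) (nat_lit 76) (nat_lit 9554724132) (nat_lit 76) (nat_lit 5059113038) (nat_lit 6) (nat_lit 4) (nat_lit 7) (nat_lit 5) (nat_lit 7) (nat_lit 4) (nat_lit 349) (nat_lit 288) (nat_lit 263)) (XT.lf (nat_lit 0) (nat_lit 42700194975) (nat_lit 76) (nat_lit 4682516307) (nat_lit 76) (nat_lit 129965888) (nat_lit 6) (nat_lit 4) (nat_lit 7) (nat_lit 5) (nat_lit 7) (nat_lit 4) (nat_lit 350) (nat_lit 288) (nat_lit 262))))))) (XT.nd (nat_lit 702) (nat_lit 152) (nat_lit 0) (XT.nd (nat_lit 312) (nat_lit 76) (nat_lit 0) (XT.nd (nat_lit 156) (nat_lit 0) (nat_lit 0) (XT.nd (nat_lit 78) (nat_lit 0) (nat_lit 0) (XT.lf (nat_lit 0) (nat_lit 5002035058) (nat_lit 152) (nat_lit 45131111569) (nat_lit 0) (nat_lit 737894303) (nat_lit 4) (nat_lit 5) (nat_lit 6) (nat_lit 4) (nat_lit 4) (nat_lit 4) (nat_lit 351) (nat_lit 288) (nat_lit 261)) (XT.lf (nat_lit 0) (nat_lit 10705715253) (nat_lit 152) (nat_lit 37382276686)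 (nat_lit 0) (nat_lit 6396374226) (nat_lit 4) (nat_lit 5) (nat_lit 6) (nat_lit 4) (nat_lit 4) (nat_lit 4) (nat_lit 352) (nat_lit 288) (nat_lit 260))) (XT.nd (nat_lit 78) (nat_lit 0) (nat_lit 0) (XT.lf (nat_lit 0) (nat_lit 16783761534) (nat_lit 152) (nat_lit 29176994422) (nat_lit 0) (nat_lit 12432568403) (nat_lit 4) (nat_lit 5) (nat_lit 6) (nat_lit 4) (nat_lit 4) (nat_lit 4) (nat_lit 353) (nat_lit 288) (nat_lit 259)) (XT.lf (nat_lit 0) (nat_lit 23272191953) (nat_lit 152) (nat_lit 20466640884) (nat_lit 0) (nat_lit 18882246874) (nat_lit 4) (nat_lit 5) (nat_lit 6) (nat_lit 4) (nat_lit 4) (nat_lit 4) (nat_lit 354) (nat_lit 288) (nat_lit 258)))) (XT.nd (nat_lit 156) (nat_lit 76) (nat_lit 0) (XT.nd (nat_lit 78) (nat_lit 0) (nat_lit 0) (XT.lf (nat_lit 0) (nat_lit 30209456468) (nat_lit 152) (nat_lit 11199599160) (nat_lit 0) (nat_lit 25783629956) (nat_lit 4) (nat_lit 5) (nat_lit 6) (nat_lit 4) (nat_lit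 4) (nat_lit 4) (nat_lit 355) (nat_lit 288) (nat_lit 257)) (XT.lf (nat_lit 0) (nat_lit 37636664795) (nat_lit 152) (nat_lit 1320953449) (nat_lit 0) (nat_lit 33177614734) (nat_lit 4) (nat_lit 5) (nat_lit 6) (nat_lit 4) (nat_lit 4) (nat_lit 4) (nat_lit 356) (nat_lit 288) (nat_lit 256))) (XT.nd (nat_lit 78) (nat_lit 0) (nat_lit 0) (XT.lf (nat_lit 0) (nat_lit 9713757882) (nat_lit 76) (nat_lit 36117688248) (nat_lit 76) (nat_lit 31627875642) (nat_lit 3) (nat_lit 4) (nat_lit 4) (nat_lit 5) (nat_lit 4) (nat_lit 4) (nat_lit 357) (nat_lit 288) (nat_lit 255)) (XT.nd (nat_lit 78) (nat_lit 0) (nat_lit 0) (XT.lf (nat_lit 0) (nat_lit 21589264077) (nat_lit 76) (nat_lit 33070087662) (nat_lit 76) (nat_lit 28551791217) (nat_lit 3) (nat_lit 4) (nat_lit 4) (nat_lit 5) (nat_lit 4) (nat_lit 4) (nat_lit 358) (nat_lit 288) (nat_lit 254)) (XT.lf (nat_lit 0) (nat_lit 34306379438) (nat_lit 76) (nat_lit 29832873837)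 (nat_lit 76) (nat_lit 25288203468) (nat_lit 3) (nat_lit 4) (nat_lit 4) (nat_lit 5) (nat_lit 4) (nat_lit 4) (nat_lit 359) (nat_lit 288) (nat_lit 253)))))) (XT.nd (nat_lit 312) (nat_lit 152) (nat_lit 0) (XT.nd (nat_lit 156) (nat_lit 0) (nat_lit 0) (XT.nd (nat_lit 78) (nat_lit 0) (nat_lit 0) (XT.lf (nat_lit 0) (nat_lit 47940464648) (nat_lit 76) (nat_lit 26386863285) (nat_lit 76) (nat_lit 21817772615) (nat_lit 3) (nat_lit 4) (nat_lit 4) (nat_lit 5) (nat_lit 4) (nat_lit 4) (nat_lit 360) (nat_lit 288) (nat_lit 252)) (XT.lf (nat_lit 0) (nat_lit 62572314287) (nat_lit 76) (nat_lit 22711635203) (nat_lit 76) (nat_lit 18119933144) (nat_lit 3) (nat_lit 4) (nat_lit 4) (nat_lit 5) (nat_lit 4) (nat_lit 4) (nat_lit 361) (nat_lit 288) (nat_lit 251))) (XT.nd (nat_lit 78) (nat_lit 0) (nat_lit 0) (XT.lf (nat_lit 0) (nat_lit 78288635611) (nat_lit 76) (nat_lit 18785410461) (nat_lit 76) (nat_lit 14172771930)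 (nat_lit 3) (nat_lit 4) (nat_lit 4) (nat_lit 5) (nat_lit 4) (nat_lit 4) (nat_lit 362) (nat_lit 288) (nat_lit 250)) (XT.lf (nat_lit 0) (nat_lit 95182562376) (nat_lit 76) (nat_lit 14584922542) (nat_lit 76) (nat_lit 9952898390) (nat_lit 3) (nat_lit 4) (nat_lit 4) (nat_lit 5) (nat_lit 4) (nat_lit 4) (nat_lit 363) (nat_lit 288) (nat_lit 249)))) (XT.nd (nat_lit 156) (nat_lit 152) (nat_lit 0) (XT.nd (nat_lit 78) (nat_lit 0) (nat_lit 0) (XT.lf (nat_lit 0) (nat_lit 113354206741) (nat_lit 76) (nat_lit 10085279666) (nat_lit 76) (nat_lit 5435305864) (nat_lit 3) (nat_lit 4) (nat_lit 4) (nat_lit 5) (nat_lit 4) (nat_lit 4) (nat_lit 364) (nat_lit 288) (nat_lit 248)) (XT.lf (nat_lit 0) (nat_lit 132911252525) (nat_lit 76) (nat_lit 5259817283) (nat_lit 76) (nat_lit 593223434) (nat_lit 3) (nat_lit 4) (nat_lit 4) (nat_lit 5) (nat_lit 4) (nat_lit 4) (nat_lit 365) (nat_lit 288) (nat_lit 247))) (XT.nd (nat_lit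 78) (nat_lit 0) (nat_lit 0) (XT.lf (nat_lit 0) (nat_lit 4487364556) (nat_lit 152) (nat_lit 144789833688) (nat_lit 0) (nat_lit 152195315) (nat_lit 1) (nat_lit 5) (nat_lit 3) (nat_lit 4) (nat_lit 1) (nat_lit 4) (nat_lit 366) (nat_lit 288) (nat_lit 246)) (XT.nd (nat_lit 78) (nat_lit 0) (nat_lit 0) (XT.lf (nat_lit 0) (nat_lit 10210803643) (nat_lit 152) (nat_lit 144851752426) (nat_lit 0) (nat_lit 5862440874) (nat_lit 1) (nat_lit 5) (nat_lit 3) (nat_lit 4) (nat_lit 1) (nat_lit 4) (nat_lit 367) (nat_lit 288) (nat_lit 245)) (XT.lf (nat_lit 0) (nat_lit 16362160177) (nat_lit 152) (nat_lit 144978907556) (nat_lit 0) (nat_lit 12001581178) (nat_lit 1) (nat_lit 5) (nat_lit 3) (nat_lit 4) (nat_lit 1) (nat_lit 4) (nat_lit 368) (nat_lit 288) (nat_lit 244))))))))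
noncomputable def xc62 : XT := (XT.nd (nat_lit 1404) (nat_lit 0) (nat_lit 0) (XT.nd (nat_lit 702) (nat_lit 0) (nat_lit 0) (XT.nd (nat_lit 312) (nat_lit 0) (nat_lit 0) (XT.nd (nat_lit 156) (nat_lit 0) (nat_lit 0) (XT.nd (nat_lit 78) (nat_lit 0) (nat_lit 0) (XT.lf (nat_lit 0) (nat_lit 22977886642) (nat_lit 152) (nat_lit 145172052591) (nat_lit 0) (nat_lit 18605996318) (nat_lit 1) (nat_lit 5) (nat_lit 3) (nat_lit 4) (nat_lit 1) (nat_lit 4) (nat_lit 369) (nat_lit 288) (nat_lit 243)) (XT.lf (nat_lit 0) (nat_lit 30097187341) (nat_lit 152) (nat_lit 145432332093) (nat_lit 0) (nat_lit 25714823569) (nat_lit 1) (nat_lit 5) (nat_lit 3) (nat_lit 4) (nat_lit 1) (nat_lit 4) (nat_lit 370) (nat_lit 288) (nat_lit 242))) (XT.nd (nat_lit 78) (nat_lit 0) (nat_lit 0) (XT.lf (nat_lit 0) (nat_lit 37762250724) (nat_lit 152) (nat_lit 145761288460) (nat_lit 0) (nat_lit 33370189315) (nat_lit 1) (nat_lit 5) (nat_lit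 3) (nat_lit 4) (nat_lit 1) (nat_lit 4) (nat_lit 371) (nat_lit 288) (nat_lit 241)) (XT.lf (nat_lit 0) (nat_lit 46018499388) (nat_lit 152) (nat_lit 146160871064) (nat_lit 0) (nat_lit 41617458685) (nat_lit 1) (nat_lit 5) (nat_lit 3) (nat_lit 4) (nat_lit 1) (nat_lit 4) (nat_lit 372) (nat_lit 288) (nat_lit 240)))) (XT.nd (nat_lit 156) (nat_lit 0) (nat_lit 0) (XT.nd (nat_lit 78) (nat_lit 0) (nat_lit 0) (XT.lf (nat_lit 0) (nat_lit 54914859252) (nat_lit 152) (nat_lit 146633447799) (nat_lit 0) (nat_lit 50505504388) (nat_lit 1) (nat_lit 5) (nat_lit 3) (nat_lit 4) (nat_lit 1) (nat_lit 4) (nat_lit 373) (nat_lit 288) (nat_lit 239)) (XT.lf (nat_lit 0) (nat_lit 64504049485) (nat_lit 152) (nat_lit 147181819123) (nat_lit 0) (nat_lit 60086996324) (nat_lit 1) (nat_lit 5) (nat_lit 3) (nat_lit 4) (nat_lit 1) (nat_lit 4) (nat_lit 374) (nat_lit 288) (nat_lit 238))) (XT.nd (nat_lit 78) (nat_lit 0) (nat_lit 0)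 (XT.lf (nat_lit 0) (nat_lit 74842894918) (nat_lit 152) (nat_lit 147809234641) (nat_lit 0) (nat_lit 70418713704) (nat_lit 1) (nat_lit 5) (nat_lit 3) (nat_lit 4) (nat_lit 1) (nat_lit 4) (nat_lit 375) (nat_lit 288) (nat_lit 237)) (XT.nd (nat_lit 78) (nat_lit 0) (nat_lit 0) (XT.lf (nat_lit 0) (nat_lit 85992662784) (nat_lit 152) (nat_lit 148519412373) (nat_lit 0) (nat_lit 81561881521) (nat_lit 1) (nat_lit 5) (nat_lit 3) (nat_lit 4) (nat_lit 1) (nat_lit 4) (nat_lit 376) (nat_lit 288) (nat_lit 236)) (XT.lf (nat_lit 0) (nat_lit 98019425780) (nat_lit 152) (nat_lit 149316560778) (nat_lit 0) (nat_lit 93582533360) (nat_lit 1) (nat_lit 5) (nat_lit 3) (nat_lit 4) (nat_lit 1) (nat_lit 4) (nat_lit 377) (nat_lit 288) (nat_lit 235)))))) (XT.nd (nat_lit 312) (nat_lit 0) (nat_lit 0) (XT.nd (nat_lit 156) (nat_lit 0) (nat_lit 0) (XT.nd (nat_lit 78) (nat_lit 0) (nat_lit 0) (XT.lf (nat_lit 0) (nat_lit 110994453613)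 (nat_lit 152) (nat_lit 150205403700) (nat_lit 0) (nat_lit 106551902715) (nat_lit 1) (nat_lit 5) (nat_lit 3) (nat_lit 4) (nat_lit 1) (nat_lit 4) (nat_lit 378) (nat_lit 288) (nat_lit 234)) (XT.lf (nat_lit 0) (nat_lit 124994635337) (nat_lit 152) (nat_lit 151191208355) (nat_lit 0) (nat_lit 120546845108) (nat_lit 1) (nat_lit 5) (nat_lit 3) (nat_lit 4) (nat_lit 1) (nat_lit 4) (nat_lit 379) (nat_lit 288) (nat_lit 233))) (XT.nd (nat_lit 78) (nat_lit 0) (nat_lit 0) (XT.lf (nat_lit 0) (nat_lit 140102934993) (nat_lit 152) (nat_lit 152279816549) (nat_lit 0) (nat_lit 135650293530) (nat_lit 1) (nat_lit 5) (nat_lit 3) (nat_lit 4) (nat_lit 1) (nat_lit 4) (nat_lit 380) (nat_lit 288) (nat_lit 232)) (XT.lf (nat_lit 0) (nat_lit 156408883244) (nat_lit 152) (nat_lit 153477679294) (nat_lit 0) (nat_lit 151951749899) (nat_lit 1) (nat_lit 5) (nat_lit 3) (nat_lit 4) (nat_lit 1) (nat_lit 4) (nat_lit 381) (nat_lit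 288) (nat_lit 231)))) (XT.nd (nat_lit 156) (nat_lit 0) (nat_lit 0) (XT.nd (nat_lit 78) (nat_lit 0) (nat_lit 0) (XT.lf (nat_lit 0) (nat_lit 174009107933) (nat_lit 152) (nat_lit 154791895035) (nat_lit 0) (nat_lit 169547815437) (nat_lit 1) (nat_lit 5) (nat_lit 3) (nat_lit 4) (nat_lit 1) (nat_lit 4) (nat_lit 382) (nat_lit 288) (nat_lit 230)) (XT.lf (nat_lit 0) (nat_lit 193007906686) (nat_lit 152) (nat_lit 156230251717) (nat_lit 0) (nat_lit 188542763125) (nat_lit 1) (nat_lit 5) (nat_lit 3) (nat_lit 4) (nat_lit 1) (nat_lit 4) (nat_lit 383) (nat_lit 288) (nat_lit 229))) (XT.nd (nat_lit 78) (nat_lit 0) (nat_lit 0) (XT.lf (nat_lit 0) (nat_lit 213517864978) (nat_lit 152) (nat_lit 157801272936) (nat_lit 0) (nat_lit 209049155616) (nat_lit 1) (nat_lit 5) (nat_lit 3) (nat_lit 4) (nat_lit 1) (nat_lit 4) (nat_lit 384) (nat_lit 288) (nat_lit 228)) (XT.nd (nat_lit 78) (nat_lit 0) (nat_lit 0) (XT.lf (nat_lit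 0) (nat_lit 235660523303) (nat_lit 152) (nat_lit 159514268447) (nat_lit 0) (nat_lit 231188512274) (nat_lit 1) (nat_lit 5) (nat_lit 3) (nat_lit 4) (nat_lit 1) (nat_lit 4) (nat_lit 385) (nat_lit 288) (nat_lit 227)) (XT.lf (nat_lit 0) (nat_lit 259567097413) (nat_lit 152) (nat_lit 161379389334) (nat_lit 0) (nat_lit 255092029284) (nat_lit 1) (nat_lit 5) (nat_lit 3) (nat_lit 4) (nat_lit 1) (nat_lit 4) (nat_lit 386) (nat_lit 288) (nat_lit 226))))))) (XT.nd (nat_lit 702) (nat_lit 0) (nat_lit 0) (XT.nd (nat_lit 312) (nat_lit 0) (nat_lit 0) (XT.nd (nat_lit 156) (nat_lit 0) (nat_lit 0) (XT.nd (nat_lit 78) (nat_lit 0) (nat_lit 0) (XT.lf (nat_lit 0) (nat_lit 285379255897) (nat_lit 152) (nat_lit 163407688166) (nat_lit 0) (nat_lit 280901357120) (nat_lit 1) (nat_lit 5) (nat_lit 3) (nat_lit 4) (nat_lit 1) (nat_lit 4) (nat_lit 387) (nat_lit 288) (nat_lit 225)) (XT.lf (nat_lit 0) (nat_lit 313249959693)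 (nat_lit 152) (nat_lit 165611184492) (nat_lit 0) (nat_lit 308769439945) (nat_lit 1) (nat_lit 5) (nat_lit 3) (nat_lit 4) (nat_lit 1) (nat_lit 4) (nat_lit 388) (nat_lit 288) (nat_lit 224))) (XT.nd (nat_lit 78) (nat_lit 0) (nat_lit 0) (XT.lf (nat_lit 0) (nat_lit 343344368526) (nat_lit 152) (nat_lit 168002936067) (nat_lit 0) (nat_lit 338861421955) (nat_lit 1) (nat_lit 5) (nat_lit 3) (nat_lit 4) (nat_lit 1) (nat_lit 4) (nat_lit 389) (nat_lit 288) (nat_lit 223)) (XT.lf (nat_lit 0) (nat_lit 375840819636) (nat_lit 152) (nat_lit 170597116233) (nat_lit 0) (nat_lit 371355626005) (nat_lit 1) (nat_lit 5) (nat_lit 3) (nat_lit 4) (nat_lit 1) (nat_lit 4) (nat_lit 390) (nat_lit 288) (nat_lit 222)))) (XT.nd (nat_lit 156) (nat_lit 0) (nat_lit 0) (XT.nd (nat_lit 78) (nat_lit 0) (nat_lit 0) (XT.lf (nat_lit 0) (nat_lit 410931884584) (nat_lit 152) (nat_lit 173409097912) (nat_lit 0) (nat_lit 406444610342) (nat_lit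 1) (nat_lit 5) (nat_lit 3) (nat_lit 4) (nat_lit 1) (nat_lit 4) (nat_lit 391) (nat_lit 288) (nat_lit 221)) (XT.lf (nat_lit 0) (nat_lit 448825510421) (nat_lit 152) (nat_lit 176455544696) (nat_lit 0) (nat_lit 444336309688) (nat_lit 1) (nat_lit 5) (nat_lit 3) (nat_lit 4) (nat_lit 1) (nat_lit 4) (nat_lit 392) (nat_lit 288) (nat_lit 220))) (XT.nd (nat_lit 78) (nat_lit 0) (nat_lit 0) (XT.lf (nat_lit 0) (nat_lit 489746251968) (nat_lit 152) (nat_lit 179754509606) (nat_lit 0) (nat_lit 485255267446) (nat_lit 1) (nat_lit 5) (nat_lit 3) (nat_lit 4) (nat_lit 1) (nat_lit 4) (nat_lit 393) (nat_lit 288) (nat_lit 219)) (XT.nd (nat_lit 78) (nat_lit 0) (nat_lit 0) (XT.lf (nat_lit 0) (nat_lit 533936602507) (nat_lit 152) (nat_lit 183325542062) (nat_lit 0) (nat_lit 529443966330) (nat_lit 1) (nat_lit 5) (nat_lit 3) (nat_lit 4) (nat_lit 1) (nat_lit 4) (nat_lit 394) (nat_lit 288) (nat_lit 218)) (XT.lf (nat_lit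 0) (nat_lit 581658430783) (nat_lit 152) (nat_lit 187189803738) (nat_lit 0) (nat_lit 577164265294) (nat_lit 1) (nat_lit 5) (nat_lit 3) (nat_lit 4) (nat_lit 1) (nat_lit 4) (nat_lit 395) (nat_lit 288) (nat_lit 217)))))) (XT.nd (nat_lit 312) (nat_lit 0) (nat_lit 0) (XT.nd (nat_lit 156) (nat_lit 0) (nat_lit 0) (XT.nd (nat_lit 78) (nat_lit 0) (nat_lit 0) (XT.lf (nat_lit 0) (nat_lit 633194532814) (nat_lit 152) (nat_lit 191370193962) (nat_lit 0) (nat_lit 628698951297) (nat_lit 1) (nat_lit 5) (nat_lit 3) (nat_lit 4) (nat_lit 1) (nat_lit 4) (nat_lit 396) (nat_lit 288) (nat_lit 216)) (XT.lf (nat_lit 0) (nat_lit 688850307725) (nat_lit 152) (nat_lit 195891485418) (nat_lit 0) (nat_lit 684353415070) (nat_lit 1) (nat_lit 5) (nat_lit 3) (nat_lit 4) (nat_lit 1) (nat_lit 4) (nat_lit 397) (nat_lit 288) (nat_lit 215))) (XT.nd (nat_lit 78) (nat_lit 0) (nat_lit 0) (XT.lf (nat_lit 0) (nat_lit 748955567514) (nat_lit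 152) (nat_lit 200780470944) (nat_lit 0) (nat_lit 744457460843) (nat_lit 1) (nat_lit 5) (nat_lit 3) (nat_lit 4) (nat_lit 1) (nat_lit 4) (nat_lit 398) (nat_lit 288) (nat_lit 214)) (XT.lf (nat_lit 0) (nat_lit 813866491499) (nat_lit 152) (nat_lit 206066122305) (nat_lit 0) (nat_lit 809367260738) (nat_lit 1) (nat_lit 5) (nat_lit 3) (nat_lit 4) (nat_lit 1) (nat_lit 4) (nat_lit 399) (nat_lit 288) (nat_lit 213)))) (XT.nd (nat_lit 156) (nat_lit 0) (nat_lit 0) (XT.nd (nat_lit 78) (nat_lit 0) (nat_lit 0) (XT.lf (nat_lit 0) (nat_lit 883967737007) (nat_lit 152) (nat_lit 211779761880) (nat_lit 0) (nat_lit 879467465423) (nat_lit 1) (nat_lit 5) (nat_lit 3) (nat_lit 4) (nat_lit 1) (nat_lit 4) (nat_lit 400) (nat_lit 288) (nat_lit 212)) (XT.lf (nat_lit 0) (nat_lit 959674718826) (nat_lit 152) (nat_lit 217955248275) (nat_lit 0) (nat_lit 955173483517) (nat_lit 1) (nat_lit 5) (nat_lit 3) (nat_lit 4) (nat_lit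 1) (nat_lit 4) (nat_lit 401) (nat_lit 288) (nat_lit 211))) (XT.nd (nat_lit 78) (nat_lit 0) (nat_lit 0) (XT.lf (nat_lit 0) (nat_lit 1041436070923) (nat_lit 152) (nat_lit 224629176963) (nat_lit 0) (nat_lit 1036933943275) (nat_lit 1) (nat_lit 5) (nat_lit 3) (nat_lit 4) (nat_lit 1) (nat_lit 4) (nat_lit 402) (nat_lit 288) (nat_lit 210)) (XT.nd (nat_lit 78) (nat_lit 0) (nat_lit 0) (XT.lf (nat_lit 0) (nat_lit 1129736305013) (nat_lit 152) (nat_lit 231841097152) (nat_lit 0) (nat_lit 1125233351127) (nat_lit 1) (nat_lit 5) (nat_lit 3) (nat_lit 4) (nat_lit 1) (nat_lit 4) (nat_lit 403) (nat_lit 288) (nat_lit 209)) (XT.lf (nat_lit 0) (nat_lit 1225098681744) (nat_lit 152) (nat_lit 239633746148) (nat_lit 0) (nat_lit 1220594962821) (nat_lit 1) (nat_lit 5) (nat_lit 3) (nat_lit 4) (nat_lit 1) (nat_lit 4) (nat_lit 404) (nat_lit 288) (nat_lit 208))))))))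
noncomputable def xc63 : XT := (XT.nd (nat_lit 40794) (nat_lit 0) (nat_lit 456) (XT.nd (nat_lit 702) (nat_lit 0) (nat_lit 0) (XT.nd (nat_lit 312) (nat_lit 0) (nat_lit 0) (XT.nd (nat_lit 156) (nat_lit 0) (nat_lit 0) (XT.nd (nat_lit 78) (nat_lit 0) (nat_lit 0) (XT.lf (nat_lit 0) (nat_lit 1328088311496) (nat_lit 152) (nat_lit 248053302609) (nat_lit 0) (nat_lit 1323583884206) (nat_lit 1) (nat_lit 5) (nat_lit 3) (nat_lit 4) (nat_lit 1) (nat_lit 4) (nat_lit 405) (nat_lit 288) (nat_lit 207)) (XT.lf (nat_lit 0) (nat_lit 1439315503185) (nat_lit 152) (nat_lit 257149660206) (nat_lit 0) (nat_lit 1434810420000) (nat_lit 1) (nat_lit 5) (nat_lit 3) (nat_lit 4) (nat_lit 1) (nat_lit 4) (nat_lit 406) (nat_lit 288) (nat_lit 206))) (XT.nd (nat_lit 78) (nat_lit 0) (nat_lit 0) (XT.lf (nat_lit 0) (nat_lit 1559439380912) (nat_lit 152) (nat_lit 266976723278) (nat_lit 0) (nat_lit 1554933690416) (nat_lit 1) (nat_lit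 5) (nat_lit 3) (nat_lit 4) (nat_lit 1) (nat_lit 4) (nat_lit 407) (nat_lit 288) (nat_lit 205)) (XT.lf (nat_lit 0) (nat_lit 1689171789876) (nat_lit 152) (nat_lit 277592726274) (nat_lit 0) (nat_lit 1684665537056) (nat_lit 1) (nat_lit 5) (nat_lit 3) (nat_lit 4) (nat_lit 1) (nat_lit 4) (nat_lit 408) (nat_lit 288) (nat_lit 204)))) (XT.nd (nat_lit 156) (nat_lit 0) (nat_lit 0) (XT.nd (nat_lit 78) (nat_lit 0) (nat_lit 0) (XT.lf (nat_lit 0) (nat_lit 1829281514724) (nat_lit 152) (nat_lit 289060578840) (nat_lit 0) (nat_lit 1824774741234) (nat_lit 1) (nat_lit 5) (nat_lit 3) (nat_lit 4) (nat_lit 1) (nat_lit 4) (nat_lit 409) (nat_lit 288) (nat_lit 203)) (XT.lf (nat_lit 0) (nat_lit 1980598835308) (nat_lit 152) (nat_lit 301448238623) (nat_lit 0) (nat_lit 1976091579714) (nat_lit 1) (nat_lit 5) (nat_lit 3) (nat_lit 4) (nat_lit 1) (nat_lit 4) (nat_lit 410) (nat_lit 288) (nat_lit 202))) (XT.nd (nat_lit 78)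 (nat_lit 0) (nat_lit 0) (XT.lf (nat_lit 0) (nat_lit 2144020446859) (nat_lit 152) (nat_lit 314829113975) (nat_lit 0) (nat_lit 2139512744874) (nat_lit 1) (nat_lit 5) (nat_lit 3) (nat_lit 4) (nat_lit 1) (nat_lit 4) (nat_lit 411) (nat_lit 288) (nat_lit 201)) (XT.nd (nat_lit 78) (nat_lit 0) (nat_lit 0) (XT.lf (nat_lit 0) (nat_lit 2320514773742) (nat_lit 152) (nat_lit 329282498974) (nat_lit 0) (nat_lit 2316006658433) (nat_lit 1) (nat_lit 5) (nat_lit 3) (nat_lit 4) (nat_lit 1) (nat_lit 4) (nat_lit 412) (nat_lit 288) (nat_lit 200)) (XT.lf (nat_lit 0) (nat_lit 2511127708266) (nat_lit 152) (nat_lit 344894043308) (nat_lit 0) (nat_lit 2506619210248) (nat_lit 1) (nat_lit 5) (nat_lit 3) (nat_lit 4) (nat_lit 1) (nat_lit 4) (nat_lit 413) (nat_lit 288) (nat_lit 199)))))) (XT.nd (nat_lit 39702) (nat_lit 0) (nat_lit 1672) (XT.nd (nat_lit 156) (nat_lit 0) (nat_lit 0) (XT.nd (nat_lit 78) (nat_lit 0) (nat_lit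 0) (XT.lf (nat_lit 0) (nat_lit 2716988808560) (nat_lit 152) (nat_lit 361756259833) (nat_lit 0) (nat_lit 2712479956182) (nat_lit 1) (nat_lit 5) (nat_lit 3) (nat_lit 4) (nat_lit 1) (nat_lit 4) (nat_lit 414) (nat_lit 288) (nat_lit 198)) (XT.lf (nat_lit 0) (nat_lit 2939317992257) (nat_lit 152) (nat_lit 379969072794) (nat_lit 0) (nat_lit 2934808811768) (nat_lit 1) (nat_lit 5) (nat_lit 3) (nat_lit 4) (nat_lit 1) (nat_lit 4) (nat_lit 415) (nat_lit 288) (nat_lit 197))) (XT.nd (nat_lit 78) (nat_lit 0) (nat_lit 0) (XT.lf (nat_lit 0) (nat_lit 3179432765629) (nat_lit 152) (nat_lit 399640409972) (nat_lit 0) (nat_lit 3174923281333) (nat_lit 1) (nat_lit 5) (nat_lit 3) (nat_lit 4) (nat_lit 1) (nat_lit 4) (nat_lit 416) (nat_lit 288) (nat_lit 196)) (XT.lf (nat_lit 0) (nat_lit 3438756031037) (nat_lit 152) (nat_lit 420886842255) (nat_lit 0) (nat_lit 3434246265440) (nat_lit 1) (nat_lit 5) (nat_lit 3) (nat_lit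 4) (nat_lit 1) (nat_lit 4) (nat_lit 417) (nat_lit 288) (nat_lit 195)))) (XT.nd (nat_lit 156) (nat_lit 304) (nat_lit 0) (XT.nd (nat_lit 78) (nat_lit 152) (nat_lit 0) (XT.lf (nat_lit 0) (nat_lit 2711139122) (nat_lit 152) (nat_lit 1217496681) (nat_lit 152) (nat_lit 1217496681) (nat_lit 29) (nat_lit 4) (nat_lit 31) (nat_lit 5) (nat_lit 31) (nat_lit 4) (nat_lit 322) (nat_lit 289) (nat_lit 289)) (XT.lf (nat_lit 0) (nat_lit 2051505324) (nat_lit 152) (nat_lit 7260432284) (nat_lit 0) (nat_lit 1383203742) (nat_lit 27) (nat_lit 5) (nat_lit 29) (nat_lit 4) (nat_lit 27) (nat_lit 4) (nat_lit 323) (nat_lit 289) (nat_lit 288))) (XT.nd (nat_lit 78) (nat_lit 152) (nat_lit 0) (XT.lf (nat_lit 0) (nat_lit 1030647843) (nat_lit 152) (nat_lit 5692598497) (nat_lit 152) (nat_lit 4405499155) (nat_lit 25) (nat_lit 4) (nat_lit 27) (nat_lit 5) (nat_lit 27) (nat_lit 4) (nat_lit 324) (nat_lit 289) (nat_lit 287)) (XT.nd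 (nat_lit 78) (nat_lit 76) (nat_lit 0) (XT.lf (nat_lit 0) (nat_lit 102305423) (nat_lit 228) (nat_lit 1647264951) (nat_lit 76) (nat_lit 9852161516) (nat_lit 24) (nat_lit 5) (nat_lit 27) (nat_lit 5) (nat_lit 25) (nat_lit 4) (nat_lit 325) (nat_lit 289) (nat_lit 286)) (XT.lf (nat_lit 0) (nat_lit 4727290402) (nat_lit 152) (nat_lit 4862905091) (nat_lit 0) (nat_lit 2513790796) (nat_lit 23) (nat_lit 5) (nat_lit 25) (nat_lit 4) (nat_lit 23) (nat_lit 4) (nat_lit 326) (nat_lit 289) (nat_lit 285))))))) (XT.nd (nat_lit 702) (nat_lit 456) (nat_lit 0) (XT.nd (nat_lit 312) (nat_lit 380) (nat_lit 0) (XT.nd (nat_lit 156) (nat_lit 76) (nat_lit 0) (XT.nd (nat_lit 78) (nat_lit 152) (nat_lit 0) (XT.lf (nat_lit 0) (nat_lit 4020585020) (nat_lit 152) (nat_lit 5649251603) (nat_lit 152) (nat_lit 2980917170) (nat_lit 21) (nat_lit 4) (nat_lit 23) (nat_lit 5) (nat_lit 23) (nat_lit 4) (nat_lit 327) (nat_lit 289) (nat_lit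 284)) (XT.lf (nat_lit 0) (nat_lit 197394595) (nat_lit 76) (nat_lit 1382832513) (nat_lit 152) (nat_lit 11665589140) (nat_lit 19) (nat_lit 5) (nat_lit 20) (nat_lit 5) (nat_lit 21) (nat_lit 4) (nat_lit 328) (nat_lit 289) (nat_lit 283))) (XT.nd (nat_lit 78) (nat_lit 76) (nat_lit 0) (XT.lf (nat_lit 0) (nat_lit 6429024510) (nat_lit 152) (nat_lit 4239335368) (nat_lit 0) (nat_lit 3207334375) (nat_lit 19) (nat_lit 5) (nat_lit 21) (nat_lit 4) (nat_lit 19) (nat_lit 4) (nat_lit 329) (nat_lit 289) (nat_lit 282)) (XT.lf (nat_lit 0) (nat_lit 5094731320) (nat_lit 76) (nat_lit 6511066967) (nat_lit 76) (nat_lit 2955059656) (nat_lit 18) (nat_lit 4) (nat_lit 19) (nat_lit 5) (nat_lit 19) (nat_lit 4) (nat_lit 330) (nat_lit 289) (nat_lit 281)))) (XT.nd (nat_lit 156) (nat_lit 228) (nat_lit 0) (XT.nd (nat_lit 78) (nat_lit 76) (nat_lit 0) (XT.lf (nat_lit 0) (nat_lit 1702834157) (nat_lit 152) (nat_lit 323665204)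 (nat_lit 76) (nat_lit 13278630940) (nat_lit 17) (nat_lit 5) (nat_lit 19) (nat_lit 5) (nat_lit 18) (nat_lit 4) (nat_lit 331) (nat_lit 289) (nat_lit 280)) (XT.lf (nat_lit 0) (nat_lit 6674770094) (nat_lit 152) (nat_lit 6589873612) (nat_lit 0) (nat_lit 2830155886) (nat_lit 16) (nat_lit 5) (nat_lit 18) (nat_lit 4) (nat_lit 16) (nat_lit 4) (nat_lit 332) (nat_lit 289) (nat_lit 279))) (XT.nd (nat_lit 78) (nat_lit 152) (nat_lit 0) (XT.lf (nat_lit 0) (nat_lit 2911284936) (nat_lit 76) (nat_lit 9066073703) (nat_lit 76) (nat_lit 4975726390) (nat_lit 15) (nat_lit 4) (nat_lit 16) (nat_lit 5) (nat_lit 16) (nat_lit 4) (nat_lit 333) (nat_lit 289) (nat_lit 278)) (XT.nd (nat_lit 78) (nat_lit 152) (nat_lit 0) (XT.lf (nat_lit 0) (nat_lit 13183984843) (nat_lit 76) (nat_lit 4507504273) (nat_lit 76) (nat_lit 189626308) (nat_lit 15) (nat_lit 4) (nat_lit 16) (nat_lit 5) (nat_lit 16) (nat_lit 4) (nat_lit 334) (nat_lit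 289) (nat_lit 277)) (XT.lf (nat_lit 0) (nat_lit 4684240843) (nat_lit 152) (nat_lit 13702174002) (nat_lit 0) (nat_lit 491134829) (nat_lit 13) (nat_lit 5) (nat_lit 15) (nat_lit 4) (nat_lit 13) (nat_lit 4) (nat_lit 335) (nat_lit 289) (nat_lit 276)))))) (XT.nd (nat_lit 390) (nat_lit 228) (nat_lit 0) (XT.nd (nat_lit 156) (nat_lit 152) (nat_lit 0) (XT.nd (nat_lit 78) (nat_lit 76) (nat_lit 0) (XT.lf (nat_lit 0) (nat_lit 10004980336) (nat_lit 152) (nat_lit 4311749232) (nat_lit 0) (nat_lit 5631253155) (nat_lit 13) (nat_lit 5) (nat_lit 15) (nat_lit 4) (nat_lit 13) (nat_lit 4) (nat_lit 336) (nat_lit 289) (nat_lit 275)) (XT.lf (nat_lit 0) (nat_lit 5797909213) (nat_lit 76) (nat_lit 9924730018) (nat_lit 76) (nat_lit 5383761015) (nat_lit 12) (nat_lit 4) (nat_lit 13) (nat_lit 5) (nat_lit 13) (nat_lit 4) (nat_lit 337) (nat_lit 289) (nat_lit 274))) (XT.nd (nat_lit 78) (nat_lit 152) (nat_lit 0) (XT.lf (nat_lit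 0) (nat_lit 16647670917) (nat_lit 76) (nat_lit 5204660042) (nat_lit 76) (nat_lit 508837500) (nat_lit 12) (nat_lit 4) (nat_lit 13) (nat_lit 5) (nat_lit 13) (nat_lit 4) (nat_lit 338) (nat_lit 289) (nat_lit 273)) (XT.nd (nat_lit 78) (nat_lit 0) (nat_lit 0) (XT.lf (nat_lit 0) (nat_lit 4458923282) (nat_lit 76) (nat_lit 11330915) (nat_lit 152) (nat_lit 19240786020) (nat_lit 10) (nat_lit 5) (nat_lit 11) (nat_lit 5) (nat_lit 12) (nat_lit 4) (nat_lit 339) (nat_lit 289) (nat_lit 272)) (XT.lf (nat_lit 0) (nat_lit 9961037261) (nat_lit 152) (nat_lit 9838212258) (nat_lit 0) (nat_lit 5357363743) (nat_lit 10) (nat_lit 5) (nat_lit 12) (nat_lit 4) (nat_lit 10) (nat_lit 4) (nat_lit 340) (nat_lit 289) (nat_lit 271))))) (XT.nd (nat_lit 156) (nat_lit 152) (nat_lit 0) (XT.nd (nat_lit 78) (nat_lit 0) (nat_lit 0) (XT.lf (nat_lit 0) (nat_lit 53419745) (nat_lit 76) (nat_lit 15696613186) (nat_lit 76) (nat_lit 10979117695)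 (nat_lit 9) (nat_lit 4) (nat_lit 10) (nat_lit 5) (nat_lit 10) (nat_lit 4) (nat_lit 341) (nat_lit 289) (nat_lit 270)) (XT.lf (nat_lit 0) (nat_lit 11025159122) (nat_lit 76) (nat_lit 11107408228) (nat_lit 76) (nat_lit 6284522020) (nat_lit 9) (nat_lit 4) (nat_lit 10) (nat_lit 5) (nat_lit 10) (nat_lit 4) (nat_lit 342) (nat_lit 289) (nat_lit 269))) (XT.nd (nat_lit 78) (nat_lit 152) (nat_lit 0) (XT.lf (nat_lit 0) (nat_lit 22623960764) (nat_lit 76) (nat_lit 6273433514) (nat_lit 76) (nat_lit 1352963309) (nat_lit 9) (nat_lit 4) (nat_lit 10) (nat_lit 5) (nat_lit 10) (nat_lit 4) (nat_lit 343) (nat_lit 289) (nat_lit 268)) (XT.nd (nat_lit 78) (nat_lit 0) (nat_lit 0) (XT.lf (nat_lit 0) (nat_lit 2722460616) (nat_lit 76) (nat_lit 995465524) (nat_lit 152) (nat_lit 28509257560) (nat_lit 7) (nat_lit 5) (nat_lit 8) (nat_lit 5) (nat_lit 9) (nat_lit 4) (nat_lit 344) (nat_lit 289) (nat_lit 267)) (XT.lf (nat_lit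 0) (nat_lit 9327254747) (nat_lit 152) (nat_lit 20405508266) (nat_lit 0) (nat_lit 4610135945) (nat_lit 7) (nat_lit 5) (nat_lit 9) (nat_lit 4) (nat_lit 7) (nat_lit 4) (nat_lit 345) (nat_lit 289) (nat_lit 266))))))))
noncomputable def xc64 : XT := (XT.nd (nat_lit 1404) (nat_lit 152) (nat_lit 0) (XT.nd (nat_lit 702) (nat_lit 76) (nat_lit 0) (XT.nd (nat_lit 312) (nat_lit 152) (nat_lit 0) (XT.nd (nat_lit 156) (nat_lit 76) (nat_lit 0) (XT.nd (nat_lit 78) (nat_lit 0) (nat_lit 0) (XT.lf (nat_lit 0) (nat_lit 15298944006) (nat_lit 152) (nat_lit 10825761953) (nat_lit 0) (nat_lit 10510098053) (nat_lit 7) (nat_lit 5) (nat_lit 9) (nat_lit 4) (nat_lit 7) (nat_lit 4) (nat_lit 346) (nat_lit 289) (nat_lit 265)) (XT.lf (nat_lit 0) (nat_lit 21644440734) (nat_lit 152) (nat_lit 684774310) (nat_lit 0) (nat_lit 16789180753) (nat_lit 7) (nat_lit 5) (nat_lit 9) (nat_lit 4) (nat_lit 7) (nat_lit 4) (nat_lit 347)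 (nat_lit 289) (nat_lit 264))) (XT.nd (nat_lit 78) (nat_lit 0) (nat_lit 0) (XT.lf (nat_lit 0) (nat_lit 10608215297) (nat_lit 76) (nat_lit 18048260412) (nat_lit 76) (nat_lit 13131505959) (nat_lit 6) (nat_lit 4) (nat_lit 7) (nat_lit 5) (nat_lit 7) (nat_lit 4) (nat_lit 348) (nat_lit 289) (nat_lit 263)) (XT.lf (nat_lit 0) (nat_lit 22658453539) (nat_lit 76) (nat_lit 13496189177) (nat_lit 76) (nat_lit 8522495400) (nat_lit 6) (nat_lit 4) (nat_lit 7) (nat_lit 5) (nat_lit 7) (nat_lit 4) (nat_lit 349) (nat_lit 289) (nat_lit 262)))) (XT.nd (nat_lit 156) (nat_lit 76) (nat_lit 0) (XT.nd (nat_lit 78) (nat_lit 76) (nat_lit 0) (XT.lf (nat_lit 0) (nat_lit 35501290231) (nat_lit 76) (nat_lit 8664749046) (nat_lit 76) (nat_lit 3638333672) (nat_lit 6) (nat_lit 4) (nat_lit 7) (nat_lit 5) (nat_lit 7) (nat_lit 4) (nat_lit 350) (nat_lit 289) (nat_lit 261)) (XT.lf (nat_lit 0) (nat_lit 1472389007) (nat_lit 152) (nat_lit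 2012662532) (nat_lit 76) (nat_lit 47700184341) (nat_lit 5) (nat_lit 5) (nat_lit 7) (nat_lit 5) (nat_lit 6) (nat_lit 4) (nat_lit 351) (nat_lit 289) (nat_lit 260))) (XT.nd (nat_lit 78) (nat_lit 0) (nat_lit 0) (XT.lf (nat_lit 0) (nat_lit 7000588060) (nat_lit 152) (nat_lit 45552570265) (nat_lit 0) (nat_lit 2259447375) (nat_lit 4) (nat_lit 5) (nat_lit 6) (nat_lit 4) (nat_lit 4) (nat_lit 4) (nat_lit 352) (nat_lit 289) (nat_lit 259)) (XT.nd (nat_lit 78) (nat_lit 0) (nat_lit 0) (XT.lf (nat_lit 0) (nat_lit 13042163396) (nat_lit 152) (nat_lit 37420053052) (nat_lit 0) (nat_lit 8262270763) (nat_lit 4) (nat_lit 5) (nat_lit 6) (nat_lit 4) (nat_lit 4) (nat_lit 4) (nat_lit 353) (nat_lit 289) (nat_lit 258)) (XT.lf (nat_lit 0) (nat_lit 19496824422) (nat_lit 152) (nat_lit 28777074561) (nat_lit 0) (nat_lit 14681050356) (nat_lit 4) (nat_lit 5) (nat_lit 6) (nat_lit 4) (nat_lit 4) (nat_lit 4) (nat_lit 354)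 (nat_lit 289) (nat_lit 257)))))) (XT.nd (nat_lit 312) (nat_lit 0) (nat_lit 0) (XT.nd (nat_lit 156) (nat_lit 76) (nat_lit 0) (XT.nd (nat_lit 78) (nat_lit 0) (nat_lit 0) (XT.lf (nat_lit 0) (nat_lit 26402820981) (nat_lit 152) (nat_lit 19572417140) (nat_lit 0) (nat_lit 21553823366) (nat_lit 4) (nat_lit 5) (nat_lit 6) (nat_lit 4) (nat_lit 4) (nat_lit 4) (nat_lit 355) (nat_lit 289) (nat_lit 256)) (XT.lf (nat_lit 0) (nat_lit 33801077497) (nat_lit 152) (nat_lit 9751534673) (nat_lit 0) (nat_lit 28921317336) (nat_lit 4) (nat_lit 5) (nat_lit 6) (nat_lit 4) (nat_lit 4) (nat_lit 4) (nat_lit 356) (nat_lit 289) (nat_lit 255))) (XT.nd (nat_lit 78) (nat_lit 0) (nat_lit 0) (XT.lf (nat_lit 0) (nat_lit 782936308) (nat_lit 76) (nat_lit 40971328817) (nat_lit 76) (nat_lit 36063084818) (nat_lit 3) (nat_lit 4) (nat_lit 4) (nat_lit 5) (nat_lit 4) (nat_lit 4) (nat_lit 357) (nat_lit 289) (nat_lit 254)) (XT.lf (nat_lit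 0) (nat_lit 12606312057) (nat_lit 76) (nat_lit 37949783427) (nat_lit 76) (nat_lit 33015165504) (nat_lit 3) (nat_lit 4) (nat_lit 4) (nat_lit 5) (nat_lit 4) (nat_lit 4) (nat_lit 358) (nat_lit 289) (nat_lit 253)))) (XT.nd (nat_lit 156) (nat_lit 0) (nat_lit 0) (XT.nd (nat_lit 78) (nat_lit 0) (nat_lit 0) (XT.lf (nat_lit 0) (nat_lit 25275158485) (nat_lit 76) (nat_lit 34736694785) (nat_lit 76) (nat_lit 29777656561) (nat_lit 3) (nat_lit 4) (nat_lit 4) (nat_lit 5) (nat_lit 4) (nat_lit 4) (nat_lit 359) (nat_lit 289) (nat_lit 252)) (XT.lf (nat_lit 0) (nat_lit 38864550239) (nat_lit 76) (nat_lit 31313022364) (nat_lit 76) (nat_lit 26331372751) (nat_lit 3) (nat_lit 4) (nat_lit 4) (nat_lit 5) (nat_lit 4) (nat_lit 4) (nat_lit 360) (nat_lit 289) (nat_lit 251))) (XT.nd (nat_lit 78) (nat_lit 0) (nat_lit 0) (XT.lf (nat_lit 0) (nat_lit 53455017048) (nat_lit 76) (nat_lit 27658477737) (nat_lit 76) (nat_lit 22655891653)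 (nat_lit 3) (nat_lit 4) (nat_lit 4) (nat_lit 5) (nat_lit 4) (nat_lit 4) (nat_lit 361) (nat_lit 289) (nat_lit 250)) (XT.nd (nat_lit 78) (nat_lit 0) (nat_lit 0) (XT.lf (nat_lit 0) (nat_lit 69133020937) (nat_lit 76) (nat_lit 23751404343) (nat_lit 76) (nat_lit 18729432636) (nat_lit 3) (nat_lit 4) (nat_lit 4) (nat_lit 5) (nat_lit 4) (nat_lit 4) (nat_lit 362) (nat_lit 289) (nat_lit 249)) (XT.lf (nat_lit 0) (nat_lit 85991468596) (nat_lit 76) (nat_lit 19568649153) (nat_lit 76) (nat_lit 14528727796) (nat_lit 3) (nat_lit 4) (nat_lit 4) (nat_lit 5) (nat_lit 4) (nat_lit 4) (nat_lit 363) (nat_lit 289) (nat_lit 248))))))) (XT.nd (nat_lit 702) (nat_lit 0) (nat_lit 0) (XT.nd (nat_lit 312) (nat_lit 0) (nat_lit 0) (XT.nd (nat_lit 156) (nat_lit 152) (nat_lit 0) (XT.nd (nat_lit 78) (nat_lit 0) (nat_lit 0) (XT.lf (nat_lit 0) (nat_lit 104130261936) (nat_lit 76) (nat_lit 15085425471) (nat_lit 76) (nat_lit 10028884068)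 (nat_lit 3) (nat_lit 4) (nat_lit 4) (nat_lit 5) (nat_lit 4) (nat_lit 4) (nat_lit 364) (nat_lit 289) (nat_lit 247)) (XT.lf (nat_lit 0) (nat_lit 123656890105) (nat_lit 76) (nat_lit 10275166044) (nat_lit 76) (nat_lit 5203235710) (nat_lit 3) (nat_lit 4) (nat_lit 4) (nat_lit 5) (nat_lit 4) (nat_lit 4) (nat_lit 365) (nat_lit 289) (nat_lit 246))) (XT.nd (nat_lit 78) (nat_lit 152) (nat_lit 0) (XT.lf (nat_lit 0) (nat_lit 144687066453) (nat_lit 76) (nat_lit 5109365633) (nat_lit 76) (nat_lit 23186288) (nat_lit 3) (nat_lit 4) (nat_lit 4) (nat_lit 5) (nat_lit 4) (nat_lit 4) (nat_lit 366) (nat_lit 289) (nat_lit 245)) (XT.lf (nat_lit 0) (nat_lit 5430816536) (nat_lit 152) (nat_lit 155196924314) (nat_lit 0) (nat_lit 709174987) (nat_lit 1) (nat_lit 5) (nat_lit 3) (nat_lit 4) (nat_lit 1) (nat_lit 4) (nat_lit 367) (nat_lit 289) (nat_lit 244)))) (XT.nd (nat_lit 156) (nat_lit 0) (nat_lit 0) (XT.nd (nat_lit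 78) (nat_lit 0) (nat_lit 0) (XT.lf (nat_lit 0) (nat_lit 11568837209) (nat_lit 152) (nat_lit 155350914778) (nat_lit 0) (nat_lit 6835884335) (nat_lit 1) (nat_lit 5) (nat_lit 3) (nat_lit 4) (nat_lit 1) (nat_lit 4) (nat_lit 368) (nat_lit 289) (nat_lit 243)) (XT.lf (nat_lit 0) (nat_lit 18172215653) (nat_lit 152) (nat_lit 155568907344) (nat_lit 0) (nat_lit 13428789331) (nat_lit 1) (nat_lit 5) (nat_lit 3) (nat_lit 4) (nat_lit 1) (nat_lit 4) (nat_lit 369) (nat_lit 289) (nat_lit 242))) (XT.nd (nat_lit 78) (nat_lit 0) (nat_lit 0) (XT.lf (nat_lit 0) (nat_lit 25280083000) (nat_lit 152) (nat_lit 155852193820) (nat_lit 0) (nat_lit 20526959041) (nat_lit 1) (nat_lit 5) (nat_lit 3) (nat_lit 4) (nat_lit 1) (nat_lit 4) (nat_lit 370) (nat_lit 289) (nat_lit 241)) (XT.nd (nat_lit 78) (nat_lit 0) (nat_lit 0) (XT.lf (nat_lit 0) (nat_lit 32934559946) (nat_lit 152) (nat_lit 156202452940) (nat_lit 0) (nat_lit 28172456693)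 (nat_lit 1) (nat_lit 5) (nat_lit 3) (nat_lit 4) (nat_lit 1) (nat_lit 4) (nat_lit 371) (nat_lit 289) (nat_lit 240)) (XT.lf (nat_lit 0) (nat_lit 41181006354) (nat_lit 152) (nat_lit 156621760315) (nat_lit 0) (nat_lit 36410588940) (nat_lit 1) (nat_lit 5) (nat_lit 3) (nat_lit 4) (nat_lit 1) (nat_lit 4) (nat_lit 372) (nat_lit 289) (nat_lit 239)))))) (XT.nd (nat_lit 312) (nat_lit 0) (nat_lit 0) (XT.nd (nat_lit 156) (nat_lit 0) (nat_lit 0) (XT.nd (nat_lit 78) (nat_lit 0) (nat_lit 0) (XT.lf (nat_lit 0) (nat_lit 50068290054) (nat_lit 152) (nat_lit 157112600728) (nat_lit 0) (nat_lit 45290174343) (nat_lit 1) (nat_lit 5) (nat_lit 3) (nat_lit 4) (nat_lit 1) (nat_lit 4) (nat_lit 373) (nat_lit 289) (nat_lit 238)) (XT.lf (nat_lit 0) (nat_lit 59649076432) (nat_lit 152) (nat_lit 157677882863) (nat_lit 0) (nat_lit 54863832668) (nat_lit 1) (nat_lit 5) (nat_lit 3) (nat_lit 4) (nat_lit 1) (nat_lit 4) (nat_lit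 374) (nat_lit 289) (nat_lit 237))) (XT.nd (nat_lit 78) (nat_lit 0) (nat_lit 0) (XT.lf (nat_lit 0) (nat_lit 69980140518) (nat_lit 152) (nat_lit 158320956541) (nat_lit 0) (nat_lit 65188296705) (nat_lit 1) (nat_lit 5) (nat_lit 3) (nat_lit 4) (nat_lit 1) (nat_lit 4) (nat_lit 375) (nat_lit 289) (nat_lit 236)) (XT.lf (nat_lit 0) (nat_lit 81122703432) (nat_lit 152) (nat_lit 159045632568) (nat_lit 0) (nat_lit 76324748462) (nat_lit 1) (nat_lit 5) (nat_lit 3) (nat_lit 4) (nat_lit 1) (nat_lit 4) (nat_lit 376) (nat_lit 289) (nat_lit 235)))) (XT.nd (nat_lit 156) (nat_lit 0) (nat_lit 0) (XT.nd (nat_lit 78) (nat_lit 0) (nat_lit 0) (XT.lf (nat_lit 0) (nat_lit 93142795177) (nat_lit 152) (nat_lit 159856205322) (nat_lit 0) (nat_lit 88339181729) (nat_lit 1) (nat_lit 5) (nat_lit 3) (nat_lit 4) (nat_lit 1) (nat_lit 4) (nat_lit 377) (nat_lit 289) (nat_lit 234)) (XT.lf (nat_lit 0) (nat_lit 106111645926) (nat_lit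 152) (nat_lit 160757478196) (nat_lit 0) (nat_lit 101302793146) (nat_lit 1) (nat_lit 5) (nat_lit 3) (nat_lit 4) (nat_lit 1) (nat_lit 4) (nat_lit 378) (nat_lit 289) (nat_lit 233))) (XT.nd (nat_lit 78) (nat_lit 0) (nat_lit 0) (XT.lf (nat_lit 0) (nat_lit 120106108128) (nat_lit 152) (nat_lit 161754792065) (nat_lit 0) (nat_lit 115292404115) (nat_lit 1) (nat_lit 5) (nat_lit 3) (nat_lit 4) (nat_lit 1) (nat_lit 4) (nat_lit 379) (nat_lit 289) (nat_lit 232)) (XT.nd (nat_lit 78) (nat_lit 0) (nat_lit 0) (XT.lf (nat_lit 0) (nat_lit 135209111929) (nat_lit 152) (nat_lit 162854056940) (nat_lit 0) (nat_lit 130390916034) (nat_lit 1) (nat_lit 5) (nat_lit 3) (nat_lit 4) (nat_lit 1) (nat_lit 4) (nat_lit 380) (nat_lit 289) (nat_lit 231)) (XT.lf (nat_lit 0) (nat_lit 151510156611) (nat_lit 152) (nat_lit 164061786981) (nat_lit 0) (nat_lit 146687801566) (nat_lit 1) (nat_lit 5) (nat_lit 3) (nat_lit 4) (nat_lit 1)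 (nat_lit 4) (nat_lit 381) (nat_lit 289) (nat_lit 230))))))))
noncomputable def xc65 : XT := (XT.nd (nat_lit 1404) (nat_lit 0) (nat_lit 0) (XT.nd (nat_lit 702) (nat_lit 0) (nat_lit 0) (XT.nd (nat_lit 312) (nat_lit 0) (nat_lit 0) (XT.nd (nat_lit 156) (nat_lit 0) (nat_lit 0) (XT.nd (nat_lit 78) (nat_lit 0) (nat_lit 0) (XT.lf (nat_lit 0) (nat_lit 169105840958) (nat_lit 152) (nat_lit 165385139107) (nat_lit 0) (nat_lit 164279634848) (nat_lit 1) (nat_lit 5) (nat_lit 3) (nat_lit 4) (nat_lit 1) (nat_lit 4) (nat_lit 382) (nat_lit 289) (nat_lit 229)) (XT.lf (nat_lit 0) (nat_lit 188100435692) (nat_lit 152) (nat_lit 166831955406) (nat_lit 0) (nat_lit 183270663780) (nat_lit 1) (nat_lit 5) (nat_lit 3) (nat_lit 4) (nat_lit 1) (nat_lit 4) (nat_lit 383) (nat_lit 289) (nat_lit 228))) (XT.nd (nat_lit 78) (nat_lit 0) (nat_lit 0) (XT.lf (nat_lit 0) (nat_lit 208606501373) (nat_lit 152) (nat_lit 168410809603)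 (nat_lit 0) (nat_lit 203773427794) (nat_lit 1) (nat_lit 5) (nat_lit 3) (nat_lit 4) (nat_lit 1) (nat_lit 4) (nat_lit 384) (nat_lit 289) (nat_lit 227)) (XT.lf (nat_lit 0) (nat_lit 230745555429) (nat_lit 152) (nat_lit 170131057872) (nat_lit 0) (nat_lit 225909424749) (nat_lit 1) (nat_lit 5) (nat_lit 3) (nat_lit 4) (nat_lit 1) (nat_lit 4) (nat_lit 385) (nat_lit 289) (nat_lit 226)))) (XT.nd (nat_lit 156) (nat_lit 0) (nat_lit 0) (XT.nd (nat_lit 78) (nat_lit 0) (nat_lit 0) (XT.lf (nat_lit 0) (nat_lit 254648792253) (nat_lit 152) (nat_lit 172002894275) (nat_lit 0) (nat_lit 249809830926) (nat_lit 1) (nat_lit 5) (nat_lit 3) (nat_lit 4) (nat_lit 1) (nat_lit 4) (nat_lit 386) (nat_lit 289) (nat_lit 225)) (XT.lf (nat_lit 0) (nat_lit 280457860656) (nat_lit 152) (nat_lit 174037411178) (nat_lit 0) (nat_lit 275616278359) (nat_lit 1) (nat_lit 5) (nat_lit 3) (nat_lit 4) (nat_lit 1) (nat_lit 4) (nat_lit 387)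 (nat_lit 289) (nat_lit 224))) (XT.nd (nat_lit 78) (nat_lit 0) (nat_lit 0) (XT.lf (nat_lit 0) (nat_lit 308325703266) (nat_lit 152) (nat_lit 176246664976) (nat_lit 0) (nat_lit 303481694145) (nat_lit 1) (nat_lit 5) (nat_lit 3) (nat_lit 4) (nat_lit 1) (nat_lit 4) (nat_lit 388) (nat_lit 289) (nat_lit 223)) (XT.nd (nat_lit 78) (nat_lit 0) (nat_lit 0) (XT.lf (nat_lit 0) (nat_lit 338417462855) (nat_lit 152) (nat_lit 178643747544) (nat_lit 0) (nat_lit 333571206674) (nat_lit 1) (nat_lit 5) (nat_lit 3) (nat_lit 4) (nat_lit 1) (nat_lit 4) (nat_lit 389) (nat_lit 289) (nat_lit 222)) (XT.lf (nat_lit 0) (nat_lit 370911460959) (nat_lit 152) (nat_lit 181242863816) (nat_lit 0) (nat_lit 366063124167) (nat_lit 1) (nat_lit 5) (nat_lit 3) (nat_lit 4) (nat_lit 1) (nat_lit 4) (nat_lit 390) (nat_lit 289) (nat_lit 221)))))) (XT.nd (nat_lit 312) (nat_lit 0) (nat_lit 0) (XT.nd (nat_lit 156) (nat_lit 0) (nat_lit 0)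 (XT.nd (nat_lit 78) (nat_lit 0) (nat_lit 0) (XT.lf (nat_lit 0) (nat_lit 406000254606) (nat_lit 152) (nat_lit 184059415961) (nat_lit 0) (nat_lit 401149991323) (nat_lit 1) (nat_lit 5) (nat_lit 3) (nat_lit 4) (nat_lit 1) (nat_lit 4) (nat_lit 391) (nat_lit 289) (nat_lit 220)) (XT.lf (nat_lit 0) (nat_lit 443891777387) (nat_lit 152) (nat_lit 187110094660) (nat_lit 0) (nat_lit 439039730315) (nat_lit 1) (nat_lit 5) (nat_lit 3) (nat_lit 4) (nat_lit 1) (nat_lit 4) (nat_lit 392) (nat_lit 289) (nat_lit 219))) (XT.nd (nat_lit 78) (nat_lit 0) (nat_lit 0) (XT.lf (nat_lit 0) (nat_lit 484810571659) (nat_lit 152) (nat_lit 190412978009) (nat_lit 0) (nat_lit 479956872931) (nat_lit 1) (nat_lit 5) (nat_lit 3) (nat_lit 4) (nat_lit 1) (nat_lit 4) (nat_lit 393) (nat_lit 289) (nat_lit 218)) (XT.lf (nat_lit 0) (nat_lit 528999119166) (nat_lit 152) (nat_lit 193987638649) (nat_lit 0) (nat_lit 524143891127) (nat_lit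 1) (nat_lit 5) (nat_lit 3) (nat_lit 4) (nat_lit 1) (nat_lit 4) (nat_lit 394) (nat_lit 289) (nat_lit 217)))) (XT.nd (nat_lit 156) (nat_lit 0) (nat_lit 0) (XT.nd (nat_lit 78) (nat_lit 0) (nat_lit 0) (XT.lf (nat_lit 0) (nat_lit 576719277967) (nat_lit 152) (nat_lit 197855259755) (nat_lit 0) (nat_lit 571862633900) (nat_lit 1) (nat_lit 5) (nat_lit 3) (nat_lit 4) (nat_lit 1) (nat_lit 4) (nat_lit 395) (nat_lit 289) (nat_lit 216)) (XT.lf (nat_lit 0) (nat_lit 628253834189) (nat_lit 152) (nat_lit 202038760563) (nat_lit 0) (nat_lit 623395878985) (nat_lit 1) (nat_lit 5) (nat_lit 3) (nat_lit 4) (nat_lit 1) (nat_lit 4) (nat_lit 396) (nat_lit 289) (nat_lit 215))) (XT.nd (nat_lit 78) (nat_lit 0) (nat_lit 0) (XT.lf (nat_lit 0) (nat_lit 683908177795) (nat_lit 152) (nat_lit 206562932189) (nat_lit 0) (nat_lit 679049008574) (nat_lit 1) (nat_lit 5) (nat_lit 3) (nat_lit 4) (nat_lit 1) (nat_lit 4) (nat_lit 397)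 (nat_lit 289) (nat_lit 214)) (XT.nd (nat_lit 78) (nat_lit 0) (nat_lit 0) (XT.lf (nat_lit 0) (nat_lit 744012112302) (nat_lit 152) (nat_lit 211454584538) (nat_lit 0) (nat_lit 739151818991) (nat_lit 1) (nat_lit 5) (nat_lit 3) (nat_lit 4) (nat_lit 1) (nat_lit 4) (nat_lit 398) (nat_lit 289) (nat_lit 213)) (XT.lf (nat_lit 0) (nat_lit 808921809173) (nat_lit 152) (nat_lit 216742705181) (nat_lit 0) (nat_lit 804060475039) (nat_lit 1) (nat_lit 5) (nat_lit 3) (nat_lit 4) (nat_lit 1) (nat_lit 4) (nat_lit 399) (nat_lit 289) (nat_lit 212))))))) (XT.nd (nat_lit 702) (nat_lit 0) (nat_lit 0) (XT.nd (nat_lit 312) (nat_lit 0) (nat_lit 0) (XT.nd (nat_lit 156) (nat_lit 0) (nat_lit 0) (XT.nd (nat_lit 78) (nat_lit 0) (nat_lit 0) (XT.lf (nat_lit 0) (nat_lit 879021918465) (nat_lit 152) (nat_lit 222458631128) (nat_lit 0) (nat_lit 874159620606) (nat_lit 1) (nat_lit 5) (nat_lit 3) (nat_lit 4) (nat_lit 1) (nat_lit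 4) (nat_lit 400) (nat_lit 289) (nat_lit 211)) (XT.lf (nat_lit 0) (nat_lit 954727848232) (nat_lit 152) (nat_lit 228636234533) (nat_lit 0) (nat_lit 949864658035) (nat_lit 1) (nat_lit 5) (nat_lit 3) (nat_lit 4) (nat_lit 1) (nat_lit 4) (nat_lit 401) (nat_lit 289) (nat_lit 210))) (XT.nd (nat_lit 78) (nat_lit 0) (nat_lit 0) (XT.lf (nat_lit 0) (nat_lit 1036488226207) (nat_lit 152) (nat_lit 235312123417) (nat_lit 0) (nat_lit 1031624209771) (nat_lit 1) (nat_lit 5) (nat_lit 3) (nat_lit 4) (nat_lit 1) (nat_lit 4) (nat_lit 402) (nat_lit 289) (nat_lit 209)) (XT.lf (nat_lit 0) (nat_lit 1124787558333) (nat_lit 152) (nat_lit 242525858602) (nat_lit 0) (nat_lit 1119922776860) (nat_lit 1) (nat_lit 5) (nat_lit 3) (nat_lit 4) (nat_lit 1) (nat_lit 4) (nat_lit 403) (nat_lit 289) (nat_lit 208)))) (XT.nd (nat_lit 156) (nat_lit 0) (nat_lit 0) (XT.nd (nat_lit 78) (nat_lit 0) (nat_lit 0) (XT.lf (nat_lit 0) (nat_lit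 1220149099911) (nat_lit 152) (nat_lit 250320188148) (nat_lit 0) (nat_lit 1215283610071) (nat_lit 1) (nat_lit 5) (nat_lit 3) (nat_lit 4) (nat_lit 1) (nat_lit 4) (nat_lit 404) (nat_lit 289) (nat_lit 207)) (XT.lf (nat_lit 0) (nat_lit 1323137956373) (nat_lit 152) (nat_lit 258741300676) (nat_lit 0) (nat_lit 1318271810638) (nat_lit 1) (nat_lit 5) (nat_lit 3) (nat_lit 4) (nat_lit 1) (nat_lit 4) (nat_lit 405) (nat_lit 289) (nat_lit 206))) (XT.nd (nat_lit 78) (nat_lit 0) (nat_lit 0) (XT.lf (nat_lit 0) (nat_lit 1434364432054) (nat_lit 152) (nat_lit 267839099075) (nat_lit 0) (nat_lit 1429497679009) (nat_lit 1) (nat_lit 5) (nat_lit 3) (nat_lit 4) (nat_lit 1) (nat_lit 4) (nat_lit 406) (nat_lit 289) (nat_lit 205)) (XT.nd (nat_lit 78) (nat_lit 0) (nat_lit 0) (XT.lf (nat_lit 0) (nat_lit 1554487646809) (nat_lit 152) (nat_lit 277667496223) (nat_lit 0) (nat_lit 1549620331439) (nat_lit 1) (nat_lit 5) (nat_lit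 3) (nat_lit 4) (nat_lit 1) (nat_lit 4) (nat_lit 407) (nat_lit 289) (nat_lit 204)) (XT.lf (nat_lit 0) (nat_lit 1684219441911) (nat_lit 152) (nat_lit 288284734474) (nat_lit 0) (nat_lit 1679351605871) (nat_lit 1) (nat_lit 5) (nat_lit 3) (nat_lit 4) (nat_lit 1) (nat_lit 4) (nat_lit 408) (nat_lit 289) (nat_lit 203)))))) (XT.nd (nat_lit 312) (nat_lit 0) (nat_lit 0) (XT.nd (nat_lit 156) (nat_lit 0) (nat_lit 0) (XT.nd (nat_lit 78) (nat_lit 0) (nat_lit 0) (XT.lf (nat_lit 0) (nat_lit 1824328598369) (nat_lit 152) (nat_lit 299753730795) (nat_lit 0) (nat_lit 1819460280226) (nat_lit 1) (nat_lit 5) (nat_lit 3) (nat_lit 4) (nat_lit 1) (nat_lit 4) (nat_lit 409) (nat_lit 289) (nat_lit 202)) (XT.lf (nat_lit 0) (nat_lit 1975645392664) (nat_lit 152) (nat_lit 312142449610) (nat_lit 0) (nat_lit 1970776628130) (nat_lit 1) (nat_lit 5) (nat_lit 3) (nat_lit 4) (nat_lit 1) (nat_lit 4) (nat_lit 410) (nat_lit 289)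 (nat_lit 201))) (XT.nd (nat_lit 78) (nat_lit 0) (nat_lit 0) (XT.lf (nat_lit 0) (nat_lit 2139066516912) (nat_lit 152) (nat_lit 325524305549) (nat_lit 0) (nat_lit 2134197339052) (nat_lit 1) (nat_lit 5) (nat_lit 3) (nat_lit 4) (nat_lit 1) (nat_lit 4) (nat_lit 411) (nat_lit 289) (nat_lit 200)) (XT.lf (nat_lit 0) (nat_lit 2315560392588) (nat_lit 152) (nat_lit 339978598497) (nat_lit 0) (nat_lit 2310690832020) (nat_lit 1) (nat_lit 5) (nat_lit 3) (nat_lit 4) (nat_lit 1) (nat_lit 4) (nat_lit 412) (nat_lit 289) (nat_lit 199)))) (XT.nd (nat_lit 156) (nat_lit 0) (nat_lit 0) (XT.nd (nat_lit 78) (nat_lit 0) (nat_lit 0) (XT.lf (nat_lit 0) (nat_lit 2506172909328) (nat_lit 152) (nat_lit 355590983526) (nat_lit 0) (nat_lit 2501302994400) (nat_lit 1) (nat_lit 5) (nat_lit 3) (nat_lit 4) (nat_lit 1) (nat_lit 4) (nat_lit 413) (nat_lit 289) (nat_lit 198)) (XT.lf (nat_lit 0) (nat_lit 2712033622785) (nat_lit 152)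 (nat_lit 372453978471) (nat_lit 0) (nat_lit 2707163379746) (nat_lit 1) (nat_lit 5) (nat_lit 3) (nat_lit 4) (nat_lit 1) (nat_lit 4) (nat_lit 414) (nat_lit 289) (nat_lit 197))) (XT.nd (nat_lit 78) (nat_lit 0) (nat_lit 0) (XT.lf (nat_lit 0) (nat_lit 2934362448298) (nat_lit 152) (nat_lit 390667512191) (nat_lit 0) (nat_lit 2929491901453) (nat_lit 1) (nat_lit 5) (nat_lit 3) (nat_lit 4) (nat_lit 1) (nat_lit 4) (nat_lit 415) (nat_lit 289) (nat_lit 196)) (XT.nd (nat_lit 39390) (nat_lit 0) (nat_lit 2508) (XT.lf (nat_lit 0) (nat_lit 3174476890020) (nat_lit 152) (nat_lit 410339516740) (nat_lit 0) (nat_lit 3169606061872) (nat_lit 1) (nat_lit 5) (nat_lit 3) (nat_lit 4) (nat_lit 1) (nat_lit 4) (nat_lit 416) (nat_lit 289) (nat_lit 195)) (XT.lf (nat_lit 0) (nat_lit 4384145352) (nat_lit 152) (nat_lit 201471555) (nat_lit 152) (nat_lit 201471555) (nat_lit 34) (nat_lit 4) (nat_lit 36) (nat_lit 5) (nat_lit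 36) (nat_lit 4) (nat_lit 320) (nat_lit 290) (nat_lit 290))))))))
noncomputable def xc66 : XT := (XT.nd (nat_lit 1404) (nat_lit 608) (nat_lit 0) (XT.nd (nat_lit 702) (nat_lit 532) (nat_lit 0) (XT.nd (nat_lit 312) (nat_lit 456) (nat_lit 0) (XT.nd (nat_lit 156) (nat_lit 304) (nat_lit 0) (XT.nd (nat_lit 78) (nat_lit 152) (nat_lit 0) (XT.lf (nat_lit 0) (nat_lit 3938566216) (nat_lit 228) (nat_lit 2823332209) (nat_lit 0) (nat_lit 3159059251) (nat_lit 31) (nat_lit 5) (nat_lit 34) (nat_lit 4) (nat_lit 31) (nat_lit 4) (nat_lit 321) (nat_lit 290) (nat_lit 289)) (XT.lf (nat_lit 0) (nat_lit 5214677416) (nat_lit 152) (nat_lit 3294583372) (nat_lit 152) (nat_lit 1793310699) (nat_lit 29) (nat_lit 4) (nat_lit 31) (nat_lit 5) (nat_lit 31) (nat_lit 4) (nat_lit 322) (nat_lit 290) (nat_lit 288))) (XT.nd (nat_lit 78) (nat_lit 152) (nat_lit 0) (XT.lf (nat_lit 0) (nat_lit 2506500053) (nat_lit 152) (nat_lit 7712535381)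 (nat_lit 0) (nat_lit 497635002) (nat_lit 27) (nat_lit 5) (nat_lit 29) (nat_lit 4) (nat_lit 27) (nat_lit 4) (nat_lit 323) (nat_lit 290) (nat_lit 287)) (XT.lf (nat_lit 0) (nat_lit 342883256) (nat_lit 152) (nat_lit 6700062172) (nat_lit 152) (nat_lit 4118236232) (nat_lit 25) (nat_lit 4) (nat_lit 27) (nat_lit 5) (nat_lit 27) (nat_lit 4) (nat_lit 324) (nat_lit 290) (nat_lit 286)))) (XT.nd (nat_lit 156) (nat_lit 304) (nat_lit 0) (XT.nd (nat_lit 78) (nat_lit 76) (nat_lit 0) (XT.lf (nat_lit 0) (nat_lit 257470393) (nat_lit 228) (nat_lit 2576806863) (nat_lit 76) (nat_lit 8808827859) (nat_lit 24) (nat_lit 5) (nat_lit 27) (nat_lit 5) (nat_lit 25) (nat_lit 4) (nat_lit 325) (nat_lit 290) (nat_lit 285)) (XT.lf (nat_lit 0) (nat_lit 4716462133) (nat_lit 152) (nat_lit 6062416947) (nat_lit 0) (nat_lit 1379826119) (nat_lit 23) (nat_lit 5) (nat_lit 25) (nat_lit 4) (nat_lit 23) (nat_lit 4) (nat_lit 326) (nat_lit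 290) (nat_lit 284))) (XT.nd (nat_lit 78) (nat_lit 152) (nat_lit 0) (XT.lf (nat_lit 0) (nat_lit 2558620775) (nat_lit 152) (nat_lit 6958040207) (nat_lit 152) (nat_lit 3200260833) (nat_lit 21) (nat_lit 4) (nat_lit 23) (nat_lit 5) (nat_lit 23) (nat_lit 4) (nat_lit 327) (nat_lit 290) (nat_lit 283)) (XT.nd (nat_lit 78) (nat_lit 76) (nat_lit 0) (XT.lf (nat_lit 0) (nat_lit 1260676329) (nat_lit 228) (nat_lit 1525520162) (nat_lit 76) (nat_lit 10535156735) (nat_lit 20) (nat_lit 5) (nat_lit 23) (nat_lit 5) (nat_lit 21) (nat_lit 4) (nat_lit 328) (nat_lit 290) (nat_lit 282)) (XT.lf (nat_lit 0) (nat_lit 5931111606) (nat_lit 152) (nat_lit 6278130738) (nat_lit 0) (nat_lit 1756306535) (nat_lit 19) (nat_lit 5) (nat_lit 21) (nat_lit 4) (nat_lit 19) (nat_lit 4) (nat_lit 329) (nat_lit 290) (nat_lit 281)))))) (XT.nd (nat_lit 312) (nat_lit 304) (nat_lit 0) (XT.nd (nat_lit 156) (nat_lit 76) (nat_lit 0) (XT.nd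 (nat_lit 78) (nat_lit 76) (nat_lit 0) (XT.lf (nat_lit 0) (nat_lit 2761752319) (nat_lit 76) (nat_lit 8192814413) (nat_lit 76) (nat_lit 3708456401) (nat_lit 18) (nat_lit 4) (nat_lit 19) (nat_lit 5) (nat_lit 19) (nat_lit 4) (nat_lit 330) (nat_lit 290) (nat_lit 280)) (XT.lf (nat_lit 0) (nat_lit 890469769) (nat_lit 152) (nat_lit 2918803984) (nat_lit 76) (nat_lit 11607242365) (nat_lit 17) (nat_lit 5) (nat_lit 19) (nat_lit 5) (nat_lit 18) (nat_lit 4) (nat_lit 331) (nat_lit 290) (nat_lit 279))) (XT.nd (nat_lit 78) (nat_lit 0) (nat_lit 0) (XT.lf (nat_lit 0) (nat_lit 5656530215) (nat_lit 152) (nat_lit 9572939000) (nat_lit 0) (nat_lit 993222013) (nat_lit 16) (nat_lit 5) (nat_lit 18) (nat_lit 4) (nat_lit 16) (nat_lit 4) (nat_lit 332) (nat_lit 290) (nat_lit 278)) (XT.lf (nat_lit 0) (nat_lit 10800589769) (nat_lit 152) (nat_lit 383351433) (nat_lit 0) (nat_lit 5909750914) (nat_lit 16) (nat_lit 5) (nat_lit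 18) (nat_lit 4) (nat_lit 16) (nat_lit 4) (nat_lit 333) (nat_lit 290) (nat_lit 277)))) (XT.nd (nat_lit 156) (nat_lit 76) (nat_lit 0) (XT.nd (nat_lit 78) (nat_lit 152) (nat_lit 0) (XT.lf (nat_lit 0) (nat_lit 9707426077) (nat_lit 76) (nat_lit 6711743282) (nat_lit 76) (nat_lit 1610227897) (nat_lit 15) (nat_lit 4) (nat_lit 16) (nat_lit 5) (nat_lit 16) (nat_lit 4) (nat_lit 334) (nat_lit 290) (nat_lit 276)) (XT.lf (nat_lit 0) (nat_lit 1246859607) (nat_lit 76) (nat_lit 1899027821) (nat_lit 152) (nat_lit 15897808904) (nat_lit 13) (nat_lit 5) (nat_lit 14) (nat_lit 5) (nat_lit 15) (nat_lit 4) (nat_lit 335) (nat_lit 290) (nat_lit 275))) (XT.nd (nat_lit 78) (nat_lit 76) (nat_lit 0) (XT.lf (nat_lit 0) (nat_lit 8340099674) (nat_lit 152) (nat_lit 8515564909) (nat_lit 0) (nat_lit 3268611328) (nat_lit 13) (nat_lit 5) (nat_lit 15) (nat_lit 4) (nat_lit 13) (nat_lit 4) (nat_lit 336) (nat_lit 290) (nat_lit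 274)) (XT.nd (nat_lit 78) (nat_lit 0) (nat_lit 0) (XT.lf (nat_lit 0) (nat_lit 1221823044) (nat_lit 76) (nat_lit 12651014261) (nat_lit 76) (nat_lit 7424672377) (nat_lit 12) (nat_lit 4) (nat_lit 13) (nat_lit 5) (nat_lit 13) (nat_lit 4) (nat_lit 337) (nat_lit 290) (nat_lit 273)) (XT.lf (nat_lit 0) (nat_lit 11931857890) (nat_lit 76) (nat_lit 7997990080) (nat_lit 76) (nat_lit 2628265289) (nat_lit 12) (nat_lit 4) (nat_lit 13) (nat_lit 5) (nat_lit 13) (nat_lit 4) (nat_lit 338) (nat_lit 290) (nat_lit 272))))))) (XT.nd (nat_lit 702) (nat_lit 228) (nat_lit 0) (XT.nd (nat_lit 312) (nat_lit 152) (nat_lit 0) (XT.nd (nat_lit 156) (nat_lit 76) (nat_lit 0) (XT.nd (nat_lit 78) (nat_lit 76) (nat_lit 0) (XT.lf (nat_lit 0) (nat_lit 2280547931) (nat_lit 152) (nat_lit 758947044) (nat_lit 76) (nat_lit 20886689790) (nat_lit 11) (nat_lit 5) (nat_lit 13) (nat_lit 5) (nat_lit 12) (nat_lit 4) (nat_lit 339) (nat_lit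 290) (nat_lit 271)) (XT.lf (nat_lit 0) (nat_lit 7610218986) (nat_lit 152) (nat_lit 15372942477) (nat_lit 0) (nat_lit 2401501881) (nat_lit 10) (nat_lit 5) (nat_lit 12) (nat_lit 4) (nat_lit 10) (nat_lit 4) (nat_lit 340) (nat_lit 290) (nat_lit 270))) (XT.nd (nat_lit 78) (nat_lit 76) (nat_lit 0) (XT.lf (nat_lit 0) (nat_lit 13334437615) (nat_lit 152) (nat_lit 5607630809) (nat_lit 0) (nat_lit 8020329793) (nat_lit 10) (nat_lit 5) (nat_lit 12) (nat_lit 4) (nat_lit 10) (nat_lit 4) (nat_lit 341) (nat_lit 290) (nat_lit 269)) (XT.lf (nat_lit 0) (nat_lit 4948302934) (nat_lit 76) (nat_lit 14565016145) (nat_lit 76) (nat_lit 9153324327) (nat_lit 9) (nat_lit 4) (nat_lit 10) (nat_lit 5) (nat_lit 10) (nat_lit 4) (nat_lit 342) (nat_lit 290) (nat_lit 268)))) (XT.nd (nat_lit 156) (nat_lit 76) (nat_lit 0) (XT.nd (nat_lit 78) (nat_lit 76) (nat_lit 0) (XT.lf (nat_lit 0) (nat_lit 16435514082) (nat_lit 76) (nat_lit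 9785513760) (nat_lit 76) (nat_lit 4283466389) (nat_lit 9) (nat_lit 4) (nat_lit 10) (nat_lit 5) (nat_lit 10) (nat_lit 4) (nat_lit 343) (nat_lit 290) (nat_lit 267)) (XT.lf (nat_lit 0) (nat_lit 814270995) (nat_lit 152) (nat_lit 3892026248) (nat_lit 76) (nat_lit 27790252491) (nat_lit 8) (nat_lit 5) (nat_lit 10) (nat_lit 5) (nat_lit 9) (nat_lit 4) (nat_lit 344) (nat_lit 290) (nat_lit 266))) (XT.nd (nat_lit 78) (nat_lit 0) (nat_lit 0) (XT.lf (nat_lit 0) (nat_lit 6179299974) (nat_lit 152) (nat_lit 27516900238) (nat_lit 0) (nat_lit 935619194) (nat_lit 7) (nat_lit 5) (nat_lit 9) (nat_lit 4) (nat_lit 7) (nat_lit 4) (nat_lit 345) (nat_lit 290) (nat_lit 265)) (XT.nd (nat_lit 78) (nat_lit 0) (nat_lit 0) (XT.lf (nat_lit 0) (nat_lit 12101024007) (nat_lit 152) (nat_lit 18035778144) (nat_lit 0) (nat_lit 6790929198) (nat_lit 7) (nat_lit 5) (nat_lit 9) (nat_lit 4) (nat_lit 7) (nat_lit 4) (nat_lit 346) (nat_lit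 290) (nat_lit 264)) (XT.lf (nat_lit 0) (nat_lit 18400256637) (nat_lit 152) (nat_lit 7986109221) (nat_lit 0) (nat_lit 13028667357) (nat_lit 7) (nat_lit 5) (nat_lit 9) (nat_lit 4) (nat_lit 7) (nat_lit 4) (nat_lit 347) (nat_lit 290) (nat_lit 263)))))) (XT.nd (nat_lit 312) (nat_lit 152) (nat_lit 0) (XT.nd (nat_lit 156) (nat_lit 0) (nat_lit 0) (XT.nd (nat_lit 78) (nat_lit 0) (nat_lit 0) (XT.lf (nat_lit 0) (nat_lit 2833398175) (nat_lit 76) (nat_lit 22349071770) (nat_lit 76) (nat_lit 16920543166) (nat_lit 6) (nat_lit 4) (nat_lit 7) (nat_lit 5) (nat_lit 7) (nat_lit 4) (nat_lit 348) (nat_lit 290) (nat_lit 262)) (XT.lf (nat_lit 0) (nat_lit 14801222662) (nat_lit 76) (nat_lit 17837768229) (nat_lit 76) (nat_lit 12356518028) (nat_lit 6) (nat_lit 4) (nat_lit 7) (nat_lit 5) (nat_lit 7) (nat_lit 4) (nat_lit 349) (nat_lit 290) (nat_lit 261))) (XT.nd (nat_lit 78) (nat_lit 0) (nat_lit 0) (XT.lf (nat_lit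 0) (nat_lit 27567750323) (nat_lit 76) (nat_lit 13044075963) (nat_lit 76) (nat_lit 7514009468) (nat_lit 6) (nat_lit 4) (nat_lit 7) (nat_lit 5) (nat_lit 7) (nat_lit 4) (nat_lit 350) (nat_lit 290) (nat_lit 260)) (XT.lf (nat_lit 0) (nat_lit 41208634655) (nat_lit 76) (nat_lit 7939587907) (nat_lit 76) (nat_lit 2364321140) (nat_lit 6) (nat_lit 4) (nat_lit 7) (nat_lit 5) (nat_lit 7) (nat_lit 4) (nat_lit 351) (nat_lit 290) (nat_lit 259)))) (XT.nd (nat_lit 156) (nat_lit 0) (nat_lit 0) (XT.nd (nat_lit 78) (nat_lit 0) (nat_lit 0) (XT.lf (nat_lit 0) (nat_lit 583065947) (nat_lit 76) (nat_lit 2397792137) (nat_lit 152) (nat_lit 52187713457) (nat_lit 4) (nat_lit 5) (nat_lit 5) (nat_lit 5) (nat_lit 6) (nat_lit 4) (nat_lit 352) (nat_lit 290) (nat_lit 258)) (XT.lf (nat_lit 0) (nat_lit 8930997070) (nat_lit 152) (nat_lit 46462696471) (nat_lit 0) (nat_lit 3694079646) (nat_lit 4) (nat_lit 5) (nat_lit 6) (nat_lit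 4) (nat_lit 4) (nat_lit 4) (nat_lit 353) (nat_lit 290) (nat_lit 257))) (XT.nd (nat_lit 78) (nat_lit 0) (nat_lit 0) (XT.lf (nat_lit 0) (nat_lit 15354390140) (nat_lit 152) (nat_lit 37882102283) (nat_lit 0) (nat_lit 10084249166) (nat_lit 4) (nat_lit 5) (nat_lit 6) (nat_lit 4) (nat_lit 4) (nat_lit 4) (nat_lit 354) (nat_lit 290) (nat_lit 256)) (XT.nd (nat_lit 78) (nat_lit 0) (nat_lit 0) (XT.lf (nat_lit 0) (nat_lit 22231434887) (nat_lit 152) (nat_lit 28735208106) (nat_lit 0) (nat_lit 16930531368) (nat_lit 4) (nat_lit 5) (nat_lit 6) (nat_lit 4) (nat_lit 4) (nat_lit 4) (nat_lit 355) (nat_lit 290) (nat_lit 255)) (XT.lf (nat_lit 0) (nat_lit 29602884170) (nat_lit 152) (nat_lit 18967810123) (nat_lit 0) (nat_lit 24273496812) (nat_lit 4) (nat_lit 5) (nat_lit 6) (nat_lit 4) (nat_lit 4) (nat_lit 4) (nat_lit 356) (nat_lit 290) (nat_lit 254))))))))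
noncomputable def xc67 : XT := (XT.nd (nat_lit 1404) (nat_lit 0) (nat_lit 0) (XT.nd (nat_lit 702) (nat_lit 152) (nat_lit 0) (XT.nd (nat_lit 312) (nat_lit 0) (nat_lit 0) (XT.nd (nat_lit 156) (nat_lit 0) (nat_lit 0) (XT.nd (nat_lit 78) (nat_lit 76) (nat_lit 0) (XT.lf (nat_lit 0) (nat_lit 37512420650) (nat_lit 152) (nat_lit 8522027457) (nat_lit 0) (nat_lit 32156659368) (nat_lit 4) (nat_lit 5) (nat_lit 6) (nat_lit 4) (nat_lit 4) (nat_lit 4) (nat_lit 357) (nat_lit 290) (nat_lit 253)) (XT.lf (nat_lit 0) (nat_lit 2804324495) (nat_lit 76) (nat_lit 43270035232) (nat_lit 76) (nat_lit 37889853650) (nat_lit 3) (nat_lit 4) (nat_lit 4) (nat_lit 5) (nat_lit 4) (nat_lit 4) (nat_lit 358) (nat_lit 290) (nat_lit 252))) (XT.nd (nat_lit 78) (nat_lit 0) (nat_lit 0) (XT.lf (nat_lit 0) (nat_lit 15428477467) (nat_lit 76) (nat_lit 40079284722) (nat_lit 76) (nat_lit 34676491750) (nat_lit 3) (nat_lit 4) (nat_lit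 4) (nat_lit 5) (nat_lit 4) (nat_lit 4) (nat_lit 359) (nat_lit 290) (nat_lit 251)) (XT.lf (nat_lit 0) (nat_lit 28976486391) (nat_lit 76) (nat_lit 36676295757) (nat_lit 76) (nat_lit 31252566313) (nat_lit 3) (nat_lit 4) (nat_lit 4) (nat_lit 5) (nat_lit 4) (nat_lit 4) (nat_lit 360) (nat_lit 290) (nat_lit 250)))) (XT.nd (nat_lit 156) (nat_lit 0) (nat_lit 0) (XT.nd (nat_lit 78) (nat_lit 0) (nat_lit 0) (XT.lf (nat_lit 0) (nat_lit 43528635765) (nat_lit 76) (nat_lit 33040902477) (nat_lit 76) (nat_lit 27597787412) (nat_lit 3) (nat_lit 4) (nat_lit 4) (nat_lit 5) (nat_lit 4) (nat_lit 4) (nat_lit 361) (nat_lit 290) (nat_lit 249)) (XT.lf (nat_lit 0) (nat_lit 59171160548) (nat_lit 76) (nat_lit 29151561811) (nat_lit 76) (nat_lit 23690497096) (nat_lit 3) (nat_lit 4) (nat_lit 4) (nat_lit 5) (nat_lit 4) (nat_lit 4) (nat_lit 362) (nat_lit 290) (nat_lit 248))) (XT.nd (nat_lit 78) (nat_lit 0) (nat_lit 0) (XT.lf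 (nat_lit 0) (nat_lit 75996757182) (nat_lit 76) (nat_lit 24985225815) (nat_lit 76) (nat_lit 19507541054) (nat_lit 3) (nat_lit 4) (nat_lit 4) (nat_lit 5) (nat_lit 4) (nat_lit 4) (nat_lit 363) (nat_lit 290) (nat_lit 247)) (XT.nd (nat_lit 78) (nat_lit 0) (nat_lit 0) (XT.lf (nat_lit 0) (nat_lit 94105132908) (nat_lit 76) (nat_lit 20517205090) (nat_lit 76) (nat_lit 15024131397) (nat_lit 3) (nat_lit 4) (nat_lit 4) (nat_lit 5) (nat_lit 4) (nat_lit 4) (nat_lit 364) (nat_lit 290) (nat_lit 246)) (XT.lf (nat_lit 0) (nat_lit 113603596618) (nat_lit 76) (nat_lit 15721022475) (nat_lit 76) (nat_lit 10213699772) (nat_lit 3) (nat_lit 4) (nat_lit 4) (nat_lit 5) (nat_lit 4) (nat_lit 4) (nat_lit 365) (nat_lit 290) (nat_lit 245)))))) (XT.nd (nat_lit 312) (nat_lit 0) (nat_lit 0) (XT.nd (nat_lit 156) (nat_lit 76) (nat_lit 0) (XT.nd (nat_lit 78) (nat_lit 76) (nat_lit 0) (XT.lf (nat_lit 0) (nat_lit 134607694764)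 (nat_lit 76) (nat_lit 10568256149) (nat_lit 76) (nat_lit 5047739917) (nat_lit 3) (nat_lit 4) (nat_lit 4) (nat_lit 5) (nat_lit 4) (nat_lit 4) (nat_lit 366) (nat_lit 290) (nat_lit 244)) (XT.lf (nat_lit 0) (nat_lit 479131068) (nat_lit 152) (nat_lit 4536139838) (nat_lit 76) (nat_lit 156749664714) (nat_lit 2) (nat_lit 5) (nat_lit 4) (nat_lit 5) (nat_lit 3) (nat_lit 4) (nat_lit 367) (nat_lit 290) (nat_lit 243))) (XT.nd (nat_lit 78) (nat_lit 0) (nat_lit 0) (XT.lf (nat_lit 0) (nat_lit 6366364520) (nat_lit 152) (nat_lit 166604365443) (nat_lit 0) (nat_lit 1232990644) (nat_lit 1) (nat_lit 5) (nat_lit 3) (nat_lit 4) (nat_lit 1) (nat_lit 4) (nat_lit 368) (nat_lit 290) (nat_lit 242)) (XT.lf (nat_lit 0) (nat_lit 12958309612) (nat_lit 152) (nat_lit 166845364982) (nat_lit 0) (nat_lit 7815238099) (nat_lit 1) (nat_lit 5) (nat_lit 3) (nat_lit 4) (nat_lit 1) (nat_lit 4) (nat_lit 369) (nat_lit 290) (nat_lit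 241)))) (XT.nd (nat_lit 156) (nat_lit 0) (nat_lit 0) (XT.nd (nat_lit 78) (nat_lit 0) (nat_lit 0) (XT.lf (nat_lit 0) (nat_lit 20055590523) (nat_lit 152) (nat_lit 167149954211) (nat_lit 0) (nat_lit 14903539715) (nat_lit 1) (nat_lit 5) (nat_lit 3) (nat_lit 4) (nat_lit 1) (nat_lit 4) (nat_lit 370) (nat_lit 290) (nat_lit 240)) (XT.lf (nat_lit 0) (nat_lit 27700265212) (nat_lit 152) (nat_lit 167519938103) (nat_lit 0) (nat_lit 22539900244) (nat_lit 1) (nat_lit 5) (nat_lit 3) (nat_lit 4) (nat_lit 1) (nat_lit 4) (nat_lit 371) (nat_lit 290) (nat_lit 239))) (XT.nd (nat_lit 78) (nat_lit 0) (nat_lit 0) (XT.lf (nat_lit 0) (nat_lit 35937635456) (nat_lit 152) (nat_lit 167957509154) (nat_lit 0) (nat_lit 30769572191) (nat_lit 1) (nat_lit 5) (nat_lit 3) (nat_lit 4) (nat_lit 1) (nat_lit 4) (nat_lit 372) (nat_lit 290) (nat_lit 238)) (XT.nd (nat_lit 78) (nat_lit 0) (nat_lit 0) (XT.lf (nat_lit 0) (nat_lit 44816515302)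 (nat_lit 152) (nat_lit 168465260380) (nat_lit 0) (nat_lit 39641323983) (nat_lit 1) (nat_lit 5) (nat_lit 3) (nat_lit 4) (nat_lit 1) (nat_lit 4) (nat_lit 373) (nat_lit 290) (nat_lit 237)) (XT.lf (nat_lit 0) (nat_lit 54389520332) (nat_lit 152) (nat_lit 169046200674) (nat_lit 0) (nat_lit 49207728965) (nat_lit 1) (nat_lit 5) (nat_lit 3) (nat_lit 4) (nat_lit 1) (nat_lit 4) (nat_lit 374) (nat_lit 290) (nat_lit 236))))))) (XT.nd (nat_lit 702) (nat_lit 0) (nat_lit 0) (XT.nd (nat_lit 312) (nat_lit 0) (nat_lit 0) (XT.nd (nat_lit 156) (nat_lit 0) (nat_lit 0) (XT.nd (nat_lit 78) (nat_lit 0) (nat_lit 0) (XT.lf (nat_lit 0) (nat_lit 64713379467) (nat_lit 152) (nat_lit 169703772648) (nat_lit 0) (nat_lit 59525476943) (nat_lit 1) (nat_lit 5) (nat_lit 3) (nat_lit 4) (nat_lit 1) (nat_lit 4) (nat_lit 375) (nat_lit 290) (nat_lit 235)) (XT.lf (nat_lit 0) (nat_lit 75849271130) (nat_lit 152) (nat_lit 170441873024)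 (nat_lit 0) (nat_lit 70655710128) (nat_lit 1) (nat_lit 5) (nat_lit 3) (nat_lit 4) (nat_lit 1) (nat_lit 4) (nat_lit 376) (nat_lit 290) (nat_lit 234))) (XT.nd (nat_lit 78) (nat_lit 0) (nat_lit 0) (XT.lf (nat_lit 0) (nat_lit 87863185790) (nat_lit 152) (nat_lit 171264875729) (nat_lit 0) (nat_lit 82664385457) (nat_lit 1) (nat_lit 5) (nat_lit 3) (nat_lit 4) (nat_lit 1) (nat_lit 4) (nat_lit 377) (nat_lit 290) (nat_lit 233)) (XT.lf (nat_lit 0) (nat_lit 100826317017) (nat_lit 152) (nat_lit 172177657817) (nat_lit 0) (nat_lit 95622665450) (nat_lit 1) (nat_lit 5) (nat_lit 3) (nat_lit 4) (nat_lit 1) (nat_lit 4) (nat_lit 378) (nat_lit 290) (nat_lit 232)))) (XT.nd (nat_lit 156) (nat_lit 0) (nat_lit 0) (XT.nd (nat_lit 78) (nat_lit 0) (nat_lit 0) (XT.lf (nat_lit 0) (nat_lit 114815483364) (nat_lit 152) (nat_lit 173185628367) (nat_lit 0) (nat_lit 109607339915) (nat_lit 1) (nat_lit 5) (nat_lit 3) (nat_lit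 4) (nat_lit 1) (nat_lit 4) (nat_lit 379) (nat_lit 290) (nat_lit 231)) (XT.lf (nat_lit 0) (nat_lit 129913583597) (nat_lit 152) (nat_lit 174294760538) (nat_lit 0) (nat_lit 124701280997) (nat_lit 1) (nat_lit 5) (nat_lit 3) (nat_lit 4) (nat_lit 1) (nat_lit 4) (nat_lit 380) (nat_lit 290) (nat_lit 230))) (XT.nd (nat_lit 78) (nat_lit 0) (nat_lit 0) (XT.lf (nat_lit 0) (nat_lit 146210087938) (nat_lit 152) (nat_lit 175511626965) (nat_lit 0) (nat_lit 140993934273) (nat_lit 1) (nat_lit 5) (nat_lit 3) (nat_lit 4) (nat_lit 1) (nat_lit 4) (nat_lit 381) (nat_lit 290) (nat_lit 229)) (XT.nd (nat_lit 78) (nat_lit 0) (nat_lit 0) (XT.lf (nat_lit 0) (nat_lit 163801568265) (nat_lit 152) (nat_lit 176843438708) (nat_lit 0) (nat_lit 158581848799) (nat_lit 1) (nat_lit 5) (nat_lit 3) (nat_lit 4) (nat_lit 1) (nat_lit 4) (nat_lit 382) (nat_lit 290) (nat_lit 228)) (XT.lf (nat_lit 0) (nat_lit 182792270387) (nat_lit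 152) (nat_lit 178298087985) (nat_lit 0) (nat_lit 177569249254) (nat_lit 1) (nat_lit 5) (nat_lit 3) (nat_lit 4) (nat_lit 1) (nat_lit 4) (nat_lit 383) (nat_lit 290) (nat_lit 227)))))) (XT.nd (nat_lit 312) (nat_lit 0) (nat_lit 0) (XT.nd (nat_lit 156) (nat_lit 0) (nat_lit 0) (XT.nd (nat_lit 78) (nat_lit 0) (nat_lit 0) (XT.lf (nat_lit 0) (nat_lit 203294731799) (nat_lit 152) (nat_lit 179884194939) (nat_lit 0) (nat_lit 198068653566) (nat_lit 1) (nat_lit 5) (nat_lit 3) (nat_lit 4) (nat_lit 1) (nat_lit 4) (nat_lit 384) (nat_lit 290) (nat_lit 226)) (XT.lf (nat_lit 0) (nat_lit 225430448568) (nat_lit 152) (nat_lit 181611158724) (nat_lit 0) (nat_lit 220201539687) (nat_lit 1) (nat_lit 5) (nat_lit 3) (nat_lit 4) (nat_lit 1) (nat_lit 4) (nat_lit 385) (nat_lit 290) (nat_lit 225))) (XT.nd (nat_lit 78) (nat_lit 0) (nat_lit 0) (XT.lf (nat_lit 0) (nat_lit 249330595312) (nat_lit 152) (nat_lit 183489213198)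 (nat_lit 0) (nat_lit 244099065461) (nat_lit 1) (nat_lit 5) (nat_lit 3) (nat_lit 4) (nat_lit 1) (nat_lit 4) (nat_lit 386) (nat_lit 290) (nat_lit 224)) (XT.lf (nat_lit 0) (nat_lit 275136802531) (nat_lit 152) (nat_lit 185529487573) (nat_lit 0) (nat_lit 269902845855) (nat_lit 1) (nat_lit 5) (nat_lit 3) (nat_lit 4) (nat_lit 1) (nat_lit 4) (nat_lit 387) (nat_lit 290) (nat_lit 223)))) (XT.nd (nat_lit 156) (nat_lit 0) (nat_lit 0) (XT.nd (nat_lit 78) (nat_lit 0) (nat_lit 0) (XT.lf (nat_lit 0) (nat_lit 303001995895) (nat_lit 152) (nat_lit 187744072365) (nat_lit 0) (nat_lit 297765792160) (nat_lit 1) (nat_lit 5) (nat_lit 3) (nat_lit 4) (nat_lit 1) (nat_lit 4) (nat_lit 388) (nat_lit 290) (nat_lit 222)) (XT.lf (nat_lit 0) (nat_lit 333091302478) (nat_lit 152) (nat_lit 190146091038) (nat_lit 0) (nat_lit 327853018132) (nat_lit 1) (nat_lit 5) (nat_lit 3) (nat_lit 4) (nat_lit 1) (nat_lit 4) (nat_lit 389)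 (nat_lit 290) (nat_lit 221))) (XT.nd (nat_lit 78) (nat_lit 0) (nat_lit 0) (XT.lf (nat_lit 0) (nat_lit 365583029282) (nat_lit 152) (nat_lit 192749777777) (nat_lit 0) (nat_lit 360342818445) (nat_lit 1) (nat_lit 5) (nat_lit 3) (nat_lit 4) (nat_lit 1) (nat_lit 4) (nat_lit 390) (nat_lit 290) (nat_lit 220)) (XT.nd (nat_lit 78) (nat_lit 0) (nat_lit 0) (XT.lf (nat_lit 0) (nat_lit 400669719872) (nat_lit 152) (nat_lit 195570561837) (nat_lit 0) (nat_lit 395427725246) (nat_lit 1) (nat_lit 5) (nat_lit 3) (nat_lit 4) (nat_lit 1) (nat_lit 4) (nat_lit 391) (nat_lit 290) (nat_lit 219)) (XT.lf (nat_lit 0) (nat_lit 438559295378) (nat_lit 152) (nat_lit 198625158975) (nat_lit 0) (nat_lit 433315649097) (nat_lit 1) (nat_lit 5) (nat_lit 3) (nat_lit 4) (nat_lit 1) (nat_lit 4) (nat_lit 392) (nat_lit 290) (nat_lit 218))))))))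
noncomputable def xc68 : XT := (XT.nd (nat_lit 1404) (nat_lit 0) (nat_lit 0) (XT.nd (nat_lit 702) (nat_lit 0) (nat_lit 0) (XT.nd (nat_lit 312) (nat_lit 0) (nat_lit 0) (XT.nd (nat_lit 156) (nat_lit 0) (nat_lit 0) (XT.nd (nat_lit 78) (nat_lit 0) (nat_lit 0) (XT.lf (nat_lit 0) (nat_lit 479476286618) (nat_lit 152) (nat_lit 201931670508) (nat_lit 0) (nat_lit 474231111026) (nat_lit 1) (nat_lit 5) (nat_lit 3) (nat_lit 4) (nat_lit 1) (nat_lit 4) (nat_lit 393) (nat_lit 290) (nat_lit 217)) (XT.lf (nat_lit 0) (nat_lit 523663164651) (nat_lit 152) (nat_lit 205509690579) (nat_lit 0) (nat_lit 518416573030) (nat_lit 1) (nat_lit 5) (nat_lit 3) (nat_lit 4) (nat_lit 1) (nat_lit 4) (nat_lit 394) (nat_lit 290) (nat_lit 216))) (XT.nd (nat_lit 78) (nat_lit 0) (nat_lit 0) (XT.lf (nat_lit 0) (nat_lit 571381777643) (nat_lit 152) (nat_lit 209380422268) (nat_lit 0) (nat_lit 566133874884) (nat_lit 1) (nat_lit 5)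 (nat_lit 3) (nat_lit 4) (nat_lit 1) (nat_lit 4) (nat_lit 395) (nat_lit 290) (nat_lit 215)) (XT.lf (nat_lit 0) (nat_lit 622914902560) (nat_lit 152) (nat_lit 213566803246) (nat_lit 0) (nat_lit 617665785785) (nat_lit 1) (nat_lit 5) (nat_lit 3) (nat_lit 4) (nat_lit 1) (nat_lit 4) (nat_lit 396) (nat_lit 290) (nat_lit 214)))) (XT.nd (nat_lit 156) (nat_lit 0) (nat_lit 0) (XT.nd (nat_lit 78) (nat_lit 0) (nat_lit 0) (XT.lf (nat_lit 0) (nat_lit 678567920883) (nat_lit 152) (nat_lit 218093641695) (nat_lit 0) (nat_lit 673317680019) (nat_lit 1) (nat_lit 5) (nat_lit 3) (nat_lit 4) (nat_lit 1) (nat_lit 4) (nat_lit 397) (nat_lit 290) (nat_lit 213)) (XT.lf (nat_lit 0) (nat_lit 738670628277) (nat_lit 152) (nat_lit 222987763326) (nat_lit 0) (nat_lit 733419346589) (nat_lit 1) (nat_lit 5) (nat_lit 3) (nat_lit 4) (nat_lit 1) (nat_lit 4) (nat_lit 398) (nat_lit 290) (nat_lit 212))) (XT.nd (nat_lit 78) (nat_lit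 0) (nat_lit 0) (XT.lf (nat_lit 0) (nat_lit 803579188932) (nat_lit 152) (nat_lit 228278170340) (nat_lit 0) (nat_lit 798326943519) (nat_lit 1) (nat_lit 5) (nat_lit 3) (nat_lit 4) (nat_lit 1) (nat_lit 4) (nat_lit 399) (nat_lit 290) (nat_lit 211)) (XT.nd (nat_lit 78) (nat_lit 0) (nat_lit 0) (XT.lf (nat_lit 0) (nat_lit 873678246172) (nat_lit 152) (nat_lit 233996213298) (nat_lit 0) (nat_lit 868425108421) (nat_lit 1) (nat_lit 5) (nat_lit 3) (nat_lit 4) (nat_lit 1) (nat_lit 4) (nat_lit 400) (nat_lit 290) (nat_lit 210)) (XT.lf (nat_lit 0) (nat_lit 949383201818) (nat_lit 152) (nat_lit 240175776898) (nat_lit 0) (nat_lit 944129237827) (nat_lit 1) (nat_lit 5) (nat_lit 3) (nat_lit 4) (nat_lit 1) (nat_lit 4) (nat_lit 401) (nat_lit 290) (nat_lit 209)))))) (XT.nd (nat_lit 312) (nat_lit 0) (nat_lit 0) (XT.nd (nat_lit 156) (nat_lit 0) (nat_lit 0) (XT.nd (nat_lit 78) (nat_lit 0) (nat_lit 0) (XT.lf (nat_lit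 0) (nat_lit 1031142677827) (nat_lit 152) (nat_lit 246853480778) (nat_lit 0) (nat_lit 1025887948801) (nat_lit 1) (nat_lit 5) (nat_lit 3) (nat_lit 4) (nat_lit 1) (nat_lit 4) (nat_lit 402) (nat_lit 290) (nat_lit 208)) (XT.lf (nat_lit 0) (nat_lit 1119441174800) (nat_lit 152) (nat_lit 254068896514) (nat_lit 0) (nat_lit 1114185737407) (nat_lit 1) (nat_lit 5) (nat_lit 3) (nat_lit 4) (nat_lit 1) (nat_lit 4) (nat_lit 403) (nat_lit 290) (nat_lit 207))) (XT.nd (nat_lit 78) (nat_lit 0) (nat_lit 0) (XT.lf (nat_lit 0) (nat_lit 1214801943089) (nat_lit 152) (nat_lit 261864782127) (nat_lit 0) (nat_lit 1209545849800) (nat_lit 1) (nat_lit 5) (nat_lit 3) (nat_lit 4) (nat_lit 1) (nat_lit 4) (nat_lit 404) (nat_lit 290) (nat_lit 206)) (XT.lf (nat_lit 0) (nat_lit 1317790083542) (nat_lit 152) (nat_lit 270287335457) (nat_lit 0) (nat_lit 1312533382943) (nat_lit 1) (nat_lit 5) (nat_lit 3) (nat_lit 4) (nat_lit 1)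 (nat_lit 4) (nat_lit 405) (nat_lit 290) (nat_lit 205)))) (XT.nd (nat_lit 156) (nat_lit 0) (nat_lit 0) (XT.nd (nat_lit 78) (nat_lit 0) (nat_lit 0) (XT.lf (nat_lit 0) (nat_lit 1429015896252) (nat_lit 152) (nat_lit 279386467931) (nat_lit 0) (nat_lit 1423758633328) (nat_lit 1) (nat_lit 5) (nat_lit 3) (nat_lit 4) (nat_lit 1) (nat_lit 4) (nat_lit 406) (nat_lit 290) (nat_lit 204)) (XT.lf (nat_lit 0) (nat_lit 1549138497145) (nat_lit 152) (nat_lit 289216100334) (nat_lit 0) (nat_lit 1543880713550) (nat_lit 1) (nat_lit 5) (nat_lit 3) (nat_lit 4) (nat_lit 1) (nat_lit 4) (nat_lit 407) (nat_lit 290) (nat_lit 203))) (XT.nd (nat_lit 78) (nat_lit 0) (nat_lit 0) (XT.lf (nat_lit 0) (nat_lit 1678869723856) (nat_lit 152) (nat_lit 299834482340) (nat_lit 0) (nat_lit 1673611458159) (nat_lit 1) (nat_lit 5) (nat_lit 3) (nat_lit 4) (nat_lit 1) (nat_lit 4) (nat_lit 408) (nat_lit 290) (nat_lit 202)) (XT.nd (nat_lit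 78) (nat_lit 0) (nat_lit 0) (XT.lf (nat_lit 0) (nat_lit 1818978354026) (nat_lit 152) (nat_lit 311304537695) (nat_lit 0) (nat_lit 1813719641937) (nat_lit 1) (nat_lit 5) (nat_lit 3) (nat_lit 4) (nat_lit 1) (nat_lit 4) (nat_lit 409) (nat_lit 290) (nat_lit 201)) (XT.lf (nat_lit 0) (nat_lit 1970294661018) (nat_lit 152) (nat_lit 323694237095) (nat_lit 0) (nat_lit 1965035535604) (nat_lit 1) (nat_lit 5) (nat_lit 3) (nat_lit 4) (nat_lit 1) (nat_lit 4) (nat_lit 410) (nat_lit 290) (nat_lit 200))))))) (XT.nd (nat_lit 39858) (nat_lit 0) (nat_lit 1368) (XT.nd (nat_lit 312) (nat_lit 0) (nat_lit 0) (XT.nd (nat_lit 156) (nat_lit 0) (nat_lit 0) (XT.nd (nat_lit 78) (nat_lit 0) (nat_lit 0) (XT.lf (nat_lit 0) (nat_lit 2133715334058) (nat_lit 152) (nat_lit 337077000983) (nat_lit 0) (nat_lit 2128455825936) (nat_lit 1) (nat_lit 5) (nat_lit 3) (nat_lit 4) (nat_lit 1) (nat_lit 4) (nat_lit 411) (nat_lit 290) (nat_lit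 199)) (XT.lf (nat_lit 0) (nat_lit 2310208791950) (nat_lit 152) (nat_lit 351532134626) (nat_lit 0) (nat_lit 2304948929468) (nat_lit 1) (nat_lit 5) (nat_lit 3) (nat_lit 4) (nat_lit 1) (nat_lit 4) (nat_lit 412) (nat_lit 290) (nat_lit 198))) (XT.nd (nat_lit 78) (nat_lit 0) (nat_lit 0) (XT.lf (nat_lit 0) (nat_lit 2500820921853) (nat_lit 152) (nat_lit 367145298074) (nat_lit 0) (nat_lit 2495560731260) (nat_lit 1) (nat_lit 5) (nat_lit 3) (nat_lit 4) (nat_lit 1) (nat_lit 4) (nat_lit 413) (nat_lit 290) (nat_lit 197)) (XT.lf (nat_lit 0) (nat_lit 2706681277127) (nat_lit 152) (nat_lit 384009013779) (nat_lit 0) (nat_lit 2701420782728) (nat_lit 1) (nat_lit 5) (nat_lit 3) (nat_lit 4) (nat_lit 1) (nat_lit 4) (nat_lit 414) (nat_lit 290) (nat_lit 196)))) (XT.nd (nat_lit 39312) (nat_lit 0) (nat_lit 2432) (XT.nd (nat_lit 78) (nat_lit 0) (nat_lit 0) (XT.lf (nat_lit 0) (nat_lit 2929009770990) (nat_lit 152)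 (nat_lit 402223214870) (nat_lit 0) (nat_lit 2923748995288) (nat_lit 1) (nat_lit 5) (nat_lit 3) (nat_lit 4) (nat_lit 1) (nat_lit 4) (nat_lit 415) (nat_lit 290) (nat_lit 195)) (XT.lf (nat_lit 0) (nat_lit 3169123905628) (nat_lit 152) (nat_lit 421895837354) (nat_lit 0) (nat_lit 3163862869461) (nat_lit 1) (nat_lit 5) (nat_lit 3) (nat_lit 4) (nat_lit 1) (nat_lit 4) (nat_lit 416) (nat_lit 290) (nat_lit 194))) (XT.nd (nat_lit 78) (nat_lit 228) (nat_lit 0) (XT.lf (nat_lit 0) (nat_lit 678353528) (nat_lit 228) (nat_lit 3113525117) (nat_lit 0) (nat_lit 678353528) (nat_lit 36) (nat_lit 5) (nat_lit 39) (nat_lit 4) (nat_lit 36) (nat_lit 4) (nat_lit 318) (nat_lit 291) (nat_lit 291)) (XT.nd (nat_lit 78) (nat_lit 76) (nat_lit 0) (XT.lf (nat_lit 0) (nat_lit 909221614) (nat_lit 152) (nat_lit 4623265844) (nat_lit 152) (nat_lit 3714048920) (nat_lit 34) (nat_lit 4) (nat_lit 36) (nat_lit 5) (nat_lit 36) (nat_lit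 4) (nat_lit 319) (nat_lit 291) (nat_lit 290)) (XT.lf (nat_lit 0) (nat_lit 355303439) (nat_lit 228) (nat_lit 1012053292) (nat_lit 76) (nat_lit 8216011182) (nat_lit 33) (nat_lit 5) (nat_lit 36) (nat_lit 5) (nat_lit 34) (nat_lit 4) (nat_lit 320) (nat_lit 291) (nat_lit 289)))))) (XT.nd (nat_lit 312) (nat_lit 608) (nat_lit 0) (XT.nd (nat_lit 156) (nat_lit 152) (nat_lit 0) (XT.nd (nat_lit 78) (nat_lit 152) (nat_lit 0) (XT.lf (nat_lit 0) (nat_lit 4525581780) (nat_lit 228) (nat_lit 3233541061) (nat_lit 0) (nat_lit 2182441585) (nat_lit 31) (nat_lit 5) (nat_lit 34) (nat_lit 4) (nat_lit 31) (nat_lit 4) (nat_lit 321) (nat_lit 291) (nat_lit 288)) (XT.lf (nat_lit 0) (nat_lit 4590644705) (nat_lit 152) (nat_lit 4377174591) (nat_lit 152) (nat_lit 1365732814) (nat_lit 29) (nat_lit 4) (nat_lit 31) (nat_lit 5) (nat_lit 31) (nat_lit 4) (nat_lit 322) (nat_lit 291) (nat_lit 287))) (XT.nd (nat_lit 78) (nat_lit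 0) (nat_lit 0) (XT.lf (nat_lit 0) (nat_lit 2123744736) (nat_lit 76) (nat_lit 642593856) (nat_lit 152) (nat_lit 7992281245) (nat_lit 27) (nat_lit 5) (nat_lit 28) (nat_lit 5) (nat_lit 29) (nat_lit 4) (nat_lit 323) (nat_lit 291) (nat_lit 286)) (XT.lf (nat_lit 0) (nat_lit 7169124991) (nat_lit 152) (nat_lit 767503291) (nat_lit 0) (nat_lit 3277272743) (nat_lit 27) (nat_lit 5) (nat_lit 29) (nat_lit 4) (nat_lit 27) (nat_lit 4) (nat_lit 324) (nat_lit 291) (nat_lit 285)))) (XT.nd (nat_lit 156) (nat_lit 304) (nat_lit 0) (XT.nd (nat_lit 78) (nat_lit 76) (nat_lit 0) (XT.lf (nat_lit 0) (nat_lit 198313351) (nat_lit 228) (nat_lit 3970582089) (nat_lit 76) (nat_lit 7537169326) (nat_lit 24) (nat_lit 5) (nat_lit 27) (nat_lit 5) (nat_lit 25) (nat_lit 4) (nat_lit 325) (nat_lit 291) (nat_lit 284)) (XT.lf (nat_lit 0) (nat_lit 4481818439) (nat_lit 152) (nat_lit 7751673306) (nat_lit 0) (nat_lit 2273358) (nat_lit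 23) (nat_lit 5) (nat_lit 25) (nat_lit 4) (nat_lit 23) (nat_lit 4) (nat_lit 326) (nat_lit 291) (nat_lit 283))) (XT.nd (nat_lit 78) (nat_lit 152) (nat_lit 0) (XT.lf (nat_lit 0) (nat_lit 595885040) (nat_lit 152) (nat_lit 8539681093) (nat_lit 152) (nat_lit 3670188457) (nat_lit 21) (nat_lit 4) (nat_lit 23) (nat_lit 5) (nat_lit 23) (nat_lit 4) (nat_lit 327) (nat_lit 291) (nat_lit 282)) (XT.nd (nat_lit 78) (nat_lit 76) (nat_lit 0) (XT.lf (nat_lit 0) (nat_lit 715708026) (nat_lit 228) (nat_lit 3741882490) (nat_lit 76) (nat_lit 8961432173) (nat_lit 20) (nat_lit 5) (nat_lit 23) (nat_lit 5) (nat_lit 21) (nat_lit 4) (nat_lit 328) (nat_lit 291) (nat_lit 281)) (XT.lf (nat_lit 0) (nat_lit 5191167935) (nat_lit 152) (nat_lit 8849185168) (nat_lit 0) (nat_lit 38508341) (nat_lit 19) (nat_lit 5) (nat_lit 21) (nat_lit 4) (nat_lit 19) (nat_lit 4) (nat_lit 329) (nat_lit 291) (nat_lit 280))))))))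
noncomputable def xc69 : XT := (XT.nd (nat_lit 1404) (nat_lit 304) (nat_lit 0) (XT.nd (nat_lit 702) (nat_lit 380) (nat_lit 0) (XT.nd (nat_lit 312) (nat_lit 304) (nat_lit 0) (XT.nd (nat_lit 156) (nat_lit 152) (nat_lit 0) (XT.nd (nat_lit 78) (nat_lit 76) (nat_lit 0) (XT.lf (nat_lit 0) (nat_lit 10058193176) (nat_lit 152) (nat_lit 111788158) (nat_lit 0) (nat_lit 4618910489) (nat_lit 19) (nat_lit 5) (nat_lit 21) (nat_lit 4) (nat_lit 19) (nat_lit 4) (nat_lit 330) (nat_lit 291) (nat_lit 279)) (XT.lf (nat_lit 0) (nat_lit 9482460403) (nat_lit 76) (nat_lit 5886821465) (nat_lit 76) (nat_lit 182147025) (nat_lit 18) (nat_lit 4) (nat_lit 19) (nat_lit 5) (nat_lit 19) (nat_lit 4) (nat_lit 331) (nat_lit 291) (nat_lit 278))) (XT.nd (nat_lit 78) (nat_lit 0) (nat_lit 0) (XT.lf (nat_lit 0) (nat_lit 3204728419) (nat_lit 76) (nat_lit 1196779255) (nat_lit 152) (nat_lit 11971801308) (nat_lit 16) (nat_lit 5) (nat_lit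 17) (nat_lit 5) (nat_lit 18) (nat_lit 4) (nat_lit 332) (nat_lit 291) (nat_lit 277)) (XT.lf (nat_lit 0) (nat_lit 9434828621) (nat_lit 152) (nat_lit 4103855537) (nat_lit 0) (nat_lit 3714515475) (nat_lit 16) (nat_lit 5) (nat_lit 18) (nat_lit 4) (nat_lit 16) (nat_lit 4) (nat_lit 333) (nat_lit 291) (nat_lit 276)))) (XT.nd (nat_lit 156) (nat_lit 152) (nat_lit 0) (XT.nd (nat_lit 78) (nat_lit 76) (nat_lit 0) (XT.lf (nat_lit 0) (nat_lit 5641251458) (nat_lit 76) (nat_lit 9238479936) (nat_lit 76) (nat_lit 3323095929) (nat_lit 15) (nat_lit 4) (nat_lit 16) (nat_lit 5) (nat_lit 16) (nat_lit 4) (nat_lit 334) (nat_lit 291) (nat_lit 275)) (XT.lf (nat_lit 0) (nat_lit 1413181420) (nat_lit 152) (nat_lit 3156587819) (nat_lit 76) (nat_lit 14659118879) (nat_lit 14) (nat_lit 5) (nat_lit 16) (nat_lit 5) (nat_lit 15) (nat_lit 4) (nat_lit 335) (nat_lit 291) (nat_lit 274))) (XT.nd (nat_lit 78) (nat_lit 76) (nat_lit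 0) (XT.lf (nat_lit 0) (nat_lit 6386306695) (nat_lit 152) (nat_lit 13353866587) (nat_lit 0) (nat_lit 587003920) (nat_lit 13) (nat_lit 5) (nat_lit 15) (nat_lit 4) (nat_lit 13) (nat_lit 4) (nat_lit 336) (nat_lit 291) (nat_lit 273)) (XT.nd (nat_lit 78) (nat_lit 76) (nat_lit 0) (XT.lf (nat_lit 0) (nat_lit 11820338823) (nat_lit 152) (nat_lit 3810336325) (nat_lit 0) (nat_lit 5877653143) (nat_lit 13) (nat_lit 5) (nat_lit 15) (nat_lit 4) (nat_lit 13) (nat_lit 4) (nat_lit 337) (nat_lit 291) (nat_lit 272)) (XT.lf (nat_lit 0) (nat_lit 6569676240) (nat_lit 76) (nat_lit 11143911754) (nat_lit 76) (nat_lit 5068464123) (nat_lit 12) (nat_lit 4) (nat_lit 13) (nat_lit 5) (nat_lit 13) (nat_lit 4) (nat_lit 338) (nat_lit 291) (nat_lit 271)))))) (XT.nd (nat_lit 312) (nat_lit 228) (nat_lit 0) (XT.nd (nat_lit 156) (nat_lit 0) (nat_lit 0) (XT.nd (nat_lit 78) (nat_lit 152) (nat_lit 0) (XT.lf (nat_lit 0) (nat_lit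 17747617033) (nat_lit 76) (nat_lit 6305251834) (nat_lit 76) (nat_lit 106876471) (nat_lit 12) (nat_lit 4) (nat_lit 13) (nat_lit 5) (nat_lit 13) (nat_lit 4) (nat_lit 339) (nat_lit 291) (nat_lit 270)) (XT.lf (nat_lit 0) (nat_lit 4009161349) (nat_lit 76) (nat_lit 953030326) (nat_lit 152) (nat_lit 20677529161) (nat_lit 10) (nat_lit 5) (nat_lit 11) (nat_lit 5) (nat_lit 12) (nat_lit 4) (nat_lit 340) (nat_lit 291) (nat_lit 269))) (XT.nd (nat_lit 78) (nat_lit 0) (nat_lit 0) (XT.lf (nat_lit 0) (nat_lit 10604700739) (nat_lit 152) (nat_lit 11956816365) (nat_lit 0) (nat_lit 4662489579) (nat_lit 10) (nat_lit 5) (nat_lit 12) (nat_lit 4) (nat_lit 10) (nat_lit 4) (nat_lit 341) (nat_lit 291) (nat_lit 268)) (XT.lf (nat_lit 0) (nat_lit 16610140989) (nat_lit 152) (nat_lit 1754425061) (nat_lit 0) (nat_lit 10577574276) (nat_lit 10) (nat_lit 5) (nat_lit 12) (nat_lit 4) (nat_lit 10) (nat_lit 4) (nat_lit 342)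 (nat_lit 291) (nat_lit 267)))) (XT.nd (nat_lit 156) (nat_lit 152) (nat_lit 0) (XT.nd (nat_lit 78) (nat_lit 0) (nat_lit 0) (XT.lf (nat_lit 0) (nat_lit 9537076641) (nat_lit 76) (nat_lit 13683470098) (nat_lit 76) (nat_lit 7567240836) (nat_lit 9) (nat_lit 4) (nat_lit 10) (nat_lit 5) (nat_lit 10) (nat_lit 4) (nat_lit 343) (nat_lit 291) (nat_lit 266)) (XT.lf (nat_lit 0) (nat_lit 21632678795) (nat_lit 76) (nat_lit 8673218436) (nat_lit 76) (nat_lit 2479523851) (nat_lit 9) (nat_lit 4) (nat_lit 10) (nat_lit 5) (nat_lit 10) (nat_lit 4) (nat_lit 344) (nat_lit 291) (nat_lit 265))) (XT.nd (nat_lit 78) (nat_lit 76) (nat_lit 0) (XT.lf (nat_lit 0) (nat_lit 2767595296) (nat_lit 152) (nat_lit 508823519) (nat_lit 76) (nat_lit 31668407871) (nat_lit 8) (nat_lit 5) (nat_lit 10) (nat_lit 5) (nat_lit 9) (nat_lit 4) (nat_lit 345) (nat_lit 291) (nat_lit 264)) (XT.nd (nat_lit 78) (nat_lit 0) (nat_lit 0) (XT.lf (nat_lit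 0) (nat_lit 8551041083) (nat_lit 152) (nat_lit 26012538568) (nat_lit 0) (nat_lit 2688230190) (nat_lit 7) (nat_lit 5) (nat_lit 9) (nat_lit 4) (nat_lit 7) (nat_lit 4) (nat_lit 346) (nat_lit 291) (nat_lit 263)) (XT.lf (nat_lit 0) (nat_lit 14807436585) (nat_lit 152) (nat_lit 16047424017) (nat_lit 0) (nat_lit 8887686367) (nat_lit 7) (nat_lit 5) (nat_lit 9) (nat_lit 4) (nat_lit 7) (nat_lit 4) (nat_lit 347) (nat_lit 291) (nat_lit 262))))))) (XT.nd (nat_lit 702) (nat_lit 76) (nat_lit 0) (XT.nd (nat_lit 312) (nat_lit 152) (nat_lit 0) (XT.nd (nat_lit 156) (nat_lit 0) (nat_lit 0) (XT.nd (nat_lit 78) (nat_lit 76) (nat_lit 0) (XT.lf (nat_lit 0) (nat_lit 21481842592) (nat_lit 152) (nat_lit 5447945756) (nat_lit 0) (nat_lit 15509370777) (nat_lit 7) (nat_lit 5) (nat_lit 9) (nat_lit 4) (nat_lit 7) (nat_lit 4) (nat_lit 348) (nat_lit 291) (nat_lit 261)) (XT.lf (nat_lit 0) (nat_lit 6156690530) (nat_lit 76)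 (nat_lit 22605189164) (nat_lit 76) (nat_lit 16583901056) (nat_lit 6) (nat_lit 4) (nat_lit 7) (nat_lit 5) (nat_lit 7) (nat_lit 4) (nat_lit 349) (nat_lit 291) (nat_lit 260))) (XT.nd (nat_lit 78) (nat_lit 0) (nat_lit 0) (XT.lf (nat_lit 0) (nat_lit 18852561680) (nat_lit 76) (nat_lit 17846448624) (nat_lit 76) (nat_lit 11779960244) (nat_lit 6) (nat_lit 4) (nat_lit 7) (nat_lit 5) (nat_lit 7) (nat_lit 4) (nat_lit 350) (nat_lit 291) (nat_lit 259)) (XT.lf (nat_lit 0) (nat_lit 32428023316) (nat_lit 76) (nat_lit 12774323278) (nat_lit 76) (nat_lit 6665982795) (nat_lit 6) (nat_lit 4) (nat_lit 7) (nat_lit 5) (nat_lit 7) (nat_lit 4) (nat_lit 351) (nat_lit 291) (nat_lit 258)))) (XT.nd (nat_lit 156) (nat_lit 0) (nat_lit 0) (XT.nd (nat_lit 78) (nat_lit 152) (nat_lit 0) (XT.lf (nat_lit 0) (nat_lit 46963522619) (nat_lit 76) (nat_lit 7358756086) (nat_lit 76) (nat_lit 1211663655) (nat_lit 6) (nat_lit 4) (nat_lit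 7) (nat_lit 5) (nat_lit 7) (nat_lit 4) (nat_lit 352) (nat_lit 291) (nat_lit 257)) (XT.lf (nat_lit 0) (nat_lit 3091305346) (nat_lit 76) (nat_lit 1367482735) (nat_lit 152) (nat_lit 55023915970) (nat_lit 4) (nat_lit 5) (nat_lit 5) (nat_lit 5) (nat_lit 6) (nat_lit 4) (nat_lit 353) (nat_lit 291) (nat_lit 256))) (XT.nd (nat_lit 78) (nat_lit 0) (nat_lit 0) (XT.lf (nat_lit 0) (nat_lit 10820341347) (nat_lit 152) (nat_lit 47835679769) (nat_lit 0) (nat_lit 5064603001) (nat_lit 4) (nat_lit 5) (nat_lit 6) (nat_lit 4) (nat_lit 4) (nat_lit 4) (nat_lit 354) (nat_lit 291) (nat_lit 255)) (XT.nd (nat_lit 78) (nat_lit 0) (nat_lit 0) (XT.lf (nat_lit 0) (nat_lit 17670578861) (nat_lit 152) (nat_lit 38742270076) (nat_lit 0) (nat_lit 11886356677) (nat_lit 4) (nat_lit 5) (nat_lit 6) (nat_lit 4) (nat_lit 4) (nat_lit 4) (nat_lit 355) (nat_lit 291) (nat_lit 254)) (XT.lf (nat_lit 0) (nat_lit 25017206632) (nat_lit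 152) (nat_lit 29024394764) (nat_lit 0) (nat_lit 19206610523) (nat_lit 4) (nat_lit 5) (nat_lit 6) (nat_lit 4) (nat_lit 4) (nat_lit 4) (nat_lit 356) (nat_lit 291) (nat_lit 253)))))) (XT.nd (nat_lit 312) (nat_lit 0) (nat_lit 0) (XT.nd (nat_lit 156) (nat_lit 76) (nat_lit 0) (XT.nd (nat_lit 78) (nat_lit 0) (nat_lit 0) (XT.lf (nat_lit 0) (nat_lit 32903760231) (nat_lit 152) (nat_lit 18624466423) (nat_lit 0) (nat_lit 27068743822) (nat_lit 4) (nat_lit 5) (nat_lit 6) (nat_lit 4) (nat_lit 4) (nat_lit 4) (nat_lit 357) (nat_lit 291) (nat_lit 252)) (XT.lf (nat_lit 0) (nat_lit 41376974791) (nat_lit 152) (nat_lit 7480855848) (nat_lit 0) (nat_lit 35519346992) (nat_lit 4) (nat_lit 5) (nat_lit 6) (nat_lit 4) (nat_lit 4) (nat_lit 4) (nat_lit 358) (nat_lit 291) (nat_lit 251))) (XT.nd (nat_lit 78) (nat_lit 0) (nat_lit 0) (XT.lf (nat_lit 0) (nat_lit 4707985682) (nat_lit 76) (nat_lit 45892303440) (nat_lit 76)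 (nat_lit 40013739170) (nat_lit 3) (nat_lit 4) (nat_lit 4) (nat_lit 5) (nat_lit 4) (nat_lit 4) (nat_lit 359) (nat_lit 291) (nat_lit 250)) (XT.lf (nat_lit 0) (nat_lit 18217677171) (nat_lit 76) (nat_lit 42508465823) (nat_lit 76) (nat_lit 36610515930) (nat_lit 3) (nat_lit 4) (nat_lit 4) (nat_lit 5) (nat_lit 4) (nat_lit 4) (nat_lit 360) (nat_lit 291) (nat_lit 249)))) (XT.nd (nat_lit 156) (nat_lit 0) (nat_lit 0) (XT.nd (nat_lit 78) (nat_lit 0) (nat_lit 0) (XT.lf (nat_lit 0) (nat_lit 32734347439) (nat_lit 76) (nat_lit 38890805272) (nat_lit 76) (nat_lit 32974905730) (nat_lit 3) (nat_lit 4) (nat_lit 4) (nat_lit 5) (nat_lit 4) (nat_lit 4) (nat_lit 361) (nat_lit 291) (nat_lit 248)) (XT.lf (nat_lit 0) (nat_lit 48344021197) (nat_lit 76) (nat_lit 35017883800) (nat_lit 76) (nat_lit 29085364212) (nat_lit 3) (nat_lit 4) (nat_lit 4) (nat_lit 5) (nat_lit 4) (nat_lit 4) (nat_lit 362) (nat_lit 291) (nat_lit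 247))) (XT.nd (nat_lit 78) (nat_lit 0) (nat_lit 0) (XT.lf (nat_lit 0) (nat_lit 65139200216) (nat_lit 76) (nat_lit 30866750761) (nat_lit 76) (nat_lit 24918842241) (nat_lit 3) (nat_lit 4) (nat_lit 4) (nat_lit 5) (nat_lit 4) (nat_lit 4) (nat_lit 363) (nat_lit 291) (nat_lit 246)) (XT.nd (nat_lit 78) (nat_lit 0) (nat_lit 0) (XT.lf (nat_lit 0) (nat_lit 83219411483) (nat_lit 76) (nat_lit 26412806848) (nat_lit 76) (nat_lit 20450649317) (nat_lit 3) (nat_lit 4) (nat_lit 4) (nat_lit 5) (nat_lit 4) (nat_lit 4) (nat_lit 364) (nat_lit 291) (nat_lit 245)) (XT.lf (nat_lit 0) (nat_lit 102691796991) (nat_lit 76) (nat_lit 21629658318) (nat_lit 76) (nat_lit 15654307259) (nat_lit 3) (nat_lit 4) (nat_lit 4) (nat_lit 5) (nat_lit 4) (nat_lit 4) (nat_lit 365) (nat_lit 291) (nat_lit 244))))))))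
noncomputable def xc70 : XT := (XT.nd (nat_lit 1404) (nat_lit 0) (nat_lit 0) (XT.nd (nat_lit 702) (nat_lit 0) (nat_lit 0) (XT.nd (nat_lit 312) (nat_lit 0) (nat_lit 0) (XT.nd (nat_lit 156) (nat_lit 152) (nat_lit 0) (XT.nd (nat_lit 78) (nat_lit 0) (nat_lit 0) (XT.lf (nat_lit 0) (nat_lit 123671748653) (nat_lit 76) (nat_lit 16488960590) (nat_lit 76) (nat_lit 10501393301) (nat_lit 3) (nat_lit 4) (nat_lit 4) (nat_lit 5) (nat_lit 4) (nat_lit 4) (nat_lit 366) (nat_lit 291) (nat_lit 243)) (XT.lf (nat_lit 0) (nat_lit 146283592109) (nat_lit 76) (nat_lit 10960250267) (nat_lit 76) (nat_lit 4961371654) (nat_lit 3) (nat_lit 4) (nat_lit 4) (nat_lit 5) (nat_lit 4) (nat_lit 4) (nat_lit 367) (nat_lit 291) (nat_lit 242))) (XT.nd (nat_lit 78) (nat_lit 76) (nat_lit 0) (XT.lf (nat_lit 0) (nat_lit 948634049) (nat_lit 152) (nat_lit 4036193238) (nat_lit 76) (nat_lit 169686752084) (nat_lit 2) (nat_lit 5) (nat_lit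 4) (nat_lit 5) (nat_lit 3) (nat_lit 4) (nat_lit 368) (nat_lit 291) (nat_lit 241)) (XT.lf (nat_lit 0) (nat_lit 7305271300) (nat_lit 152) (nat_lit 179068248958) (nat_lit 0) (nat_lit 1732077134) (nat_lit 1) (nat_lit 5) (nat_lit 3) (nat_lit 4) (nat_lit 1) (nat_lit 4) (nat_lit 369) (nat_lit 291) (nat_lit 240)))) (XT.nd (nat_lit 156) (nat_lit 0) (nat_lit 0) (XT.nd (nat_lit 78) (nat_lit 0) (nat_lit 0) (XT.lf (nat_lit 0) (nat_lit 14392749953) (nat_lit 152) (nat_lit 179392562958) (nat_lit 0) (nat_lit 8811241627) (nat_lit 1) (nat_lit 5) (nat_lit 3) (nat_lit 4) (nat_lit 1) (nat_lit 4) (nat_lit 370) (nat_lit 291) (nat_lit 239)) (XT.lf (nat_lit 0) (nat_lit 22028348479) (nat_lit 152) (nat_lit 179780810527) (nat_lit 0) (nat_lit 16439141855) (nat_lit 1) (nat_lit 5) (nat_lit 3) (nat_lit 4) (nat_lit 1) (nat_lit 4) (nat_lit 371) (nat_lit 291) (nat_lit 238))) (XT.nd (nat_lit 78) (nat_lit 0) (nat_lit 0) (XT.lf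 (nat_lit 0) (nat_lit 30257314868) (nat_lit 152) (nat_lit 180235292391) (nat_lit 0) (nat_lit 24660980192) (nat_lit 1) (nat_lit 5) (nat_lit 3) (nat_lit 4) (nat_lit 1) (nat_lit 4) (nat_lit 372) (nat_lit 291) (nat_lit 237)) (XT.nd (nat_lit 78) (nat_lit 0) (nat_lit 0) (XT.lf (nat_lit 0) (nat_lit 39128413366) (nat_lit 152) (nat_lit 180758701775) (nat_lit 0) (nat_lit 33525478641) (nat_lit 1) (nat_lit 5) (nat_lit 3) (nat_lit 4) (nat_lit 1) (nat_lit 4) (nat_lit 373) (nat_lit 291) (nat_lit 236)) (XT.lf (nat_lit 0) (nat_lit 48694213446) (nat_lit 152) (nat_lit 181354140366) (nat_lit 0) (nat_lit 43085167564) (nat_lit 1) (nat_lit 5) (nat_lit 3) (nat_lit 4) (nat_lit 1) (nat_lit 4) (nat_lit 374) (nat_lit 291) (nat_lit 235)))))) (XT.nd (nat_lit 312) (nat_lit 0) (nat_lit 0) (XT.nd (nat_lit 156) (nat_lit 0) (nat_lit 0) (XT.nd (nat_lit 78) (nat_lit 0) (nat_lit 0) (XT.lf (nat_lit 0) (nat_lit 59011401329)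 (nat_lit 152) (nat_lit 182025136688) (nat_lit 0) (nat_lit 53396696969) (nat_lit 1) (nat_lit 5) (nat_lit 3) (nat_lit 4) (nat_lit 1) (nat_lit 4) (nat_lit 375) (nat_lit 291) (nat_lit 234)) (XT.lf (nat_lit 0) (nat_lit 70141115908) (nat_lit 152) (nat_lit 182775667015) (nat_lit 0) (nat_lit 64521172216) (nat_lit 1) (nat_lit 5) (nat_lit 3) (nat_lit 4) (nat_lit 1) (nat_lit 4) (nat_lit 376) (nat_lit 291) (nat_lit 233))) (XT.nd (nat_lit 78) (nat_lit 0) (nat_lit 0) (XT.lf (nat_lit 0) (nat_lit 82149311046) (nat_lit 152) (nat_lit 183610178935) (nat_lit 0) (nat_lit 76524516121) (nat_lit 1) (nat_lit 5) (nat_lit 3) (nat_lit 4) (nat_lit 1) (nat_lit 4) (nat_lit 377) (nat_lit 291) (nat_lit 232)) (XT.lf (nat_lit 0) (nat_lit 95107146418) (nat_lit 152) (nat_lit 184533617704) (nat_lit 0) (nat_lit 89477859610) (nat_lit 1) (nat_lit 5) (nat_lit 3) (nat_lit 4) (nat_lit 1) (nat_lit 4) (nat_lit 378) (nat_lit 291)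 (nat_lit 231)))) (XT.nd (nat_lit 156) (nat_lit 0) (nat_lit 0) (XT.nd (nat_lit 78) (nat_lit 0) (nat_lit 0) (XT.lf (nat_lit 0) (nat_lit 109091409197) (nat_lit 152) (nat_lit 185551455550) (nat_lit 0) (nat_lit 103457963239) (nat_lit 1) (nat_lit 5) (nat_lit 3) (nat_lit 4) (nat_lit 1) (nat_lit 4) (nat_lit 379) (nat_lit 291) (nat_lit 230)) (XT.lf (nat_lit 0) (nat_lit 124184969088) (nat_lit 152) (nat_lit 186669724107) (nat_lit 0) (nat_lit 118547672065) (nat_lit 1) (nat_lit 5) (nat_lit 3) (nat_lit 4) (nat_lit 1) (nat_lit 4) (nat_lit 380) (nat_lit 291) (nat_lit 229))) (XT.nd (nat_lit 78) (nat_lit 0) (nat_lit 0) (XT.lf (nat_lit 0) (nat_lit 140477269409) (nat_lit 152) (nat_lit 187895050150) (nat_lit 0) (nat_lit 134836406585) (nat_lit 1) (nat_lit 5) (nat_lit 3) (nat_lit 4) (nat_lit 1) (nat_lit 4) (nat_lit 381) (nat_lit 291) (nat_lit 228)) (XT.nd (nat_lit 78) (nat_lit 0) (nat_lit 0) (XT.lf (nat_lit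 0) (nat_lit 158064857125) (nat_lit 152) (nat_lit 189234694871) (nat_lit 0) (nat_lit 152420692633) (nat_lit 1) (nat_lit 5) (nat_lit 3) (nat_lit 4) (nat_lit 1) (nat_lit 4) (nat_lit 382) (nat_lit 291) (nat_lit 227)) (XT.lf (nat_lit 0) (nat_lit 177051954978) (nat_lit 152) (nat_lit 190696596905) (nat_lit 0) (nat_lit 171404733387) (nat_lit 1) (nat_lit 5) (nat_lit 3) (nat_lit 4) (nat_lit 1) (nat_lit 4) (nat_lit 383) (nat_lit 291) (nat_lit 226))))))) (XT.nd (nat_lit 702) (nat_lit 0) (nat_lit 0) (XT.nd (nat_lit 312) (nat_lit 0) (nat_lit 0) (XT.nd (nat_lit 156) (nat_lit 0) (nat_lit 0) (XT.nd (nat_lit 78) (nat_lit 0) (nat_lit 0) (XT.lf (nat_lit 0) (nat_lit 197551079104) (nat_lit 152) (nat_lit 192289419376) (nat_lit 0) (nat_lit 191901026864) (nat_lit 1) (nat_lit 5) (nat_lit 3) (nat_lit 4) (nat_lit 1) (nat_lit 4) (nat_lit 384) (nat_lit 291) (nat_lit 225)) (XT.lf (nat_lit 0) (nat_lit 219683705793)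 (nat_lit 152) (nat_lit 194022601231) (nat_lit 0) (nat_lit 214031032583) (nat_lit 1) (nat_lit 5) (nat_lit 3) (nat_lit 4) (nat_lit 1) (nat_lit 4) (nat_lit 385) (nat_lit 291) (nat_lit 224))) (XT.nd (nat_lit 78) (nat_lit 0) (nat_lit 0) (XT.lf (nat_lit 0) (nat_lit 243580991352) (nat_lit 152) (nat_lit 195906413178) (nat_lit 0) (nat_lit 237925891317) (nat_lit 1) (nat_lit 5) (nat_lit 3) (nat_lit 4) (nat_lit 1) (nat_lit 4) (nat_lit 386) (nat_lit 291) (nat_lit 223)) (XT.lf (nat_lit 0) (nat_lit 269384549324) (nat_lit 152) (nat_lit 197952018547) (nat_lit 0) (nat_lit 263727202230) (nat_lit 1) (nat_lit 5) (nat_lit 3) (nat_lit 4) (nat_lit 1) (nat_lit 4) (nat_lit 387) (nat_lit 291) (nat_lit 222)))) (XT.nd (nat_lit 156) (nat_lit 0) (nat_lit 0) (XT.nd (nat_lit 78) (nat_lit 0) (nat_lit 0) (XT.lf (nat_lit 0) (nat_lit 297247289684) (nat_lit 152) (nat_lit 200171539443) (nat_lit 0) (nat_lit 291587861979) (nat_lit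 1) (nat_lit 5) (nat_lit 3) (nat_lit 4) (nat_lit 1) (nat_lit 4) (nat_lit 388) (nat_lit 291) (nat_lit 221)) (XT.lf (nat_lit 0) (nat_lit 327334324966) (nat_lit 152) (nat_lit 202578128583) (nat_lit 0) (nat_lit 321672970770) (nat_lit 1) (nat_lit 5) (nat_lit 3) (nat_lit 4) (nat_lit 1) (nat_lit 4) (nat_lit 389) (nat_lit 291) (nat_lit 220))) (XT.nd (nat_lit 78) (nat_lit 0) (nat_lit 0) (XT.lf (nat_lit 0) (nat_lit 359823948713) (nat_lit 152) (nat_lit 205186047237) (nat_lit 0) (nat_lit 354160810729) (nat_lit 1) (nat_lit 5) (nat_lit 3) (nat_lit 4) (nat_lit 1) (nat_lit 4) (nat_lit 390) (nat_lit 291) (nat_lit 219)) (XT.nd (nat_lit 78) (nat_lit 0) (nat_lit 0) (XT.lf (nat_lit 0) (nat_lit 394908692028) (nat_lit 152) (nat_lit 208010749736) (nat_lit 0) (nat_lit 389243902388) (nat_lit 1) (nat_lit 5) (nat_lit 3) (nat_lit 4) (nat_lit 1) (nat_lit 4) (nat_lit 391) (nat_lit 291) (nat_lit 218)) (XT.lf (nat_lit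 0) (nat_lit 432796464502) (nat_lit 152) (nat_lit 211068975059) (nat_lit 0) (nat_lit 427130145551) (nat_lit 1) (nat_lit 5) (nat_lit 3) (nat_lit 4) (nat_lit 1) (nat_lit 4) (nat_lit 392) (nat_lit 291) (nat_lit 217)))))) (XT.nd (nat_lit 312) (nat_lit 0) (nat_lit 0) (XT.nd (nat_lit 156) (nat_lit 0) (nat_lit 0) (XT.nd (nat_lit 78) (nat_lit 0) (nat_lit 0) (XT.lf (nat_lit 0) (nat_lit 473711786268) (nat_lit 152) (nat_lit 214378846022) (nat_lit 0) (nat_lit 468044051288) (nat_lit 1) (nat_lit 5) (nat_lit 3) (nat_lit 4) (nat_lit 1) (nat_lit 4) (nat_lit 393) (nat_lit 291) (nat_lit 216)) (XT.lf (nat_lit 0) (nat_lit 517897118492) (nat_lit 152) (nat_lit 217959976676) (nat_lit 0) (nat_lit 512228072374) (nat_lit 1) (nat_lit 5) (nat_lit 3) (nat_lit 4) (nat_lit 1) (nat_lit 4) (nat_lit 394) (nat_lit 291) (nat_lit 215))) (XT.nd (nat_lit 78) (nat_lit 0) (nat_lit 0) (XT.lf (nat_lit 0) (nat_lit 565614300179) (nat_lit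 152) (nat_lit 221833588535) (nat_lit 0) (nat_lit 559944040045) (nat_lit 1) (nat_lit 5) (nat_lit 3) (nat_lit 4) (nat_lit 1) (nat_lit 4) (nat_lit 395) (nat_lit 291) (nat_lit 214)) (XT.lf (nat_lit 0) (nat_lit 617146099814) (nat_lit 152) (nat_lit 226022636336) (nat_lit 0) (nat_lit 611474715591) (nat_lit 1) (nat_lit 5) (nat_lit 3) (nat_lit 4) (nat_lit 1) (nat_lit 4) (nat_lit 396) (nat_lit 291) (nat_lit 213)))) (XT.nd (nat_lit 156) (nat_lit 0) (nat_lit 0) (XT.nd (nat_lit 78) (nat_lit 0) (nat_lit 0) (XT.lf (nat_lit 0) (nat_lit 672797891023) (nat_lit 152) (nat_lit 230551944067) (nat_lit 0) (nat_lit 667125465977) (nat_lit 1) (nat_lit 5) (nat_lit 3) (nat_lit 4) (nat_lit 1) (nat_lit 4) (nat_lit 397) (nat_lit 291) (nat_lit 212)) (XT.lf (nat_lit 0) (nat_lit 732899462201) (nat_lit 152) (nat_lit 235448352070) (nat_lit 0) (nat_lit 727226073429) (nat_lit 1) (nat_lit 5) (nat_lit 3) (nat_lit 4) (nat_lit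 1) (nat_lit 4) (nat_lit 398) (nat_lit 291) (nat_lit 211))) (XT.nd (nat_lit 78) (nat_lit 0) (nat_lit 0) (XT.lf (nat_lit 0) (nat_lit 797806970804) (nat_lit 152) (nat_lit 240740876095) (nat_lit 0) (nat_lit 792132689695) (nat_lit 1) (nat_lit 5) (nat_lit 3) (nat_lit 4) (nat_lit 1) (nat_lit 4) (nat_lit 399) (nat_lit 291) (nat_lit 210)) (XT.nd (nat_lit 78) (nat_lit 0) (nat_lit 0) (XT.lf (nat_lit 0) (nat_lit 867905053922) (nat_lit 152) (nat_lit 246460879248) (nat_lit 0) (nat_lit 862229946573) (nat_lit 1) (nat_lit 5) (nat_lit 3) (nat_lit 4) (nat_lit 1) (nat_lit 4) (nat_lit 400) (nat_lit 291) (nat_lit 209)) (XT.lf (nat_lit 0) (nat_lit 943609107603) (nat_lit 152) (nat_lit 252642257844) (nat_lit 0) (nat_lit 937933235217) (nat_lit 1) (nat_lit 5) (nat_lit 3) (nat_lit 4) (nat_lit 1) (nat_lit 4) (nat_lit 401) (nat_lit 291) (nat_lit 208))))))))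
noncomputable def xc71 : XT := (XT.nd (nat_lit 40404) (nat_lit 0) (nat_lit 912) (XT.nd (nat_lit 702) (nat_lit 0) (nat_lit 0) (XT.nd (nat_lit 312) (nat_lit 0) (nat_lit 0) (XT.nd (nat_lit 156) (nat_lit 0) (nat_lit 0) (XT.nd (nat_lit 78) (nat_lit 0) (nat_lit 0) (XT.lf (nat_lit 0) (nat_lit 1025367748460) (nat_lit 152) (nat_lit 259321642274) (nat_lit 0) (nat_lit 1019691167708) (nat_lit 1) (nat_lit 5) (nat_lit 3) (nat_lit 4) (nat_lit 1) (nat_lit 4) (nat_lit 402) (nat_lit 291) (nat_lit 207)) (XT.lf (nat_lit 0) (nat_lit 1113665472143) (nat_lit 152) (nat_lit 266538614077) (nat_lit 0) (nat_lit 1107988235496) (nat_lit 1) (nat_lit 5) (nat_lit 3) (nat_lit 4) (nat_lit 1) (nat_lit 4) (nat_lit 403) (nat_lit 291) (nat_lit 206))) (XT.nd (nat_lit 78) (nat_lit 0) (nat_lit 0) (XT.lf (nat_lit 0) (nat_lit 1209025524423) (nat_lit 152) (nat_lit 274335940491) (nat_lit 0) (nat_lit 1203347680465) (nat_lit 1) (nat_lit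 5) (nat_lit 3) (nat_lit 4) (nat_lit 1) (nat_lit 4) (nat_lit 404) (nat_lit 291) (nat_lit 205)) (XT.lf (nat_lit 0) (nat_lit 1312013001905) (nat_lit 152) (nat_lit 282759827897) (nat_lit 0) (nat_lit 1306334595623) (nat_lit 1) (nat_lit 5) (nat_lit 3) (nat_lit 4) (nat_lit 1) (nat_lit 4) (nat_lit 405) (nat_lit 291) (nat_lit 204)))) (XT.nd (nat_lit 156) (nat_lit 0) (nat_lit 0) (XT.nd (nat_lit 78) (nat_lit 0) (nat_lit 0) (XT.lf (nat_lit 0) (nat_lit 1423238200752) (nat_lit 152) (nat_lit 291860195627) (nat_lit 0) (nat_lit 1417559273799) (nat_lit 1) (nat_lit 5) (nat_lit 3) (nat_lit 4) (nat_lit 1) (nat_lit 4) (nat_lit 406) (nat_lit 291) (nat_lit 203)) (XT.lf (nat_lit 0) (nat_lit 1543360233255) (nat_lit 152) (nat_lit 301690971785) (nat_lit 0) (nat_lit 1537680824199) (nat_lit 1) (nat_lit 5) (nat_lit 3) (nat_lit 4) (nat_lit 1) (nat_lit 4) (nat_lit 407) (nat_lit 291) (nat_lit 202))) (XT.nd (nat_lit 78)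 (nat_lit 0) (nat_lit 0) (XT.lf (nat_lit 0) (nat_lit 1673090933678) (nat_lit 152) (nat_lit 312310412824) (nat_lit 0) (nat_lit 1667411078231) (nat_lit 1) (nat_lit 5) (nat_lit 3) (nat_lit 4) (nat_lit 1) (nat_lit 4) (nat_lit 408) (nat_lit 291) (nat_lit 201)) (XT.nd (nat_lit 78) (nat_lit 0) (nat_lit 0) (XT.lf (nat_lit 0) (nat_lit 1813199076544) (nat_lit 152) (nat_lit 323781448764) (nat_lit 0) (nat_lit 1807518807772) (nat_lit 1) (nat_lit 5) (nat_lit 3) (nat_lit 4) (nat_lit 1) (nat_lit 4) (nat_lit 409) (nat_lit 291) (nat_lit 200)) (XT.lf (nat_lit 0) (nat_lit 1964514932329) (nat_lit 152) (nat_lit 336172056114) (nat_lit 0) (nat_lit 1958834280848) (nat_lit 1) (nat_lit 5) (nat_lit 3) (nat_lit 4) (nat_lit 1) (nat_lit 4) (nat_lit 410) (nat_lit 291) (nat_lit 199)))))) (XT.nd (nat_lit 312) (nat_lit 0) (nat_lit 0) (XT.nd (nat_lit 156) (nat_lit 0) (nat_lit 0) (XT.nd (nat_lit 78) (nat_lit 0) (nat_lit 0)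 (XT.lf (nat_lit 0) (nat_lit 2127935187585) (nat_lit 152) (nat_lit 349555660696) (nat_lit 0) (nat_lit 2122254181744) (nat_lit 1) (nat_lit 5) (nat_lit 3) (nat_lit 4) (nat_lit 1) (nat_lit 4) (nat_lit 411) (nat_lit 291) (nat_lit 198)) (XT.lf (nat_lit 0) (nat_lit 2304428258640) (nat_lit 152) (nat_lit 364011572759) (nat_lit 0) (nat_lit 2298746924689) (nat_lit 1) (nat_lit 5) (nat_lit 3) (nat_lit 4) (nat_lit 1) (nat_lit 4) (nat_lit 412) (nat_lit 291) (nat_lit 197))) (XT.nd (nat_lit 78) (nat_lit 0) (nat_lit 0) (XT.lf (nat_lit 0) (nat_lit 2495040030360) (nat_lit 152) (nat_lit 379625456968) (nat_lit 0) (nat_lit 2489358392602) (nat_lit 1) (nat_lit 5) (nat_lit 3) (nat_lit 4) (nat_lit 1) (nat_lit 4) (nat_lit 413) (nat_lit 291) (nat_lit 196)) (XT.lf (nat_lit 0) (nat_lit 2700900053983) (nat_lit 152) (nat_lit 396489840042) (nat_lit 0) (nat_lit 2695218134923) (nat_lit 1) (nat_lit 5) (nat_lit 3) (nat_lit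 4) (nat_lit 1) (nat_lit 4) (nat_lit 414) (nat_lit 291) (nat_lit 195)))) (XT.nd (nat_lit 39156) (nat_lit 0) (nat_lit 2660) (XT.nd (nat_lit 78) (nat_lit 0) (nat_lit 0) (XT.lf (nat_lit 0) (nat_lit 2923228240762) (nat_lit 152) (nat_lit 414704659068) (nat_lit 0) (nat_lit 2917546061237) (nat_lit 1) (nat_lit 5) (nat_lit 3) (nat_lit 4) (nat_lit 1) (nat_lit 4) (nat_lit 415) (nat_lit 291) (nat_lit 194)) (XT.lf (nat_lit 0) (nat_lit 3163342091063) (nat_lit 152) (nat_lit 434377853714) (nat_lit 0) (nat_lit 3157659670367) (nat_lit 1) (nat_lit 5) (nat_lit 3) (nat_lit 4) (nat_lit 1) (nat_lit 4) (nat_lit 416) (nat_lit 291) (nat_lit 193))) (XT.nd (nat_lit 78) (nat_lit 456) (nat_lit 0) (XT.lf (nat_lit 0) (nat_lit 1467491539) (nat_lit 228) (nat_lit 1260409389) (nat_lit 0) (nat_lit 1467491539) (nat_lit 42) (nat_lit 5) (nat_lit 45) (nat_lit 4) (nat_lit 42) (nat_lit 4) (nat_lit 316) (nat_lit 292) (nat_lit 292))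 (XT.nd (nat_lit 78) (nat_lit 228) (nat_lit 0) (XT.lf (nat_lit 0) (nat_lit 4284103017) (nat_lit 228) (nat_lit 2717106777) (nat_lit 228) (nat_lit 1656596157) (nat_lit 39) (nat_lit 4) (nat_lit 42) (nat_lit 5) (nat_lit 42) (nat_lit 4) (nat_lit 317) (nat_lit 292) (nat_lit 291)) (XT.lf (nat_lit 0) (nat_lit 2211387123) (nat_lit 228) (nat_lit 6419175626) (nat_lit 0) (nat_lit 320215921) (nat_lit 36) (nat_lit 5) (nat_lit 39) (nat_lit 4) (nat_lit 36) (nat_lit 4) (nat_lit 318) (nat_lit 292) (nat_lit 290))))))) (XT.nd (nat_lit 702) (nat_lit 760) (nat_lit 0) (XT.nd (nat_lit 312) (nat_lit 456) (nat_lit 0) (XT.nd (nat_lit 156) (nat_lit 304) (nat_lit 0) (XT.nd (nat_lit 78) (nat_lit 76) (nat_lit 0) (XT.lf (nat_lit 0) (nat_lit 519717784) (nat_lit 152) (nat_lit 5740235673) (nat_lit 152) (nat_lit 3007196950) (nat_lit 34) (nat_lit 4) (nat_lit 36) (nat_lit 5) (nat_lit 36) (nat_lit 4) (nat_lit 319) (nat_lit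 292) (nat_lit 289)) (XT.lf (nat_lit 0) (nat_lit 910458304) (nat_lit 228) (nat_lit 1618792414) (nat_lit 76) (nat_lit 7082783332) (nat_lit 33) (nat_lit 5) (nat_lit 36) (nat_lit 5) (nat_lit 34) (nat_lit 4) (nat_lit 320) (nat_lit 292) (nat_lit 288))) (XT.nd (nat_lit 78) (nat_lit 152) (nat_lit 0) (XT.lf (nat_lit 0) (nat_lit 4923584554) (nat_lit 228) (nat_lit 4056389631) (nat_lit 0) (nat_lit 1002925854) (nat_lit 31) (nat_lit 5) (nat_lit 34) (nat_lit 4) (nat_lit 31) (nat_lit 4) (nat_lit 321) (nat_lit 292) (nat_lit 287)) (XT.lf (nat_lit 0) (nat_lit 3546482138) (nat_lit 152) (nat_lit 5689182375) (nat_lit 152) (nat_lit 1149725913) (nat_lit 29) (nat_lit 4) (nat_lit 31) (nat_lit 5) (nat_lit 31) (nat_lit 4) (nat_lit 322) (nat_lit 292) (nat_lit 286)))) (XT.nd (nat_lit 156) (nat_lit 304) (nat_lit 0) (XT.nd (nat_lit 78) (nat_lit 0) (nat_lit 0) (XT.lf (nat_lit 0) (nat_lit 785240922) (nat_lit 76) (nat_lit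 2050171709) (nat_lit 152) (nat_lit 7985597358) (nat_lit 27) (nat_lit 5) (nat_lit 28) (nat_lit 5) (nat_lit 29) (nat_lit 4) (nat_lit 323) (nat_lit 292) (nat_lit 285)) (XT.lf (nat_lit 0) (nat_lit 7102533573) (nat_lit 152) (nat_lit 2307090174) (nat_lit 0) (nat_lit 1877592190) (nat_lit 27) (nat_lit 5) (nat_lit 29) (nat_lit 4) (nat_lit 27) (nat_lit 4) (nat_lit 324) (nat_lit 292) (nat_lit 284))) (XT.nd (nat_lit 78) (nat_lit 152) (nat_lit 0) (XT.lf (nat_lit 0) (nat_lit 5952069148) (nat_lit 152) (nat_lit 5759269027) (nat_lit 152) (nat_lit 79492817) (nat_lit 25) (nat_lit 4) (nat_lit 27) (nat_lit 5) (nat_lit 27) (nat_lit 4) (nat_lit 325) (nat_lit 292) (nat_lit 283)) (XT.nd (nat_lit 78) (nat_lit 0) (nat_lit 0) (XT.lf (nat_lit 0) (nat_lit 2350452170) (nat_lit 76) (nat_lit 1712707319) (nat_lit 152) (nat_lit 8269167909) (nat_lit 23) (nat_lit 5) (nat_lit 24) (nat_lit 5) (nat_lit 25) (nat_lit 4) (nat_lit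 326) (nat_lit 292) (nat_lit 282)) (XT.lf (nat_lit 0) (nat_lit 8569489821) (nat_lit 152) (nat_lit 1785245355) (nat_lit 0) (nat_lit 2559427670) (nat_lit 23) (nat_lit 5) (nat_lit 25) (nat_lit 4) (nat_lit 23) (nat_lit 4) (nat_lit 327) (nat_lit 292) (nat_lit 281)))))) (XT.nd (nat_lit 312) (nat_lit 380) (nat_lit 0) (XT.nd (nat_lit 156) (nat_lit 76) (nat_lit 0) (XT.nd (nat_lit 78) (nat_lit 152) (nat_lit 0) (XT.lf (nat_lit 0) (nat_lit 7063369258) (nat_lit 152) (nat_lit 6410333190) (nat_lit 152) (nat_lit 65953864) (nat_lit 21) (nat_lit 4) (nat_lit 23) (nat_lit 5) (nat_lit 23) (nat_lit 4) (nat_lit 328) (nat_lit 292) (nat_lit 280)) (XT.lf (nat_lit 0) (nat_lit 2195081832) (nat_lit 76) (nat_lit 2059251869) (nat_lit 152) (nat_lit 9958007725) (nat_lit 19) (nat_lit 5) (nat_lit 20) (nat_lit 5) (nat_lit 21) (nat_lit 4) (nat_lit 329) (nat_lit 292) (nat_lit 279))) (XT.nd (nat_lit 78) (nat_lit 76) (nat_lit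 0) (XT.lf (nat_lit 0) (nat_lit 8988491593) (nat_lit 152) (nat_lit 3382496798) (nat_lit 0) (nat_lit 2562051444) (nat_lit 19) (nat_lit 5) (nat_lit 21) (nat_lit 4) (nat_lit 19) (nat_lit 4) (nat_lit 330) (nat_lit 292) (nat_lit 278)) (XT.lf (nat_lit 0) (nat_lit 5891214906) (nat_lit 76) (nat_lit 8244827049) (nat_lit 76) (nat_lit 1572653796) (nat_lit 18) (nat_lit 4) (nat_lit 19) (nat_lit 5) (nat_lit 19) (nat_lit 4) (nat_lit 331) (nat_lit 292) (nat_lit 277)))) (XT.nd (nat_lit 156) (nat_lit 228) (nat_lit 0) (XT.nd (nat_lit 78) (nat_lit 76) (nat_lit 0) (XT.lf (nat_lit 0) (nat_lit 2926757557) (nat_lit 152) (nat_lit 812048185) (nat_lit 76) (nat_lit 12806780282) (nat_lit 17) (nat_lit 5) (nat_lit 19) (nat_lit 5) (nat_lit 18) (nat_lit 4) (nat_lit 332) (nat_lit 292) (nat_lit 276)) (XT.lf (nat_lit 0) (nat_lit 7801965325) (nat_lit 152) (nat_lit 8417909072) (nat_lit 0) (nat_lit 1218279736) (nat_lit 16)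 (nat_lit 5) (nat_lit 18) (nat_lit 4) (nat_lit 16) (nat_lit 4) (nat_lit 333) (nat_lit 292) (nat_lit 275))) (XT.nd (nat_lit 78) (nat_lit 152) (nat_lit 0) (XT.lf (nat_lit 0) (nat_lit 961365139) (nat_lit 76) (nat_lit 12102687489) (nat_lit 76) (nat_lit 5338380733) (nat_lit 15) (nat_lit 4) (nat_lit 16) (nat_lit 5) (nat_lit 16) (nat_lit 4) (nat_lit 334) (nat_lit 292) (nat_lit 274)) (XT.nd (nat_lit 78) (nat_lit 152) (nat_lit 0) (XT.lf (nat_lit 0) (nat_lit 11302661779) (nat_lit 76) (nat_lit 7532859608) (nat_lit 76) (nat_lit 601311030) (nat_lit 15) (nat_lit 4) (nat_lit 16) (nat_lit 5) (nat_lit 16) (nat_lit 4) (nat_lit 335) (nat_lit 292) (nat_lit 273)) (XT.lf (nat_lit 0) (nat_lit 1636137548) (nat_lit 76) (nat_lit 2557391136) (nat_lit 152) (nat_lit 16359439864) (nat_lit 13) (nat_lit 5) (nat_lit 14) (nat_lit 5) (nat_lit 15) (nat_lit 4) (nat_lit 336) (nat_lit 292) (nat_lit 272))))))))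
noncomputable def xc72 : XT := (XT.nd (nat_lit 1404) (nat_lit 228) (nat_lit 0) (XT.nd (nat_lit 702) (nat_lit 380) (nat_lit 0) (XT.nd (nat_lit 312) (nat_lit 152) (nat_lit 0) (XT.nd (nat_lit 156) (nat_lit 76) (nat_lit 0) (XT.nd (nat_lit 78) (nat_lit 76) (nat_lit 0) (XT.lf (nat_lit 0) (nat_lit 9501869726) (nat_lit 152) (nat_lit 9434700194) (nat_lit 0) (nat_lit 2807624334) (nat_lit 13) (nat_lit 5) (nat_lit 15) (nat_lit 4) (nat_lit 13) (nat_lit 4) (nat_lit 337) (nat_lit 292) (nat_lit 271)) (XT.lf (nat_lit 0) (nat_lit 529350076) (nat_lit 76) (nat_lit 14661067564) (nat_lit 76) (nat_lit 7843894440) (nat_lit 12) (nat_lit 4) (nat_lit 13) (nat_lit 5) (nat_lit 13) (nat_lit 4) (nat_lit 338) (nat_lit 292) (nat_lit 270))) (XT.nd (nat_lit 78) (nat_lit 76) (nat_lit 0) (XT.lf (nat_lit 0) (nat_lit 11596371183) (nat_lit 76) (nat_lit 9875630757) (nat_lit 76) (nat_lit 2944635659) (nat_lit 12) (nat_lit 4) (nat_lit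 13) (nat_lit 5) (nat_lit 13) (nat_lit 4) (nat_lit 339) (nat_lit 292) (nat_lit 269)) (XT.lf (nat_lit 0) (nat_lit 2115143334) (nat_lit 152) (nat_lit 2636887678) (nat_lit 76) (nat_lit 21162155779) (nat_lit 11) (nat_lit 5) (nat_lit 13) (nat_lit 5) (nat_lit 12) (nat_lit 4) (nat_lit 340) (nat_lit 292) (nat_lit 268)))) (XT.nd (nat_lit 156) (nat_lit 76) (nat_lit 0) (XT.nd (nat_lit 78) (nat_lit 0) (nat_lit 0) (XT.lf (nat_lit 0) (nat_lit 7543361340) (nat_lit 152) (nat_lit 19034434000) (nat_lit 0) (nat_lit 937833738) (nat_lit 10) (nat_lit 5) (nat_lit 12) (nat_lit 4) (nat_lit 10) (nat_lit 4) (nat_lit 341) (nat_lit 292) (nat_lit 267)) (XT.lf (nat_lit 0) (nat_lit 13498399358) (nat_lit 152) (nat_lit 8930198515) (nat_lit 0) (nat_lit 6809209207) (nat_lit 10) (nat_lit 5) (nat_lit 12) (nat_lit 4) (nat_lit 10) (nat_lit 4) (nat_lit 342) (nat_lit 292) (nat_lit 266))) (XT.nd (nat_lit 78) (nat_lit 0) (nat_lit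 0) (XT.lf (nat_lit 0) (nat_lit 1887768811) (nat_lit 76) (nat_lit 17990401527) (nat_lit 76) (nat_lit 11223746052) (nat_lit 9) (nat_lit 4) (nat_lit 10) (nat_lit 5) (nat_lit 10) (nat_lit 4) (nat_lit 343) (nat_lit 292) (nat_lit 265)) (XT.nd (nat_lit 78) (nat_lit 0) (nat_lit 0) (XT.lf (nat_lit 0) (nat_lit 13894786834) (nat_lit 76) (nat_lit 13023391756) (nat_lit 76) (nat_lit 6185009131) (nat_lit 9) (nat_lit 4) (nat_lit 10) (nat_lit 5) (nat_lit 10) (nat_lit 4) (nat_lit 344) (nat_lit 292) (nat_lit 264)) (XT.lf (nat_lit 0) (nat_lit 26691759822) (nat_lit 76) (nat_lit 7742301884) (nat_lit 76) (nat_lit 837505230) (nat_lit 9) (nat_lit 4) (nat_lit 10) (nat_lit 5) (nat_lit 10) (nat_lit 4) (nat_lit 345) (nat_lit 292) (nat_lit 263)))))) (XT.nd (nat_lit 312) (nat_lit 228) (nat_lit 0) (XT.nd (nat_lit 156) (nat_lit 0) (nat_lit 0) (XT.nd (nat_lit 78) (nat_lit 0) (nat_lit 0) (XT.lf (nat_lit 0) (nat_lit 2755821819)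 (nat_lit 76) (nat_lit 1918270942) (nat_lit 152) (nat_lit 32931176439) (nat_lit 7) (nat_lit 5) (nat_lit 8) (nat_lit 5) (nat_lit 9) (nat_lit 4) (nat_lit 346) (nat_lit 292) (nat_lit 262)) (XT.lf (nat_lit 0) (nat_lit 10844689793) (nat_lit 152) (nat_lit 24916489451) (nat_lit 0) (nat_lit 4341698636) (nat_lit 7) (nat_lit 5) (nat_lit 9) (nat_lit 4) (nat_lit 7) (nat_lit 4) (nat_lit 347) (nat_lit 292) (nat_lit 261))) (XT.nd (nat_lit 78) (nat_lit 0) (nat_lit 0) (XT.lf (nat_lit 0) (nat_lit 17482369867) (nat_lit 152) (nat_lit 14389502936) (nat_lit 0) (nat_lit 10930562417) (nat_lit 7) (nat_lit 5) (nat_lit 9) (nat_lit 4) (nat_lit 7) (nat_lit 4) (nat_lit 348) (nat_lit 292) (nat_lit 260)) (XT.lf (nat_lit 0) (nat_lit 24580332921) (nat_lit 152) (nat_lit 3159971230) (nat_lit 0) (nat_lit 17983325198) (nat_lit 7) (nat_lit 5) (nat_lit 9) (nat_lit 4) (nat_lit 7) (nat_lit 4) (nat_lit 349) (nat_lit 292) (nat_lit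 259)))) (XT.nd (nat_lit 156) (nat_lit 152) (nat_lit 0) (XT.nd (nat_lit 78) (nat_lit 0) (nat_lit 0) (XT.lf (nat_lit 0) (nat_lit 9304078739) (nat_lit 76) (nat_lit 23100325535) (nat_lit 76) (nat_lit 16461465709) (nat_lit 6) (nat_lit 4) (nat_lit 7) (nat_lit 5) (nat_lit 7) (nat_lit 4) (nat_lit 350) (nat_lit 292) (nat_lit 258)) (XT.lf (nat_lit 0) (nat_lit 22818963806) (nat_lit 76) (nat_lit 18058165661) (nat_lit 76) (nat_lit 11380553887) (nat_lit 6) (nat_lit 4) (nat_lit 7) (nat_lit 5) (nat_lit 7) (nat_lit 4) (nat_lit 351) (nat_lit 292) (nat_lit 257))) (XT.nd (nat_lit 78) (nat_lit 152) (nat_lit 0) (XT.lf (nat_lit 0) (nat_lit 37298373692) (nat_lit 76) (nat_lit 12670344276) (nat_lit 76) (nat_lit 5956851069) (nat_lit 6) (nat_lit 4) (nat_lit 7) (nat_lit 5) (nat_lit 7) (nat_lit 4) (nat_lit 352) (nat_lit 292) (nat_lit 256)) (XT.nd (nat_lit 78) (nat_lit 152) (nat_lit 0) (XT.lf (nat_lit 0) (nat_lit 52828112309)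 (nat_lit 76) (nat_lit 6904933550) (nat_lit 76) (nat_lit 158216794) (nat_lit 6) (nat_lit 4) (nat_lit 7) (nat_lit 5) (nat_lit 7) (nat_lit 4) (nat_lit 353) (nat_lit 292) (nat_lit 255)) (XT.lf (nat_lit 0) (nat_lit 5449029974) (nat_lit 76) (nat_lit 429099485) (nat_lit 152) (nat_lit 58278011550) (nat_lit 4) (nat_lit 5) (nat_lit 5) (nat_lit 5) (nat_lit 6) (nat_lit 4) (nat_lit 354) (nat_lit 292) (nat_lit 254))))))) (XT.nd (nat_lit 702) (nat_lit 152) (nat_lit 0) (XT.nd (nat_lit 312) (nat_lit 76) (nat_lit 0) (XT.nd (nat_lit 156) (nat_lit 0) (nat_lit 0) (XT.nd (nat_lit 78) (nat_lit 0) (nat_lit 0) (XT.lf (nat_lit 0) (nat_lit 12693225609) (nat_lit 152) (nat_lit 49652904160) (nat_lit 0) (nat_lit 6391407887) (nat_lit 4) (nat_lit 5) (nat_lit 6) (nat_lit 4) (nat_lit 4) (nat_lit 4) (nat_lit 355) (nat_lit 292) (nat_lit 253)) (XT.lf (nat_lit 0) (nat_lit 20016870498) (nat_lit 152) (nat_lit 39980883173) (nat_lit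 0) (nat_lit 13690632475) (nat_lit 4) (nat_lit 5) (nat_lit 6) (nat_lit 4) (nat_lit 4) (nat_lit 4) (nat_lit 356) (nat_lit 292) (nat_lit 252))) (XT.nd (nat_lit 78) (nat_lit 0) (nat_lit 0) (XT.lf (nat_lit 0) (nat_lit 27882143651) (nat_lit 152) (nat_lit 29623412541) (nat_lit 0) (nat_lit 21533294239) (nat_lit 4) (nat_lit 5) (nat_lit 6) (nat_lit 4) (nat_lit 4) (nat_lit 4) (nat_lit 357) (nat_lit 292) (nat_lit 251)) (XT.lf (nat_lit 0) (nat_lit 36335654095) (nat_lit 152) (nat_lit 18519114659) (nat_lit 0) (nat_lit 29965868211) (nat_lit 4) (nat_lit 5) (nat_lit 6) (nat_lit 4) (nat_lit 4) (nat_lit 4) (nat_lit 358) (nat_lit 292) (nat_lit 250)))) (XT.nd (nat_lit 156) (nat_lit 0) (nat_lit 0) (XT.nd (nat_lit 78) (nat_lit 76) (nat_lit 0) (XT.lf (nat_lit 0) (nat_lit 45427496705) (nat_lit 152) (nat_lit 6602186281) (nat_lit 0) (nat_lit 39038325200) (nat_lit 4) (nat_lit 5) (nat_lit 6) (nat_lit 4) (nat_lit 4)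 (nat_lit 4) (nat_lit 359) (nat_lit 292) (nat_lit 249)) (XT.lf (nat_lit 0) (nat_lit 6524366672) (nat_lit 76) (nat_lit 48844093570) (nat_lit 76) (nat_lit 42436972415) (nat_lit 3) (nat_lit 4) (nat_lit 4) (nat_lit 5) (nat_lit 4) (nat_lit 4) (nat_lit 360) (nat_lit 292) (nat_lit 248))) (XT.nd (nat_lit 78) (nat_lit 0) (nat_lit 0) (XT.lf (nat_lit 0) (nat_lit 21008185915) (nat_lit 76) (nat_lit 45242852213) (nat_lit 76) (nat_lit 38819111012) (nat_lit 3) (nat_lit 4) (nat_lit 4) (nat_lit 5) (nat_lit 4) (nat_lit 4) (nat_lit 361) (nat_lit 292) (nat_lit 247)) (XT.nd (nat_lit 78) (nat_lit 0) (nat_lit 0) (XT.lf (nat_lit 0) (nat_lit 36587442058) (nat_lit 76) (nat_lit 41385133698) (nat_lit 76) (nat_lit 34946003565) (nat_lit 3) (nat_lit 4) (nat_lit 4) (nat_lit 5) (nat_lit 4) (nat_lit 4) (nat_lit 362) (nat_lit 292) (nat_lit 246)) (XT.lf (nat_lit 0) (nat_lit 53354456619) (nat_lit 76) (nat_lit 37248077471)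 (nat_lit 76) (nat_lit 30794698327) (nat_lit 3) (nat_lit 4) (nat_lit 4) (nat_lit 5) (nat_lit 4) (nat_lit 4) (nat_lit 363) (nat_lit 292) (nat_lit 245)))))) (XT.nd (nat_lit 312) (nat_lit 152) (nat_lit 0) (XT.nd (nat_lit 156) (nat_lit 0) (nat_lit 0) (XT.nd (nat_lit 78) (nat_lit 0) (nat_lit 0) (XT.lf (nat_lit 0) (nat_lit 71408589684) (nat_lit 76) (nat_lit 32807167643) (nat_lit 76) (nat_lit 26340594971) (nat_lit 3) (nat_lit 4) (nat_lit 4) (nat_lit 5) (nat_lit 4) (nat_lit 4) (nat_lit 364) (nat_lit 292) (nat_lit 244)) (XT.lf (nat_lit 0) (nat_lit 90856828708) (nat_lit 76) (nat_lit 28036087711) (nat_lit 76) (nat_lit 21557298809) (nat_lit 3) (nat_lit 4) (nat_lit 4) (nat_lit 5) (nat_lit 4) (nat_lit 4) (nat_lit 365) (nat_lit 292) (nat_lit 243))) (XT.nd (nat_lit 78) (nat_lit 0) (nat_lit 0) (XT.lf (nat_lit 0) (nat_lit 111814422515) (nat_lit 76) (nat_lit 22906564610) (nat_lit 76) (nat_lit 16416464384)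 (nat_lit 3) (nat_lit 4) (nat_lit 4) (nat_lit 5) (nat_lit 4) (nat_lit 4) (nat_lit 366) (nat_lit 292) (nat_lit 242)) (XT.lf (nat_lit 0) (nat_lit 134405564253) (nat_lit 76) (nat_lit 17388201165) (nat_lit 76) (nat_lit 10887627490) (nat_lit 3) (nat_lit 4) (nat_lit 4) (nat_lit 5) (nat_lit 4) (nat_lit 4) (nat_lit 367) (nat_lit 292) (nat_lit 241)))) (XT.nd (nat_lit 156) (nat_lit 76) (nat_lit 0) (XT.nd (nat_lit 78) (nat_lit 76) (nat_lit 0) (XT.lf (nat_lit 0) (nat_lit 158764127356) (nat_lit 76) (nat_lit 11448295963) (nat_lit 76) (nat_lit 4938024651) (nat_lit 3) (nat_lit 4) (nat_lit 4) (nat_lit 5) (nat_lit 4) (nat_lit 4) (nat_lit 368) (nat_lit 292) (nat_lit 240)) (XT.lf (nat_lit 0) (nat_lit 1394185691) (nat_lit 152) (nat_lit 3619344366) (nat_lit 76) (nat_lit 183602153664) (nat_lit 2) (nat_lit 5) (nat_lit 4) (nat_lit 5) (nat_lit 3) (nat_lit 4) (nat_lit 369) (nat_lit 292) (nat_lit 239))) (XT.nd (nat_lit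 78) (nat_lit 0) (nat_lit 0) (XT.lf (nat_lit 0) (nat_lit 8258003718) (nat_lit 152) (nat_lit 192652568853) (nat_lit 0) (nat_lit 2213962268) (nat_lit 1) (nat_lit 5) (nat_lit 3) (nat_lit 4) (nat_lit 1) (nat_lit 4) (nat_lit 370) (nat_lit 292) (nat_lit 238)) (XT.nd (nat_lit 78) (nat_lit 0) (nat_lit 0) (XT.lf (nat_lit 0) (nat_lit 15885198389) (nat_lit 152) (nat_lit 193057727234) (nat_lit 0) (nat_lit 9834028885) (nat_lit 1) (nat_lit 5) (nat_lit 3) (nat_lit 4) (nat_lit 1) (nat_lit 4) (nat_lit 371) (nat_lit 292) (nat_lit 237)) (XT.lf (nat_lit 0) (nat_lit 24106383431) (nat_lit 152) (nat_lit 193527867258) (nat_lit 0) (nat_lit 18048613878) (nat_lit 1) (nat_lit 5) (nat_lit 3) (nat_lit 4) (nat_lit 1) (nat_lit 4) (nat_lit 372) (nat_lit 292) (nat_lit 236))))))))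
noncomputable def xc73 : XT := (XT.nd (nat_lit 1404) (nat_lit 0) (nat_lit 0) (XT.nd (nat_lit 702) (nat_lit 0) (nat_lit 0) (XT.nd (nat_lit 312) (nat_lit 0) (nat_lit 0) (XT.nd (nat_lit 156) (nat_lit 0) (nat_lit 0) (XT.nd (nat_lit 78) (nat_lit 0) (nat_lit 0) (XT.lf (nat_lit 0) (nat_lit 32970276978) (nat_lit 152) (nat_lit 194065774938) (nat_lit 0) (nat_lit 26906396269) (nat_lit 1) (nat_lit 5) (nat_lit 3) (nat_lit 4) (nat_lit 1) (nat_lit 4) (nat_lit 373) (nat_lit 292) (nat_lit 235)) (XT.lf (nat_lit 0) (nat_lit 42529405806) (nat_lit 152) (nat_lit 194674637877) (nat_lit 0) (nat_lit 36459866619) (nat_lit 1) (nat_lit 5) (nat_lit 3) (nat_lit 4) (nat_lit 1) (nat_lit 4) (nat_lit 374) (nat_lit 292) (nat_lit 234))) (XT.nd (nat_lit 78) (nat_lit 0) (nat_lit 0) (XT.lf (nat_lit 0) (nat_lit 52840416605) (nat_lit 152) (nat_lit 195358064150) (nat_lit 0) (nat_lit 46765638086) (nat_lit 1) (nat_lit 5) (nat_lit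 3) (nat_lit 4) (nat_lit 1) (nat_lit 4) (nat_lit 375) (nat_lit 292) (nat_lit 233)) (XT.lf (nat_lit 0) (nat_lit 63964411661) (nat_lit 152) (nat_lit 196120103692) (nat_lit 0) (nat_lit 57884781909) (nat_lit 1) (nat_lit 5) (nat_lit 3) (nat_lit 4) (nat_lit 1) (nat_lit 4) (nat_lit 376) (nat_lit 292) (nat_lit 232)))) (XT.nd (nat_lit 156) (nat_lit 0) (nat_lit 0) (XT.nd (nat_lit 78) (nat_lit 0) (nat_lit 0) (XT.lf (nat_lit 0) (nat_lit 75967310945) (nat_lit 152) (nat_lit 196965272293) (nat_lit 0) (nat_lit 69883189310) (nat_lit 1) (nat_lit 5) (nat_lit 3) (nat_lit 4) (nat_lit 1) (nat_lit 4) (nat_lit 377) (nat_lit 292) (nat_lit 231)) (XT.lf (nat_lit 0) (nat_lit 88920242748) (nat_lit 152) (nat_lit 197898578357) (nat_lit 0) (nat_lit 82831961963) (nat_lit 1) (nat_lit 5) (nat_lit 3) (nat_lit 4) (nat_lit 1) (nat_lit 4) (nat_lit 378) (nat_lit 292) (nat_lit 230))) (XT.nd (nat_lit 78) (nat_lit 0) (nat_lit 0)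 (XT.lf (nat_lit 0) (nat_lit 102899965186) (nat_lit 152) (nat_lit 198925552590) (nat_lit 0) (nat_lit 96807833336) (nat_lit 1) (nat_lit 5) (nat_lit 3) (nat_lit 4) (nat_lit 1) (nat_lit 4) (nat_lit 379) (nat_lit 292) (nat_lit 229)) (XT.nd (nat_lit 78) (nat_lit 0) (nat_lit 0) (XT.lf (nat_lit 0) (nat_lit 117989321057) (nat_lit 152) (nat_lit 200052280763) (nat_lit 0) (nat_lit 111893623406) (nat_lit 1) (nat_lit 5) (nat_lit 3) (nat_lit 4) (nat_lit 1) (nat_lit 4) (nat_lit 380) (nat_lit 292) (nat_lit 228)) (XT.lf (nat_lit 0) (nat_lit 134277728767) (nat_lit 152) (nat_lit 201285439784) (nat_lit 0) (nat_lit 128178729449) (nat_lit 1) (nat_lit 5) (nat_lit 3) (nat_lit 4) (nat_lit 1) (nat_lit 4) (nat_lit 381) (nat_lit 292) (nat_lit 227)))))) (XT.nd (nat_lit 312) (nat_lit 0) (nat_lit 0) (XT.nd (nat_lit 156) (nat_lit 0) (nat_lit 0) (XT.nd (nat_lit 78) (nat_lit 0) (nat_lit 0) (XT.lf (nat_lit 0) (nat_lit 151861712214)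 (nat_lit 152) (nat_lit 202632337262) (nat_lit 0) (nat_lit 145759655796) (nat_lit 1) (nat_lit 5) (nat_lit 3) (nat_lit 4) (nat_lit 1) (nat_lit 4) (nat_lit 382) (nat_lit 292) (nat_lit 226)) (XT.lf (nat_lit 0) (nat_lit 170845472781) (nat_lit 152) (nat_lit 204100954813) (nat_lit 0) (nat_lit 164740585714) (nat_lit 1) (nat_lit 5) (nat_lit 3) (nat_lit 4) (nat_lit 1) (nat_lit 4) (nat_lit 383) (nat_lit 292) (nat_lit 225))) (XT.nd (nat_lit 78) (nat_lit 0) (nat_lit 0) (XT.lf (nat_lit 0) (nat_lit 191341506826) (nat_lit 152) (nat_lit 205699995354) (nat_lit 0) (nat_lit 185233998789) (nat_lit 1) (nat_lit 5) (nat_lit 3) (nat_lit 4) (nat_lit 1) (nat_lit 4) (nat_lit 384) (nat_lit 292) (nat_lit 224)) (XT.lf (nat_lit 0) (nat_lit 213471272330) (nat_lit 152) (nat_lit 207438934682) (nat_lit 0) (nat_lit 207361337469) (nat_lit 1) (nat_lit 5) (nat_lit 3) (nat_lit 4) (nat_lit 1) (nat_lit 4) (nat_lit 385) (nat_lit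 292) (nat_lit 223)))) (XT.nd (nat_lit 156) (nat_lit 0) (nat_lit 0) (XT.nd (nat_lit 78) (nat_lit 0) (nat_lit 0) (XT.lf (nat_lit 0) (nat_lit 237365908643) (nat_lit 152) (nat_lit 209328077622) (nat_lit 0) (nat_lit 231253726722) (nat_lit 1) (nat_lit 5) (nat_lit 3) (nat_lit 4) (nat_lit 1) (nat_lit 4) (nat_lit 386) (nat_lit 292) (nat_lit 222)) (XT.lf (nat_lit 0) (nat_lit 263167013610) (nat_lit 152) (nat_lit 211378619096) (nat_lit 0) (nat_lit 257052751079) (nat_lit 1) (nat_lit 5) (nat_lit 3) (nat_lit 4) (nat_lit 1) (nat_lit 4) (nat_lit 387) (nat_lit 292) (nat_lit 221))) (XT.nd (nat_lit 78) (nat_lit 0) (nat_lit 0) (XT.lf (nat_lit 0) (nat_lit 291027482669) (nat_lit 152) (nat_lit 213602710460) (nat_lit 0) (nat_lit 284911293646) (nat_lit 1) (nat_lit 5) (nat_lit 3) (nat_lit 4) (nat_lit 1) (nat_lit 4) (nat_lit 388) (nat_lit 292) (nat_lit 220)) (XT.nd (nat_lit 78) (nat_lit 0) (nat_lit 0) (XT.lf (nat_lit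 0) (nat_lit 321112414894) (nat_lit 152) (nat_lit 216013531514) (nat_lit 0) (nat_lit 314994442083) (nat_lit 1) (nat_lit 5) (nat_lit 3) (nat_lit 4) (nat_lit 1) (nat_lit 4) (nat_lit 389) (nat_lit 292) (nat_lit 219)) (XT.lf (nat_lit 0) (nat_lit 353600091367) (nat_lit 152) (nat_lit 218625368607) (nat_lit 0) (nat_lit 347480466900) (nat_lit 1) (nat_lit 5) (nat_lit 3) (nat_lit 4) (nat_lit 1) (nat_lit 4) (nat_lit 390) (nat_lit 292) (nat_lit 218))))))) (XT.nd (nat_lit 702) (nat_lit 0) (nat_lit 0) (XT.nd (nat_lit 312) (nat_lit 0) (nat_lit 0) (XT.nd (nat_lit 156) (nat_lit 0) (nat_lit 0) (XT.nd (nat_lit 78) (nat_lit 0) (nat_lit 0) (XT.lf (nat_lit 0) (nat_lit 388683031650) (nat_lit 152) (nat_lit 221453699291) (nat_lit 0) (nat_lit 382561877872) (nat_lit 1) (nat_lit 5) (nat_lit 3) (nat_lit 4) (nat_lit 1) (nat_lit 4) (nat_lit 391) (nat_lit 292) (nat_lit 217)) (XT.lf (nat_lit 0) (nat_lit 426569134650)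 (nat_lit 152) (nat_lit 224515284044) (nat_lit 0) (nat_lit 420446564843) (nat_lit 1) (nat_lit 5) (nat_lit 3) (nat_lit 4) (nat_lit 1) (nat_lit 4) (nat_lit 392) (nat_lit 292) (nat_lit 216))) (XT.nd (nat_lit 78) (nat_lit 0) (nat_lit 0) (XT.lf (nat_lit 0) (nat_lit 467482910606) (nat_lit 152) (nat_lit 227828265590) (nat_lit 0) (nat_lit 461359029662) (nat_lit 1) (nat_lit 5) (nat_lit 3) (nat_lit 4) (nat_lit 1) (nat_lit 4) (nat_lit 393) (nat_lit 292) (nat_lit 215)) (XT.lf (nat_lit 0) (nat_lit 511666811525) (nat_lit 152) (nat_lit 231412276414) (nat_lit 0) (nat_lit 505541716564) (nat_lit 1) (nat_lit 5) (nat_lit 3) (nat_lit 4) (nat_lit 1) (nat_lit 4) (nat_lit 394) (nat_lit 292) (nat_lit 214)))) (XT.nd (nat_lit 156) (nat_lit 0) (nat_lit 0) (XT.nd (nat_lit 78) (nat_lit 0) (nat_lit 0) (XT.lf (nat_lit 0) (nat_lit 559382667930) (nat_lit 152) (nat_lit 235288555097) (nat_lit 0) (nat_lit 553256448880) (nat_lit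 1) (nat_lit 5) (nat_lit 3) (nat_lit 4) (nat_lit 1) (nat_lit 4) (nat_lit 395) (nat_lit 292) (nat_lit 213)) (XT.lf (nat_lit 0) (nat_lit 610913240451) (nat_lit 152) (nat_lit 239480072180) (nat_lit 0) (nat_lit 604785980578) (nat_lit 1) (nat_lit 5) (nat_lit 3) (nat_lit 4) (nat_lit 1) (nat_lit 4) (nat_lit 396) (nat_lit 292) (nat_lit 212))) (XT.nd (nat_lit 78) (nat_lit 0) (nat_lit 0) (XT.lf (nat_lit 0) (nat_lit 666563895445) (nat_lit 152) (nat_lit 244011666282) (nat_lit 0) (nat_lit 660435671847) (nat_lit 1) (nat_lit 5) (nat_lit 3) (nat_lit 4) (nat_lit 1) (nat_lit 4) (nat_lit 397) (nat_lit 292) (nat_lit 211)) (XT.nd (nat_lit 78) (nat_lit 0) (nat_lit 0) (XT.lf (nat_lit 0) (nat_lit 726664414571) (nat_lit 152) (nat_lit 248910191295) (nat_lit 0) (nat_lit 720535298634) (nat_lit 1) (nat_lit 5) (nat_lit 3) (nat_lit 4) (nat_lit 1) (nat_lit 4) (nat_lit 398) (nat_lit 292) (nat_lit 210)) (XT.lf (nat_lit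 0) (nat_lit 791570949052) (nat_lit 152) (nat_lit 254204675516) (nat_lit 0) (nat_lit 785441006876) (nat_lit 1) (nat_lit 5) (nat_lit 3) (nat_lit 4) (nat_lit 1) (nat_lit 4) (nat_lit 399) (nat_lit 292) (nat_lit 209)))))) (XT.nd (nat_lit 312) (nat_lit 0) (nat_lit 0) (XT.nd (nat_lit 156) (nat_lit 0) (nat_lit 0) (XT.nd (nat_lit 78) (nat_lit 0) (nat_lit 0) (XT.lf (nat_lit 0) (nat_lit 861668130205) (nat_lit 152) (nat_lit 259926493664) (nat_lit 0) (nat_lit 855537422993) (nat_lit 1) (nat_lit 5) (nat_lit 3) (nat_lit 4) (nat_lit 1) (nat_lit 4) (nat_lit 400) (nat_lit 292) (nat_lit 208)) (XT.lf (nat_lit 0) (nat_lit 937371348733) (nat_lit 152) (nat_lit 266109552811) (nat_lit 0) (nat_lit 931239933154) (nat_lit 1) (nat_lit 5) (nat_lit 3) (nat_lit 4) (nat_lit 1) (nat_lit 4) (nat_lit 401) (nat_lit 292) (nat_lit 207))) (XT.nd (nat_lit 78) (nat_lit 0) (nat_lit 0) (XT.lf (nat_lit 0) (nat_lit 1019129216300)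 (nat_lit 152) (nat_lit 272790493308) (nat_lit 0) (nat_lit 1012997144826) (nat_lit 1) (nat_lit 5) (nat_lit 3) (nat_lit 4) (nat_lit 1) (nat_lit 4) (nat_lit 402) (nat_lit 292) (nat_lit 206)) (XT.lf (nat_lit 0) (nat_lit 1107426223975) (nat_lit 152) (nat_lit 280008905912) (nat_lit 0) (nat_lit 1101293545190) (nat_lit 1) (nat_lit 5) (nat_lit 3) (nat_lit 4) (nat_lit 1) (nat_lit 4) (nat_lit 403) (nat_lit 292) (nat_lit 205)))) (XT.nd (nat_lit 156) (nat_lit 0) (nat_lit 0) (XT.nd (nat_lit 78) (nat_lit 0) (nat_lit 0) (XT.lf (nat_lit 0) (nat_lit 1202785613283) (nat_lit 152) (nat_lit 287807566403) (nat_lit 0) (nat_lit 1196652372174) (nat_lit 1) (nat_lit 5) (nat_lit 3) (nat_lit 4) (nat_lit 1) (nat_lit 4) (nat_lit 404) (nat_lit 292) (nat_lit 204)) (XT.lf (nat_lit 0) (nat_lit 1305772476903) (nat_lit 152) (nat_lit 296232689064) (nat_lit 0) (nat_lit 1299638715123) (nat_lit 1) (nat_lit 5) (nat_lit 3) (nat_lit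 4) (nat_lit 1) (nat_lit 4) (nat_lit 405) (nat_lit 292) (nat_lit 203))) (XT.nd (nat_lit 78) (nat_lit 0) (nat_lit 0) (XT.lf (nat_lit 0) (nat_lit 1416997107360) (nat_lit 152) (nat_lit 305334200549) (nat_lit 0) (nat_lit 1410862863477) (nat_lit 1) (nat_lit 5) (nat_lit 3) (nat_lit 4) (nat_lit 1) (nat_lit 4) (nat_lit 406) (nat_lit 292) (nat_lit 202)) (XT.nd (nat_lit 78) (nat_lit 0) (nat_lit 0) (XT.lf (nat_lit 0) (nat_lit 1537118613574) (nat_lit 152) (nat_lit 315166035740) (nat_lit 0) (nat_lit 1530983923300) (nat_lit 1) (nat_lit 5) (nat_lit 3) (nat_lit 4) (nat_lit 1) (nat_lit 4) (nat_lit 407) (nat_lit 292) (nat_lit 201)) (XT.lf (nat_lit 0) (nat_lit 1666848826694) (nat_lit 152) (nat_lit 325786457364) (nat_lit 0) (nat_lit 1660713723095) (nat_lit 1) (nat_lit 5) (nat_lit 3) (nat_lit 4) (nat_lit 1) (nat_lit 4) (nat_lit 408) (nat_lit 292) (nat_lit 200))))))))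
noncomputable def xc74 : XT := (XT.nd (nat_lit 40248) (nat_lit 0) (nat_lit 684) (XT.nd (nat_lit 39546) (nat_lit 0) (nat_lit 2052) (XT.nd (nat_lit 312) (nat_lit 0) (nat_lit 0) (XT.nd (nat_lit 156) (nat_lit 0) (nat_lit 0) (XT.nd (nat_lit 78) (nat_lit 0) (nat_lit 0) (XT.lf (nat_lit 0) (nat_lit 1806956518353) (nat_lit 152) (nat_lit 337258401254) (nat_lit 0) (nat_lit 1800821032045) (nat_lit 1) (nat_lit 5) (nat_lit 3) (nat_lit 4) (nat_lit 1) (nat_lit 4) (nat_lit 409) (nat_lit 292) (nat_lit 199)) (XT.lf (nat_lit 0) (nat_lit 1958271956354) (nat_lit 152) (nat_lit 349649849298) (nat_lit 0) (nat_lit 1952136115686) (nat_lit 1) (nat_lit 5) (nat_lit 3) (nat_lit 4) (nat_lit 1) (nat_lit 4) (nat_lit 410) (nat_lit 292) (nat_lit 198))) (XT.nd (nat_lit 78) (nat_lit 0) (nat_lit 0) (XT.lf (nat_lit 0) (nat_lit 2121691824773) (nat_lit 152) (nat_lit 363034232300) (nat_lit 0) (nat_lit 2115555655994) (nat_lit 1)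 (nat_lit 5) (nat_lit 3) (nat_lit 4) (nat_lit 1) (nat_lit 4) (nat_lit 411) (nat_lit 292) (nat_lit 197)) (XT.lf (nat_lit 0) (nat_lit 2298184537645) (nat_lit 152) (nat_lit 377490865123) (nat_lit 0) (nat_lit 2292048065060) (nat_lit 1) (nat_lit 5) (nat_lit 3) (nat_lit 4) (nat_lit 1) (nat_lit 4) (nat_lit 412) (nat_lit 292) (nat_lit 196)))) (XT.nd (nat_lit 156) (nat_lit 0) (nat_lit 0) (XT.nd (nat_lit 78) (nat_lit 0) (nat_lit 0) (XT.lf (nat_lit 0) (nat_lit 2488795977714) (nat_lit 152) (nat_lit 393105416702) (nat_lit 0) (nat_lit 2482659223827) (nat_lit 1) (nat_lit 5) (nat_lit 3) (nat_lit 4) (nat_lit 1) (nat_lit 4) (nat_lit 413) (nat_lit 292) (nat_lit 195)) (XT.lf (nat_lit 0) (nat_lit 2694655694254) (nat_lit 152) (nat_lit 409970417712) (nat_lit 0) (nat_lit 2688518679901) (nat_lit 1) (nat_lit 5) (nat_lit 3) (nat_lit 4) (nat_lit 1) (nat_lit 4) (nat_lit 414) (nat_lit 292) (nat_lit 194))) (XT.nd (nat_lit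 78) (nat_lit 0) (nat_lit 0) (XT.lf (nat_lit 0) (nat_lit 2916983596696) (nat_lit 152) (nat_lit 428185808900) (nat_lit 0) (nat_lit 2910846341172) (nat_lit 1) (nat_lit 5) (nat_lit 3) (nat_lit 4) (nat_lit 1) (nat_lit 4) (nat_lit 415) (nat_lit 292) (nat_lit 193)) (XT.nd (nat_lit 38922) (nat_lit 0) (nat_lit 3344) (XT.lf (nat_lit 0) (nat_lit 3157097183721) (nat_lit 152) (nat_lit 447859533326) (nat_lit 0) (nat_lit 3150959704891) (nat_lit 1) (nat_lit 5) (nat_lit 3) (nat_lit 4) (nat_lit 1) (nat_lit 4) (nat_lit 416) (nat_lit 292) (nat_lit 192)) (XT.lf (nat_lit 0) (nat_lit 481841046) (nat_lit 228) (nat_lit 1738902526) (nat_lit 228) (nat_lit 1738902526) (nat_lit 45) (nat_lit 4) (nat_lit 48) (nat_lit 5) (nat_lit 48) (nat_lit 4) (nat_lit 314) (nat_lit 293) (nat_lit 293)))))) (XT.nd (nat_lit 312) (nat_lit 608) (nat_lit 0) (XT.nd (nat_lit 156) (nat_lit 456) (nat_lit 0) (XT.nd (nat_lit 78) (nat_lit 152)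 (nat_lit 0) (XT.lf (nat_lit 0) (nat_lit 217552757) (nat_lit 304) (nat_lit 784469852) (nat_lit 76) (nat_lit 7149638603) (nat_lit 44) (nat_lit 5) (nat_lit 48) (nat_lit 5) (nat_lit 45) (nat_lit 4) (nat_lit 315) (nat_lit 293) (nat_lit 292)) (XT.lf (nat_lit 0) (nat_lit 3956948553) (nat_lit 228) (nat_lit 2692775213) (nat_lit 0) (nat_lit 1751086464) (nat_lit 42) (nat_lit 5) (nat_lit 45) (nat_lit 4) (nat_lit 42) (nat_lit 4) (nat_lit 316) (nat_lit 293) (nat_lit 291))) (XT.nd (nat_lit 78) (nat_lit 228) (nat_lit 0) (XT.lf (nat_lit 0) (nat_lit 3935488556) (nat_lit 228) (nat_lit 3965056236) (nat_lit 228) (nat_lit 777239869) (nat_lit 39) (nat_lit 4) (nat_lit 42) (nat_lit 5) (nat_lit 42) (nat_lit 4) (nat_lit 317) (nat_lit 293) (nat_lit 290)) (XT.lf (nat_lit 0) (nat_lit 1960369237) (nat_lit 152) (nat_lit 951843516) (nat_lit 228) (nat_lit 6067738660) (nat_lit 36) (nat_lit 5) (nat_lit 38) (nat_lit 5) (nat_lit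 39) (nat_lit 4) (nat_lit 318) (nat_lit 293) (nat_lit 289)))) (XT.nd (nat_lit 156) (nat_lit 380) (nat_lit 0) (XT.nd (nat_lit 78) (nat_lit 228) (nat_lit 0) (XT.lf (nat_lit 0) (nat_lit 6816270882) (nat_lit 228) (nat_lit 248511851) (nat_lit 0) (nat_lit 2243214574) (nat_lit 36) (nat_lit 5) (nat_lit 39) (nat_lit 4) (nat_lit 36) (nat_lit 4) (nat_lit 319) (nat_lit 293) (nat_lit 288)) (XT.lf (nat_lit 0) (nat_lit 1285968138) (nat_lit 228) (nat_lit 2620008287) (nat_lit 76) (nat_lit 5755144047) (nat_lit 33) (nat_lit 5) (nat_lit 36) (nat_lit 5) (nat_lit 34) (nat_lit 4) (nat_lit 320) (nat_lit 293) (nat_lit 287))) (XT.nd (nat_lit 78) (nat_lit 228) (nat_lit 0) (XT.lf (nat_lit 0) (nat_lit 4737888424) (nat_lit 152) (nat_lit 406828894) (nat_lit 228) (nat_lit 4899709410) (nat_lit 31) (nat_lit 5) (nat_lit 33) (nat_lit 5) (nat_lit 34) (nat_lit 4) (nat_lit 321) (nat_lit 293) (nat_lit 286)) (XT.nd (nat_lit 78)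 (nat_lit 76) (nat_lit 0) (XT.lf (nat_lit 0) (nat_lit 2076002086) (nat_lit 152) (nat_lit 7238381586) (nat_lit 152) (nat_lit 1144009957) (nat_lit 29) (nat_lit 4) (nat_lit 31) (nat_lit 5) (nat_lit 31) (nat_lit 4) (nat_lit 322) (nat_lit 293) (nat_lit 285)) (XT.lf (nat_lit 0) (nat_lit 2725720299) (nat_lit 228) (nat_lit 955392747) (nat_lit 76) (nat_lit 7222170460) (nat_lit 28) (nat_lit 5) (nat_lit 31) (nat_lit 5) (nat_lit 29) (nat_lit 4) (nat_lit 323) (nat_lit 293) (nat_lit 284))))))) (XT.nd (nat_lit 702) (nat_lit 532) (nat_lit 0) (XT.nd (nat_lit 312) (nat_lit 456) (nat_lit 0) (XT.nd (nat_lit 156) (nat_lit 152) (nat_lit 0) (XT.nd (nat_lit 78) (nat_lit 152) (nat_lit 0) (XT.lf (nat_lit 0) (nat_lit 6834530208) (nat_lit 152) (nat_lit 4302153281) (nat_lit 0) (nat_lit 245537074) (nat_lit 27) (nat_lit 5) (nat_lit 29) (nat_lit 4) (nat_lit 27) (nat_lit 4) (nat_lit 324) (nat_lit 293) (nat_lit 283)) (XT.lf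 (nat_lit 0) (nat_lit 3696230140) (nat_lit 152) (nat_lit 7605563300) (nat_lit 152) (nat_lit 595426808) (nat_lit 25) (nat_lit 4) (nat_lit 27) (nat_lit 5) (nat_lit 27) (nat_lit 4) (nat_lit 325) (nat_lit 293) (nat_lit 282))) (XT.nd (nat_lit 78) (nat_lit 76) (nat_lit 0) (XT.lf (nat_lit 0) (nat_lit 3429972655) (nat_lit 228) (nat_lit 265740922) (nat_lit 76) (nat_lit 8755493264) (nat_lit 24) (nat_lit 5) (nat_lit 27) (nat_lit 5) (nat_lit 25) (nat_lit 4) (nat_lit 326) (nat_lit 293) (nat_lit 281)) (XT.lf (nat_lit 0) (nat_lit 7796620702) (nat_lit 152) (nat_lit 4637270995) (nat_lit 0) (nat_lit 610373854) (nat_lit 23) (nat_lit 5) (nat_lit 25) (nat_lit 4) (nat_lit 23) (nat_lit 4) (nat_lit 327) (nat_lit 293) (nat_lit 280)))) (XT.nd (nat_lit 156) (nat_lit 228) (nat_lit 0) (XT.nd (nat_lit 78) (nat_lit 76) (nat_lit 0) (XT.lf (nat_lit 0) (nat_lit 3914678210) (nat_lit 152) (nat_lit 8631643306) (nat_lit 152)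 (nat_lit 1135843517) (nat_lit 21) (nat_lit 4) (nat_lit 23) (nat_lit 5) (nat_lit 23) (nat_lit 4) (nat_lit 328) (nat_lit 293) (nat_lit 279)) (XT.lf (nat_lit 0) (nat_lit 3106941624) (nat_lit 228) (nat_lit 1319984304) (nat_lit 76) (nat_lit 9940503144) (nat_lit 20) (nat_lit 5) (nat_lit 23) (nat_lit 5) (nat_lit 21) (nat_lit 4) (nat_lit 329) (nat_lit 293) (nat_lit 278))) (XT.nd (nat_lit 78) (nat_lit 152) (nat_lit 0) (XT.lf (nat_lit 0) (nat_lit 7672702802) (nat_lit 152) (nat_lit 7207909612) (nat_lit 0) (nat_lit 221022584) (nat_lit 19) (nat_lit 5) (nat_lit 21) (nat_lit 4) (nat_lit 19) (nat_lit 4) (nat_lit 330) (nat_lit 293) (nat_lit 277)) (XT.nd (nat_lit 78) (nat_lit 76) (nat_lit 0) (XT.lf (nat_lit 0) (nat_lit 1727041210) (nat_lit 76) (nat_lit 10921610894) (nat_lit 76) (nat_lit 3242400024) (nat_lit 18) (nat_lit 4) (nat_lit 19) (nat_lit 5) (nat_lit 19) (nat_lit 4) (nat_lit 331) (nat_lit 293) (nat_lit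 276)) (XT.lf (nat_lit 0) (nat_lit 1269494047) (nat_lit 152) (nat_lit 5249339781) (nat_lit 76) (nat_lit 10218033151) (nat_lit 17) (nat_lit 5) (nat_lit 19) (nat_lit 5) (nat_lit 18) (nat_lit 4) (nat_lit 332) (nat_lit 293) (nat_lit 275)))))) (XT.nd (nat_lit 312) (nat_lit 304) (nat_lit 0) (XT.nd (nat_lit 156) (nat_lit 152) (nat_lit 0) (XT.nd (nat_lit 78) (nat_lit 0) (nat_lit 0) (XT.lf (nat_lit 0) (nat_lit 4254998925) (nat_lit 76) (nat_lit 1677672798) (nat_lit 152) (nat_lit 11713752071) (nat_lit 16) (nat_lit 5) (nat_lit 17) (nat_lit 5) (nat_lit 18) (nat_lit 4) (nat_lit 333) (nat_lit 293) (nat_lit 274)) (XT.lf (nat_lit 0) (nat_lit 11066230757) (nat_lit 152) (nat_lit 4141862407) (nat_lit 0) (nat_lit 3412916470) (nat_lit 16) (nat_lit 5) (nat_lit 18) (nat_lit 4) (nat_lit 16) (nat_lit 4) (nat_lit 334) (nat_lit 293) (nat_lit 273))) (XT.nd (nat_lit 78) (nat_lit 76) (nat_lit 0) (XT.lf (nat_lit 0) (nat_lit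 5862450465) (nat_lit 76) (nat_lit 10807292559) (nat_lit 76) (nat_lit 2999124734) (nat_lit 15) (nat_lit 4) (nat_lit 16) (nat_lit 5) (nat_lit 16) (nat_lit 4) (nat_lit 335) (nat_lit 293) (nat_lit 272)) (XT.lf (nat_lit 0) (nat_lit 1816351615) (nat_lit 152) (nat_lit 4173539370) (nat_lit 76) (nat_lit 14807690570) (nat_lit 14) (nat_lit 5) (nat_lit 16) (nat_lit 5) (nat_lit 15) (nat_lit 4) (nat_lit 336) (nat_lit 293) (nat_lit 271)))) (XT.nd (nat_lit 156) (nat_lit 228) (nat_lit 0) (XT.nd (nat_lit 78) (nat_lit 0) (nat_lit 0) (XT.lf (nat_lit 0) (nat_lit 6246426992) (nat_lit 76) (nat_lit 643351696) (nat_lit 152) (nat_lit 15117839590) (nat_lit 13) (nat_lit 5) (nat_lit 14) (nat_lit 5) (nat_lit 15) (nat_lit 4) (nat_lit 337) (nat_lit 293) (nat_lit 270)) (XT.lf (nat_lit 0) (nat_lit 12495094146) (nat_lit 152) (nat_lit 5913519660) (nat_lit 0) (nat_lit 4895797467) (nat_lit 13) (nat_lit 5) (nat_lit 15) (nat_lit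 4) (nat_lit 13) (nat_lit 4) (nat_lit 338) (nat_lit 293) (nat_lit 269))) (XT.nd (nat_lit 78) (nat_lit 152) (nat_lit 0) (XT.lf (nat_lit 0) (nat_lit 4739402568) (nat_lit 76) (nat_lit 13834143768) (nat_lit 76) (nat_lit 6129456372) (nat_lit 12) (nat_lit 4) (nat_lit 13) (nat_lit 5) (nat_lit 13) (nat_lit 4) (nat_lit 339) (nat_lit 293) (nat_lit 268)) (XT.nd (nat_lit 78) (nat_lit 152) (nat_lit 0) (XT.lf (nat_lit 0) (nat_lit 16383066512) (nat_lit 76) (nat_lit 8814006031) (nat_lit 76) (nat_lit 1011734639) (nat_lit 12) (nat_lit 4) (nat_lit 13) (nat_lit 5) (nat_lit 13) (nat_lit 4) (nat_lit 340) (nat_lit 293) (nat_lit 267)) (XT.lf (nat_lit 0) (nat_lit 869738851) (nat_lit 76) (nat_lit 3342937012) (nat_lit 152) (nat_lit 23619885853) (nat_lit 10) (nat_lit 5) (nat_lit 11) (nat_lit 5) (nat_lit 12) (nat_lit 4) (nat_lit 341) (nat_lit 293) (nat_lit 266))))))))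
noncomputable def xc75 : XT := (XT.nd (nat_lit 1404) (nat_lit 228) (nat_lit 0) (XT.nd (nat_lit 702) (nat_lit 228) (nat_lit 0) (XT.nd (nat_lit 312) (nat_lit 152) (nat_lit 0) (XT.nd (nat_lit 156) (nat_lit 76) (nat_lit 0) (XT.nd (nat_lit 78) (nat_lit 0) (nat_lit 0) (XT.lf (nat_lit 0) (nat_lit 10040647433) (nat_lit 152) (nat_lit 16869074683) (nat_lit 0) (nat_lit 2655194198) (nat_lit 10) (nat_lit 5) (nat_lit 12) (nat_lit 4) (nat_lit 10) (nat_lit 4) (nat_lit 342) (nat_lit 293) (nat_lit 265)) (XT.lf (nat_lit 0) (nat_lit 16331805738) (nat_lit 152) (nat_lit 6229693992) (nat_lit 0) (nat_lit 8874625352) (nat_lit 10) (nat_lit 5) (nat_lit 12) (nat_lit 4) (nat_lit 10) (nat_lit 4) (nat_lit 343) (nat_lit 293) (nat_lit 264))) (XT.nd (nat_lit 78) (nat_lit 0) (nat_lit 0) (XT.lf (nat_lit 0) (nat_lit 5367257040) (nat_lit 76) (nat_lit 17804859622) (nat_lit 76) (nat_lit 10281265208) (nat_lit 9) (nat_lit 4)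 (nat_lit 10) (nat_lit 5) (nat_lit 10) (nat_lit 4) (nat_lit 344) (nat_lit 293) (nat_lit 263)) (XT.lf (nat_lit 0) (nat_lit 18088283413) (nat_lit 76) (nat_lit 12560842702) (nat_lit 76) (nat_lit 4975753816) (nat_lit 9) (nat_lit 4) (nat_lit 10) (nat_lit 5) (nat_lit 10) (nat_lit 4) (nat_lit 345) (nat_lit 293) (nat_lit 262)))) (XT.nd (nat_lit 156) (nat_lit 0) (nat_lit 0) (XT.nd (nat_lit 78) (nat_lit 76) (nat_lit 0) (XT.lf (nat_lit 0) (nat_lit 639641628) (nat_lit 152) (nat_lit 6311573623) (nat_lit 76) (nat_lit 31023593778) (nat_lit 8) (nat_lit 5) (nat_lit 10) (nat_lit 5) (nat_lit 9) (nat_lit 4) (nat_lit 346) (nat_lit 293) (nat_lit 261)) (XT.lf (nat_lit 0) (nat_lit 5834902503) (nat_lit 76) (nat_lit 669738030) (nat_lit 152) (nat_lit 33992232136) (nat_lit 7) (nat_lit 5) (nat_lit 8) (nat_lit 5) (nat_lit 9) (nat_lit 4) (nat_lit 347) (nat_lit 293) (nat_lit 260))) (XT.nd (nat_lit 78) (nat_lit 0) (nat_lit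 0) (XT.lf (nat_lit 0) (nat_lit 13092207898) (nat_lit 152) (nat_lit 24185998421) (nat_lit 0) (nat_lit 5922239287) (nat_lit 7) (nat_lit 5) (nat_lit 9) (nat_lit 4) (nat_lit 7) (nat_lit 4) (nat_lit 348) (nat_lit 293) (nat_lit 259)) (XT.nd (nat_lit 78) (nat_lit 0) (nat_lit 0) (XT.lf (nat_lit 0) (nat_lit 20158684384) (nat_lit 152) (nat_lit 13018616701) (nat_lit 0) (nat_lit 12946863668) (nat_lit 7) (nat_lit 5) (nat_lit 9) (nat_lit 4) (nat_lit 7) (nat_lit 4) (nat_lit 349) (nat_lit 293) (nat_lit 258)) (XT.lf (nat_lit 0) (nat_lit 27729838191) (nat_lit 152) (nat_lit 1077540716) (nat_lit 0) (nat_lit 20479265528) (nat_lit 7) (nat_lit 5) (nat_lit 9) (nat_lit 4) (nat_lit 7) (nat_lit 4) (nat_lit 350) (nat_lit 293) (nat_lit 257)))))) (XT.nd (nat_lit 312) (nat_lit 76) (nat_lit 0) (XT.nd (nat_lit 156) (nat_lit 76) (nat_lit 0) (XT.nd (nat_lit 78) (nat_lit 0) (nat_lit 0) (XT.lf (nat_lit 0) (nat_lit 12324513549)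 (nat_lit 76) (nat_lit 23822426713) (nat_lit 76) (nat_lit 16535972617) (nat_lit 6) (nat_lit 4) (nat_lit 7) (nat_lit 5) (nat_lit 7) (nat_lit 4) (nat_lit 351) (nat_lit 293) (nat_lit 256)) (XT.lf (nat_lit 0) (nat_lit 26751988791) (nat_lit 76) (nat_lit 18460295891) (nat_lit 76) (nat_lit 11140618245) (nat_lit 6) (nat_lit 4) (nat_lit 7) (nat_lit 5) (nat_lit 7) (nat_lit 4) (nat_lit 352) (nat_lit 293) (nat_lit 255))) (XT.nd (nat_lit 78) (nat_lit 76) (nat_lit 0) (XT.lf (nat_lit 0) (nat_lit 42233639773) (nat_lit 76) (nat_lit 12718672723) (nat_lit 76) (nat_lit 5368232532) (nat_lit 6) (nat_lit 4) (nat_lit 7) (nat_lit 5) (nat_lit 7) (nat_lit 4) (nat_lit 353) (nat_lit 293) (nat_lit 254)) (XT.lf (nat_lit 0) (nat_lit 774602080) (nat_lit 152) (nat_lit 5767751702) (nat_lit 76) (nat_lit 58065428540) (nat_lit 5) (nat_lit 5) (nat_lit 7) (nat_lit 5) (nat_lit 6) (nat_lit 4) (nat_lit 354) (nat_lit 293) (nat_lit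 253)))) (XT.nd (nat_lit 156) (nat_lit 0) (nat_lit 0) (XT.nd (nat_lit 78) (nat_lit 0) (nat_lit 0) (XT.lf (nat_lit 0) (nat_lit 7269879702) (nat_lit 152) (nat_lit 61531765967) (nat_lit 0) (nat_lit 413122338) (nat_lit 4) (nat_lit 5) (nat_lit 6) (nat_lit 4) (nat_lit 4) (nat_lit 4) (nat_lit 355) (nat_lit 293) (nat_lit 252)) (XT.lf (nat_lit 0) (nat_lit 14572244146) (nat_lit 152) (nat_lit 51902202688) (nat_lit 0) (nat_lit 7692875392) (nat_lit 4) (nat_lit 5) (nat_lit 6) (nat_lit 4) (nat_lit 4) (nat_lit 4) (nat_lit 356) (nat_lit 293) (nat_lit 251))) (XT.nd (nat_lit 78) (nat_lit 0) (nat_lit 0) (XT.lf (nat_lit 0) (nat_lit 22417813183) (nat_lit 152) (nat_lit 41584044749) (nat_lit 0) (nat_lit 15517507957) (nat_lit 4) (nat_lit 5) (nat_lit 6) (nat_lit 4) (nat_lit 4) (nat_lit 4) (nat_lit 357) (nat_lit 293) (nat_lit 250)) (XT.nd (nat_lit 78) (nat_lit 0) (nat_lit 0) (XT.lf (nat_lit 0) (nat_lit 30853079074)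 (nat_lit 152) (nat_lit 30516147508) (nat_lit 0) (nat_lit 23933388226) (nat_lit 4) (nat_lit 5) (nat_lit 6) (nat_lit 4) (nat_lit 4) (nat_lit 4) (nat_lit 358) (nat_lit 293) (nat_lit 249)) (XT.lf (nat_lit 0) (nat_lit 39928028580) (nat_lit 152) (nat_lit 18632923428) (nat_lit 0) (nat_lit 32990388083) (nat_lit 4) (nat_lit 5) (nat_lit 6) (nat_lit 4) (nat_lit 4) (nat_lit 4) (nat_lit 359) (nat_lit 293) (nat_lit 248))))))) (XT.nd (nat_lit 702) (nat_lit 152) (nat_lit 0) (XT.nd (nat_lit 312) (nat_lit 0) (nat_lit 0) (XT.nd (nat_lit 156) (nat_lit 0) (nat_lit 0) (XT.nd (nat_lit 78) (nat_lit 76) (nat_lit 0) (XT.lf (nat_lit 0) (nat_lit 49696439180) (nat_lit 152) (nat_lit 5863953402) (nat_lit 0) (nat_lit 42742178637) (nat_lit 4) (nat_lit 5) (nat_lit 6) (nat_lit 4) (nat_lit 4) (nat_lit 4) (nat_lit 360) (nat_lit 293) (nat_lit 247)) (XT.lf (nat_lit 0) (nat_lit 8280662830) (nat_lit 76) (nat_lit 52134685061)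 (nat_lit 76) (nat_lit 45165035585) (nat_lit 3) (nat_lit 4) (nat_lit 4) (nat_lit 5) (nat_lit 4) (nat_lit 4) (nat_lit 361) (nat_lit 293) (nat_lit 246))) (XT.nd (nat_lit 78) (nat_lit 0) (nat_lit 0) (XT.lf (nat_lit 0) (nat_lit 23831754515) (nat_lit 76) (nat_lit 48291043358) (nat_lit 76) (nat_lit 41307144872) (nat_lit 3) (nat_lit 4) (nat_lit 4) (nat_lit 5) (nat_lit 4) (nat_lit 4) (nat_lit 362) (nat_lit 293) (nat_lit 245)) (XT.lf (nat_lit 0) (nat_lit 40572690873) (nat_lit 76) (nat_lit 44167021216) (nat_lit 76) (nat_lit 37169929201) (nat_lit 3) (nat_lit 4) (nat_lit 4) (nat_lit 5) (nat_lit 4) (nat_lit 4) (nat_lit 363) (nat_lit 293) (nat_lit 244)))) (XT.nd (nat_lit 156) (nat_lit 0) (nat_lit 0) (XT.nd (nat_lit 78) (nat_lit 0) (nat_lit 0) (XT.lf (nat_lit 0) (nat_lit 58602677454) (nat_lit 76) (nat_lit 39738179985) (nat_lit 76) (nat_lit 32728871740) (nat_lit 3) (nat_lit 4) (nat_lit 4) (nat_lit 5)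 (nat_lit 4) (nat_lit 4) (nat_lit 364) (nat_lit 293) (nat_lit 243)) (XT.lf (nat_lit 0) (nat_lit 78028558623) (nat_lit 76) (nat_lit 34978274681) (nat_lit 76) (nat_lit 27957655112) (nat_lit 3) (nat_lit 4) (nat_lit 4) (nat_lit 5) (nat_lit 4) (nat_lit 4) (nat_lit 365) (nat_lit 293) (nat_lit 242))) (XT.nd (nat_lit 78) (nat_lit 0) (nat_lit 0) (XT.lf (nat_lit 0) (nat_lit 98965450712) (nat_lit 76) (nat_lit 29859098456) (nat_lit 76) (nat_lit 22828005439) (nat_lit 3) (nat_lit 4) (nat_lit 4) (nat_lit 5) (nat_lit 4) (nat_lit 4) (nat_lit 366) (nat_lit 293) (nat_lit 241)) (XT.nd (nat_lit 78) (nat_lit 0) (nat_lit 0) (XT.lf (nat_lit 0) (nat_lit 121537424194) (nat_lit 76) (nat_lit 24350315453) (nat_lit 76) (nat_lit 17309524798) (nat_lit 3) (nat_lit 4) (nat_lit 4) (nat_lit 5) (nat_lit 4) (nat_lit 4) (nat_lit 367) (nat_lit 293) (nat_lit 240)) (XT.lf (nat_lit 0) (nat_lit 145878238910) (nat_lit 76) (nat_lit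 18419281030) (nat_lit 76) (nat_lit 11369511082) (nat_lit 3) (nat_lit 4) (nat_lit 4) (nat_lit 5) (nat_lit 4) (nat_lit 4) (nat_lit 368) (nat_lit 293) (nat_lit 239)))))) (XT.nd (nat_lit 312) (nat_lit 0) (nat_lit 0) (XT.nd (nat_lit 156) (nat_lit 76) (nat_lit 0) (XT.nd (nat_lit 78) (nat_lit 76) (nat_lit 0) (XT.lf (nat_lit 0) (nat_lit 172132136726) (nat_lit 76) (nat_lit 12030848318) (nat_lit 76) (nat_lit 4972764209) (nat_lit 3) (nat_lit 4) (nat_lit 4) (nat_lit 5) (nat_lit 4) (nat_lit 4) (nat_lit 369) (nat_lit 293) (nat_lit 238)) (XT.lf (nat_lit 0) (nat_lit 1822645202) (nat_lit 152) (nat_lit 3274680384) (nat_lit 76) (nat_lit 198582216744) (nat_lit 2) (nat_lit 5) (nat_lit 4) (nat_lit 5) (nat_lit 3) (nat_lit 4) (nat_lit 370) (nat_lit 293) (nat_lit 237))) (XT.nd (nat_lit 78) (nat_lit 0) (nat_lit 0) (XT.lf (nat_lit 0) (nat_lit 9234411089) (nat_lit 152) (nat_lit 207429366250) (nat_lit 0) (nat_lit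 2685419924) (nat_lit 1) (nat_lit 5) (nat_lit 3) (nat_lit 4) (nat_lit 1) (nat_lit 4) (nat_lit 371) (nat_lit 293) (nat_lit 236)) (XT.lf (nat_lit 0) (nat_lit 17448391180) (nat_lit 152) (nat_lit 207914004569) (nat_lit 0) (nat_lit 10893288858) (nat_lit 1) (nat_lit 5) (nat_lit 3) (nat_lit 4) (nat_lit 1) (nat_lit 4) (nat_lit 372) (nat_lit 293) (nat_lit 235)))) (XT.nd (nat_lit 156) (nat_lit 0) (nat_lit 0) (XT.nd (nat_lit 78) (nat_lit 0) (nat_lit 0) (XT.lf (nat_lit 0) (nat_lit 26305613476) (nat_lit 152) (nat_lit 208465336598) (nat_lit 0) (nat_lit 19744852675) (nat_lit 1) (nat_lit 5) (nat_lit 3) (nat_lit 4) (nat_lit 1) (nat_lit 4) (nat_lit 373) (nat_lit 293) (nat_lit 234)) (XT.lf (nat_lit 0) (nat_lit 35858565220) (nat_lit 152) (nat_lit 209086629488) (nat_lit 0) (nat_lit 29292565088) (nat_lit 1) (nat_lit 5) (nat_lit 3) (nat_lit 4) (nat_lit 1) (nat_lit 4) (nat_lit 374) (nat_lit 293) (nat_lit 233)))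 (XT.nd (nat_lit 78) (nat_lit 0) (nat_lit 0) (XT.lf (nat_lit 0) (nat_lit 46163856496) (nat_lit 152) (nat_lit 209781564976) (nat_lit 0) (nat_lit 39593005131) (nat_lit 1) (nat_lit 5) (nat_lit 3) (nat_lit 4) (nat_lit 1) (nat_lit 4) (nat_lit 375) (nat_lit 293) (nat_lit 232)) (XT.nd (nat_lit 78) (nat_lit 0) (nat_lit 0) (XT.lf (nat_lit 0) (nat_lit 57282555698) (nat_lit 152) (nat_lit 210554261199) (nat_lit 0) (nat_lit 50707212450) (nat_lit 1) (nat_lit 5) (nat_lit 3) (nat_lit 4) (nat_lit 1) (nat_lit 4) (nat_lit 376) (nat_lit 293) (nat_lit 231)) (XT.lf (nat_lit 0) (nat_lit 69280551413) (nat_lit 152) (nat_lit 211409297095) (nat_lit 0) (nat_lit 62701049015) (nat_lit 1) (nat_lit 5) (nat_lit 3) (nat_lit 4) (nat_lit 1) (nat_lit 4) (nat_lit 377) (nat_lit 293) (nat_lit 230))))))))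
noncomputable def xc76 : XT := (XT.nd (nat_lit 1404) (nat_lit 0) (nat_lit 0) (XT.nd (nat_lit 702) (nat_lit 0) (nat_lit 0) (XT.nd (nat_lit 312) (nat_lit 0) (nat_lit 0) (XT.nd (nat_lit 156) (nat_lit 0) (nat_lit 0) (XT.nd (nat_lit 78) (nat_lit 0) (nat_lit 0) (XT.lf (nat_lit 0) (nat_lit 82228942875) (nat_lit 152) (nat_lit 212351739546) (nat_lit 0) (nat_lit 75645589412) (nat_lit 1) (nat_lit 5) (nat_lit 3) (nat_lit 4) (nat_lit 1) (nat_lit 4) (nat_lit 378) (nat_lit 293) (nat_lit 229)) (XT.lf (nat_lit 0) (nat_lit 96204461293) (nat_lit 152) (nat_lit 213387173395) (nat_lit 0) (nat_lit 89617542028) (nat_lit 1) (nat_lit 5) (nat_lit 3) (nat_lit 4) (nat_lit 1) (nat_lit 4) (nat_lit 379) (nat_lit 293) (nat_lit 228))) (XT.nd (nat_lit 78) (nat_lit 0) (nat_lit 0) (XT.lf (nat_lit 0) (nat_lit 111289924553) (nat_lit 152) (nat_lit 214521734546) (nat_lit 0) (nat_lit 104699703621) (nat_lit 1) (nat_lit 5) (nat_lit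 3) (nat_lit 4) (nat_lit 1) (nat_lit 4) (nat_lit 380) (nat_lit 293) (nat_lit 227)) (XT.lf (nat_lit 0) (nat_lit 127574727994) (nat_lit 152) (nat_lit 215762146324) (nat_lit 0) (nat_lit 120981449962) (nat_lit 1) (nat_lit 5) (nat_lit 3) (nat_lit 4) (nat_lit 1) (nat_lit 4) (nat_lit 381) (nat_lit 293) (nat_lit 226)))) (XT.nd (nat_lit 156) (nat_lit 0) (nat_lit 0) (XT.nd (nat_lit 78) (nat_lit 0) (nat_lit 0) (XT.lf (nat_lit 0) (nat_lit 145155374154) (nat_lit 152) (nat_lit 217115759319) (nat_lit 0) (nat_lit 138559265475) (nat_lit 1) (nat_lit 5) (nat_lit 3) (nat_lit 4) (nat_lit 1) (nat_lit 4) (nat_lit 382) (nat_lit 293) (nat_lit 225)) (XT.lf (nat_lit 0) (nat_lit 164136044641) (nat_lit 152) (nat_lit 218590594940) (nat_lit 0) (nat_lit 157537314991) (nat_lit 1) (nat_lit 5) (nat_lit 3) (nat_lit 4) (nat_lit 1) (nat_lit 4) (nat_lit 383) (nat_lit 293) (nat_lit 224))) (XT.nd (nat_lit 78) (nat_lit 0) (nat_lit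 0) (XT.lf (nat_lit 0) (nat_lit 184629217501) (nat_lit 152) (nat_lit 220195392954) (nat_lit 0) (nat_lit 178028061027) (nat_lit 1) (nat_lit 5) (nat_lit 3) (nat_lit 4) (nat_lit 1) (nat_lit 4) (nat_lit 384) (nat_lit 293) (nat_lit 223)) (XT.nd (nat_lit 78) (nat_lit 0) (nat_lit 0) (XT.lf (nat_lit 0) (nat_lit 206756333759) (nat_lit 152) (nat_lit 221939663275) (nat_lit 0) (nat_lit 200152930225) (nat_lit 1) (nat_lit 5) (nat_lit 3) (nat_lit 4) (nat_lit 1) (nat_lit 4) (nat_lit 385) (nat_lit 293) (nat_lit 222)) (XT.lf (nat_lit 0) (nat_lit 230648517067) (nat_lit 152) (nat_lit 223833742320) (nat_lit 0) (nat_lit 224043032922) (nat_lit 1) (nat_lit 5) (nat_lit 3) (nat_lit 4) (nat_lit 1) (nat_lit 4) (nat_lit 386) (nat_lit 293) (nat_lit 221)))))) (XT.nd (nat_lit 312) (nat_lit 0) (nat_lit 0) (XT.nd (nat_lit 156) (nat_lit 0) (nat_lit 0) (XT.nd (nat_lit 78) (nat_lit 0) (nat_lit 0) (XT.lf (nat_lit 0) (nat_lit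 256447350733) (nat_lit 152) (nat_lit 225888854261) (nat_lit 0) (nat_lit 249839940097) (nat_lit 1) (nat_lit 5) (nat_lit 3) (nat_lit 4) (nat_lit 1) (nat_lit 4) (nat_lit 387) (nat_lit 293) (nat_lit 220)) (XT.lf (nat_lit 0) (nat_lit 284305716735) (nat_lit 152) (nat_lit 228117177539) (nat_lit 0) (nat_lit 277696522311) (nat_lit 1) (nat_lit 5) (nat_lit 3) (nat_lit 4) (nat_lit 1) (nat_lit 4) (nat_lit 388) (nat_lit 293) (nat_lit 219))) (XT.nd (nat_lit 78) (nat_lit 0) (nat_lit 0) (XT.lf (nat_lit 0) (nat_lit 314388701686) (nat_lit 152) (nat_lit 230531917033) (nat_lit 0) (nat_lit 307777855606) (nat_lit 1) (nat_lit 5) (nat_lit 3) (nat_lit 4) (nat_lit 1) (nat_lit 4) (nat_lit 389) (nat_lit 293) (nat_lit 218)) (XT.lf (nat_lit 0) (nat_lit 346874575126) (nat_lit 152) (nat_lit 233147382311) (nat_lit 0) (nat_lit 340262199735) (nat_lit 1) (nat_lit 5) (nat_lit 3) (nat_lit 4) (nat_lit 1) (nat_lit 4) (nat_lit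 390) (nat_lit 293) (nat_lit 217)))) (XT.nd (nat_lit 156) (nat_lit 0) (nat_lit 0) (XT.nd (nat_lit 78) (nat_lit 0) (nat_lit 0) (XT.lf (nat_lit 0) (nat_lit 381955845935) (nat_lit 152) (nat_lit 235979072424) (nat_lit 0) (nat_lit 375342054516) (nat_lit 1) (nat_lit 5) (nat_lit 3) (nat_lit 4) (nat_lit 1) (nat_lit 4) (nat_lit 391) (nat_lit 293) (nat_lit 216)) (XT.lf (nat_lit 0) (nat_lit 419840403126) (nat_lit 152) (nat_lit 239043767761) (nat_lit 0) (nat_lit 413225300569) (nat_lit 1) (nat_lit 5) (nat_lit 3) (nat_lit 4) (nat_lit 1) (nat_lit 4) (nat_lit 392) (nat_lit 293) (nat_lit 215))) (XT.nd (nat_lit 78) (nat_lit 0) (nat_lit 0) (XT.lf (nat_lit 0) (nat_lit 460752747778) (nat_lit 152) (nat_lit 242359629477) (nat_lit 0) (nat_lit 454136431204) (nat_lit 1) (nat_lit 5) (nat_lit 3) (nat_lit 4) (nat_lit 1) (nat_lit 4) (nat_lit 393) (nat_lit 293) (nat_lit 214)) (XT.nd (nat_lit 78) (nat_lit 0) (nat_lit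 0) (XT.lf (nat_lit 0) (nat_lit 504935323414) (nat_lit 152) (nat_lit 245946307124) (nat_lit 0) (nat_lit 498317882751) (nat_lit 1) (nat_lit 5) (nat_lit 3) (nat_lit 4) (nat_lit 1) (nat_lit 4) (nat_lit 394) (nat_lit 293) (nat_lit 213)) (XT.lf (nat_lit 0) (nat_lit 552649952705) (nat_lit 152) (nat_lit 249825055089) (nat_lit 0) (nat_lit 546031471219) (nat_lit 1) (nat_lit 5) (nat_lit 3) (nat_lit 4) (nat_lit 1) (nat_lit 4) (nat_lit 395) (nat_lit 293) (nat_lit 212))))))) (XT.nd (nat_lit 702) (nat_lit 0) (nat_lit 0) (XT.nd (nat_lit 312) (nat_lit 0) (nat_lit 0) (XT.nd (nat_lit 156) (nat_lit 0) (nat_lit 0) (XT.nd (nat_lit 78) (nat_lit 0) (nat_lit 0) (XT.lf (nat_lit 0) (nat_lit 604179389011) (nat_lit 152) (nat_lit 254018858543) (nat_lit 0) (nat_lit 597559943799) (nat_lit 1) (nat_lit 5) (nat_lit 3) (nat_lit 4) (nat_lit 1) (nat_lit 4) (nat_lit 396) (nat_lit 293) (nat_lit 211)) (XT.lf (nat_lit 0) (nat_lit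 659828991953) (nat_lit 152) (nat_lit 258552569657) (nat_lit 0) (nat_lit 653208654403) (nat_lit 1) (nat_lit 5) (nat_lit 3) (nat_lit 4) (nat_lit 1) (nat_lit 4) (nat_lit 397) (nat_lit 293) (nat_lit 210))) (XT.nd (nat_lit 78) (nat_lit 0) (nat_lit 0) (XT.lf (nat_lit 0) (nat_lit 719928536956) (nat_lit 152) (nat_lit 263453054865) (nat_lit 0) (nat_lit 713307373167) (nat_lit 1) (nat_lit 5) (nat_lit 3) (nat_lit 4) (nat_lit 1) (nat_lit 4) (nat_lit 398) (nat_lit 293) (nat_lit 209)) (XT.lf (nat_lit 0) (nat_lit 784834169473) (nat_lit 152) (nat_lit 268749354081) (nat_lit 0) (nat_lit 778212240647) (nat_lit 1) (nat_lit 5) (nat_lit 3) (nat_lit 4) (nat_lit 1) (nat_lit 4) (nat_lit 399) (nat_lit 293) (nat_lit 208)))) (XT.nd (nat_lit 156) (nat_lit 0) (nat_lit 0) (XT.nd (nat_lit 78) (nat_lit 0) (nat_lit 0) (XT.lf (nat_lit 0) (nat_lit 854930515473) (nat_lit 152) (nat_lit 274472852781) (nat_lit 0) (nat_lit 848307878281)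 (nat_lit 1) (nat_lit 5) (nat_lit 3) (nat_lit 4) (nat_lit 1) (nat_lit 4) (nat_lit 400) (nat_lit 293) (nat_lit 207)) (XT.lf (nat_lit 0) (nat_lit 930632960711) (nat_lit 152) (nat_lit 280657467994) (nat_lit 0) (nat_lit 924009667624) (nat_lit 1) (nat_lit 5) (nat_lit 3) (nat_lit 4) (nat_lit 1) (nat_lit 4) (nat_lit 401) (nat_lit 293) (nat_lit 206))) (XT.nd (nat_lit 78) (nat_lit 0) (nat_lit 0) (XT.lf (nat_lit 0) (nat_lit 1012390112270) (nat_lit 152) (nat_lit 287339849293) (nat_lit 0) (nat_lit 1005766211872) (nat_lit 1) (nat_lit 5) (nat_lit 3) (nat_lit 4) (nat_lit 1) (nat_lit 4) (nat_lit 402) (nat_lit 293) (nat_lit 205)) (XT.nd (nat_lit 78) (nat_lit 0) (nat_lit 0) (XT.lf (nat_lit 0) (nat_lit 1100686456973) (nat_lit 152) (nat_lit 294559595973) (nat_lit 0) (nat_lit 1094061994251) (nat_lit 1) (nat_lit 5) (nat_lit 3) (nat_lit 4) (nat_lit 1) (nat_lit 4) (nat_lit 403) (nat_lit 293) (nat_lit 204)) (XT.lf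 (nat_lit 0) (nat_lit 1196045232420) (nat_lit 152) (nat_lit 302359491719) (nat_lit 0) (nat_lit 1189420249026) (nat_lit 1) (nat_lit 5) (nat_lit 3) (nat_lit 4) (nat_lit 1) (nat_lit 4) (nat_lit 404) (nat_lit 293) (nat_lit 203)))))) (XT.nd (nat_lit 312) (nat_lit 0) (nat_lit 0) (XT.nd (nat_lit 156) (nat_lit 0) (nat_lit 0) (XT.nd (nat_lit 78) (nat_lit 0) (nat_lit 0) (XT.lf (nat_lit 0) (nat_lit 1299031527649) (nat_lit 152) (nat_lit 310785758135) (nat_lit 0) (nat_lit 1292406062153) (nat_lit 1) (nat_lit 5) (nat_lit 3) (nat_lit 4) (nat_lit 1) (nat_lit 4) (nat_lit 405) (nat_lit 293) (nat_lit 202)) (XT.lf (nat_lit 0) (nat_lit 1410255631817) (nat_lit 152) (nat_lit 319888328652) (nat_lit 0) (nat_lit 1403629719930) (nat_lit 1) (nat_lit 5) (nat_lit 3) (nat_lit 4) (nat_lit 1) (nat_lit 4) (nat_lit 406) (nat_lit 293) (nat_lit 201))) (XT.nd (nat_lit 78) (nat_lit 0) (nat_lit 0) (XT.lf (nat_lit 0) (nat_lit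 1530376650728) (nat_lit 152) (nat_lit 329721144429) (nat_lit 0) (nat_lit 1523750325516) (nat_lit 1) (nat_lit 5) (nat_lit 3) (nat_lit 4) (nat_lit 1) (nat_lit 4) (nat_lit 407) (nat_lit 293) (nat_lit 200)) (XT.lf (nat_lit 0) (nat_lit 1660106412641) (nat_lit 152) (nat_lit 340342474003) (nat_lit 0) (nat_lit 1653479704720) (nat_lit 1) (nat_lit 5) (nat_lit 3) (nat_lit 4) (nat_lit 1) (nat_lit 4) (nat_lit 408) (nat_lit 293) (nat_lit 199)))) (XT.nd (nat_lit 156) (nat_lit 0) (nat_lit 0) (XT.nd (nat_lit 78) (nat_lit 0) (nat_lit 0) (XT.lf (nat_lit 0) (nat_lit 1800213686516) (nat_lit 152) (nat_lit 351815258586) (nat_lit 0) (nat_lit 1793586624235) (nat_lit 1) (nat_lit 5) (nat_lit 3) (nat_lit 4) (nat_lit 1) (nat_lit 4) (nat_lit 409) (nat_lit 293) (nat_lit 198)) (XT.lf (nat_lit 0) (nat_lit 1951528737679) (nat_lit 152) (nat_lit 364207485051) (nat_lit 0) (nat_lit 1944901347287) (nat_lit 1) (nat_lit 5) (nat_lit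 3) (nat_lit 4) (nat_lit 1) (nat_lit 4) (nat_lit 410) (nat_lit 293) (nat_lit 197))) (XT.nd (nat_lit 78) (nat_lit 0) (nat_lit 0) (XT.lf (nat_lit 0) (nat_lit 2114948247915) (nat_lit 152) (nat_lit 377592588813) (nat_lit 0) (nat_lit 2108320553717) (nat_lit 1) (nat_lit 5) (nat_lit 3) (nat_lit 4) (nat_lit 1) (nat_lit 4) (nat_lit 411) (nat_lit 293) (nat_lit 196)) (XT.nd (nat_lit 78) (nat_lit 0) (nat_lit 0) (XT.lf (nat_lit 0) (nat_lit 2291440629137) (nat_lit 152) (nat_lit 392049889006) (nat_lit 0) (nat_lit 2284812653637) (nat_lit 1) (nat_lit 5) (nat_lit 3) (nat_lit 4) (nat_lit 1) (nat_lit 4) (nat_lit 412) (nat_lit 293) (nat_lit 195)) (XT.lf (nat_lit 0) (nat_lit 2482051762122) (nat_lit 152) (nat_lit 407665058520) (nat_lit 0) (nat_lit 2475423526156) (nat_lit 1) (nat_lit 5) (nat_lit 3) (nat_lit 4) (nat_lit 1) (nat_lit 4) (nat_lit 413) (nat_lit 293) (nat_lit 194))))))))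
noncomputable def xc77 : XT := (XT.nd (nat_lit 40092) (nat_lit 0) (nat_lit 684) (XT.nd (nat_lit 39390) (nat_lit 0) (nat_lit 1748) (XT.nd (nat_lit 39000) (nat_lit 0) (nat_lit 2888) (XT.nd (nat_lit 156) (nat_lit 0) (nat_lit 0) (XT.nd (nat_lit 78) (nat_lit 0) (nat_lit 0) (XT.lf (nat_lit 0) (nat_lit 2687911194325) (nat_lit 152) (nat_lit 424530631692) (nat_lit 0) (nat_lit 2681282717188) (nat_lit 1) (nat_lit 5) (nat_lit 3) (nat_lit 4) (nat_lit 1) (nat_lit 4) (nat_lit 414) (nat_lit 293) (nat_lit 193)) (XT.lf (nat_lit 0) (nat_lit 2910238833492) (nat_lit 152) (nat_lit 442746552661) (nat_lit 0) (nat_lit 2903610133048) (nat_lit 1) (nat_lit 5) (nat_lit 3) (nat_lit 4) (nat_lit 1) (nat_lit 4) (nat_lit 415) (nat_lit 293) (nat_lit 192))) (XT.nd (nat_lit 38766) (nat_lit 0) (nat_lit 3876) (XT.lf (nat_lit 0) (nat_lit 3150352176744) (nat_lit 152) (nat_lit 462420767623) (nat_lit 0) (nat_lit 3143723269535)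 (nat_lit 1) (nat_lit 5) (nat_lit 3) (nat_lit 4) (nat_lit 1) (nat_lit 4) (nat_lit 416) (nat_lit 293) (nat_lit 191)) (XT.lf (nat_lit 0) (nat_lit 2233975893) (nat_lit 380) (nat_lit 762539730) (nat_lit 380) (nat_lit 762539730) (nat_lit 52) (nat_lit 4) (nat_lit 57) (nat_lit 5) (nat_lit 57) (nat_lit 4) (nat_lit 312) (nat_lit 294) (nat_lit 294)))) (XT.nd (nat_lit 156) (nat_lit 456) (nat_lit 0) (XT.nd (nat_lit 78) (nat_lit 228) (nat_lit 0) (XT.lf (nat_lit 0) (nat_lit 2016704531) (nat_lit 304) (nat_lit 5015637190) (nat_lit 0) (nat_lit 680766577) (nat_lit 48) (nat_lit 5) (nat_lit 52) (nat_lit 4) (nat_lit 48) (nat_lit 4) (nat_lit 313) (nat_lit 294) (nat_lit 293)) (XT.lf (nat_lit 0) (nat_lit 803369106) (nat_lit 228) (nat_lit 4849492895) (nat_lit 228) (nat_lit 2276575354) (nat_lit 45) (nat_lit 4) (nat_lit 48) (nat_lit 5) (nat_lit 48) (nat_lit 4) (nat_lit 314) (nat_lit 294) (nat_lit 292))) (XT.nd (nat_lit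 78) (nat_lit 380) (nat_lit 0) (XT.lf (nat_lit 0) (nat_lit 1240201707) (nat_lit 304) (nat_lit 1138649459) (nat_lit 76) (nat_lit 5790277681) (nat_lit 44) (nat_lit 5) (nat_lit 48) (nat_lit 5) (nat_lit 45) (nat_lit 4) (nat_lit 315) (nat_lit 294) (nat_lit 291)) (XT.nd (nat_lit 78) (nat_lit 228) (nat_lit 0) (XT.lf (nat_lit 0) (nat_lit 4823038983) (nat_lit 228) (nat_lit 3209663514) (nat_lit 0) (nat_lit 398243028) (nat_lit 42) (nat_lit 5) (nat_lit 45) (nat_lit 4) (nat_lit 42) (nat_lit 4) (nat_lit 316) (nat_lit 294) (nat_lit 290)) (XT.lf (nat_lit 0) (nat_lit 3236193772) (nat_lit 228) (nat_lit 5407839790) (nat_lit 228) (nat_lit 73826912) (nat_lit 39) (nat_lit 4) (nat_lit 42) (nat_lit 5) (nat_lit 42) (nat_lit 4) (nat_lit 317) (nat_lit 294) (nat_lit 289)))))) (XT.nd (nat_lit 312) (nat_lit 532) (nat_lit 0) (XT.nd (nat_lit 156) (nat_lit 380) (nat_lit 0) (XT.nd (nat_lit 78) (nat_lit 0) (nat_lit 0) (XT.lf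 (nat_lit 0) (nat_lit 1007104677) (nat_lit 152) (nat_lit 2446253532) (nat_lit 228) (nat_lit 5575595544) (nat_lit 36) (nat_lit 5) (nat_lit 38) (nat_lit 5) (nat_lit 39) (nat_lit 4) (nat_lit 318) (nat_lit 294) (nat_lit 288)) (XT.lf (nat_lit 0) (nat_lit 7220441371) (nat_lit 228) (nat_lit 1367353483) (nat_lit 0) (nat_lit 780267884) (nat_lit 36) (nat_lit 5) (nat_lit 39) (nat_lit 4) (nat_lit 36) (nat_lit 4) (nat_lit 319) (nat_lit 294) (nat_lit 287))) (XT.nd (nat_lit 78) (nat_lit 152) (nat_lit 0) (XT.lf (nat_lit 0) (nat_lit 1484058185) (nat_lit 228) (nat_lit 4021634043) (nat_lit 76) (nat_lit 4225225837) (nat_lit 33) (nat_lit 5) (nat_lit 36) (nat_lit 5) (nat_lit 34) (nat_lit 4) (nat_lit 320) (nat_lit 294) (nat_lit 286)) (XT.lf (nat_lit 0) (nat_lit 3112357737) (nat_lit 152) (nat_lit 2099003111) (nat_lit 228) (nat_lit 4913462617) (nat_lit 31) (nat_lit 5) (nat_lit 33) (nat_lit 5) (nat_lit 34) (nat_lit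 4) (nat_lit 321) (nat_lit 294) (nat_lit 285)))) (XT.nd (nat_lit 156) (nat_lit 304) (nat_lit 0) (XT.nd (nat_lit 78) (nat_lit 76) (nat_lit 0) (XT.lf (nat_lit 0) (nat_lit 170490593) (nat_lit 152) (nat_lit 9033952664) (nat_lit 152) (nat_lit 1348551072) (nat_lit 29) (nat_lit 4) (nat_lit 31) (nat_lit 5) (nat_lit 31) (nat_lit 4) (nat_lit 322) (nat_lit 294) (nat_lit 284)) (XT.lf (nat_lit 0) (nat_lit 2442302557) (nat_lit 228) (nat_lit 3096633884) (nat_lit 76) (nat_lit 5466536218) (nat_lit 28) (nat_lit 5) (nat_lit 31) (nat_lit 5) (nat_lit 29) (nat_lit 4) (nat_lit 323) (nat_lit 294) (nat_lit 283))) (XT.nd (nat_lit 78) (nat_lit 228) (nat_lit 0) (XT.lf (nat_lit 0) (nat_lit 4690434860) (nat_lit 76) (nat_lit 1714321337) (nat_lit 152) (nat_lit 5091423340) (nat_lit 27) (nat_lit 5) (nat_lit 28) (nat_lit 5) (nat_lit 29) (nat_lit 4) (nat_lit 324) (nat_lit 294) (nat_lit 282)) (XT.nd (nat_lit 78) (nat_lit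 76) (nat_lit 0) (XT.lf (nat_lit 0) (nat_lit 960019956) (nat_lit 152) (nat_lit 9724141503) (nat_lit 152) (nat_lit 1342103179) (nat_lit 25) (nat_lit 4) (nat_lit 27) (nat_lit 5) (nat_lit 27) (nat_lit 4) (nat_lit 325) (nat_lit 294) (nat_lit 281)) (XT.lf (nat_lit 0) (nat_lit 2640524431) (nat_lit 228) (nat_lit 3250810056) (nat_lit 76) (nat_lit 6696811920) (nat_lit 24) (nat_lit 5) (nat_lit 27) (nat_lit 5) (nat_lit 25) (nat_lit 4) (nat_lit 326) (nat_lit 294) (nat_lit 280))))))) (XT.nd (nat_lit 702) (nat_lit 456) (nat_lit 0) (XT.nd (nat_lit 312) (nat_lit 228) (nat_lit 0) (XT.nd (nat_lit 156) (nat_lit 152) (nat_lit 0) (XT.nd (nat_lit 78) (nat_lit 152) (nat_lit 0) (XT.lf (nat_lit 0) (nat_lit 5147141432) (nat_lit 76) (nat_lit 1691589087) (nat_lit 152) (nat_lit 6355995025) (nat_lit 23) (nat_lit 5) (nat_lit 24) (nat_lit 5) (nat_lit 25) (nat_lit 4) (nat_lit 327) (nat_lit 294) (nat_lit 279)) (XT.lf (nat_lit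 0) (nat_lit 231976873) (nat_lit 152) (nat_lit 11154252909) (nat_lit 152) (nat_lit 2462613103) (nat_lit 21) (nat_lit 4) (nat_lit 23) (nat_lit 5) (nat_lit 23) (nat_lit 4) (nat_lit 328) (nat_lit 294) (nat_lit 278))) (XT.nd (nat_lit 78) (nat_lit 76) (nat_lit 0) (XT.lf (nat_lit 0) (nat_lit 1774106438) (nat_lit 228) (nat_lit 5266890167) (nat_lit 76) (nat_lit 7501493685) (nat_lit 20) (nat_lit 5) (nat_lit 23) (nat_lit 5) (nat_lit 21) (nat_lit 4) (nat_lit 329) (nat_lit 294) (nat_lit 277)) (XT.lf (nat_lit 0) (nat_lit 3618866938) (nat_lit 76) (nat_lit 2545379024) (nat_lit 152) (nat_lit 9126533116) (nat_lit 19) (nat_lit 5) (nat_lit 20) (nat_lit 5) (nat_lit 21) (nat_lit 4) (nat_lit 330) (nat_lit 294) (nat_lit 276)))) (XT.nd (nat_lit 156) (nat_lit 152) (nat_lit 0) (XT.nd (nat_lit 78) (nat_lit 76) (nat_lit 0) (XT.lf (nat_lit 0) (nat_lit 10971283657) (nat_lit 152) (nat_lit 2882927421) (nat_lit 0) (nat_lit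 2239528735) (nat_lit 19) (nat_lit 5) (nat_lit 21) (nat_lit 4) (nat_lit 19) (nat_lit 4) (nat_lit 331) (nat_lit 294) (nat_lit 275)) (XT.lf (nat_lit 0) (nat_lit 6642727948) (nat_lit 76) (nat_lit 9618609055) (nat_lit 76) (nat_lit 691783272) (nat_lit 18) (nat_lit 4) (nat_lit 19) (nat_lit 5) (nat_lit 19) (nat_lit 4) (nat_lit 332) (nat_lit 294) (nat_lit 274))) (XT.nd (nat_lit 78) (nat_lit 76) (nat_lit 0) (XT.lf (nat_lit 0) (nat_lit 3842757956) (nat_lit 152) (nat_lit 1114510401) (nat_lit 76) (nat_lit 12919823457) (nat_lit 17) (nat_lit 5) (nat_lit 19) (nat_lit 5) (nat_lit 18) (nat_lit 4) (nat_lit 333) (nat_lit 294) (nat_lit 273)) (XT.nd (nat_lit 78) (nat_lit 0) (nat_lit 0) (XT.lf (nat_lit 0) (nat_lit 8808254180) (nat_lit 152) (nat_lit 9836311654) (nat_lit 0) (nat_lit 220579390) (nat_lit 16) (nat_lit 5) (nat_lit 18) (nat_lit 4) (nat_lit 16) (nat_lit 4) (nat_lit 334) (nat_lit 294) (nat_lit 272))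 (XT.lf (nat_lit 0) (nat_lit 14214996472) (nat_lit 152) (nat_lit 229830577) (nat_lit 0) (nat_lit 5483938776) (nat_lit 16) (nat_lit 5) (nat_lit 18) (nat_lit 4) (nat_lit 16) (nat_lit 4) (nat_lit 335) (nat_lit 294) (nat_lit 271)))))) (XT.nd (nat_lit 312) (nat_lit 228) (nat_lit 0) (XT.nd (nat_lit 156) (nat_lit 76) (nat_lit 0) (XT.nd (nat_lit 78) (nat_lit 76) (nat_lit 0) (XT.lf (nat_lit 0) (nat_lit 10467399962) (nat_lit 76) (nat_lit 9731195299) (nat_lit 76) (nat_lit 867375652) (nat_lit 15) (nat_lit 4) (nat_lit 16) (nat_lit 5) (nat_lit 16) (nat_lit 4) (nat_lit 336) (nat_lit 294) (nat_lit 270)) (XT.lf (nat_lit 0) (nat_lit 4047806105) (nat_lit 152) (nat_lit 567310679) (nat_lit 76) (nat_lit 17678707054) (nat_lit 14) (nat_lit 5) (nat_lit 16) (nat_lit 5) (nat_lit 15) (nat_lit 4) (nat_lit 337) (nat_lit 294) (nat_lit 269))) (XT.nd (nat_lit 78) (nat_lit 0) (nat_lit 0) (XT.lf (nat_lit 0) (nat_lit 9491912441)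 (nat_lit 152) (nat_lit 13046157129) (nat_lit 0) (nat_lit 1065459337) (nat_lit 13) (nat_lit 5) (nat_lit 15) (nat_lit 4) (nat_lit 13) (nat_lit 4) (nat_lit 338) (nat_lit 294) (nat_lit 268)) (XT.lf (nat_lit 0) (nat_lit 15409203429) (nat_lit 152) (nat_lit 2720657689) (nat_lit 0) (nat_lit 6885166328) (nat_lit 13) (nat_lit 5) (nat_lit 15) (nat_lit 4) (nat_lit 13) (nat_lit 4) (nat_lit 339) (nat_lit 294) (nat_lit 267)))) (XT.nd (nat_lit 156) (nat_lit 76) (nat_lit 0) (XT.nd (nat_lit 78) (nat_lit 76) (nat_lit 0) (XT.lf (nat_lit 0) (nat_lit 8691689620) (nat_lit 76) (nat_lit 13226361208) (nat_lit 76) (nat_lit 4611968554) (nat_lit 12) (nat_lit 4) (nat_lit 13) (nat_lit 5) (nat_lit 13) (nat_lit 4) (nat_lit 340) (nat_lit 294) (nat_lit 266)) (XT.lf (nat_lit 0) (nat_lit 728101189) (nat_lit 152) (nat_lit 7183604728) (nat_lit 76) (nat_lit 20254161259) (nat_lit 11) (nat_lit 5) (nat_lit 13) (nat_lit 5) (nat_lit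 12) (nat_lit 4) (nat_lit 341) (nat_lit 294) (nat_lit 265))) (XT.nd (nat_lit 78) (nat_lit 0) (nat_lit 0) (XT.lf (nat_lit 0) (nat_lit 4255109868) (nat_lit 76) (nat_lit 2009616282) (nat_lit 152) (nat_lit 23656813796) (nat_lit 10) (nat_lit 5) (nat_lit 11) (nat_lit 5) (nat_lit 12) (nat_lit 4) (nat_lit 342) (nat_lit 294) (nat_lit 264)) (XT.nd (nat_lit 78) (nat_lit 0) (nat_lit 0) (XT.lf (nat_lit 0) (nat_lit 12467542219) (nat_lit 152) (nat_lit 15056637321) (nat_lit 0) (nat_lit 4275646223) (nat_lit 10) (nat_lit 5) (nat_lit 12) (nat_lit 4) (nat_lit 10) (nat_lit 4) (nat_lit 343) (nat_lit 294) (nat_lit 263)) (XT.lf (nat_lit 0) (nat_lit 19141723337) (nat_lit 152) (nat_lit 3800325680) (nat_lit 0) (nat_lit 10888332870) (nat_lit 10) (nat_lit 5) (nat_lit 12) (nat_lit 4) (nat_lit 10) (nat_lit 4) (nat_lit 344) (nat_lit 294) (nat_lit 262))))))))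
noncomputable def xc78 : XT := (XT.nd (nat_lit 1404) (nat_lit 152) (nat_lit 0) (XT.nd (nat_lit 702) (nat_lit 228) (nat_lit 0) (XT.nd (nat_lit 312) (nat_lit 76) (nat_lit 0) (XT.nd (nat_lit 156) (nat_lit 152) (nat_lit 0) (XT.nd (nat_lit 78) (nat_lit 0) (nat_lit 0) (XT.lf (nat_lit 0) (nat_lit 8650261337) (nat_lit 76) (nat_lit 17836266544) (nat_lit 76) (nat_lit 9525936752) (nat_lit 9) (nat_lit 4) (nat_lit 10) (nat_lit 5) (nat_lit 10) (nat_lit 4) (nat_lit 345) (nat_lit 294) (nat_lit 261)) (XT.lf (nat_lit 0) (nat_lit 22177590284) (nat_lit 76) (nat_lit 12275912111) (nat_lit 76) (nat_lit 3912860722) (nat_lit 9) (nat_lit 4) (nat_lit 10) (nat_lit 5) (nat_lit 10) (nat_lit 4) (nat_lit 346) (nat_lit 294) (nat_lit 260))) (XT.nd (nat_lit 78) (nat_lit 76) (nat_lit 0) (XT.lf (nat_lit 0) (nat_lit 1975878322) (nat_lit 152) (nat_lit 4302040770) (nat_lit 76) (nat_lit 34631802357) (nat_lit 8) (nat_lit 5) (nat_lit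 10) (nat_lit 5) (nat_lit 9) (nat_lit 4) (nat_lit 347) (nat_lit 294) (nat_lit 259)) (XT.lf (nat_lit 0) (nat_lit 8285340911) (nat_lit 152) (nat_lit 34895485517) (nat_lit 0) (nat_lit 454722435) (nat_lit 7) (nat_lit 5) (nat_lit 9) (nat_lit 4) (nat_lit 7) (nat_lit 4) (nat_lit 348) (nat_lit 294) (nat_lit 258)))) (XT.nd (nat_lit 156) (nat_lit 76) (nat_lit 0) (XT.nd (nat_lit 78) (nat_lit 0) (nat_lit 0) (XT.lf (nat_lit 0) (nat_lit 15322663167) (nat_lit 152) (nat_lit 23785650082) (nat_lit 0) (nat_lit 7453292743) (nat_lit 7) (nat_lit 5) (nat_lit 9) (nat_lit 4) (nat_lit 7) (nat_lit 4) (nat_lit 349) (nat_lit 294) (nat_lit 257)) (XT.lf (nat_lit 0) (nat_lit 22866822317) (nat_lit 152) (nat_lit 11897857693) (nat_lit 0) (nat_lit 14961570460) (nat_lit 7) (nat_lit 5) (nat_lit 9) (nat_lit 4) (nat_lit 7) (nat_lit 4) (nat_lit 350) (nat_lit 294) (nat_lit 256))) (XT.nd (nat_lit 78) (nat_lit 0) (nat_lit 0) (XT.lf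 (nat_lit 0) (nat_lit 882483211) (nat_lit 76) (nat_lit 30101265020) (nat_lit 76) (nat_lit 22162789613) (nat_lit 6) (nat_lit 4) (nat_lit 7) (nat_lit 5) (nat_lit 7) (nat_lit 4) (nat_lit 351) (nat_lit 294) (nat_lit 255)) (XT.nd (nat_lit 78) (nat_lit 0) (nat_lit 0) (XT.lf (nat_lit 0) (nat_lit 15261870819) (nat_lit 76) (nat_lit 24762921755) (nat_lit 76) (nat_lit 16793683803) (nat_lit 6) (nat_lit 4) (nat_lit 7) (nat_lit 5) (nat_lit 7) (nat_lit 4) (nat_lit 352) (nat_lit 294) (nat_lit 254)) (XT.lf (nat_lit 0) (nat_lit 30698996214) (nat_lit 76) (nat_lit 19043324104) (nat_lit 76) (nat_lit 11045602313) (nat_lit 6) (nat_lit 4) (nat_lit 7) (nat_lit 5) (nat_lit 7) (nat_lit 4) (nat_lit 353) (nat_lit 294) (nat_lit 253)))))) (XT.nd (nat_lit 312) (nat_lit 76) (nat_lit 0) (XT.nd (nat_lit 156) (nat_lit 76) (nat_lit 0) (XT.nd (nat_lit 78) (nat_lit 76) (nat_lit 0) (XT.lf (nat_lit 0) (nat_lit 47285338659) (nat_lit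 76) (nat_lit 12908578154) (nat_lit 76) (nat_lit 4884482439) (nat_lit 6) (nat_lit 4) (nat_lit 7) (nat_lit 5) (nat_lit 7) (nat_lit 4) (nat_lit 354) (nat_lit 294) (nat_lit 252)) (XT.lf (nat_lit 0) (nat_lit 1639835337) (nat_lit 152) (nat_lit 4637658512) (nat_lit 76) (nat_lit 63434516248) (nat_lit 5) (nat_lit 5) (nat_lit 7) (nat_lit 5) (nat_lit 6) (nat_lit 4) (nat_lit 355) (nat_lit 294) (nat_lit 251))) (XT.nd (nat_lit 78) (nat_lit 0) (nat_lit 0) (XT.lf (nat_lit 0) (nat_lit 8651063124) (nat_lit 152) (nat_lit 64858998166) (nat_lit 0) (nat_lit 1177797008) (nat_lit 4) (nat_lit 5) (nat_lit 6) (nat_lit 4) (nat_lit 4) (nat_lit 4) (nat_lit 356) (nat_lit 294) (nat_lit 250)) (XT.lf (nat_lit 0) (nat_lit 16478387608) (nat_lit 152) (nat_lit 54577240868) (nat_lit 0) (nat_lit 8985735871) (nat_lit 4) (nat_lit 5) (nat_lit 6) (nat_lit 4) (nat_lit 4) (nat_lit 4) (nat_lit 357) (nat_lit 294) (nat_lit 249)))) (XT.nd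 (nat_lit 156) (nat_lit 76) (nat_lit 0) (XT.nd (nat_lit 78) (nat_lit 0) (nat_lit 0) (XT.lf (nat_lit 0) (nat_lit 24896760395) (nat_lit 152) (nat_lit 43543047925) (nat_lit 0) (nat_lit 17386159008) (nat_lit 4) (nat_lit 5) (nat_lit 6) (nat_lit 4) (nat_lit 4) (nat_lit 4) (nat_lit 358) (nat_lit 294) (nat_lit 248)) (XT.lf (nat_lit 0) (nat_lit 33956068139) (nat_lit 152) (nat_lit 31691031528) (nat_lit 0) (nat_lit 26428846706) (nat_lit 4) (nat_lit 5) (nat_lit 6) (nat_lit 4) (nat_lit 4) (nat_lit 4) (nat_lit 359) (nat_lit 294) (nat_lit 247))) (XT.nd (nat_lit 78) (nat_lit 76) (nat_lit 0) (XT.lf (nat_lit 0) (nat_lit 43709995625) (nat_lit 152) (nat_lit 18950957505) (nat_lit 0) (nat_lit 36167385260) (nat_lit 4) (nat_lit 5) (nat_lit 6) (nat_lit 4) (nat_lit 4) (nat_lit 4) (nat_lit 360) (nat_lit 294) (nat_lit 246)) (XT.nd (nat_lit 78) (nat_lit 76) (nat_lit 0) (XT.lf (nat_lit 0) (nat_lit 54216343905) (nat_lit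 152) (nat_lit 5247329121) (nat_lit 0) (nat_lit 46659484530) (nat_lit 4) (nat_lit 5) (nat_lit 6) (nat_lit 4) (nat_lit 4) (nat_lit 4) (nat_lit 361) (nat_lit 294) (nat_lit 245)) (XT.lf (nat_lit 0) (nat_lit 10001369307) (nat_lit 76) (nat_lit 55776536687) (nat_lit 76) (nat_lit 48206483783) (nat_lit 3) (nat_lit 4) (nat_lit 4) (nat_lit 5) (nat_lit 4) (nat_lit 4) (nat_lit 362) (nat_lit 294) (nat_lit 244))))))) (XT.nd (nat_lit 702) (nat_lit 76) (nat_lit 0) (XT.nd (nat_lit 312) (nat_lit 76) (nat_lit 0) (XT.nd (nat_lit 156) (nat_lit 0) (nat_lit 0) (XT.nd (nat_lit 78) (nat_lit 0) (nat_lit 0) (XT.lf (nat_lit 0) (nat_lit 26718159182) (nat_lit 76) (nat_lit 51664583142) (nat_lit 76) (nat_lit 44082314008) (nat_lit 3) (nat_lit 4) (nat_lit 4) (nat_lit 5) (nat_lit 4) (nat_lit 4) (nat_lit 363) (nat_lit 294) (nat_lit 243)) (XT.lf (nat_lit 0) (nat_lit 44725787908) (nat_lit 76) (nat_lit 47246916539) (nat_lit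 76) (nat_lit 39653336081) (nat_lit 3) (nat_lit 4) (nat_lit 4) (nat_lit 5) (nat_lit 4) (nat_lit 4) (nat_lit 364) (nat_lit 294) (nat_lit 242))) (XT.nd (nat_lit 78) (nat_lit 0) (nat_lit 0) (XT.lf (nat_lit 0) (nat_lit 64130967359) (nat_lit 76) (nat_lit 42497358112) (nat_lit 76) (nat_lit 34893304205) (nat_lit 3) (nat_lit 4) (nat_lit 4) (nat_lit 5) (nat_lit 4) (nat_lit 4) (nat_lit 365) (nat_lit 294) (nat_lit 241)) (XT.lf (nat_lit 0) (nat_lit 85048691191) (nat_lit 76) (nat_lit 37387762329) (nat_lit 76) (nat_lit 29774010785) (nat_lit 3) (nat_lit 4) (nat_lit 4) (nat_lit 5) (nat_lit 4) (nat_lit 4) (nat_lit 366) (nat_lit 294) (nat_lit 240)))) (XT.nd (nat_lit 156) (nat_lit 76) (nat_lit 0) (XT.nd (nat_lit 78) (nat_lit 0) (nat_lit 0) (XT.lf (nat_lit 0) (nat_lit 107602916286) (nat_lit 76) (nat_lit 31887850105) (nat_lit 76) (nat_lit 24265119267) (nat_lit 3) (nat_lit 4) (nat_lit 4) (nat_lit 5) (nat_lit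 4) (nat_lit 4) (nat_lit 367) (nat_lit 294) (nat_lit 239)) (XT.lf (nat_lit 0) (nat_lit 131927297311) (nat_lit 76) (nat_lit 25965029367) (nat_lit 76) (nat_lit 18333984368) (nat_lit 3) (nat_lit 4) (nat_lit 4) (nat_lit 5) (nat_lit 4) (nat_lit 4) (nat_lit 368) (nat_lit 294) (nat_lit 238))) (XT.nd (nat_lit 78) (nat_lit 76) (nat_lit 0) (XT.lf (nat_lit 0) (nat_lit 158165978747) (nat_lit 76) (nat_lit 19584201918) (nat_lit 76) (nat_lit 11945458622) (nat_lit 3) (nat_lit 4) (nat_lit 4) (nat_lit 5) (nat_lit 4) (nat_lit 4) (nat_lit 369) (nat_lit 294) (nat_lit 237)) (XT.nd (nat_lit 78) (nat_lit 76) (nat_lit 0) (XT.lf (nat_lit 0) (nat_lit 186474449076) (nat_lit 76) (nat_lit 12707555447) (nat_lit 76) (nat_lit 5061684099) (nat_lit 3) (nat_lit 4) (nat_lit 4) (nat_lit 5) (nat_lit 4) (nat_lit 4) (nat_lit 370) (nat_lit 294) (nat_lit 236)) (XT.lf (nat_lit 0) (nat_lit 2240168629) (nat_lit 152) (nat_lit 2992920648)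 (nat_lit 76) (nat_lit 214719043386) (nat_lit 2) (nat_lit 5) (nat_lit 4) (nat_lit 5) (nat_lit 3) (nat_lit 4) (nat_lit 371) (nat_lit 294) (nat_lit 235)))))) (XT.nd (nat_lit 312) (nat_lit 0) (nat_lit 0) (XT.nd (nat_lit 156) (nat_lit 0) (nat_lit 0) (XT.nd (nat_lit 78) (nat_lit 0) (nat_lit 0) (XT.lf (nat_lit 0) (nat_lit 10243883347) (nat_lit 152) (nat_lit 223478955510) (nat_lit 0) (nat_lit 3152603204) (nat_lit 1) (nat_lit 5) (nat_lit 3) (nat_lit 4) (nat_lit 1) (nat_lit 4) (nat_lit 372) (nat_lit 294) (nat_lit 234)) (XT.lf (nat_lit 0) (nat_lit 19094928558) (nat_lit 152) (nat_lit 224042717490) (nat_lit 0) (nat_lit 11998409084) (nat_lit 1) (nat_lit 5) (nat_lit 3) (nat_lit 4) (nat_lit 1) (nat_lit 4) (nat_lit 373) (nat_lit 294) (nat_lit 233))) (XT.nd (nat_lit 78) (nat_lit 0) (nat_lit 0) (XT.lf (nat_lit 0) (nat_lit 28642160780) (nat_lit 152) (nat_lit 224675519595) (nat_lit 0) (nat_lit 21540790072)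 (nat_lit 1) (nat_lit 5) (nat_lit 3) (nat_lit 4) (nat_lit 1) (nat_lit 4) (nat_lit 374) (nat_lit 294) (nat_lit 232)) (XT.lf (nat_lit 0) (nat_lit 38942156202) (nat_lit 152) (nat_lit 225381111763) (nat_lit 0) (nat_lit 31836293612) (nat_lit 1) (nat_lit 5) (nat_lit 3) (nat_lit 4) (nat_lit 1) (nat_lit 4) (nat_lit 375) (nat_lit 294) (nat_lit 231)))) (XT.nd (nat_lit 156) (nat_lit 0) (nat_lit 0) (XT.nd (nat_lit 78) (nat_lit 0) (nat_lit 0) (XT.lf (nat_lit 0) (nat_lit 50055951835) (nat_lit 152) (nat_lit 226163675282) (nat_lit 0) (nat_lit 42945930095) (nat_lit 1) (nat_lit 5) (nat_lit 3) (nat_lit 4) (nat_lit 1) (nat_lit 4) (nat_lit 376) (nat_lit 294) (nat_lit 230)) (XT.lf (nat_lit 0) (nat_lit 62049407209) (nat_lit 152) (nat_lit 227027847564) (nat_lit 0) (nat_lit 54935534403) (nat_lit 1) (nat_lit 5) (nat_lit 3) (nat_lit 4) (nat_lit 1) (nat_lit 4) (nat_lit 377) (nat_lit 294) (nat_lit 229))) (XT.nd (nat_lit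 78) (nat_lit 0) (nat_lit 0) (XT.lf (nat_lit 0) (nat_lit 74993594651) (nat_lit 152) (nat_lit 227978749631) (nat_lit 0) (nat_lit 67876156044) (nat_lit 1) (nat_lit 5) (nat_lit 3) (nat_lit 4) (nat_lit 1) (nat_lit 4) (nat_lit 378) (nat_lit 294) (nat_lit 228)) (XT.nd (nat_lit 78) (nat_lit 0) (nat_lit 0) (XT.lf (nat_lit 0) (nat_lit 88965220458) (nat_lit 152) (nat_lit 229022016458) (nat_lit 0) (nat_lit 81844480183) (nat_lit 1) (nat_lit 5) (nat_lit 3) (nat_lit 4) (nat_lit 1) (nat_lit 4) (nat_lit 379) (nat_lit 294) (nat_lit 227)) (XT.lf (nat_lit 0) (nat_lit 104047079449) (nat_lit 152) (nat_lit 230163830367) (nat_lit 0) (nat_lit 96923282074) (nat_lit 1) (nat_lit 5) (nat_lit 3) (nat_lit 4) (nat_lit 1) (nat_lit 4) (nat_lit 380) (nat_lit 294) (nat_lit 226))))))))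
noncomputable def xc79 : XT := (XT.nd (nat_lit 1404) (nat_lit 0) (nat_lit 0) (XT.nd (nat_lit 702) (nat_lit 0) (nat_lit 0) (XT.nd (nat_lit 312) (nat_lit 0) (nat_lit 0) (XT.nd (nat_lit 156) (nat_lit 0) (nat_lit 0) (XT.nd (nat_lit 78) (nat_lit 0) (nat_lit 0) (XT.lf (nat_lit 0) (nat_lit 120328545603) (nat_lit 152) (nat_lit 231410957662) (nat_lit 0) (nat_lit 113201917581) (nat_lit 1) (nat_lit 5) (nat_lit 3) (nat_lit 4) (nat_lit 1) (nat_lit 4) (nat_lit 381) (nat_lit 294) (nat_lit 225)) (XT.lf (nat_lit 0) (nat_lit 137906101683) (nat_lit 152) (nat_lit 232770788727) (nat_lit 0) (nat_lit 130776852691) (nat_lit 1) (nat_lit 5) (nat_lit 3) (nat_lit 4) (nat_lit 1) (nat_lit 4) (nat_lit 382) (nat_lit 294) (nat_lit 224))) (XT.nd (nat_lit 78) (nat_lit 0) (nat_lit 0) (XT.lf (nat_lit 0) (nat_lit 156883910984) (nat_lit 152) (nat_lit 234251381821) (nat_lit 0) (nat_lit 149752235168) (nat_lit 1) (nat_lit 5)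 (nat_lit 3) (nat_lit 4) (nat_lit 1) (nat_lit 4) (nat_lit 383) (nat_lit 294) (nat_lit 223)) (XT.lf (nat_lit 0) (nat_lit 177374434599) (nat_lit 152) (nat_lit 235861510828) (nat_lit 0) (nat_lit 170240511723) (nat_lit 1) (nat_lit 5) (nat_lit 3) (nat_lit 4) (nat_lit 1) (nat_lit 4) (nat_lit 384) (nat_lit 294) (nat_lit 222)))) (XT.nd (nat_lit 156) (nat_lit 0) (nat_lit 0) (XT.nd (nat_lit 78) (nat_lit 0) (nat_lit 0) (XT.lf (nat_lit 0) (nat_lit 199499097852) (nat_lit 152) (nat_lit 237610717254) (nat_lit 0) (nat_lit 192363094365) (nat_lit 1) (nat_lit 5) (nat_lit 3) (nat_lit 4) (nat_lit 1) (nat_lit 4) (nat_lit 385) (nat_lit 294) (nat_lit 221)) (XT.lf (nat_lit 0) (nat_lit 223389009859) (nat_lit 152) (nat_lit 239509366767) (nat_lit 0) (nat_lit 216251079880) (nat_lit 1) (nat_lit 5) (nat_lit 3) (nat_lit 4) (nat_lit 1) (nat_lit 4) (nat_lit 386) (nat_lit 294) (nat_lit 220))) (XT.nd (nat_lit 78) (nat_lit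 0) (nat_lit 0) (XT.lf (nat_lit 0) (nat_lit 249185740468) (nat_lit 152) (nat_lit 241568710622) (nat_lit 0) (nat_lit 242046026702) (nat_lit 1) (nat_lit 5) (nat_lit 3) (nat_lit 4) (nat_lit 1) (nat_lit 4) (nat_lit 387) (nat_lit 294) (nat_lit 219)) (XT.nd (nat_lit 78) (nat_lit 0) (nat_lit 0) (XT.lf (nat_lit 0) (nat_lit 277042159195) (nat_lit 152) (nat_lit 243800952339) (nat_lit 0) (nat_lit 269900793773) (nat_lit 1) (nat_lit 5) (nat_lit 3) (nat_lit 4) (nat_lit 1) (nat_lit 4) (nat_lit 388) (nat_lit 294) (nat_lit 218)) (XT.lf (nat_lit 0) (nat_lit 307123341114) (nat_lit 152) (nat_lit 246219320018) (nat_lit 0) (nat_lit 299980446381) (nat_lit 1) (nat_lit 5) (nat_lit 3) (nat_lit 4) (nat_lit 1) (nat_lit 4) (nat_lit 389) (nat_lit 294) (nat_lit 217)))))) (XT.nd (nat_lit 312) (nat_lit 0) (nat_lit 0) (XT.nd (nat_lit 156) (nat_lit 0) (nat_lit 0) (XT.nd (nat_lit 78) (nat_lit 0) (nat_lit 0) (XT.lf (nat_lit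 0) (nat_lit 339607545080) (nat_lit 152) (nat_lit 248838144725) (nat_lit 0) (nat_lit 332463234318) (nat_lit 1) (nat_lit 5) (nat_lit 3) (nat_lit 4) (nat_lit 1) (nat_lit 4) (nat_lit 390) (nat_lit 294) (nat_lit 216)) (XT.lf (nat_lit 0) (nat_lit 374687270080) (nat_lit 152) (nat_lit 251672945422) (nat_lit 0) (nat_lit 367541648181) (nat_lit 1) (nat_lit 5) (nat_lit 3) (nat_lit 4) (nat_lit 1) (nat_lit 4) (nat_lit 391) (nat_lit 294) (nat_lit 215))) (XT.nd (nat_lit 78) (nat_lit 0) (nat_lit 0) (XT.lf (nat_lit 0) (nat_lit 412570395966) (nat_lit 152) (nat_lit 254740520928) (nat_lit 0) (nat_lit 405423560050) (nat_lit 1) (nat_lit 5) (nat_lit 3) (nat_lit 4) (nat_lit 1) (nat_lit 4) (nat_lit 392) (nat_lit 294) (nat_lit 214)) (XT.lf (nat_lit 0) (nat_lit 453481415335) (nat_lit 152) (nat_lit 258059049468) (nat_lit 0) (nat_lit 446333455330) (nat_lit 1) (nat_lit 5) (nat_lit 3) (nat_lit 4) (nat_lit 1) (nat_lit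 4) (nat_lit 393) (nat_lit 294) (nat_lit 213)))) (XT.nd (nat_lit 156) (nat_lit 0) (nat_lit 0) (XT.nd (nat_lit 78) (nat_lit 0) (nat_lit 0) (XT.lf (nat_lit 0) (nat_lit 497662763858) (nat_lit 152) (nat_lit 261648196397) (nat_lit 0) (nat_lit 490513763029) (nat_lit 1) (nat_lit 5) (nat_lit 3) (nat_lit 4) (nat_lit 1) (nat_lit 4) (nat_lit 394) (nat_lit 294) (nat_lit 212)) (XT.lf (nat_lit 0) (nat_lit 545376256934) (nat_lit 152) (nat_lit 265529230733) (nat_lit 0) (nat_lit 538226292380) (nat_lit 1) (nat_lit 5) (nat_lit 3) (nat_lit 4) (nat_lit 1) (nat_lit 4) (nat_lit 395) (nat_lit 294) (nat_lit 211))) (XT.nd (nat_lit 78) (nat_lit 0) (nat_lit 0) (XT.lf (nat_lit 0) (nat_lit 596904641187) (nat_lit 152) (nat_lit 269725151198) (nat_lit 0) (nat_lit 589753784295) (nat_lit 1) (nat_lit 5) (nat_lit 3) (nat_lit 4) (nat_lit 1) (nat_lit 4) (nat_lit 396) (nat_lit 294) (nat_lit 210)) (XT.nd (nat_lit 78) (nat_lit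 0) (nat_lit 0) (XT.lf (nat_lit 0) (nat_lit 652553270007) (nat_lit 152) (nat_lit 274260822507) (nat_lit 0) (nat_lit 645401586876) (nat_lit 1) (nat_lit 5) (nat_lit 3) (nat_lit 4) (nat_lit 1) (nat_lit 4) (nat_lit 397) (nat_lit 294) (nat_lit 209)) (XT.lf (nat_lit 0) (nat_lit 712651913045) (nat_lit 152) (nat_lit 279163122711) (nat_lit 0) (nat_lit 705499464878) (nat_lit 1) (nat_lit 5) (nat_lit 3) (nat_lit 4) (nat_lit 1) (nat_lit 4) (nat_lit 398) (nat_lit 294) (nat_lit 208))))))) (XT.nd (nat_lit 702) (nat_lit 0) (nat_lit 0) (XT.nd (nat_lit 312) (nat_lit 0) (nat_lit 0) (XT.nd (nat_lit 156) (nat_lit 0) (nat_lit 0) (XT.nd (nat_lit 78) (nat_lit 0) (nat_lit 0) (XT.lf (nat_lit 0) (nat_lit 777556710409) (nat_lit 152) (nat_lit 284461102478) (nat_lit 0) (nat_lit 770403553875) (nat_lit 1) (nat_lit 5) (nat_lit 3) (nat_lit 4) (nat_lit 1) (nat_lit 4) (nat_lit 399) (nat_lit 294) (nat_lit 207)) (XT.lf (nat_lit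 0) (nat_lit 847652283120) (nat_lit 152) (nat_lit 290186157244) (nat_lit 0) (nat_lit 840498470690) (nat_lit 1) (nat_lit 5) (nat_lit 3) (nat_lit 4) (nat_lit 1) (nat_lit 4) (nat_lit 400) (nat_lit 294) (nat_lit 206))) (XT.nd (nat_lit 78) (nat_lit 0) (nat_lit 0) (XT.lf (nat_lit 0) (nat_lit 923354012349) (nat_lit 152) (nat_lit 296372213259) (nat_lit 0) (nat_lit 916199592609) (nat_lit 1) (nat_lit 5) (nat_lit 3) (nat_lit 4) (nat_lit 1) (nat_lit 4) (nat_lit 401) (nat_lit 294) (nat_lit 205)) (XT.lf (nat_lit 0) (nat_lit 1005110500937) (nat_lit 152) (nat_lit 303055928634) (nat_lit 0) (nat_lit 997955518872) (nat_lit 1) (nat_lit 5) (nat_lit 3) (nat_lit 4) (nat_lit 1) (nat_lit 4) (nat_lit 402) (nat_lit 294) (nat_lit 204)))) (XT.nd (nat_lit 156) (nat_lit 0) (nat_lit 0) (XT.nd (nat_lit 78) (nat_lit 0) (nat_lit 0) (XT.lf (nat_lit 0) (nat_lit 1093406231778) (nat_lit 152) (nat_lit 310276910570) (nat_lit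 0) (nat_lit 1086250729043) (nat_lit 1) (nat_lit 5) (nat_lit 3) (nat_lit 4) (nat_lit 1) (nat_lit 4) (nat_lit 403) (nat_lit 294) (nat_lit 203)) (XT.lf (nat_lit 0) (nat_lit 1188764438834) (nat_lit 152) (nat_lit 318077950071) (nat_lit 0) (nat_lit 1181608453996) (nat_lit 1) (nat_lit 5) (nat_lit 3) (nat_lit 4) (nat_lit 1) (nat_lit 4) (nat_lit 404) (nat_lit 294) (nat_lit 202))) (XT.nd (nat_lit 78) (nat_lit 0) (nat_lit 0) (XT.lf (nat_lit 0) (nat_lit 1291750207775) (nat_lit 152) (nat_lit 326505275520) (nat_lit 0) (nat_lit 1284593776546) (nat_lit 1) (nat_lit 5) (nat_lit 3) (nat_lit 4) (nat_lit 1) (nat_lit 4) (nat_lit 405) (nat_lit 294) (nat_lit 201)) (XT.nd (nat_lit 78) (nat_lit 0) (nat_lit 0) (XT.lf (nat_lit 0) (nat_lit 1402973824640) (nat_lit 152) (nat_lit 335608826622) (nat_lit 0) (nat_lit 1395816980085) (nat_lit 1) (nat_lit 5) (nat_lit 3) (nat_lit 4) (nat_lit 1) (nat_lit 4) (nat_lit 406) (nat_lit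 294) (nat_lit 200)) (XT.lf (nat_lit 0) (nat_lit 1523094392344) (nat_lit 152) (nat_lit 345442550348) (nat_lit 0) (nat_lit 1515937165080) (nat_lit 1) (nat_lit 5) (nat_lit 3) (nat_lit 4) (nat_lit 1) (nat_lit 4) (nat_lit 407) (nat_lit 294) (nat_lit 199)))))) (XT.nd (nat_lit 390) (nat_lit 0) (nat_lit 0) (XT.nd (nat_lit 156) (nat_lit 0) (nat_lit 0) (XT.nd (nat_lit 78) (nat_lit 0) (nat_lit 0) (XT.lf (nat_lit 0) (nat_lit 1652823736472) (nat_lit 152) (nat_lit 356064720616) (nat_lit 0) (nat_lit 1645666154849) (nat_lit 1) (nat_lit 5) (nat_lit 3) (nat_lit 4) (nat_lit 1) (nat_lit 4) (nat_lit 408) (nat_lit 294) (nat_lit 198)) (XT.lf (nat_lit 0) (nat_lit 1792930623510) (nat_lit 152) (nat_lit 367538283621) (nat_lit 0) (nat_lit 1785772713776) (nat_lit 1) (nat_lit 5) (nat_lit 3) (nat_lit 4) (nat_lit 1) (nat_lit 4) (nat_lit 409) (nat_lit 294) (nat_lit 197))) (XT.nd (nat_lit 78) (nat_lit 0) (nat_lit 0) (XT.lf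 (nat_lit 0) (nat_lit 1944245316490) (nat_lit 152) (nat_lit 379931230845) (nat_lit 0) (nat_lit 1937087102950) (nat_lit 1) (nat_lit 5) (nat_lit 3) (nat_lit 4) (nat_lit 1) (nat_lit 4) (nat_lit 410) (nat_lit 294) (nat_lit 196)) (XT.nd (nat_lit 78) (nat_lit 0) (nat_lit 0) (XT.lf (nat_lit 0) (nat_lit 2107664495076) (nat_lit 152) (nat_lit 393317001977) (nat_lit 0) (nat_lit 2100506000233) (nat_lit 1) (nat_lit 5) (nat_lit 3) (nat_lit 4) (nat_lit 1) (nat_lit 4) (nat_lit 411) (nat_lit 294) (nat_lit 195)) (XT.lf (nat_lit 0) (nat_lit 2284156569214) (nat_lit 152) (nat_lit 407774920105) (nat_lit 0) (nat_lit 2276997813906) (nat_lit 1) (nat_lit 5) (nat_lit 3) (nat_lit 4) (nat_lit 1) (nat_lit 4) (nat_lit 412) (nat_lit 294) (nat_lit 194))))) (XT.nd (nat_lit 156) (nat_lit 0) (nat_lit 0) (XT.nd (nat_lit 78) (nat_lit 0) (nat_lit 0) (XT.lf (nat_lit 0) (nat_lit 2474767417862) (nat_lit 152) (nat_lit 423390661781)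 (nat_lit 0) (nat_lit 2467608421383) (nat_lit 1) (nat_lit 5) (nat_lit 3) (nat_lit 4) (nat_lit 1) (nat_lit 4) (nat_lit 413) (nat_lit 294) (nat_lit 193)) (XT.lf (nat_lit 0) (nat_lit 2680626586790) (nat_lit 152) (nat_lit 440256764734) (nat_lit 0) (nat_lit 2673467367004) (nat_lit 1) (nat_lit 5) (nat_lit 3) (nat_lit 4) (nat_lit 1) (nat_lit 4) (nat_lit 414) (nat_lit 294) (nat_lit 192))) (XT.nd (nat_lit 78) (nat_lit 0) (nat_lit 0) (XT.lf (nat_lit 0) (nat_lit 2902953982184) (nat_lit 152) (nat_lit 458473176239) (nat_lit 0) (nat_lit 2895794555632) (nat_lit 1) (nat_lit 5) (nat_lit 3) (nat_lit 4) (nat_lit 1) (nat_lit 4) (nat_lit 415) (nat_lit 294) (nat_lit 191)) (XT.nd (nat_lit 38610) (nat_lit 0) (nat_lit 4256) (XT.lf (nat_lit 0) (nat_lit 3143067099720) (nat_lit 152) (nat_lit 478147845403) (nat_lit 0) (nat_lit 3135907481719) (nat_lit 1) (nat_lit 5) (nat_lit 3) (nat_lit 4) (nat_lit 1) (nat_lit 4) (nat_lit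 416) (nat_lit 294) (nat_lit 190)) (XT.lf (nat_lit 0) (nat_lit 208772867) (nat_lit 532) (nat_lit 3175432000) (nat_lit 0) (nat_lit 208772867) (nat_lit 57) (nat_lit 5) (nat_lit 64) (nat_lit 4) (nat_lit 57) (nat_lit 4) (nat_lit 310) (nat_lit 295) (nat_lit 295))))))))
noncomputable def xc80 : XT := (XT.nd (nat_lit 1404) (nat_lit 1064) (nat_lit 0) (XT.nd (nat_lit 702) (nat_lit 988) (nat_lit 0) (XT.nd (nat_lit 312) (nat_lit 684) (nat_lit 0) (XT.nd (nat_lit 156) (nat_lit 532) (nat_lit 0) (XT.nd (nat_lit 78) (nat_lit 380) (nat_lit 0) (XT.lf (nat_lit 0) (nat_lit 3857505402) (nat_lit 532) (nat_lit 1187940842) (nat_lit 0) (nat_lit 2299267372) (nat_lit 57) (nat_lit 5) (nat_lit 64) (nat_lit 4) (nat_lit 57) (nat_lit 4) (nat_lit 311) (nat_lit 295) (nat_lit 294)) (XT.lf (nat_lit 0) (nat_lit 4328017030) (nat_lit 380) (nat_lit 3100584115) (nat_lit 380) (nat_lit 99533095) (nat_lit 52) (nat_lit 4) (nat_lit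 57) (nat_lit 5) (nat_lit 57) (nat_lit 4) (nat_lit 312) (nat_lit 295) (nat_lit 293))) (XT.nd (nat_lit 78) (nat_lit 228) (nat_lit 0) (XT.lf (nat_lit 0) (nat_lit 2379088440) (nat_lit 228) (nat_lit 849794932) (nat_lit 304) (nat_lit 4503050288) (nat_lit 48) (nat_lit 5) (nat_lit 51) (nat_lit 5) (nat_lit 52) (nat_lit 4) (nat_lit 313) (nat_lit 295) (nat_lit 292)) (XT.lf (nat_lit 0) (nat_lit 321480143) (nat_lit 228) (nat_lit 6399767404) (nat_lit 228) (nat_lit 1238685403) (nat_lit 45) (nat_lit 4) (nat_lit 48) (nat_lit 5) (nat_lit 48) (nat_lit 4) (nat_lit 314) (nat_lit 295) (nat_lit 291)))) (XT.nd (nat_lit 156) (nat_lit 456) (nat_lit 0) (XT.nd (nat_lit 78) (nat_lit 152) (nat_lit 0) (XT.lf (nat_lit 0) (nat_lit 2116458890) (nat_lit 304) (nat_lit 1819358128) (nat_lit 76) (nat_lit 4270730563) (nat_lit 44) (nat_lit 5) (nat_lit 48) (nat_lit 5) (nat_lit 45) (nat_lit 4) (nat_lit 315) (nat_lit 295) (nat_lit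 290)) (XT.lf (nat_lit 0) (nat_lit 4375883707) (nat_lit 152) (nat_lit 1191150237) (nat_lit 228) (nat_lit 2912043678) (nat_lit 42) (nat_lit 5) (nat_lit 44) (nat_lit 5) (nat_lit 45) (nat_lit 4) (nat_lit 316) (nat_lit 295) (nat_lit 289))) (XT.nd (nat_lit 78) (nat_lit 152) (nat_lit 0) (XT.lf (nat_lit 0) (nat_lit 434909521) (nat_lit 304) (nat_lit 6607206550) (nat_lit 76) (nat_lit 1735273978) (nat_lit 38) (nat_lit 5) (nat_lit 42) (nat_lit 5) (nat_lit 39) (nat_lit 4) (nat_lit 317) (nat_lit 295) (nat_lit 288)) (XT.nd (nat_lit 78) (nat_lit 152) (nat_lit 0) (XT.lf (nat_lit 0) (nat_lit 3837741835) (nat_lit 304) (nat_lit 308822301) (nat_lit 76) (nat_lit 4951535016) (nat_lit 38) (nat_lit 5) (nat_lit 42) (nat_lit 5) (nat_lit 39) (nat_lit 4) (nat_lit 318) (nat_lit 295) (nat_lit 287)) (XT.lf (nat_lit 0) (nat_lit 6555121558) (nat_lit 152) (nat_lit 929596030) (nat_lit 228) (nat_lit 1962196448) (nat_lit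 36) (nat_lit 5) (nat_lit 38) (nat_lit 5) (nat_lit 39) (nat_lit 4) (nat_lit 319) (nat_lit 295) (nat_lit 286)))))) (XT.nd (nat_lit 312) (nat_lit 380) (nat_lit 0) (XT.nd (nat_lit 156) (nat_lit 228) (nat_lit 0) (XT.nd (nat_lit 78) (nat_lit 152) (nat_lit 0) (XT.lf (nat_lit 0) (nat_lit 1505902310) (nat_lit 228) (nat_lit 5831975610) (nat_lit 76) (nat_lit 2483962518) (nat_lit 33) (nat_lit 5) (nat_lit 36) (nat_lit 5) (nat_lit 34) (nat_lit 4) (nat_lit 320) (nat_lit 295) (nat_lit 285)) (XT.lf (nat_lit 0) (nat_lit 1067707342) (nat_lit 152) (nat_lit 4030812199) (nat_lit 228) (nat_lit 5128078379) (nat_lit 31) (nat_lit 5) (nat_lit 33) (nat_lit 5) (nat_lit 34) (nat_lit 4) (nat_lit 321) (nat_lit 295) (nat_lit 284))) (XT.nd (nat_lit 78) (nat_lit 228) (nat_lit 0) (XT.lf (nat_lit 0) (nat_lit 8583370431) (nat_lit 152) (nat_lit 383506049) (nat_lit 228) (nat_lit 1697941866) (nat_lit 31) (nat_lit 5) (nat_lit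 33) (nat_lit 5) (nat_lit 34) (nat_lit 4) (nat_lit 322) (nat_lit 295) (nat_lit 283)) (XT.lf (nat_lit 0) (nat_lit 1964594829) (nat_lit 228) (nat_lit 5690452254) (nat_lit 76) (nat_lit 3474646731) (nat_lit 28) (nat_lit 5) (nat_lit 31) (nat_lit 5) (nat_lit 29) (nat_lit 4) (nat_lit 323) (nat_lit 295) (nat_lit 282)))) (XT.nd (nat_lit 156) (nat_lit 304) (nat_lit 0) (XT.nd (nat_lit 78) (nat_lit 0) (nat_lit 0) (XT.lf (nat_lit 0) (nat_lit 1828224370) (nat_lit 76) (nat_lit 3953591605) (nat_lit 152) (nat_lit 5850260096) (nat_lit 27) (nat_lit 5) (nat_lit 28) (nat_lit 5) (nat_lit 29) (nat_lit 4) (nat_lit 324) (nat_lit 295) (nat_lit 281)) (XT.lf (nat_lit 0) (nat_lit 9909442507) (nat_lit 152) (nat_lit 2159082522) (nat_lit 0) (nat_lit 105831014) (nat_lit 27) (nat_lit 5) (nat_lit 29) (nat_lit 4) (nat_lit 27) (nat_lit 4) (nat_lit 325) (nat_lit 295) (nat_lit 280))) (XT.nd (nat_lit 78) (nat_lit 76) (nat_lit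 0) (XT.lf (nat_lit 0) (nat_lit 1633608174) (nat_lit 228) (nat_lit 6740023665) (nat_lit 76) (nat_lit 4374848022) (nat_lit 24) (nat_lit 5) (nat_lit 27) (nat_lit 5) (nat_lit 25) (nat_lit 4) (nat_lit 326) (nat_lit 295) (nat_lit 279)) (XT.nd (nat_lit 78) (nat_lit 0) (nat_lit 0) (XT.lf (nat_lit 0) (nat_lit 1349854756) (nat_lit 76) (nat_lit 4321941573) (nat_lit 152) (nat_lit 7696105839) (nat_lit 23) (nat_lit 5) (nat_lit 24) (nat_lit 5) (nat_lit 25) (nat_lit 4) (nat_lit 327) (nat_lit 295) (nat_lit 278)) (XT.lf (nat_lit 0) (nat_lit 10082910449) (nat_lit 152) (nat_lit 3806133902) (nat_lit 0) (nat_lit 143924612) (nat_lit 23) (nat_lit 5) (nat_lit 25) (nat_lit 4) (nat_lit 23) (nat_lit 4) (nat_lit 328) (nat_lit 295) (nat_lit 277))))))) (XT.nd (nat_lit 702) (nat_lit 380) (nat_lit 0) (XT.nd (nat_lit 312) (nat_lit 304) (nat_lit 0) (XT.nd (nat_lit 156) (nat_lit 152) (nat_lit 0) (XT.nd (nat_lit 78) (nat_lit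 0) (nat_lit 0) (XT.lf (nat_lit 0) (nat_lit 195138091) (nat_lit 228) (nat_lit 9778831712) (nat_lit 76) (nat_lit 4768816020) (nat_lit 20) (nat_lit 5) (nat_lit 23) (nat_lit 5) (nat_lit 21) (nat_lit 4) (nat_lit 329) (nat_lit 295) (nat_lit 276)) (XT.lf (nat_lit 0) (nat_lit 4436141593) (nat_lit 228) (nat_lit 1185075078) (nat_lit 76) (nat_lit 9881819496) (nat_lit 20) (nat_lit 5) (nat_lit 23) (nat_lit 5) (nat_lit 21) (nat_lit 4) (nat_lit 330) (nat_lit 295) (nat_lit 275))) (XT.nd (nat_lit 78) (nat_lit 76) (nat_lit 0) (XT.lf (nat_lit 0) (nat_lit 8297538384) (nat_lit 76) (nat_lit 798838782) (nat_lit 152) (nat_lit 7221392309) (nat_lit 19) (nat_lit 5) (nat_lit 20) (nat_lit 5) (nat_lit 21) (nat_lit 4) (nat_lit 331) (nat_lit 295) (nat_lit 274)) (XT.lf (nat_lit 0) (nat_lit 1146116564) (nat_lit 76) (nat_lit 13032186858) (nat_lit 76) (nat_lit 3015522983) (nat_lit 18) (nat_lit 4) (nat_lit 19) (nat_lit 5)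 (nat_lit 19) (nat_lit 4) (nat_lit 332) (nat_lit 295) (nat_lit 273)))) (XT.nd (nat_lit 156) (nat_lit 152) (nat_lit 0) (XT.nd (nat_lit 78) (nat_lit 76) (nat_lit 0) (XT.lf (nat_lit 0) (nat_lit 1578863502) (nat_lit 152) (nat_lit 6899869611) (nat_lit 76) (nat_lit 9648070067) (nat_lit 17) (nat_lit 5) (nat_lit 19) (nat_lit 5) (nat_lit 18) (nat_lit 4) (nat_lit 333) (nat_lit 295) (nat_lit 272)) (XT.lf (nat_lit 0) (nat_lit 2843562019) (nat_lit 76) (nat_lit 3494092430) (nat_lit 152) (nat_lit 12793759442) (nat_lit 16) (nat_lit 5) (nat_lit 17) (nat_lit 5) (nat_lit 18) (nat_lit 4) (nat_lit 334) (nat_lit 295) (nat_lit 271))) (XT.nd (nat_lit 78) (nat_lit 152) (nat_lit 0) (XT.lf (nat_lit 0) (nat_lit 11608717529) (nat_lit 152) (nat_lit 6694160270) (nat_lit 0) (nat_lit 1903030360) (nat_lit 16) (nat_lit 5) (nat_lit 18) (nat_lit 4) (nat_lit 16) (nat_lit 4) (nat_lit 335) (nat_lit 295) (nat_lit 270)) (XT.nd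 (nat_lit 78) (nat_lit 76) (nat_lit 0) (XT.lf (nat_lit 0) (nat_lit 3568298843) (nat_lit 76) (nat_lit 13810273365) (nat_lit 76) (nat_lit 3981658465) (nat_lit 15) (nat_lit 4) (nat_lit 16) (nat_lit 5) (nat_lit 16) (nat_lit 4) (nat_lit 336) (nat_lit 295) (nat_lit 269)) (XT.lf (nat_lit 0) (nat_lit 1041712110) (nat_lit 152) (nat_lit 7775675685) (nat_lit 76) (nat_lit 13780511053) (nat_lit 14) (nat_lit 5) (nat_lit 16) (nat_lit 5) (nat_lit 15) (nat_lit 4) (nat_lit 337) (nat_lit 295) (nat_lit 268)))))) (XT.nd (nat_lit 312) (nat_lit 228) (nat_lit 0) (XT.nd (nat_lit 156) (nat_lit 76) (nat_lit 0) (XT.nd (nat_lit 78) (nat_lit 0) (nat_lit 0) (XT.lf (nat_lit 0) (nat_lit 2910931907) (nat_lit 76) (nat_lit 3319240928) (nat_lit 152) (nat_lit 17697896940) (nat_lit 13) (nat_lit 5) (nat_lit 14) (nat_lit 5) (nat_lit 15) (nat_lit 4) (nat_lit 338) (nat_lit 295) (nat_lit 267)) (XT.lf (nat_lit 0) (nat_lit 12023952243)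 (nat_lit 152) (nat_lit 10695457529) (nat_lit 0) (nat_lit 2630052625) (nat_lit 13) (nat_lit 5) (nat_lit 15) (nat_lit 4) (nat_lit 13) (nat_lit 4) (nat_lit 339) (nat_lit 295) (nat_lit 266))) (XT.nd (nat_lit 78) (nat_lit 0) (nat_lit 0) (XT.lf (nat_lit 0) (nat_lit 215421673) (nat_lit 76) (nat_lit 18073075599) (nat_lit 76) (nat_lit 8595513432) (nat_lit 12) (nat_lit 4) (nat_lit 13) (nat_lit 5) (nat_lit 13) (nat_lit 4) (nat_lit 340) (nat_lit 295) (nat_lit 265)) (XT.lf (nat_lit 0) (nat_lit 12450412003) (nat_lit 76) (nat_lit 12814550642) (nat_lit 76) (nat_lit 3259523152) (nat_lit 12) (nat_lit 4) (nat_lit 13) (nat_lit 5) (nat_lit 13) (nat_lit 4) (nat_lit 341) (nat_lit 295) (nat_lit 264)))) (XT.nd (nat_lit 156) (nat_lit 76) (nat_lit 0) (XT.nd (nat_lit 78) (nat_lit 76) (nat_lit 0) (XT.lf (nat_lit 0) (nat_lit 2300507935) (nat_lit 152) (nat_lit 4841698135) (nat_lit 76) (nat_lit 23155405370) (nat_lit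 11) (nat_lit 5) (nat_lit 13) (nat_lit 5) (nat_lit 12) (nat_lit 4) (nat_lit 342) (nat_lit 295) (nat_lit 263)) (XT.lf (nat_lit 0) (nat_lit 7438275782) (nat_lit 76) (nat_lit 797995588) (nat_lit 152) (nat_lit 23960999052) (nat_lit 10) (nat_lit 5) (nat_lit 11) (nat_lit 5) (nat_lit 12) (nat_lit 4) (nat_lit 343) (nat_lit 295) (nat_lit 262))) (XT.nd (nat_lit 78) (nat_lit 76) (nat_lit 0) (XT.lf (nat_lit 0) (nat_lit 14856957764) (nat_lit 152) (nat_lit 13550294389) (nat_lit 0) (nat_lit 5824862263) (nat_lit 10) (nat_lit 5) (nat_lit 12) (nat_lit 4) (nat_lit 10) (nat_lit 4) (nat_lit 344) (nat_lit 295) (nat_lit 261)) (XT.nd (nat_lit 78) (nat_lit 76) (nat_lit 0) (XT.lf (nat_lit 0) (nat_lit 21961961359) (nat_lit 152) (nat_lit 1594283293) (nat_lit 0) (nat_lit 12877144262) (nat_lit 10) (nat_lit 5) (nat_lit 12) (nat_lit 4) (nat_lit 10) (nat_lit 4) (nat_lit 345) (nat_lit 295) (nat_lit 260)) (XT.lf (nat_lit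 0) (nat_lit 11788804649) (nat_lit 76) (nat_lit 18068910454) (nat_lit 76) (nat_lit 8935277063) (nat_lit 9) (nat_lit 4) (nat_lit 10) (nat_lit 5) (nat_lit 10) (nat_lit 4) (nat_lit 346) (nat_lit 295) (nat_lit 259))))))))
noncomputable def xc81 : XT := (XT.nd (nat_lit 1404) (nat_lit 152) (nat_lit 0) (XT.nd (nat_lit 702) (nat_lit 228) (nat_lit 0) (XT.nd (nat_lit 312) (nat_lit 76) (nat_lit 0) (XT.nd (nat_lit 156) (nat_lit 76) (nat_lit 0) (XT.nd (nat_lit 78) (nat_lit 76) (nat_lit 0) (XT.lf (nat_lit 0) (nat_lit 26217096031) (nat_lit 76) (nat_lit 12152191178) (nat_lit 76) (nat_lit 2973357515) (nat_lit 9) (nat_lit 4) (nat_lit 10) (nat_lit 5) (nat_lit 10) (nat_lit 4) (nat_lit 347) (nat_lit 295) (nat_lit 258)) (XT.lf (nat_lit 0) (nat_lit 3235685012) (nat_lit 152) (nat_lit 2490460940) (nat_lit 76) (nat_lit 38367985328) (nat_lit 8) (nat_lit 5) (nat_lit 10) (nat_lit 5) (nat_lit 9) (nat_lit 4) (nat_lit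 348) (nat_lit 295) (nat_lit 257))) (XT.nd (nat_lit 78) (nat_lit 0) (nat_lit 0) (XT.lf (nat_lit 0) (nat_lit 10043611366) (nat_lit 152) (nat_lit 35524876013) (nat_lit 0) (nat_lit 1470057927) (nat_lit 7) (nat_lit 5) (nat_lit 9) (nat_lit 4) (nat_lit 7) (nat_lit 4) (nat_lit 349) (nat_lit 295) (nat_lit 256)) (XT.lf (nat_lit 0) (nat_lit 17562775463) (nat_lit 152) (nat_lit 23686420287) (nat_lit 0) (nat_lit 8955998475) (nat_lit 7) (nat_lit 5) (nat_lit 9) (nat_lit 4) (nat_lit 7) (nat_lit 4) (nat_lit 350) (nat_lit 295) (nat_lit 255)))) (XT.nd (nat_lit 156) (nat_lit 0) (nat_lit 0) (XT.nd (nat_lit 78) (nat_lit 76) (nat_lit 0) (XT.lf (nat_lit 0) (nat_lit 25635334068) (nat_lit 152) (nat_lit 10995906863) (nat_lit 0) (nat_lit 16997794534) (nat_lit 7) (nat_lit 5) (nat_lit 9) (nat_lit 4) (nat_lit 7) (nat_lit 4) (nat_lit 351) (nat_lit 295) (nat_lit 254)) (XT.lf (nat_lit 0) (nat_lit 2759930188) (nat_lit 76)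 (nat_lit 31615570763) (nat_lit 76) (nat_lit 22949547391) (nat_lit 6) (nat_lit 4) (nat_lit 7) (nat_lit 5) (nat_lit 7) (nat_lit 4) (nat_lit 352) (nat_lit 295) (nat_lit 253))) (XT.nd (nat_lit 78) (nat_lit 0) (nat_lit 0) (XT.lf (nat_lit 0) (nat_lit 18155828188) (nat_lit 76) (nat_lit 25916367108) (nat_lit 76) (nat_lit 17223969812) (nat_lit 6) (nat_lit 4) (nat_lit 7) (nat_lit 5) (nat_lit 7) (nat_lit 4) (nat_lit 353) (nat_lit 295) (nat_lit 252)) (XT.nd (nat_lit 78) (nat_lit 0) (nat_lit 0) (XT.lf (nat_lit 0) (nat_lit 34703997119) (nat_lit 76) (nat_lit 19800504488) (nat_lit 76) (nat_lit 11083686891) (nat_lit 6) (nat_lit 4) (nat_lit 7) (nat_lit 5) (nat_lit 7) (nat_lit 4) (nat_lit 354) (nat_lit 295) (nat_lit 251)) (XT.lf (nat_lit 0) (nat_lit 52502500203) (nat_lit 76) (nat_lit 13231740754) (nat_lit 76) (nat_lit 4492311768) (nat_lit 6) (nat_lit 4) (nat_lit 7) (nat_lit 5) (nat_lit 7) (nat_lit 4) (nat_lit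 355) (nat_lit 295) (nat_lit 250)))))) (XT.nd (nat_lit 312) (nat_lit 76) (nat_lit 0) (XT.nd (nat_lit 156) (nat_lit 0) (nat_lit 0) (XT.nd (nat_lit 78) (nat_lit 76) (nat_lit 0) (XT.lf (nat_lit 0) (nat_lit 2459692510) (nat_lit 152) (nat_lit 3644205036) (nat_lit 76) (nat_lit 69129865189) (nat_lit 5) (nat_lit 5) (nat_lit 7) (nat_lit 5) (nat_lit 6) (nat_lit 4) (nat_lit 356) (nat_lit 295) (nat_lit 249)) (XT.lf (nat_lit 0) (nat_lit 10028670331) (nat_lit 152) (nat_lit 68679997616) (nat_lit 0) (nat_lit 1899271184) (nat_lit 4) (nat_lit 5) (nat_lit 6) (nat_lit 4) (nat_lit 4) (nat_lit 4) (nat_lit 357) (nat_lit 295) (nat_lit 248))) (XT.nd (nat_lit 78) (nat_lit 0) (nat_lit 0) (XT.lf (nat_lit 0) (nat_lit 18431401356) (nat_lit 152) (nat_lit 57677012356) (nat_lit 0) (nat_lit 10285382162) (nat_lit 4) (nat_lit 5) (nat_lit 6) (nat_lit 4) (nat_lit 4) (nat_lit 4) (nat_lit 358) (nat_lit 295) (nat_lit 247)) (XT.lf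 (nat_lit 0) (nat_lit 27476225985) (nat_lit 152) (nat_lit 45853891962) (nat_lit 0) (nat_lit 19314817860) (nat_lit 4) (nat_lit 5) (nat_lit 6) (nat_lit 4) (nat_lit 4) (nat_lit 4) (nat_lit 359) (nat_lit 295) (nat_lit 246)))) (XT.nd (nat_lit 156) (nat_lit 76) (nat_lit 0) (XT.nd (nat_lit 78) (nat_lit 0) (nat_lit 0) (XT.lf (nat_lit 0) (nat_lit 37216743181) (nat_lit 152) (nat_lit 33140573497) (nat_lit 0) (nat_lit 29041086044) (nat_lit 4) (nat_lit 5) (nat_lit 6) (nat_lit 4) (nat_lit 4) (nat_lit 4) (nat_lit 360) (nat_lit 295) (nat_lit 245)) (XT.lf (nat_lit 0) (nat_lit 47710674526) (nat_lit 152) (nat_lit 19461718779) (nat_lit 0) (nat_lit 39521823861) (nat_lit 4) (nat_lit 5) (nat_lit 6) (nat_lit 4) (nat_lit 4) (nat_lit 4) (nat_lit 361) (nat_lit 295) (nat_lit 244))) (XT.nd (nat_lit 78) (nat_lit 76) (nat_lit 0) (XT.lf (nat_lit 0) (nat_lit 59020206280) (nat_lit 152) (nat_lit 4736267926) (nat_lit 0)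 (nat_lit 50819139385) (nat_lit 4) (nat_lit 5) (nat_lit 6) (nat_lit 4) (nat_lit 4) (nat_lit 4) (nat_lit 362) (nat_lit 295) (nat_lit 243)) (XT.nd (nat_lit 78) (nat_lit 0) (nat_lit 0) (XT.lf (nat_lit 0) (nat_lit 11708760617) (nat_lit 76) (nat_lit 59785193248) (nat_lit 76) (nat_lit 51572815029) (nat_lit 3) (nat_lit 4) (nat_lit 4) (nat_lit 5) (nat_lit 4) (nat_lit 4) (nat_lit 363) (nat_lit 295) (nat_lit 242)) (XT.lf (nat_lit 0) (nat_lit 29695687625) (nat_lit 76) (nat_lit 55377873522) (nat_lit 76) (nat_lit 47155021854) (nat_lit 3) (nat_lit 4) (nat_lit 4) (nat_lit 5) (nat_lit 4) (nat_lit 4) (nat_lit 364) (nat_lit 295) (nat_lit 241))))))) (XT.nd (nat_lit 702) (nat_lit 0) (nat_lit 0) (XT.nd (nat_lit 312) (nat_lit 152) (nat_lit 0) (XT.nd (nat_lit 156) (nat_lit 0) (nat_lit 0) (XT.nd (nat_lit 78) (nat_lit 0) (nat_lit 0) (XT.lf (nat_lit 0) (nat_lit 49081698818) (nat_lit 76) (nat_lit 50637895536) (nat_lit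 76) (nat_lit 42405346231) (nat_lit 3) (nat_lit 4) (nat_lit 4) (nat_lit 5) (nat_lit 4) (nat_lit 4) (nat_lit 365) (nat_lit 295) (nat_lit 240)) (XT.lf (nat_lit 0) (nat_lit 69981674264) (nat_lit 76) (nat_lit 45537170533) (nat_lit 76) (nat_lit 37295641934) (nat_lit 3) (nat_lit 4) (nat_lit 4) (nat_lit 5) (nat_lit 4) (nat_lit 4) (nat_lit 366) (nat_lit 295) (nat_lit 239))) (XT.nd (nat_lit 78) (nat_lit 0) (nat_lit 0) (XT.lf (nat_lit 0) (nat_lit 92519465668) (nat_lit 76) (nat_lit 40045471993) (nat_lit 76) (nat_lit 31795629234) (nat_lit 3) (nat_lit 4) (nat_lit 4) (nat_lit 5) (nat_lit 4) (nat_lit 4) (nat_lit 367) (nat_lit 295) (nat_lit 238)) (XT.lf (nat_lit 0) (nat_lit 116828630313) (nat_lit 76) (nat_lit 34130256519) (nat_lit 76) (nat_lit 25872715462) (nat_lit 3) (nat_lit 4) (nat_lit 4) (nat_lit 5) (nat_lit 4) (nat_lit 4) (nat_lit 368) (nat_lit 295) (nat_lit 237)))) (XT.nd (nat_lit 156) (nat_lit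 152) (nat_lit 0) (XT.nd (nat_lit 78) (nat_lit 0) (nat_lit 0) (XT.lf (nat_lit 0) (nat_lit 143053222507) (nat_lit 76) (nat_lit 27756470981) (nat_lit 76) (nat_lit 19491801871) (nat_lit 3) (nat_lit 4) (nat_lit 4) (nat_lit 5) (nat_lit 4) (nat_lit 4) (nat_lit 369) (nat_lit 295) (nat_lit 236)) (XT.lf (nat_lit 0) (nat_lit 171348647242) (nat_lit 76) (nat_lit 20886344798) (nat_lit 76) (nat_lit 12615075639) (nat_lit 3) (nat_lit 4) (nat_lit 4) (nat_lit 5) (nat_lit 4) (nat_lit 4) (nat_lit 370) (nat_lit 295) (nat_lit 235))) (XT.nd (nat_lit 78) (nat_lit 152) (nat_lit 0) (XT.lf (nat_lit 0) (nat_lit 201882581109) (nat_lit 76) (nat_lit 13479166111) (nat_lit 76) (nat_lit 5201785796) (nat_lit 3) (nat_lit 4) (nat_lit 4) (nat_lit 5) (nat_lit 4) (nat_lit 4) (nat_lit 371) (nat_lit 295) (nat_lit 234)) (XT.nd (nat_lit 78) (nat_lit 76) (nat_lit 0) (XT.lf (nat_lit 0) (nat_lit 2652331202) (nat_lit 152) (nat_lit 2766189891)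 (nat_lit 76) (nat_lit 232111115299) (nat_lit 2) (nat_lit 5) (nat_lit 4) (nat_lit 5) (nat_lit 3) (nat_lit 4) (nat_lit 372) (nat_lit 295) (nat_lit 233)) (XT.lf (nat_lit 0) (nat_lit 11295492240) (nat_lit 152) (nat_lit 240890228020) (nat_lit 0) (nat_lit 3621160643) (nat_lit 1) (nat_lit 5) (nat_lit 3) (nat_lit 4) (nat_lit 1) (nat_lit 4) (nat_lit 373) (nat_lit 295) (nat_lit 232)))))) (XT.nd (nat_lit 312) (nat_lit 0) (nat_lit 0) (XT.nd (nat_lit 156) (nat_lit 0) (nat_lit 0) (XT.nd (nat_lit 78) (nat_lit 0) (nat_lit 0) (XT.lf (nat_lit 0) (nat_lit 20837428608) (nat_lit 152) (nat_lit 241533686805) (nat_lit 0) (nat_lit 13158605128) (nat_lit 1) (nat_lit 5) (nat_lit 3) (nat_lit 4) (nat_lit 1) (nat_lit 4) (nat_lit 374) (nat_lit 295) (nat_lit 231)) (XT.lf (nat_lit 0) (nat_lit 31132520461) (nat_lit 152) (nat_lit 242249146270) (nat_lit 0) (nat_lit 23449537831) (nat_lit 1) (nat_lit 5) (nat_lit 3) (nat_lit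 4) (nat_lit 1) (nat_lit 4) (nat_lit 375) (nat_lit 295) (nat_lit 230))) (XT.nd (nat_lit 78) (nat_lit 0) (nat_lit 0) (XT.lf (nat_lit 0) (nat_lit 42241775753) (nat_lit 152) (nat_lit 243040846174) (nat_lit 0) (nat_lit 34554942057) (nat_lit 1) (nat_lit 5) (nat_lit 3) (nat_lit 4) (nat_lit 1) (nat_lit 4) (nat_lit 376) (nat_lit 295) (nat_lit 229)) (XT.lf (nat_lit 0) (nat_lit 54231027106) (nat_lit 152) (nat_lit 243913478073) (nat_lit 0) (nat_lit 46540627610) (nat_lit 1) (nat_lit 5) (nat_lit 3) (nat_lit 4) (nat_lit 1) (nat_lit 4) (nat_lit 377) (nat_lit 295) (nat_lit 228)))) (XT.nd (nat_lit 156) (nat_lit 0) (nat_lit 0) (XT.nd (nat_lit 78) (nat_lit 0) (nat_lit 0) (XT.lf (nat_lit 0) (nat_lit 67171321938) (nat_lit 152) (nat_lit 244872213118) (nat_lit 0) (nat_lit 59477620774) (nat_lit 1) (nat_lit 5) (nat_lit 3) (nat_lit 4) (nat_lit 1) (nat_lit 4) (nat_lit 378) (nat_lit 295) (nat_lit 227)) (XT.lf (nat_lit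 0) (nat_lit 81139343475) (nat_lit 152) (nat_lit 245922732703) (nat_lit 0) (nat_lit 73442585211) (nat_lit 1) (nat_lit 5) (nat_lit 3) (nat_lit 4) (nat_lit 1) (nat_lit 4) (nat_lit 379) (nat_lit 295) (nat_lit 226))) (XT.nd (nat_lit 78) (nat_lit 0) (nat_lit 0) (XT.lf (nat_lit 0) (nat_lit 96217865180) (nat_lit 152) (nat_lit 247071262127) (nat_lit 0) (nat_lit 88518276268) (nat_lit 1) (nat_lit 5) (nat_lit 3) (nat_lit 4) (nat_lit 1) (nat_lit 4) (nat_lit 380) (nat_lit 295) (nat_lit 225)) (XT.nd (nat_lit 78) (nat_lit 0) (nat_lit 0) (XT.lf (nat_lit 0) (nat_lit 112496241254) (nat_lit 152) (nat_lit 248324607493) (nat_lit 0) (nat_lit 104794031372) (nat_lit 1) (nat_lit 5) (nat_lit 3) (nat_lit 4) (nat_lit 1) (nat_lit 4) (nat_lit 381) (nat_lit 295) (nat_lit 224)) (XT.lf (nat_lit 0) (nat_lit 130070936149) (nat_lit 152) (nat_lit 249690196031) (nat_lit 0) (nat_lit 122366299443) (nat_lit 1) (nat_lit 5) (nat_lit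 3) (nat_lit 4) (nat_lit 1) (nat_lit 4) (nat_lit 382) (nat_lit 295) (nat_lit 223))))))))
noncomputable def xc82 : XT := (XT.nd (nat_lit 1404) (nat_lit 0) (nat_lit 0) (XT.nd (nat_lit 702) (nat_lit 0) (nat_lit 0) (XT.nd (nat_lit 312) (nat_lit 0) (nat_lit 0) (XT.nd (nat_lit 156) (nat_lit 0) (nat_lit 0) (XT.nd (nat_lit 78) (nat_lit 0) (nat_lit 0) (XT.lf (nat_lit 0) (nat_lit 149046096204) (nat_lit 152) (nat_lit 251176120118) (nat_lit 0) (nat_lit 141339212439) (nat_lit 1) (nat_lit 5) (nat_lit 3) (nat_lit 4) (nat_lit 1) (nat_lit 4) (nat_lit 383) (nat_lit 295) (nat_lit 222)) (XT.lf (nat_lit 0) (nat_lit 169534166814) (nat_lit 152) (nat_lit 252791185230) (nat_lit 0) (nat_lit 161825202437) (nat_lit 1) (nat_lit 5) (nat_lit 3) (nat_lit 4) (nat_lit 1) (nat_lit 4) (nat_lit 384) (nat_lit 295) (nat_lit 221))) (XT.nd (nat_lit 78) (nat_lit 0) (nat_lit 0) (XT.lf (nat_lit 0) (nat_lit 191656558766) (nat_lit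 152) (nat_lit 254544962124) (nat_lit 0) (nat_lit 183945667898) (nat_lit 1) (nat_lit 5) (nat_lit 3) (nat_lit 4) (nat_lit 1) (nat_lit 4) (nat_lit 385) (nat_lit 295) (nat_lit 220)) (XT.lf (nat_lit 0) (nat_lit 215544367716) (nat_lit 152) (nat_lit 256447843550) (nat_lit 0) (nat_lit 207831693060) (nat_lit 1) (nat_lit 5) (nat_lit 3) (nat_lit 4) (nat_lit 1) (nat_lit 4) (nat_lit 386) (nat_lit 295) (nat_lit 219)))) (XT.nd (nat_lit 156) (nat_lit 0) (nat_lit 0) (XT.nd (nat_lit 78) (nat_lit 0) (nat_lit 0) (XT.lf (nat_lit 0) (nat_lit 241339151051) (nat_lit 152) (nat_lit 258511105845) (nat_lit 0) (nat_lit 233624824739) (nat_lit 1) (nat_lit 5) (nat_lit 3) (nat_lit 4) (nat_lit 1) (nat_lit 4) (nat_lit 387) (nat_lit 295) (nat_lit 218)) (XT.lf (nat_lit 0) (nat_lit 269193766746) (nat_lit 152) (nat_lit 260746975747) (nat_lit 0) (nat_lit 261477911123) (nat_lit 1) (nat_lit 5) (nat_lit 3) (nat_lit 4) (nat_lit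 1) (nat_lit 4) (nat_lit 388) (nat_lit 295) (nat_lit 217))) (XT.nd (nat_lit 78) (nat_lit 0) (nat_lit 0) (XT.lf (nat_lit 0) (nat_lit 299273279191) (nat_lit 152) (nat_lit 263168702855) (nat_lit 0) (nat_lit 291556007539) (nat_lit 1) (nat_lit 5) (nat_lit 3) (nat_lit 4) (nat_lit 1) (nat_lit 4) (nat_lit 389) (nat_lit 295) (nat_lit 216)) (XT.nd (nat_lit 78) (nat_lit 0) (nat_lit 0) (XT.lf (nat_lit 0) (nat_lit 331755937348) (nat_lit 152) (nat_lit 265790638146) (nat_lit 0) (nat_lit 324037354558) (nat_lit 1) (nat_lit 5) (nat_lit 3) (nat_lit 4) (nat_lit 1) (nat_lit 4) (nat_lit 390) (nat_lit 295) (nat_lit 215)) (XT.lf (nat_lit 0) (nat_lit 366834231043) (nat_lit 152) (nat_lit 268628319013) (nat_lit 0) (nat_lit 359114434237) (nat_lit 1) (nat_lit 5) (nat_lit 3) (nat_lit 4) (nat_lit 1) (nat_lit 4) (nat_lit 391) (nat_lit 295) (nat_lit 214)))))) (XT.nd (nat_lit 312) (nat_lit 0) (nat_lit 0) (XT.nd (nat_lit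 156) (nat_lit 0) (nat_lit 0) (XT.nd (nat_lit 78) (nat_lit 0) (nat_lit 0) (XT.lf (nat_lit 0) (nat_lit 404716031646) (nat_lit 152) (nat_lit 271698561343) (nat_lit 0) (nat_lit 396995110751) (nat_lit 1) (nat_lit 5) (nat_lit 3) (nat_lit 4) (nat_lit 1) (nat_lit 4) (nat_lit 392) (nat_lit 295) (nat_lit 213)) (XT.lf (nat_lit 0) (nat_lit 445625823902) (nat_lit 152) (nat_lit 275019559164) (nat_lit 0) (nat_lit 437903862183) (nat_lit 1) (nat_lit 5) (nat_lit 3) (nat_lit 4) (nat_lit 1) (nat_lit 4) (nat_lit 393) (nat_lit 295) (nat_lit 212))) (XT.nd (nat_lit 78) (nat_lit 0) (nat_lit 0) (XT.lf (nat_lit 0) (nat_lit 489806036208) (nat_lit 152) (nat_lit 278610992465) (nat_lit 0) (nat_lit 482083110765) (nat_lit 1) (nat_lit 5) (nat_lit 3) (nat_lit 4) (nat_lit 1) (nat_lit 4) (nat_lit 394) (nat_lit 295) (nat_lit 211)) (XT.lf (nat_lit 0) (nat_lit 537518477232) (nat_lit 152) (nat_lit 282494143812) (nat_lit 0) (nat_lit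 529794659450) (nat_lit 1) (nat_lit 5) (nat_lit 3) (nat_lit 4) (nat_lit 1) (nat_lit 4) (nat_lit 395) (nat_lit 295) (nat_lit 210)))) (XT.nd (nat_lit 156) (nat_lit 0) (nat_lit 0) (XT.nd (nat_lit 78) (nat_lit 0) (nat_lit 0) (XT.lf (nat_lit 0) (nat_lit 589045887364) (nat_lit 152) (nat_lit 286692024472) (nat_lit 0) (nat_lit 581321243342) (nat_lit 1) (nat_lit 5) (nat_lit 3) (nat_lit 4) (nat_lit 1) (nat_lit 4) (nat_lit 396) (nat_lit 295) (nat_lit 209)) (XT.lf (nat_lit 0) (nat_lit 644693614218) (nat_lit 152) (nat_lit 291229510776) (nat_lit 0) (nat_lit 636968205161) (nat_lit 1) (nat_lit 5) (nat_lit 3) (nat_lit 4) (nat_lit 1) (nat_lit 4) (nat_lit 397) (nat_lit 295) (nat_lit 208))) (XT.nd (nat_lit 78) (nat_lit 0) (nat_lit 0) (XT.lf (nat_lit 0) (nat_lit 704791422104) (nat_lit 152) (nat_lit 296133491531) (nat_lit 0) (nat_lit 697065304680) (nat_lit 1) (nat_lit 5) (nat_lit 3) (nat_lit 4) (nat_lit 1)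 (nat_lit 4) (nat_lit 398) (nat_lit 295) (nat_lit 207)) (XT.nd (nat_lit 78) (nat_lit 0) (nat_lit 0) (XT.lf (nat_lit 0) (nat_lit 769695446179) (nat_lit 152) (nat_lit 301433027365) (nat_lit 0) (nat_lit 761968672859) (nat_lit 1) (nat_lit 5) (nat_lit 3) (nat_lit 4) (nat_lit 1) (nat_lit 4) (nat_lit 399) (nat_lit 295) (nat_lit 206)) (XT.lf (nat_lit 0) (nat_lit 839790302880) (nat_lit 152) (nat_lit 307159522933) (nat_lit 0) (nat_lit 832062922251) (nat_lit 1) (nat_lit 5) (nat_lit 3) (nat_lit 4) (nat_lit 1) (nat_lit 4) (nat_lit 400) (nat_lit 295) (nat_lit 205))))))) (XT.nd (nat_lit 702) (nat_lit 0) (nat_lit 0) (XT.nd (nat_lit 312) (nat_lit 0) (nat_lit 0) (XT.nd (nat_lit 156) (nat_lit 0) (nat_lit 0) (XT.nd (nat_lit 78) (nat_lit 0) (nat_lit 0) (XT.lf (nat_lit 0) (nat_lit 915491369139) (nat_lit 152) (nat_lit 313346913024) (nat_lit 0) (nat_lit 907763426184) (nat_lit 1) (nat_lit 5) (nat_lit 3) (nat_lit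 4) (nat_lit 1) (nat_lit 4) (nat_lit 401) (nat_lit 295) (nat_lit 204)) (XT.lf (nat_lit 0) (nat_lit 997247243864) (nat_lit 152) (nat_lit 320031863654) (nat_lit 0) (nat_lit 989518780239) (nat_lit 1) (nat_lit 5) (nat_lit 3) (nat_lit 4) (nat_lit 1) (nat_lit 4) (nat_lit 402) (nat_lit 295) (nat_lit 203))) (XT.nd (nat_lit 78) (nat_lit 0) (nat_lit 0) (XT.lf (nat_lit 0) (nat_lit 1085542406314) (nat_lit 152) (nat_lit 327253989345) (nat_lit 0) (nat_lit 1077813460587) (nat_lit 1) (nat_lit 5) (nat_lit 3) (nat_lit 4) (nat_lit 1) (nat_lit 4) (nat_lit 403) (nat_lit 295) (nat_lit 202)) (XT.lf (nat_lit 0) (nat_lit 1180900087082) (nat_lit 152) (nat_lit 335056087878) (nat_lit 0) (nat_lit 1173170694963) (nat_lit 1) (nat_lit 5) (nat_lit 3) (nat_lit 4) (nat_lit 1) (nat_lit 4) (nat_lit 404) (nat_lit 295) (nat_lit 201)))) (XT.nd (nat_lit 156) (nat_lit 0) (nat_lit 0) (XT.nd (nat_lit 78) (nat_lit 0) (nat_lit 0)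 (XT.lf (nat_lit 0) (nat_lit 1283885368720) (nat_lit 152) (nat_lit 343484393913) (nat_lit 0) (nat_lit 1276155563275) (nat_lit 1) (nat_lit 5) (nat_lit 3) (nat_lit 4) (nat_lit 1) (nat_lit 4) (nat_lit 405) (nat_lit 295) (nat_lit 200)) (XT.lf (nat_lit 0) (nat_lit 1395108534378) (nat_lit 152) (nat_lit 352588852965) (nat_lit 0) (nat_lit 1387378346225) (nat_lit 1) (nat_lit 5) (nat_lit 3) (nat_lit 4) (nat_lit 1) (nat_lit 4) (nat_lit 406) (nat_lit 295) (nat_lit 199))) (XT.nd (nat_lit 78) (nat_lit 0) (nat_lit 0) (XT.lf (nat_lit 0) (nat_lit 1515228684297) (nat_lit 152) (nat_lit 362423417385) (nat_lit 0) (nat_lit 1507498141784) (nat_lit 1) (nat_lit 5) (nat_lit 3) (nat_lit 4) (nat_lit 1) (nat_lit 4) (nat_lit 407) (nat_lit 295) (nat_lit 198)) (XT.nd (nat_lit 78) (nat_lit 0) (nat_lit 0) (XT.lf (nat_lit 0) (nat_lit 1644957641589) (nat_lit 152) (nat_lit 373046366074) (nat_lit 0) (nat_lit 1637226770965)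 (nat_lit 1) (nat_lit 5) (nat_lit 3) (nat_lit 4) (nat_lit 1) (nat_lit 4) (nat_lit 408) (nat_lit 295) (nat_lit 197)) (XT.lf (nat_lit 0) (nat_lit 1785064170443) (nat_lit 152) (nat_lit 384520649837) (nat_lit 0) (nat_lit 1777332996013) (nat_lit 1) (nat_lit 5) (nat_lit 3) (nat_lit 4) (nat_lit 1) (nat_lit 4) (nat_lit 409) (nat_lit 295) (nat_lit 196)))))) (XT.nd (nat_lit 312) (nat_lit 0) (nat_lit 0) (XT.nd (nat_lit 156) (nat_lit 0) (nat_lit 0) (XT.nd (nat_lit 78) (nat_lit 0) (nat_lit 0) (XT.lf (nat_lit 0) (nat_lit 1936378531773) (nat_lit 152) (nat_lit 396914264432) (nat_lit 0) (nat_lit 1928647076041) (nat_lit 1) (nat_lit 5) (nat_lit 3) (nat_lit 4) (nat_lit 1) (nat_lit 4) (nat_lit 410) (nat_lit 295) (nat_lit 195)) (XT.lf (nat_lit 0) (nat_lit 2099797403275) (nat_lit 152) (nat_lit 410300653500) (nat_lit 0) (nat_lit 2092065687077) (nat_lit 1) (nat_lit 5) (nat_lit 3) (nat_lit 4) (nat_lit 1) (nat_lit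 4) (nat_lit 411) (nat_lit 295) (nat_lit 194))) (XT.nd (nat_lit 78) (nat_lit 0) (nat_lit 0) (XT.lf (nat_lit 0) (nat_lit 2276289193076) (nat_lit 152) (nat_lit 424759143790) (nat_lit 0) (nat_lit 2268557235707) (nat_lit 1) (nat_lit 5) (nat_lit 3) (nat_lit 4) (nat_lit 1) (nat_lit 4) (nat_lit 412) (nat_lit 295) (nat_lit 193)) (XT.lf (nat_lit 0) (nat_lit 2466899778449) (nat_lit 152) (nat_lit 440375415246) (nat_lit 0) (nat_lit 2459167597773) (nat_lit 1) (nat_lit 5) (nat_lit 3) (nat_lit 4) (nat_lit 1) (nat_lit 4) (nat_lit 413) (nat_lit 295) (nat_lit 192)))) (XT.nd (nat_lit 156) (nat_lit 0) (nat_lit 0) (XT.nd (nat_lit 78) (nat_lit 0) (nat_lit 0) (XT.lf (nat_lit 0) (nat_lit 2672758703604) (nat_lit 152) (nat_lit 457242008735) (nat_lit 0) (nat_lit 2665026316163) (nat_lit 1) (nat_lit 5) (nat_lit 3) (nat_lit 4) (nat_lit 1) (nat_lit 4) (nat_lit 414) (nat_lit 295) (nat_lit 191)) (XT.lf (nat_lit 0) (nat_lit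 2895085873282) (nat_lit 152) (nat_lit 475458874441) (nat_lit 0) (nat_lit 2887353294391) (nat_lit 1) (nat_lit 5) (nat_lit 3) (nat_lit 4) (nat_lit 1) (nat_lit 4) (nat_lit 415) (nat_lit 295) (nat_lit 190))) (XT.nd (nat_lit 38454) (nat_lit 0) (nat_lit 4788) (XT.lf (nat_lit 0) (nat_lit 3135198781822) (nat_lit 152) (nat_lit 495133964161) (nat_lit 0) (nat_lit 3127466025664) (nat_lit 1) (nat_lit 5) (nat_lit 3) (nat_lit 4) (nat_lit 1) (nat_lit 4) (nat_lit 416) (nat_lit 295) (nat_lit 189)) (XT.nd (nat_lit 78) (nat_lit 380) (nat_lit 0) (XT.lf (nat_lit 0) (nat_lit 1222144527) (nat_lit 380) (nat_lit 1011788916) (nat_lit 0) (nat_lit 1222144527) (nat_lit 69) (nat_lit 5) (nat_lit 74) (nat_lit 4) (nat_lit 69) (nat_lit 4) (nat_lit 308) (nat_lit 296) (nat_lit 296)) (XT.lf (nat_lit 0) (nat_lit 2803768848) (nat_lit 380) (nat_lit 3028021948) (nat_lit 380) (nat_lit 1210493110) (nat_lit 64) (nat_lit 4) (nat_lit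 69) (nat_lit 5) (nat_lit 69) (nat_lit 4) (nat_lit 309) (nat_lit 296) (nat_lit 295))))))))
noncomputable def xc83 : XT := (XT.nd (nat_lit 1404) (nat_lit 1064) (nat_lit 0) (XT.nd (nat_lit 702) (nat_lit 1064) (nat_lit 0) (XT.nd (nat_lit 312) (nat_lit 760) (nat_lit 0) (XT.nd (nat_lit 156) (nat_lit 684) (nat_lit 0) (XT.nd (nat_lit 78) (nat_lit 0) (nat_lit 0) (XT.lf (nat_lit 0) (nat_lit 667345234) (nat_lit 456) (nat_lit 1336390892) (nat_lit 532) (nat_lit 5190182765) (nat_lit 57) (nat_lit 5) (nat_lit 63) (nat_lit 5) (nat_lit 64) (nat_lit 4) (nat_lit 310) (nat_lit 296) (nat_lit 294)) (XT.lf (nat_lit 0) (nat_lit 5292252863) (nat_lit 532) (nat_lit 1464444920) (nat_lit 0) (nat_lit 608304771) (nat_lit 57) (nat_lit 5) (nat_lit 64) (nat_lit 4) (nat_lit 57) (nat_lit 4) (nat_lit 311) (nat_lit 296) (nat_lit 293))) (XT.nd (nat_lit 78) (nat_lit 228) (nat_lit 0) (XT.lf (nat_lit 0) (nat_lit 1125249045) (nat_lit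 456) (nat_lit 3679368030) (nat_lit 76) (nat_lit 2751368171) (nat_lit 51) (nat_lit 5) (nat_lit 57) (nat_lit 5) (nat_lit 52) (nat_lit 4) (nat_lit 312) (nat_lit 296) (nat_lit 292)) (XT.lf (nat_lit 0) (nat_lit 1739626269) (nat_lit 228) (nat_lit 2585610222) (nat_lit 304) (nat_lit 3444399441) (nat_lit 48) (nat_lit 5) (nat_lit 51) (nat_lit 5) (nat_lit 52) (nat_lit 4) (nat_lit 313) (nat_lit 296) (nat_lit 291)))) (XT.nd (nat_lit 156) (nat_lit 456) (nat_lit 0) (XT.nd (nat_lit 78) (nat_lit 304) (nat_lit 0) (XT.lf (nat_lit 0) (nat_lit 7546290466) (nat_lit 228) (nat_lit 121261249) (nat_lit 304) (nat_lit 342241838) (nat_lit 48) (nat_lit 5) (nat_lit 51) (nat_lit 5) (nat_lit 52) (nat_lit 4) (nat_lit 314) (nat_lit 296) (nat_lit 290)) (XT.lf (nat_lit 0) (nat_lit 2851516943) (nat_lit 304) (nat_lit 2830629686) (nat_lit 76) (nat_lit 2581992525) (nat_lit 44) (nat_lit 5) (nat_lit 48) (nat_lit 5) (nat_lit 45)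 (nat_lit 4) (nat_lit 315) (nat_lit 296) (nat_lit 289))) (XT.nd (nat_lit 78) (nat_lit 304) (nat_lit 0) (XT.lf (nat_lit 0) (nat_lit 3181977608) (nat_lit 152) (nat_lit 2997339439) (nat_lit 228) (nat_lit 2367296724) (nat_lit 42) (nat_lit 5) (nat_lit 44) (nat_lit 5) (nat_lit 45) (nat_lit 4) (nat_lit 316) (nat_lit 296) (nat_lit 288)) (XT.nd (nat_lit 78) (nat_lit 0) (nat_lit 0) (XT.lf (nat_lit 0) (nat_lit 744629514) (nat_lit 228) (nat_lit 35999887) (nat_lit 304) (nat_lit 8077095925) (nat_lit 38) (nat_lit 5) (nat_lit 41) (nat_lit 5) (nat_lit 42) (nat_lit 5) (nat_lit 317) (nat_lit 296) (nat_lit 287)) (XT.lf (nat_lit 0) (nat_lit 4093300736) (nat_lit 304) (nat_lit 1941838485) (nat_lit 76) (nat_lit 3150605395) (nat_lit 38) (nat_lit 5) (nat_lit 42) (nat_lit 5) (nat_lit 39) (nat_lit 4) (nat_lit 318) (nat_lit 296) (nat_lit 286)))))) (XT.nd (nat_lit 312) (nat_lit 532) (nat_lit 0) (XT.nd (nat_lit 156)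 (nat_lit 152) (nat_lit 0) (XT.nd (nat_lit 78) (nat_lit 228) (nat_lit 0) (XT.lf (nat_lit 0) (nat_lit 4711361237) (nat_lit 152) (nat_lit 2901892049) (nat_lit 228) (nat_lit 1931558171) (nat_lit 36) (nat_lit 5) (nat_lit 38) (nat_lit 5) (nat_lit 39) (nat_lit 4) (nat_lit 319) (nat_lit 296) (nat_lit 285)) (XT.lf (nat_lit 0) (nat_lit 1351629961) (nat_lit 228) (nat_lit 8061760940) (nat_lit 76) (nat_lit 521035494) (nat_lit 33) (nat_lit 5) (nat_lit 36) (nat_lit 5) (nat_lit 34) (nat_lit 4) (nat_lit 320) (nat_lit 296) (nat_lit 284))) (XT.nd (nat_lit 78) (nat_lit 152) (nat_lit 0) (XT.lf (nat_lit 0) (nat_lit 4839391453) (nat_lit 228) (nat_lit 1337736378) (nat_lit 76) (nat_lit 4170516029) (nat_lit 33) (nat_lit 5) (nat_lit 36) (nat_lit 5) (nat_lit 34) (nat_lit 4) (nat_lit 321) (nat_lit 296) (nat_lit 283)) (XT.lf (nat_lit 0) (nat_lit 5988331407) (nat_lit 152) (nat_lit 2609372257) (nat_lit 228) (nat_lit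 2197030426) (nat_lit 31) (nat_lit 5) (nat_lit 33) (nat_lit 5) (nat_lit 34) (nat_lit 4) (nat_lit 322) (nat_lit 296) (nat_lit 282)))) (XT.nd (nat_lit 156) (nat_lit 304) (nat_lit 0) (XT.nd (nat_lit 78) (nat_lit 0) (nat_lit 0) (XT.lf (nat_lit 0) (nat_lit 1289766255) (nat_lit 228) (nat_lit 8752218634) (nat_lit 76) (nat_lit 1234698211) (nat_lit 28) (nat_lit 5) (nat_lit 31) (nat_lit 5) (nat_lit 29) (nat_lit 4) (nat_lit 323) (nat_lit 296) (nat_lit 281)) (XT.lf (nat_lit 0) (nat_lit 4992281280) (nat_lit 228) (nat_lit 1440934936) (nat_lit 76) (nat_lit 5355078202) (nat_lit 28) (nat_lit 5) (nat_lit 31) (nat_lit 5) (nat_lit 29) (nat_lit 4) (nat_lit 324) (nat_lit 296) (nat_lit 280))) (XT.nd (nat_lit 78) (nat_lit 228) (nat_lit 0) (XT.lf (nat_lit 0) (nat_lit 6560128134) (nat_lit 76) (nat_lit 2452405848) (nat_lit 152) (nat_lit 3326678993) (nat_lit 27) (nat_lit 5) (nat_lit 28) (nat_lit 5) (nat_lit 29) (nat_lit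 4) (nat_lit 325) (nat_lit 296) (nat_lit 279)) (XT.nd (nat_lit 78) (nat_lit 0) (nat_lit 0) (XT.lf (nat_lit 0) (nat_lit 403256974) (nat_lit 228) (nat_lit 10754058572) (nat_lit 76) (nat_lit 1775841784) (nat_lit 24) (nat_lit 5) (nat_lit 27) (nat_lit 5) (nat_lit 25) (nat_lit 4) (nat_lit 326) (nat_lit 296) (nat_lit 278)) (XT.lf (nat_lit 0) (nat_lit 4345376370) (nat_lit 228) (nat_lit 2841073322) (nat_lit 76) (nat_lit 6373854088) (nat_lit 24) (nat_lit 5) (nat_lit 27) (nat_lit 5) (nat_lit 25) (nat_lit 4) (nat_lit 327) (nat_lit 296) (nat_lit 277))))))) (XT.nd (nat_lit 702) (nat_lit 456) (nat_lit 0) (XT.nd (nat_lit 312) (nat_lit 228) (nat_lit 0) (XT.nd (nat_lit 156) (nat_lit 152) (nat_lit 0) (XT.nd (nat_lit 78) (nat_lit 152) (nat_lit 0) (XT.lf (nat_lit 0) (nat_lit 5783637089) (nat_lit 76) (nat_lit 2835826860) (nat_lit 152) (nat_lit 5616904529) (nat_lit 23) (nat_lit 5) (nat_lit 24) (nat_lit 5) (nat_lit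 25) (nat_lit 4) (nat_lit 328) (nat_lit 296) (nat_lit 276)) (XT.lf (nat_lit 0) (nat_lit 42134316) (nat_lit 152) (nat_lit 13198404181) (nat_lit 152) (nat_lit 1725643967) (nat_lit 21) (nat_lit 4) (nat_lit 23) (nat_lit 5) (nat_lit 23) (nat_lit 4) (nat_lit 329) (nat_lit 296) (nat_lit 275))) (XT.nd (nat_lit 78) (nat_lit 76) (nat_lit 0) (XT.lf (nat_lit 0) (nat_lit 2544181212) (nat_lit 228) (nat_lit 6391539821) (nat_lit 76) (nat_lit 6798660484) (nat_lit 20) (nat_lit 5) (nat_lit 23) (nat_lit 5) (nat_lit 21) (nat_lit 4) (nat_lit 330) (nat_lit 296) (nat_lit 274)) (XT.lf (nat_lit 0) (nat_lit 2716761618) (nat_lit 76) (nat_lit 4300194738) (nat_lit 152) (nat_lit 9547181602) (nat_lit 19) (nat_lit 5) (nat_lit 20) (nat_lit 5) (nat_lit 21) (nat_lit 4) (nat_lit 331) (nat_lit 296) (nat_lit 273)))) (XT.nd (nat_lit 156) (nat_lit 152) (nat_lit 0) (XT.nd (nat_lit 78) (nat_lit 76) (nat_lit 0) (XT.lf (nat_lit 0)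 (nat_lit 11934591005) (nat_lit 152) (nat_lit 4750040532) (nat_lit 0) (nat_lit 768731030) (nat_lit 19) (nat_lit 5) (nat_lit 21) (nat_lit 4) (nat_lit 19) (nat_lit 4) (nat_lit 332) (nat_lit 296) (nat_lit 272)) (XT.lf (nat_lit 0) (nat_lit 5030358029) (nat_lit 76) (nat_lit 12346802789) (nat_lit 76) (nat_lit 1026089275) (nat_lit 18) (nat_lit 4) (nat_lit 19) (nat_lit 5) (nat_lit 19) (nat_lit 4) (nat_lit 333) (nat_lit 296) (nat_lit 271))) (XT.nd (nat_lit 78) (nat_lit 76) (nat_lit 0) (XT.lf (nat_lit 0) (nat_lit 3667291214) (nat_lit 152) (nat_lit 3836130694) (nat_lit 76) (nat_lit 11915771592) (nat_lit 17) (nat_lit 5) (nat_lit 19) (nat_lit 5) (nat_lit 18) (nat_lit 4) (nat_lit 334) (nat_lit 296) (nat_lit 270)) (XT.nd (nat_lit 78) (nat_lit 0) (nat_lit 0) (XT.lf (nat_lit 0) (nat_lit 6595238037) (nat_lit 76) (nat_lit 2150962158) (nat_lit 152) (nat_lit 11762877799) (nat_lit 16) (nat_lit 5) (nat_lit 17)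 (nat_lit 5) (nat_lit 18) (nat_lit 4) (nat_lit 335) (nat_lit 296) (nat_lit 269)) (XT.lf (nat_lit 0) (nat_lit 14334228214) (nat_lit 152) (nat_lit 3861160584) (nat_lit 0) (nat_lit 3482574416) (nat_lit 16) (nat_lit 5) (nat_lit 18) (nat_lit 4) (nat_lit 16) (nat_lit 4) (nat_lit 336) (nat_lit 296) (nat_lit 268)))))) (XT.nd (nat_lit 312) (nat_lit 228) (nat_lit 0) (XT.nd (nat_lit 156) (nat_lit 76) (nat_lit 0) (XT.nd (nat_lit 78) (nat_lit 76) (nat_lit 0) (XT.lf (nat_lit 0) (nat_lit 7137015954) (nat_lit 76) (nat_lit 13374520353) (nat_lit 76) (nat_lit 2417475838) (nat_lit 15) (nat_lit 4) (nat_lit 16) (nat_lit 5) (nat_lit 16) (nat_lit 4) (nat_lit 337) (nat_lit 296) (nat_lit 267)) (XT.lf (nat_lit 0) (nat_lit 2781099319) (nat_lit 152) (nat_lit 5269941927) (nat_lit 76) (nat_lit 16221671611) (nat_lit 14) (nat_lit 5) (nat_lit 16) (nat_lit 5) (nat_lit 15) (nat_lit 4) (nat_lit 338) (nat_lit 296) (nat_lit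 266))) (XT.nd (nat_lit 78) (nat_lit 0) (nat_lit 0) (XT.lf (nat_lit 0) (nat_lit 6192409771) (nat_lit 76) (nat_lit 2142875726) (nat_lit 152) (nat_lit 17377999621) (nat_lit 13) (nat_lit 5) (nat_lit 14) (nat_lit 5) (nat_lit 15) (nat_lit 4) (nat_lit 339) (nat_lit 296) (nat_lit 265)) (XT.lf (nat_lit 0) (nat_lit 14505661638) (nat_lit 152) (nat_lit 8640949952) (nat_lit 0) (nat_lit 4108766626) (nat_lit 13) (nat_lit 5) (nat_lit 15) (nat_lit 4) (nat_lit 13) (nat_lit 4) (nat_lit 340) (nat_lit 296) (nat_lit 264)))) (XT.nd (nat_lit 156) (nat_lit 152) (nat_lit 0) (XT.nd (nat_lit 78) (nat_lit 0) (nat_lit 0) (XT.lf (nat_lit 0) (nat_lit 3069125049) (nat_lit 76) (nat_lit 18157885107) (nat_lit 76) (nat_lit 7689262945) (nat_lit 12) (nat_lit 4) (nat_lit 13) (nat_lit 5) (nat_lit 13) (nat_lit 4) (nat_lit 341) (nat_lit 296) (nat_lit 263)) (XT.lf (nat_lit 0) (nat_lit 16072805744) (nat_lit 76) (nat_lit 12579495675)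 (nat_lit 76) (nat_lit 2044459484) (nat_lit 12) (nat_lit 4) (nat_lit 13) (nat_lit 5) (nat_lit 13) (nat_lit 4) (nat_lit 342) (nat_lit 296) (nat_lit 262))) (XT.nd (nat_lit 78) (nat_lit 76) (nat_lit 0) (XT.lf (nat_lit 0) (nat_lit 3782695561) (nat_lit 152) (nat_lit 2728523894) (nat_lit 76) (nat_lit 26106012707) (nat_lit 11) (nat_lit 5) (nat_lit 13) (nat_lit 5) (nat_lit 12) (nat_lit 4) (nat_lit 343) (nat_lit 296) (nat_lit 261)) (XT.nd (nat_lit 78) (nat_lit 0) (nat_lit 0) (XT.lf (nat_lit 0) (nat_lit 10163346076) (nat_lit 152) (nat_lit 24208918612) (nat_lit 0) (nat_lit 299022014) (nat_lit 10) (nat_lit 5) (nat_lit 12) (nat_lit 4) (nat_lit 10) (nat_lit 4) (nat_lit 344) (nat_lit 296) (nat_lit 260)) (XT.lf (nat_lit 0) (nat_lit 17238940454) (nat_lit 152) (nat_lit 12310180494) (nat_lit 0) (nat_lit 7325800098) (nat_lit 10) (nat_lit 5) (nat_lit 12) (nat_lit 4) (nat_lit 10) (nat_lit 4) (nat_lit 345) (nat_lit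 296) (nat_lit 259))))))))
noncomputable def xc84 : XT := (XT.nd (nat_lit 1404) (nat_lit 228) (nat_lit 0) (XT.nd (nat_lit 702) (nat_lit 152) (nat_lit 0) (XT.nd (nat_lit 312) (nat_lit 152) (nat_lit 0) (XT.nd (nat_lit 156) (nat_lit 76) (nat_lit 0) (XT.nd (nat_lit 78) (nat_lit 0) (nat_lit 0) (XT.lf (nat_lit 0) (nat_lit 452804263) (nat_lit 76) (nat_lit 24382028096) (nat_lit 76) (nat_lit 14423687468) (nat_lit 9) (nat_lit 4) (nat_lit 10) (nat_lit 5) (nat_lit 10) (nat_lit 4) (nat_lit 346) (nat_lit 296) (nat_lit 258)) (XT.lf (nat_lit 0) (nat_lit 14829407654) (nat_lit 76) (nat_lit 18490540048) (nat_lit 76) (nat_lit 8490347317) (nat_lit 9) (nat_lit 4) (nat_lit 10) (nat_lit 5) (nat_lit 10) (nat_lit 4) (nat_lit 347) (nat_lit 296) (nat_lit 257))) (XT.nd (nat_lit 78) (nat_lit 76) (nat_lit 0) (XT.lf (nat_lit 0) (nat_lit 30256592077) (nat_lit 76) (nat_lit 12176326433) (nat_lit 76) (nat_lit 2137381754)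 (nat_lit 9) (nat_lit 4) (nat_lit 10) (nat_lit 5) (nat_lit 10) (nat_lit 4) (nat_lit 348) (nat_lit 296) (nat_lit 256)) (XT.lf (nat_lit 0) (nat_lit 4439101219) (nat_lit 152) (nat_lit 841495575) (nat_lit 76) (nat_lit 42265303770) (nat_lit 8) (nat_lit 5) (nat_lit 10) (nat_lit 5) (nat_lit 9) (nat_lit 4) (nat_lit 349) (nat_lit 296) (nat_lit 255)))) (XT.nd (nat_lit 156) (nat_lit 76) (nat_lit 0) (XT.nd (nat_lit 78) (nat_lit 0) (nat_lit 0) (XT.lf (nat_lit 0) (nat_lit 11786266241) (nat_lit 152) (nat_lit 36513086649) (nat_lit 0) (nat_lit 2426960999) (nat_lit 7) (nat_lit 5) (nat_lit 9) (nat_lit 4) (nat_lit 7) (nat_lit 4) (nat_lit 350) (nat_lit 296) (nat_lit 254)) (XT.lf (nat_lit 0) (nat_lit 19837395616) (nat_lit 152) (nat_lit 23864871461) (nat_lit 0) (nat_lit 10449606536) (nat_lit 7) (nat_lit 5) (nat_lit 9) (nat_lit 4) (nat_lit 7) (nat_lit 4) (nat_lit 351) (nat_lit 296) (nat_lit 253))) (XT.nd (nat_lit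 78) (nat_lit 76) (nat_lit 0) (XT.lf (nat_lit 0) (nat_lit 28491344234) (nat_lit 152) (nat_lit 10286262329) (nat_lit 0) (nat_lit 19077181229) (nat_lit 7) (nat_lit 5) (nat_lit 9) (nat_lit 4) (nat_lit 7) (nat_lit 4) (nat_lit 352) (nat_lit 296) (nat_lit 252)) (XT.nd (nat_lit 78) (nat_lit 0) (nat_lit 0) (XT.lf (nat_lit 0) (nat_lit 4529805810) (nat_lit 76) (nat_lit 33378530880) (nat_lit 76) (nat_lit 23939947575) (nat_lit 6) (nat_lit 4) (nat_lit 7) (nat_lit 5) (nat_lit 7) (nat_lit 4) (nat_lit 353) (nat_lit 296) (nat_lit 251)) (XT.lf (nat_lit 0) (nat_lit 21042628894) (nat_lit 76) (nat_lit 27280152825) (nat_lit 76) (nat_lit 17818958131) (nat_lit 6) (nat_lit 4) (nat_lit 7) (nat_lit 5) (nat_lit 7) (nat_lit 4) (nat_lit 354) (nat_lit 296) (nat_lit 250)))))) (XT.nd (nat_lit 312) (nat_lit 0) (nat_lit 0) (XT.nd (nat_lit 156) (nat_lit 152) (nat_lit 0) (XT.nd (nat_lit 78) (nat_lit 0) (nat_lit 0) (XT.lf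 (nat_lit 0) (nat_lit 38808404343) (nat_lit 76) (nat_lit 20727578503) (nat_lit 76) (nat_lit 11245447337) (nat_lit 6) (nat_lit 4) (nat_lit 7) (nat_lit 5) (nat_lit 7) (nat_lit 4) (nat_lit 355) (nat_lit 296) (nat_lit 249)) (XT.lf (nat_lit 0) (nat_lit 57932410826) (nat_lit 76) (nat_lit 13681977844) (nat_lit 76) (nat_lit 4180461056) (nat_lit 6) (nat_lit 4) (nat_lit 7) (nat_lit 5) (nat_lit 7) (nat_lit 4) (nat_lit 356) (nat_lit 296) (nat_lit 248))) (XT.nd (nat_lit 78) (nat_lit 76) (nat_lit 0) (XT.lf (nat_lit 0) (nat_lit 3246891732) (nat_lit 152) (nat_lit 2765931633) (nat_lit 76) (nat_lit 75192308281) (nat_lit 5) (nat_lit 5) (nat_lit 7) (nat_lit 5) (nat_lit 6) (nat_lit 4) (nat_lit 357) (nat_lit 296) (nat_lit 247)) (XT.lf (nat_lit 0) (nat_lit 11418688716) (nat_lit 152) (nat_lit 73001797628) (nat_lit 0) (nat_lit 2588979009) (nat_lit 4) (nat_lit 5) (nat_lit 6) (nat_lit 4) (nat_lit 4) (nat_lit 4)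 (nat_lit 358) (nat_lit 296) (nat_lit 246)))) (XT.nd (nat_lit 156) (nat_lit 0) (nat_lit 0) (XT.nd (nat_lit 78) (nat_lit 0) (nat_lit 0) (XT.lf (nat_lit 0) (nat_lit 20450103055) (nat_lit 152) (nat_lit 61205432792) (nat_lit 0) (nat_lit 11606144337) (nat_lit 4) (nat_lit 5) (nat_lit 6) (nat_lit 4) (nat_lit 4) (nat_lit 4) (nat_lit 359) (nat_lit 296) (nat_lit 245)) (XT.lf (nat_lit 0) (nat_lit 30178203315) (nat_lit 152) (nat_lit 48516887992) (nat_lit 0) (nat_lit 21321051068) (nat_lit 4) (nat_lit 5) (nat_lit 6) (nat_lit 4) (nat_lit 4) (nat_lit 4) (nat_lit 360) (nat_lit 296) (nat_lit 244))) (XT.nd (nat_lit 78) (nat_lit 0) (nat_lit 0) (XT.lf (nat_lit 0) (nat_lit 40660637497) (nat_lit 152) (nat_lit 34860971852) (nat_lit 0) (nat_lit 31791269021) (nat_lit 4) (nat_lit 5) (nat_lit 6) (nat_lit 4) (nat_lit 4) (nat_lit 4) (nat_lit 361) (nat_lit 296) (nat_lit 243)) (XT.nd (nat_lit 78) (nat_lit 0) (nat_lit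 0) (XT.lf (nat_lit 0) (nat_lit 51959523730) (nat_lit 152) (nat_lit 20156760425) (nat_lit 0) (nat_lit 43078843929) (nat_lit 4) (nat_lit 5) (nat_lit 6) (nat_lit 4) (nat_lit 4) (nat_lit 4) (nat_lit 362) (nat_lit 296) (nat_lit 242)) (XT.lf (nat_lit 0) (nat_lit 64141818377) (nat_lit 152) (nat_lit 4317117642) (nat_lit 0) (nat_lit 55250665128) (nat_lit 4) (nat_lit 5) (nat_lit 6) (nat_lit 4) (nat_lit 4) (nat_lit 4) (nat_lit 363) (nat_lit 296) (nat_lit 241))))))) (XT.nd (nat_lit 702) (nat_lit 152) (nat_lit 0) (XT.nd (nat_lit 312) (nat_lit 0) (nat_lit 0) (XT.nd (nat_lit 156) (nat_lit 0) (nat_lit 0) (XT.nd (nat_lit 78) (nat_lit 0) (nat_lit 0) (XT.lf (nat_lit 0) (nat_lit 13423309344) (nat_lit 76) (nat_lit 64179234382) (nat_lit 76) (nat_lit 55278383495) (nat_lit 3) (nat_lit 4) (nat_lit 4) (nat_lit 5) (nat_lit 4) (nat_lit 4) (nat_lit 364) (nat_lit 296) (nat_lit 240)) (XT.lf (nat_lit 0) (nat_lit 32791572151)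 (nat_lit 76) (nat_lit 59448127176) (nat_lit 76) (nat_lit 50538296995) (nat_lit 3) (nat_lit 4) (nat_lit 4) (nat_lit 5) (nat_lit 4) (nat_lit 4) (nat_lit 365) (nat_lit 296) (nat_lit 239))) (XT.nd (nat_lit 78) (nat_lit 0) (nat_lit 0) (XT.lf (nat_lit 0) (nat_lit 53675113906) (nat_lit 76) (nat_lit 54355615857) (nat_lit 76) (nat_lit 45437471516) (nat_lit 3) (nat_lit 4) (nat_lit 4) (nat_lit 5) (nat_lit 4) (nat_lit 4) (nat_lit 366) (nat_lit 296) (nat_lit 238)) (XT.lf (nat_lit 0) (nat_lit 76197688929) (nat_lit 76) (nat_lit 48871522581) (nat_lit 76) (nat_lit 39945679943) (nat_lit 3) (nat_lit 4) (nat_lit 4) (nat_lit 5) (nat_lit 4) (nat_lit 4) (nat_lit 367) (nat_lit 296) (nat_lit 237)))) (XT.nd (nat_lit 156) (nat_lit 0) (nat_lit 0) (XT.nd (nat_lit 78) (nat_lit 0) (nat_lit 0) (XT.lf (nat_lit 0) (nat_lit 100492764333) (nat_lit 76) (nat_lit 42963349017) (nat_lit 76) (nat_lit 34030378326) (nat_lit 3)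 (nat_lit 4) (nat_lit 4) (nat_lit 5) (nat_lit 4) (nat_lit 4) (nat_lit 368) (nat_lit 296) (nat_lit 236)) (XT.lf (nat_lit 0) (nat_lit 126704310933) (nat_lit 76) (nat_lit 36596083767) (nat_lit 76) (nat_lit 27656513026) (nat_lit 3) (nat_lit 4) (nat_lit 4) (nat_lit 5) (nat_lit 4) (nat_lit 4) (nat_lit 369) (nat_lit 296) (nat_lit 235))) (XT.nd (nat_lit 78) (nat_lit 0) (nat_lit 0) (XT.lf (nat_lit 0) (nat_lit 154987656415) (nat_lit 76) (nat_lit 29731994887) (nat_lit 76) (nat_lit 20786312990) (nat_lit 3) (nat_lit 4) (nat_lit 4) (nat_lit 5) (nat_lit 4) (nat_lit 4) (nat_lit 370) (nat_lit 296) (nat_lit 234)) (XT.nd (nat_lit 78) (nat_lit 0) (nat_lit 0) (XT.lf (nat_lit 0) (nat_lit 185510405787) (nat_lit 76) (nat_lit 22330406296) (nat_lit 76) (nat_lit 13379065922) (nat_lit 3) (nat_lit 4) (nat_lit 4) (nat_lit 5) (nat_lit 4) (nat_lit 4) (nat_lit 371) (nat_lit 296) (nat_lit 233)) (XT.lf (nat_lit 0) (nat_lit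 218453434603) (nat_lit 76) (nat_lit 14347456729) (nat_lit 76) (nat_lit 5390877022) (nat_lit 3) (nat_lit 4) (nat_lit 4) (nat_lit 5) (nat_lit 4) (nat_lit 4) (nat_lit 372) (nat_lit 296) (nat_lit 232)))))) (XT.nd (nat_lit 312) (nat_lit 0) (nat_lit 0) (XT.nd (nat_lit 156) (nat_lit 0) (nat_lit 0) (XT.nd (nat_lit 78) (nat_lit 76) (nat_lit 0) (XT.lf (nat_lit 0) (nat_lit 3064233991) (nat_lit 152) (nat_lit 2587824238) (nat_lit 76) (nat_lit 250863945231) (nat_lit 2) (nat_lit 5) (nat_lit 4) (nat_lit 5) (nat_lit 3) (nat_lit 4) (nat_lit 373) (nat_lit 296) (nat_lit 231)) (XT.lf (nat_lit 0) (nat_lit 12398118439) (nat_lit 152) (nat_lit 259761031369) (nat_lit 0) (nat_lit 4096338048) (nat_lit 1) (nat_lit 5) (nat_lit 3) (nat_lit 4) (nat_lit 1) (nat_lit 4) (nat_lit 374) (nat_lit 296) (nat_lit 230))) (XT.nd (nat_lit 78) (nat_lit 0) (nat_lit 0) (XT.lf (nat_lit 0) (nat_lit 22688669951) (nat_lit 152) (nat_lit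 260485627220) (nat_lit 0) (nat_lit 14383038495) (nat_lit 1) (nat_lit 5) (nat_lit 3) (nat_lit 4) (nat_lit 1) (nat_lit 4) (nat_lit 375) (nat_lit 296) (nat_lit 229)) (XT.lf (nat_lit 0) (nat_lit 33793721223) (nat_lit 152) (nat_lit 261285786740) (nat_lit 0) (nat_lit 25484523965) (nat_lit 1) (nat_lit 5) (nat_lit 3) (nat_lit 4) (nat_lit 1) (nat_lit 4) (nat_lit 376) (nat_lit 296) (nat_lit 228)))) (XT.nd (nat_lit 156) (nat_lit 0) (nat_lit 0) (XT.nd (nat_lit 78) (nat_lit 0) (nat_lit 0) (XT.lf (nat_lit 0) (nat_lit 45779079965) (nat_lit 152) (nat_lit 262166251617) (nat_lit 0) (nat_lit 37466581040) (nat_lit 1) (nat_lit 5) (nat_lit 3) (nat_lit 4) (nat_lit 1) (nat_lit 4) (nat_lit 377) (nat_lit 296) (nat_lit 227)) (XT.lf (nat_lit 0) (nat_lit 58715770527) (nat_lit 152) (nat_lit 263132239420) (nat_lit 0) (nat_lit 50400214503) (nat_lit 1) (nat_lit 5) (nat_lit 3) (nat_lit 4) (nat_lit 1) (nat_lit 4) (nat_lit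 378) (nat_lit 296) (nat_lit 226))) (XT.nd (nat_lit 78) (nat_lit 0) (nat_lit 0) (XT.lf (nat_lit 0) (nat_lit 72680454778) (nat_lit 152) (nat_lit 264189474520) (nat_lit 0) (nat_lit 64362068106) (nat_lit 1) (nat_lit 5) (nat_lit 3) (nat_lit 4) (nat_lit 1) (nat_lit 4) (nat_lit 379) (nat_lit 296) (nat_lit 225)) (XT.nd (nat_lit 78) (nat_lit 0) (nat_lit 0) (XT.lf (nat_lit 0) (nat_lit 87755886403) (nat_lit 152) (nat_lit 265344222015) (nat_lit 0) (nat_lit 79434878760) (nat_lit 1) (nat_lit 5) (nat_lit 3) (nat_lit 4) (nat_lit 1) (nat_lit 4) (nat_lit 380) (nat_lit 296) (nat_lit 224)) (XT.lf (nat_lit 0) (nat_lit 104031401292) (nat_lit 152) (nat_lit 266603324854) (nat_lit 0) (nat_lit 95707966825) (nat_lit 1) (nat_lit 5) (nat_lit 3) (nat_lit 4) (nat_lit 1) (nat_lit 4) (nat_lit 381) (nat_lit 296) (nat_lit 223))))))))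
noncomputable def xc85 : XT := (XT.nd (nat_lit 1404) (nat_lit 0) (nat_lit 0) (XT.nd (nat_lit 702) (nat_lit 0) (nat_lit 0) (XT.nd (nat_lit 312) (nat_lit 0) (nat_lit 0) (XT.nd (nat_lit 156) (nat_lit 0) (nat_lit 0) (XT.nd (nat_lit 78) (nat_lit 0) (nat_lit 0) (XT.lf (nat_lit 0) (nat_lit 121603446941) (nat_lit 152) (nat_lit 267974244385) (nat_lit 0) (nat_lit 113277765414) (nat_lit 1) (nat_lit 5) (nat_lit 3) (nat_lit 4) (nat_lit 1) (nat_lit 4) (nat_lit 382) (nat_lit 296) (nat_lit 222)) (XT.lf (nat_lit 0) (nat_lit 140576153991) (nat_lit 152) (nat_lit 269465104577) (nat_lit 0) (nat_lit 132248391854) (nat_lit 1) (nat_lit 5) (nat_lit 3) (nat_lit 4) (nat_lit 1) (nat_lit 4) (nat_lit 383) (nat_lit 296) (nat_lit 221))) (XT.nd (nat_lit 78) (nat_lit 0) (nat_lit 0) (XT.lf (nat_lit 0) (nat_lit 161061953300) (nat_lit 152) (nat_lit 271084740157) (nat_lit 0) (nat_lit 152732264671) (nat_lit 1) (nat_lit 5)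 (nat_lit 3) (nat_lit 4) (nat_lit 1) (nat_lit 4) (nat_lit 384) (nat_lit 296) (nat_lit 220)) (XT.lf (nat_lit 0) (nat_lit 183182242195) (nat_lit 152) (nat_lit 272842748964) (nat_lit 0) (nat_lit 174850769778) (nat_lit 1) (nat_lit 5) (nat_lit 3) (nat_lit 4) (nat_lit 1) (nat_lit 4) (nat_lit 385) (nat_lit 296) (nat_lit 219)))) (XT.nd (nat_lit 156) (nat_lit 0) (nat_lit 0) (XT.nd (nat_lit 78) (nat_lit 0) (nat_lit 0) (XT.lf (nat_lit 0) (nat_lit 207068103870) (nat_lit 152) (nat_lit 274749548831) (nat_lit 0) (nat_lit 198734979798) (nat_lit 1) (nat_lit 5) (nat_lit 3) (nat_lit 4) (nat_lit 1) (nat_lit 4) (nat_lit 386) (nat_lit 296) (nat_lit 218)) (XT.lf (nat_lit 0) (nat_lit 232861084173) (nat_lit 152) (nat_lit 276816439310) (nat_lit 0) (nat_lit 224526430790) (nat_lit 1) (nat_lit 5) (nat_lit 3) (nat_lit 4) (nat_lit 1) (nat_lit 4) (nat_lit 387) (nat_lit 296) (nat_lit 217))) (XT.nd (nat_lit 78) (nat_lit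 0) (nat_lit 0) (XT.lf (nat_lit 0) (nat_lit 260714030395) (nat_lit 152) (nat_lit 279055668641) (nat_lit 0) (nat_lit 252377960982) (nat_lit 1) (nat_lit 5) (nat_lit 3) (nat_lit 4) (nat_lit 1) (nat_lit 4) (nat_lit 388) (nat_lit 296) (nat_lit 216)) (XT.nd (nat_lit 78) (nat_lit 0) (nat_lit 0) (XT.lf (nat_lit 0) (nat_lit 290791997030) (nat_lit 152) (nat_lit 281480506333) (nat_lit 0) (nat_lit 282454616480) (nat_lit 1) (nat_lit 5) (nat_lit 3) (nat_lit 4) (nat_lit 1) (nat_lit 4) (nat_lit 389) (nat_lit 296) (nat_lit 215)) (XT.lf (nat_lit 0) (nat_lit 323273223882) (nat_lit 152) (nat_lit 284105321794) (nat_lit 0) (nat_lit 314934629315) (nat_lit 1) (nat_lit 5) (nat_lit 3) (nat_lit 4) (nat_lit 1) (nat_lit 4) (nat_lit 390) (nat_lit 296) (nat_lit 214)))))) (XT.nd (nat_lit 312) (nat_lit 0) (nat_lit 0) (XT.nd (nat_lit 156) (nat_lit 0) (nat_lit 0) (XT.nd (nat_lit 78) (nat_lit 0) (nat_lit 0) (XT.lf (nat_lit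 0) (nat_lit 358350192294) (nat_lit 152) (nat_lit 286945669484) (nat_lit 0) (nat_lit 350010473639) (nat_lit 1) (nat_lit 5) (nat_lit 3) (nat_lit 4) (nat_lit 1) (nat_lit 4) (nat_lit 391) (nat_lit 296) (nat_lit 213)) (XT.lf (nat_lit 0) (nat_lit 396230765784) (nat_lit 152) (nat_lit 290018381096) (nat_lit 0) (nat_lit 387890006305) (nat_lit 1) (nat_lit 5) (nat_lit 3) (nat_lit 4) (nat_lit 1) (nat_lit 4) (nat_lit 392) (nat_lit 296) (nat_lit 212))) (XT.nd (nat_lit 78) (nat_lit 0) (nat_lit 0) (XT.lf (nat_lit 0) (nat_lit 437139421824) (nat_lit 152) (nat_lit 293341665289) (nat_lit 0) (nat_lit 428797698620) (nat_lit 1) (nat_lit 5) (nat_lit 3) (nat_lit 4) (nat_lit 1) (nat_lit 4) (nat_lit 393) (nat_lit 296) (nat_lit 211)) (XT.lf (nat_lit 0) (nat_lit 481318582079) (nat_lit 152) (nat_lit 296935215600) (nat_lit 0) (nat_lit 472975966536) (nat_lit 1) (nat_lit 5) (nat_lit 3) (nat_lit 4) (nat_lit 1) (nat_lit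 4) (nat_lit 394) (nat_lit 296) (nat_lit 210)))) (XT.nd (nat_lit 156) (nat_lit 0) (nat_lit 0) (XT.nd (nat_lit 78) (nat_lit 0) (nat_lit 0) (XT.lf (nat_lit 0) (nat_lit 529030048980) (nat_lit 152) (nat_lit 300820327142) (nat_lit 0) (nat_lit 520686607199) (nat_lit 1) (nat_lit 5) (nat_lit 3) (nat_lit 4) (nat_lit 1) (nat_lit 4) (nat_lit 395) (nat_lit 296) (nat_lit 209)) (XT.lf (nat_lit 0) (nat_lit 580556557147) (nat_lit 152) (nat_lit 305020022798) (nat_lit 0) (nat_lit 572212350329) (nat_lit 1) (nat_lit 5) (nat_lit 3) (nat_lit 4) (nat_lit 1) (nat_lit 4) (nat_lit 396) (nat_lit 296) (nat_lit 208))) (XT.nd (nat_lit 78) (nat_lit 0) (nat_lit 0) (XT.lf (nat_lit 0) (nat_lit 636203448849) (nat_lit 152) (nat_lit 309559189654) (nat_lit 0) (nat_lit 627858533664) (nat_lit 1) (nat_lit 5) (nat_lit 3) (nat_lit 4) (nat_lit 1) (nat_lit 4) (nat_lit 397) (nat_lit 296) (nat_lit 207)) (XT.nd (nat_lit 78) (nat_lit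 0) (nat_lit 0) (XT.lf (nat_lit 0) (nat_lit 696300483445) (nat_lit 152) (nat_lit 314464726475) (nat_lit 0) (nat_lit 687954912365) (nat_lit 1) (nat_lit 5) (nat_lit 3) (nat_lit 4) (nat_lit 1) (nat_lit 4) (nat_lit 398) (nat_lit 296) (nat_lit 206)) (XT.lf (nat_lit 0) (nat_lit 761203791511) (nat_lit 152) (nat_lit 319765703110) (nat_lit 0) (nat_lit 752857613120) (nat_lit 1) (nat_lit 5) (nat_lit 3) (nat_lit 4) (nat_lit 1) (nat_lit 4) (nat_lit 399) (nat_lit 296) (nat_lit 205))))))) (XT.nd (nat_lit 702) (nat_lit 0) (nat_lit 0) (XT.nd (nat_lit 312) (nat_lit 0) (nat_lit 0) (XT.nd (nat_lit 156) (nat_lit 0) (nat_lit 0) (XT.nd (nat_lit 78) (nat_lit 0) (nat_lit 0) (XT.lf (nat_lit 0) (nat_lit 831297985242) (nat_lit 152) (nat_lit 325493532754) (nat_lit 0) (nat_lit 822951244527) (nat_lit 1) (nat_lit 5) (nat_lit 3) (nat_lit 4) (nat_lit 1) (nat_lit 4) (nat_lit 400) (nat_lit 296) (nat_lit 204)) (XT.lf (nat_lit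 0) (nat_lit 906998437638) (nat_lit 152) (nat_lit 331682158101) (nat_lit 0) (nat_lit 898651176252) (nat_lit 1) (nat_lit 5) (nat_lit 3) (nat_lit 4) (nat_lit 1) (nat_lit 4) (nat_lit 401) (nat_lit 296) (nat_lit 203))) (XT.nd (nat_lit 78) (nat_lit 0) (nat_lit 0) (XT.lf (nat_lit 0) (nat_lit 988753743972) (nat_lit 152) (nat_lit 338368252486) (nat_lit 0) (nat_lit 980406000484) (nat_lit 1) (nat_lit 5) (nat_lit 3) (nat_lit 4) (nat_lit 1) (nat_lit 4) (nat_lit 402) (nat_lit 296) (nat_lit 202)) (XT.lf (nat_lit 0) (nat_lit 1077048380135) (nat_lit 152) (nat_lit 345591437209) (nat_lit 0) (nat_lit 1068700190255) (nat_lit 1) (nat_lit 5) (nat_lit 3) (nat_lit 4) (nat_lit 1) (nat_lit 4) (nat_lit 403) (nat_lit 296) (nat_lit 201)))) (XT.nd (nat_lit 156) (nat_lit 0) (nat_lit 0) (XT.nd (nat_lit 78) (nat_lit 0) (nat_lit 0) (XT.lf (nat_lit 0) (nat_lit 1172405573599) (nat_lit 152) (nat_lit 353394516328) (nat_lit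 0) (nat_lit 1164056970394) (nat_lit 1) (nat_lit 5) (nat_lit 3) (nat_lit 4) (nat_lit 1) (nat_lit 4) (nat_lit 404) (nat_lit 296) (nat_lit 200)) (XT.lf (nat_lit 0) (nat_lit 1275390404029) (nat_lit 152) (nat_lit 361823730312) (nat_lit 0) (nat_lit 1267041418116) (nat_lit 1) (nat_lit 5) (nat_lit 3) (nat_lit 4) (nat_lit 1) (nat_lit 4) (nat_lit 405) (nat_lit 296) (nat_lit 199))) (XT.nd (nat_lit 78) (nat_lit 0) (nat_lit 0) (XT.lf (nat_lit 0) (nat_lit 1386613151903) (nat_lit 152) (nat_lit 370929030059) (nat_lit 0) (nat_lit 1378263811630) (nat_lit 1) (nat_lit 5) (nat_lit 3) (nat_lit 4) (nat_lit 1) (nat_lit 4) (nat_lit 406) (nat_lit 296) (nat_lit 198)) (XT.nd (nat_lit 78) (nat_lit 0) (nat_lit 0) (XT.lf (nat_lit 0) (nat_lit 1506732914985) (nat_lit 152) (nat_lit 380764372900) (nat_lit 0) (nat_lit 1498383246601) (nat_lit 1) (nat_lit 5) (nat_lit 3) (nat_lit 4) (nat_lit 1) (nat_lit 4) (nat_lit 407) (nat_lit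 296) (nat_lit 197)) (XT.lf (nat_lit 0) (nat_lit 1636461514094) (nat_lit 152) (nat_lit 391388042348) (nat_lit 0) (nat_lit 1628111541903) (nat_lit 1) (nat_lit 5) (nat_lit 3) (nat_lit 4) (nat_lit 1) (nat_lit 4) (nat_lit 408) (nat_lit 296) (nat_lit 196)))))) (XT.nd (nat_lit 312) (nat_lit 0) (nat_lit 0) (XT.nd (nat_lit 156) (nat_lit 0) (nat_lit 0) (XT.nd (nat_lit 78) (nat_lit 0) (nat_lit 0) (XT.lf (nat_lit 0) (nat_lit 1776567711298) (nat_lit 152) (nat_lit 402862993482) (nat_lit 0) (nat_lit 1768217457805) (nat_lit 1) (nat_lit 5) (nat_lit 3) (nat_lit 4) (nat_lit 1) (nat_lit 4) (nat_lit 409) (nat_lit 296) (nat_lit 195)) (XT.lf (nat_lit 0) (nat_lit 1927881765544) (nat_lit 152) (nat_lit 415257226011) (nat_lit 0) (nat_lit 1919531251586) (nat_lit 1) (nat_lit 5) (nat_lit 3) (nat_lit 4) (nat_lit 1) (nat_lit 4) (nat_lit 410) (nat_lit 296) (nat_lit 194))) (XT.nd (nat_lit 78) (nat_lit 0) (nat_lit 0) (XT.lf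 (nat_lit 0) (nat_lit 2091300352709) (nat_lit 152) (nat_lit 428644187241) (nat_lit 0) (nat_lit 2082949597579) (nat_lit 1) (nat_lit 5) (nat_lit 3) (nat_lit 4) (nat_lit 1) (nat_lit 4) (nat_lit 411) (nat_lit 296) (nat_lit 193)) (XT.lf (nat_lit 0) (nat_lit 2267791879235) (nat_lit 152) (nat_lit 443103207312) (nat_lit 0) (nat_lit 2259440900798) (nat_lit 1) (nat_lit 5) (nat_lit 3) (nat_lit 4) (nat_lit 1) (nat_lit 4) (nat_lit 412) (nat_lit 296) (nat_lit 192)))) (XT.nd (nat_lit 156) (nat_lit 0) (nat_lit 0) (XT.nd (nat_lit 78) (nat_lit 0) (nat_lit 0) (XT.lf (nat_lit 0) (nat_lit 2458402220835) (nat_lit 152) (nat_lit 458719969304) (nat_lit 0) (nat_lit 2450051035633) (nat_lit 1) (nat_lit 5) (nat_lit 3) (nat_lit 4) (nat_lit 1) (nat_lit 4) (nat_lit 413) (nat_lit 296) (nat_lit 191)) (XT.lf (nat_lit 0) (nat_lit 2664260920274) (nat_lit 152) (nat_lit 475587016994) (nat_lit 0) (nat_lit 2655909543622) (nat_lit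 1) (nat_lit 5) (nat_lit 3) (nat_lit 4) (nat_lit 1) (nat_lit 4) (nat_lit 414) (nat_lit 296) (nat_lit 190))) (XT.nd (nat_lit 78) (nat_lit 0) (nat_lit 0) (XT.lf (nat_lit 0) (nat_lit 2886587880956) (nat_lit 152) (nat_lit 493804303257) (nat_lit 0) (nat_lit 2878236327036) (nat_lit 1) (nat_lit 5) (nat_lit 3) (nat_lit 4) (nat_lit 1) (nat_lit 4) (nat_lit 415) (nat_lit 296) (nat_lit 189)) (XT.nd (nat_lit 38298) (nat_lit 0) (nat_lit 5548) (XT.lf (nat_lit 0) (nat_lit 3126700595981) (nat_lit 152) (nat_lit 513479782381) (nat_lit 0) (nat_lit 3118348877925) (nat_lit 1) (nat_lit 5) (nat_lit 3) (nat_lit 4) (nat_lit 1) (nat_lit 4) (nat_lit 416) (nat_lit 296) (nat_lit 188)) (XT.lf (nat_lit 0) (nat_lit 1285652466) (nat_lit 228) (nat_lit 1033102366) (nat_lit 228) (nat_lit 1033102366) (nat_lit 74) (nat_lit 4) (nat_lit 77) (nat_lit 5) (nat_lit 77) (nat_lit 4) (nat_lit 306) (nat_lit 297) (nat_lit 297))))))))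
noncomputable def xc86 : XT := (XT.nd (nat_lit 1404) (nat_lit 1216) (nat_lit 0) (XT.nd (nat_lit 702) (nat_lit 1216) (nat_lit 0) (XT.nd (nat_lit 312) (nat_lit 988) (nat_lit 0) (XT.nd (nat_lit 156) (nat_lit 912) (nat_lit 0) (XT.nd (nat_lit 78) (nat_lit 0) (nat_lit 0) (XT.lf (nat_lit 0) (nat_lit 183121356) (nat_lit 304) (nat_lit 924132005) (nat_lit 380) (nat_lit 5697994694) (nat_lit 69) (nat_lit 5) (nat_lit 73) (nat_lit 5) (nat_lit 74) (nat_lit 4) (nat_lit 307) (nat_lit 297) (nat_lit 296)) (XT.lf (nat_lit 0) (nat_lit 4278423767) (nat_lit 380) (nat_lit 2146336745) (nat_lit 0) (nat_lit 497963784) (nat_lit 69) (nat_lit 5) (nat_lit 74) (nat_lit 4) (nat_lit 69) (nat_lit 4) (nat_lit 308) (nat_lit 297) (nat_lit 295))) (XT.nd (nat_lit 78) (nat_lit 456) (nat_lit 0) (XT.lf (nat_lit 0) (nat_lit 453677648) (nat_lit 456) (nat_lit 4519707545) (nat_lit 76) (nat_lit 2088812578) (nat_lit 63) (nat_lit 5)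 (nat_lit 69) (nat_lit 5) (nat_lit 64) (nat_lit 4) (nat_lit 309) (nat_lit 297) (nat_lit 294)) (XT.lf (nat_lit 0) (nat_lit 217413877) (nat_lit 456) (nat_lit 3262878892) (nat_lit 532) (nat_lit 3741585904) (nat_lit 57) (nat_lit 5) (nat_lit 63) (nat_lit 5) (nat_lit 64) (nat_lit 4) (nat_lit 310) (nat_lit 297) (nat_lit 293)))) (XT.nd (nat_lit 156) (nat_lit 532) (nat_lit 0) (XT.nd (nat_lit 78) (nat_lit 456) (nat_lit 0) (XT.lf (nat_lit 0) (nat_lit 5353104354) (nat_lit 456) (nat_lit 1289930467) (nat_lit 532) (nat_lit 760184009) (nat_lit 57) (nat_lit 5) (nat_lit 63) (nat_lit 5) (nat_lit 64) (nat_lit 4) (nat_lit 311) (nat_lit 297) (nat_lit 292)) (XT.lf (nat_lit 0) (nat_lit 2217848929) (nat_lit 456) (nat_lit 4461268697) (nat_lit 76) (nat_lit 925069762) (nat_lit 51) (nat_lit 5) (nat_lit 57) (nat_lit 5) (nat_lit 52) (nat_lit 4) (nat_lit 312) (nat_lit 297) (nat_lit 291))) (XT.nd (nat_lit 78) (nat_lit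 304) (nat_lit 0) (XT.lf (nat_lit 0) (nat_lit 793908557) (nat_lit 228) (nat_lit 4501117643) (nat_lit 304) (nat_lit 2532791103) (nat_lit 48) (nat_lit 5) (nat_lit 51) (nat_lit 5) (nat_lit 52) (nat_lit 4) (nat_lit 313) (nat_lit 297) (nat_lit 290)) (XT.nd (nat_lit 78) (nat_lit 228) (nat_lit 0) (XT.lf (nat_lit 0) (nat_lit 442886673) (nat_lit 304) (nat_lit 1599947062) (nat_lit 76) (nat_lit 6032017938) (nat_lit 47) (nat_lit 5) (nat_lit 51) (nat_lit 5) (nat_lit 48) (nat_lit 5) (nat_lit 314) (nat_lit 297) (nat_lit 289)) (XT.lf (nat_lit 0) (nat_lit 3449731764) (nat_lit 304) (nat_lit 4178456855) (nat_lit 76) (nat_lit 714056231) (nat_lit 44) (nat_lit 5) (nat_lit 48) (nat_lit 5) (nat_lit 45) (nat_lit 4) (nat_lit 315) (nat_lit 297) (nat_lit 288)))))) (XT.nd (nat_lit 312) (nat_lit 608) (nat_lit 0) (XT.nd (nat_lit 156) (nat_lit 380) (nat_lit 0) (XT.nd (nat_lit 78) (nat_lit 76) (nat_lit 0) (XT.lf (nat_lit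 0) (nat_lit 1643377386) (nat_lit 152) (nat_lit 5010057148) (nat_lit 228) (nat_lit 1981326220) (nat_lit 42) (nat_lit 5) (nat_lit 44) (nat_lit 5) (nat_lit 45) (nat_lit 4) (nat_lit 316) (nat_lit 297) (nat_lit 287)) (XT.lf (nat_lit 0) (nat_lit 1043809697) (nat_lit 228) (nat_lit 1044178032) (nat_lit 76) (nat_lit 6865517871) (nat_lit 41) (nat_lit 5) (nat_lit 44) (nat_lit 5) (nat_lit 42) (nat_lit 5) (nat_lit 317) (nat_lit 297) (nat_lit 286))) (XT.nd (nat_lit 78) (nat_lit 152) (nat_lit 0) (XT.lf (nat_lit 0) (nat_lit 4197328445) (nat_lit 304) (nat_lit 3952000463) (nat_lit 76) (nat_lit 1145018290) (nat_lit 38) (nat_lit 5) (nat_lit 42) (nat_lit 5) (nat_lit 39) (nat_lit 4) (nat_lit 318) (nat_lit 297) (nat_lit 285)) (XT.lf (nat_lit 0) (nat_lit 2479836212) (nat_lit 152) (nat_lit 5107220327) (nat_lit 228) (nat_lit 2076858882) (nat_lit 36) (nat_lit 5) (nat_lit 38) (nat_lit 5) (nat_lit 39) (nat_lit 4)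 (nat_lit 319) (nat_lit 297) (nat_lit 284)))) (XT.nd (nat_lit 156) (nat_lit 380) (nat_lit 0) (XT.nd (nat_lit 78) (nat_lit 152) (nat_lit 0) (XT.lf (nat_lit 0) (nat_lit 1079587702) (nat_lit 228) (nat_lit 665613053) (nat_lit 76) (nat_lit 8319401493) (nat_lit 35) (nat_lit 5) (nat_lit 38) (nat_lit 5) (nat_lit 36) (nat_lit 5) (nat_lit 320) (nat_lit 297) (nat_lit 283)) (XT.lf (nat_lit 0) (nat_lit 4434776060) (nat_lit 228) (nat_lit 4113370999) (nat_lit 76) (nat_lit 1940344731) (nat_lit 33) (nat_lit 5) (nat_lit 36) (nat_lit 5) (nat_lit 34) (nat_lit 4) (nat_lit 321) (nat_lit 297) (nat_lit 282))) (XT.nd (nat_lit 78) (nat_lit 228) (nat_lit 0) (XT.lf (nat_lit 0) (nat_lit 2956210418) (nat_lit 152) (nat_lit 5096073452) (nat_lit 228) (nat_lit 2894623823) (nat_lit 31) (nat_lit 5) (nat_lit 33) (nat_lit 5) (nat_lit 34) (nat_lit 4) (nat_lit 322) (nat_lit 297) (nat_lit 281)) (XT.nd (nat_lit 78) (nat_lit 152)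 (nat_lit 0) (XT.lf (nat_lit 0) (nat_lit 467225138) (nat_lit 228) (nat_lit 843004750) (nat_lit 76) (nat_lit 10132809091) (nat_lit 30) (nat_lit 5) (nat_lit 33) (nat_lit 5) (nat_lit 31) (nat_lit 5) (nat_lit 323) (nat_lit 297) (nat_lit 280)) (XT.lf (nat_lit 0) (nat_lit 4050835393) (nat_lit 228) (nat_lit 5096142886) (nat_lit 76) (nat_lit 2817233080) (nat_lit 28) (nat_lit 5) (nat_lit 31) (nat_lit 5) (nat_lit 29) (nat_lit 4) (nat_lit 324) (nat_lit 297) (nat_lit 279))))))) (XT.nd (nat_lit 702) (nat_lit 532) (nat_lit 0) (XT.nd (nat_lit 312) (nat_lit 304) (nat_lit 0) (XT.nd (nat_lit 156) (nat_lit 304) (nat_lit 0) (XT.nd (nat_lit 78) (nat_lit 0) (nat_lit 0) (XT.lf (nat_lit 0) (nat_lit 2607811368) (nat_lit 76) (nat_lit 5307577597) (nat_lit 152) (nat_lit 4612241953) (nat_lit 27) (nat_lit 5) (nat_lit 28) (nat_lit 5) (nat_lit 29) (nat_lit 4) (nat_lit 325) (nat_lit 297) (nat_lit 278)) (XT.lf (nat_lit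 0) (nat_lit 11016390558) (nat_lit 76) (nat_lit 1090408085) (nat_lit 152) (nat_lit 1027996860) (nat_lit 27) (nat_lit 5) (nat_lit 28) (nat_lit 5) (nat_lit 29) (nat_lit 4) (nat_lit 326) (nat_lit 297) (nat_lit 277))) (XT.nd (nat_lit 78) (nat_lit 76) (nat_lit 0) (XT.lf (nat_lit 0) (nat_lit 2825405997) (nat_lit 228) (nat_lit 7504983039) (nat_lit 76) (nat_lit 3444777853) (nat_lit 24) (nat_lit 5) (nat_lit 27) (nat_lit 5) (nat_lit 25) (nat_lit 4) (nat_lit 327) (nat_lit 297) (nat_lit 276)) (XT.lf (nat_lit 0) (nat_lit 775431225) (nat_lit 76) (nat_lit 6149084084) (nat_lit 152) (nat_lit 7540747669) (nat_lit 23) (nat_lit 5) (nat_lit 24) (nat_lit 5) (nat_lit 25) (nat_lit 4) (nat_lit 328) (nat_lit 297) (nat_lit 275)))) (XT.nd (nat_lit 156) (nat_lit 76) (nat_lit 0) (XT.nd (nat_lit 78) (nat_lit 228) (nat_lit 0) (XT.lf (nat_lit 0) (nat_lit 9954999140) (nat_lit 76) (nat_lit 1492159710) (nat_lit 152) (nat_lit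 3755823269) (nat_lit 23) (nat_lit 5) (nat_lit 24) (nat_lit 5) (nat_lit 25) (nat_lit 4) (nat_lit 329) (nat_lit 297) (nat_lit 274)) (XT.lf (nat_lit 0) (nat_lit 390119364) (nat_lit 228) (nat_lit 12212410795) (nat_lit 76) (nat_lit 3390618608) (nat_lit 20) (nat_lit 5) (nat_lit 23) (nat_lit 5) (nat_lit 21) (nat_lit 4) (nat_lit 330) (nat_lit 297) (nat_lit 273))) (XT.nd (nat_lit 78) (nat_lit 76) (nat_lit 0) (XT.lf (nat_lit 0) (nat_lit 4748257611) (nat_lit 228) (nat_lit 3328104410) (nat_lit 76) (nat_lit 8755738492) (nat_lit 20) (nat_lit 5) (nat_lit 23) (nat_lit 5) (nat_lit 21) (nat_lit 4) (nat_lit 331) (nat_lit 297) (nat_lit 272)) (XT.nd (nat_lit 78) (nat_lit 0) (nat_lit 0) (XT.lf (nat_lit 0) (nat_lit 6418360927) (nat_lit 76) (nat_lit 3096102049) (nat_lit 152) (nat_lit 8218999036) (nat_lit 19) (nat_lit 5) (nat_lit 20) (nat_lit 5) (nat_lit 21) (nat_lit 4) (nat_lit 332) (nat_lit 297) (nat_lit 271))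 (XT.lf (nat_lit 0) (nat_lit 14716563982) (nat_lit 152) (nat_lit 1794086995) (nat_lit 0) (nat_lit 2191956942) (nat_lit 19) (nat_lit 5) (nat_lit 21) (nat_lit 4) (nat_lit 19) (nat_lit 4) (nat_lit 333) (nat_lit 297) (nat_lit 270)))))) (XT.nd (nat_lit 312) (nat_lit 304) (nat_lit 0) (XT.nd (nat_lit 156) (nat_lit 76) (nat_lit 0) (XT.nd (nat_lit 78) (nat_lit 0) (nat_lit 0) (XT.lf (nat_lit 0) (nat_lit 764035565) (nat_lit 152) (nat_lit 11068175013) (nat_lit 76) (nat_lit 7899363197) (nat_lit 17) (nat_lit 5) (nat_lit 19) (nat_lit 5) (nat_lit 18) (nat_lit 4) (nat_lit 334) (nat_lit 297) (nat_lit 269)) (XT.lf (nat_lit 0) (nat_lit 5642874984) (nat_lit 152) (nat_lit 1043116755) (nat_lit 76) (nat_lit 14151488670) (nat_lit 17) (nat_lit 5) (nat_lit 19) (nat_lit 5) (nat_lit 18) (nat_lit 4) (nat_lit 335) (nat_lit 297) (nat_lit 268))) (XT.nd (nat_lit 78) (nat_lit 0) (nat_lit 0) (XT.lf (nat_lit 0) (nat_lit 10144282882)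 (nat_lit 76) (nat_lit 931871722) (nat_lit 152) (nat_lit 10942606242) (nat_lit 16) (nat_lit 5) (nat_lit 17) (nat_lit 5) (nat_lit 18) (nat_lit 4) (nat_lit 336) (nat_lit 297) (nat_lit 267)) (XT.lf (nat_lit 0) (nat_lit 17021444252) (nat_lit 152) (nat_lit 1282079745) (nat_lit 0) (nat_lit 4984861463) (nat_lit 16) (nat_lit 5) (nat_lit 18) (nat_lit 4) (nat_lit 16) (nat_lit 4) (nat_lit 337) (nat_lit 297) (nat_lit 266)))) (XT.nd (nat_lit 156) (nat_lit 152) (nat_lit 0) (XT.nd (nat_lit 78) (nat_lit 76) (nat_lit 0) (XT.lf (nat_lit 0) (nat_lit 10522837659) (nat_lit 76) (nat_lit 13123687329) (nat_lit 76) (nat_lit 996748987) (nat_lit 15) (nat_lit 4) (nat_lit 16) (nat_lit 5) (nat_lit 16) (nat_lit 4) (nat_lit 338) (nat_lit 297) (nat_lit 265)) (XT.lf (nat_lit 0) (nat_lit 4423383424) (nat_lit 152) (nat_lit 3009963368) (nat_lit 76) (nat_lit 18667141686) (nat_lit 14) (nat_lit 5) (nat_lit 16) (nat_lit 5) (nat_lit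 15) (nat_lit 4) (nat_lit 339) (nat_lit 297) (nat_lit 264))) (XT.nd (nat_lit 78) (nat_lit 76) (nat_lit 0) (XT.lf (nat_lit 0) (nat_lit 9301488519) (nat_lit 76) (nat_lit 1078105102) (nat_lit 152) (nat_lit 17280131674) (nat_lit 13) (nat_lit 5) (nat_lit 14) (nat_lit 5) (nat_lit 15) (nat_lit 4) (nat_lit 340) (nat_lit 297) (nat_lit 263)) (XT.nd (nat_lit 78) (nat_lit 76) (nat_lit 0) (XT.lf (nat_lit 0) (nat_lit 16969092291) (nat_lit 152) (nat_lit 6837246371) (nat_lit 0) (nat_lit 5524839176) (nat_lit 13) (nat_lit 5) (nat_lit 15) (nat_lit 4) (nat_lit 13) (nat_lit 4) (nat_lit 341) (nat_lit 297) (nat_lit 262)) (XT.lf (nat_lit 0) (nat_lit 5746470590) (nat_lit 76) (nat_lit 18443646455) (nat_lit 76) (nat_lit 6937898869) (nat_lit 12) (nat_lit 4) (nat_lit 13) (nat_lit 5) (nat_lit 13) (nat_lit 4) (nat_lit 342) (nat_lit 297) (nat_lit 261))))))))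
noncomputable def xc87 : XT := (XT.nd (nat_lit 1404) (nat_lit 228) (nat_lit 0) (XT.nd (nat_lit 702) (nat_lit 228) (nat_lit 0) (XT.nd (nat_lit 312) (nat_lit 228) (nat_lit 0) (XT.nd (nat_lit 156) (nat_lit 76) (nat_lit 0) (XT.nd (nat_lit 78) (nat_lit 76) (nat_lit 0) (XT.lf (nat_lit 0) (nat_lit 19610311256) (nat_lit 76) (nat_lit 12505420643) (nat_lit 76) (nat_lit 942733732) (nat_lit 12) (nat_lit 4) (nat_lit 13) (nat_lit 5) (nat_lit 13) (nat_lit 4) (nat_lit 343) (nat_lit 297) (nat_lit 260)) (XT.lf (nat_lit 0) (nat_lit 5198263016) (nat_lit 152) (nat_lit 803021434) (nat_lit 76) (nat_lit 29136001702) (nat_lit 11) (nat_lit 5) (nat_lit 13) (nat_lit 5) (nat_lit 12) (nat_lit 4) (nat_lit 344) (nat_lit 297) (nat_lit 259))) (XT.nd (nat_lit 78) (nat_lit 0) (nat_lit 0) (XT.lf (nat_lit 0) (nat_lit 12081437901) (nat_lit 152) (nat_lit 23993652984) (nat_lit 0) (nat_lit 1281229751) (nat_lit 10) (nat_lit 5)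 (nat_lit 12) (nat_lit 4) (nat_lit 10) (nat_lit 4) (nat_lit 345) (nat_lit 297) (nat_lit 258)) (XT.lf (nat_lit 0) (nat_lit 19641226188) (nat_lit 152) (nat_lit 11302421677) (nat_lit 0) (nat_lit 8799165935) (nat_lit 10) (nat_lit 5) (nat_lit 12) (nat_lit 4) (nat_lit 10) (nat_lit 4) (nat_lit 346) (nat_lit 297) (nat_lit 257)))) (XT.nd (nat_lit 156) (nat_lit 152) (nat_lit 0) (XT.nd (nat_lit 78) (nat_lit 0) (nat_lit 0) (XT.lf (nat_lit 0) (nat_lit 2431156968) (nat_lit 76) (nat_lit 25384550304) (nat_lit 76) (nat_lit 14503738103) (nat_lit 9) (nat_lit 4) (nat_lit 10) (nat_lit 5) (nat_lit 10) (nat_lit 4) (nat_lit 347) (nat_lit 297) (nat_lit 256)) (XT.lf (nat_lit 0) (nat_lit 17814027270) (nat_lit 76) (nat_lit 19091968401) (nat_lit 76) (nat_lit 8175274767) (nat_lit 9) (nat_lit 4) (nat_lit 10) (nat_lit 5) (nat_lit 10) (nat_lit 4) (nat_lit 348) (nat_lit 297) (nat_lit 255))) (XT.nd (nat_lit 78) (nat_lit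 152) (nat_lit 0) (XT.lf (nat_lit 0) (nat_lit 34342181484) (nat_lit 76) (nat_lit 12337641019) (nat_lit 76) (nat_lit 1387723836) (nat_lit 9) (nat_lit 4) (nat_lit 10) (nat_lit 5) (nat_lit 10) (nat_lit 4) (nat_lit 349) (nat_lit 297) (nat_lit 254)) (XT.nd (nat_lit 78) (nat_lit 0) (nat_lit 0) (XT.lf (nat_lit 0) (nat_lit 711302539) (nat_lit 76) (nat_lit 4909842781) (nat_lit 152) (nat_lit 45662105707) (nat_lit 7) (nat_lit 5) (nat_lit 8) (nat_lit 5) (nat_lit 9) (nat_lit 4) (nat_lit 350) (nat_lit 297) (nat_lit 253)) (XT.lf (nat_lit 0) (nat_lit 13534350981) (nat_lit 152) (nat_lit 37844816498) (nat_lit 0) (nat_lit 3340681011) (nat_lit 7) (nat_lit 5) (nat_lit 9) (nat_lit 4) (nat_lit 7) (nat_lit 4) (nat_lit 351) (nat_lit 297) (nat_lit 252)))))) (XT.nd (nat_lit 312) (nat_lit 152) (nat_lit 0) (XT.nd (nat_lit 156) (nat_lit 76) (nat_lit 0) (XT.nd (nat_lit 78) (nat_lit 0) (nat_lit 0) (XT.lf (nat_lit 0)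 (nat_lit 22169927488) (nat_lit 152) (nat_lit 24302471287) (nat_lit 0) (nat_lit 11951837218) (nat_lit 7) (nat_lit 5) (nat_lit 9) (nat_lit 4) (nat_lit 7) (nat_lit 4) (nat_lit 352) (nat_lit 297) (nat_lit 251)) (XT.lf (nat_lit 0) (nat_lit 31460966794) (nat_lit 152) (nat_lit 9746580083) (nat_lit 0) (nat_lit 21220265134) (nat_lit 7) (nat_lit 5) (nat_lit 9) (nat_lit 4) (nat_lit 7) (nat_lit 4) (nat_lit 353) (nat_lit 297) (nat_lit 250))) (XT.nd (nat_lit 78) (nat_lit 0) (nat_lit 0) (XT.lf (nat_lit 0) (nat_lit 6220277730) (nat_lit 76) (nat_lit 35391847006) (nat_lit 76) (nat_lit 25130208875) (nat_lit 6) (nat_lit 4) (nat_lit 7) (nat_lit 5) (nat_lit 7) (nat_lit 4) (nat_lit 354) (nat_lit 297) (nat_lit 249)) (XT.lf (nat_lit 0) (nat_lit 23955749812) (nat_lit 76) (nat_lit 28854262881) (nat_lit 76) (nat_lit 18573239128) (nat_lit 6) (nat_lit 4) (nat_lit 7) (nat_lit 5) (nat_lit 7) (nat_lit 4) (nat_lit 355)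 (nat_lit 297) (nat_lit 248)))) (XT.nd (nat_lit 156) (nat_lit 152) (nat_lit 0) (XT.nd (nat_lit 78) (nat_lit 0) (nat_lit 0) (XT.lf (nat_lit 0) (nat_lit 43051697622) (nat_lit 76) (nat_lit 21822542033) (nat_lit 76) (nat_lit 11523568630) (nat_lit 6) (nat_lit 4) (nat_lit 7) (nat_lit 5) (nat_lit 7) (nat_lit 4) (nat_lit 356) (nat_lit 297) (nat_lit 247)) (XT.lf (nat_lit 0) (nat_lit 63621282332) (nat_lit 76) (nat_lit 14255015006) (nat_lit 76) (nat_lit 3939421557) (nat_lit 6) (nat_lit 4) (nat_lit 7) (nat_lit 5) (nat_lit 7) (nat_lit 4) (nat_lit 357) (nat_lit 297) (nat_lit 246))) (XT.nd (nat_lit 78) (nat_lit 76) (nat_lit 0) (XT.lf (nat_lit 0) (nat_lit 4012836334) (nat_lit 152) (nat_lit 1984282805) (nat_lit 76) (nat_lit 81663843386) (nat_lit 5) (nat_lit 5) (nat_lit 7) (nat_lit 5) (nat_lit 6) (nat_lit 4) (nat_lit 358) (nat_lit 297) (nat_lit 245)) (XT.nd (nat_lit 78) (nat_lit 0) (nat_lit 0) (XT.lf (nat_lit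 0) (nat_lit 12836063064) (nat_lit 152) (nat_lit 77836626111) (nat_lit 0) (nat_lit 3257145110) (nat_lit 4) (nat_lit 5) (nat_lit 6) (nat_lit 4) (nat_lit 4) (nat_lit 4) (nat_lit 359) (nat_lit 297) (nat_lit 244)) (XT.lf (nat_lit 0) (nat_lit 22552666162) (nat_lit 152) (nat_lit 65171019891) (nat_lit 0) (nat_lit 12961531977) (nat_lit 4) (nat_lit 5) (nat_lit 6) (nat_lit 4) (nat_lit 4) (nat_lit 4) (nat_lit 360) (nat_lit 297) (nat_lit 243))))))) (XT.nd (nat_lit 702) (nat_lit 152) (nat_lit 0) (XT.nd (nat_lit 312) (nat_lit 76) (nat_lit 0) (XT.nd (nat_lit 156) (nat_lit 0) (nat_lit 0) (XT.nd (nat_lit 78) (nat_lit 0) (nat_lit 0) (XT.lf (nat_lit 0) (nat_lit 33024454823) (nat_lit 152) (nat_lit 51536343175) (nat_lit 0) (nat_lit 23422009314) (nat_lit 4) (nat_lit 5) (nat_lit 6) (nat_lit 4) (nat_lit 4) (nat_lit 4) (nat_lit 361) (nat_lit 297) (nat_lit 242)) (XT.lf (nat_lit 0) (nat_lit 44313484092) (nat_lit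 152) (nat_lit 36851797882) (nat_lit 0) (nat_lit 34700565135) (nat_lit 4) (nat_lit 5) (nat_lit 6) (nat_lit 4) (nat_lit 4) (nat_lit 4) (nat_lit 362) (nat_lit 297) (nat_lit 241))) (XT.nd (nat_lit 78) (nat_lit 0) (nat_lit 0) (XT.lf (nat_lit 0) (nat_lit 56486651920) (nat_lit 152) (nat_lit 21030364482) (nat_lit 0) (nat_lit 46864035326) (nat_lit 4) (nat_lit 5) (nat_lit 6) (nat_lit 4) (nat_lit 4) (nat_lit 4) (nat_lit 363) (nat_lit 297) (nat_lit 240)) (XT.lf (nat_lit 0) (nat_lit 69616095599) (nat_lit 152) (nat_lit 3978286334) (nat_lit 0) (nat_lit 59984499710) (nat_lit 4) (nat_lit 5) (nat_lit 6) (nat_lit 4) (nat_lit 4) (nat_lit 4) (nat_lit 364) (nat_lit 297) (nat_lit 239)))) (XT.nd (nat_lit 156) (nat_lit 0) (nat_lit 0) (XT.nd (nat_lit 78) (nat_lit 0) (nat_lit 0) (XT.lf (nat_lit 0) (nat_lit 15164053273) (nat_lit 76) (nat_lit 68980261810) (nat_lit 76) (nat_lit 59340351761) (nat_lit 3) (nat_lit 4)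 (nat_lit 4) (nat_lit 5) (nat_lit 4) (nat_lit 4) (nat_lit 365) (nat_lit 297) (nat_lit 238)) (XT.lf (nat_lit 0) (nat_lit 36032378647) (nat_lit 76) (nat_lit 63895355755) (nat_lit 76) (nat_lit 54247747409) (nat_lit 3) (nat_lit 4) (nat_lit 4) (nat_lit 5) (nat_lit 4) (nat_lit 4) (nat_lit 366) (nat_lit 297) (nat_lit 237))) (XT.nd (nat_lit 78) (nat_lit 0) (nat_lit 0) (XT.lf (nat_lit 0) (nat_lit 58540864429) (nat_lit 76) (nat_lit 58418304390) (nat_lit 76) (nat_lit 48763567990) (nat_lit 3) (nat_lit 4) (nat_lit 4) (nat_lit 5) (nat_lit 4) (nat_lit 4) (nat_lit 367) (nat_lit 297) (nat_lit 236)) (XT.nd (nat_lit 78) (nat_lit 0) (nat_lit 0) (XT.lf (nat_lit 0) (nat_lit 82822894239) (nat_lit 76) (nat_lit 52516651114) (nat_lit 76) (nat_lit 42855314665) (nat_lit 3) (nat_lit 4) (nat_lit 4) (nat_lit 5) (nat_lit 4) (nat_lit 4) (nat_lit 368) (nat_lit 297) (nat_lit 235)) (XT.lf (nat_lit 0) (nat_lit 109022361586)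 (nat_lit 76) (nat_lit 46155423167) (nat_lit 76) (nat_lit 36487975562) (nat_lit 3) (nat_lit 4) (nat_lit 4) (nat_lit 5) (nat_lit 4) (nat_lit 4) (nat_lit 369) (nat_lit 297) (nat_lit 234)))))) (XT.nd (nat_lit 312) (nat_lit 152) (nat_lit 0) (XT.nd (nat_lit 156) (nat_lit 0) (nat_lit 0) (XT.nd (nat_lit 78) (nat_lit 0) (nat_lit 0) (XT.lf (nat_lit 0) (nat_lit 137294522574) (nat_lit 76) (nat_lit 39296924383) (nat_lit 76) (nat_lit 29623818300) (nat_lit 3) (nat_lit 4) (nat_lit 4) (nat_lit 5) (nat_lit 4) (nat_lit 4) (nat_lit 370) (nat_lit 297) (nat_lit 233)) (XT.lf (nat_lit 0) (nat_lit 167806915933) (nat_lit 76) (nat_lit 31900511807) (nat_lit 76) (nat_lit 22222166392) (nat_lit 3) (nat_lit 4) (nat_lit 4) (nat_lit 5) (nat_lit 4) (nat_lit 4) (nat_lit 371) (nat_lit 297) (nat_lit 232))) (XT.nd (nat_lit 78) (nat_lit 0) (nat_lit 0) (XT.lf (nat_lit 0) (nat_lit 200740355848) (nat_lit 76) (nat_lit 23922354845)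 (nat_lit 76) (nat_lit 14239158197) (nat_lit 3) (nat_lit 4) (nat_lit 4) (nat_lit 5) (nat_lit 4) (nat_lit 4) (nat_lit 372) (nat_lit 297) (nat_lit 231)) (XT.lf (nat_lit 0) (nat_lit 236290003443) (nat_lit 76) (nat_lit 15315175531) (nat_lit 76) (nat_lit 5627487001) (nat_lit 3) (nat_lit 4) (nat_lit 4) (nat_lit 5) (nat_lit 4) (nat_lit 4) (nat_lit 373) (nat_lit 297) (nat_lit 230)))) (XT.nd (nat_lit 156) (nat_lit 0) (nat_lit 0) (XT.nd (nat_lit 78) (nat_lit 76) (nat_lit 0) (XT.lf (nat_lit 0) (nat_lit 3480597240) (nat_lit 152) (nat_lit 2452205420) (nat_lit 76) (nat_lit 271090760359) (nat_lit 2) (nat_lit 5) (nat_lit 4) (nat_lit 5) (nat_lit 3) (nat_lit 4) (nat_lit 374) (nat_lit 297) (nat_lit 229)) (XT.lf (nat_lit 0) (nat_lit 13560567038) (nat_lit 152) (nat_lit 280198622647) (nat_lit 0) (nat_lit 4583068200) (nat_lit 1) (nat_lit 5) (nat_lit 3) (nat_lit 4) (nat_lit 1) (nat_lit 4) (nat_lit 375) (nat_lit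 297) (nat_lit 228))) (XT.nd (nat_lit 78) (nat_lit 0) (nat_lit 0) (XT.lf (nat_lit 0) (nat_lit 24661725699) (nat_lit 152) (nat_lit 281006615146) (nat_lit 0) (nat_lit 15680925193) (nat_lit 1) (nat_lit 5) (nat_lit 3) (nat_lit 4) (nat_lit 1) (nat_lit 4) (nat_lit 376) (nat_lit 297) (nat_lit 227)) (XT.nd (nat_lit 78) (nat_lit 0) (nat_lit 0) (XT.lf (nat_lit 0) (nat_lit 36643480173) (nat_lit 152) (nat_lit 281894332780) (nat_lit 0) (nat_lit 27659622566) (nat_lit 1) (nat_lit 5) (nat_lit 3) (nat_lit 4) (nat_lit 1) (nat_lit 4) (nat_lit 377) (nat_lit 297) (nat_lit 226)) (XT.lf (nat_lit 0) (nat_lit 49576833448) (nat_lit 152) (nat_lit 282867036099) (nat_lit 0) (nat_lit 40590145194) (nat_lit 1) (nat_lit 5) (nat_lit 3) (nat_lit 4) (nat_lit 1) (nat_lit 4) (nat_lit 378) (nat_lit 297) (nat_lit 225))))))))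
noncomputable def xc88 : XT := (XT.nd (nat_lit 1404) (nat_lit 0) (nat_lit 0) (XT.nd (nat_lit 702) (nat_lit 0) (nat_lit 0) (XT.nd (nat_lit 312) (nat_lit 0) (nat_lit 0) (XT.nd (nat_lit 156) (nat_lit 0) (nat_lit 0) (XT.nd (nat_lit 78) (nat_lit 0) (nat_lit 0) (XT.lf (nat_lit 0) (nat_lit 63538427619) (nat_lit 152) (nat_lit 283930489270) (nat_lit 0) (nat_lit 54549118394) (nat_lit 1) (nat_lit 5) (nat_lit 3) (nat_lit 4) (nat_lit 1) (nat_lit 4) (nat_lit 379) (nat_lit 297) (nat_lit 224)) (XT.lf (nat_lit 0) (nat_lit 78610998058) (nat_lit 152) (nat_lit 285090994238) (nat_lit 0) (nat_lit 69619262009) (nat_lit 1) (nat_lit 5) (nat_lit 3) (nat_lit 4) (nat_lit 1) (nat_lit 4) (nat_lit 380) (nat_lit 297) (nat_lit 223))) (XT.nd (nat_lit 78) (nat_lit 0) (nat_lit 0) (XT.lf (nat_lit 0) (nat_lit 94883863701) (nat_lit 152) (nat_lit 286355428069) (nat_lit 0) (nat_lit 85889880593) (nat_lit 1) (nat_lit 5) (nat_lit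 3) (nat_lit 4) (nat_lit 1) (nat_lit 4) (nat_lit 381) (nat_lit 297) (nat_lit 222)) (XT.lf (nat_lit 0) (nat_lit 112453456346) (nat_lit 152) (nat_lit 287731283706) (nat_lit 0) (nat_lit 103457392627) (nat_lit 1) (nat_lit 5) (nat_lit 3) (nat_lit 4) (nat_lit 1) (nat_lit 4) (nat_lit 382) (nat_lit 297) (nat_lit 221)))) (XT.nd (nat_lit 156) (nat_lit 0) (nat_lit 0) (XT.nd (nat_lit 78) (nat_lit 0) (nat_lit 0) (XT.lf (nat_lit 0) (nat_lit 131423892095) (nat_lit 152) (nat_lit 289226714365) (nat_lit 0) (nat_lit 122425901885) (nat_lit 1) (nat_lit 5) (nat_lit 3) (nat_lit 4) (nat_lit 1) (nat_lit 4) (nat_lit 383) (nat_lit 297) (nat_lit 220)) (XT.lf (nat_lit 0) (nat_lit 151907588347) (nat_lit 152) (nat_lit 290850581859) (nat_lit 0) (nat_lit 142907814348) (nat_lit 1) (nat_lit 5) (nat_lit 3) (nat_lit 4) (nat_lit 1) (nat_lit 4) (nat_lit 384) (nat_lit 297) (nat_lit 219))) (XT.nd (nat_lit 78) (nat_lit 0) (nat_lit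 0) (XT.lf (nat_lit 0) (nat_lit 174025929967) (nat_lit 152) (nat_lit 292612509106) (nat_lit 0) (nat_lit 165024504313) (nat_lit 1) (nat_lit 5) (nat_lit 3) (nat_lit 4) (nat_lit 1) (nat_lit 4) (nat_lit 385) (nat_lit 297) (nat_lit 218)) (XT.nd (nat_lit 78) (nat_lit 0) (nat_lit 0) (XT.lf (nat_lit 0) (nat_lit 197909988611) (nat_lit 152) (nat_lit 294522937157) (nat_lit 0) (nat_lit 188907033645) (nat_lit 1) (nat_lit 5) (nat_lit 3) (nat_lit 4) (nat_lit 1) (nat_lit 4) (nat_lit 386) (nat_lit 297) (nat_lit 217)) (XT.lf (nat_lit 0) (nat_lit 223701299440) (nat_lit 152) (nat_lit 296593187066) (nat_lit 0) (nat_lit 214696928446) (nat_lit 1) (nat_lit 5) (nat_lit 3) (nat_lit 4) (nat_lit 1) (nat_lit 4) (nat_lit 387) (nat_lit 297) (nat_lit 216)))))) (XT.nd (nat_lit 312) (nat_lit 0) (nat_lit 0) (XT.nd (nat_lit 156) (nat_lit 0) (nat_lit 0) (XT.nd (nat_lit 78) (nat_lit 0) (nat_lit 0) (XT.lf (nat_lit 0) (nat_lit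 251552699851) (nat_lit 152) (nat_lit 298835526981) (nat_lit 0) (nat_lit 242547017720) (nat_lit 1) (nat_lit 5) (nat_lit 3) (nat_lit 4) (nat_lit 1) (nat_lit 4) (nat_lit 388) (nat_lit 297) (nat_lit 215)) (XT.lf (nat_lit 0) (nat_lit 281629235182) (nat_lit 152) (nat_lit 301263244843) (nat_lit 0) (nat_lit 272622339034) (nat_lit 1) (nat_lit 5) (nat_lit 3) (nat_lit 4) (nat_lit 1) (nat_lit 4) (nat_lit 389) (nat_lit 297) (nat_lit 214))) (XT.nd (nat_lit 78) (nat_lit 0) (nat_lit 0) (XT.lf (nat_lit 0) (nat_lit 314109136751) (nat_lit 152) (nat_lit 303890727127) (nat_lit 0) (nat_lit 305101116514) (nat_lit 1) (nat_lit 5) (nat_lit 3) (nat_lit 4) (nat_lit 1) (nat_lit 4) (nat_lit 390) (nat_lit 297) (nat_lit 213)) (XT.lf (nat_lit 0) (nat_lit 349184878051) (nat_lit 152) (nat_lit 306733544099) (nat_lit 0) (nat_lit 340175816990) (nat_lit 1) (nat_lit 5) (nat_lit 3) (nat_lit 4) (nat_lit 1) (nat_lit 4) (nat_lit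 391) (nat_lit 297) (nat_lit 212)))) (XT.nd (nat_lit 156) (nat_lit 0) (nat_lit 0) (XT.nd (nat_lit 78) (nat_lit 0) (nat_lit 0) (XT.lf (nat_lit 0) (nat_lit 387064315324) (nat_lit 152) (nat_lit 309808542082) (nat_lit 0) (nat_lit 378054290538) (nat_lit 1) (nat_lit 5) (nat_lit 3) (nat_lit 4) (nat_lit 1) (nat_lit 4) (nat_lit 392) (nat_lit 297) (nat_lit 211)) (XT.lf (nat_lit 0) (nat_lit 427971919312) (nat_lit 152) (nat_lit 313133943286) (nat_lit 0) (nat_lit 418961002188) (nat_lit 1) (nat_lit 5) (nat_lit 3) (nat_lit 4) (nat_lit 1) (nat_lit 4) (nat_lit 393) (nat_lit 297) (nat_lit 210))) (XT.nd (nat_lit 78) (nat_lit 0) (nat_lit 0) (XT.lf (nat_lit 0) (nat_lit 472150105445) (nat_lit 152) (nat_lit 316729453792) (nat_lit 0) (nat_lit 463138362082) (nat_lit 1) (nat_lit 5) (nat_lit 3) (nat_lit 4) (nat_lit 1) (nat_lit 4) (nat_lit 394) (nat_lit 297) (nat_lit 209)) (XT.nd (nat_lit 78) (nat_lit 0) (nat_lit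 0) (XT.lf (nat_lit 0) (nat_lit 519860670382) (nat_lit 152) (nat_lit 320616380330) (nat_lit 0) (nat_lit 510848161982) (nat_lit 1) (nat_lit 5) (nat_lit 3) (nat_lit 4) (nat_lit 1) (nat_lit 4) (nat_lit 395) (nat_lit 297) (nat_lit 208)) (XT.lf (nat_lit 0) (nat_lit 571386343396) (nat_lit 152) (nat_lit 324817756537) (nat_lit 0) (nat_lit 562373126629) (nat_lit 1) (nat_lit 5) (nat_lit 3) (nat_lit 4) (nat_lit 1) (nat_lit 4) (nat_lit 396) (nat_lit 297) (nat_lit 207))))))) (XT.nd (nat_lit 702) (nat_lit 0) (nat_lit 0) (XT.nd (nat_lit 312) (nat_lit 0) (nat_lit 0) (XT.nd (nat_lit 156) (nat_lit 0) (nat_lit 0) (XT.nd (nat_lit 78) (nat_lit 0) (nat_lit 0) (XT.lf (nat_lit 0) (nat_lit 627032461808) (nat_lit 152) (nat_lit 329358479459) (nat_lit 0) (nat_lit 618018589146) (nat_lit 1) (nat_lit 5) (nat_lit 3) (nat_lit 4) (nat_lit 1) (nat_lit 4) (nat_lit 397) (nat_lit 297) (nat_lit 206)) (XT.lf (nat_lit 0) (nat_lit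 687128780396) (nat_lit 152) (nat_lit 334265457082) (nat_lit 0) (nat_lit 678114300423) (nat_lit 1) (nat_lit 5) (nat_lit 3) (nat_lit 4) (nat_lit 1) (nat_lit 4) (nat_lit 398) (nat_lit 297) (nat_lit 205))) (XT.nd (nat_lit 78) (nat_lit 0) (nat_lit 0) (XT.lf (nat_lit 0) (nat_lit 752031425490) (nat_lit 152) (nat_lit 339567767793) (nat_lit 0) (nat_lit 743016383193) (nat_lit 1) (nat_lit 5) (nat_lit 3) (nat_lit 4) (nat_lit 1) (nat_lit 4) (nat_lit 399) (nat_lit 297) (nat_lit 204)) (XT.lf (nat_lit 0) (nat_lit 822125005359) (nat_lit 152) (nat_lit 345296832693) (nat_lit 0) (nat_lit 813109442391) (nat_lit 1) (nat_lit 5) (nat_lit 3) (nat_lit 4) (nat_lit 1) (nat_lit 4) (nat_lit 400) (nat_lit 297) (nat_lit 203)))) (XT.nd (nat_lit 156) (nat_lit 0) (nat_lit 0) (XT.nd (nat_lit 78) (nat_lit 0) (nat_lit 0) (XT.lf (nat_lit 0) (nat_lit 897824889364) (nat_lit 152) (nat_lit 351486601794) (nat_lit 0) (nat_lit 888808844293)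 (nat_lit 1) (nat_lit 5) (nat_lit 3) (nat_lit 4) (nat_lit 1) (nat_lit 4) (nat_lit 401) (nat_lit 297) (nat_lit 202)) (XT.lf (nat_lit 0) (nat_lit 979579669410) (nat_lit 152) (nat_lit 358173755212) (nat_lit 0) (nat_lit 970563177949) (nat_lit 1) (nat_lit 5) (nat_lit 3) (nat_lit 4) (nat_lit 1) (nat_lit 4) (nat_lit 402) (nat_lit 297) (nat_lit 201))) (XT.nd (nat_lit 78) (nat_lit 0) (nat_lit 0) (XT.lf (nat_lit 0) (nat_lit 1067873818269) (nat_lit 152) (nat_lit 365397920521) (nat_lit 0) (nat_lit 1058856913483) (nat_lit 1) (nat_lit 5) (nat_lit 3) (nat_lit 4) (nat_lit 1) (nat_lit 4) (nat_lit 403) (nat_lit 297) (nat_lit 200)) (XT.nd (nat_lit 78) (nat_lit 0) (nat_lit 0) (XT.lf (nat_lit 0) (nat_lit 1163230560526) (nat_lit 152) (nat_lit 373201907590) (nat_lit 0) (nat_lit 1154213273031) (nat_lit 1) (nat_lit 5) (nat_lit 3) (nat_lit 4) (nat_lit 1) (nat_lit 4) (nat_lit 404) (nat_lit 297) (nat_lit 199)) (XT.lf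 (nat_lit 0) (nat_lit 1266214973173) (nat_lit 152) (nat_lit 381631962268) (nat_lit 0) (nat_lit 1257197331318) (nat_lit 1) (nat_lit 5) (nat_lit 3) (nat_lit 4) (nat_lit 1) (nat_lit 4) (nat_lit 405) (nat_lit 297) (nat_lit 198)))))) (XT.nd (nat_lit 312) (nat_lit 0) (nat_lit 0) (XT.nd (nat_lit 156) (nat_lit 0) (nat_lit 0) (XT.nd (nat_lit 78) (nat_lit 0) (nat_lit 0) (XT.lf (nat_lit 0) (nat_lit 1377437334209) (nat_lit 152) (nat_lit 390738040435) (nat_lit 0) (nat_lit 1368419364243) (nat_lit 1) (nat_lit 5) (nat_lit 3) (nat_lit 4) (nat_lit 1) (nat_lit 4) (nat_lit 406) (nat_lit 297) (nat_lit 197)) (XT.lf (nat_lit 0) (nat_lit 1497556739109) (nat_lit 152) (nat_lit 400574104035) (nat_lit 0) (nat_lit 1488538465336) (nat_lit 1) (nat_lit 5) (nat_lit 3) (nat_lit 4) (nat_lit 1) (nat_lit 4) (nat_lit 407) (nat_lit 297) (nat_lit 196))) (XT.nd (nat_lit 78) (nat_lit 0) (nat_lit 0) (XT.lf (nat_lit 0) (nat_lit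 1627285006567) (nat_lit 152) (nat_lit 411198440853) (nat_lit 0) (nat_lit 1618266451492) (nat_lit 1) (nat_lit 5) (nat_lit 3) (nat_lit 4) (nat_lit 1) (nat_lit 4) (nat_lit 408) (nat_lit 297) (nat_lit 195)) (XT.lf (nat_lit 0) (nat_lit 1767390896687) (nat_lit 152) (nat_lit 422674009922) (nat_lit 0) (nat_lit 1758372081147) (nat_lit 1) (nat_lit 5) (nat_lit 3) (nat_lit 4) (nat_lit 1) (nat_lit 4) (nat_lit 409) (nat_lit 297) (nat_lit 194)))) (XT.nd (nat_lit 156) (nat_lit 0) (nat_lit 0) (XT.nd (nat_lit 78) (nat_lit 0) (nat_lit 0) (XT.lf (nat_lit 0) (nat_lit 1918704666596) (nat_lit 152) (nat_lit 435068814615) (nat_lit 0) (nat_lit 1909685609885) (nat_lit 1) (nat_lit 5) (nat_lit 3) (nat_lit 4) (nat_lit 1) (nat_lit 4) (nat_lit 410) (nat_lit 297) (nat_lit 193)) (XT.lf (nat_lit 0) (nat_lit 2082122990486) (nat_lit 152) (nat_lit 448456305624) (nat_lit 0) (nat_lit 2073103710468) (nat_lit 1) (nat_lit 5) (nat_lit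 3) (nat_lit 4) (nat_lit 1) (nat_lit 4) (nat_lit 411) (nat_lit 297) (nat_lit 192))) (XT.nd (nat_lit 78) (nat_lit 0) (nat_lit 0) (XT.lf (nat_lit 0) (nat_lit 2258614273238) (nat_lit 152) (nat_lit 462915816232) (nat_lit 0) (nat_lit 2249594786455) (nat_lit 1) (nat_lit 5) (nat_lit 3) (nat_lit 4) (nat_lit 1) (nat_lit 4) (nat_lit 412) (nat_lit 297) (nat_lit 191)) (XT.nd (nat_lit 78) (nat_lit 0) (nat_lit 0) (XT.lf (nat_lit 0) (nat_lit 2449224389123) (nat_lit 152) (nat_lit 478533032425) (nat_lit 0) (nat_lit 2440204710889) (nat_lit 1) (nat_lit 5) (nat_lit 3) (nat_lit 4) (nat_lit 1) (nat_lit 4) (nat_lit 413) (nat_lit 297) (nat_lit 190)) (XT.lf (nat_lit 0) (nat_lit 2655082879565) (nat_lit 152) (nat_lit 495400500672) (nat_lit 0) (nat_lit 2646063024064) (nat_lit 1) (nat_lit 5) (nat_lit 3) (nat_lit 4) (nat_lit 1) (nat_lit 4) (nat_lit 414) (nat_lit 297) (nat_lit 189))))))))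
noncomputable def xc89 : XT := (XT.nd (nat_lit 39468) (nat_lit 0) (nat_lit 1140) (XT.nd (nat_lit 38766) (nat_lit 0) (nat_lit 2812) (XT.nd (nat_lit 38376) (nat_lit 0) (nat_lit 4712) (XT.nd (nat_lit 38220) (nat_lit 0) (nat_lit 5776) (XT.nd (nat_lit 78) (nat_lit 0) (nat_lit 0) (XT.lf (nat_lit 0) (nat_lit 2877409646732) (nat_lit 152) (nat_lit 513618176338) (nat_lit 0) (nat_lit 2868389627094) (nat_lit 1) (nat_lit 5) (nat_lit 3) (nat_lit 4) (nat_lit 1) (nat_lit 4) (nat_lit 415) (nat_lit 297) (nat_lit 188)) (XT.lf (nat_lit 0) (nat_lit 3117522182577) (nat_lit 152) (nat_lit 533294016021) (nat_lit 0) (nat_lit 3108502010960) (nat_lit 1) (nat_lit 5) (nat_lit 3) (nat_lit 4) (nat_lit 1) (nat_lit 4) (nat_lit 416) (nat_lit 297) (nat_lit 187))) (XT.nd (nat_lit 78) (nat_lit 0) (nat_lit 0) (XT.lf (nat_lit 0) (nat_lit 250671183) (nat_lit 228) (nat_lit 2777814576) (nat_lit 0) (nat_lit 250671183) (nat_lit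 77) (nat_lit 5) (nat_lit 80) (nat_lit 4) (nat_lit 77) (nat_lit 4) (nat_lit 304) (nat_lit 298) (nat_lit 298)) (XT.lf (nat_lit 0) (nat_lit 3628576040) (nat_lit 228) (nat_lit 1657433283) (nat_lit 0) (nat_lit 1339013153) (nat_lit 77) (nat_lit 5) (nat_lit 80) (nat_lit 4) (nat_lit 77) (nat_lit 4) (nat_lit 305) (nat_lit 298) (nat_lit 297)))) (XT.nd (nat_lit 156) (nat_lit 760) (nat_lit 0) (XT.nd (nat_lit 78) (nat_lit 0) (nat_lit 0) (XT.lf (nat_lit 0) (nat_lit 75532942) (nat_lit 304) (nat_lit 4252420003) (nat_lit 76) (nat_lit 2386549677) (nat_lit 73) (nat_lit 5) (nat_lit 77) (nat_lit 5) (nat_lit 74) (nat_lit 4) (nat_lit 306) (nat_lit 298) (nat_lit 296)) (XT.lf (nat_lit 0) (nat_lit 3014697467) (nat_lit 304) (nat_lit 101888936) (nat_lit 76) (nat_lit 3706213828) (nat_lit 73) (nat_lit 5) (nat_lit 77) (nat_lit 5) (nat_lit 74) (nat_lit 4) (nat_lit 307) (nat_lit 298) (nat_lit 295))) (XT.nd (nat_lit 78)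 (nat_lit 456) (nat_lit 0) (XT.lf (nat_lit 0) (nat_lit 4396167437) (nat_lit 304) (nat_lit 1654869073) (nat_lit 380) (nat_lit 900271510) (nat_lit 69) (nat_lit 5) (nat_lit 73) (nat_lit 5) (nat_lit 74) (nat_lit 4) (nat_lit 308) (nat_lit 298) (nat_lit 294)) (XT.nd (nat_lit 78) (nat_lit 0) (nat_lit 0) (XT.lf (nat_lit 0) (nat_lit 1943805863) (nat_lit 456) (nat_lit 5098444525) (nat_lit 76) (nat_lit 58718265) (nat_lit 63) (nat_lit 5) (nat_lit 69) (nat_lit 5) (nat_lit 64) (nat_lit 4) (nat_lit 309) (nat_lit 298) (nat_lit 293)) (XT.lf (nat_lit 0) (nat_lit 4857563019) (nat_lit 456) (nat_lit 480642631) (nat_lit 76) (nat_lit 1931667062) (nat_lit 63) (nat_lit 5) (nat_lit 69) (nat_lit 5) (nat_lit 64) (nat_lit 4) (nat_lit 310) (nat_lit 298) (nat_lit 292)))))) (XT.nd (nat_lit 312) (nat_lit 684) (nat_lit 0) (XT.nd (nat_lit 156) (nat_lit 304) (nat_lit 0) (XT.nd (nat_lit 78) (nat_lit 380) (nat_lit 0) (XT.lf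 (nat_lit 0) (nat_lit 423115399) (nat_lit 532) (nat_lit 2947214249) (nat_lit 76) (nat_lit 4089355735) (nat_lit 56) (nat_lit 5) (nat_lit 63) (nat_lit 5) (nat_lit 57) (nat_lit 5) (nat_lit 311) (nat_lit 298) (nat_lit 291)) (XT.lf (nat_lit 0) (nat_lit 2096051893) (nat_lit 380) (nat_lit 1120619299) (nat_lit 456) (nat_lit 4454390543) (nat_lit 51) (nat_lit 5) (nat_lit 56) (nat_lit 5) (nat_lit 57) (nat_lit 5) (nat_lit 312) (nat_lit 298) (nat_lit 290))) (XT.nd (nat_lit 78) (nat_lit 304) (nat_lit 0) (XT.lf (nat_lit 0) (nat_lit 6155150651) (nat_lit 456) (nat_lit 440474350) (nat_lit 76) (nat_lit 1310305450) (nat_lit 51) (nat_lit 5) (nat_lit 57) (nat_lit 5) (nat_lit 52) (nat_lit 4) (nat_lit 313) (nat_lit 298) (nat_lit 289)) (XT.lf (nat_lit 0) (nat_lit 1083598999) (nat_lit 304) (nat_lit 3065095355) (nat_lit 76) (nat_lit 4011062824) (nat_lit 47) (nat_lit 5) (nat_lit 51) (nat_lit 5) (nat_lit 48) (nat_lit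 5) (nat_lit 314) (nat_lit 298) (nat_lit 288)))) (XT.nd (nat_lit 156) (nat_lit 456) (nat_lit 0) (XT.nd (nat_lit 78) (nat_lit 0) (nat_lit 0) (XT.lf (nat_lit 0) (nat_lit 2533749382) (nat_lit 228) (nat_lit 1414927999) (nat_lit 304) (nat_lit 4489927810) (nat_lit 44) (nat_lit 5) (nat_lit 47) (nat_lit 5) (nat_lit 48) (nat_lit 5) (nat_lit 315) (nat_lit 298) (nat_lit 287)) (XT.lf (nat_lit 0) (nat_lit 6998185278) (nat_lit 304) (nat_lit 236576870) (nat_lit 76) (nat_lit 1508799631) (nat_lit 44) (nat_lit 5) (nat_lit 48) (nat_lit 5) (nat_lit 45) (nat_lit 4) (nat_lit 316) (nat_lit 298) (nat_lit 286))) (XT.nd (nat_lit 78) (nat_lit 228) (nat_lit 0) (XT.lf (nat_lit 0) (nat_lit 1182576176) (nat_lit 228) (nat_lit 3158359909) (nat_lit 76) (nat_lit 4727837078) (nat_lit 41) (nat_lit 5) (nat_lit 44) (nat_lit 5) (nat_lit 42) (nat_lit 5) (nat_lit 317) (nat_lit 298) (nat_lit 285)) (XT.nd (nat_lit 78) (nat_lit 0)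 (nat_lit 0) (XT.lf (nat_lit 0) (nat_lit 3043880033) (nat_lit 228) (nat_lit 1133830027) (nat_lit 304) (nat_lit 5244658916) (nat_lit 38) (nat_lit 5) (nat_lit 41) (nat_lit 5) (nat_lit 42) (nat_lit 5) (nat_lit 318) (nat_lit 298) (nat_lit 284)) (XT.lf (nat_lit 0) (nat_lit 7409644001) (nat_lit 304) (nat_lit 145039827) (nat_lit 76) (nat_lit 2249954149) (nat_lit 38) (nat_lit 5) (nat_lit 42) (nat_lit 5) (nat_lit 39) (nat_lit 4) (nat_lit 319) (nat_lit 298) (nat_lit 283))))))) (XT.nd (nat_lit 702) (nat_lit 608) (nat_lit 0) (XT.nd (nat_lit 312) (nat_lit 532) (nat_lit 0) (XT.nd (nat_lit 156) (nat_lit 152) (nat_lit 0) (XT.nd (nat_lit 78) (nat_lit 152) (nat_lit 0) (XT.lf (nat_lit 0) (nat_lit 703748782) (nat_lit 228) (nat_lit 3534173341) (nat_lit 76) (nat_lit 5973970459) (nat_lit 35) (nat_lit 5) (nat_lit 38) (nat_lit 5) (nat_lit 36) (nat_lit 5) (nat_lit 320) (nat_lit 298) (nat_lit 282)) (XT.lf (nat_lit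 0) (nat_lit 3308384683) (nat_lit 152) (nat_lit 561721998) (nat_lit 228) (nat_lit 6780843201) (nat_lit 33) (nat_lit 5) (nat_lit 35) (nat_lit 5) (nat_lit 36) (nat_lit 5) (nat_lit 321) (nat_lit 298) (nat_lit 281))) (XT.nd (nat_lit 78) (nat_lit 152) (nat_lit 0) (XT.lf (nat_lit 0) (nat_lit 7340154598) (nat_lit 228) (nat_lit 504399856) (nat_lit 76) (nat_lit 3276664900) (nat_lit 33) (nat_lit 5) (nat_lit 36) (nat_lit 5) (nat_lit 34) (nat_lit 4) (nat_lit 322) (nat_lit 298) (nat_lit 280)) (XT.lf (nat_lit 0) (nat_lit 7031050839) (nat_lit 152) (nat_lit 4119391378) (nat_lit 228) (nat_lit 473766648) (nat_lit 31) (nat_lit 5) (nat_lit 33) (nat_lit 5) (nat_lit 34) (nat_lit 4) (nat_lit 323) (nat_lit 298) (nat_lit 279)))) (XT.nd (nat_lit 156) (nat_lit 304) (nat_lit 0) (XT.nd (nat_lit 78) (nat_lit 0) (nat_lit 0) (XT.lf (nat_lit 0) (nat_lit 2907930535) (nat_lit 228) (nat_lit 9250515156) (nat_lit 76) (nat_lit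 5941176) (nat_lit 28) (nat_lit 5) (nat_lit 31) (nat_lit 5) (nat_lit 29) (nat_lit 4) (nat_lit 324) (nat_lit 298) (nat_lit 278)) (XT.lf (nat_lit 0) (nat_lit 6653612647) (nat_lit 228) (nat_lit 1769049304) (nat_lit 76) (nat_lit 4314695927) (nat_lit 28) (nat_lit 5) (nat_lit 31) (nat_lit 5) (nat_lit 29) (nat_lit 4) (nat_lit 325) (nat_lit 298) (nat_lit 277))) (XT.nd (nat_lit 78) (nat_lit 228) (nat_lit 0) (XT.lf (nat_lit 0) (nat_lit 6456669771) (nat_lit 76) (nat_lit 4289415072) (nat_lit 152) (nat_lit 2606391260) (nat_lit 27) (nat_lit 5) (nat_lit 28) (nat_lit 5) (nat_lit 29) (nat_lit 4) (nat_lit 326) (nat_lit 298) (nat_lit 276)) (XT.nd (nat_lit 78) (nat_lit 0) (nat_lit 0) (XT.lf (nat_lit 0) (nat_lit 1070413938) (nat_lit 228) (nat_lit 12737037579) (nat_lit 76) (nat_lit 208910363) (nat_lit 24) (nat_lit 5) (nat_lit 27) (nat_lit 5) (nat_lit 25) (nat_lit 4) (nat_lit 327) (nat_lit 298) (nat_lit 275))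 (XT.lf (nat_lit 0) (nat_lit 5100382633) (nat_lit 228) (nat_lit 4582233346) (nat_lit 76) (nat_lit 5029403915) (nat_lit 24) (nat_lit 5) (nat_lit 27) (nat_lit 5) (nat_lit 25) (nat_lit 4) (nat_lit 328) (nat_lit 298) (nat_lit 274)))))) (XT.nd (nat_lit 312) (nat_lit 304) (nat_lit 0) (XT.nd (nat_lit 156) (nat_lit 228) (nat_lit 0) (XT.nd (nat_lit 78) (nat_lit 0) (nat_lit 0) (XT.lf (nat_lit 0) (nat_lit 4271420430) (nat_lit 76) (nat_lit 5186813312) (nat_lit 152) (nat_lit 6004717092) (nat_lit 23) (nat_lit 5) (nat_lit 24) (nat_lit 5) (nat_lit 25) (nat_lit 4) (nat_lit 329) (nat_lit 298) (nat_lit 273)) (XT.lf (nat_lit 0) (nat_lit 13930986763) (nat_lit 76) (nat_lit 265053322) (nat_lit 152) (nat_lit 2075464695) (nat_lit 23) (nat_lit 5) (nat_lit 24) (nat_lit 5) (nat_lit 25) (nat_lit 4) (nat_lit 330) (nat_lit 298) (nat_lit 272))) (XT.nd (nat_lit 78) (nat_lit 0) (nat_lit 0) (XT.lf (nat_lit 0) (nat_lit 2273682526)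 (nat_lit 228) (nat_lit 9879441995) (nat_lit 76) (nat_lit 4970372884) (nat_lit 20) (nat_lit 5) (nat_lit 23) (nat_lit 5) (nat_lit 21) (nat_lit 4) (nat_lit 331) (nat_lit 298) (nat_lit 271)) (XT.lf (nat_lit 0) (nat_lit 6843260454) (nat_lit 228) (nat_lit 529573445) (nat_lit 76) (nat_lit 10667776077) (nat_lit 20) (nat_lit 5) (nat_lit 23) (nat_lit 5) (nat_lit 21) (nat_lit 4) (nat_lit 332) (nat_lit 298) (nat_lit 270)))) (XT.nd (nat_lit 156) (nat_lit 152) (nat_lit 0) (XT.nd (nat_lit 78) (nat_lit 76) (nat_lit 0) (XT.lf (nat_lit 0) (nat_lit 9919019770) (nat_lit 76) (nat_lit 2016536896) (nat_lit 152) (nat_lit 7083002931) (nat_lit 19) (nat_lit 5) (nat_lit 20) (nat_lit 5) (nat_lit 21) (nat_lit 4) (nat_lit 333) (nat_lit 298) (nat_lit 269)) (XT.lf (nat_lit 0) (nat_lit 971004892) (nat_lit 76) (nat_lit 16512771275) (nat_lit 76) (nat_lit 2587123083) (nat_lit 18) (nat_lit 4) (nat_lit 19) (nat_lit 5) (nat_lit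 19) (nat_lit 4) (nat_lit 334) (nat_lit 298) (nat_lit 268))) (XT.nd (nat_lit 78) (nat_lit 76) (nat_lit 0) (XT.lf (nat_lit 0) (nat_lit 2382751441) (nat_lit 152) (nat_lit 9083347168) (nat_lit 76) (nat_lit 9718770911) (nat_lit 17) (nat_lit 5) (nat_lit 19) (nat_lit 5) (nat_lit 18) (nat_lit 4) (nat_lit 335) (nat_lit 298) (nat_lit 267)) (XT.nd (nat_lit 78) (nat_lit 0) (nat_lit 0) (XT.lf (nat_lit 0) (nat_lit 1611727413) (nat_lit 76) (nat_lit 5963555420) (nat_lit 152) (nat_lit 14810141190) (nat_lit 16) (nat_lit 5) (nat_lit 17) (nat_lit 5) (nat_lit 18) (nat_lit 4) (nat_lit 336) (nat_lit 298) (nat_lit 266)) (XT.lf (nat_lit 0) (nat_lit 13364410828) (nat_lit 152) (nat_lit 10126182032) (nat_lit 0) (nat_lit 176961866) (nat_lit 16) (nat_lit 5) (nat_lit 18) (nat_lit 4) (nat_lit 16) (nat_lit 4) (nat_lit 337) (nat_lit 298) (nat_lit 265))))))))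
noncomputable def xc90 : XT := (XT.nd (nat_lit 1404) (nat_lit 228) (nat_lit 0) (XT.nd (nat_lit 702) (nat_lit 304) (nat_lit 0) (XT.nd (nat_lit 312) (nat_lit 228) (nat_lit 0) (XT.nd (nat_lit 156) (nat_lit 76) (nat_lit 0) (XT.nd (nat_lit 78) (nat_lit 76) (nat_lit 0) (XT.lf (nat_lit 0) (nat_lit 1148793112) (nat_lit 76) (nat_lit 18582706585) (nat_lit 76) (nat_lit 5311595075) (nat_lit 15) (nat_lit 4) (nat_lit 16) (nat_lit 5) (nat_lit 16) (nat_lit 4) (nat_lit 338) (nat_lit 298) (nat_lit 264)) (XT.lf (nat_lit 0) (nat_lit 291987501) (nat_lit 152) (nat_lit 12741242829) (nat_lit 76) (nat_lit 13477982833) (nat_lit 14) (nat_lit 5) (nat_lit 16) (nat_lit 5) (nat_lit 15) (nat_lit 4) (nat_lit 339) (nat_lit 298) (nat_lit 263))) (XT.nd (nat_lit 78) (nat_lit 76) (nat_lit 0) (XT.lf (nat_lit 0) (nat_lit 5994500462) (nat_lit 152) (nat_lit 951743022) (nat_lit 76) (nat_lit 21144511945) (nat_lit 14) (nat_lit 5)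 (nat_lit 16) (nat_lit 5) (nat_lit 15) (nat_lit 4) (nat_lit 340) (nat_lit 298) (nat_lit 262)) (XT.lf (nat_lit 0) (nat_lit 12286422043) (nat_lit 76) (nat_lit 104510675) (nat_lit 152) (nat_lit 17386729521) (nat_lit 13) (nat_lit 5) (nat_lit 14) (nat_lit 5) (nat_lit 15) (nat_lit 4) (nat_lit 341) (nat_lit 298) (nat_lit 261)))) (XT.nd (nat_lit 156) (nat_lit 152) (nat_lit 0) (XT.nd (nat_lit 78) (nat_lit 76) (nat_lit 0) (XT.lf (nat_lit 0) (nat_lit 19443713058) (nat_lit 152) (nat_lit 5245183233) (nat_lit 0) (nat_lit 6899071869) (nat_lit 13) (nat_lit 5) (nat_lit 15) (nat_lit 4) (nat_lit 13) (nat_lit 4) (nat_lit 342) (nat_lit 298) (nat_lit 260)) (XT.lf (nat_lit 0) (nat_lit 8291078102) (nat_lit 76) (nat_lit 18918735684) (nat_lit 76) (nat_lit 6321372898) (nat_lit 12) (nat_lit 4) (nat_lit 13) (nat_lit 5) (nat_lit 13) (nat_lit 4) (nat_lit 343) (nat_lit 298) (nat_lit 259))) (XT.nd (nat_lit 78) (nat_lit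 76) (nat_lit 0) (XT.lf (nat_lit 0) (nat_lit 63290612) (nat_lit 152) (nat_lit 12514534605) (nat_lit 76) (nat_lit 23044568645) (nat_lit 11) (nat_lit 5) (nat_lit 13) (nat_lit 5) (nat_lit 12) (nat_lit 4) (nat_lit 344) (nat_lit 298) (nat_lit 258)) (XT.nd (nat_lit 78) (nat_lit 0) (nat_lit 0) (XT.lf (nat_lit 0) (nat_lit 1021801042) (nat_lit 76) (nat_lit 5571074146) (nat_lit 152) (nat_lit 31276846476) (nat_lit 10) (nat_lit 5) (nat_lit 11) (nat_lit 5) (nat_lit 12) (nat_lit 4) (nat_lit 345) (nat_lit 298) (nat_lit 257)) (XT.lf (nat_lit 0) (nat_lit 13995333024) (nat_lit 152) (nat_lit 24068169985) (nat_lit 0) (nat_lit 2205303899) (nat_lit 10) (nat_lit 5) (nat_lit 12) (nat_lit 4) (nat_lit 10) (nat_lit 4) (nat_lit 346) (nat_lit 298) (nat_lit 256)))))) (XT.nd (nat_lit 312) (nat_lit 228) (nat_lit 0) (XT.nd (nat_lit 156) (nat_lit 0) (nat_lit 0) (XT.nd (nat_lit 78) (nat_lit 76) (nat_lit 0) (XT.lf (nat_lit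 0) (nat_lit 22089728071) (nat_lit 152) (nat_lit 10498305006) (nat_lit 0) (nat_lit 10263817513) (nat_lit 10) (nat_lit 5) (nat_lit 12) (nat_lit 4) (nat_lit 10) (nat_lit 4) (nat_lit 347) (nat_lit 298) (nat_lit 255)) (XT.lf (nat_lit 0) (nat_lit 4290711566) (nat_lit 76) (nat_lit 26602522800) (nat_lit 76) (nat_lit 14743388693) (nat_lit 9) (nat_lit 4) (nat_lit 10) (nat_lit 5) (nat_lit 10) (nat_lit 4) (nat_lit 348) (nat_lit 298) (nat_lit 254))) (XT.nd (nat_lit 78) (nat_lit 0) (nat_lit 0) (XT.lf (nat_lit 0) (nat_lit 20780873563) (nat_lit 76) (nat_lit 19866741124) (nat_lit 76) (nat_lit 7976844471) (nat_lit 9) (nat_lit 4) (nat_lit 10) (nat_lit 5) (nat_lit 10) (nat_lit 4) (nat_lit 349) (nat_lit 298) (nat_lit 253)) (XT.lf (nat_lit 0) (nat_lit 38517078328) (nat_lit 76) (nat_lit 12627814570) (nat_lit 76) (nat_lit 709434079) (nat_lit 9) (nat_lit 4) (nat_lit 10) (nat_lit 5) (nat_lit 10) (nat_lit 4) (nat_lit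 350) (nat_lit 298) (nat_lit 252)))) (XT.nd (nat_lit 156) (nat_lit 76) (nat_lit 0) (XT.nd (nat_lit 78) (nat_lit 0) (nat_lit 0) (XT.lf (nat_lit 0) (nat_lit 2198225913) (nat_lit 76) (nat_lit 4601283859) (nat_lit 152) (nat_lit 48527963220) (nat_lit 7) (nat_lit 5) (nat_lit 8) (nat_lit 5) (nat_lit 9) (nat_lit 4) (nat_lit 351) (nat_lit 298) (nat_lit 251)) (XT.lf (nat_lit 0) (nat_lit 15307414080) (nat_lit 152) (nat_lit 39509818585) (nat_lit 0) (nat_lit 4224844899) (nat_lit 7) (nat_lit 5) (nat_lit 9) (nat_lit 4) (nat_lit 7) (nat_lit 4) (nat_lit 352) (nat_lit 298) (nat_lit 250))) (XT.nd (nat_lit 78) (nat_lit 76) (nat_lit 0) (XT.lf (nat_lit 0) (nat_lit 24582702263) (nat_lit 152) (nat_lit 24985017848) (nat_lit 0) (nat_lit 13479196610) (nat_lit 7) (nat_lit 5) (nat_lit 9) (nat_lit 4) (nat_lit 7) (nat_lit 4) (nat_lit 353) (nat_lit 298) (nat_lit 249)) (XT.nd (nat_lit 78) (nat_lit 76) (nat_lit 0) (XT.lf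 (nat_lit 0) (nat_lit 34569678003) (nat_lit 152) (nat_lit 9358110988) (nat_lit 0) (nat_lit 23446786728) (nat_lit 7) (nat_lit 5) (nat_lit 9) (nat_lit 4) (nat_lit 7) (nat_lit 4) (nat_lit 354) (nat_lit 298) (nat_lit 248)) (XT.lf (nat_lit 0) (nat_lit 7856520880) (nat_lit 76) (nat_lit 37659952016) (nat_lit 76) (nat_lit 26519111091) (nat_lit 6) (nat_lit 4) (nat_lit 7) (nat_lit 5) (nat_lit 7) (nat_lit 4) (nat_lit 355) (nat_lit 298) (nat_lit 247))))))) (XT.nd (nat_lit 702) (nat_lit 76) (nat_lit 0) (XT.nd (nat_lit 312) (nat_lit 76) (nat_lit 0) (XT.nd (nat_lit 156) (nat_lit 76) (nat_lit 0) (XT.nd (nat_lit 78) (nat_lit 0) (nat_lit 0) (XT.lf (nat_lit 0) (nat_lit 26926488438) (nat_lit 76) (nat_lit 30641082846) (nat_lit 76) (nat_lit 19483621875) (nat_lit 6) (nat_lit 4) (nat_lit 7) (nat_lit 5) (nat_lit 7) (nat_lit 4) (nat_lit 356) (nat_lit 298) (nat_lit 246)) (XT.lf (nat_lit 0) (nat_lit 47472017358)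 (nat_lit 76) (nat_lit 23085455520) (nat_lit 76) (nat_lit 11912605618) (nat_lit 6) (nat_lit 4) (nat_lit 7) (nat_lit 5) (nat_lit 7) (nat_lit 4) (nat_lit 357) (nat_lit 298) (nat_lit 245))) (XT.nd (nat_lit 78) (nat_lit 76) (nat_lit 0) (XT.lf (nat_lit 0) (nat_lit 69614858925) (nat_lit 76) (nat_lit 14948295952) (nat_lit 76) (nat_lit 3761197038) (nat_lit 6) (nat_lit 4) (nat_lit 7) (nat_lit 5) (nat_lit 7) (nat_lit 4) (nat_lit 358) (nat_lit 298) (nat_lit 244)) (XT.lf (nat_lit 0) (nat_lit 4767842375) (nat_lit 152) (nat_lit 1283180300) (nat_lit 76) (nat_lit 88588026340) (nat_lit 5) (nat_lit 5) (nat_lit 7) (nat_lit 5) (nat_lit 6) (nat_lit 4) (nat_lit 359) (nat_lit 298) (nat_lit 243)))) (XT.nd (nat_lit 156) (nat_lit 0) (nat_lit 0) (XT.nd (nat_lit 78) (nat_lit 0) (nat_lit 0) (XT.lf (nat_lit 0) (nat_lit 14294943352) (nat_lit 152) (nat_lit 83201660344) (nat_lit 0) (nat_lit 3912990878) (nat_lit 4) (nat_lit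 5) (nat_lit 6) (nat_lit 4) (nat_lit 4) (nat_lit 4) (nat_lit 360) (nat_lit 298) (nat_lit 242)) (XT.lf (nat_lit 0) (nat_lit 24756875049) (nat_lit 152) (nat_lit 69586649763) (nat_lit 0) (nat_lit 14364449127) (nat_lit 4) (nat_lit 5) (nat_lit 6) (nat_lit 4) (nat_lit 4) (nat_lit 4) (nat_lit 361) (nat_lit 298) (nat_lit 241))) (XT.nd (nat_lit 78) (nat_lit 0) (nat_lit 0) (XT.lf (nat_lit 0) (nat_lit 36036777500) (nat_lit 152) (nat_lit 54920313853) (nat_lit 0) (nat_lit 25634653941) (nat_lit 4) (nat_lit 5) (nat_lit 6) (nat_lit 4) (nat_lit 4) (nat_lit 4) (nat_lit 362) (nat_lit 298) (nat_lit 240)) (XT.nd (nat_lit 78) (nat_lit 0) (nat_lit 0) (XT.lf (nat_lit 0) (nat_lit 48201494571) (nat_lit 152) (nat_lit 39115740993) (nat_lit 0) (nat_lit 37790391717) (nat_lit 4) (nat_lit 5) (nat_lit 6) (nat_lit 4) (nat_lit 4) (nat_lit 4) (nat_lit 363) (nat_lit 298) (nat_lit 239)) (XT.lf (nat_lit 0) (nat_lit 61323113473)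 (nat_lit 152) (nat_lit 22079274456) (nat_lit 0) (nat_lit 50903696459) (nat_lit 4) (nat_lit 5) (nat_lit 6) (nat_lit 4) (nat_lit 4) (nat_lit 4) (nat_lit 364) (nat_lit 298) (nat_lit 238)))))) (XT.nd (nat_lit 312) (nat_lit 0) (nat_lit 0) (XT.nd (nat_lit 156) (nat_lit 0) (nat_lit 0) (XT.nd (nat_lit 78) (nat_lit 76) (nat_lit 0) (XT.lf (nat_lit 0) (nat_lit 75479391950) (nat_lit 152) (nat_lit 3709957403) (nat_lit 0) (nat_lit 65052276639) (nat_lit 4) (nat_lit 5) (nat_lit 6) (nat_lit 4) (nat_lit 4) (nat_lit 4) (nat_lit 365) (nat_lit 298) (nat_lit 237)) (XT.lf (nat_lit 0) (nat_lit 16948918946) (nat_lit 76) (nat_lit 74212922019) (nat_lit 76) (nat_lit 63778678655) (nat_lit 3) (nat_lit 4) (nat_lit 4) (nat_lit 5) (nat_lit 4) (nat_lit 4) (nat_lit 366) (nat_lit 298) (nat_lit 236))) (XT.nd (nat_lit 78) (nat_lit 0) (nat_lit 0) (XT.lf (nat_lit 0) (nat_lit 39444359135) (nat_lit 76) (nat_lit 68742390942) (nat_lit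 76) (nat_lit 58301547529) (nat_lit 3) (nat_lit 4) (nat_lit 4) (nat_lit 5) (nat_lit 4) (nat_lit 4) (nat_lit 367) (nat_lit 298) (nat_lit 235)) (XT.lf (nat_lit 0) (nat_lit 63714309691) (nat_lit 76) (nat_lit 62846774969) (nat_lit 76) (nat_lit 52399820399) (nat_lit 3) (nat_lit 4) (nat_lit 4) (nat_lit 5) (nat_lit 4) (nat_lit 4) (nat_lit 368) (nat_lit 298) (nat_lit 234)))) (XT.nd (nat_lit 156) (nat_lit 0) (nat_lit 0) (XT.nd (nat_lit 78) (nat_lit 0) (nat_lit 0) (XT.lf (nat_lit 0) (nat_lit 89902592544) (nat_lit 76) (nat_lit 56491137118) (nat_lit 76) (nat_lit 46038524070) (nat_lit 3) (nat_lit 4) (nat_lit 4) (nat_lit 5) (nat_lit 4) (nat_lit 4) (nat_lit 369) (nat_lit 298) (nat_lit 233)) (XT.lf (nat_lit 0) (nat_lit 118164397519) (nat_lit 76) (nat_lit 49637814349) (nat_lit 76) (nat_lit 39179961969) (nat_lit 3) (nat_lit 4) (nat_lit 4) (nat_lit 5) (nat_lit 4) (nat_lit 4) (nat_lit 370) (nat_lit 298) (nat_lit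 232))) (XT.nd (nat_lit 78) (nat_lit 0) (nat_lit 0) (XT.lf (nat_lit 0) (nat_lit 148667201977) (nat_lit 76) (nat_lit 42246194378) (nat_lit 76) (nat_lit 31783490766) (nat_lit 3) (nat_lit 4) (nat_lit 4) (nat_lit 5) (nat_lit 4) (nat_lit 4) (nat_lit 371) (nat_lit 298) (nat_lit 231)) (XT.nd (nat_lit 78) (nat_lit 0) (nat_lit 0) (XT.lf (nat_lit 0) (nat_lit 181591763280) (nat_lit 76) (nat_lit 34272475015) (nat_lit 76) (nat_lit 23805279520) (nat_lit 3) (nat_lit 4) (nat_lit 4) (nat_lit 5) (nat_lit 4) (nat_lit 4) (nat_lit 372) (nat_lit 298) (nat_lit 230)) (XT.lf (nat_lit 0) (nat_lit 217133189938) (nat_lit 76) (nat_lit 25669404588) (nat_lit 76) (nat_lit 15198049943) (nat_lit 3) (nat_lit 4) (nat_lit 4) (nat_lit 5) (nat_lit 4) (nat_lit 4) (nat_lit 373) (nat_lit 298) (nat_lit 229))))))))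
noncomputable def xc91 : XT := (XT.nd (nat_lit 1404) (nat_lit 0) (nat_lit 0) (XT.nd (nat_lit 702) (nat_lit 0) (nat_lit 0) (XT.nd (nat_lit 312) (nat_lit 0) (nat_lit 0) (XT.nd (nat_lit 156) (nat_lit 76) (nat_lit 0) (XT.nd (nat_lit 78) (nat_lit 76) (nat_lit 0) (XT.lf (nat_lit 0) (nat_lit 255502097813) (nat_lit 76) (nat_lit 16386001940) (nat_lit 76) (nat_lit 5910796229) (nat_lit 3) (nat_lit 4) (nat_lit 4) (nat_lit 5) (nat_lit 4) (nat_lit 4) (nat_lit 374) (nat_lit 298) (nat_lit 228)) (XT.lf (nat_lit 0) (nat_lit 3905842456) (nat_lit 152) (nat_lit 2354619202) (nat_lit 76) (nat_lit 292913223099) (nat_lit 2) (nat_lit 5) (nat_lit 4) (nat_lit 5) (nat_lit 3) (nat_lit 4) (nat_lit 375) (nat_lit 298) (nat_lit 227))) (XT.nd (nat_lit 78) (nat_lit 0) (nat_lit 0) (XT.lf (nat_lit 0) (nat_lit 14791673654) (nat_lit 152) (nat_lit 302320195559) (nat_lit 0) (nat_lit 5086050339) (nat_lit 1) (nat_lit 5) (nat_lit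 3) (nat_lit 4) (nat_lit 1) (nat_lit 4) (nat_lit 376) (nat_lit 298) (nat_lit 226)) (XT.lf (nat_lit 0) (nat_lit 26770090841) (nat_lit 152) (nat_lit 303214628710) (nat_lit 0) (nat_lit 17061636878) (nat_lit 1) (nat_lit 5) (nat_lit 3) (nat_lit 4) (nat_lit 1) (nat_lit 4) (nat_lit 377) (nat_lit 298) (nat_lit 225)))) (XT.nd (nat_lit 156) (nat_lit 0) (nat_lit 0) (XT.nd (nat_lit 78) (nat_lit 0) (nat_lit 0) (XT.lf (nat_lit 0) (nat_lit 39700354036) (nat_lit 152) (nat_lit 304193550099) (nat_lit 0) (nat_lit 29989279103) (nat_lit 1) (nat_lit 5) (nat_lit 3) (nat_lit 4) (nat_lit 1) (nat_lit 4) (nat_lit 378) (nat_lit 298) (nat_lit 224)) (XT.lf (nat_lit 0) (nat_lit 53659087022) (nat_lit 152) (nat_lit 305262760743) (nat_lit 0) (nat_lit 43945585265) (nat_lit 1) (nat_lit 5) (nat_lit 3) (nat_lit 4) (nat_lit 1) (nat_lit 4) (nat_lit 379) (nat_lit 298) (nat_lit 223))) (XT.nd (nat_lit 78) (nat_lit 0) (nat_lit 0)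 (XT.lf (nat_lit 0) (nat_lit 68729008215) (nat_lit 152) (nat_lit 306428596704) (nat_lit 0) (nat_lit 59013259399) (nat_lit 1) (nat_lit 5) (nat_lit 3) (nat_lit 4) (nat_lit 1) (nat_lit 4) (nat_lit 380) (nat_lit 298) (nat_lit 222)) (XT.nd (nat_lit 78) (nat_lit 0) (nat_lit 0) (XT.lf (nat_lit 0) (nat_lit 84999420853) (nat_lit 152) (nat_lit 307697966641) (nat_lit 0) (nat_lit 75281591426) (nat_lit 1) (nat_lit 5) (nat_lit 3) (nat_lit 4) (nat_lit 1) (nat_lit 4) (nat_lit 381) (nat_lit 298) (nat_lit 221)) (XT.lf (nat_lit 0) (nat_lit 102566742196) (nat_lit 152) (nat_lit 309078392744) (nat_lit 0) (nat_lit 92846986278) (nat_lit 1) (nat_lit 5) (nat_lit 3) (nat_lit 4) (nat_lit 1) (nat_lit 4) (nat_lit 382) (nat_lit 298) (nat_lit 220)))))) (XT.nd (nat_lit 312) (nat_lit 0) (nat_lit 0) (XT.nd (nat_lit 156) (nat_lit 0) (nat_lit 0) (XT.nd (nat_lit 78) (nat_lit 0) (nat_lit 0) (XT.lf (nat_lit 0) (nat_lit 121535074889)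 (nat_lit 152) (nat_lit 310578055318) (nat_lit 0) (nat_lit 111813535182) (nat_lit 1) (nat_lit 5) (nat_lit 3) (nat_lit 4) (nat_lit 1) (nat_lit 4) (nat_lit 383) (nat_lit 298) (nat_lit 219)) (XT.lf (nat_lit 0) (nat_lit 142016823866) (nat_lit 152) (nat_lit 312205841251) (nat_lit 0) (nat_lit 132293632503) (nat_lit 1) (nat_lit 5) (nat_lit 3) (nat_lit 4) (nat_lit 1) (nat_lit 4) (nat_lit 384) (nat_lit 298) (nat_lit 218))) (XT.nd (nat_lit 78) (nat_lit 0) (nat_lit 0) (XT.lf (nat_lit 0) (nat_lit 164133362455) (nat_lit 152) (nat_lit 313971396683) (nat_lit 0) (nat_lit 154408641781) (nat_lit 1) (nat_lit 5) (nat_lit 3) (nat_lit 4) (nat_lit 1) (nat_lit 4) (nat_lit 385) (nat_lit 298) (nat_lit 217)) (XT.lf (nat_lit 0) (nat_lit 188015751624) (nat_lit 152) (nat_lit 315885184163) (nat_lit 0) (nat_lit 178289614922) (nat_lit 1) (nat_lit 5) (nat_lit 3) (nat_lit 4) (nat_lit 1) (nat_lit 4) (nat_lit 386) (nat_lit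 298) (nat_lit 216)))) (XT.nd (nat_lit 156) (nat_lit 0) (nat_lit 0) (XT.nd (nat_lit 78) (nat_lit 0) (nat_lit 0) (XT.lf (nat_lit 0) (nat_lit 213805516644) (nat_lit 152) (nat_lit 317958544656) (nat_lit 0) (nat_lit 204078068804) (nat_lit 1) (nat_lit 5) (nat_lit 3) (nat_lit 4) (nat_lit 1) (nat_lit 4) (nat_lit 387) (nat_lit 298) (nat_lit 215)) (XT.lf (nat_lit 0) (nat_lit 241655485751) (nat_lit 152) (nat_lit 320203764741) (nat_lit 0) (nat_lit 231926823894) (nat_lit 1) (nat_lit 5) (nat_lit 3) (nat_lit 4) (nat_lit 1) (nat_lit 4) (nat_lit 388) (nat_lit 298) (nat_lit 214))) (XT.nd (nat_lit 78) (nat_lit 0) (nat_lit 0) (XT.lf (nat_lit 0) (nat_lit 271730695799) (nat_lit 152) (nat_lit 322634149426) (nat_lit 0) (nat_lit 262000909853) (nat_lit 1) (nat_lit 5) (nat_lit 3) (nat_lit 4) (nat_lit 1) (nat_lit 4) (nat_lit 389) (nat_lit 298) (nat_lit 213)) (XT.nd (nat_lit 78) (nat_lit 0) (nat_lit 0) (XT.lf (nat_lit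 0) (nat_lit 304209370255) (nat_lit 152) (nat_lit 325264100992) (nat_lit 0) (nat_lit 294478543486) (nat_lit 1) (nat_lit 5) (nat_lit 3) (nat_lit 4) (nat_lit 1) (nat_lit 4) (nat_lit 390) (nat_lit 298) (nat_lit 212)) (XT.lf (nat_lit 0) (nat_lit 339283975338) (nat_lit 152) (nat_lit 328109204336) (nat_lit 0) (nat_lit 329552184844) (nat_lit 1) (nat_lit 5) (nat_lit 3) (nat_lit 4) (nat_lit 1) (nat_lit 4) (nat_lit 391) (nat_lit 298) (nat_lit 211))))))) (XT.nd (nat_lit 702) (nat_lit 0) (nat_lit 0) (XT.nd (nat_lit 312) (nat_lit 0) (nat_lit 0) (XT.nd (nat_lit 156) (nat_lit 0) (nat_lit 0) (XT.nd (nat_lit 78) (nat_lit 0) (nat_lit 0) (XT.lf (nat_lit 0) (nat_lit 377162360560) (nat_lit 152) (nat_lit 331186319330) (nat_lit 0) (nat_lit 367429677727) (nat_lit 1) (nat_lit 5) (nat_lit 3) (nat_lit 4) (nat_lit 1) (nat_lit 4) (nat_lit 392) (nat_lit 298) (nat_lit 210)) (XT.lf (nat_lit 0) (nat_lit 418068990426)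 (nat_lit 152) (nat_lit 334513680729) (nat_lit 0) (nat_lit 408335481354) (nat_lit 1) (nat_lit 5) (nat_lit 3) (nat_lit 4) (nat_lit 1) (nat_lit 4) (nat_lit 393) (nat_lit 298) (nat_lit 209))) (XT.nd (nat_lit 78) (nat_lit 0) (nat_lit 0) (XT.lf (nat_lit 0) (nat_lit 462246274594) (nat_lit 152) (nat_lit 338111006231) (nat_lit 0) (nat_lit 452512000486) (nat_lit 1) (nat_lit 5) (nat_lit 3) (nat_lit 4) (nat_lit 1) (nat_lit 4) (nat_lit 394) (nat_lit 298) (nat_lit 208)) (XT.lf (nat_lit 0) (nat_lit 509956004378) (nat_lit 152) (nat_lit 341999613319) (nat_lit 0) (nat_lit 500221021903) (nat_lit 1) (nat_lit 5) (nat_lit 3) (nat_lit 4) (nat_lit 1) (nat_lit 4) (nat_lit 395) (nat_lit 298) (nat_lit 207)))) (XT.nd (nat_lit 156) (nat_lit 0) (nat_lit 0) (XT.nd (nat_lit 78) (nat_lit 0) (nat_lit 0) (XT.lf (nat_lit 0) (nat_lit 561480904102) (nat_lit 152) (nat_lit 346202545593) (nat_lit 0) (nat_lit 551745265732) (nat_lit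 1) (nat_lit 5) (nat_lit 3) (nat_lit 4) (nat_lit 1) (nat_lit 4) (nat_lit 396) (nat_lit 298) (nat_lit 206)) (XT.lf (nat_lit 0) (nat_lit 617126306506) (nat_lit 152) (nat_lit 350744709317) (nat_lit 0) (nat_lit 607390060825) (nat_lit 1) (nat_lit 5) (nat_lit 3) (nat_lit 4) (nat_lit 1) (nat_lit 4) (nat_lit 397) (nat_lit 298) (nat_lit 205))) (XT.nd (nat_lit 78) (nat_lit 0) (nat_lit 0) (XT.lf (nat_lit 0) (nat_lit 677221962122) (nat_lit 152) (nat_lit 355653021016) (nat_lit 0) (nat_lit 667485154117) (nat_lit 1) (nat_lit 5) (nat_lit 3) (nat_lit 4) (nat_lit 1) (nat_lit 4) (nat_lit 398) (nat_lit 298) (nat_lit 204)) (XT.nd (nat_lit 78) (nat_lit 0) (nat_lit 0) (XT.lf (nat_lit 0) (nat_lit 742123993354) (nat_lit 152) (nat_lit 360956566982) (nat_lit 0) (nat_lit 732386664678) (nat_lit 1) (nat_lit 5) (nat_lit 3) (nat_lit 4) (nat_lit 1) (nat_lit 4) (nat_lit 399) (nat_lit 298) (nat_lit 203)) (XT.lf (nat_lit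 0) (nat_lit 812217004832) (nat_lit 152) (nat_lit 366686775637) (nat_lit 0) (nat_lit 802479194053) (nat_lit 1) (nat_lit 5) (nat_lit 3) (nat_lit 4) (nat_lit 1) (nat_lit 4) (nat_lit 400) (nat_lit 298) (nat_lit 202)))))) (XT.nd (nat_lit 312) (nat_lit 0) (nat_lit 0) (XT.nd (nat_lit 156) (nat_lit 0) (nat_lit 0) (XT.nd (nat_lit 78) (nat_lit 0) (nat_lit 0) (XT.lf (nat_lit 0) (nat_lit 887916362549) (nat_lit 152) (nat_lit 372877603771) (nat_lit 0) (nat_lit 878178105379) (nat_lit 1) (nat_lit 5) (nat_lit 3) (nat_lit 4) (nat_lit 1) (nat_lit 4) (nat_lit 401) (nat_lit 298) (nat_lit 201)) (XT.lf (nat_lit 0) (nat_lit 969670655292) (nat_lit 152) (nat_lit 379565737774) (nat_lit 0) (nat_lit 959931984797) (nat_lit 1) (nat_lit 5) (nat_lit 3) (nat_lit 4) (nat_lit 1) (nat_lit 4) (nat_lit 402) (nat_lit 298) (nat_lit 200))) (XT.nd (nat_lit 78) (nat_lit 0) (nat_lit 0) (XT.lf (nat_lit 0) (nat_lit 1057964352944)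 (nat_lit 152) (nat_lit 386790811033) (nat_lit 0) (nat_lit 1048225299740) (nat_lit 1) (nat_lit 5) (nat_lit 3) (nat_lit 4) (nat_lit 1) (nat_lit 4) (nat_lit 403) (nat_lit 298) (nat_lit 199)) (XT.lf (nat_lit 0) (nat_lit 1153320677417) (nat_lit 152) (nat_lit 394595638796) (nat_lit 0) (nat_lit 1143581269853) (nat_lit 1) (nat_lit 5) (nat_lit 3) (nat_lit 4) (nat_lit 1) (nat_lit 4) (nat_lit 404) (nat_lit 298) (nat_lit 198)))) (XT.nd (nat_lit 156) (nat_lit 0) (nat_lit 0) (XT.nd (nat_lit 78) (nat_lit 0) (nat_lit 0) (XT.lf (nat_lit 0) (nat_lit 1256304703226) (nat_lit 152) (nat_lit 403026471894) (nat_lit 0) (nat_lit 1246564967552) (nat_lit 1) (nat_lit 5) (nat_lit 3) (nat_lit 4) (nat_lit 1) (nat_lit 4) (nat_lit 405) (nat_lit 298) (nat_lit 197)) (XT.lf (nat_lit 0) (nat_lit 1367526706080) (nat_lit 152) (nat_lit 412133270821) (nat_lit 0) (nat_lit 1357786666599) (nat_lit 1) (nat_lit 5) (nat_lit 3) (nat_lit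 4) (nat_lit 1) (nat_lit 4) (nat_lit 406) (nat_lit 298) (nat_lit 196))) (XT.nd (nat_lit 78) (nat_lit 0) (nat_lit 0) (XT.lf (nat_lit 0) (nat_lit 1487645779329) (nat_lit 152) (nat_lit 421970001791) (nat_lit 0) (nat_lit 1477905458546) (nat_lit 1) (nat_lit 5) (nat_lit 3) (nat_lit 4) (nat_lit 1) (nat_lit 4) (nat_lit 407) (nat_lit 298) (nat_lit 195)) (XT.nd (nat_lit 78) (nat_lit 0) (nat_lit 0) (XT.lf (nat_lit 0) (nat_lit 1617373739703) (nat_lit 152) (nat_lit 432594956545) (nat_lit 0) (nat_lit 1607633158455) (nat_lit 1) (nat_lit 5) (nat_lit 3) (nat_lit 4) (nat_lit 1) (nat_lit 4) (nat_lit 408) (nat_lit 298) (nat_lit 194)) (XT.lf (nat_lit 0) (nat_lit 1757479345486) (nat_lit 152) (nat_lit 444071097776) (nat_lit 0) (nat_lit 1747738523067) (nat_lit 1) (nat_lit 5) (nat_lit 3) (nat_lit 4) (nat_lit 1) (nat_lit 4) (nat_lit 409) (nat_lit 298) (nat_lit 193))))))))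
noncomputable def xc92 : XT := (XT.nd (nat_lit 39312) (nat_lit 0) (nat_lit 1672) (XT.nd (nat_lit 38610) (nat_lit 0) (nat_lit 3800) (XT.nd (nat_lit 312) (nat_lit 0) (nat_lit 0) (XT.nd (nat_lit 156) (nat_lit 0) (nat_lit 0) (XT.nd (nat_lit 78) (nat_lit 0) (nat_lit 0) (XT.lf (nat_lit 0) (nat_lit 1908792852120) (nat_lit 152) (nat_lit 456466432248) (nat_lit 0) (nat_lit 1899051806394) (nat_lit 1) (nat_lit 5) (nat_lit 3) (nat_lit 4) (nat_lit 1) (nat_lit 4) (nat_lit 410) (nat_lit 298) (nat_lit 192)) (XT.lf (nat_lit 0) (nat_lit 2072210932236) (nat_lit 152) (nat_lit 469854413795) (nat_lit 0) (nat_lit 2062469679745) (nat_lit 1) (nat_lit 5) (nat_lit 3) (nat_lit 4) (nat_lit 1) (nat_lit 4) (nat_lit 411) (nat_lit 298) (nat_lit 191))) (XT.nd (nat_lit 78) (nat_lit 0) (nat_lit 0) (XT.lf (nat_lit 0) (nat_lit 2248701989273) (nat_lit 152) (nat_lit 484314378603) (nat_lit 0) (nat_lit 2238960545332) (nat_lit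 1) (nat_lit 5) (nat_lit 3) (nat_lit 4) (nat_lit 1) (nat_lit 4) (nat_lit 412) (nat_lit 298) (nat_lit 190)) (XT.lf (nat_lit 0) (nat_lit 2439311896161) (nat_lit 152) (nat_lit 499932015353) (nat_lit 0) (nat_lit 2429570274952) (nat_lit 1) (nat_lit 5) (nat_lit 3) (nat_lit 4) (nat_lit 1) (nat_lit 4) (nat_lit 413) (nat_lit 298) (nat_lit 189)))) (XT.nd (nat_lit 156) (nat_lit 0) (nat_lit 0) (XT.nd (nat_lit 78) (nat_lit 0) (nat_lit 0) (XT.lf (nat_lit 0) (nat_lit 2645170193089) (nat_lit 152) (nat_lit 516799873004) (nat_lit 0) (nat_lit 2635428407743) (nat_lit 1) (nat_lit 5) (nat_lit 3) (nat_lit 4) (nat_lit 1) (nat_lit 4) (nat_lit 414) (nat_lit 298) (nat_lit 188)) (XT.lf (nat_lit 0) (nat_lit 2867496781076) (nat_lit 152) (nat_lit 535017909229) (nat_lit 0) (nat_lit 2857754843751) (nat_lit 1) (nat_lit 5) (nat_lit 3) (nat_lit 4) (nat_lit 1) (nat_lit 4) (nat_lit 415) (nat_lit 298) (nat_lit 187))) (XT.nd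 (nat_lit 37986) (nat_lit 0) (nat_lit 6004) (XT.lf (nat_lit 0) (nat_lit 3107609151013) (nat_lit 152) (nat_lit 554694082764) (nat_lit 0) (nat_lit 3097867072967) (nat_lit 1) (nat_lit 5) (nat_lit 3) (nat_lit 4) (nat_lit 1) (nat_lit 4) (nat_lit 416) (nat_lit 298) (nat_lit 186)) (XT.nd (nat_lit 78) (nat_lit 0) (nat_lit 0) (XT.lf (nat_lit 0) (nat_lit 51447616) (nat_lit 76) (nat_lit 1591395645) (nat_lit 76) (nat_lit 1591395645) (nat_lit 80) (nat_lit 4) (nat_lit 81) (nat_lit 5) (nat_lit 81) (nat_lit 4) (nat_lit 302) (nat_lit 299) (nat_lit 299)) (XT.lf (nat_lit 0) (nat_lit 3722149238) (nat_lit 76) (nat_lit 2728062390) (nat_lit 76) (nat_lit 57516238) (nat_lit 80) (nat_lit 4) (nat_lit 81) (nat_lit 5) (nat_lit 81) (nat_lit 4) (nat_lit 303) (nat_lit 299) (nat_lit 298)))))) (XT.nd (nat_lit 312) (nat_lit 1672) (nat_lit 0) (XT.nd (nat_lit 156) (nat_lit 304) (nat_lit 0) (XT.nd (nat_lit 78) (nat_lit 0)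 (nat_lit 0) (XT.lf (nat_lit 0) (nat_lit 851596527) (nat_lit 152) (nat_lit 2030552798) (nat_lit 228) (nat_lit 3683851609) (nat_lit 77) (nat_lit 5) (nat_lit 79) (nat_lit 5) (nat_lit 80) (nat_lit 4) (nat_lit 304) (nat_lit 299) (nat_lit 297)) (XT.lf (nat_lit 0) (nat_lit 4749416401) (nat_lit 152) (nat_lit 1107436174) (nat_lit 228) (nat_lit 788368061) (nat_lit 77) (nat_lit 5) (nat_lit 79) (nat_lit 5) (nat_lit 80) (nat_lit 4) (nat_lit 305) (nat_lit 299) (nat_lit 296))) (XT.nd (nat_lit 78) (nat_lit 0) (nat_lit 0) (XT.lf (nat_lit 0) (nat_lit 2013799407) (nat_lit 304) (nat_lit 4656484819) (nat_lit 76) (nat_lit 73181241) (nat_lit 73) (nat_lit 5) (nat_lit 77) (nat_lit 5) (nat_lit 74) (nat_lit 4) (nat_lit 306) (nat_lit 299) (nat_lit 295)) (XT.lf (nat_lit 0) (nat_lit 4835806924) (nat_lit 304) (nat_lit 604238020) (nat_lit 76) (nat_lit 1421335730) (nat_lit 73) (nat_lit 5) (nat_lit 77) (nat_lit 5) (nat_lit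 74) (nat_lit 4) (nat_lit 307) (nat_lit 299) (nat_lit 294)))) (XT.nd (nat_lit 156) (nat_lit 912) (nat_lit 0) (XT.nd (nat_lit 78) (nat_lit 380) (nat_lit 0) (XT.lf (nat_lit 0) (nat_lit 711199766) (nat_lit 380) (nat_lit 3246430951) (nat_lit 76) (nat_lit 3040924253) (nat_lit 68) (nat_lit 5) (nat_lit 73) (nat_lit 5) (nat_lit 69) (nat_lit 5) (nat_lit 308) (nat_lit 299) (nat_lit 293)) (XT.lf (nat_lit 0) (nat_lit 1154225130) (nat_lit 380) (nat_lit 2228649636) (nat_lit 456) (nat_lit 3773992604) (nat_lit 63) (nat_lit 5) (nat_lit 68) (nat_lit 5) (nat_lit 69) (nat_lit 5) (nat_lit 309) (nat_lit 299) (nat_lit 292))) (XT.nd (nat_lit 78) (nat_lit 912) (nat_lit 0) (XT.lf (nat_lit 0) (nat_lit 5900085005) (nat_lit 380) (nat_lit 249286561) (nat_lit 456) (nat_lit 1188360801) (nat_lit 63) (nat_lit 5) (nat_lit 68) (nat_lit 5) (nat_lit 69) (nat_lit 5) (nat_lit 310) (nat_lit 299) (nat_lit 291)) (XT.nd (nat_lit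 78) (nat_lit 380) (nat_lit 0) (XT.lf (nat_lit 0) (nat_lit 1457740091) (nat_lit 532) (nat_lit 4150366254) (nat_lit 76) (nat_lit 1927486015) (nat_lit 56) (nat_lit 5) (nat_lit 63) (nat_lit 5) (nat_lit 57) (nat_lit 5) (nat_lit 311) (nat_lit 299) (nat_lit 290)) (XT.lf (nat_lit 0) (nat_lit 729011421) (nat_lit 380) (nat_lit 3399365713) (nat_lit 456) (nat_lit 3628568056) (nat_lit 51) (nat_lit 5) (nat_lit 56) (nat_lit 5) (nat_lit 57) (nat_lit 5) (nat_lit 312) (nat_lit 299) (nat_lit 289))))))) (XT.nd (nat_lit 702) (nat_lit 912) (nat_lit 0) (XT.nd (nat_lit 312) (nat_lit 684) (nat_lit 0) (XT.nd (nat_lit 156) (nat_lit 228) (nat_lit 0) (XT.nd (nat_lit 78) (nat_lit 304) (nat_lit 0) (XT.lf (nat_lit 0) (nat_lit 6041155948) (nat_lit 380) (nat_lit 906917979) (nat_lit 456) (nat_lit 1053374979) (nat_lit 51) (nat_lit 5) (nat_lit 56) (nat_lit 5) (nat_lit 57) (nat_lit 5) (nat_lit 313) (nat_lit 299) (nat_lit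 288)) (XT.lf (nat_lit 0) (nat_lit 1600812276) (nat_lit 304) (nat_lit 4859399403) (nat_lit 76) (nat_lit 1805460009) (nat_lit 47) (nat_lit 5) (nat_lit 51) (nat_lit 5) (nat_lit 48) (nat_lit 5) (nat_lit 314) (nat_lit 299) (nat_lit 287))) (XT.nd (nat_lit 78) (nat_lit 0) (nat_lit 0) (XT.lf (nat_lit 0) (nat_lit 545644009) (nat_lit 228) (nat_lit 3794638847) (nat_lit 304) (nat_lit 4214390561) (nat_lit 44) (nat_lit 5) (nat_lit 47) (nat_lit 5) (nat_lit 48) (nat_lit 5) (nat_lit 315) (nat_lit 299) (nat_lit 286)) (XT.lf (nat_lit 0) (nat_lit 6468173113) (nat_lit 228) (nat_lit 809177234) (nat_lit 304) (nat_lit 1591372199) (nat_lit 44) (nat_lit 5) (nat_lit 47) (nat_lit 5) (nat_lit 48) (nat_lit 5) (nat_lit 316) (nat_lit 299) (nat_lit 285)))) (XT.nd (nat_lit 156) (nat_lit 228) (nat_lit 0) (XT.nd (nat_lit 78) (nat_lit 228) (nat_lit 0) (XT.lf (nat_lit 0) (nat_lit 1179842800) (nat_lit 228) (nat_lit 5647693986)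 (nat_lit 76) (nat_lit 2378106966) (nat_lit 41) (nat_lit 5) (nat_lit 44) (nat_lit 5) (nat_lit 42) (nat_lit 5) (nat_lit 317) (nat_lit 299) (nat_lit 284)) (XT.lf (nat_lit 0) (nat_lit 326922606) (nat_lit 228) (nat_lit 3714779753) (nat_lit 304) (nat_lit 5528276398) (nat_lit 38) (nat_lit 5) (nat_lit 41) (nat_lit 5) (nat_lit 42) (nat_lit 5) (nat_lit 318) (nat_lit 299) (nat_lit 283))) (XT.nd (nat_lit 78) (nat_lit 228) (nat_lit 0) (XT.lf (nat_lit 0) (nat_lit 6914770098) (nat_lit 228) (nat_lit 236856069) (nat_lit 304) (nat_lit 2810453927) (nat_lit 38) (nat_lit 5) (nat_lit 41) (nat_lit 5) (nat_lit 42) (nat_lit 5) (nat_lit 319) (nat_lit 299) (nat_lit 282)) (XT.nd (nat_lit 78) (nat_lit 0) (nat_lit 0) (XT.lf (nat_lit 0) (nat_lit 163314969) (nat_lit 228) (nat_lit 6830159207) (nat_lit 76) (nat_lit 3388381736) (nat_lit 35) (nat_lit 5) (nat_lit 38) (nat_lit 5) (nat_lit 36) (nat_lit 5) (nat_lit 320) (nat_lit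 299) (nat_lit 281)) (XT.lf (nat_lit 0) (nat_lit 3190220196) (nat_lit 228) (nat_lit 241214635) (nat_lit 76) (nat_lit 7400691373) (nat_lit 35) (nat_lit 5) (nat_lit 38) (nat_lit 5) (nat_lit 36) (nat_lit 5) (nat_lit 321) (nat_lit 299) (nat_lit 280)))))) (XT.nd (nat_lit 312) (nat_lit 380) (nat_lit 0) (XT.nd (nat_lit 156) (nat_lit 228) (nat_lit 0) (XT.nd (nat_lit 78) (nat_lit 152) (nat_lit 0) (XT.lf (nat_lit 0) (nat_lit 6526788417) (nat_lit 228) (nat_lit 4269046138) (nat_lit 76) (nat_lit 517292069) (nat_lit 33) (nat_lit 5) (nat_lit 36) (nat_lit 5) (nat_lit 34) (nat_lit 4) (nat_lit 322) (nat_lit 299) (nat_lit 279)) (XT.lf (nat_lit 0) (nat_lit 2980584328) (nat_lit 152) (nat_lit 7205191116) (nat_lit 228) (nat_lit 1642493417) (nat_lit 31) (nat_lit 5) (nat_lit 33) (nat_lit 5) (nat_lit 34) (nat_lit 4) (nat_lit 323) (nat_lit 299) (nat_lit 278))) (XT.nd (nat_lit 78) (nat_lit 152) (nat_lit 0) (XT.lf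 (nat_lit 0) (nat_lit 1674200303) (nat_lit 228) (nat_lit 1542094398) (nat_lit 76) (nat_lit 9164319962) (nat_lit 30) (nat_lit 5) (nat_lit 33) (nat_lit 5) (nat_lit 31) (nat_lit 5) (nat_lit 324) (nat_lit 299) (nat_lit 277)) (XT.lf (nat_lit 0) (nat_lit 5250482037) (nat_lit 228) (nat_lit 6532422097) (nat_lit 76) (nat_lit 1184272212) (nat_lit 28) (nat_lit 5) (nat_lit 31) (nat_lit 5) (nat_lit 29) (nat_lit 4) (nat_lit 325) (nat_lit 299) (nat_lit 276)))) (XT.nd (nat_lit 156) (nat_lit 304) (nat_lit 0) (XT.nd (nat_lit 78) (nat_lit 0) (nat_lit 0) (XT.lf (nat_lit 0) (nat_lit 1359405918) (nat_lit 76) (nat_lit 7812816392) (nat_lit 152) (nat_lit 4423766596) (nat_lit 27) (nat_lit 5) (nat_lit 28) (nat_lit 5) (nat_lit 29) (nat_lit 4) (nat_lit 326) (nat_lit 299) (nat_lit 275)) (XT.lf (nat_lit 0) (nat_lit 10094116842) (nat_lit 76) (nat_lit 3395626635) (nat_lit 152) (nat_lit 778868568) (nat_lit 27) (nat_lit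 5) (nat_lit 28) (nat_lit 5) (nat_lit 29) (nat_lit 4) (nat_lit 327) (nat_lit 299) (nat_lit 274))) (XT.nd (nat_lit 78) (nat_lit 76) (nat_lit 0) (XT.lf (nat_lit 0) (nat_lit 3053217569) (nat_lit 228) (nat_lit 10493826200) (nat_lit 76) (nat_lit 1437700815) (nat_lit 24) (nat_lit 5) (nat_lit 27) (nat_lit 5) (nat_lit 25) (nat_lit 4) (nat_lit 328) (nat_lit 299) (nat_lit 273)) (XT.nd (nat_lit 78) (nat_lit 76) (nat_lit 0) (XT.lf (nat_lit 0) (nat_lit 7265052610) (nat_lit 228) (nat_lit 1928280176) (nat_lit 76) (nat_lit 6554050323) (nat_lit 24) (nat_lit 5) (nat_lit 27) (nat_lit 5) (nat_lit 25) (nat_lit 4) (nat_lit 329) (nat_lit 299) (nat_lit 272)) (XT.lf (nat_lit 0) (nat_lit 7557196742) (nat_lit 76) (nat_lit 4355018409) (nat_lit 152) (nat_lit 4650997760) (nat_lit 23) (nat_lit 5) (nat_lit 24) (nat_lit 5) (nat_lit 25) (nat_lit 4) (nat_lit 330) (nat_lit 299) (nat_lit 271))))))))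
noncomputable def xc93 : XT := (XT.nd (nat_lit 1404) (nat_lit 456) (nat_lit 0) (XT.nd (nat_lit 702) (nat_lit 380) (nat_lit 0) (XT.nd (nat_lit 312) (nat_lit 304) (nat_lit 0) (XT.nd (nat_lit 156) (nat_lit 76) (nat_lit 0) (XT.nd (nat_lit 78) (nat_lit 76) (nat_lit 0) (XT.lf (nat_lit 0) (nat_lit 319996003) (nat_lit 152) (nat_lit 16611896881) (nat_lit 152) (nat_lit 512403737) (nat_lit 21) (nat_lit 4) (nat_lit 23) (nat_lit 5) (nat_lit 23) (nat_lit 4) (nat_lit 331) (nat_lit 299) (nat_lit 270)) (XT.lf (nat_lit 0) (nat_lit 4043671790) (nat_lit 228) (nat_lit 7832038726) (nat_lit 76) (nat_lit 6489834664) (nat_lit 20) (nat_lit 5) (nat_lit 23) (nat_lit 5) (nat_lit 21) (nat_lit 4) (nat_lit 332) (nat_lit 299) (nat_lit 269))) (XT.nd (nat_lit 78) (nat_lit 0) (nat_lit 0) (XT.lf (nat_lit 0) (nat_lit 2163860005) (nat_lit 76) (nat_lit 6749360189) (nat_lit 152) (nat_lit 10448112330) (nat_lit 19) (nat_lit 5)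 (nat_lit 20) (nat_lit 5) (nat_lit 21) (nat_lit 4) (nat_lit 333) (nat_lit 299) (nat_lit 268)) (XT.lf (nat_lit 0) (nat_lit 13273575275) (nat_lit 76) (nat_lit 1039954055) (nat_lit 152) (nat_lit 6111992250) (nat_lit 19) (nat_lit 5) (nat_lit 20) (nat_lit 5) (nat_lit 21) (nat_lit 4) (nat_lit 334) (nat_lit 299) (nat_lit 267)))) (XT.nd (nat_lit 156) (nat_lit 152) (nat_lit 0) (XT.nd (nat_lit 78) (nat_lit 76) (nat_lit 0) (XT.lf (nat_lit 0) (nat_lit 3629832544) (nat_lit 76) (nat_lit 16657773104) (nat_lit 76) (nat_lit 1275932634) (nat_lit 18) (nat_lit 4) (nat_lit 19) (nat_lit 5) (nat_lit 19) (nat_lit 4) (nat_lit 335) (nat_lit 299) (nat_lit 266)) (XT.lf (nat_lit 0) (nat_lit 3908756527) (nat_lit 152) (nat_lit 7349210888) (nat_lit 76) (nat_lit 11514326988) (nat_lit 17) (nat_lit 5) (nat_lit 19) (nat_lit 5) (nat_lit 18) (nat_lit 4) (nat_lit 336) (nat_lit 299) (nat_lit 265))) (XT.nd (nat_lit 78) (nat_lit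 76) (nat_lit 0) (XT.lf (nat_lit 0) (nat_lit 4139170822) (nat_lit 76) (nat_lit 5336286312) (nat_lit 152) (nat_lit 14596774344) (nat_lit 16) (nat_lit 5) (nat_lit 17) (nat_lit 5) (nat_lit 18) (nat_lit 4) (nat_lit 337) (nat_lit 299) (nat_lit 264)) (XT.nd (nat_lit 78) (nat_lit 76) (nat_lit 0) (XT.lf (nat_lit 0) (nat_lit 15656444623) (nat_lit 152) (nat_lit 8643709971) (nat_lit 0) (nat_lit 1162516320) (nat_lit 16) (nat_lit 5) (nat_lit 18) (nat_lit 4) (nat_lit 16) (nat_lit 4) (nat_lit 338) (nat_lit 299) (nat_lit 263)) (XT.lf (nat_lit 0) (nat_lit 3475223522) (nat_lit 76) (nat_lit 19020833734) (nat_lit 76) (nat_lit 4455178280) (nat_lit 15) (nat_lit 4) (nat_lit 16) (nat_lit 5) (nat_lit 16) (nat_lit 4) (nat_lit 339) (nat_lit 299) (nat_lit 262)))))) (XT.nd (nat_lit 312) (nat_lit 228) (nat_lit 0) (XT.nd (nat_lit 156) (nat_lit 0) (nat_lit 0) (XT.nd (nat_lit 78) (nat_lit 76) (nat_lit 0) (XT.lf (nat_lit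 0) (nat_lit 1442426469) (nat_lit 152) (nat_lit 11631822426) (nat_lit 76) (nat_lit 15467331575) (nat_lit 14) (nat_lit 5) (nat_lit 16) (nat_lit 5) (nat_lit 15) (nat_lit 4) (nat_lit 340) (nat_lit 299) (nat_lit 261)) (XT.lf (nat_lit 0) (nat_lit 992819254) (nat_lit 76) (nat_lit 6548711133) (nat_lit 152) (nat_lit 22710751450) (nat_lit 13) (nat_lit 5) (nat_lit 14) (nat_lit 5) (nat_lit 15) (nat_lit 4) (nat_lit 341) (nat_lit 299) (nat_lit 260))) (XT.nd (nat_lit 78) (nat_lit 0) (nat_lit 0) (XT.lf (nat_lit 0) (nat_lit 14413838499) (nat_lit 152) (nat_lit 16907229621) (nat_lit 0) (nat_lit 755965093) (nat_lit 13) (nat_lit 5) (nat_lit 15) (nat_lit 4) (nat_lit 13) (nat_lit 4) (nat_lit 342) (nat_lit 299) (nat_lit 259)) (XT.lf (nat_lit 0) (nat_lit 21956937626) (nat_lit 152) (nat_lit 3830913421) (nat_lit 0) (nat_lit 8250247926) (nat_lit 13) (nat_lit 5) (nat_lit 15) (nat_lit 4) (nat_lit 13) (nat_lit 4) (nat_lit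 343) (nat_lit 299) (nat_lit 258)))) (XT.nd (nat_lit 156) (nat_lit 76) (nat_lit 0) (XT.nd (nat_lit 78) (nat_lit 76) (nat_lit 0) (XT.lf (nat_lit 0) (nat_lit 10741821366) (nat_lit 76) (nat_lit 19574550650) (nat_lit 76) (nat_lit 5822660679) (nat_lit 12) (nat_lit 4) (nat_lit 13) (nat_lit 5) (nat_lit 13) (nat_lit 4) (nat_lit 344) (nat_lit 299) (nat_lit 257)) (XT.lf (nat_lit 0) (nat_lit 951850891) (nat_lit 152) (nat_lit 11813892221) (nat_lit 76) (nat_lit 25635533525) (nat_lit 11) (nat_lit 5) (nat_lit 13) (nat_lit 5) (nat_lit 12) (nat_lit 4) (nat_lit 345) (nat_lit 299) (nat_lit 256))) (XT.nd (nat_lit 78) (nat_lit 0) (nat_lit 0) (XT.lf (nat_lit 0) (nat_lit 2762266603) (nat_lit 76) (nat_lit 5215983697) (nat_lit 152) (nat_lit 32852201479) (nat_lit 10) (nat_lit 5) (nat_lit 11) (nat_lit 5) (nat_lit 12) (nat_lit 4) (nat_lit 346) (nat_lit 299) (nat_lit 255)) (XT.nd (nat_lit 78) (nat_lit 0) (nat_lit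 0) (XT.lf (nat_lit 0) (nat_lit 15927185395) (nat_lit 152) (nat_lit 24411854690) (nat_lit 0) (nat_lit 3086097010) (nat_lit 10) (nat_lit 5) (nat_lit 12) (nat_lit 4) (nat_lit 10) (nat_lit 4) (nat_lit 347) (nat_lit 299) (nat_lit 254)) (XT.lf (nat_lit 0) (nat_lit 24608967178) (nat_lit 152) (nat_lit 9873568579) (nat_lit 0) (nat_lit 11737116247) (nat_lit 10) (nat_lit 5) (nat_lit 12) (nat_lit 4) (nat_lit 10) (nat_lit 4) (nat_lit 348) (nat_lit 299) (nat_lit 253))))))) (XT.nd (nat_lit 702) (nat_lit 152) (nat_lit 0) (XT.nd (nat_lit 312) (nat_lit 76) (nat_lit 0) (XT.nd (nat_lit 156) (nat_lit 152) (nat_lit 0) (XT.nd (nat_lit 78) (nat_lit 0) (nat_lit 0) (XT.lf (nat_lit 0) (nat_lit 6061490817) (nat_lit 76) (nat_lit 28033886893) (nat_lit 76) (nat_lit 15133552125) (nat_lit 9) (nat_lit 4) (nat_lit 10) (nat_lit 5) (nat_lit 10) (nat_lit 4) (nat_lit 349) (nat_lit 299) (nat_lit 252)) (XT.lf (nat_lit 0) (nat_lit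 23765123380) (nat_lit 76) (nat_lit 20810860293) (nat_lit 76) (nat_lit 7884151600) (nat_lit 9) (nat_lit 4) (nat_lit 10) (nat_lit 5) (nat_lit 10) (nat_lit 4) (nat_lit 350) (nat_lit 299) (nat_lit 251))) (XT.nd (nat_lit 78) (nat_lit 152) (nat_lit 0) (XT.lf (nat_lit 0) (nat_lit 42822314901) (nat_lit 76) (nat_lit 13040613698) (nat_lit 76) (nat_lit 89484704) (nat_lit 9) (nat_lit 4) (nat_lit 10) (nat_lit 5) (nat_lit 10) (nat_lit 4) (nat_lit 351) (nat_lit 299) (nat_lit 250)) (XT.lf (nat_lit 0) (nat_lit 3600094935) (nat_lit 76) (nat_lit 4368095121) (nat_lit 152) (nat_lit 51735379510) (nat_lit 7) (nat_lit 5) (nat_lit 8) (nat_lit 5) (nat_lit 9) (nat_lit 4) (nat_lit 352) (nat_lit 299) (nat_lit 249)))) (XT.nd (nat_lit 156) (nat_lit 76) (nat_lit 0) (XT.nd (nat_lit 78) (nat_lit 0) (nat_lit 0) (XT.lf (nat_lit 0) (nat_lit 17123841073) (nat_lit 152) (nat_lit 41502408571) (nat_lit 0) (nat_lit 5091732874)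 (nat_lit 7) (nat_lit 5) (nat_lit 9) (nat_lit 4) (nat_lit 7) (nat_lit 4) (nat_lit 353) (nat_lit 299) (nat_lit 248)) (XT.lf (nat_lit 0) (nat_lit 27097312764) (nat_lit 152) (nat_lit 25902156775) (nat_lit 0) (nat_lit 15047254916) (nat_lit 7) (nat_lit 5) (nat_lit 9) (nat_lit 4) (nat_lit 7) (nat_lit 4) (nat_lit 354) (nat_lit 299) (nat_lit 247))) (XT.nd (nat_lit 78) (nat_lit 76) (nat_lit 0) (XT.lf (nat_lit 0) (nat_lit 37842654392) (nat_lit 152) (nat_lit 9105220514) (nat_lit 0) (nat_lit 25775976497) (nat_lit 7) (nat_lit 5) (nat_lit 9) (nat_lit 4) (nat_lit 7) (nat_lit 4) (nat_lit 355) (nat_lit 299) (nat_lit 246)) (XT.nd (nat_lit 78) (nat_lit 0) (nat_lit 0) (XT.lf (nat_lit 0) (nat_lit 9461226477) (nat_lit 76) (nat_lit 40189858302) (nat_lit 76) (nat_lit 28107791476) (nat_lit 6) (nat_lit 4) (nat_lit 7) (nat_lit 5) (nat_lit 7) (nat_lit 4) (nat_lit 356) (nat_lit 299) (nat_lit 245)) (XT.lf (nat_lit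 0) (nat_lit 29984481519) (nat_lit 76) (nat_lit 32645249219) (nat_lit 76) (nat_lit 20548933381) (nat_lit 6) (nat_lit 4) (nat_lit 7) (nat_lit 5) (nat_lit 7) (nat_lit 4) (nat_lit 357) (nat_lit 299) (nat_lit 244)))))) (XT.nd (nat_lit 312) (nat_lit 0) (nat_lit 0) (XT.nd (nat_lit 156) (nat_lit 152) (nat_lit 0) (XT.nd (nat_lit 78) (nat_lit 0) (nat_lit 0) (XT.lf (nat_lit 0) (nat_lit 52106699123) (nat_lit 76) (nat_lit 24518291726) (nat_lit 76) (nat_lit 12408782360) (nat_lit 6) (nat_lit 4) (nat_lit 7) (nat_lit 5) (nat_lit 7) (nat_lit 4) (nat_lit 358) (nat_lit 299) (nat_lit 243)) (XT.lf (nat_lit 0) (nat_lit 75958973912) (nat_lit 76) (nat_lit 15760826076) (nat_lit 76) (nat_lit 3639100480) (nat_lit 6) (nat_lit 4) (nat_lit 7) (nat_lit 5) (nat_lit 7) (nat_lit 4) (nat_lit 359) (nat_lit 299) (nat_lit 242))) (XT.nd (nat_lit 78) (nat_lit 76) (nat_lit 0) (XT.lf (nat_lit 0) (nat_lit 5521336925) (nat_lit 152)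 (nat_lit 648656115) (nat_lit 76) (nat_lit 96010352639) (nat_lit 5) (nat_lit 5) (nat_lit 7) (nat_lit 5) (nat_lit 6) (nat_lit 4) (nat_lit 360) (nat_lit 299) (nat_lit 241)) (XT.lf (nat_lit 0) (nat_lit 15808905112) (nat_lit 152) (nat_lit 89118856395) (nat_lit 0) (nat_lit 4564914030) (nat_lit 4) (nat_lit 5) (nat_lit 6) (nat_lit 4) (nat_lit 4) (nat_lit 4) (nat_lit 361) (nat_lit 299) (nat_lit 240)))) (XT.nd (nat_lit 156) (nat_lit 0) (nat_lit 0) (XT.nd (nat_lit 78) (nat_lit 0) (nat_lit 0) (XT.lf (nat_lit 0) (nat_lit 27080356805) (nat_lit 152) (nat_lit 74469381025) (nat_lit 0) (nat_lit 15827386429) (nat_lit 4) (nat_lit 5) (nat_lit 6) (nat_lit 4) (nat_lit 4) (nat_lit 4) (nat_lit 362) (nat_lit 299) (nat_lit 239)) (XT.lf (nat_lit 0) (nat_lit 39237249100) (nat_lit 152) (nat_lit 58680419777) (nat_lit 0) (nat_lit 27975964563) (nat_lit 4) (nat_lit 5) (nat_lit 6) (nat_lit 4) (nat_lit 4) (nat_lit 4) (nat_lit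 363) (nat_lit 299) (nat_lit 238))) (XT.nd (nat_lit 78) (nat_lit 0) (nat_lit 0) (XT.lf (nat_lit 0) (nat_lit 52351622840) (nat_lit 152) (nat_lit 41658408435) (nat_lit 0) (nat_lit 41082640006) (nat_lit 4) (nat_lit 5) (nat_lit 6) (nat_lit 4) (nat_lit 4) (nat_lit 4) (nat_lit 364) (nat_lit 299) (nat_lit 237)) (XT.nd (nat_lit 78) (nat_lit 0) (nat_lit 0) (XT.lf (nat_lit 0) (nat_lit 66501192832) (nat_lit 152) (nat_lit 23302475823) (nat_lit 0) (nat_lit 55225081946) (nat_lit 4) (nat_lit 5) (nat_lit 6) (nat_lit 4) (nat_lit 4) (nat_lit 4) (nat_lit 365) (nat_lit 299) (nat_lit 236)) (XT.lf (nat_lit 0) (nat_lit 81769808381) (nat_lit 152) (nat_lit 3503846042) (nat_lit 0) (nat_lit 70487097445) (nat_lit 4) (nat_lit 5) (nat_lit 6) (nat_lit 4) (nat_lit 4) (nat_lit 4) (nat_lit 366) (nat_lit 299) (nat_lit 235))))))))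
noncomputable def xc94 : XT := (XT.nd (nat_lit 1404) (nat_lit 0) (nat_lit 0) (XT.nd (nat_lit 702) (nat_lit 152) (nat_lit 0) (XT.nd (nat_lit 312) (nat_lit 0) (nat_lit 0) (XT.nd (nat_lit 156) (nat_lit 0) (nat_lit 0) (XT.nd (nat_lit 78) (nat_lit 0) (nat_lit 0) (XT.lf (nat_lit 0) (nat_lit 18795008569) (nat_lit 76) (nat_lit 79904962009) (nat_lit 76) (nat_lit 68616139917) (nat_lit 3) (nat_lit 4) (nat_lit 4) (nat_lit 5) (nat_lit 4) (nat_lit 4) (nat_lit 367) (nat_lit 299) (nat_lit 234)) (XT.lf (nat_lit 0) (nat_lit 43053774631) (nat_lit 76) (nat_lit 74014936132) (nat_lit 76) (nat_lit 62720455562) (nat_lit 3) (nat_lit 4) (nat_lit 4) (nat_lit 5) (nat_lit 4) (nat_lit 4) (nat_lit 368) (nat_lit 299) (nat_lit 233))) (XT.nd (nat_lit 78) (nat_lit 0) (nat_lit 0) (XT.lf (nat_lit 0) (nat_lit 69231701471) (nat_lit 76) (nat_lit 67664474295) (nat_lit 76) (nat_lit 56364754393) (nat_lit 3) (nat_lit 4) (nat_lit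 4) (nat_lit 5) (nat_lit 4) (nat_lit 4) (nat_lit 369) (nat_lit 299) (nat_lit 232)) (XT.lf (nat_lit 0) (nat_lit 97483917545) (nat_lit 76) (nat_lit 60815944132) (nat_lit 76) (nat_lit 49511372997) (nat_lit 3) (nat_lit 4) (nat_lit 4) (nat_lit 5) (nat_lit 4) (nat_lit 4) (nat_lit 370) (nat_lit 299) (nat_lit 231)))) (XT.nd (nat_lit 156) (nat_lit 0) (nat_lit 0) (XT.nd (nat_lit 78) (nat_lit 0) (nat_lit 0) (XT.lf (nat_lit 0) (nat_lit 127977843392) (nat_lit 76) (nat_lit 53428761760) (nat_lit 76) (nat_lit 42119698743) (nat_lit 3) (nat_lit 4) (nat_lit 4) (nat_lit 5) (nat_lit 4) (nat_lit 4) (nat_lit 371) (nat_lit 299) (nat_lit 230)) (XT.lf (nat_lit 0) (nat_lit 160894183757) (nat_lit 76) (nat_lit 45459151284) (nat_lit 76) (nat_lit 34145929117) (nat_lit 3) (nat_lit 4) (nat_lit 4) (nat_lit 5) (nat_lit 4) (nat_lit 4) (nat_lit 372) (nat_lit 299) (nat_lit 229))) (XT.nd (nat_lit 78) (nat_lit 0) (nat_lit 0)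 (XT.lf (nat_lit 0) (nat_lit 196427998437) (nat_lit 76) (nat_lit 36859885383) (nat_lit 76) (nat_lit 25542812150) (nat_lit 3) (nat_lit 4) (nat_lit 4) (nat_lit 5) (nat_lit 4) (nat_lit 4) (nat_lit 373) (nat_lit 299) (nat_lit 228)) (XT.nd (nat_lit 78) (nat_lit 0) (nat_lit 0) (XT.lf (nat_lit 0) (nat_lit 234789858183) (nat_lit 76) (nat_lit 27580005442) (nat_lit 76) (nat_lit 16259366408) (nat_lit 3) (nat_lit 4) (nat_lit 4) (nat_lit 5) (nat_lit 4) (nat_lit 4) (nat_lit 374) (nat_lit 299) (nat_lit 227)) (XT.lf (nat_lit 0) (nat_lit 276207092536) (nat_lit 76) (nat_lit 17564519583) (nat_lit 76) (nat_lit 6240578881) (nat_lit 3) (nat_lit 4) (nat_lit 4) (nat_lit 5) (nat_lit 4) (nat_lit 4) (nat_lit 375) (nat_lit 299) (nat_lit 226)))))) (XT.nd (nat_lit 312) (nat_lit 0) (nat_lit 0) (XT.nd (nat_lit 156) (nat_lit 0) (nat_lit 0) (XT.nd (nat_lit 78) (nat_lit 76) (nat_lit 0) (XT.lf (nat_lit 0) (nat_lit 4344164994)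 (nat_lit 152) (nat_lit 2291134613) (nat_lit 76) (nat_lit 316462194795) (nat_lit 2) (nat_lit 5) (nat_lit 4) (nat_lit 5) (nat_lit 3) (nat_lit 4) (nat_lit 376) (nat_lit 299) (nat_lit 225)) (XT.lf (nat_lit 0) (nat_lit 16100402996) (nat_lit 152) (nat_lit 326253481901) (nat_lit 0) (nat_lit 5609821098) (nat_lit 1) (nat_lit 5) (nat_lit 3) (nat_lit 4) (nat_lit 1) (nat_lit 4) (nat_lit 377) (nat_lit 299) (nat_lit 224))) (XT.nd (nat_lit 78) (nat_lit 0) (nat_lit 0) (XT.lf (nat_lit 0) (nat_lit 29027805006) (nat_lit 152) (nat_lit 327238160763) (nat_lit 0) (nat_lit 18534796284) (nat_lit 1) (nat_lit 5) (nat_lit 3) (nat_lit 4) (nat_lit 1) (nat_lit 4) (nat_lit 378) (nat_lit 299) (nat_lit 223)) (XT.lf (nat_lit 0) (nat_lit 42983888746) (nat_lit 152) (nat_lit 328312702400) (nat_lit 0) (nat_lit 32488632964) (nat_lit 1) (nat_lit 5) (nat_lit 3) (nat_lit 4) (nat_lit 1) (nat_lit 4) (nat_lit 379) (nat_lit 299) (nat_lit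 222)))) (XT.nd (nat_lit 156) (nat_lit 0) (nat_lit 0) (XT.nd (nat_lit 78) (nat_lit 0) (nat_lit 0) (XT.lf (nat_lit 0) (nat_lit 58051356934) (nat_lit 152) (nat_lit 329483474466) (nat_lit 0) (nat_lit 47554020542) (nat_lit 1) (nat_lit 5) (nat_lit 3) (nat_lit 4) (nat_lit 1) (nat_lit 4) (nat_lit 380) (nat_lit 299) (nat_lit 221)) (XT.lf (nat_lit 0) (nat_lit 74319498271) (nat_lit 152) (nat_lit 330757414870) (nat_lit 0) (nat_lit 63820235388) (nat_lit 1) (nat_lit 5) (nat_lit 3) (nat_lit 4) (nat_lit 1) (nat_lit 4) (nat_lit 381) (nat_lit 299) (nat_lit 220))) (XT.nd (nat_lit 78) (nat_lit 0) (nat_lit 0) (XT.lf (nat_lit 0) (nat_lit 91884716558) (nat_lit 152) (nat_lit 332142072888) (nat_lit 0) (nat_lit 81383669886) (nat_lit 1) (nat_lit 5) (nat_lit 3) (nat_lit 4) (nat_lit 1) (nat_lit 4) (nat_lit 382) (nat_lit 299) (nat_lit 219)) (XT.nd (nat_lit 78) (nat_lit 0) (nat_lit 0) (XT.lf (nat_lit 0) (nat_lit 110851101976)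 (nat_lit 152) (nat_lit 333645653901) (nat_lit 0) (nat_lit 100348403648) (nat_lit 1) (nat_lit 5) (nat_lit 3) (nat_lit 4) (nat_lit 1) (nat_lit 4) (nat_lit 383) (nat_lit 299) (nat_lit 218)) (XT.lf (nat_lit 0) (nat_lit 131331047921) (nat_lit 152) (nat_lit 335277068019) (nat_lit 0) (nat_lit 120826820282) (nat_lit 1) (nat_lit 5) (nat_lit 3) (nat_lit 4) (nat_lit 1) (nat_lit 4) (nat_lit 384) (nat_lit 299) (nat_lit 217))))))) (XT.nd (nat_lit 702) (nat_lit 0) (nat_lit 0) (XT.nd (nat_lit 312) (nat_lit 0) (nat_lit 0) (XT.nd (nat_lit 156) (nat_lit 0) (nat_lit 0) (XT.nd (nat_lit 78) (nat_lit 0) (nat_lit 0) (XT.lf (nat_lit 0) (nat_lit 153445917035) (nat_lit 152) (nat_lit 337045982880) (nat_lit 0) (nat_lit 142940273368) (nat_lit 1) (nat_lit 5) (nat_lit 3) (nat_lit 4) (nat_lit 1) (nat_lit 4) (nat_lit 385) (nat_lit 299) (nat_lit 216)) (XT.lf (nat_lit 0) (nat_lit 177326760395) (nat_lit 152) (nat_lit 338962880944)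 (nat_lit 0) (nat_lit 166819805590) (nat_lit 1) (nat_lit 5) (nat_lit 3) (nat_lit 4) (nat_lit 1) (nat_lit 4) (nat_lit 386) (nat_lit 299) (nat_lit 215))) (XT.nd (nat_lit 78) (nat_lit 0) (nat_lit 0) (XT.lf (nat_lit 0) (nat_lit 203115094110) (nat_lit 152) (nat_lit 341039121606) (nat_lit 0) (nat_lit 192606925288) (nat_lit 1) (nat_lit 5) (nat_lit 3) (nat_lit 4) (nat_lit 1) (nat_lit 4) (nat_lit 387) (nat_lit 299) (nat_lit 214)) (XT.lf (nat_lit 0) (nat_lit 230963737934) (nat_lit 152) (nat_lit 343287008515) (nat_lit 0) (nat_lit 220454445024) (nat_lit 1) (nat_lit 5) (nat_lit 3) (nat_lit 4) (nat_lit 1) (nat_lit 4) (nat_lit 388) (nat_lit 299) (nat_lit 213)))) (XT.nd (nat_lit 156) (nat_lit 0) (nat_lit 0) (XT.nd (nat_lit 78) (nat_lit 0) (nat_lit 0) (XT.lf (nat_lit 0) (nat_lit 261037720869) (nat_lit 152) (nat_lit 345719862482) (nat_lit 0) (nat_lit 250527387135) (nat_lit 1) (nat_lit 5) (nat_lit 3) (nat_lit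 4) (nat_lit 1) (nat_lit 4) (nat_lit 389) (nat_lit 299) (nat_lit 212)) (XT.lf (nat_lit 0) (nat_lit 293515259109) (nat_lit 152) (nat_lit 348352100419) (nat_lit 0) (nat_lit 283003961650) (nat_lit 1) (nat_lit 5) (nat_lit 3) (nat_lit 4) (nat_lit 1) (nat_lit 4) (nat_lit 390) (nat_lit 299) (nat_lit 211))) (XT.nd (nat_lit 78) (nat_lit 0) (nat_lit 0) (XT.lf (nat_lit 0) (nat_lit 328588812140) (nat_lit 152) (nat_lit 351199320774) (nat_lit 0) (nat_lit 318076622343) (nat_lit 1) (nat_lit 5) (nat_lit 3) (nat_lit 4) (nat_lit 1) (nat_lit 4) (nat_lit 391) (nat_lit 299) (nat_lit 210)) (XT.nd (nat_lit 78) (nat_lit 0) (nat_lit 0) (XT.lf (nat_lit 0) (nat_lit 366466223240) (nat_lit 152) (nat_lit 354278395963) (nat_lit 0) (nat_lit 355953207204) (nat_lit 1) (nat_lit 5) (nat_lit 3) (nat_lit 4) (nat_lit 1) (nat_lit 4) (nat_lit 392) (nat_lit 299) (nat_lit 209)) (XT.lf (nat_lit 0) (nat_lit 407371951141) (nat_lit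 152) (nat_lit 357607572358) (nat_lit 0) (nat_lit 396858170068) (nat_lit 1) (nat_lit 5) (nat_lit 3) (nat_lit 4) (nat_lit 1) (nat_lit 4) (nat_lit 393) (nat_lit 299) (nat_lit 208)))))) (XT.nd (nat_lit 312) (nat_lit 0) (nat_lit 0) (XT.nd (nat_lit 156) (nat_lit 0) (nat_lit 0) (XT.nd (nat_lit 78) (nat_lit 0) (nat_lit 0) (XT.lf (nat_lit 0) (nat_lit 451548400156) (nat_lit 152) (nat_lit 361206578411) (nat_lit 0) (nat_lit 441033910717) (nat_lit 1) (nat_lit 5) (nat_lit 3) (nat_lit 4) (nat_lit 1) (nat_lit 4) (nat_lit 394) (nat_lit 299) (nat_lit 207)) (XT.lf (nat_lit 0) (nat_lit 499257356651) (nat_lit 152) (nat_lit 365096741566) (nat_lit 0) (nat_lit 488742211316) (nat_lit 1) (nat_lit 5) (nat_lit 3) (nat_lit 4) (nat_lit 1) (nat_lit 4) (nat_lit 395) (nat_lit 299) (nat_lit 206))) (XT.nd (nat_lit 78) (nat_lit 0) (nat_lit 0) (XT.lf (nat_lit 0) (nat_lit 550781540366) (nat_lit 152) (nat_lit 369301114641)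 (nat_lit 0) (nat_lit 540265787721) (nat_lit 1) (nat_lit 5) (nat_lit 3) (nat_lit 4) (nat_lit 1) (nat_lit 4) (nat_lit 396) (nat_lit 299) (nat_lit 205)) (XT.lf (nat_lit 0) (nat_lit 606426279799) (nat_lit 152) (nat_lit 373844612441) (nat_lit 0) (nat_lit 595909964829) (nat_lit 1) (nat_lit 5) (nat_lit 3) (nat_lit 4) (nat_lit 1) (nat_lit 4) (nat_lit 397) (nat_lit 299) (nat_lit 204)))) (XT.nd (nat_lit 156) (nat_lit 0) (nat_lit 0) (XT.nd (nat_lit 78) (nat_lit 0) (nat_lit 0) (XT.lf (nat_lit 0) (nat_lit 666521321553) (nat_lit 152) (nat_lit 378754159396) (nat_lit 0) (nat_lit 656004485912) (nat_lit 1) (nat_lit 5) (nat_lit 3) (nat_lit 4) (nat_lit 1) (nat_lit 4) (nat_lit 398) (nat_lit 299) (nat_lit 203)) (XT.lf (nat_lit 0) (nat_lit 731422784394) (nat_lit 152) (nat_lit 384058849117) (nat_lit 0) (nat_lit 720905466651) (nat_lit 1) (nat_lit 5) (nat_lit 3) (nat_lit 4) (nat_lit 1) (nat_lit 4) (nat_lit 399)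 (nat_lit 299) (nat_lit 202))) (XT.nd (nat_lit 78) (nat_lit 0) (nat_lit 0) (XT.lf (nat_lit 0) (nat_lit 801515269584) (nat_lit 152) (nat_lit 389790116804) (nat_lit 0) (nat_lit 790997505449) (nat_lit 1) (nat_lit 5) (nat_lit 3) (nat_lit 4) (nat_lit 1) (nat_lit 4) (nat_lit 400) (nat_lit 299) (nat_lit 201)) (XT.nd (nat_lit 78) (nat_lit 0) (nat_lit 0) (XT.lf (nat_lit 0) (nat_lit 877214139998) (nat_lit 152) (nat_lit 395981925524) (nat_lit 0) (nat_lit 866695962538) (nat_lit 1) (nat_lit 5) (nat_lit 3) (nat_lit 4) (nat_lit 1) (nat_lit 4) (nat_lit 401) (nat_lit 299) (nat_lit 200)) (XT.lf (nat_lit 0) (nat_lit 958967981534) (nat_lit 152) (nat_lit 402670967477) (nat_lit 0) (nat_lit 948449421365) (nat_lit 1) (nat_lit 5) (nat_lit 3) (nat_lit 4) (nat_lit 1) (nat_lit 4) (nat_lit 402) (nat_lit 299) (nat_lit 199))))))))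
noncomputable def xc95 : XT := (XT.nd (nat_lit 39156) (nat_lit 0) (nat_lit 2432) (XT.nd (nat_lit 702) (nat_lit 0) (nat_lit 0) (XT.nd (nat_lit 312) (nat_lit 0) (nat_lit 0) (XT.nd (nat_lit 156) (nat_lit 0) (nat_lit 0) (XT.nd (nat_lit 78) (nat_lit 0) (nat_lit 0) (XT.lf (nat_lit 0) (nat_lit 1047261261401) (nat_lit 152) (nat_lit 409896881429) (nat_lit 0) (nat_lit 1036742346873) (nat_lit 1) (nat_lit 5) (nat_lit 3) (nat_lit 4) (nat_lit 1) (nat_lit 4) (nat_lit 403) (nat_lit 299) (nat_lit 198)) (XT.lf (nat_lit 0) (nat_lit 1142617199037) (nat_lit 152) (nat_lit 417702487613) (nat_lit 0) (nat_lit 1132097956398) (nat_lit 1) (nat_lit 5) (nat_lit 3) (nat_lit 4) (nat_lit 1) (nat_lit 4) (nat_lit 404) (nat_lit 299) (nat_lit 197))) (XT.nd (nat_lit 78) (nat_lit 0) (nat_lit 0) (XT.lf (nat_lit 0) (nat_lit 1245600866663) (nat_lit 152) (nat_lit 426134041471) (nat_lit 0) (nat_lit 1235081320218) (nat_lit 1) (nat_lit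 5) (nat_lit 3) (nat_lit 4) (nat_lit 1) (nat_lit 4) (nat_lit 405) (nat_lit 299) (nat_lit 196)) (XT.lf (nat_lit 0) (nat_lit 1356822537867) (nat_lit 152) (nat_lit 435241507768) (nat_lit 0) (nat_lit 1346302710119) (nat_lit 1) (nat_lit 5) (nat_lit 3) (nat_lit 4) (nat_lit 1) (nat_lit 4) (nat_lit 406) (nat_lit 299) (nat_lit 195)))) (XT.nd (nat_lit 156) (nat_lit 0) (nat_lit 0) (XT.nd (nat_lit 78) (nat_lit 0) (nat_lit 0) (XT.lf (nat_lit 0) (nat_lit 1476941304031) (nat_lit 152) (nat_lit 445078856673) (nat_lit 0) (nat_lit 1466421215818) (nat_lit 1) (nat_lit 5) (nat_lit 3) (nat_lit 4) (nat_lit 1) (nat_lit 4) (nat_lit 407) (nat_lit 299) (nat_lit 194)) (XT.lf (nat_lit 0) (nat_lit 1606668980069) (nat_lit 152) (nat_lit 455704383589) (nat_lit 0) (nat_lit 1596148650684) (nat_lit 1) (nat_lit 5) (nat_lit 3) (nat_lit 4) (nat_lit 1) (nat_lit 4) (nat_lit 408) (nat_lit 299) (nat_lit 193))) (XT.nd (nat_lit 78)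 (nat_lit 0) (nat_lit 0) (XT.lf (nat_lit 0) (nat_lit 1746774322577) (nat_lit 152) (nat_lit 467181054600) (nat_lit 0) (nat_lit 1736253769886) (nat_lit 1) (nat_lit 5) (nat_lit 3) (nat_lit 4) (nat_lit 1) (nat_lit 4) (nat_lit 409) (nat_lit 299) (nat_lit 192)) (XT.nd (nat_lit 78) (nat_lit 0) (nat_lit 0) (XT.lf (nat_lit 0) (nat_lit 1898087585438) (nat_lit 152) (nat_lit 479576879609) (nat_lit 0) (nat_lit 1887566825981) (nat_lit 1) (nat_lit 5) (nat_lit 3) (nat_lit 4) (nat_lit 1) (nat_lit 4) (nat_lit 410) (nat_lit 299) (nat_lit 191)) (XT.lf (nat_lit 0) (nat_lit 2061505439838) (nat_lit 152) (nat_lit 492965315357) (nat_lit 0) (nat_lit 2050984488932) (nat_lit 1) (nat_lit 5) (nat_lit 3) (nat_lit 4) (nat_lit 1) (nat_lit 4) (nat_lit 411) (nat_lit 299) (nat_lit 190)))))) (XT.nd (nat_lit 312) (nat_lit 0) (nat_lit 0) (XT.nd (nat_lit 156) (nat_lit 0) (nat_lit 0) (XT.nd (nat_lit 78) (nat_lit 0) (nat_lit 0)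 (XT.lf (nat_lit 0) (nat_lit 2237996287879) (nat_lit 152) (nat_lit 507425700722) (nat_lit 0) (nat_lit 2227475159705) (nat_lit 1) (nat_lit 5) (nat_lit 3) (nat_lit 4) (nat_lit 1) (nat_lit 4) (nat_lit 412) (nat_lit 299) (nat_lit 189)) (XT.lf (nat_lit 0) (nat_lit 2428606001252) (nat_lit 152) (nat_lit 523043726876) (nat_lit 0) (nat_lit 2418084708941) (nat_lit 1) (nat_lit 5) (nat_lit 3) (nat_lit 4) (nat_lit 1) (nat_lit 4) (nat_lit 413) (nat_lit 299) (nat_lit 188))) (XT.nd (nat_lit 78) (nat_lit 0) (nat_lit 0) (XT.lf (nat_lit 0) (nat_lit 2634464119000) (nat_lit 152) (nat_lit 539911945085) (nat_lit 0) (nat_lit 2623942674709) (nat_lit 1) (nat_lit 5) (nat_lit 3) (nat_lit 4) (nat_lit 1) (nat_lit 4) (nat_lit 414) (nat_lit 299) (nat_lit 187)) (XT.lf (nat_lit 0) (nat_lit 2856790541078) (nat_lit 152) (nat_lit 558130315162) (nat_lit 0) (nat_lit 2846268956067) (nat_lit 1) (nat_lit 5) (nat_lit 3) (nat_lit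 4) (nat_lit 1) (nat_lit 4) (nat_lit 415) (nat_lit 299) (nat_lit 186)))) (XT.nd (nat_lit 37908) (nat_lit 0) (nat_lit 5928) (XT.nd (nat_lit 37830) (nat_lit 0) (nat_lit 6156) (XT.lf (nat_lit 0) (nat_lit 3096902757397) (nat_lit 152) (nat_lit 577806797818) (nat_lit 0) (nat_lit 3086381042088) (nat_lit 1) (nat_lit 5) (nat_lit 3) (nat_lit 4) (nat_lit 1) (nat_lit 4) (nat_lit 416) (nat_lit 299) (nat_lit 185)) (XT.lf (nat_lit 0) (nat_lit 1073741823) (nat_lit 0) (nat_lit 0) (nat_lit 0) (nat_lit 0) (nat_lit 82) (nat_lit 0) (nat_lit 1) (nat_lit 0) (nat_lit 1) (nat_lit 0) (nat_lit 300) (nat_lit 300) (nat_lit 300))) (XT.nd (nat_lit 78) (nat_lit 152) (nat_lit 0) (XT.lf (nat_lit 0) (nat_lit 3040011009) (nat_lit 76) (nat_lit 3253031842) (nat_lit 0) (nat_lit 155821165) (nat_lit 81) (nat_lit 5) (nat_lit 82) (nat_lit 0) (nat_lit 81) (nat_lit 4) (nat_lit 301) (nat_lit 300) (nat_lit 299)) (XT.nd (nat_lit 78)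 (nat_lit 76) (nat_lit 0) (XT.lf (nat_lit 0) (nat_lit 11476944) (nat_lit 76) (nat_lit 6011921953) (nat_lit 76) (nat_lit 457185957) (nat_lit 80) (nat_lit 4) (nat_lit 81) (nat_lit 5) (nat_lit 81) (nat_lit 4) (nat_lit 302) (nat_lit 300) (nat_lit 298)) (XT.lf (nat_lit 0) (nat_lit 2395128368) (nat_lit 152) (nat_lit 3045596907) (nat_lit 76) (nat_lit 1085468964) (nat_lit 79) (nat_lit 5) (nat_lit 81) (nat_lit 5) (nat_lit 80) (nat_lit 4) (nat_lit 303) (nat_lit 300) (nat_lit 297))))))) (XT.nd (nat_lit 702) (nat_lit 1748) (nat_lit 0) (XT.nd (nat_lit 312) (nat_lit 1292) (nat_lit 0) (XT.nd (nat_lit 156) (nat_lit 228) (nat_lit 0) (XT.nd (nat_lit 78) (nat_lit 76) (nat_lit 0) (XT.lf (nat_lit 0) (nat_lit 486442047) (nat_lit 152) (nat_lit 4707533360) (nat_lit 228) (nat_lit 1401725223) (nat_lit 77) (nat_lit 5) (nat_lit 79) (nat_lit 5) (nat_lit 80) (nat_lit 4) (nat_lit 304) (nat_lit 300) (nat_lit 296)) (XT.lf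 (nat_lit 0) (nat_lit 1294008736) (nat_lit 228) (nat_lit 2416753826) (nat_lit 76) (nat_lit 2971550478) (nat_lit 76) (nat_lit 5) (nat_lit 79) (nat_lit 5) (nat_lit 77) (nat_lit 5) (nat_lit 305) (nat_lit 300) (nat_lit 295))) (XT.nd (nat_lit 78) (nat_lit 0) (nat_lit 0) (XT.lf (nat_lit 0) (nat_lit 1432753304) (nat_lit 228) (nat_lit 2490585963) (nat_lit 304) (nat_lit 2866618786) (nat_lit 73) (nat_lit 5) (nat_lit 76) (nat_lit 5) (nat_lit 77) (nat_lit 5) (nat_lit 306) (nat_lit 300) (nat_lit 294)) (XT.lf (nat_lit 0) (nat_lit 5558398750) (nat_lit 228) (nat_lit 1043670983) (nat_lit 304) (nat_lit 317492579) (nat_lit 73) (nat_lit 5) (nat_lit 76) (nat_lit 5) (nat_lit 77) (nat_lit 5) (nat_lit 307) (nat_lit 300) (nat_lit 293)))) (XT.nd (nat_lit 156) (nat_lit 532) (nat_lit 0) (XT.nd (nat_lit 78) (nat_lit 380) (nat_lit 0) (XT.lf (nat_lit 0) (nat_lit 2183634700) (nat_lit 380) (nat_lit 4212857728) (nat_lit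 76) (nat_lit 669168436) (nat_lit 68) (nat_lit 5) (nat_lit 73) (nat_lit 5) (nat_lit 69) (nat_lit 5) (nat_lit 308) (nat_lit 300) (nat_lit 292)) (XT.lf (nat_lit 0) (nat_lit 44852215) (nat_lit 380) (nat_lit 4686147053) (nat_lit 456) (nat_lit 2503098940) (nat_lit 63) (nat_lit 5) (nat_lit 68) (nat_lit 5) (nat_lit 69) (nat_lit 5) (nat_lit 309) (nat_lit 300) (nat_lit 291))) (XT.nd (nat_lit 78) (nat_lit 532) (nat_lit 0) (XT.lf (nat_lit 0) (nat_lit 4705475223) (nat_lit 380) (nat_lit 2699572763) (nat_lit 456) (nat_lit 17477836) (nat_lit 63) (nat_lit 5) (nat_lit 68) (nat_lit 5) (nat_lit 69) (nat_lit 5) (nat_lit 310) (nat_lit 300) (nat_lit 290)) (XT.nd (nat_lit 78) (nat_lit 0) (nat_lit 0) (XT.lf (nat_lit 0) (nat_lit 1973404278) (nat_lit 456) (nat_lit 424657402) (nat_lit 532) (nat_lit 5233973455) (nat_lit 56) (nat_lit 5) (nat_lit 62) (nat_lit 5) (nat_lit 63) (nat_lit 5) (nat_lit 311) (nat_lit 300)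 (nat_lit 289)) (XT.lf (nat_lit 0) (nat_lit 4957581300) (nat_lit 532) (nat_lit 893937492) (nat_lit 76) (nat_lit 2010890953) (nat_lit 56) (nat_lit 5) (nat_lit 63) (nat_lit 5) (nat_lit 57) (nat_lit 5) (nat_lit 312) (nat_lit 300) (nat_lit 288)))))) (XT.nd (nat_lit 390) (nat_lit 608) (nat_lit 0) (XT.nd (nat_lit 156) (nat_lit 456) (nat_lit 0) (XT.nd (nat_lit 78) (nat_lit 304) (nat_lit 0) (XT.lf (nat_lit 0) (nat_lit 4284943357) (nat_lit 380) (nat_lit 3390434541) (nat_lit 456) (nat_lit 439810159) (nat_lit 51) (nat_lit 5) (nat_lit 56) (nat_lit 5) (nat_lit 57) (nat_lit 5) (nat_lit 313) (nat_lit 300) (nat_lit 287)) (XT.lf (nat_lit 0) (nat_lit 1383384151) (nat_lit 228) (nat_lit 629343034) (nat_lit 304) (nat_lit 6379284800) (nat_lit 47) (nat_lit 5) (nat_lit 50) (nat_lit 5) (nat_lit 51) (nat_lit 5) (nat_lit 314) (nat_lit 300) (nat_lit 286))) (XT.nd (nat_lit 78) (nat_lit 456) (nat_lit 0) (XT.lf (nat_lit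 0) (nat_lit 4651907986) (nat_lit 304) (nat_lit 1703103512) (nat_lit 76) (nat_lit 2334122707) (nat_lit 47) (nat_lit 5) (nat_lit 51) (nat_lit 5) (nat_lit 48) (nat_lit 5) (nat_lit 315) (nat_lit 300) (nat_lit 285)) (XT.nd (nat_lit 78) (nat_lit 228) (nat_lit 0) (XT.lf (nat_lit 0) (nat_lit 4044595327) (nat_lit 228) (nat_lit 3432520135) (nat_lit 304) (nat_lit 1535106772) (nat_lit 44) (nat_lit 5) (nat_lit 47) (nat_lit 5) (nat_lit 48) (nat_lit 5) (nat_lit 316) (nat_lit 300) (nat_lit 284)) (XT.lf (nat_lit 0) (nat_lit 832593933) (nat_lit 152) (nat_lit 208001888) (nat_lit 228) (nat_lit 8323932433) (nat_lit 41) (nat_lit 5) (nat_lit 43) (nat_lit 5) (nat_lit 44) (nat_lit 5) (nat_lit 317) (nat_lit 300) (nat_lit 283))))) (XT.nd (nat_lit 156) (nat_lit 380) (nat_lit 0) (XT.nd (nat_lit 78) (nat_lit 228) (nat_lit 0) (XT.lf (nat_lit 0) (nat_lit 3826690958) (nat_lit 228) (nat_lit 2653586064) (nat_lit 76) (nat_lit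 3254718916) (nat_lit 41) (nat_lit 5) (nat_lit 44) (nat_lit 5) (nat_lit 42) (nat_lit 5) (nat_lit 318) (nat_lit 300) (nat_lit 282)) (XT.lf (nat_lit 0) (nat_lit 3711761287) (nat_lit 228) (nat_lit 3097443280) (nat_lit 304) (nat_lit 3328151749) (nat_lit 38) (nat_lit 5) (nat_lit 41) (nat_lit 5) (nat_lit 42) (nat_lit 5) (nat_lit 319) (nat_lit 300) (nat_lit 281))) (XT.nd (nat_lit 78) (nat_lit 380) (nat_lit 0) (XT.lf (nat_lit 0) (nat_lit 10001085841) (nat_lit 304) (nat_lit 11876567) (nat_lit 76) (nat_lit 561409339) (nat_lit 38) (nat_lit 5) (nat_lit 42) (nat_lit 5) (nat_lit 39) (nat_lit 4) (nat_lit 320) (nat_lit 300) (nat_lit 280)) (XT.nd (nat_lit 78) (nat_lit 152) (nat_lit 0) (XT.lf (nat_lit 0) (nat_lit 2426538974) (nat_lit 228) (nat_lit 4065745487) (nat_lit 76) (nat_lit 4537973828) (nat_lit 35) (nat_lit 5) (nat_lit 38) (nat_lit 5) (nat_lit 36) (nat_lit 5) (nat_lit 321) (nat_lit 300) (nat_lit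 279)) (XT.lf (nat_lit 0) (nat_lit 2952778169) (nat_lit 152) (nat_lit 2647154406) (nat_lit 228) (nat_lit 5924428782) (nat_lit 33) (nat_lit 5) (nat_lit 35) (nat_lit 5) (nat_lit 36) (nat_lit 5) (nat_lit 322) (nat_lit 300) (nat_lit 278))))))))
noncomputable def xc96 : XT := (XT.nd (nat_lit 1404) (nat_lit 684) (nat_lit 0) (XT.nd (nat_lit 702) (nat_lit 608) (nat_lit 0) (XT.nd (nat_lit 312) (nat_lit 380) (nat_lit 0) (XT.nd (nat_lit 156) (nat_lit 152) (nat_lit 0) (XT.nd (nat_lit 78) (nat_lit 228) (nat_lit 0) (XT.lf (nat_lit 0) (nat_lit 9073677188) (nat_lit 228) (nat_lit 1484426057) (nat_lit 76) (nat_lit 1496264813) (nat_lit 33) (nat_lit 5) (nat_lit 36) (nat_lit 5) (nat_lit 34) (nat_lit 4) (nat_lit 323) (nat_lit 300) (nat_lit 277)) (XT.lf (nat_lit 0) (nat_lit 315096803) (nat_lit 228) (nat_lit 6358938385) (nat_lit 76) (nat_lit 5942319857) (nat_lit 30) (nat_lit 5) (nat_lit 33) (nat_lit 5) (nat_lit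 31) (nat_lit 5) (nat_lit 324) (nat_lit 300) (nat_lit 276))) (XT.nd (nat_lit 78) (nat_lit 0) (nat_lit 0) (XT.lf (nat_lit 0) (nat_lit 1320890981) (nat_lit 152) (nat_lit 2371098349) (nat_lit 228) (nat_lit 9526914314) (nat_lit 28) (nat_lit 5) (nat_lit 30) (nat_lit 5) (nat_lit 31) (nat_lit 5) (nat_lit 325) (nat_lit 300) (nat_lit 275)) (XT.lf (nat_lit 0) (nat_lit 7479434401) (nat_lit 228) (nat_lit 4090223108) (nat_lit 76) (nat_lit 2288835441) (nat_lit 28) (nat_lit 5) (nat_lit 31) (nat_lit 5) (nat_lit 29) (nat_lit 4) (nat_lit 326) (nat_lit 300) (nat_lit 274)))) (XT.nd (nat_lit 156) (nat_lit 228) (nat_lit 0) (XT.nd (nat_lit 78) (nat_lit 76) (nat_lit 0) (XT.lf (nat_lit 0) (nat_lit 4357893104) (nat_lit 76) (nat_lit 7292525367) (nat_lit 152) (nat_lit 2892451263) (nat_lit 27) (nat_lit 5) (nat_lit 28) (nat_lit 5) (nat_lit 29) (nat_lit 4) (nat_lit 327) (nat_lit 300) (nat_lit 273)) (XT.lf (nat_lit 0)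 (nat_lit 859151530) (nat_lit 152) (nat_lit 1724156422) (nat_lit 76) (nat_lit 12694684223) (nat_lit 26) (nat_lit 5) (nat_lit 28) (nat_lit 5) (nat_lit 27) (nat_lit 5) (nat_lit 328) (nat_lit 300) (nat_lit 272))) (XT.nd (nat_lit 78) (nat_lit 76) (nat_lit 0) (XT.lf (nat_lit 0) (nat_lit 4923992906) (nat_lit 228) (nat_lit 8536543557) (nat_lit 76) (nat_lit 2591878080) (nat_lit 24) (nat_lit 5) (nat_lit 27) (nat_lit 5) (nat_lit 25) (nat_lit 4) (nat_lit 329) (nat_lit 300) (nat_lit 271)) (XT.nd (nat_lit 78) (nat_lit 0) (nat_lit 0) (XT.lf (nat_lit 0) (nat_lit 533778368) (nat_lit 76) (nat_lit 8831350955) (nat_lit 152) (nat_lit 7519619659) (nat_lit 23) (nat_lit 5) (nat_lit 24) (nat_lit 5) (nat_lit 25) (nat_lit 4) (nat_lit 330) (nat_lit 300) (nat_lit 270)) (XT.lf (nat_lit 0) (nat_lit 10685831705) (nat_lit 76) (nat_lit 3634541309) (nat_lit 152) (nat_lit 3450635279) (nat_lit 23) (nat_lit 5) (nat_lit 24)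 (nat_lit 5) (nat_lit 25) (nat_lit 4) (nat_lit 331) (nat_lit 300) (nat_lit 269)))))) (XT.nd (nat_lit 312) (nat_lit 304) (nat_lit 0) (XT.nd (nat_lit 156) (nat_lit 76) (nat_lit 0) (XT.nd (nat_lit 78) (nat_lit 0) (nat_lit 0) (XT.lf (nat_lit 0) (nat_lit 944745094) (nat_lit 228) (nat_lit 15853381194) (nat_lit 76) (nat_lit 1924415818) (nat_lit 20) (nat_lit 5) (nat_lit 23) (nat_lit 5) (nat_lit 21) (nat_lit 4) (nat_lit 332) (nat_lit 300) (nat_lit 268)) (XT.lf (nat_lit 0) (nat_lit 5728700736) (nat_lit 228) (nat_lit 6025681190) (nat_lit 76) (nat_lit 7970811518) (nat_lit 20) (nat_lit 5) (nat_lit 23) (nat_lit 5) (nat_lit 21) (nat_lit 4) (nat_lit 333) (nat_lit 300) (nat_lit 267))) (XT.nd (nat_lit 78) (nat_lit 0) (nat_lit 0) (XT.lf (nat_lit 0) (nat_lit 4708296513) (nat_lit 76) (nat_lit 6235692530) (nat_lit 152) (nat_lit 9860210469) (nat_lit 19) (nat_lit 5) (nat_lit 20) (nat_lit 5) (nat_lit 21) (nat_lit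 4) (nat_lit 334) (nat_lit 300) (nat_lit 266)) (XT.lf (nat_lit 0) (nat_lit 16531135100) (nat_lit 76) (nat_lit 147579570) (nat_lit 152) (nat_lit 5282663808) (nat_lit 19) (nat_lit 5) (nat_lit 20) (nat_lit 5) (nat_lit 21) (nat_lit 4) (nat_lit 335) (nat_lit 300) (nat_lit 265)))) (XT.nd (nat_lit 156) (nat_lit 152) (nat_lit 0) (XT.nd (nat_lit 78) (nat_lit 76) (nat_lit 0) (XT.lf (nat_lit 0) (nat_lit 6133136895) (nat_lit 76) (nat_lit 16982147461) (nat_lit 76) (nat_lit 76429489) (nat_lit 18) (nat_lit 4) (nat_lit 19) (nat_lit 5) (nat_lit 19) (nat_lit 4) (nat_lit 336) (nat_lit 300) (nat_lit 264)) (XT.lf (nat_lit 0) (nat_lit 5366334425) (nat_lit 152) (nat_lit 5827404916) (nat_lit 76) (nat_lit 13308290709) (nat_lit 17) (nat_lit 5) (nat_lit 19) (nat_lit 5) (nat_lit 18) (nat_lit 4) (nat_lit 337) (nat_lit 300) (nat_lit 263))) (XT.nd (nat_lit 78) (nat_lit 76) (nat_lit 0) (XT.lf (nat_lit 0) (nat_lit 6526636120)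 (nat_lit 76) (nat_lit 4816384054) (nat_lit 152) (nat_lit 14565803894) (nat_lit 16) (nat_lit 5) (nat_lit 17) (nat_lit 5) (nat_lit 18) (nat_lit 4) (nat_lit 338) (nat_lit 300) (nat_lit 262)) (XT.nd (nat_lit 78) (nat_lit 76) (nat_lit 0) (XT.lf (nat_lit 0) (nat_lit 17957383486) (nat_lit 152) (nat_lit 7369700404) (nat_lit 0) (nat_lit 2088334416) (nat_lit 16) (nat_lit 5) (nat_lit 18) (nat_lit 4) (nat_lit 16) (nat_lit 4) (nat_lit 339) (nat_lit 300) (nat_lit 261)) (XT.lf (nat_lit 0) (nat_lit 5668988114) (nat_lit 76) (nat_lit 19643589786) (nat_lit 76) (nat_lit 3713046246) (nat_lit 15) (nat_lit 4) (nat_lit 16) (nat_lit 5) (nat_lit 16) (nat_lit 4) (nat_lit 340) (nat_lit 300) (nat_lit 260))))))) (XT.nd (nat_lit 702) (nat_lit 304) (nat_lit 0) (XT.nd (nat_lit 312) (nat_lit 228) (nat_lit 0) (XT.nd (nat_lit 156) (nat_lit 0) (nat_lit 0) (XT.nd (nat_lit 78) (nat_lit 76) (nat_lit 0) (XT.lf (nat_lit 0) (nat_lit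 2524109995) (nat_lit 152) (nat_lit 10737334073) (nat_lit 76) (nat_lit 17485848172) (nat_lit 14) (nat_lit 5) (nat_lit 16) (nat_lit 5) (nat_lit 15) (nat_lit 4) (nat_lit 341) (nat_lit 300) (nat_lit 259)) (XT.lf (nat_lit 0) (nat_lit 2851075546) (nat_lit 76) (nat_lit 6231270611) (nat_lit 152) (nat_lit 23514830323) (nat_lit 13) (nat_lit 5) (nat_lit 14) (nat_lit 5) (nat_lit 15) (nat_lit 4) (nat_lit 342) (nat_lit 300) (nat_lit 258))) (XT.nd (nat_lit 78) (nat_lit 0) (nat_lit 0) (XT.lf (nat_lit 0) (nat_lit 16453730323) (nat_lit 152) (nat_lit 16561766813) (nat_lit 0) (nat_lit 1556488882) (nat_lit 13) (nat_lit 5) (nat_lit 15) (nat_lit 4) (nat_lit 13) (nat_lit 4) (nat_lit 343) (nat_lit 300) (nat_lit 257)) (XT.lf (nat_lit 0) (nat_lit 24534589621) (nat_lit 152) (nat_lit 2565126145) (nat_lit 0) (nat_lit 9595496076) (nat_lit 13) (nat_lit 5) (nat_lit 15) (nat_lit 4) (nat_lit 13) (nat_lit 4) (nat_lit 344)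 (nat_lit 300) (nat_lit 256)))) (XT.nd (nat_lit 156) (nat_lit 76) (nat_lit 0) (XT.nd (nat_lit 78) (nat_lit 76) (nat_lit 0) (XT.lf (nat_lit 0) (nat_lit 13133623365) (nat_lit 76) (nat_lit 20405189009) (nat_lit 76) (nat_lit 5427343517) (nat_lit 12) (nat_lit 4) (nat_lit 13) (nat_lit 5) (nat_lit 13) (nat_lit 4) (nat_lit 345) (nat_lit 300) (nat_lit 255)) (XT.lf (nat_lit 0) (nat_lit 1785455263) (nat_lit 152) (nat_lit 11299979977) (nat_lit 76) (nat_lit 28327150718) (nat_lit 11) (nat_lit 5) (nat_lit 13) (nat_lit 5) (nat_lit 12) (nat_lit 4) (nat_lit 346) (nat_lit 300) (nat_lit 254))) (XT.nd (nat_lit 78) (nat_lit 0) (nat_lit 0) (XT.lf (nat_lit 0) (nat_lit 4405334246) (nat_lit 76) (nat_lit 4946725715) (nat_lit 152) (nat_lit 34685802224) (nat_lit 10) (nat_lit 5) (nat_lit 11) (nat_lit 5) (nat_lit 12) (nat_lit 4) (nat_lit 347) (nat_lit 300) (nat_lit 253)) (XT.nd (nat_lit 78) (nat_lit 0) (nat_lit 0) (XT.lf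 (nat_lit 0) (nat_lit 17897712875) (nat_lit 152) (nat_lit 25008691188) (nat_lit 0) (nat_lit 3936867487) (nat_lit 10) (nat_lit 5) (nat_lit 12) (nat_lit 4) (nat_lit 10) (nat_lit 4) (nat_lit 348) (nat_lit 300) (nat_lit 252)) (XT.lf (nat_lit 0) (nat_lit 27222455523) (nat_lit 152) (nat_lit 9407794919) (nat_lit 0) (nat_lit 13235236210) (nat_lit 10) (nat_lit 5) (nat_lit 12) (nat_lit 4) (nat_lit 10) (nat_lit 4) (nat_lit 349) (nat_lit 300) (nat_lit 251)))))) (XT.nd (nat_lit 312) (nat_lit 76) (nat_lit 0) (XT.nd (nat_lit 156) (nat_lit 152) (nat_lit 0) (XT.nd (nat_lit 78) (nat_lit 0) (nat_lit 0) (XT.lf (nat_lit 0) (nat_lit 7770280388) (nat_lit 76) (nat_lit 29679171807) (nat_lit 76) (nat_lit 15667532193) (nat_lit 9) (nat_lit 4) (nat_lit 10) (nat_lit 5) (nat_lit 10) (nat_lit 4) (nat_lit 350) (nat_lit 300) (nat_lit 250)) (XT.lf (nat_lit 0) (nat_lit 26799546497) (nat_lit 76) (nat_lit 21922556859) (nat_lit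 76) (nat_lit 7888305856) (nat_lit 9) (nat_lit 4) (nat_lit 10) (nat_lit 5) (nat_lit 10) (nat_lit 4) (nat_lit 351) (nat_lit 300) (nat_lit 249))) (XT.nd (nat_lit 78) (nat_lit 76) (nat_lit 0) (XT.lf (nat_lit 0) (nat_lit 459333525) (nat_lit 152) (nat_lit 13099773741) (nat_lit 76) (nat_lit 46825479099) (nat_lit 8) (nat_lit 5) (nat_lit 10) (nat_lit 5) (nat_lit 9) (nat_lit 4) (nat_lit 352) (nat_lit 300) (nat_lit 248)) (XT.lf (nat_lit 0) (nat_lit 4939209311) (nat_lit 76) (nat_lit 4202032230) (nat_lit 152) (nat_lit 55295659830) (nat_lit 7) (nat_lit 5) (nat_lit 8) (nat_lit 5) (nat_lit 9) (nat_lit 4) (nat_lit 353) (nat_lit 300) (nat_lit 247)))) (XT.nd (nat_lit 156) (nat_lit 76) (nat_lit 0) (XT.nd (nat_lit 78) (nat_lit 0) (nat_lit 0) (XT.lf (nat_lit 0) (nat_lit 19001150507) (nat_lit 152) (nat_lit 43821061904) (nat_lit 0) (nat_lit 5952518335) (nat_lit 7) (nat_lit 5) (nat_lit 9) (nat_lit 4) (nat_lit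 7) (nat_lit 4) (nat_lit 354) (nat_lit 300) (nat_lit 246)) (XT.lf (nat_lit 0) (nat_lit 29734914589) (nat_lit 152) (nat_lit 27046978064) (nat_lit 0) (nat_lit 16670893485) (nat_lit 7) (nat_lit 5) (nat_lit 9) (nat_lit 4) (nat_lit 7) (nat_lit 4) (nat_lit 355) (nat_lit 300) (nat_lit 245))) (XT.nd (nat_lit 78) (nat_lit 76) (nat_lit 0) (XT.lf (nat_lit 0) (nat_lit 41305082303) (nat_lit 152) (nat_lit 8974979588) (nat_lit 0) (nat_lit 28226812188) (nat_lit 7) (nat_lit 5) (nat_lit 9) (nat_lit 4) (nat_lit 7) (nat_lit 4) (nat_lit 356) (nat_lit 300) (nat_lit 244)) (XT.nd (nat_lit 78) (nat_lit 0) (nat_lit 0) (XT.lf (nat_lit 0) (nat_lit 11055044971) (nat_lit 76) (nat_lit 42991046730) (nat_lit 76) (nat_lit 29899583087) (nat_lit 6) (nat_lit 4) (nat_lit 7) (nat_lit 5) (nat_lit 7) (nat_lit 4) (nat_lit 357) (nat_lit 300) (nat_lit 243)) (XT.lf (nat_lit 0) (nat_lit 33158166314) (nat_lit 76) (nat_lit 34873535604)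 (nat_lit 76) (nat_lit 21769855731) (nat_lit 6) (nat_lit 4) (nat_lit 7) (nat_lit 5) (nat_lit 7) (nat_lit 4) (nat_lit 358) (nat_lit 300) (nat_lit 242))))))))
noncomputable def xc97 : XT := (XT.nd (nat_lit 1404) (nat_lit 152) (nat_lit 0) (XT.nd (nat_lit 702) (nat_lit 76) (nat_lit 0) (XT.nd (nat_lit 312) (nat_lit 0) (nat_lit 0) (XT.nd (nat_lit 156) (nat_lit 152) (nat_lit 0) (XT.nd (nat_lit 78) (nat_lit 0) (nat_lit 0) (XT.lf (nat_lit 0) (nat_lit 56992759380) (nat_lit 76) (nat_lit 26124816590) (nat_lit 76) (nat_lit 13009825392) (nat_lit 6) (nat_lit 4) (nat_lit 7) (nat_lit 5) (nat_lit 7) (nat_lit 4) (nat_lit 359) (nat_lit 300) (nat_lit 241)) (XT.lf (nat_lit 0) (nat_lit 82700066203) (nat_lit 76) (nat_lit 16693045427) (nat_lit 76) (nat_lit 3567580781) (nat_lit 6) (nat_lit 4) (nat_lit 7) (nat_lit 5) (nat_lit 7) (nat_lit 4) (nat_lit 360) (nat_lit 300) (nat_lit 240))) (XT.nd (nat_lit 78) (nat_lit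 76) (nat_lit 0) (XT.lf (nat_lit 0) (nat_lit 6282031498) (nat_lit 152) (nat_lit 68536765) (nat_lit 76) (nat_lit 103978633005) (nat_lit 5) (nat_lit 5) (nat_lit 7) (nat_lit 5) (nat_lit 6) (nat_lit 4) (nat_lit 361) (nat_lit 300) (nat_lit 239)) (XT.lf (nat_lit 0) (nat_lit 17391146920) (nat_lit 152) (nat_lit 95614845722) (nat_lit 0) (nat_lit 5220645460) (nat_lit 4) (nat_lit 5) (nat_lit 6) (nat_lit 4) (nat_lit 4) (nat_lit 4) (nat_lit 362) (nat_lit 300) (nat_lit 238)))) (XT.nd (nat_lit 156) (nat_lit 0) (nat_lit 0) (XT.nd (nat_lit 78) (nat_lit 0) (nat_lit 0) (XT.lf (nat_lit 0) (nat_lit 29540794052) (nat_lit 152) (nat_lit 79840339670) (nat_lit 0) (nat_lit 17362594295) (nat_lit 4) (nat_lit 5) (nat_lit 6) (nat_lit 4) (nat_lit 4) (nat_lit 4) (nat_lit 363) (nat_lit 300) (nat_lit 237)) (XT.lf (nat_lit 0) (nat_lit 42648459308) (nat_lit 152) (nat_lit 62831712769) (nat_lit 0) (nat_lit 30463131498) (nat_lit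 4) (nat_lit 5) (nat_lit 6) (nat_lit 4) (nat_lit 4) (nat_lit 4) (nat_lit 364) (nat_lit 300) (nat_lit 236))) (XT.nd (nat_lit 78) (nat_lit 0) (nat_lit 0) (XT.lf (nat_lit 0) (nat_lit 56791817742) (nat_lit 152) (nat_lit 44488173156) (nat_lit 0) (nat_lit 44599889882) (nat_lit 4) (nat_lit 5) (nat_lit 6) (nat_lit 4) (nat_lit 4) (nat_lit 4) (nat_lit 365) (nat_lit 300) (nat_lit 235)) (XT.nd (nat_lit 78) (nat_lit 0) (nat_lit 0) (XT.lf (nat_lit 0) (nat_lit 72054681847) (nat_lit 152) (nat_lit 24701018376) (nat_lit 0) (nat_lit 59856642831) (nat_lit 4) (nat_lit 5) (nat_lit 6) (nat_lit 4) (nat_lit 4) (nat_lit 4) (nat_lit 366) (nat_lit 300) (nat_lit 234)) (XT.lf (nat_lit 0) (nat_lit 88527498225) (nat_lit 152) (nat_lit 3352991213) (nat_lit 0) (nat_lit 76323800731) (nat_lit 4) (nat_lit 5) (nat_lit 6) (nat_lit 4) (nat_lit 4) (nat_lit 4) (nat_lit 367) (nat_lit 300) (nat_lit 233)))))) (XT.nd (nat_lit 312)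 (nat_lit 0) (nat_lit 0) (XT.nd (nat_lit 156) (nat_lit 0) (nat_lit 0) (XT.nd (nat_lit 78) (nat_lit 0) (nat_lit 0) (XT.lf (nat_lit 0) (nat_lit 20718856260) (nat_lit 76) (nat_lit 86087316298) (nat_lit 76) (nat_lit 73878379473) (nat_lit 3) (nat_lit 4) (nat_lit 4) (nat_lit 5) (nat_lit 4) (nat_lit 4) (nat_lit 368) (nat_lit 300) (nat_lit 232)) (XT.lf (nat_lit 0) (nat_lit 46887194199) (nat_lit 76) (nat_lit 79741647068) (nat_lit 76) (nat_lit 67527859009) (nat_lit 3) (nat_lit 4) (nat_lit 4) (nat_lit 5) (nat_lit 4) (nat_lit 4) (nat_lit 369) (nat_lit 300) (nat_lit 231))) (XT.nd (nat_lit 78) (nat_lit 0) (nat_lit 0) (XT.lf (nat_lit 0) (nat_lit 75130531661) (nat_lit 76) (nat_lit 72897554503) (nat_lit 76) (nat_lit 60679274562) (nat_lit 3) (nat_lit 4) (nat_lit 4) (nat_lit 5) (nat_lit 4) (nat_lit 4) (nat_lit 370) (nat_lit 300) (nat_lit 230)) (XT.lf (nat_lit 0) (nat_lit 105616236571) (nat_lit 76) (nat_lit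 65514481018) (nat_lit 76) (nat_lit 53292041927) (nat_lit 3) (nat_lit 4) (nat_lit 4) (nat_lit 5) (nat_lit 4) (nat_lit 4) (nat_lit 371) (nat_lit 300) (nat_lit 229)))) (XT.nd (nat_lit 156) (nat_lit 0) (nat_lit 0) (XT.nd (nat_lit 78) (nat_lit 0) (nat_lit 0) (XT.lf (nat_lit 0) (nat_lit 138524964958) (nat_lit 76) (nat_lit 57548675067) (nat_lit 76) (nat_lit 45322384911) (nat_lit 3) (nat_lit 4) (nat_lit 4) (nat_lit 5) (nat_lit 4) (nat_lit 4) (nat_lit 372) (nat_lit 300) (nat_lit 228)) (XT.lf (nat_lit 0) (nat_lit 174051731508) (nat_lit 76) (nat_lit 48952931874) (nat_lit 76) (nat_lit 36723075916) (nat_lit 3) (nat_lit 4) (nat_lit 4) (nat_lit 5) (nat_lit 4) (nat_lit 4) (nat_lit 373) (nat_lit 300) (nat_lit 227))) (XT.nd (nat_lit 78) (nat_lit 0) (nat_lit 0) (XT.lf (nat_lit 0) (nat_lit 212407065210) (nat_lit 76) (nat_lit 39676313701) (nat_lit 76) (nat_lit 27443156076) (nat_lit 3) (nat_lit 4) (nat_lit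 4) (nat_lit 5) (nat_lit 4) (nat_lit 4) (nat_lit 374) (nat_lit 300) (nat_lit 226)) (XT.nd (nat_lit 78) (nat_lit 0) (nat_lit 0) (XT.lf (nat_lit 0) (nat_lit 253818256929) (nat_lit 76) (nat_lit 29663847996) (nat_lit 76) (nat_lit 17427633271) (nat_lit 3) (nat_lit 4) (nat_lit 4) (nat_lit 5) (nat_lit 4) (nat_lit 4) (nat_lit 375) (nat_lit 300) (nat_lit 225)) (XT.lf (nat_lit 0) (nat_lit 298530706320) (nat_lit 76) (nat_lit 18856201630) (nat_lit 76) (nat_lit 6617156257) (nat_lit 3) (nat_lit 4) (nat_lit 4) (nat_lit 5) (nat_lit 4) (nat_lit 4) (nat_lit 376) (nat_lit 300) (nat_lit 224))))))) (XT.nd (nat_lit 702) (nat_lit 0) (nat_lit 0) (XT.nd (nat_lit 312) (nat_lit 0) (nat_lit 0) (XT.nd (nat_lit 156) (nat_lit 0) (nat_lit 0) (XT.nd (nat_lit 78) (nat_lit 76) (nat_lit 0) (XT.lf (nat_lit 0) (nat_lit 4799598692) (nat_lit 152) (nat_lit 2258501063) (nat_lit 76) (nat_lit 341878547820) (nat_lit 2) (nat_lit 5)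 (nat_lit 4) (nat_lit 5) (nat_lit 3) (nat_lit 4) (nat_lit 377) (nat_lit 300) (nat_lit 223)) (XT.lf (nat_lit 0) (nat_lit 17495941622) (nat_lit 152) (nat_lit 352137428745) (nat_lit 0) (nat_lit 6158818318) (nat_lit 1) (nat_lit 5) (nat_lit 3) (nat_lit 4) (nat_lit 1) (nat_lit 4) (nat_lit 378) (nat_lit 300) (nat_lit 222))) (XT.nd (nat_lit 78) (nat_lit 0) (nat_lit 0) (XT.lf (nat_lit 0) (nat_lit 31449572357) (nat_lit 152) (nat_lit 353216906487) (nat_lit 0) (nat_lit 20110368443) (nat_lit 1) (nat_lit 5) (nat_lit 3) (nat_lit 4) (nat_lit 1) (nat_lit 4) (nat_lit 379) (nat_lit 300) (nat_lit 221)) (XT.lf (nat_lit 0) (nat_lit 46514769244) (nat_lit 152) (nat_lit 354392249021) (nat_lit 0) (nat_lit 35173638838) (nat_lit 1) (nat_lit 5) (nat_lit 3) (nat_lit 4) (nat_lit 1) (nat_lit 4) (nat_lit 380) (nat_lit 300) (nat_lit 220)))) (XT.nd (nat_lit 156) (nat_lit 0) (nat_lit 0) (XT.nd (nat_lit 78) (nat_lit 0) (nat_lit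 0) (XT.lf (nat_lit 0) (nat_lit 62780807525) (nat_lit 152) (nat_lit 355670421339) (nat_lit 0) (nat_lit 51437893331) (nat_lit 1) (nat_lit 5) (nat_lit 3) (nat_lit 4) (nat_lit 1) (nat_lit 4) (nat_lit 381) (nat_lit 300) (nat_lit 219)) (XT.lf (nat_lit 0) (nat_lit 80344078536) (nat_lit 152) (nat_lit 357058997797) (nat_lit 0) (nat_lit 68999512687) (nat_lit 1) (nat_lit 5) (nat_lit 3) (nat_lit 4) (nat_lit 1) (nat_lit 4) (nat_lit 382) (nat_lit 300) (nat_lit 218))) (XT.nd (nat_lit 78) (nat_lit 0) (nat_lit 0) (XT.lf (nat_lit 0) (nat_lit 99308660923) (nat_lit 152) (nat_lit 358566206994) (nat_lit 0) (nat_lit 87962565762) (nat_lit 1) (nat_lit 5) (nat_lit 3) (nat_lit 4) (nat_lit 1) (nat_lit 4) (nat_lit 383) (nat_lit 300) (nat_lit 217)) (XT.nd (nat_lit 78) (nat_lit 0) (nat_lit 0) (XT.lf (nat_lit 0) (nat_lit 119786937393) (nat_lit 152) (nat_lit 360200980542) (nat_lit 0) (nat_lit 108439426204) (nat_lit 1)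 (nat_lit 5) (nat_lit 3) (nat_lit 4) (nat_lit 1) (nat_lit 4) (nat_lit 384) (nat_lit 300) (nat_lit 216)) (XT.lf (nat_lit 0) (nat_lit 141900260698) (nat_lit 152) (nat_lit 361973005987) (nat_lit 0) (nat_lit 130551438371) (nat_lit 1) (nat_lit 5) (nat_lit 3) (nat_lit 4) (nat_lit 1) (nat_lit 4) (nat_lit 385) (nat_lit 300) (nat_lit 215)))))) (XT.nd (nat_lit 312) (nat_lit 0) (nat_lit 0) (XT.nd (nat_lit 156) (nat_lit 0) (nat_lit 0) (XT.nd (nat_lit 78) (nat_lit 0) (nat_lit 0) (XT.lf (nat_lit 0) (nat_lit 165779672754) (nat_lit 152) (nat_lit 363892784220) (nat_lit 0) (nat_lit 154429636410) (nat_lit 1) (nat_lit 5) (nat_lit 3) (nat_lit 4) (nat_lit 1) (nat_lit 4) (nat_lit 386) (nat_lit 300) (nat_lit 214)) (XT.lf (nat_lit 0) (nat_lit 191566681186) (nat_lit 152) (nat_lit 365971691707) (nat_lit 0) (nat_lit 180215520753) (nat_lit 1) (nat_lit 5) (nat_lit 3) (nat_lit 4) (nat_lit 1) (nat_lit 4) (nat_lit 387)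 (nat_lit 300) (nat_lit 213))) (XT.nd (nat_lit 78) (nat_lit 0) (nat_lit 0) (XT.lf (nat_lit 0) (nat_lit 219414097897) (nat_lit 152) (nat_lit 368222047897) (nat_lit 0) (nat_lit 208061896641) (nat_lit 1) (nat_lit 5) (nat_lit 3) (nat_lit 4) (nat_lit 1) (nat_lit 4) (nat_lit 388) (nat_lit 300) (nat_lit 212)) (XT.lf (nat_lit 0) (nat_lit 249486944616) (nat_lit 152) (nat_lit 370657188235) (nat_lit 0) (nat_lit 238133779634) (nat_lit 1) (nat_lit 5) (nat_lit 3) (nat_lit 4) (nat_lit 1) (nat_lit 4) (nat_lit 389) (nat_lit 300) (nat_lit 211)))) (XT.nd (nat_lit 156) (nat_lit 0) (nat_lit 0) (XT.nd (nat_lit 78) (nat_lit 0) (nat_lit 0) (XT.lf (nat_lit 0) (nat_lit 281963430804) (nat_lit 152) (nat_lit 373291543183) (nat_lit 0) (nat_lit 270609373484) (nat_lit 1) (nat_lit 5) (nat_lit 3) (nat_lit 4) (nat_lit 1) (nat_lit 4) (nat_lit 390) (nat_lit 300) (nat_lit 210)) (XT.lf (nat_lit 0) (nat_lit 317036009713) (nat_lit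 152) (nat_lit 376140723733) (nat_lit 0) (nat_lit 305681126154) (nat_lit 1) (nat_lit 5) (nat_lit 3) (nat_lit 4) (nat_lit 1) (nat_lit 4) (nat_lit 391) (nat_lit 300) (nat_lit 209))) (XT.nd (nat_lit 78) (nat_lit 0) (nat_lit 0) (XT.lf (nat_lit 0) (nat_lit 354912518848) (nat_lit 152) (nat_lit 379221613918) (nat_lit 0) (nat_lit 343556870253) (nat_lit 1) (nat_lit 5) (nat_lit 3) (nat_lit 4) (nat_lit 1) (nat_lit 4) (nat_lit 392) (nat_lit 300) (nat_lit 208)) (XT.nd (nat_lit 78) (nat_lit 0) (nat_lit 0) (XT.lf (nat_lit 0) (nat_lit 395817411596) (nat_lit 152) (nat_lit 382552470864) (nat_lit 0) (nat_lit 384461054634) (nat_lit 1) (nat_lit 5) (nat_lit 3) (nat_lit 4) (nat_lit 1) (nat_lit 4) (nat_lit 393) (nat_lit 300) (nat_lit 207)) (XT.lf (nat_lit 0) (nat_lit 439993087322) (nat_lit 152) (nat_lit 386153032983) (nat_lit 0) (nat_lit 428636074465) (nat_lit 1) (nat_lit 5) (nat_lit 3) (nat_lit 4) (nat_lit 1)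 (nat_lit 4) (nat_lit 394) (nat_lit 300) (nat_lit 206))))))))
noncomputable def xc98 : XT := (XT.nd (nat_lit 1404) (nat_lit 0) (nat_lit 0) (XT.nd (nat_lit 702) (nat_lit 0) (nat_lit 0) (XT.nd (nat_lit 312) (nat_lit 0) (nat_lit 0) (XT.nd (nat_lit 156) (nat_lit 0) (nat_lit 0) (XT.nd (nat_lit 78) (nat_lit 0) (nat_lit 0) (XT.lf (nat_lit 0) (nat_lit 487701327807) (nat_lit 152) (nat_lit 390044636940) (nat_lit 0) (nat_lit 476343707640) (nat_lit 1) (nat_lit 5) (nat_lit 3) (nat_lit 4) (nat_lit 1) (nat_lit 4) (nat_lit 395) (nat_lit 300) (nat_lit 205)) (XT.lf (nat_lit 0) (nat_lit 539224848552) (nat_lit 152) (nat_lit 394250344091) (nat_lit 0) (nat_lit 527866666060) (nat_lit 1) (nat_lit 5) (nat_lit 3) (nat_lit 4) (nat_lit 1) (nat_lit 4) (nat_lit 396) (nat_lit 300) (nat_lit 204))) (XT.nd (nat_lit 78) (nat_lit 0) (nat_lit 0) (XT.lf (nat_lit 0) (nat_lit 594868974122) (nat_lit 152) (nat_lit 398795077146)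 (nat_lit 0) (nat_lit 583510270959) (nat_lit 1) (nat_lit 5) (nat_lit 3) (nat_lit 4) (nat_lit 1) (nat_lit 4) (nat_lit 397) (nat_lit 300) (nat_lit 203)) (XT.lf (nat_lit 0) (nat_lit 654963447485) (nat_lit 152) (nat_lit 403705767856) (nat_lit 0) (nat_lit 643604262220) (nat_lit 1) (nat_lit 5) (nat_lit 3) (nat_lit 4) (nat_lit 1) (nat_lit 4) (nat_lit 398) (nat_lit 300) (nat_lit 202)))) (XT.nd (nat_lit 156) (nat_lit 0) (nat_lit 0) (XT.nd (nat_lit 78) (nat_lit 0) (nat_lit 0) (XT.lf (nat_lit 0) (nat_lit 719864384039) (nat_lit 152) (nat_lit 409011516610) (nat_lit 0) (nat_lit 708504752382) (nat_lit 1) (nat_lit 5) (nat_lit 3) (nat_lit 4) (nat_lit 1) (nat_lit 4) (nat_lit 399) (nat_lit 300) (nat_lit 201)) (XT.lf (nat_lit 0) (nat_lit 789956381925) (nat_lit 152) (nat_lit 414743764883) (nat_lit 0) (nat_lit 778596336943) (nat_lit 1) (nat_lit 5) (nat_lit 3) (nat_lit 4) (nat_lit 1) (nat_lit 4) (nat_lit 400)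 (nat_lit 300) (nat_lit 200))) (XT.nd (nat_lit 78) (nat_lit 0) (nat_lit 0) (XT.lf (nat_lit 0) (nat_lit 865654801132) (nat_lit 152) (nat_lit 420936481552) (nat_lit 0) (nat_lit 854294373441) (nat_lit 1) (nat_lit 5) (nat_lit 3) (nat_lit 4) (nat_lit 1) (nat_lit 4) (nat_lit 401) (nat_lit 300) (nat_lit 199)) (XT.nd (nat_lit 78) (nat_lit 0) (nat_lit 0) (XT.lf (nat_lit 0) (nat_lit 947408224883) (nat_lit 152) (nat_lit 427626364199) (nat_lit 0) (nat_lit 936047442833) (nat_lit 1) (nat_lit 5) (nat_lit 3) (nat_lit 4) (nat_lit 1) (nat_lit 4) (nat_lit 402) (nat_lit 300) (nat_lit 198)) (XT.lf (nat_lit 0) (nat_lit 1035701117914) (nat_lit 152) (nat_lit 434853056572) (nat_lit 0) (nat_lit 1024340007753) (nat_lit 1) (nat_lit 5) (nat_lit 3) (nat_lit 4) (nat_lit 1) (nat_lit 4) (nat_lit 403) (nat_lit 300) (nat_lit 197)))))) (XT.nd (nat_lit 312) (nat_lit 0) (nat_lit 0) (XT.nd (nat_lit 156) (nat_lit 0) (nat_lit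 0) (XT.nd (nat_lit 78) (nat_lit 0) (nat_lit 0) (XT.lf (nat_lit 0) (nat_lit 1131056697367) (nat_lit 152) (nat_lit 442659383515) (nat_lit 0) (nat_lit 1119695283399) (nat_lit 1) (nat_lit 5) (nat_lit 3) (nat_lit 4) (nat_lit 1) (nat_lit 4) (nat_lit 404) (nat_lit 300) (nat_lit 196)) (XT.lf (nat_lit 0) (nat_lit 1234040033342) (nat_lit 152) (nat_lit 451091604744) (nat_lit 0) (nat_lit 1222678338073) (nat_lit 1) (nat_lit 5) (nat_lit 3) (nat_lit 4) (nat_lit 1) (nat_lit 4) (nat_lit 405) (nat_lit 300) (nat_lit 195))) (XT.nd (nat_lit 78) (nat_lit 0) (nat_lit 0) (XT.lf (nat_lit 0) (nat_lit 1345261397462) (nat_lit 152) (nat_lit 460199688975) (nat_lit 0) (nat_lit 1333899441727) (nat_lit 1) (nat_lit 5) (nat_lit 3) (nat_lit 4) (nat_lit 1) (nat_lit 4) (nat_lit 406) (nat_lit 300) (nat_lit 194)) (XT.lf (nat_lit 0) (nat_lit 1465379879290) (nat_lit 152) (nat_lit 470037610044) (nat_lit 0) (nat_lit 1454017682383)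 (nat_lit 1) (nat_lit 5) (nat_lit 3) (nat_lit 4) (nat_lit 1) (nat_lit 4) (nat_lit 407) (nat_lit 300) (nat_lit 193)))) (XT.nd (nat_lit 156) (nat_lit 0) (nat_lit 0) (XT.nd (nat_lit 78) (nat_lit 0) (nat_lit 0) (XT.lf (nat_lit 0) (nat_lit 1595107292052) (nat_lit 152) (nat_lit 480663666739) (nat_lit 0) (nat_lit 1583744871839) (nat_lit 1) (nat_lit 5) (nat_lit 3) (nat_lit 4) (nat_lit 1) (nat_lit 4) (nat_lit 408) (nat_lit 300) (nat_lit 192)) (XT.lf (nat_lit 0) (nat_lit 1735212390787) (nat_lit 152) (nat_lit 492140828287) (nat_lit 0) (nat_lit 1723849763808) (nat_lit 1) (nat_lit 5) (nat_lit 3) (nat_lit 4) (nat_lit 1) (nat_lit 4) (nat_lit 409) (nat_lit 300) (nat_lit 191))) (XT.nd (nat_lit 78) (nat_lit 0) (nat_lit 0) (XT.lf (nat_lit 0) (nat_lit 1886525427932) (nat_lit 152) (nat_lit 504537107497) (nat_lit 0) (nat_lit 1875162609504) (nat_lit 1) (nat_lit 5) (nat_lit 3) (nat_lit 4) (nat_lit 1) (nat_lit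 4) (nat_lit 410) (nat_lit 300) (nat_lit 190)) (XT.nd (nat_lit 78) (nat_lit 0) (nat_lit 0) (XT.lf (nat_lit 0) (nat_lit 2049943073337) (nat_lit 152) (nat_lit 517925963801) (nat_lit 0) (nat_lit 2038580077640) (nat_lit 1) (nat_lit 5) (nat_lit 3) (nat_lit 4) (nat_lit 1) (nat_lit 4) (nat_lit 411) (nat_lit 300) (nat_lit 189)) (XT.lf (nat_lit 0) (nat_lit 2226433727863) (nat_lit 152) (nat_lit 532386738570) (nat_lit 0) (nat_lit 2215070568029) (nat_lit 1) (nat_lit 5) (nat_lit 3) (nat_lit 4) (nat_lit 1) (nat_lit 4) (nat_lit 412) (nat_lit 300) (nat_lit 188))))))) (XT.nd (nat_lit 38532) (nat_lit 0) (nat_lit 3724) (XT.nd (nat_lit 38142) (nat_lit 0) (nat_lit 5624) (XT.nd (nat_lit 156) (nat_lit 0) (nat_lit 0) (XT.nd (nat_lit 78) (nat_lit 0) (nat_lit 0) (XT.lf (nat_lit 0) (nat_lit 2417043262055) (nat_lit 152) (nat_lit 548005125283) (nat_lit 0) (nat_lit 2405679950243) (nat_lit 1) (nat_lit 5) (nat_lit 3)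 (nat_lit 4) (nat_lit 1) (nat_lit 4) (nat_lit 413) (nat_lit 300) (nat_lit 187)) (XT.lf (nat_lit 0) (nat_lit 2622901213894) (nat_lit 152) (nat_lit 564873677344) (nat_lit 0) (nat_lit 2611537761361) (nat_lit 1) (nat_lit 5) (nat_lit 3) (nat_lit 4) (nat_lit 1) (nat_lit 4) (nat_lit 414) (nat_lit 300) (nat_lit 186))) (XT.nd (nat_lit 78) (nat_lit 0) (nat_lit 0) (XT.lf (nat_lit 0) (nat_lit 2845227482355) (nat_lit 152) (nat_lit 583092356543) (nat_lit 0) (nat_lit 2833863899524) (nat_lit 1) (nat_lit 5) (nat_lit 3) (nat_lit 4) (nat_lit 1) (nat_lit 4) (nat_lit 415) (nat_lit 300) (nat_lit 185)) (XT.lf (nat_lit 0) (nat_lit 3085339556434) (nat_lit 152) (nat_lit 602769125422) (nat_lit 0) (nat_lit 3073975852958) (nat_lit 1) (nat_lit 5) (nat_lit 3) (nat_lit 4) (nat_lit 1) (nat_lit 4) (nat_lit 416) (nat_lit 300) (nat_lit 184)))) (XT.nd (nat_lit 156) (nat_lit 228) (nat_lit 0) (XT.nd (nat_lit 78) (nat_lit 228)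 (nat_lit 0) (XT.lf (nat_lit 0) (nat_lit 1481524352) (nat_lit 0) (nat_lit 1481524352) (nat_lit 76) (nat_lit 270941247) (nat_lit 81) (nat_lit 5) (nat_lit 81) (nat_lit 3) (nat_lit 82) (nat_lit 0) (nat_lit 301) (nat_lit 301) (nat_lit 298)) (XT.lf (nat_lit 0) (nat_lit 2141763892) (nat_lit 228) (nat_lit 366091557) (nat_lit 228) (nat_lit 3999340113) (nat_lit 78) (nat_lit 3) (nat_lit 81) (nat_lit 3) (nat_lit 81) (nat_lit 5) (nat_lit 302) (nat_lit 301) (nat_lit 297))) (XT.nd (nat_lit 78) (nat_lit 228) (nat_lit 0) (XT.lf (nat_lit 76) (nat_lit 3015681390) (nat_lit 0) (nat_lit 1799830285) (nat_lit 228) (nat_lit 1749178023) (nat_lit 79) (nat_lit 5) (nat_lit 78) (nat_lit 3) (nat_lit 81) (nat_lit 5) (nat_lit 303) (nat_lit 301) (nat_lit 296)) (XT.nd (nat_lit 78) (nat_lit 0) (nat_lit 76) (XT.lf (nat_lit 0) (nat_lit 774306614) (nat_lit 228) (nat_lit 118761462) (nat_lit 304) (nat_lit 5752052763) (nat_lit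 75) (nat_lit 5) (nat_lit 78) (nat_lit 3) (nat_lit 79) (nat_lit 5) (nat_lit 304) (nat_lit 301) (nat_lit 295)) (XT.lf (nat_lit 0) (nat_lit 3259592999) (nat_lit 228) (nat_lit 3173518159) (nat_lit 76) (nat_lit 307396416) (nat_lit 76) (nat_lit 5) (nat_lit 79) (nat_lit 5) (nat_lit 77) (nat_lit 5) (nat_lit 305) (nat_lit 301) (nat_lit 294)))))) (XT.nd (nat_lit 312) (nat_lit 1368) (nat_lit 0) (XT.nd (nat_lit 156) (nat_lit 304) (nat_lit 0) (XT.nd (nat_lit 78) (nat_lit 76) (nat_lit 0) (XT.lf (nat_lit 0) (nat_lit 554761608) (nat_lit 228) (nat_lit 5205856773) (nat_lit 304) (nat_lit 1098025504) (nat_lit 73) (nat_lit 5) (nat_lit 76) (nat_lit 5) (nat_lit 77) (nat_lit 5) (nat_lit 306) (nat_lit 301) (nat_lit 293)) (XT.lf (nat_lit 0) (nat_lit 1274624593) (nat_lit 304) (nat_lit 2423754609) (nat_lit 76) (nat_lit 3295582435) (nat_lit 72) (nat_lit 5) (nat_lit 76) (nat_lit 5) (nat_lit 73) (nat_lit 5) (nat_lit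 307) (nat_lit 301) (nat_lit 292))) (XT.nd (nat_lit 78) (nat_lit 0) (nat_lit 0) (XT.lf (nat_lit 0) (nat_lit 1665552881) (nat_lit 304) (nat_lit 1952191427) (nat_lit 380) (nat_lit 3533255159) (nat_lit 68) (nat_lit 5) (nat_lit 72) (nat_lit 5) (nat_lit 73) (nat_lit 5) (nat_lit 308) (nat_lit 301) (nat_lit 291)) (XT.lf (nat_lit 0) (nat_lit 6026681795) (nat_lit 380) (nat_lit 1264003056) (nat_lit 76) (nat_lit 39992896) (nat_lit 68) (nat_lit 5) (nat_lit 73) (nat_lit 5) (nat_lit 69) (nat_lit 5) (nat_lit 309) (nat_lit 301) (nat_lit 290)))) (XT.nd (nat_lit 156) (nat_lit 456) (nat_lit 0) (XT.nd (nat_lit 78) (nat_lit 456) (nat_lit 0) (XT.lf (nat_lit 0) (nat_lit 1001714079) (nat_lit 456) (nat_lit 4302890874) (nat_lit 76) (nat_lit 2222034047) (nat_lit 62) (nat_lit 5) (nat_lit 68) (nat_lit 5) (nat_lit 63) (nat_lit 5) (nat_lit 310) (nat_lit 301) (nat_lit 289)) (XT.lf (nat_lit 0) (nat_lit 222034578) (nat_lit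 456) (nat_lit 3070770382) (nat_lit 532) (nat_lit 4453328058) (nat_lit 56) (nat_lit 5) (nat_lit 62) (nat_lit 5) (nat_lit 63) (nat_lit 5) (nat_lit 311) (nat_lit 301) (nat_lit 288))) (XT.nd (nat_lit 78) (nat_lit 456) (nat_lit 0) (XT.lf (nat_lit 0) (nat_lit 5196547385) (nat_lit 456) (nat_lit 527631686) (nat_lit 532) (nat_lit 2262702778) (nat_lit 56) (nat_lit 5) (nat_lit 62) (nat_lit 5) (nat_lit 63) (nat_lit 5) (nat_lit 312) (nat_lit 301) (nat_lit 287)) (XT.nd (nat_lit 78) (nat_lit 0) (nat_lit 0) (XT.lf (nat_lit 0) (nat_lit 54836908) (nat_lit 456) (nat_lit 6029626760) (nat_lit 76) (nat_lit 2165900968) (nat_lit 50) (nat_lit 5) (nat_lit 56) (nat_lit 5) (nat_lit 51) (nat_lit 5) (nat_lit 313) (nat_lit 301) (nat_lit 286)) (XT.lf (nat_lit 0) (nat_lit 2382277432) (nat_lit 456) (nat_lit 973446488) (nat_lit 76) (nat_lit 5178963414) (nat_lit 50) (nat_lit 5) (nat_lit 56) (nat_lit 5) (nat_lit 51) (nat_lit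 5) (nat_lit 314) (nat_lit 301) (nat_lit 285))))))))
noncomputable def xc99 : XT := (XT.nd (nat_lit 1404) (nat_lit 988) (nat_lit 0) (XT.nd (nat_lit 702) (nat_lit 760) (nat_lit 0) (XT.nd (nat_lit 312) (nat_lit 608) (nat_lit 0) (XT.nd (nat_lit 156) (nat_lit 228) (nat_lit 0) (XT.nd (nat_lit 78) (nat_lit 228) (nat_lit 0) (XT.lf (nat_lit 0) (nat_lit 4566056774) (nat_lit 228) (nat_lit 305191817) (nat_lit 304) (nat_lit 3972667835) (nat_lit 47) (nat_lit 5) (nat_lit 50) (nat_lit 5) (nat_lit 51) (nat_lit 5) (nat_lit 315) (nat_lit 301) (nat_lit 284)) (XT.lf (nat_lit 0) (nat_lit 1263142863) (nat_lit 228) (nat_lit 6297324093) (nat_lit 304) (nat_lit 1617500053) (nat_lit 44) (nat_lit 5) (nat_lit 47) (nat_lit 5) (nat_lit 48) (nat_lit 5) (nat_lit 316) (nat_lit 301) (nat_lit 283))) (XT.nd (nat_lit 78) (nat_lit 152) (nat_lit 0) (XT.lf (nat_lit 0) (nat_lit 881759639) (nat_lit 304) (nat_lit 2230531511) (nat_lit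 76) (nat_lit 6424657094) (nat_lit 43) (nat_lit 5) (nat_lit 47) (nat_lit 5) (nat_lit 44) (nat_lit 5) (nat_lit 317) (nat_lit 301) (nat_lit 282)) (XT.lf (nat_lit 0) (nat_lit 3481830409) (nat_lit 228) (nat_lit 6018416569) (nat_lit 76) (nat_lit 422117124) (nat_lit 41) (nat_lit 5) (nat_lit 44) (nat_lit 5) (nat_lit 42) (nat_lit 5) (nat_lit 318) (nat_lit 301) (nat_lit 281)))) (XT.nd (nat_lit 156) (nat_lit 380) (nat_lit 0) (XT.nd (nat_lit 78) (nat_lit 0) (nat_lit 0) (XT.lf (nat_lit 0) (nat_lit 93108660) (nat_lit 228) (nat_lit 6230280514) (nat_lit 304) (nat_lit 4012673015) (nat_lit 38) (nat_lit 5) (nat_lit 41) (nat_lit 5) (nat_lit 42) (nat_lit 5) (nat_lit 319) (nat_lit 301) (nat_lit 280)) (XT.lf (nat_lit 0) (nat_lit 6888233117) (nat_lit 228) (nat_lit 2561186229) (nat_lit 304) (nat_lit 1328983140) (nat_lit 38) (nat_lit 5) (nat_lit 41) (nat_lit 5) (nat_lit 42) (nat_lit 5) (nat_lit 320) (nat_lit 301)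 (nat_lit 279))) (XT.nd (nat_lit 78) (nat_lit 152) (nat_lit 0) (XT.lf (nat_lit 0) (nat_lit 1494970766) (nat_lit 228) (nat_lit 8353370559) (nat_lit 76) (nat_lit 1404544265) (nat_lit 35) (nat_lit 5) (nat_lit 38) (nat_lit 5) (nat_lit 36) (nat_lit 5) (nat_lit 321) (nat_lit 301) (nat_lit 278)) (XT.nd (nat_lit 78) (nat_lit 152) (nat_lit 0) (XT.lf (nat_lit 0) (nat_lit 4549810590) (nat_lit 228) (nat_lit 1552505076) (nat_lit 76) (nat_lit 5654202366) (nat_lit 35) (nat_lit 5) (nat_lit 38) (nat_lit 5) (nat_lit 36) (nat_lit 5) (nat_lit 322) (nat_lit 301) (nat_lit 277)) (XT.lf (nat_lit 0) (nat_lit 5955639711) (nat_lit 152) (nat_lit 1945073820) (nat_lit 228) (nat_lit 4395680271) (nat_lit 33) (nat_lit 5) (nat_lit 35) (nat_lit 5) (nat_lit 36) (nat_lit 5) (nat_lit 323) (nat_lit 301) (nat_lit 276)))))) (XT.nd (nat_lit 312) (nat_lit 380) (nat_lit 0) (XT.nd (nat_lit 156) (nat_lit 152) (nat_lit 0) (XT.nd (nat_lit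 78) (nat_lit 76) (nat_lit 0) (XT.lf (nat_lit 0) (nat_lit 1133696354) (nat_lit 152) (nat_lit 10429033522) (nat_lit 228) (nat_lit 1313366840) (nat_lit 31) (nat_lit 5) (nat_lit 33) (nat_lit 5) (nat_lit 34) (nat_lit 4) (nat_lit 324) (nat_lit 301) (nat_lit 275)) (XT.lf (nat_lit 0) (nat_lit 2055198569) (nat_lit 228) (nat_lit 4163693627) (nat_lit 76) (nat_lit 7268235332) (nat_lit 30) (nat_lit 5) (nat_lit 33) (nat_lit 5) (nat_lit 31) (nat_lit 5) (nat_lit 325) (nat_lit 301) (nat_lit 274))) (XT.nd (nat_lit 78) (nat_lit 0) (nat_lit 0) (XT.lf (nat_lit 0) (nat_lit 4062067410) (nat_lit 152) (nat_lit 1576529866) (nat_lit 228) (nat_lit 8504473944) (nat_lit 28) (nat_lit 5) (nat_lit 30) (nat_lit 5) (nat_lit 31) (nat_lit 5) (nat_lit 326) (nat_lit 301) (nat_lit 273)) (XT.lf (nat_lit 0) (nat_lit 9628641178) (nat_lit 228) (nat_lit 1875609032) (nat_lit 76) (nat_lit 3337701409) (nat_lit 28) (nat_lit 5) (nat_lit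 31) (nat_lit 5) (nat_lit 29) (nat_lit 4) (nat_lit 327) (nat_lit 301) (nat_lit 272)))) (XT.nd (nat_lit 156) (nat_lit 76) (nat_lit 0) (XT.nd (nat_lit 78) (nat_lit 228) (nat_lit 0) (XT.lf (nat_lit 0) (nat_lit 7184006301) (nat_lit 76) (nat_lit 6894003240) (nat_lit 152) (nat_lit 1507577937) (nat_lit 27) (nat_lit 5) (nat_lit 28) (nat_lit 5) (nat_lit 29) (nat_lit 4) (nat_lit 328) (nat_lit 301) (nat_lit 271)) (XT.lf (nat_lit 0) (nat_lit 534386056) (nat_lit 152) (nat_lit 1828032078) (nat_lit 228) (nat_lit 14022135680) (nat_lit 24) (nat_lit 5) (nat_lit 26) (nat_lit 5) (nat_lit 27) (nat_lit 5) (nat_lit 329) (nat_lit 301) (nat_lit 270))) (XT.nd (nat_lit 78) (nat_lit 76) (nat_lit 0) (XT.lf (nat_lit 0) (nat_lit 6712389303) (nat_lit 228) (nat_lit 6821671484) (nat_lit 76) (nat_lit 3690141563) (nat_lit 24) (nat_lit 5) (nat_lit 27) (nat_lit 5) (nat_lit 25) (nat_lit 4) (nat_lit 330) (nat_lit 301) (nat_lit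 269)) (XT.nd (nat_lit 78) (nat_lit 0) (nat_lit 0) (XT.lf (nat_lit 0) (nat_lit 2913572511) (nat_lit 76) (nat_lit 8548156649) (nat_lit 152) (nat_lit 6665224138) (nat_lit 23) (nat_lit 5) (nat_lit 24) (nat_lit 5) (nat_lit 25) (nat_lit 4) (nat_lit 331) (nat_lit 301) (nat_lit 268)) (XT.lf (nat_lit 0) (nat_lit 13704672198) (nat_lit 76) (nat_lit 3008913518) (nat_lit 152) (nat_lit 2378570274) (nat_lit 23) (nat_lit 5) (nat_lit 24) (nat_lit 5) (nat_lit 25) (nat_lit 4) (nat_lit 332) (nat_lit 301) (nat_lit 267))))))) (XT.nd (nat_lit 702) (nat_lit 380) (nat_lit 0) (XT.nd (nat_lit 312) (nat_lit 304) (nat_lit 0) (XT.nd (nat_lit 156) (nat_lit 76) (nat_lit 0) (XT.nd (nat_lit 78) (nat_lit 0) (nat_lit 0) (XT.lf (nat_lit 0) (nat_lit 2281005446) (nat_lit 228) (nat_lit 14868947399) (nat_lit 76) (nat_lit 2968915455) (nat_lit 20) (nat_lit 5) (nat_lit 23) (nat_lit 5) (nat_lit 21) (nat_lit 4) (nat_lit 333) (nat_lit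 301) (nat_lit 266)) (XT.lf (nat_lit 0) (nat_lit 7354293780) (nat_lit 228) (nat_lit 4421898379) (nat_lit 76) (nat_lit 9433056413) (nat_lit 20) (nat_lit 5) (nat_lit 23) (nat_lit 5) (nat_lit 21) (nat_lit 4) (nat_lit 334) (nat_lit 301) (nat_lit 265))) (XT.nd (nat_lit 78) (nat_lit 0) (nat_lit 0) (XT.lf (nat_lit 0) (nat_lit 7117991533) (nat_lit 76) (nat_lit 5831241627) (nat_lit 152) (nat_lit 9428390435) (nat_lit 19) (nat_lit 5) (nat_lit 20) (nat_lit 5) (nat_lit 21) (nat_lit 4) (nat_lit 335) (nat_lit 301) (nat_lit 264)) (XT.lf (nat_lit 0) (nat_lit 19075335581) (nat_lit 152) (nat_lit 3914330873) (nat_lit 0) (nat_lit 643142070) (nat_lit 19) (nat_lit 5) (nat_lit 21) (nat_lit 4) (nat_lit 19) (nat_lit 4) (nat_lit 336) (nat_lit 301) (nat_lit 263)))) (XT.nd (nat_lit 156) (nat_lit 152) (nat_lit 0) (XT.nd (nat_lit 78) (nat_lit 0) (nat_lit 0) (XT.lf (nat_lit 0) (nat_lit 981656973) (nat_lit 152) (nat_lit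 16467812329) (nat_lit 76) (nat_lit 7512510922) (nat_lit 17) (nat_lit 5) (nat_lit 19) (nat_lit 5) (nat_lit 18) (nat_lit 4) (nat_lit 337) (nat_lit 301) (nat_lit 262)) (XT.lf (nat_lit 0) (nat_lit 6777188998) (nat_lit 152) (nat_lit 4484832869) (nat_lit 76) (nat_lit 15121254345) (nat_lit 17) (nat_lit 5) (nat_lit 19) (nat_lit 5) (nat_lit 18) (nat_lit 4) (nat_lit 338) (nat_lit 301) (nat_lit 261))) (XT.nd (nat_lit 78) (nat_lit 76) (nat_lit 0) (XT.lf (nat_lit 0) (nat_lit 8811739946) (nat_lit 76) (nat_lit 4389961957) (nat_lit 152) (nat_lit 14703365533) (nat_lit 16) (nat_lit 5) (nat_lit 17) (nat_lit 5) (nat_lit 18) (nat_lit 4) (nat_lit 339) (nat_lit 301) (nat_lit 260)) (XT.nd (nat_lit 78) (nat_lit 76) (nat_lit 0) (XT.lf (nat_lit 0) (nat_lit 20292828154) (nat_lit 152) (nat_lit 6274171529) (nat_lit 0) (nat_lit 2969407335) (nat_lit 16) (nat_lit 5) (nat_lit 18) (nat_lit 4) (nat_lit 16) (nat_lit 4) (nat_lit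 340) (nat_lit 301) (nat_lit 259)) (XT.lf (nat_lit 0) (nat_lit 7764951187) (nat_lit 76) (nat_lit 20444405975) (nat_lit 76) (nat_lit 3068263559) (nat_lit 15) (nat_lit 4) (nat_lit 16) (nat_lit 5) (nat_lit 16) (nat_lit 4) (nat_lit 341) (nat_lit 301) (nat_lit 258)))))) (XT.nd (nat_lit 312) (nat_lit 228) (nat_lit 0) (XT.nd (nat_lit 156) (nat_lit 0) (nat_lit 0) (XT.nd (nat_lit 78) (nat_lit 76) (nat_lit 0) (XT.lf (nat_lit 0) (nat_lit 3554476217) (nat_lit 152) (nat_lit 10031648176) (nat_lit 76) (nat_lit 19554409160) (nat_lit 14) (nat_lit 5) (nat_lit 16) (nat_lit 5) (nat_lit 15) (nat_lit 4) (nat_lit 342) (nat_lit 301) (nat_lit 257)) (XT.lf (nat_lit 0) (nat_lit 4604222247) (nat_lit 76) (nat_lit 6008461035) (nat_lit 152) (nat_lit 24527720072) (nat_lit 13) (nat_lit 5) (nat_lit 14) (nat_lit 5) (nat_lit 15) (nat_lit 4) (nat_lit 343) (nat_lit 301) (nat_lit 256))) (XT.nd (nat_lit 78) (nat_lit 0) (nat_lit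 0) (XT.lf (nat_lit 0) (nat_lit 18530303735) (nat_lit 152) (nat_lit 16430911539) (nat_lit 0) (nat_lit 2315478655) (nat_lit 13) (nat_lit 5) (nat_lit 15) (nat_lit 4) (nat_lit 13) (nat_lit 4) (nat_lit 344) (nat_lit 301) (nat_lit 255)) (XT.lf (nat_lit 0) (nat_lit 27201315111) (nat_lit 152) (nat_lit 1422376404) (nat_lit 0) (nat_lit 10950608599) (nat_lit 13) (nat_lit 5) (nat_lit 15) (nat_lit 4) (nat_lit 13) (nat_lit 4) (nat_lit 345) (nat_lit 301) (nat_lit 254)))) (XT.nd (nat_lit 156) (nat_lit 76) (nat_lit 0) (XT.nd (nat_lit 78) (nat_lit 76) (nat_lit 0) (XT.lf (nat_lit 0) (nat_lit 15498147502) (nat_lit 76) (nat_lit 21407180868) (nat_lit 76) (nat_lit 5123250807) (nat_lit 12) (nat_lit 4) (nat_lit 13) (nat_lit 5) (nat_lit 13) (nat_lit 4) (nat_lit 346) (nat_lit 301) (nat_lit 253)) (XT.lf (nat_lit 0) (nat_lit 2577688376) (nat_lit 152) (nat_lit 10953100784) (nat_lit 76) (nat_lit 31142683638) (nat_lit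 11) (nat_lit 5) (nat_lit 13) (nat_lit 5) (nat_lit 12) (nat_lit 4) (nat_lit 347) (nat_lit 301) (nat_lit 252))) (XT.nd (nat_lit 78) (nat_lit 0) (nat_lit 0) (XT.lf (nat_lit 0) (nat_lit 5976970790) (nat_lit 76) (nat_lit 4753869226) (nat_lit 152) (nat_lit 36779446089) (nat_lit 10) (nat_lit 5) (nat_lit 11) (nat_lit 5) (nat_lit 12) (nat_lit 4) (nat_lit 348) (nat_lit 301) (nat_lit 251)) (XT.nd (nat_lit 78) (nat_lit 0) (nat_lit 0) (XT.lf (nat_lit 0) (nat_lit 19926540064) (nat_lit 152) (nat_lit 25846739126) (nat_lit 0) (nat_lit 4769548981) (nat_lit 10) (nat_lit 5) (nat_lit 12) (nat_lit 4) (nat_lit 10) (nat_lit 4) (nat_lit 349) (nat_lit 301) (nat_lit 250)) (XT.lf (nat_lit 0) (nat_lit 29953039148) (nat_lit 152) (nat_lit 9083893182) (nat_lit 0) (nat_lit 14773436676) (nat_lit 10) (nat_lit 5) (nat_lit 12) (nat_lit 4) (nat_lit 10) (nat_lit 4) (nat_lit 350) (nat_lit 301) (nat_lit 249))))))))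
noncomputable def xc100 : XT := (XT.nd (nat_lit 1404) (nat_lit 228) (nat_lit 0) (XT.nd (nat_lit 702) (nat_lit 152) (nat_lit 0) (XT.nd (nat_lit 312) (nat_lit 76) (nat_lit 0) (XT.nd (nat_lit 156) (nat_lit 152) (nat_lit 0) (XT.nd (nat_lit 78) (nat_lit 0) (nat_lit 0) (XT.lf (nat_lit 0) (nat_lit 9441174344) (nat_lit 76) (nat_lit 31541309017) (nat_lit 76) (nat_lit 16340770073) (nat_lit 9) (nat_lit 4) (nat_lit 10) (nat_lit 5) (nat_lit 10) (nat_lit 4) (nat_lit 351) (nat_lit 301) (nat_lit 248)) (XT.lf (nat_lit 0) (nat_lit 29915057925) (nat_lit 76) (nat_lit 23202105358) (nat_lit 76) (nat_lit 7982180792) (nat_lit 9) (nat_lit 4) (nat_lit 10) (nat_lit 5) (nat_lit 10) (nat_lit 4) (nat_lit 352) (nat_lit 301) (nat_lit 247))) (XT.nd (nat_lit 78) (nat_lit 76) (nat_lit 0) (XT.lf (nat_lit 0) (nat_lit 968596075) (nat_lit 152) (nat_lit 13223194379) (nat_lit 76) (nat_lit 50985663350) (nat_lit 8) (nat_lit 5)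 (nat_lit 10) (nat_lit 5) (nat_lit 9) (nat_lit 4) (nat_lit 353) (nat_lit 301) (nat_lit 246)) (XT.lf (nat_lit 0) (nat_lit 6235500703) (nat_lit 76) (nat_lit 4096227645) (nat_lit 152) (nat_lit 59223299207) (nat_lit 7) (nat_lit 5) (nat_lit 8) (nat_lit 5) (nat_lit 9) (nat_lit 4) (nat_lit 354) (nat_lit 301) (nat_lit 245)))) (XT.nd (nat_lit 156) (nat_lit 76) (nat_lit 0) (XT.nd (nat_lit 78) (nat_lit 0) (nat_lit 0) (XT.lf (nat_lit 0) (nat_lit 20956258107) (nat_lit 152) (nat_lit 46468088288) (nat_lit 0) (nat_lit 6817477372) (nat_lit 7) (nat_lit 5) (nat_lit 9) (nat_lit 4) (nat_lit 7) (nat_lit 4) (nat_lit 355) (nat_lit 301) (nat_lit 244)) (XT.lf (nat_lit 0) (nat_lit 32516499941) (nat_lit 152) (nat_lit 28415682080) (nat_lit 0) (nat_lit 18364525678) (nat_lit 7) (nat_lit 5) (nat_lit 9) (nat_lit 4) (nat_lit 7) (nat_lit 4) (nat_lit 356) (nat_lit 301) (nat_lit 243))) (XT.nd (nat_lit 78) (nat_lit 76) (nat_lit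 0) (XT.lf (nat_lit 0) (nat_lit 44982444614) (nat_lit 152) (nat_lit 8956816632) (nat_lit 0) (nat_lit 30818254120) (nat_lit 7) (nat_lit 5) (nat_lit 9) (nat_lit 4) (nat_lit 7) (nat_lit 4) (nat_lit 357) (nat_lit 301) (nat_lit 242)) (XT.nd (nat_lit 78) (nat_lit 0) (nat_lit 0) (XT.lf (nat_lit 0) (nat_lit 12656972896) (nat_lit 76) (nat_lit 46075391995) (nat_lit 76) (nat_lit 31899890177) (nat_lit 6) (nat_lit 4) (nat_lit 7) (nat_lit 5) (nat_lit 7) (nat_lit 4) (nat_lit 358) (nat_lit 301) (nat_lit 241)) (XT.lf (nat_lit 0) (nat_lit 36475193997) (nat_lit 76) (nat_lit 37334771717) (nat_lit 76) (nat_lit 23148796452) (nat_lit 6) (nat_lit 4) (nat_lit 7) (nat_lit 5) (nat_lit 7) (nat_lit 4) (nat_lit 359) (nat_lit 301) (nat_lit 240)))))) (XT.nd (nat_lit 312) (nat_lit 0) (nat_lit 0) (XT.nd (nat_lit 156) (nat_lit 152) (nat_lit 0) (XT.nd (nat_lit 78) (nat_lit 0) (nat_lit 0) (XT.lf (nat_lit 0) (nat_lit 62167341591)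 (nat_lit 76) (nat_lit 27910499385) (nat_lit 76) (nat_lit 13714826482) (nat_lit 6) (nat_lit 4) (nat_lit 7) (nat_lit 5) (nat_lit 7) (nat_lit 4) (nat_lit 360) (nat_lit 301) (nat_lit 239)) (XT.lf (nat_lit 0) (nat_lit 89885665444) (nat_lit 76) (nat_lit 17746727457) (nat_lit 76) (nat_lit 3542075260) (nat_lit 6) (nat_lit 4) (nat_lit 7) (nat_lit 5) (nat_lit 7) (nat_lit 4) (nat_lit 361) (nat_lit 301) (nat_lit 238))) (XT.nd (nat_lit 78) (nat_lit 0) (nat_lit 0) (XT.lf (nat_lit 0) (nat_lit 492463601) (nat_lit 76) (nat_lit 6577454648) (nat_lit 152) (nat_lit 112062747696) (nat_lit 4) (nat_lit 5) (nat_lit 5) (nat_lit 5) (nat_lit 6) (nat_lit 4) (nat_lit 362) (nat_lit 301) (nat_lit 237)) (XT.lf (nat_lit 0) (nat_lit 19054668955) (nat_lit 152) (nat_lit 102720892790) (nat_lit 0) (nat_lit 5887386867) (nat_lit 4) (nat_lit 5) (nat_lit 6) (nat_lit 4) (nat_lit 4) (nat_lit 4) (nat_lit 363) (nat_lit 301) (nat_lit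 236)))) (XT.nd (nat_lit 156) (nat_lit 0) (nat_lit 0) (XT.nd (nat_lit 78) (nat_lit 0) (nat_lit 0) (XT.lf (nat_lit 0) (nat_lit 32156122651) (nat_lit 152) (nat_lit 85724658889) (nat_lit 0) (nat_lit 18982240515) (nat_lit 4) (nat_lit 5) (nat_lit 6) (nat_lit 4) (nat_lit 4) (nat_lit 4) (nat_lit 364) (nat_lit 301) (nat_lit 235)) (XT.lf (nat_lit 0) (nat_lit 46293729641) (nat_lit 152) (nat_lit 67392594277) (nat_lit 0) (nat_lit 33113736348) (nat_lit 4) (nat_lit 5) (nat_lit 6) (nat_lit 4) (nat_lit 4) (nat_lit 4) (nat_lit 365) (nat_lit 301) (nat_lit 234))) (XT.nd (nat_lit 78) (nat_lit 0) (nat_lit 0) (XT.lf (nat_lit 0) (nat_lit 61551268335) (nat_lit 152) (nat_lit 47616064497) (nat_lit 0) (nat_lit 48365616563) (nat_lit 4) (nat_lit 5) (nat_lit 6) (nat_lit 4) (nat_lit 4) (nat_lit 4) (nat_lit 366) (nat_lit 301) (nat_lit 233)) (XT.nd (nat_lit 78) (nat_lit 0) (nat_lit 0) (XT.lf (nat_lit 0) (nat_lit 78019153778)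 (nat_lit 152) (nat_lit 26277875298) (nat_lit 0) (nat_lit 64828262674) (nat_lit 4) (nat_lit 5) (nat_lit 6) (nat_lit 4) (nat_lit 4) (nat_lit 4) (nat_lit 367) (nat_lit 301) (nat_lit 232)) (XT.lf (nat_lit 0) (nat_lit 95794973438) (nat_lit 152) (nat_lit 3251578151) (nat_lit 0) (nat_lit 82599231102) (nat_lit 4) (nat_lit 5) (nat_lit 6) (nat_lit 4) (nat_lit 4) (nat_lit 4) (nat_lit 368) (nat_lit 301) (nat_lit 231))))))) (XT.nd (nat_lit 702) (nat_lit 152) (nat_lit 0) (XT.nd (nat_lit 312) (nat_lit 0) (nat_lit 0) (XT.nd (nat_lit 156) (nat_lit 0) (nat_lit 0) (XT.nd (nat_lit 78) (nat_lit 0) (nat_lit 0) (XT.lf (nat_lit 0) (nat_lit 22736658832) (nat_lit 76) (nat_lit 92794223866) (nat_lit 76) (nat_lit 79593989647) (nat_lit 3) (nat_lit 4) (nat_lit 4) (nat_lit 5) (nat_lit 4) (nat_lit 4) (nat_lit 369) (nat_lit 301) (nat_lit 230)) (XT.lf (nat_lit 0) (nat_lit 50971775357) (nat_lit 76) (nat_lit 85954240188)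 (nat_lit 76) (nat_lit 72749846819) (nat_lit 3) (nat_lit 4) (nat_lit 4) (nat_lit 5) (nat_lit 4) (nat_lit 4) (nat_lit 370) (nat_lit 301) (nat_lit 229))) (XT.nd (nat_lit 78) (nat_lit 0) (nat_lit 0) (XT.lf (nat_lit 0) (nat_lit 81449868288) (nat_lit 76) (nat_lit 78574971229) (nat_lit 76) (nat_lit 65366726795) (nat_lit 3) (nat_lit 4) (nat_lit 4) (nat_lit 5) (nat_lit 4) (nat_lit 4) (nat_lit 371) (nat_lit 301) (nat_lit 228)) (XT.lf (nat_lit 0) (nat_lit 114351548547) (nat_lit 76) (nat_lit 70612687987) (nat_lit 76) (nat_lit 57400877751) (nat_lit 3) (nat_lit 4) (nat_lit 4) (nat_lit 5) (nat_lit 4) (nat_lit 4) (nat_lit 372) (nat_lit 301) (nat_lit 227)))) (XT.nd (nat_lit 156) (nat_lit 0) (nat_lit 0) (XT.nd (nat_lit 78) (nat_lit 0) (nat_lit 0) (XT.lf (nat_lit 0) (nat_lit 149871789053) (nat_lit 76) (nat_lit 62020206561) (nat_lit 76) (nat_lit 48805094658) (nat_lit 3) (nat_lit 4) (nat_lit 4) (nat_lit 5)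 (nat_lit 4) (nat_lit 4) (nat_lit 373) (nat_lit 301) (nat_lit 226)) (XT.lf (nat_lit 0) (nat_lit 188221080120) (nat_lit 76) (nat_lit 52746608543) (nat_lit 76) (nat_lit 39528439540) (nat_lit 3) (nat_lit 4) (nat_lit 4) (nat_lit 5) (nat_lit 4) (nat_lit 4) (nat_lit 374) (nat_lit 301) (nat_lit 225))) (XT.nd (nat_lit 78) (nat_lit 0) (nat_lit 0) (XT.lf (nat_lit 0) (nat_lit 229626676808) (nat_lit 76) (nat_lit 42736939278) (nat_lit 76) (nat_lit 29515939627) (nat_lit 3) (nat_lit 4) (nat_lit 4) (nat_lit 5) (nat_lit 4) (nat_lit 4) (nat_lit 375) (nat_lit 301) (nat_lit 224)) (XT.nd (nat_lit 78) (nat_lit 0) (nat_lit 0) (XT.lf (nat_lit 0) (nat_lit 274333945614) (nat_lit 76) (nat_lit 31931882207) (nat_lit 76) (nat_lit 18708261586) (nat_lit 3) (nat_lit 4) (nat_lit 4) (nat_lit 5) (nat_lit 4) (nat_lit 4) (nat_lit 376) (nat_lit 301) (nat_lit 223)) (XT.lf (nat_lit 0) (nat_lit 322607818502) (nat_lit 76) (nat_lit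 20267407363) (nat_lit 76) (nat_lit 7041359917) (nat_lit 3) (nat_lit 4) (nat_lit 4) (nat_lit 5) (nat_lit 4) (nat_lit 4) (nat_lit 377) (nat_lit 301) (nat_lit 222)))))) (XT.nd (nat_lit 312) (nat_lit 0) (nat_lit 0) (XT.nd (nat_lit 156) (nat_lit 0) (nat_lit 0) (XT.nd (nat_lit 78) (nat_lit 76) (nat_lit 0) (XT.lf (nat_lit 0) (nat_lit 5276073873) (nat_lit 152) (nat_lit 2254060848) (nat_lit 76) (nat_lit 369314031783) (nat_lit 2) (nat_lit 5) (nat_lit 4) (nat_lit 5) (nat_lit 3) (nat_lit 4) (nat_lit 378) (nat_lit 301) (nat_lit 221)) (XT.lf (nat_lit 0) (nat_lit 18987786350) (nat_lit 152) (nat_lit 380122953474) (nat_lit 0) (nat_lit 6737439021) (nat_lit 1) (nat_lit 5) (nat_lit 3) (nat_lit 4) (nat_lit 1) (nat_lit 4) (nat_lit 379) (nat_lit 301) (nat_lit 220))) (XT.nd (nat_lit 78) (nat_lit 0) (nat_lit 0) (XT.lf (nat_lit 0) (nat_lit 34050880181) (nat_lit 152) (nat_lit 381302527922) (nat_lit 0) (nat_lit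 21798749063) (nat_lit 1) (nat_lit 5) (nat_lit 3) (nat_lit 4) (nat_lit 1) (nat_lit 4) (nat_lit 380) (nat_lit 301) (nat_lit 219)) (XT.lf (nat_lit 0) (nat_lit 50314971187) (nat_lit 152) (nat_lit 382584618680) (nat_lit 0) (nat_lit 38061188414) (nat_lit 1) (nat_lit 5) (nat_lit 3) (nat_lit 4) (nat_lit 1) (nat_lit 4) (nat_lit 381) (nat_lit 301) (nat_lit 218)))) (XT.nd (nat_lit 156) (nat_lit 0) (nat_lit 0) (XT.nd (nat_lit 78) (nat_lit 0) (nat_lit 0) (XT.lf (nat_lit 0) (nat_lit 67876439167) (nat_lit 152) (nat_lit 383976823322) (nat_lit 0) (nat_lit 55621127082) (nat_lit 1) (nat_lit 5) (nat_lit 3) (nat_lit 4) (nat_lit 1) (nat_lit 4) (nat_lit 382) (nat_lit 301) (nat_lit 217)) (XT.lf (nat_lit 0) (nat_lit 86839352079) (nat_lit 152) (nat_lit 385487391949) (nat_lit 0) (nat_lit 74582623966) (nat_lit 1) (nat_lit 5) (nat_lit 3) (nat_lit 4) (nat_lit 1) (nat_lit 4) (nat_lit 383) (nat_lit 301) (nat_lit 216)))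 (XT.nd (nat_lit 78) (nat_lit 0) (nat_lit 0) (XT.lf (nat_lit 0) (nat_lit 107316082740) (nat_lit 152) (nat_lit 387125276080) (nat_lit 0) (nat_lit 95058043490) (nat_lit 1) (nat_lit 5) (nat_lit 3) (nat_lit 4) (nat_lit 1) (nat_lit 4) (nat_lit 384) (nat_lit 301) (nat_lit 215)) (XT.nd (nat_lit 78) (nat_lit 0) (nat_lit 0) (XT.lf (nat_lit 0) (nat_lit 129427974741) (nat_lit 152) (nat_lit 388900181695) (nat_lit 0) (nat_lit 117168721473) (nat_lit 1) (nat_lit 5) (nat_lit 3) (nat_lit 4) (nat_lit 1) (nat_lit 4) (nat_lit 385) (nat_lit 301) (nat_lit 214)) (XT.lf (nat_lit 0) (nat_lit 153306061513) (nat_lit 152) (nat_lit 390822626753) (nat_lit 0) (nat_lit 141045684157) (nat_lit 1) (nat_lit 5) (nat_lit 3) (nat_lit 4) (nat_lit 1) (nat_lit 4) (nat_lit 386) (nat_lit 301) (nat_lit 213))))))))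
noncomputable def xc101 : XT := (XT.nd (nat_lit 1404) (nat_lit 0) (nat_lit 0) (XT.nd (nat_lit 702) (nat_lit 0) (nat_lit 0) (XT.nd (nat_lit 312) (nat_lit 0) (nat_lit 0) (XT.nd (nat_lit 156) (nat_lit 0) (nat_lit 0) (XT.nd (nat_lit 78) (nat_lit 0) (nat_lit 0) (XT.lf (nat_lit 0) (nat_lit 179091842832) (nat_lit 152) (nat_lit 392904003520) (nat_lit 0) (nat_lit 166830424652) (nat_lit 1) (nat_lit 5) (nat_lit 3) (nat_lit 4) (nat_lit 1) (nat_lit 4) (nat_lit 387) (nat_lit 301) (nat_lit 212)) (XT.lf (nat_lit 0) (nat_lit 206938123327) (nat_lit 152) (nat_lit 395156646082) (nat_lit 0) (nat_lit 194675741422) (nat_lit 1) (nat_lit 5) (nat_lit 3) (nat_lit 4) (nat_lit 1) (nat_lit 4) (nat_lit 388) (nat_lit 301) (nat_lit 211))) (XT.nd (nat_lit 78) (nat_lit 0) (nat_lit 0) (XT.lf (nat_lit 0) (nat_lit 237009917994) (nat_lit 152) (nat_lit 397593903431) (nat_lit 0) (nat_lit 224746643751) (nat_lit 1) (nat_lit 5)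 (nat_lit 3) (nat_lit 4) (nat_lit 1) (nat_lit 4) (nat_lit 389) (nat_lit 301) (nat_lit 210)) (XT.lf (nat_lit 0) (nat_lit 269485430060) (nat_lit 152) (nat_lit 400230218574) (nat_lit 0) (nat_lit 257221329578) (nat_lit 1) (nat_lit 5) (nat_lit 3) (nat_lit 4) (nat_lit 1) (nat_lit 4) (nat_lit 390) (nat_lit 301) (nat_lit 209)))) (XT.nd (nat_lit 156) (nat_lit 0) (nat_lit 0) (XT.nd (nat_lit 78) (nat_lit 0) (nat_lit 0) (XT.lf (nat_lit 0) (nat_lit 304557107004) (nat_lit 152) (nat_lit 403081214120) (nat_lit 0) (nat_lit 292292241486) (nat_lit 1) (nat_lit 5) (nat_lit 3) (nat_lit 4) (nat_lit 1) (nat_lit 4) (nat_lit 391) (nat_lit 301) (nat_lit 208)) (XT.lf (nat_lit 0) (nat_lit 342432780987) (nat_lit 152) (nat_lit 406163784856) (nat_lit 0) (nat_lit 330167207101) (nat_lit 1) (nat_lit 5) (nat_lit 3) (nat_lit 4) (nat_lit 1) (nat_lit 4) (nat_lit 392) (nat_lit 301) (nat_lit 207))) (XT.nd (nat_lit 78) (nat_lit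 0) (nat_lit 0) (XT.lf (nat_lit 0) (nat_lit 383336900445) (nat_lit 152) (nat_lit 409496197868) (nat_lit 0) (nat_lit 371070670664) (nat_lit 1) (nat_lit 5) (nat_lit 3) (nat_lit 4) (nat_lit 1) (nat_lit 4) (nat_lit 393) (nat_lit 301) (nat_lit 206)) (XT.nd (nat_lit 78) (nat_lit 0) (nat_lit 0) (XT.lf (nat_lit 0) (nat_lit 427511860162) (nat_lit 152) (nat_lit 413098200789) (nat_lit 0) (nat_lit 415245023071) (nat_lit 1) (nat_lit 5) (nat_lit 3) (nat_lit 4) (nat_lit 1) (nat_lit 4) (nat_lit 394) (nat_lit 301) (nat_lit 205)) (XT.lf (nat_lit 0) (nat_lit 475219437677) (nat_lit 152) (nat_lit 416991138822) (nat_lit 0) (nat_lit 462952038261) (nat_lit 1) (nat_lit 5) (nat_lit 3) (nat_lit 4) (nat_lit 1) (nat_lit 4) (nat_lit 395) (nat_lit 301) (nat_lit 204)))))) (XT.nd (nat_lit 312) (nat_lit 0) (nat_lit 0) (XT.nd (nat_lit 156) (nat_lit 0) (nat_lit 0) (XT.nd (nat_lit 78) (nat_lit 0) (nat_lit 0) (XT.lf (nat_lit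 0) (nat_lit 526742344559) (nat_lit 152) (nat_lit 421198081229) (nat_lit 0) (nat_lit 514474424472) (nat_lit 1) (nat_lit 5) (nat_lit 3) (nat_lit 4) (nat_lit 1) (nat_lit 4) (nat_lit 396) (nat_lit 301) (nat_lit 203)) (XT.lf (nat_lit 0) (nat_lit 582385901738) (nat_lit 152) (nat_lit 425743958039) (nat_lit 0) (nat_lit 570117499549) (nat_lit 1) (nat_lit 5) (nat_lit 3) (nat_lit 4) (nat_lit 1) (nat_lit 4) (nat_lit 397) (nat_lit 301) (nat_lit 202))) (XT.nd (nat_lit 78) (nat_lit 0) (nat_lit 0) (XT.lf (nat_lit 0) (nat_lit 642479848814) (nat_lit 152) (nat_lit 430655707781) (nat_lit 0) (nat_lit 630211000233) (nat_lit 1) (nat_lit 5) (nat_lit 3) (nat_lit 4) (nat_lit 1) (nat_lit 4) (nat_lit 398) (nat_lit 301) (nat_lit 201)) (XT.lf (nat_lit 0) (nat_lit 707380298064) (nat_lit 152) (nat_lit 435962437121) (nat_lit 0) (nat_lit 695111036158) (nat_lit 1) (nat_lit 5) (nat_lit 3) (nat_lit 4) (nat_lit 1) (nat_lit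 4) (nat_lit 399) (nat_lit 301) (nat_lit 200)))) (XT.nd (nat_lit 156) (nat_lit 0) (nat_lit 0) (XT.nd (nat_lit 78) (nat_lit 0) (nat_lit 0) (XT.lf (nat_lit 0) (nat_lit 777471844743) (nat_lit 152) (nat_lit 441695593343) (nat_lit 0) (nat_lit 765202200128) (nat_lit 1) (nat_lit 5) (nat_lit 3) (nat_lit 4) (nat_lit 1) (nat_lit 4) (nat_lit 400) (nat_lit 301) (nat_lit 199)) (XT.lf (nat_lit 0) (nat_lit 853169846165) (nat_lit 152) (nat_lit 447889150706) (nat_lit 0) (nat_lit 840899847191) (nat_lit 1) (nat_lit 5) (nat_lit 3) (nat_lit 4) (nat_lit 1) (nat_lit 4) (nat_lit 401) (nat_lit 301) (nat_lit 198))) (XT.nd (nat_lit 78) (nat_lit 0) (nat_lit 0) (XT.lf (nat_lit 0) (nat_lit 934922883080) (nat_lit 152) (nat_lit 454579811774) (nat_lit 0) (nat_lit 922652555994) (nat_lit 1) (nat_lit 5) (nat_lit 3) (nat_lit 4) (nat_lit 1) (nat_lit 4) (nat_lit 402) (nat_lit 301) (nat_lit 197)) (XT.nd (nat_lit 78) (nat_lit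 0) (nat_lit 0) (XT.lf (nat_lit 0) (nat_lit 1023215417927) (nat_lit 152) (nat_lit 461807224906) (nat_lit 0) (nat_lit 1010944787036) (nat_lit 1) (nat_lit 5) (nat_lit 3) (nat_lit 4) (nat_lit 1) (nat_lit 4) (nat_lit 403) (nat_lit 301) (nat_lit 196)) (XT.lf (nat_lit 0) (nat_lit 1118570665730) (nat_lit 152) (nat_lit 469614219220) (nat_lit 0) (nat_lit 1106299753536) (nat_lit 1) (nat_lit 5) (nat_lit 3) (nat_lit 4) (nat_lit 1) (nat_lit 4) (nat_lit 404) (nat_lit 301) (nat_lit 195))))))) (XT.nd (nat_lit 702) (nat_lit 0) (nat_lit 0) (XT.nd (nat_lit 312) (nat_lit 0) (nat_lit 0) (XT.nd (nat_lit 156) (nat_lit 0) (nat_lit 0) (XT.nd (nat_lit 78) (nat_lit 0) (nat_lit 0) (XT.lf (nat_lit 0) (nat_lit 1221553694621) (nat_lit 152) (nat_lit 478047058383) (nat_lit 0) (nat_lit 1209282521963) (nat_lit 1) (nat_lit 5) (nat_lit 3) (nat_lit 4) (nat_lit 1) (nat_lit 4) (nat_lit 405) (nat_lit 301) (nat_lit 194)) (XT.lf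 (nat_lit 0) (nat_lit 1332774774404) (nat_lit 152) (nat_lit 487155714778) (nat_lit 0) (nat_lit 1320503360574) (nat_lit 1) (nat_lit 5) (nat_lit 3) (nat_lit 4) (nat_lit 1) (nat_lit 4) (nat_lit 406) (nat_lit 301) (nat_lit 193))) (XT.nd (nat_lit 78) (nat_lit 0) (nat_lit 0) (XT.lf (nat_lit 0) (nat_lit 1452892992957) (nat_lit 152) (nat_lit 496994165626) (nat_lit 0) (nat_lit 1440621355820) (nat_lit 1) (nat_lit 5) (nat_lit 3) (nat_lit 4) (nat_lit 1) (nat_lit 4) (nat_lit 407) (nat_lit 301) (nat_lit 192)) (XT.lf (nat_lit 0) (nat_lit 1582620161946) (nat_lit 152) (nat_lit 507620712858) (nat_lit 0) (nat_lit 1570348318043) (nat_lit 1) (nat_lit 5) (nat_lit 3) (nat_lit 4) (nat_lit 1) (nat_lit 4) (nat_lit 408) (nat_lit 301) (nat_lit 191)))) (XT.nd (nat_lit 156) (nat_lit 0) (nat_lit 0) (XT.nd (nat_lit 78) (nat_lit 0) (nat_lit 0) (XT.lf (nat_lit 0) (nat_lit 1722725034965) (nat_lit 152) (nat_lit 519098328607)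 (nat_lit 0) (nat_lit 1710452999613) (nat_lit 1) (nat_lit 5) (nat_lit 3) (nat_lit 4) (nat_lit 1) (nat_lit 4) (nat_lit 409) (nat_lit 301) (nat_lit 190)) (XT.lf (nat_lit 0) (nat_lit 1874037863114) (nat_lit 152) (nat_lit 531495028373) (nat_lit 0) (nat_lit 1861765650494) (nat_lit 1) (nat_lit 5) (nat_lit 3) (nat_lit 4) (nat_lit 1) (nat_lit 4) (nat_lit 410) (nat_lit 301) (nat_lit 189))) (XT.nd (nat_lit 78) (nat_lit 0) (nat_lit 0) (XT.lf (nat_lit 0) (nat_lit 2037455315004) (nat_lit 152) (nat_lit 544884274081) (nat_lit 0) (nat_lit 2025182938246) (nat_lit 1) (nat_lit 5) (nat_lit 3) (nat_lit 4) (nat_lit 1) (nat_lit 4) (nat_lit 411) (nat_lit 301) (nat_lit 188)) (XT.nd (nat_lit 78) (nat_lit 0) (nat_lit 0) (XT.lf (nat_lit 0) (nat_lit 2213945790349) (nat_lit 152) (nat_lit 559345409409) (nat_lit 0) (nat_lit 2201673261613) (nat_lit 1) (nat_lit 5) (nat_lit 3) (nat_lit 4) (nat_lit 1) (nat_lit 4) (nat_lit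 412) (nat_lit 301) (nat_lit 187)) (XT.lf (nat_lit 0) (nat_lit 2404555158634) (nat_lit 152) (nat_lit 574964129974) (nat_lit 0) (nat_lit 2392282489176) (nat_lit 1) (nat_lit 5) (nat_lit 3) (nat_lit 4) (nat_lit 1) (nat_lit 4) (nat_lit 413) (nat_lit 301) (nat_lit 186)))))) (XT.nd (nat_lit 38298) (nat_lit 0) (nat_lit 5092) (XT.nd (nat_lit 38142) (nat_lit 0) (nat_lit 5624) (XT.nd (nat_lit 78) (nat_lit 0) (nat_lit 0) (XT.lf (nat_lit 0) (nat_lit 2610412956855) (nat_lit 152) (nat_lit 591832991156) (nat_lit 0) (nat_lit 2598140157100) (nat_lit 1) (nat_lit 5) (nat_lit 3) (nat_lit 4) (nat_lit 1) (nat_lit 4) (nat_lit 414) (nat_lit 301) (nat_lit 185)) (XT.lf (nat_lit 0) (nat_lit 2832739083076) (nat_lit 152) (nat_lit 610051956578) (nat_lit 0) (nat_lit 2820466162675) (nat_lit 1) (nat_lit 5) (nat_lit 3) (nat_lit 4) (nat_lit 1) (nat_lit 4) (nat_lit 415) (nat_lit 301) (nat_lit 184))) (XT.nd (nat_lit 78) (nat_lit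 228) (nat_lit 0) (XT.lf (nat_lit 0) (nat_lit 2334766514) (nat_lit 228) (nat_lit 471611473) (nat_lit 228) (nat_lit 471611473) (nat_lit 78) (nat_lit 3) (nat_lit 81) (nat_lit 3) (nat_lit 81) (nat_lit 5) (nat_lit 302) (nat_lit 302) (nat_lit 296)) (XT.lf (nat_lit 0) (nat_lit 554033330) (nat_lit 228) (nat_lit 4298389716) (nat_lit 304) (nat_lit 1771051820) (nat_lit 75) (nat_lit 5) (nat_lit 78) (nat_lit 3) (nat_lit 79) (nat_lit 5) (nat_lit 303) (nat_lit 302) (nat_lit 295)))) (XT.nd (nat_lit 156) (nat_lit 532) (nat_lit 0) (XT.nd (nat_lit 78) (nat_lit 0) (nat_lit 0) (XT.lf (nat_lit 0) (nat_lit 2874946575) (nat_lit 228) (nat_lit 979409420) (nat_lit 304) (nat_lit 2855635262) (nat_lit 75) (nat_lit 5) (nat_lit 78) (nat_lit 3) (nat_lit 79) (nat_lit 5) (nat_lit 304) (nat_lit 302) (nat_lit 294)) (XT.lf (nat_lit 76) (nat_lit 2601979115) (nat_lit 0) (nat_lit 2620514313) (nat_lit 304) (nat_lit 1594130614)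 (nat_lit 76) (nat_lit 5) (nat_lit 75) (nat_lit 5) (nat_lit 79) (nat_lit 5) (nat_lit 305) (nat_lit 302) (nat_lit 293))) (XT.nd (nat_lit 78) (nat_lit 228) (nat_lit 0) (XT.lf (nat_lit 0) (nat_lit 598057002) (nat_lit 304) (nat_lit 566207939) (nat_lit 380) (nat_lit 5781271924) (nat_lit 71) (nat_lit 5) (nat_lit 75) (nat_lit 5) (nat_lit 76) (nat_lit 5) (nat_lit 306) (nat_lit 302) (nat_lit 292)) (XT.nd (nat_lit 78) (nat_lit 304) (nat_lit 0) (XT.lf (nat_lit 0) (nat_lit 2776881214) (nat_lit 304) (nat_lit 3735627449) (nat_lit 76) (nat_lit 577525317) (nat_lit 72) (nat_lit 5) (nat_lit 76) (nat_lit 5) (nat_lit 73) (nat_lit 5) (nat_lit 307) (nat_lit 302) (nat_lit 291)) (XT.lf (nat_lit 0) (nat_lit 211484780) (nat_lit 304) (nat_lit 4784480125) (nat_lit 380) (nat_lit 2261196556) (nat_lit 68) (nat_lit 5) (nat_lit 72) (nat_lit 5) (nat_lit 73) (nat_lit 5) (nat_lit 308) (nat_lit 302) (nat_lit 290))))))))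
noncomputable def xc102 : XT := (XT.nd (nat_lit 1404) (nat_lit 1292) (nat_lit 0) (XT.nd (nat_lit 702) (nat_lit 988) (nat_lit 0) (XT.nd (nat_lit 312) (nat_lit 988) (nat_lit 0) (XT.nd (nat_lit 156) (nat_lit 456) (nat_lit 0) (XT.nd (nat_lit 78) (nat_lit 456) (nat_lit 0) (XT.lf (nat_lit 0) (nat_lit 4546001584) (nat_lit 304) (nat_lit 2773791983) (nat_lit 380) (nat_lit 124009295) (nat_lit 68) (nat_lit 5) (nat_lit 72) (nat_lit 5) (nat_lit 73) (nat_lit 5) (nat_lit 309) (nat_lit 302) (nat_lit 289)) (XT.lf (nat_lit 0) (nat_lit 1463144927) (nat_lit 380) (nat_lit 480483824) (nat_lit 456) (nat_lit 5708320995) (nat_lit 62) (nat_lit 5) (nat_lit 67) (nat_lit 5) (nat_lit 68) (nat_lit 5) (nat_lit 310) (nat_lit 302) (nat_lit 288))) (XT.nd (nat_lit 78) (nat_lit 456) (nat_lit 0) (XT.lf (nat_lit 0) (nat_lit 4142403826) (nat_lit 456) (nat_lit 1735188637) (nat_lit 76) (nat_lit 2001359147) (nat_lit 62) (nat_lit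 5) (nat_lit 68) (nat_lit 5) (nat_lit 63) (nat_lit 5) (nat_lit 311) (nat_lit 302) (nat_lit 287)) (XT.lf (nat_lit 0) (nat_lit 3078011016) (nat_lit 456) (nat_lit 3380322468) (nat_lit 532) (nat_lit 1670716013) (nat_lit 56) (nat_lit 5) (nat_lit 62) (nat_lit 5) (nat_lit 63) (nat_lit 5) (nat_lit 312) (nat_lit 302) (nat_lit 286)))) (XT.nd (nat_lit 156) (nat_lit 532) (nat_lit 0) (XT.nd (nat_lit 78) (nat_lit 380) (nat_lit 0) (XT.lf (nat_lit 0) (nat_lit 439506169) (nat_lit 532) (nat_lit 177477002) (nat_lit 76) (nat_lit 7788723751) (nat_lit 55) (nat_lit 5) (nat_lit 62) (nat_lit 5) (nat_lit 56) (nat_lit 5) (nat_lit 313) (nat_lit 302) (nat_lit 285)) (XT.lf (nat_lit 0) (nat_lit 2682845373) (nat_lit 456) (nat_lit 3593668986) (nat_lit 76) (nat_lit 2420333468) (nat_lit 50) (nat_lit 5) (nat_lit 56) (nat_lit 5) (nat_lit 51) (nat_lit 5) (nat_lit 314) (nat_lit 302) (nat_lit 284))) (XT.nd (nat_lit 78) (nat_lit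 304) (nat_lit 0) (XT.lf (nat_lit 0) (nat_lit 1737763223) (nat_lit 228) (nat_lit 3306168829) (nat_lit 304) (nat_lit 3972459050) (nat_lit 47) (nat_lit 5) (nat_lit 50) (nat_lit 5) (nat_lit 51) (nat_lit 5) (nat_lit 315) (nat_lit 302) (nat_lit 283)) (XT.nd (nat_lit 78) (nat_lit 304) (nat_lit 0) (XT.lf (nat_lit 0) (nat_lit 7565087793) (nat_lit 228) (nat_lit 8534924) (nat_lit 304) (nat_lit 1789658431) (nat_lit 47) (nat_lit 5) (nat_lit 50) (nat_lit 5) (nat_lit 51) (nat_lit 5) (nat_lit 316) (nat_lit 302) (nat_lit 282)) (XT.lf (nat_lit 0) (nat_lit 615245582) (nat_lit 304) (nat_lit 5640596492) (nat_lit 76) (nat_lit 3475055186) (nat_lit 43) (nat_lit 5) (nat_lit 47) (nat_lit 5) (nat_lit 44) (nat_lit 5) (nat_lit 317) (nat_lit 302) (nat_lit 281)))))) (XT.nd (nat_lit 312) (nat_lit 532) (nat_lit 0) (XT.nd (nat_lit 156) (nat_lit 304) (nat_lit 0) (XT.nd (nat_lit 78) (nat_lit 0) (nat_lit 0) (XT.lf (nat_lit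 0) (nat_lit 257032475) (nat_lit 152) (nat_lit 2807707558) (nat_lit 228) (nat_lit 7063680512) (nat_lit 41) (nat_lit 5) (nat_lit 43) (nat_lit 5) (nat_lit 44) (nat_lit 5) (nat_lit 318) (nat_lit 302) (nat_lit 280)) (XT.lf (nat_lit 0) (nat_lit 5786602466) (nat_lit 228) (nat_lit 3764404767) (nat_lit 76) (nat_lit 1000743884) (nat_lit 41) (nat_lit 5) (nat_lit 44) (nat_lit 5) (nat_lit 42) (nat_lit 5) (nat_lit 319) (nat_lit 302) (nat_lit 279))) (XT.nd (nat_lit 78) (nat_lit 76) (nat_lit 0) (XT.lf (nat_lit 0) (nat_lit 2766789692) (nat_lit 228) (nat_lit 6002728405) (nat_lit 304) (nat_lit 2236075052) (nat_lit 38) (nat_lit 5) (nat_lit 41) (nat_lit 5) (nat_lit 42) (nat_lit 5) (nat_lit 320) (nat_lit 302) (nat_lit 278)) (XT.lf (nat_lit 0) (nat_lit 481572600) (nat_lit 304) (nat_lit 1599142821) (nat_lit 76) (nat_lit 9413285765) (nat_lit 37) (nat_lit 5) (nat_lit 41) (nat_lit 5) (nat_lit 38) (nat_lit 5) (nat_lit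 321) (nat_lit 302) (nat_lit 277)))) (XT.nd (nat_lit 156) (nat_lit 228) (nat_lit 0) (XT.nd (nat_lit 78) (nat_lit 152) (nat_lit 0) (XT.lf (nat_lit 0) (nat_lit 3400817036) (nat_lit 228) (nat_lit 6393399417) (nat_lit 76) (nat_lit 2214306540) (nat_lit 35) (nat_lit 5) (nat_lit 38) (nat_lit 5) (nat_lit 36) (nat_lit 5) (nat_lit 322) (nat_lit 302) (nat_lit 276)) (XT.lf (nat_lit 0) (nat_lit 796705222) (nat_lit 152) (nat_lit 5790184891) (nat_lit 228) (nat_lit 5974733681) (nat_lit 33) (nat_lit 5) (nat_lit 35) (nat_lit 5) (nat_lit 36) (nat_lit 5) (nat_lit 323) (nat_lit 302) (nat_lit 275))) (XT.nd (nat_lit 78) (nat_lit 228) (nat_lit 0) (XT.lf (nat_lit 0) (nat_lit 8804038152) (nat_lit 152) (nat_lit 1317198126) (nat_lit 228) (nat_lit 3030339825) (nat_lit 33) (nat_lit 5) (nat_lit 35) (nat_lit 5) (nat_lit 36) (nat_lit 5) (nat_lit 324) (nat_lit 302) (nat_lit 274)) (XT.nd (nat_lit 78) (nat_lit 0) (nat_lit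 0) (XT.lf (nat_lit 0) (nat_lit 240384570) (nat_lit 228) (nat_lit 10144012459) (nat_lit 76) (nat_lit 3396242498) (nat_lit 30) (nat_lit 5) (nat_lit 33) (nat_lit 5) (nat_lit 31) (nat_lit 5) (nat_lit 325) (nat_lit 302) (nat_lit 273)) (XT.lf (nat_lit 0) (nat_lit 3689859673) (nat_lit 228) (nat_lit 2178579388) (nat_lit 76) (nat_lit 8578886447) (nat_lit 30) (nat_lit 5) (nat_lit 33) (nat_lit 5) (nat_lit 31) (nat_lit 5) (nat_lit 326) (nat_lit 302) (nat_lit 272))))))) (XT.nd (nat_lit 702) (nat_lit 532) (nat_lit 0) (XT.nd (nat_lit 312) (nat_lit 304) (nat_lit 0) (XT.nd (nat_lit 156) (nat_lit 228) (nat_lit 0) (XT.nd (nat_lit 78) (nat_lit 76) (nat_lit 0) (XT.lf (nat_lit 0) (nat_lit 6646553678) (nat_lit 152) (nat_lit 858811075) (nat_lit 228) (nat_lit 7654830560) (nat_lit 28) (nat_lit 5) (nat_lit 30) (nat_lit 5) (nat_lit 31) (nat_lit 5) (nat_lit 327) (nat_lit 302) (nat_lit 271)) (XT.lf (nat_lit 0) (nat_lit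 161639279) (nat_lit 76) (nat_lit 11570786267) (nat_lit 152) (nat_lit 4189214584) (nat_lit 27) (nat_lit 5) (nat_lit 28) (nat_lit 5) (nat_lit 29) (nat_lit 4) (nat_lit 328) (nat_lit 302) (nat_lit 270))) (XT.nd (nat_lit 78) (nat_lit 228) (nat_lit 0) (XT.lf (nat_lit 0) (nat_lit 9882768085) (nat_lit 76) (nat_lit 6603681801) (nat_lit 152) (nat_lit 242493648) (nat_lit 27) (nat_lit 5) (nat_lit 28) (nat_lit 5) (nat_lit 29) (nat_lit 4) (nat_lit 329) (nat_lit 302) (nat_lit 269)) (XT.lf (nat_lit 0) (nat_lit 2715793745) (nat_lit 152) (nat_lit 1105916173) (nat_lit 228) (nat_lit 13771199891) (nat_lit 24) (nat_lit 5) (nat_lit 26) (nat_lit 5) (nat_lit 27) (nat_lit 5) (nat_lit 330) (nat_lit 302) (nat_lit 268)))) (XT.nd (nat_lit 156) (nat_lit 228) (nat_lit 0) (XT.nd (nat_lit 78) (nat_lit 76) (nat_lit 0) (XT.lf (nat_lit 0) (nat_lit 8444919684) (nat_lit 228) (nat_lit 5311681987) (nat_lit 76) (nat_lit 4749167392)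 (nat_lit 24) (nat_lit 5) (nat_lit 27) (nat_lit 5) (nat_lit 25) (nat_lit 4) (nat_lit 331) (nat_lit 302) (nat_lit 267)) (XT.lf (nat_lit 0) (nat_lit 5150337901) (nat_lit 76) (nat_lit 8383498908) (nat_lit 152) (nat_lit 5950186674) (nat_lit 23) (nat_lit 5) (nat_lit 24) (nat_lit 5) (nat_lit 25) (nat_lit 4) (nat_lit 332) (nat_lit 302) (nat_lit 266))) (XT.nd (nat_lit 78) (nat_lit 228) (nat_lit 0) (XT.lf (nat_lit 0) (nat_lit 16656304853) (nat_lit 76) (nat_lit 2463968939) (nat_lit 152) (nat_lit 1413063863) (nat_lit 23) (nat_lit 5) (nat_lit 24) (nat_lit 5) (nat_lit 25) (nat_lit 4) (nat_lit 333) (nat_lit 302) (nat_lit 265)) (XT.nd (nat_lit 78) (nat_lit 0) (nat_lit 0) (XT.lf (nat_lit 0) (nat_lit 3544316423) (nat_lit 228) (nat_lit 14127132351) (nat_lit 76) (nat_lit 3969928666) (nat_lit 20) (nat_lit 5) (nat_lit 23) (nat_lit 5) (nat_lit 21) (nat_lit 4) (nat_lit 334) (nat_lit 302) (nat_lit 264)) (XT.lf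 (nat_lit 0) (nat_lit 8943406303) (nat_lit 228) (nat_lit 2987380953) (nat_lit 76) (nat_lit 10894645348) (nat_lit 20) (nat_lit 5) (nat_lit 23) (nat_lit 5) (nat_lit 21) (nat_lit 4) (nat_lit 335) (nat_lit 302) (nat_lit 263)))))) (XT.nd (nat_lit 312) (nat_lit 304) (nat_lit 0) (XT.nd (nat_lit 156) (nat_lit 152) (nat_lit 0) (XT.nd (nat_lit 78) (nat_lit 0) (nat_lit 0) (XT.lf (nat_lit 0) (nat_lit 9430427511) (nat_lit 76) (nat_lit 5523301394) (nat_lit 152) (nat_lit 9136162294) (nat_lit 19) (nat_lit 5) (nat_lit 20) (nat_lit 5) (nat_lit 21) (nat_lit 4) (nat_lit 336) (nat_lit 302) (nat_lit 262)) (XT.lf (nat_lit 0) (nat_lit 21515420190) (nat_lit 152) (nat_lit 2558668409) (nat_lit 0) (nat_lit 1375796175) (nat_lit 19) (nat_lit 5) (nat_lit 21) (nat_lit 4) (nat_lit 19) (nat_lit 4) (nat_lit 337) (nat_lit 302) (nat_lit 261))) (XT.nd (nat_lit 78) (nat_lit 0) (nat_lit 0) (XT.lf (nat_lit 0) (nat_lit 1969030104)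 (nat_lit 152) (nat_lit 16110455426) (nat_lit 76) (nat_lit 8806382518) (nat_lit 17) (nat_lit 5) (nat_lit 19) (nat_lit 5) (nat_lit 18) (nat_lit 4) (nat_lit 338) (nat_lit 302) (nat_lit 260)) (XT.lf (nat_lit 0) (nat_lit 8160883166) (nat_lit 152) (nat_lit 3292895527) (nat_lit 76) (nat_lit 16972501657) (nat_lit 17) (nat_lit 5) (nat_lit 19) (nat_lit 5) (nat_lit 18) (nat_lit 4) (nat_lit 339) (nat_lit 302) (nat_lit 259)))) (XT.nd (nat_lit 156) (nat_lit 228) (nat_lit 0) (XT.nd (nat_lit 78) (nat_lit 0) (nat_lit 0) (XT.lf (nat_lit 0) (nat_lit 11028144278) (nat_lit 76) (nat_lit 4045228855) (nat_lit 152) (nat_lit 14998545379) (nat_lit 16) (nat_lit 5) (nat_lit 17) (nat_lit 5) (nat_lit 18) (nat_lit 4) (nat_lit 340) (nat_lit 302) (nat_lit 258)) (XT.lf (nat_lit 0) (nat_lit 22686876825) (nat_lit 152) (nat_lit 5331399398) (nat_lit 0) (nat_lit 3819105125) (nat_lit 16) (nat_lit 5) (nat_lit 18) (nat_lit 4)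 (nat_lit 16) (nat_lit 4) (nat_lit 341) (nat_lit 302) (nat_lit 257))) (XT.nd (nat_lit 78) (nat_lit 152) (nat_lit 0) (XT.lf (nat_lit 0) (nat_lit 9794278303) (nat_lit 76) (nat_lit 21419232293) (nat_lit 76) (nat_lit 2506260321) (nat_lit 15) (nat_lit 4) (nat_lit 16) (nat_lit 5) (nat_lit 16) (nat_lit 4) (nat_lit 342) (nat_lit 302) (nat_lit 256)) (XT.nd (nat_lit 78) (nat_lit 76) (nat_lit 0) (XT.lf (nat_lit 0) (nat_lit 4549085877) (nat_lit 152) (nat_lit 9492725450) (nat_lit 76) (nat_lit 21692915815) (nat_lit 14) (nat_lit 5) (nat_lit 16) (nat_lit 5) (nat_lit 15) (nat_lit 4) (nat_lit 343) (nat_lit 302) (nat_lit 255)) (XT.lf (nat_lit 0) (nat_lit 6280053732) (nat_lit 76) (nat_lit 5870729804) (nat_lit 152) (nat_lit 25745513229) (nat_lit 13) (nat_lit 5) (nat_lit 14) (nat_lit 5) (nat_lit 15) (nat_lit 4) (nat_lit 344) (nat_lit 302) (nat_lit 254))))))))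
noncomputable def xc103 : XT := (XT.nd (nat_lit 1404) (nat_lit 380) (nat_lit 0) (XT.nd (nat_lit 702) (nat_lit 228) (nat_lit 0) (XT.nd (nat_lit 312) (nat_lit 152) (nat_lit 0) (XT.nd (nat_lit 156) (nat_lit 152) (nat_lit 0) (XT.nd (nat_lit 78) (nat_lit 0) (nat_lit 0) (XT.lf (nat_lit 0) (nat_lit 20664541293) (nat_lit 152) (nat_lit 16497273505) (nat_lit 0) (nat_lit 3044673278) (nat_lit 13) (nat_lit 5) (nat_lit 15) (nat_lit 4) (nat_lit 13) (nat_lit 4) (nat_lit 345) (nat_lit 302) (nat_lit 253)) (XT.lf (nat_lit 0) (nat_lit 29980951116) (nat_lit 152) (nat_lit 380508223) (nat_lit 0) (nat_lit 12330320555) (nat_lit 13) (nat_lit 5) (nat_lit 15) (nat_lit 4) (nat_lit 13) (nat_lit 4) (nat_lit 346) (nat_lit 302) (nat_lit 252))) (XT.nd (nat_lit 78) (nat_lit 76) (nat_lit 0) (XT.lf (nat_lit 0) (nat_lit 17864400424) (nat_lit 76) (nat_lit 22579269002) (nat_lit 76) (nat_lit 4900154602) (nat_lit 12) (nat_lit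 4) (nat_lit 13) (nat_lit 5) (nat_lit 13) (nat_lit 4) (nat_lit 347) (nat_lit 302) (nat_lit 251)) (XT.lf (nat_lit 0) (nat_lit 3340656439) (nat_lit 152) (nat_lit 10756922929) (nat_lit 76) (nat_lit 34105086723) (nat_lit 11) (nat_lit 5) (nat_lit 13) (nat_lit 5) (nat_lit 12) (nat_lit 4) (nat_lit 348) (nat_lit 302) (nat_lit 250)))) (XT.nd (nat_lit 156) (nat_lit 76) (nat_lit 0) (XT.nd (nat_lit 78) (nat_lit 0) (nat_lit 0) (XT.lf (nat_lit 0) (nat_lit 7500404348) (nat_lit 76) (nat_lit 4629553811) (nat_lit 152) (nat_lit 39137765156) (nat_lit 10) (nat_lit 5) (nat_lit 11) (nat_lit 5) (nat_lit 12) (nat_lit 4) (nat_lit 349) (nat_lit 302) (nat_lit 249)) (XT.lf (nat_lit 0) (nat_lit 22032503254) (nat_lit 152) (nat_lit 26917695543) (nat_lit 0) (nat_lit 5594984723) (nat_lit 10) (nat_lit 5) (nat_lit 12) (nat_lit 4) (nat_lit 10) (nat_lit 4) (nat_lit 350) (nat_lit 302) (nat_lit 248))) (XT.nd (nat_lit 78) (nat_lit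 76) (nat_lit 0) (XT.lf (nat_lit 0) (nat_lit 32823208192) (nat_lit 152) (nat_lit 8887657680) (nat_lit 0) (nat_lit 16366304039) (nat_lit 10) (nat_lit 5) (nat_lit 12) (nat_lit 4) (nat_lit 10) (nat_lit 4) (nat_lit 351) (nat_lit 302) (nat_lit 247)) (XT.nd (nat_lit 78) (nat_lit 0) (nat_lit 0) (XT.lf (nat_lit 0) (nat_lit 11096049503) (nat_lit 76) (nat_lit 33625487766) (nat_lit 76) (nat_lit 17150633963) (nat_lit 9) (nat_lit 4) (nat_lit 10) (nat_lit 5) (nat_lit 10) (nat_lit 4) (nat_lit 352) (nat_lit 302) (nat_lit 246)) (XT.lf (nat_lit 0) (nat_lit 33141208124) (nat_lit 76) (nat_lit 24651675664) (nat_lit 76) (nat_lit 8160201815) (nat_lit 9) (nat_lit 4) (nat_lit 10) (nat_lit 5) (nat_lit 10) (nat_lit 4) (nat_lit 353) (nat_lit 302) (nat_lit 245)))))) (XT.nd (nat_lit 312) (nat_lit 76) (nat_lit 0) (XT.nd (nat_lit 156) (nat_lit 0) (nat_lit 0) (XT.nd (nat_lit 78) (nat_lit 76) (nat_lit 0) (XT.lf (nat_lit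 0) (nat_lit 1451189957) (nat_lit 152) (nat_lit 13488387668) (nat_lit 76) (nat_lit 55419579794) (nat_lit 8) (nat_lit 5) (nat_lit 10) (nat_lit 5) (nat_lit 9) (nat_lit 4) (nat_lit 354) (nat_lit 302) (nat_lit 244)) (XT.lf (nat_lit 0) (nat_lit 7506935621) (nat_lit 76) (nat_lit 4045010250) (nat_lit 152) (nat_lit 63535911592) (nat_lit 7) (nat_lit 5) (nat_lit 8) (nat_lit 5) (nat_lit 9) (nat_lit 4) (nat_lit 355) (nat_lit 302) (nat_lit 243))) (XT.nd (nat_lit 78) (nat_lit 0) (nat_lit 0) (XT.lf (nat_lit 0) (nat_lit 23005714482) (nat_lit 152) (nat_lit 49449374028) (nat_lit 0) (nat_lit 7696172519) (nat_lit 7) (nat_lit 5) (nat_lit 9) (nat_lit 4) (nat_lit 7) (nat_lit 4) (nat_lit 356) (nat_lit 302) (nat_lit 242)) (XT.lf (nat_lit 0) (nat_lit 35463149313) (nat_lit 152) (nat_lit 30007305792) (nat_lit 0) (nat_lit 20142296026) (nat_lit 7) (nat_lit 5) (nat_lit 9) (nat_lit 4) (nat_lit 7) (nat_lit 4) (nat_lit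 357) (nat_lit 302) (nat_lit 241)))) (XT.nd (nat_lit 156) (nat_lit 0) (nat_lit 0) (XT.nd (nat_lit 78) (nat_lit 76) (nat_lit 0) (XT.lf (nat_lit 0) (nat_lit 48900789605) (nat_lit 152) (nat_lit 9042222282) (nat_lit 0) (nat_lit 33569462870) (nat_lit 7) (nat_lit 5) (nat_lit 9) (nat_lit 4) (nat_lit 7) (nat_lit 4) (nat_lit 358) (nat_lit 302) (nat_lit 240)) (XT.lf (nat_lit 0) (nat_lit 14284692188) (nat_lit 76) (nat_lit 49457120822) (nat_lit 76) (nat_lit 34116096449) (nat_lit 6) (nat_lit 4) (nat_lit 7) (nat_lit 5) (nat_lit 7) (nat_lit 4) (nat_lit 359) (nat_lit 302) (nat_lit 239))) (XT.nd (nat_lit 78) (nat_lit 0) (nat_lit 0) (XT.lf (nat_lit 0) (nat_lit 39962803461) (nat_lit 76) (nat_lit 40039791851) (nat_lit 76) (nat_lit 24689788184) (nat_lit 6) (nat_lit 4) (nat_lit 7) (nat_lit 5) (nat_lit 7) (nat_lit 4) (nat_lit 360) (nat_lit 302) (nat_lit 238)) (XT.nd (nat_lit 78) (nat_lit 0) (nat_lit 0) (XT.lf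 (nat_lit 0) (nat_lit 67668130720) (nat_lit 76) (nat_lit 29882448961) (nat_lit 76) (nat_lit 14524131134) (nat_lit 6) (nat_lit 4) (nat_lit 7) (nat_lit 5) (nat_lit 7) (nat_lit 4) (nat_lit 361) (nat_lit 302) (nat_lit 237)) (XT.lf (nat_lit 0) (nat_lit 97564853681) (nat_lit 76) (nat_lit 18924900492) (nat_lit 76) (nat_lit 3558884368) (nat_lit 6) (nat_lit 4) (nat_lit 7) (nat_lit 5) (nat_lit 7) (nat_lit 4) (nat_lit 362) (nat_lit 302) (nat_lit 236))))))) (XT.nd (nat_lit 702) (nat_lit 152) (nat_lit 0) (XT.nd (nat_lit 312) (nat_lit 76) (nat_lit 0) (XT.nd (nat_lit 156) (nat_lit 0) (nat_lit 0) (XT.nd (nat_lit 78) (nat_lit 0) (nat_lit 0) (XT.lf (nat_lit 0) (nat_lit 1020870509) (nat_lit 76) (nat_lit 6860867320) (nat_lit 152) (nat_lit 120761804304) (nat_lit 4) (nat_lit 5) (nat_lit 5) (nat_lit 5) (nat_lit 6) (nat_lit 4) (nat_lit 363) (nat_lit 302) (nat_lit 235)) (XT.lf (nat_lit 0) (nat_lit 20812436059)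 (nat_lit 152) (nat_lit 110472908700) (nat_lit 0) (nat_lit 6571932146) (nat_lit 4) (nat_lit 5) (nat_lit 6) (nat_lit 4) (nat_lit 4) (nat_lit 4) (nat_lit 364) (nat_lit 302) (nat_lit 234))) (XT.nd (nat_lit 78) (nat_lit 0) (nat_lit 0) (XT.lf (nat_lit 0) (nat_lit 34944717638) (nat_lit 152) (nat_lit 92151469089) (nat_lit 0) (nat_lit 20698555246) (nat_lit 4) (nat_lit 5) (nat_lit 6) (nat_lit 4) (nat_lit 4) (nat_lit 4) (nat_lit 365) (nat_lit 302) (nat_lit 233)) (XT.lf (nat_lit 0) (nat_lit 50197325395) (nat_lit 152) (nat_lit 72384777272) (nat_lit 0) (nat_lit 35945923672) (nat_lit 4) (nat_lit 5) (nat_lit 6) (nat_lit 4) (nat_lit 4) (nat_lit 4) (nat_lit 366) (nat_lit 302) (nat_lit 232)))) (XT.nd (nat_lit 156) (nat_lit 76) (nat_lit 0) (XT.nd (nat_lit 78) (nat_lit 0) (nat_lit 0) (XT.lf (nat_lit 0) (nat_lit 66660645157) (nat_lit 152) (nat_lit 51055697298) (nat_lit 0) (nat_lit 52404392200) (nat_lit 4)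 (nat_lit 5) (nat_lit 6) (nat_lit 4) (nat_lit 4) (nat_lit 4) (nat_lit 367) (nat_lit 302) (nat_lit 231)) (XT.lf (nat_lit 0) (nat_lit 84432237334) (nat_lit 152) (nat_lit 28037834619) (nat_lit 0) (nat_lit 70171492495) (nat_lit 4) (nat_lit 5) (nat_lit 6) (nat_lit 4) (nat_lit 4) (nat_lit 4) (nat_lit 368) (nat_lit 302) (nat_lit 230))) (XT.nd (nat_lit 78) (nat_lit 76) (nat_lit 0) (XT.lf (nat_lit 0) (nat_lit 103617415067) (nat_lit 152) (nat_lit 3194787086) (nat_lit 0) (nat_lit 89352511078) (nat_lit 4) (nat_lit 5) (nat_lit 6) (nat_lit 4) (nat_lit 4) (nat_lit 4) (nat_lit 369) (nat_lit 302) (nat_lit 229)) (XT.nd (nat_lit 78) (nat_lit 0) (nat_lit 0) (XT.lf (nat_lit 0) (nat_lit 24864485633) (nat_lit 76) (nat_lit 100063374141) (nat_lit 76) (nat_lit 85794619087) (nat_lit 3) (nat_lit 4) (nat_lit 4) (nat_lit 5) (nat_lit 4) (nat_lit 4) (nat_lit 370) (nat_lit 302) (nat_lit 228)) (XT.lf (nat_lit 0) (nat_lit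 55335530436) (nat_lit 76) (nat_lit 92687627891) (nat_lit 76) (nat_lit 78415307035) (nat_lit 3) (nat_lit 4) (nat_lit 4) (nat_lit 5) (nat_lit 4) (nat_lit 4) (nat_lit 371) (nat_lit 302) (nat_lit 227)))))) (XT.nd (nat_lit 312) (nat_lit 152) (nat_lit 0) (XT.nd (nat_lit 156) (nat_lit 0) (nat_lit 0) (XT.nd (nat_lit 78) (nat_lit 0) (nat_lit 0) (XT.lf (nat_lit 0) (nat_lit 88230684650) (nat_lit 76) (nat_lit 84728606416) (nat_lit 76) (nat_lit 70452983892) (nat_lit 3) (nat_lit 4) (nat_lit 4) (nat_lit 5) (nat_lit 4) (nat_lit 4) (nat_lit 372) (nat_lit 302) (nat_lit 226)) (XT.lf (nat_lit 0) (nat_lit 123744882522) (nat_lit 76) (nat_lit 76139145144) (nat_lit 76) (nat_lit 61860465521) (nat_lit 3) (nat_lit 4) (nat_lit 4) (nat_lit 5) (nat_lit 4) (nat_lit 4) (nat_lit 373) (nat_lit 302) (nat_lit 225))) (XT.nd (nat_lit 78) (nat_lit 0) (nat_lit 0) (XT.lf (nat_lit 0) (nat_lit 162088578558) (nat_lit 76) (nat_lit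 66868343566) (nat_lit 76) (nat_lit 52586833295) (nat_lit 3) (nat_lit 4) (nat_lit 4) (nat_lit 5) (nat_lit 4) (nat_lit 4) (nat_lit 374) (nat_lit 302) (nat_lit 224)) (XT.lf (nat_lit 0) (nat_lit 203488994660) (nat_lit 76) (nat_lit 56861263597) (nat_lit 76) (nat_lit 42577132356) (nat_lit 3) (nat_lit 4) (nat_lit 4) (nat_lit 5) (nat_lit 4) (nat_lit 4) (nat_lit 375) (nat_lit 302) (nat_lit 223)))) (XT.nd (nat_lit 156) (nat_lit 152) (nat_lit 0) (XT.nd (nat_lit 78) (nat_lit 0) (nat_lit 0) (XT.lf (nat_lit 0) (nat_lit 248191466629) (nat_lit 76) (nat_lit 46058604022) (nat_lit 76) (nat_lit 31772045957) (nat_lit 3) (nat_lit 4) (nat_lit 4) (nat_lit 5) (nat_lit 4) (nat_lit 4) (nat_lit 376) (nat_lit 302) (nat_lit 222)) (XT.lf (nat_lit 0) (nat_lit 296460898000) (nat_lit 76) (nat_lit 34396349082) (nat_lit 76) (nat_lit 20107543957) (nat_lit 3) (nat_lit 4) (nat_lit 4) (nat_lit 5) (nat_lit 4) (nat_lit 4) (nat_lit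 377) (nat_lit 302) (nat_lit 221))) (XT.nd (nat_lit 78) (nat_lit 152) (nat_lit 0) (XT.lf (nat_lit 0) (nat_lit 348583329850) (nat_lit 76) (nat_lit 21805389117) (nat_lit 76) (nat_lit 7514503381) (nat_lit 3) (nat_lit 4) (nat_lit 4) (nat_lit 5) (nat_lit 4) (nat_lit 4) (nat_lit 378) (nat_lit 302) (nat_lit 220)) (XT.nd (nat_lit 78) (nat_lit 76) (nat_lit 0) (XT.lf (nat_lit 0) (nat_lit 5777469870) (nat_lit 152) (nat_lit 2275674896) (nat_lit 76) (nat_lit 398932199712) (nat_lit 2) (nat_lit 5) (nat_lit 4) (nat_lit 5) (nat_lit 3) (nat_lit 4) (nat_lit 379) (nat_lit 302) (nat_lit 219)) (XT.lf (nat_lit 0) (nat_lit 20585829662) (nat_lit 152) (nat_lit 410373779489) (nat_lit 0) (nat_lit 7350092611) (nat_lit 1) (nat_lit 5) (nat_lit 3) (nat_lit 4) (nat_lit 1) (nat_lit 4) (nat_lit 380) (nat_lit 302) (nat_lit 218))))))))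
noncomputable def xc104 : XT := (XT.nd (nat_lit 1404) (nat_lit 0) (nat_lit 0) (XT.nd (nat_lit 702) (nat_lit 0) (nat_lit 0) (XT.nd (nat_lit 312) (nat_lit 0) (nat_lit 0) (XT.nd (nat_lit 156) (nat_lit 0) (nat_lit 0) (XT.nd (nat_lit 78) (nat_lit 0) (nat_lit 0) (XT.lf (nat_lit 0) (nat_lit 36848117636) (nat_lit 152) (nat_lit 411659498431) (nat_lit 0) (nat_lit 23610851274) (nat_lit 1) (nat_lit 5) (nat_lit 3) (nat_lit 4) (nat_lit 1) (nat_lit 4) (nat_lit 381) (nat_lit 302) (nat_lit 217)) (XT.lf (nat_lit 0) (nat_lit 54407916142) (nat_lit 152) (nat_lit 413055062503) (nat_lit 0) (nat_lit 41169233751) (nat_lit 1) (nat_lit 5) (nat_lit 3) (nat_lit 4) (nat_lit 1) (nat_lit 4) (nat_lit 382) (nat_lit 302) (nat_lit 216))) (XT.nd (nat_lit 78) (nat_lit 0) (nat_lit 0) (XT.lf (nat_lit 0) (nat_lit 73369283244) (nat_lit 152) (nat_lit 414568741714) (nat_lit 0) (nat_lit 60129289716) (nat_lit 1) (nat_lit 5) (nat_lit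 3) (nat_lit 4) (nat_lit 1) (nat_lit 4) (nat_lit 383) (nat_lit 302) (nat_lit 215)) (XT.lf (nat_lit 0) (nat_lit 93844582601) (nat_lit 152) (nat_lit 416209506015) (nat_lit 0) (nat_lit 80603375056) (nat_lit 1) (nat_lit 5) (nat_lit 3) (nat_lit 4) (nat_lit 1) (nat_lit 4) (nat_lit 384) (nat_lit 302) (nat_lit 214)))) (XT.nd (nat_lit 156) (nat_lit 0) (nat_lit 0) (XT.nd (nat_lit 78) (nat_lit 0) (nat_lit 0) (XT.lf (nat_lit 0) (nat_lit 115955149319) (nat_lit 152) (nat_lit 417987078453) (nat_lit 0) (nat_lit 102712817684) (nat_lit 1) (nat_lit 5) (nat_lit 3) (nat_lit 4) (nat_lit 1) (nat_lit 4) (nat_lit 385) (nat_lit 302) (nat_lit 213)) (XT.lf (nat_lit 0) (nat_lit 139832008978) (nat_lit 152) (nat_lit 419911992792) (nat_lit 0) (nat_lit 126588636521) (nat_lit 1) (nat_lit 5) (nat_lit 3) (nat_lit 4) (nat_lit 1) (nat_lit 4) (nat_lit 386) (nat_lit 302) (nat_lit 212))) (XT.nd (nat_lit 78) (nat_lit 0) (nat_lit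 0) (XT.lf (nat_lit 0) (nat_lit 165616654081) (nat_lit 152) (nat_lit 421995655932) (nat_lit 0) (nat_lit 152372317898) (nat_lit 1) (nat_lit 5) (nat_lit 3) (nat_lit 4) (nat_lit 1) (nat_lit 4) (nat_lit 387) (nat_lit 302) (nat_lit 211)) (XT.nd (nat_lit 78) (nat_lit 0) (nat_lit 0) (XT.lf (nat_lit 0) (nat_lit 193461882524) (nat_lit 152) (nat_lit 424250415504) (nat_lit 0) (nat_lit 180216654003) (nat_lit 1) (nat_lit 5) (nat_lit 3) (nat_lit 4) (nat_lit 1) (nat_lit 4) (nat_lit 388) (nat_lit 302) (nat_lit 210)) (XT.lf (nat_lit 0) (nat_lit 223532703069) (nat_lit 152) (nat_lit 426689633049) (nat_lit 0) (nat_lit 210286648308) (nat_lit 1) (nat_lit 5) (nat_lit 3) (nat_lit 4) (nat_lit 1) (nat_lit 4) (nat_lit 389) (nat_lit 302) (nat_lit 209)))))) (XT.nd (nat_lit 312) (nat_lit 0) (nat_lit 0) (XT.nd (nat_lit 156) (nat_lit 0) (nat_lit 0) (XT.nd (nat_lit 78) (nat_lit 0) (nat_lit 0) (XT.lf (nat_lit 0) (nat_lit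 256007313170) (nat_lit 152) (nat_lit 429327763187) (nat_lit 0) (nat_lit 242760493373) (nat_lit 1) (nat_lit 5) (nat_lit 3) (nat_lit 4) (nat_lit 1) (nat_lit 4) (nat_lit 390) (nat_lit 302) (nat_lit 208)) (XT.lf (nat_lit 0) (nat_lit 291078154962) (nat_lit 152) (nat_lit 432180439284) (nat_lit 0) (nat_lit 277830626798) (nat_lit 1) (nat_lit 5) (nat_lit 3) (nat_lit 4) (nat_lit 1) (nat_lit 4) (nat_lit 391) (nat_lit 302) (nat_lit 207))) (XT.nd (nat_lit 78) (nat_lit 0) (nat_lit 0) (XT.lf (nat_lit 0) (nat_lit 328953055654) (nat_lit 152) (nat_lit 435264566086) (nat_lit 0) (nat_lit 315704871596) (nat_lit 1) (nat_lit 5) (nat_lit 3) (nat_lit 4) (nat_lit 1) (nat_lit 4) (nat_lit 392) (nat_lit 302) (nat_lit 206)) (XT.lf (nat_lit 0) (nat_lit 369856459104) (nat_lit 152) (nat_lit 438598419900) (nat_lit 0) (nat_lit 356607667735) (nat_lit 1) (nat_lit 5) (nat_lit 3) (nat_lit 4) (nat_lit 1) (nat_lit 4) (nat_lit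 393) (nat_lit 302) (nat_lit 205)))) (XT.nd (nat_lit 156) (nat_lit 0) (nat_lit 0) (XT.nd (nat_lit 78) (nat_lit 0) (nat_lit 0) (XT.lf (nat_lit 0) (nat_lit 414030755850) (nat_lit 152) (nat_lit 442201756898) (nat_lit 0) (nat_lit 400781402156) (nat_lit 1) (nat_lit 5) (nat_lit 3) (nat_lit 4) (nat_lit 1) (nat_lit 4) (nat_lit 394) (nat_lit 302) (nat_lit 204)) (XT.lf (nat_lit 0) (nat_lit 461737719502) (nat_lit 152) (nat_lit 446095930186) (nat_lit 0) (nat_lit 448487845138) (nat_lit 1) (nat_lit 5) (nat_lit 3) (nat_lit 4) (nat_lit 1) (nat_lit 4) (nat_lit 395) (nat_lit 302) (nat_lit 203))) (XT.nd (nat_lit 78) (nat_lit 0) (nat_lit 0) (XT.lf (nat_lit 0) (nat_lit 513260057993) (nat_lit 152) (nat_lit 450304016348) (nat_lit 0) (nat_lit 500009701526) (nat_lit 1) (nat_lit 5) (nat_lit 3) (nat_lit 4) (nat_lit 1) (nat_lit 4) (nat_lit 396) (nat_lit 302) (nat_lit 202)) (XT.nd (nat_lit 78) (nat_lit 0) (nat_lit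 0) (XT.lf (nat_lit 0) (nat_lit 568903088885) (nat_lit 152) (nat_lit 454850952190) (nat_lit 0) (nat_lit 555652286027) (nat_lit 1) (nat_lit 5) (nat_lit 3) (nat_lit 4) (nat_lit 1) (nat_lit 4) (nat_lit 397) (nat_lit 302) (nat_lit 201)) (XT.lf (nat_lit 0) (nat_lit 628996548657) (nat_lit 152) (nat_lit 459763682518) (nat_lit 0) (nat_lit 615745332473) (nat_lit 1) (nat_lit 5) (nat_lit 3) (nat_lit 4) (nat_lit 1) (nat_lit 4) (nat_lit 398) (nat_lit 302) (nat_lit 200))))))) (XT.nd (nat_lit 702) (nat_lit 0) (nat_lit 0) (XT.nd (nat_lit 312) (nat_lit 0) (nat_lit 0) (XT.nd (nat_lit 156) (nat_lit 0) (nat_lit 0) (XT.nd (nat_lit 78) (nat_lit 0) (nat_lit 0) (XT.lf (nat_lit 0) (nat_lit 693896546700) (nat_lit 152) (nat_lit 465071319807) (nat_lit 0) (nat_lit 680644947808) (nat_lit 1) (nat_lit 5) (nat_lit 3) (nat_lit 4) (nat_lit 1) (nat_lit 4) (nat_lit 399) (nat_lit 302) (nat_lit 199)) (XT.lf (nat_lit 0) (nat_lit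 763987675595) (nat_lit 152) (nat_lit 470805316724) (nat_lit 0) (nat_lit 750735722343) (nat_lit 1) (nat_lit 5) (nat_lit 3) (nat_lit 4) (nat_lit 1) (nat_lit 4) (nat_lit 400) (nat_lit 302) (nat_lit 198))) (XT.nd (nat_lit 78) (nat_lit 0) (nat_lit 0) (XT.lf (nat_lit 0) (nat_lit 839685290180) (nat_lit 152) (nat_lit 476999652508) (nat_lit 0) (nat_lit 826433008817) (nat_lit 1) (nat_lit 5) (nat_lit 3) (nat_lit 4) (nat_lit 1) (nat_lit 4) (nat_lit 401) (nat_lit 302) (nat_lit 197)) (XT.lf (nat_lit 0) (nat_lit 921437968911) (nat_lit 152) (nat_lit 483691034335) (nat_lit 0) (nat_lit 908185383742) (nat_lit 1) (nat_lit 5) (nat_lit 3) (nat_lit 4) (nat_lit 1) (nat_lit 4) (nat_lit 402) (nat_lit 302) (nat_lit 196)))) (XT.nd (nat_lit 156) (nat_lit 0) (nat_lit 0) (XT.nd (nat_lit 78) (nat_lit 0) (nat_lit 0) (XT.lf (nat_lit 0) (nat_lit 1009730172109) (nat_lit 152) (nat_lit 490919114837) (nat_lit 0) (nat_lit 996477305637)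 (nat_lit 1) (nat_lit 5) (nat_lit 3) (nat_lit 4) (nat_lit 1) (nat_lit 4) (nat_lit 403) (nat_lit 302) (nat_lit 195)) (XT.lf (nat_lit 0) (nat_lit 1105085112827) (nat_lit 152) (nat_lit 498726727086) (nat_lit 0) (nat_lit 1091831985890) (nat_lit 1) (nat_lit 5) (nat_lit 3) (nat_lit 4) (nat_lit 1) (nat_lit 4) (nat_lit 404) (nat_lit 302) (nat_lit 194))) (XT.nd (nat_lit 78) (nat_lit 0) (nat_lit 0) (XT.lf (nat_lit 0) (nat_lit 1208067857382) (nat_lit 152) (nat_lit 507160138412) (nat_lit 0) (nat_lit 1194814489274) (nat_lit 1) (nat_lit 5) (nat_lit 3) (nat_lit 4) (nat_lit 1) (nat_lit 4) (nat_lit 405) (nat_lit 302) (nat_lit 193)) (XT.nd (nat_lit 78) (nat_lit 0) (nat_lit 0) (XT.lf (nat_lit 0) (nat_lit 1319288673889) (nat_lit 152) (nat_lit 516269324586) (nat_lit 0) (nat_lit 1306035082474) (nat_lit 1) (nat_lit 5) (nat_lit 3) (nat_lit 4) (nat_lit 1) (nat_lit 4) (nat_lit 406) (nat_lit 302) (nat_lit 192))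 (XT.lf (nat_lit 0) (nat_lit 1439406648669) (nat_lit 152) (nat_lit 526108265971) (nat_lit 0) (nat_lit 1426152850489) (nat_lit 1) (nat_lit 5) (nat_lit 3) (nat_lit 4) (nat_lit 1) (nat_lit 4) (nat_lit 407) (nat_lit 302) (nat_lit 191)))))) (XT.nd (nat_lit 312) (nat_lit 0) (nat_lit 0) (XT.nd (nat_lit 156) (nat_lit 0) (nat_lit 0) (XT.nd (nat_lit 78) (nat_lit 0) (nat_lit 0) (XT.lf (nat_lit 0) (nat_lit 1569133591942) (nat_lit 152) (nat_lit 536735267404) (nat_lit 0) (nat_lit 1555879602312) (nat_lit 1) (nat_lit 5) (nat_lit 3) (nat_lit 4) (nat_lit 1) (nat_lit 4) (nat_lit 408) (nat_lit 302) (nat_lit 190)) (XT.lf (nat_lit 0) (nat_lit 1709238255965) (nat_lit 152) (nat_lit 548213303710) (nat_lit 0) (nat_lit 1695984089067) (nat_lit 1) (nat_lit 5) (nat_lit 3) (nat_lit 4) (nat_lit 1) (nat_lit 4) (nat_lit 409) (nat_lit 302) (nat_lit 189))) (XT.nd (nat_lit 78) (nat_lit 0) (nat_lit 0) (XT.lf (nat_lit 0) (nat_lit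 1860550890599) (nat_lit 152) (nat_lit 560610392880) (nat_lit 0) (nat_lit 1847296559564) (nat_lit 1) (nat_lit 5) (nat_lit 3) (nat_lit 4) (nat_lit 1) (nat_lit 4) (nat_lit 410) (nat_lit 302) (nat_lit 188)) (XT.lf (nat_lit 0) (nat_lit 2023968163308) (nat_lit 152) (nat_lit 573999999147) (nat_lit 0) (nat_lit 2010713680294) (nat_lit 1) (nat_lit 5) (nat_lit 3) (nat_lit 4) (nat_lit 1) (nat_lit 4) (nat_lit 411) (nat_lit 302) (nat_lit 187)))) (XT.nd (nat_lit 156) (nat_lit 0) (nat_lit 0) (XT.nd (nat_lit 78) (nat_lit 0) (nat_lit 0) (XT.lf (nat_lit 0) (nat_lit 2200458472746) (nat_lit 152) (nat_lit 588461468326) (nat_lit 0) (nat_lit 2187203849011) (nat_lit 1) (nat_lit 5) (nat_lit 3) (nat_lit 4) (nat_lit 1) (nat_lit 4) (nat_lit 412) (nat_lit 302) (nat_lit 186)) (XT.lf (nat_lit 0) (nat_lit 2391067687412) (nat_lit 152) (nat_lit 604080498012) (nat_lit 0) (nat_lit 2377812933380) (nat_lit 1) (nat_lit 5) (nat_lit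 3) (nat_lit 4) (nat_lit 1) (nat_lit 4) (nat_lit 413) (nat_lit 302) (nat_lit 185))) (XT.nd (nat_lit 78) (nat_lit 0) (nat_lit 0) (XT.lf (nat_lit 0) (nat_lit 2596925343394) (nat_lit 152) (nat_lit 620949645418) (nat_lit 0) (nat_lit 2583670468716) (nat_lit 1) (nat_lit 5) (nat_lit 3) (nat_lit 4) (nat_lit 1) (nat_lit 4) (nat_lit 414) (nat_lit 302) (nat_lit 184)) (XT.nd (nat_lit 38142) (nat_lit 0) (nat_lit 5624) (XT.lf (nat_lit 0) (nat_lit 2819251337912) (nat_lit 152) (nat_lit 639168875862) (nat_lit 0) (nat_lit 2805996351525) (nat_lit 1) (nat_lit 5) (nat_lit 3) (nat_lit 4) (nat_lit 1) (nat_lit 4) (nat_lit 415) (nat_lit 302) (nat_lit 183)) (XT.lf (nat_lit 0) (nat_lit 685152483) (nat_lit 0) (nat_lit 685152483) (nat_lit 228) (nat_lit 1979869594) (nat_lit 75) (nat_lit 5) (nat_lit 75) (nat_lit 3) (nat_lit 78) (nat_lit 3) (nat_lit 303) (nat_lit 303) (nat_lit 294))))))))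
noncomputable def xc105 : XT := (XT.nd (nat_lit 1404) (nat_lit 1596) (nat_lit 0) (XT.nd (nat_lit 702) (nat_lit 1368) (nat_lit 0) (XT.nd (nat_lit 312) (nat_lit 1140) (nat_lit 0) (XT.nd (nat_lit 156) (nat_lit 0) (nat_lit 0) (XT.nd (nat_lit 78) (nat_lit 304) (nat_lit 0) (XT.lf (nat_lit 0) (nat_lit 4751534333) (nat_lit 0) (nat_lit 174687527) (nat_lit 228) (nat_lit 1871694644) (nat_lit 75) (nat_lit 5) (nat_lit 75) (nat_lit 3) (nat_lit 78) (nat_lit 3) (nat_lit 304) (nat_lit 303) (nat_lit 293)) (XT.lf (nat_lit 0) (nat_lit 215877436) (nat_lit 304) (nat_lit 5499932575) (nat_lit 380) (nat_lit 1199013188) (nat_lit 71) (nat_lit 5) (nat_lit 75) (nat_lit 5) (nat_lit 76) (nat_lit 5) (nat_lit 305) (nat_lit 303) (nat_lit 292))) (XT.nd (nat_lit 78) (nat_lit 0) (nat_lit 0) (XT.lf (nat_lit 0) (nat_lit 2232989332) (nat_lit 304) (nat_lit 1952859384) (nat_lit 380) (nat_lit 2862626774) (nat_lit 71) (nat_lit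 5) (nat_lit 75) (nat_lit 5) (nat_lit 76) (nat_lit 5) (nat_lit 306) (nat_lit 303) (nat_lit 291)) (XT.lf (nat_lit 76) (nat_lit 1849097694) (nat_lit 0) (nat_lit 2423243171) (nat_lit 380) (nat_lit 2931956323) (nat_lit 72) (nat_lit 5) (nat_lit 71) (nat_lit 5) (nat_lit 76) (nat_lit 5) (nat_lit 307) (nat_lit 303) (nat_lit 290)))) (XT.nd (nat_lit 156) (nat_lit 836) (nat_lit 0) (XT.nd (nat_lit 78) (nat_lit 304) (nat_lit 0) (XT.lf (nat_lit 76) (nat_lit 5947963807) (nat_lit 0) (nat_lit 407425887) (nat_lit 380) (nat_lit 1027072181) (nat_lit 72) (nat_lit 5) (nat_lit 71) (nat_lit 5) (nat_lit 76) (nat_lit 5) (nat_lit 308) (nat_lit 303) (nat_lit 289)) (XT.lf (nat_lit 0) (nat_lit 927499003) (nat_lit 380) (nat_lit 4830514548) (nat_lit 76) (nat_lit 1819252937) (nat_lit 67) (nat_lit 5) (nat_lit 72) (nat_lit 5) (nat_lit 68) (nat_lit 5) (nat_lit 309) (nat_lit 303) (nat_lit 288))) (XT.nd (nat_lit 78) (nat_lit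 836) (nat_lit 0) (XT.lf (nat_lit 0) (nat_lit 2879647404) (nat_lit 380) (nat_lit 607808166) (nat_lit 76) (nat_lit 4306584685) (nat_lit 67) (nat_lit 5) (nat_lit 72) (nat_lit 5) (nat_lit 68) (nat_lit 5) (nat_lit 310) (nat_lit 303) (nat_lit 287)) (XT.nd (nat_lit 78) (nat_lit 456) (nat_lit 0) (XT.lf (nat_lit 0) (nat_lit 4035030786) (nat_lit 380) (nat_lit 907273125) (nat_lit 456) (nat_lit 3089741193) (nat_lit 62) (nat_lit 5) (nat_lit 67) (nat_lit 5) (nat_lit 68) (nat_lit 5) (nat_lit 311) (nat_lit 303) (nat_lit 286)) (XT.lf (nat_lit 0) (nat_lit 655290177) (nat_lit 456) (nat_lit 6458196273) (nat_lit 532) (nat_lit 1180341403) (nat_lit 56) (nat_lit 5) (nat_lit 62) (nat_lit 5) (nat_lit 63) (nat_lit 5) (nat_lit 312) (nat_lit 303) (nat_lit 285)))))) (XT.nd (nat_lit 312) (nat_lit 684) (nat_lit 0) (XT.nd (nat_lit 156) (nat_lit 228) (nat_lit 0) (XT.nd (nat_lit 78) (nat_lit 380) (nat_lit 0) (XT.lf (nat_lit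 0) (nat_lit 842352143) (nat_lit 532) (nat_lit 2840140488) (nat_lit 76) (nat_lit 4892179114) (nat_lit 55) (nat_lit 5) (nat_lit 62) (nat_lit 5) (nat_lit 56) (nat_lit 5) (nat_lit 313) (nat_lit 303) (nat_lit 284)) (XT.lf (nat_lit 0) (nat_lit 2304713974) (nat_lit 380) (nat_lit 592476836) (nat_lit 456) (nat_lit 5983785309) (nat_lit 50) (nat_lit 5) (nat_lit 55) (nat_lit 5) (nat_lit 56) (nat_lit 5) (nat_lit 314) (nat_lit 303) (nat_lit 283))) (XT.nd (nat_lit 78) (nat_lit 228) (nat_lit 0) (XT.lf (nat_lit 0) (nat_lit 5146805575) (nat_lit 456) (nat_lit 1379166693) (nat_lit 76) (nat_lit 2683542126) (nat_lit 50) (nat_lit 5) (nat_lit 56) (nat_lit 5) (nat_lit 51) (nat_lit 5) (nat_lit 315) (nat_lit 303) (nat_lit 282)) (XT.lf (nat_lit 0) (nat_lit 4315438426) (nat_lit 228) (nat_lit 3273373226) (nat_lit 304) (nat_lit 1974679080) (nat_lit 47) (nat_lit 5) (nat_lit 50) (nat_lit 5) (nat_lit 51) (nat_lit 5) (nat_lit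 316) (nat_lit 303) (nat_lit 281)))) (XT.nd (nat_lit 156) (nat_lit 380) (nat_lit 0) (XT.nd (nat_lit 78) (nat_lit 0) (nat_lit 0) (XT.lf (nat_lit 0) (nat_lit 219450406) (nat_lit 304) (nat_lit 9459458522) (nat_lit 76) (nat_lit 270217616) (nat_lit 43) (nat_lit 5) (nat_lit 47) (nat_lit 5) (nat_lit 44) (nat_lit 5) (nat_lit 317) (nat_lit 303) (nat_lit 280)) (XT.lf (nat_lit 0) (nat_lit 2614704105) (nat_lit 304) (nat_lit 3635225043) (nat_lit 76) (nat_lit 4101116720) (nat_lit 43) (nat_lit 5) (nat_lit 47) (nat_lit 5) (nat_lit 44) (nat_lit 5) (nat_lit 318) (nat_lit 303) (nat_lit 279))) (XT.nd (nat_lit 78) (nat_lit 228) (nat_lit 0) (XT.lf (nat_lit 0) (nat_lit 2672021351) (nat_lit 152) (nat_lit 2501260630) (nat_lit 228) (nat_lit 5614209795) (nat_lit 41) (nat_lit 5) (nat_lit 43) (nat_lit 5) (nat_lit 44) (nat_lit 5) (nat_lit 319) (nat_lit 303) (nat_lit 278)) (XT.nd (nat_lit 78) (nat_lit 228) (nat_lit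 0) (XT.lf (nat_lit 0) (nat_lit 7986692550) (nat_lit 228) (nat_lit 1720319556) (nat_lit 76) (nat_lit 1547930786) (nat_lit 41) (nat_lit 5) (nat_lit 44) (nat_lit 5) (nat_lit 42) (nat_lit 5) (nat_lit 320) (nat_lit 303) (nat_lit 277)) (XT.lf (nat_lit 0) (nat_lit 5273997356) (nat_lit 228) (nat_lit 5860540513) (nat_lit 304) (nat_lit 616597027) (nat_lit 38) (nat_lit 5) (nat_lit 41) (nat_lit 5) (nat_lit 42) (nat_lit 5) (nat_lit 321) (nat_lit 303) (nat_lit 276))))))) (XT.nd (nat_lit 702) (nat_lit 684) (nat_lit 0) (XT.nd (nat_lit 312) (nat_lit 532) (nat_lit 0) (XT.nd (nat_lit 156) (nat_lit 152) (nat_lit 0) (XT.nd (nat_lit 78) (nat_lit 0) (nat_lit 0) (XT.lf (nat_lit 0) (nat_lit 499310213) (nat_lit 152) (nat_lit 1614650856) (nat_lit 228) (nat_lit 10170483092) (nat_lit 35) (nat_lit 5) (nat_lit 37) (nat_lit 5) (nat_lit 38) (nat_lit 5) (nat_lit 322) (nat_lit 303) (nat_lit 275)) (XT.lf (nat_lit 0) (nat_lit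 5204302674) (nat_lit 228) (nat_lit 4651578516) (nat_lit 76) (nat_lit 2989358070) (nat_lit 35) (nat_lit 5) (nat_lit 38) (nat_lit 5) (nat_lit 36) (nat_lit 5) (nat_lit 323) (nat_lit 303) (nat_lit 274))) (XT.nd (nat_lit 78) (nat_lit 0) (nat_lit 0) (XT.lf (nat_lit 0) (nat_lit 3056689106) (nat_lit 152) (nat_lit 5527953757) (nat_lit 228) (nat_lit 4862902313) (nat_lit 33) (nat_lit 5) (nat_lit 35) (nat_lit 5) (nat_lit 36) (nat_lit 5) (nat_lit 324) (nat_lit 303) (nat_lit 273)) (XT.lf (nat_lit 0) (nat_lit 11541923673) (nat_lit 152) (nat_lit 750864785) (nat_lit 228) (nat_lit 1800720657) (nat_lit 33) (nat_lit 5) (nat_lit 35) (nat_lit 5) (nat_lit 36) (nat_lit 5) (nat_lit 325) (nat_lit 303) (nat_lit 272)))) (XT.nd (nat_lit 156) (nat_lit 304) (nat_lit 0) (XT.nd (nat_lit 78) (nat_lit 0) (nat_lit 0) (XT.lf (nat_lit 0) (nat_lit 1620953500) (nat_lit 228) (nat_lit 8809042965) (nat_lit 76) (nat_lit 4343119943)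 (nat_lit 30) (nat_lit 5) (nat_lit 33) (nat_lit 5) (nat_lit 31) (nat_lit 5) (nat_lit 326) (nat_lit 303) (nat_lit 271)) (XT.lf (nat_lit 0) (nat_lit 5245546748) (nat_lit 228) (nat_lit 365374544) (nat_lit 76) (nat_lit 9890362220) (nat_lit 30) (nat_lit 5) (nat_lit 33) (nat_lit 5) (nat_lit 31) (nat_lit 5) (nat_lit 327) (nat_lit 303) (nat_lit 270))) (XT.nd (nat_lit 78) (nat_lit 152) (nat_lit 0) (XT.lf (nat_lit 0) (nat_lit 9115452935) (nat_lit 152) (nat_lit 204058160) (nat_lit 228) (nat_lit 6955487496) (nat_lit 28) (nat_lit 5) (nat_lit 30) (nat_lit 5) (nat_lit 31) (nat_lit 5) (nat_lit 328) (nat_lit 303) (nat_lit 269)) (XT.nd (nat_lit 78) (nat_lit 76) (nat_lit 0) (XT.lf (nat_lit 0) (nat_lit 2141275310) (nat_lit 76) (nat_lit 11716966115) (nat_lit 152) (nat_lit 3241304969) (nat_lit 27) (nat_lit 5) (nat_lit 28) (nat_lit 5) (nat_lit 29) (nat_lit 4) (nat_lit 329) (nat_lit 303) (nat_lit 268)) (XT.lf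 (nat_lit 0) (nat_lit 879785208) (nat_lit 152) (nat_lit 5506392682) (nat_lit 76) (nat_lit 11590572482) (nat_lit 26) (nat_lit 5) (nat_lit 28) (nat_lit 5) (nat_lit 27) (nat_lit 5) (nat_lit 330) (nat_lit 303) (nat_lit 267)))))) (XT.nd (nat_lit 312) (nat_lit 456) (nat_lit 0) (XT.nd (nat_lit 156) (nat_lit 76) (nat_lit 0) (XT.nd (nat_lit 78) (nat_lit 0) (nat_lit 0) (XT.lf (nat_lit 0) (nat_lit 4766610746) (nat_lit 152) (nat_lit 449912040) (nat_lit 228) (nat_lit 13696021188) (nat_lit 24) (nat_lit 5) (nat_lit 26) (nat_lit 5) (nat_lit 27) (nat_lit 5) (nat_lit 331) (nat_lit 303) (nat_lit 266)) (XT.lf (nat_lit 0) (nat_lit 10145495457) (nat_lit 228) (nat_lit 3974165230) (nat_lit 76) (nat_lit 5783948609) (nat_lit 24) (nat_lit 5) (nat_lit 27) (nat_lit 5) (nat_lit 25) (nat_lit 4) (nat_lit 332) (nat_lit 303) (nat_lit 265))) (XT.nd (nat_lit 78) (nat_lit 0) (nat_lit 0) (XT.lf (nat_lit 0) (nat_lit 7280197229)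 (nat_lit 76) (nat_lit 8326718024) (nat_lit 152) (nat_lit 5356023799) (nat_lit 23) (nat_lit 5) (nat_lit 24) (nat_lit 5) (nat_lit 25) (nat_lit 4) (nat_lit 333) (nat_lit 303) (nat_lit 264)) (XT.lf (nat_lit 0) (nat_lit 19579394700) (nat_lit 76) (nat_lit 1987511643) (nat_lit 152) (nat_lit 535203594) (nat_lit 23) (nat_lit 5) (nat_lit 24) (nat_lit 5) (nat_lit 25) (nat_lit 4) (nat_lit 334) (nat_lit 303) (nat_lit 263)))) (XT.nd (nat_lit 156) (nat_lit 228) (nat_lit 0) (XT.nd (nat_lit 78) (nat_lit 0) (nat_lit 0) (XT.lf (nat_lit 0) (nat_lit 4754499718) (nat_lit 228) (nat_lit 13601498036) (nat_lit 76) (nat_lit 4942101128) (nat_lit 20) (nat_lit 5) (nat_lit 23) (nat_lit 5) (nat_lit 21) (nat_lit 4) (nat_lit 335) (nat_lit 303) (nat_lit 262)) (XT.lf (nat_lit 0) (nat_lit 10516876938) (nat_lit 228) (nat_lit 1693218741) (nat_lit 76) (nat_lit 12372307872) (nat_lit 20) (nat_lit 5) (nat_lit 23) (nat_lit 5) (nat_lit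 21) (nat_lit 4) (nat_lit 336) (nat_lit 303) (nat_lit 261))) (XT.nd (nat_lit 78) (nat_lit 152) (nat_lit 0) (XT.lf (nat_lit 0) (nat_lit 11679200408) (nat_lit 76) (nat_lit 5301208405) (nat_lit 152) (nat_lit 8969850737) (nat_lit 19) (nat_lit 5) (nat_lit 20) (nat_lit 5) (nat_lit 21) (nat_lit 4) (nat_lit 337) (nat_lit 303) (nat_lit 260)) (XT.nd (nat_lit 78) (nat_lit 152) (nat_lit 0) (XT.lf (nat_lit 0) (nat_lit 24020311009) (nat_lit 152) (nat_lit 1332627200) (nat_lit 0) (nat_lit 2069881422) (nat_lit 19) (nat_lit 5) (nat_lit 21) (nat_lit 4) (nat_lit 19) (nat_lit 4) (nat_lit 338) (nat_lit 303) (nat_lit 259)) (XT.lf (nat_lit 0) (nat_lit 2905736817) (nat_lit 152) (nat_lit 15963436331) (nat_lit 76) (nat_lit 10104918086) (nat_lit 17) (nat_lit 5) (nat_lit 19) (nat_lit 5) (nat_lit 18) (nat_lit 4) (nat_lit 339) (nat_lit 303) (nat_lit 258))))))))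
noncomputable def xc106 : XT := (XT.nd (nat_lit 1404) (nat_lit 304) (nat_lit 0) (XT.nd (nat_lit 702) (nat_lit 380) (nat_lit 0) (XT.nd (nat_lit 312) (nat_lit 228) (nat_lit 0) (XT.nd (nat_lit 156) (nat_lit 76) (nat_lit 0) (XT.nd (nat_lit 78) (nat_lit 76) (nat_lit 0) (XT.lf (nat_lit 0) (nat_lit 9535220768) (nat_lit 152) (nat_lit 2226831309) (nat_lit 76) (nat_lit 18880324907) (nat_lit 17) (nat_lit 5) (nat_lit 19) (nat_lit 5) (nat_lit 18) (nat_lit 4) (nat_lit 340) (nat_lit 303) (nat_lit 257)) (XT.lf (nat_lit 0) (nat_lit 13206233558) (nat_lit 76) (nat_lit 3772199307) (nat_lit 152) (nat_lit 15443036865) (nat_lit 16) (nat_lit 5) (nat_lit 17) (nat_lit 5) (nat_lit 18) (nat_lit 4) (nat_lit 341) (nat_lit 303) (nat_lit 256))) (XT.nd (nat_lit 78) (nat_lit 76) (nat_lit 0) (XT.lf (nat_lit 0) (nat_lit 25162511486) (nat_lit 152) (nat_lit 4519308938) (nat_lit 0) (nat_lit 4649449381) (nat_lit 16) (nat_lit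 5) (nat_lit 18) (nat_lit 4) (nat_lit 16) (nat_lit 4) (nat_lit 342) (nat_lit 303) (nat_lit 255)) (XT.lf (nat_lit 0) (nat_lit 11785065957) (nat_lit 76) (nat_lit 22566304690) (nat_lit 76) (nat_lit 2014490636) (nat_lit 15) (nat_lit 4) (nat_lit 16) (nat_lit 5) (nat_lit 16) (nat_lit 4) (nat_lit 343) (nat_lit 303) (nat_lit 254)))) (XT.nd (nat_lit 156) (nat_lit 76) (nat_lit 0) (XT.nd (nat_lit 78) (nat_lit 76) (nat_lit 0) (XT.lf (nat_lit 0) (nat_lit 5521938984) (nat_lit 152) (nat_lit 9102062399) (nat_lit 76) (nat_lit 23920593526) (nat_lit 14) (nat_lit 5) (nat_lit 16) (nat_lit 5) (nat_lit 15) (nat_lit 4) (nat_lit 344) (nat_lit 303) (nat_lit 253)) (XT.lf (nat_lit 0) (nat_lit 7903423141) (nat_lit 76) (nat_lit 5810202905) (nat_lit 152) (nat_lit 27166930309) (nat_lit 13) (nat_lit 5) (nat_lit 14) (nat_lit 5) (nat_lit 15) (nat_lit 4) (nat_lit 345) (nat_lit 303) (nat_lit 252))) (XT.nd (nat_lit 78) (nat_lit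 76) (nat_lit 0) (XT.lf (nat_lit 0) (nat_lit 22876529408) (nat_lit 152) (nat_lit 16747001411) (nat_lit 0) (nat_lit 3754602018) (nat_lit 13) (nat_lit 5) (nat_lit 15) (nat_lit 4) (nat_lit 13) (nat_lit 4) (nat_lit 346) (nat_lit 303) (nat_lit 251)) (XT.nd (nat_lit 78) (nat_lit 0) (nat_lit 0) (XT.lf (nat_lit 0) (nat_lit 610375279) (nat_lit 76) (nat_lit 32301161846) (nat_lit 76) (nat_lit 13152860532) (nat_lit 12) (nat_lit 4) (nat_lit 13) (nat_lit 5) (nat_lit 13) (nat_lit 4) (nat_lit 347) (nat_lit 303) (nat_lit 250)) (XT.lf (nat_lit 0) (nat_lit 20259259866) (nat_lit 76) (nat_lit 23922230604) (nat_lit 76) (nat_lit 4749508989) (nat_lit 12) (nat_lit 4) (nat_lit 13) (nat_lit 5) (nat_lit 13) (nat_lit 4) (nat_lit 348) (nat_lit 303) (nat_lit 249)))))) (XT.nd (nat_lit 312) (nat_lit 228) (nat_lit 0) (XT.nd (nat_lit 156) (nat_lit 0) (nat_lit 0) (XT.nd (nat_lit 78) (nat_lit 76) (nat_lit 0) (XT.lf (nat_lit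 0) (nat_lit 4085234909) (nat_lit 152) (nat_lit 10698044392) (nat_lit 76) (nat_lit 37237290295) (nat_lit 11) (nat_lit 5) (nat_lit 13) (nat_lit 5) (nat_lit 12) (nat_lit 4) (nat_lit 349) (nat_lit 303) (nat_lit 248)) (XT.lf (nat_lit 0) (nat_lit 8996592298) (nat_lit 76) (nat_lit 4567283554) (nat_lit 152) (nat_lit 41768069103) (nat_lit 10) (nat_lit 5) (nat_lit 11) (nat_lit 5) (nat_lit 12) (nat_lit 4) (nat_lit 350) (nat_lit 303) (nat_lit 247))) (XT.nd (nat_lit 78) (nat_lit 0) (nat_lit 0) (XT.lf (nat_lit 0) (nat_lit 24233923803) (nat_lit 152) (nat_lit 28216530670) (nat_lit 0) (nat_lit 6423132046) (nat_lit 10) (nat_lit 5) (nat_lit 12) (nat_lit 4) (nat_lit 10) (nat_lit 4) (nat_lit 351) (nat_lit 303) (nat_lit 246)) (XT.lf (nat_lit 0) (nat_lit 35855379930) (nat_lit 152) (nat_lit 8807392039) (nat_lit 0) (nat_lit 18027968127) (nat_lit 10) (nat_lit 5) (nat_lit 12) (nat_lit 4) (nat_lit 10) (nat_lit 4)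 (nat_lit 352) (nat_lit 303) (nat_lit 245)))) (XT.nd (nat_lit 156) (nat_lit 152) (nat_lit 0) (XT.nd (nat_lit 78) (nat_lit 0) (nat_lit 0) (XT.lf (nat_lit 0) (nat_lit 12754979358) (nat_lit 76) (nat_lit 35939047044) (nat_lit 76) (nat_lit 18096246309) (nat_lit 9) (nat_lit 4) (nat_lit 10) (nat_lit 5) (nat_lit 10) (nat_lit 4) (nat_lit 353) (nat_lit 303) (nat_lit 244)) (XT.lf (nat_lit 0) (nat_lit 36506621343) (nat_lit 76) (nat_lit 26275217362) (nat_lit 76) (nat_lit 8418167616) (nat_lit 9) (nat_lit 4) (nat_lit 10) (nat_lit 5) (nat_lit 10) (nat_lit 4) (nat_lit 354) (nat_lit 303) (nat_lit 243))) (XT.nd (nat_lit 78) (nat_lit 76) (nat_lit 0) (XT.lf (nat_lit 0) (nat_lit 1914598422) (nat_lit 152) (nat_lit 13887878554) (nat_lit 76) (nat_lit 60157555794) (nat_lit 8) (nat_lit 5) (nat_lit 10) (nat_lit 5) (nat_lit 9) (nat_lit 4) (nat_lit 355) (nat_lit 303) (nat_lit 242)) (XT.nd (nat_lit 78) (nat_lit 0) (nat_lit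 0) (XT.lf (nat_lit 0) (nat_lit 8769866039) (nat_lit 76) (nat_lit 4043752010) (nat_lit 152) (nat_lit 68254199856) (nat_lit 7) (nat_lit 5) (nat_lit 8) (nat_lit 5) (nat_lit 9) (nat_lit 4) (nat_lit 356) (nat_lit 303) (nat_lit 241)) (XT.lf (nat_lit 0) (nat_lit 25165921064) (nat_lit 152) (nat_lit 52774184270) (nat_lit 0) (nat_lit 8597614741) (nat_lit 7) (nat_lit 5) (nat_lit 9) (nat_lit 4) (nat_lit 7) (nat_lit 4) (nat_lit 357) (nat_lit 303) (nat_lit 240))))))) (XT.nd (nat_lit 702) (nat_lit 76) (nat_lit 0) (XT.nd (nat_lit 312) (nat_lit 152) (nat_lit 0) (XT.nd (nat_lit 156) (nat_lit 76) (nat_lit 0) (XT.nd (nat_lit 78) (nat_lit 0) (nat_lit 0) (XT.lf (nat_lit 0) (nat_lit 38596265538) (nat_lit 152) (nat_lit 31823501662) (nat_lit 0) (nat_lit 22018261578) (nat_lit 7) (nat_lit 5) (nat_lit 9) (nat_lit 4) (nat_lit 7) (nat_lit 4) (nat_lit 358) (nat_lit 303) (nat_lit 239)) (XT.lf (nat_lit 0) (nat_lit 53086986367)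 (nat_lit 152) (nat_lit 9224499516) (nat_lit 0) (nat_lit 36500003113) (nat_lit 7) (nat_lit 5) (nat_lit 9) (nat_lit 4) (nat_lit 7) (nat_lit 4) (nat_lit 359) (nat_lit 303) (nat_lit 238))) (XT.nd (nat_lit 78) (nat_lit 0) (nat_lit 0) (XT.lf (nat_lit 0) (nat_lit 15954869365) (nat_lit 76) (nat_lit 53152800114) (nat_lit 76) (nat_lit 36557502699) (nat_lit 6) (nat_lit 4) (nat_lit 7) (nat_lit 5) (nat_lit 7) (nat_lit 4) (nat_lit 360) (nat_lit 303) (nat_lit 237)) (XT.lf (nat_lit 0) (nat_lit 43648162739) (nat_lit 76) (nat_lit 43001410037) (nat_lit 76) (nat_lit 26398414326) (nat_lit 6) (nat_lit 4) (nat_lit 7) (nat_lit 5) (nat_lit 7) (nat_lit 4) (nat_lit 361) (nat_lit 303) (nat_lit 236)))) (XT.nd (nat_lit 156) (nat_lit 152) (nat_lit 0) (XT.nd (nat_lit 78) (nat_lit 0) (nat_lit 0) (XT.lf (nat_lit 0) (nat_lit 73533743215) (nat_lit 76) (nat_lit 32049373433) (nat_lit 76) (nat_lit 15439249668) (nat_lit 6)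 (nat_lit 4) (nat_lit 7) (nat_lit 5) (nat_lit 7) (nat_lit 4) (nat_lit 362) (nat_lit 303) (nat_lit 235)) (XT.lf (nat_lit 0) (nat_lit 105788710529) (nat_lit 76) (nat_lit 20231789341) (nat_lit 76) (nat_lit 3615065528) (nat_lit 6) (nat_lit 4) (nat_lit 7) (nat_lit 5) (nat_lit 7) (nat_lit 4) (nat_lit 363) (nat_lit 303) (nat_lit 234))) (XT.nd (nat_lit 78) (nat_lit 0) (nat_lit 0) (XT.lf (nat_lit 0) (nat_lit 1521787253) (nat_lit 76) (nat_lit 7201588815) (nat_lit 152) (nat_lit 130194728066) (nat_lit 4) (nat_lit 5) (nat_lit 5) (nat_lit 5) (nat_lit 6) (nat_lit 4) (nat_lit 364) (nat_lit 303) (nat_lit 233)) (XT.nd (nat_lit 78) (nat_lit 0) (nat_lit 0) (XT.lf (nat_lit 0) (nat_lit 22677528327) (nat_lit 152) (nat_lit 118911516848) (nat_lit 0) (nat_lit 7280775134) (nat_lit 4) (nat_lit 5) (nat_lit 6) (nat_lit 4) (nat_lit 4) (nat_lit 4) (nat_lit 365) (nat_lit 303) (nat_lit 232)) (XT.lf (nat_lit 0) (nat_lit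 37925570403) (nat_lit 152) (nat_lit 99153934257) (nat_lit 0) (nat_lit 22523965977) (nat_lit 4) (nat_lit 5) (nat_lit 6) (nat_lit 4) (nat_lit 4) (nat_lit 4) (nat_lit 366) (nat_lit 303) (nat_lit 231)))))) (XT.nd (nat_lit 312) (nat_lit 76) (nat_lit 0) (XT.nd (nat_lit 156) (nat_lit 0) (nat_lit 0) (XT.nd (nat_lit 78) (nat_lit 0) (nat_lit 0) (XT.lf (nat_lit 0) (nat_lit 54384662682) (nat_lit 152) (nat_lit 77833288750) (nat_lit 0) (nat_lit 38978566373) (nat_lit 4) (nat_lit 5) (nat_lit 6) (nat_lit 4) (nat_lit 4) (nat_lit 4) (nat_lit 367) (nat_lit 303) (nat_lit 230)) (XT.lf (nat_lit 0) (nat_lit 72152340523) (nat_lit 152) (nat_lit 54823235764) (nat_lit 0) (nat_lit 56742085065) (nat_lit 4) (nat_lit 5) (nat_lit 6) (nat_lit 4) (nat_lit 4) (nat_lit 4) (nat_lit 368) (nat_lit 303) (nat_lit 229))) (XT.nd (nat_lit 78) (nat_lit 0) (nat_lit 0) (XT.lf (nat_lit 0) (nat_lit 91333893871) (nat_lit 152) (nat_lit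 29987419427) (nat_lit 0) (nat_lit 75919787347) (nat_lit 4) (nat_lit 5) (nat_lit 6) (nat_lit 4) (nat_lit 4) (nat_lit 4) (nat_lit 369) (nat_lit 303) (nat_lit 228)) (XT.lf (nat_lit 0) (nat_lit 112042991189) (nat_lit 152) (nat_lit 3178664533) (nat_lit 0) (nat_lit 96625318864) (nat_lit 4) (nat_lit 5) (nat_lit 6) (nat_lit 4) (nat_lit 4) (nat_lit 4) (nat_lit 370) (nat_lit 303) (nat_lit 227)))) (XT.nd (nat_lit 156) (nat_lit 0) (nat_lit 0) (XT.nd (nat_lit 78) (nat_lit 0) (nat_lit 0) (XT.lf (nat_lit 0) (nat_lit 27118471382) (nat_lit 76) (nat_lit 107936081561) (nat_lit 76) (nat_lit 92515107568) (nat_lit 3) (nat_lit 4) (nat_lit 4) (nat_lit 5) (nat_lit 4) (nat_lit 4) (nat_lit 371) (nat_lit 303) (nat_lit 226)) (XT.lf (nat_lit 0) (nat_lit 60007582962) (nat_lit 76) (nat_lit 99980080241) (nat_lit 76) (nat_lit 84556049148) (nat_lit 3) (nat_lit 4) (nat_lit 4) (nat_lit 5) (nat_lit 4) (nat_lit 4) (nat_lit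 372) (nat_lit 303) (nat_lit 225))) (XT.nd (nat_lit 78) (nat_lit 0) (nat_lit 0) (XT.lf (nat_lit 0) (nat_lit 95516185802) (nat_lit 76) (nat_lit 91393415409) (nat_lit 76) (nat_lit 75966553669) (nat_lit 3) (nat_lit 4) (nat_lit 4) (nat_lit 5) (nat_lit 4) (nat_lit 4) (nat_lit 373) (nat_lit 303) (nat_lit 224)) (XT.nd (nat_lit 78) (nat_lit 0) (nat_lit 0) (XT.lf (nat_lit 0) (nat_lit 133854701254) (nat_lit 76) (nat_lit 82125203126) (nat_lit 76) (nat_lit 66695720416) (nat_lit 3) (nat_lit 4) (nat_lit 4) (nat_lit 5) (nat_lit 4) (nat_lit 4) (nat_lit 374) (nat_lit 303) (nat_lit 223)) (XT.lf (nat_lit 0) (nat_lit 175250320519) (nat_lit 76) (nat_lit 72120520654) (nat_lit 76) (nat_lit 56688611119) (nat_lit 3) (nat_lit 4) (nat_lit 4) (nat_lit 5) (nat_lit 4) (nat_lit 4) (nat_lit 375) (nat_lit 303) (nat_lit 222))))))))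
noncomputable def xc107 : XT := (XT.nd (nat_lit 1404) (nat_lit 0) (nat_lit 0) (XT.nd (nat_lit 702) (nat_lit 0) (nat_lit 0) (XT.nd (nat_lit 312) (nat_lit 152) (nat_lit 0) (XT.nd (nat_lit 156) (nat_lit 0) (nat_lit 0) (XT.nd (nat_lit 78) (nat_lit 0) (nat_lit 0) (XT.lf (nat_lit 0) (nat_lit 219948350970) (nat_lit 76) (nat_lit 61320080983) (nat_lit 76) (nat_lit 45885924388) (nat_lit 3) (nat_lit 4) (nat_lit 4) (nat_lit 5) (nat_lit 4) (nat_lit 4) (nat_lit 376) (nat_lit 303) (nat_lit 221)) (XT.lf (nat_lit 0) (nat_lit 268213669827) (nat_lit 76) (nat_lit 49659881509) (nat_lit 76) (nat_lit 34223644304) (nat_lit 3) (nat_lit 4) (nat_lit 4) (nat_lit 5) (nat_lit 4) (nat_lit 4) (nat_lit 377) (nat_lit 303) (nat_lit 220))) (XT.nd (nat_lit 78) (nat_lit 0) (nat_lit 0) (XT.lf (nat_lit 0) (nat_lit 320332293792) (nat_lit 76) (nat_lit 37070824754) (nat_lit 76) (nat_lit 21632661057) (nat_lit 3) (nat_lit 4) (nat_lit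 4) (nat_lit 5) (nat_lit 4) (nat_lit 4) (nat_lit 378) (nat_lit 303) (nat_lit 219)) (XT.lf (nat_lit 0) (nat_lit 376613073971) (nat_lit 76) (nat_lit 23478308900) (nat_lit 76) (nat_lit 8038361415) (nat_lit 3) (nat_lit 4) (nat_lit 4) (nat_lit 5) (nat_lit 4) (nat_lit 4) (nat_lit 379) (nat_lit 303) (nat_lit 218)))) (XT.nd (nat_lit 156) (nat_lit 0) (nat_lit 0) (XT.nd (nat_lit 78) (nat_lit 76) (nat_lit 0) (XT.lf (nat_lit 0) (nat_lit 6307663077) (nat_lit 152) (nat_lit 2321659940) (nat_lit 76) (nat_lit 430909400334) (nat_lit 2) (nat_lit 5) (nat_lit 4) (nat_lit 5) (nat_lit 3) (nat_lit 4) (nat_lit 380) (nat_lit 303) (nat_lit 217)) (XT.lf (nat_lit 0) (nat_lit 22300443295) (nat_lit 152) (nat_lit 443067356177) (nat_lit 0) (nat_lit 8001250284) (nat_lit 1) (nat_lit 5) (nat_lit 3) (nat_lit 4) (nat_lit 1) (nat_lit 4) (nat_lit 381) (nat_lit 303) (nat_lit 216))) (XT.nd (nat_lit 78) (nat_lit 0) (nat_lit 0)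 (XT.lf (nat_lit 0) (nat_lit 39858695991) (nat_lit 152) (nat_lit 444466030832) (nat_lit 0) (nat_lit 25558191842) (nat_lit 1) (nat_lit 5) (nat_lit 3) (nat_lit 4) (nat_lit 1) (nat_lit 4) (nat_lit 382) (nat_lit 303) (nat_lit 215)) (XT.nd (nat_lit 78) (nat_lit 0) (nat_lit 0) (XT.lf (nat_lit 0) (nat_lit 58818631789) (nat_lit 152) (nat_lit 445982590213) (nat_lit 0) (nat_lit 44516913624) (nat_lit 1) (nat_lit 5) (nat_lit 3) (nat_lit 4) (nat_lit 1) (nat_lit 4) (nat_lit 383) (nat_lit 303) (nat_lit 214)) (XT.lf (nat_lit 0) (nat_lit 79292605863) (nat_lit 152) (nat_lit 447626021338) (nat_lit 0) (nat_lit 64989763609) (nat_lit 1) (nat_lit 5) (nat_lit 3) (nat_lit 4) (nat_lit 1) (nat_lit 4) (nat_lit 384) (nat_lit 303) (nat_lit 213)))))) (XT.nd (nat_lit 312) (nat_lit 0) (nat_lit 0) (XT.nd (nat_lit 156) (nat_lit 0) (nat_lit 0) (XT.nd (nat_lit 78) (nat_lit 0) (nat_lit 0) (XT.lf (nat_lit 0) (nat_lit 101401945467)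 (nat_lit 152) (nat_lit 449406063058) (nat_lit 0) (nat_lit 87098062390) (nat_lit 1) (nat_lit 5) (nat_lit 3) (nat_lit 4) (nat_lit 1) (nat_lit 4) (nat_lit 385) (nat_lit 303) (nat_lit 212)) (XT.lf (nat_lit 0) (nat_lit 125277668911) (nat_lit 152) (nat_lit 451333263769) (nat_lit 0) (nat_lit 110972822108) (nat_lit 1) (nat_lit 5) (nat_lit 3) (nat_lit 4) (nat_lit 1) (nat_lit 4) (nat_lit 386) (nat_lit 303) (nat_lit 211))) (XT.nd (nat_lit 78) (nat_lit 0) (nat_lit 0) (XT.lf (nat_lit 0) (nat_lit 151061261962) (nat_lit 152) (nat_lit 453419043919) (nat_lit 0) (nat_lit 136755522821) (nat_lit 1) (nat_lit 5) (nat_lit 3) (nat_lit 4) (nat_lit 1) (nat_lit 4) (nat_lit 387) (nat_lit 303) (nat_lit 210)) (XT.lf (nat_lit 0) (nat_lit 178905516283) (nat_lit 152) (nat_lit 455675763686) (nat_lit 0) (nat_lit 164598950903) (nat_lit 1) (nat_lit 5) (nat_lit 3) (nat_lit 4) (nat_lit 1) (nat_lit 4) (nat_lit 388) (nat_lit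 303) (nat_lit 209)))) (XT.nd (nat_lit 156) (nat_lit 0) (nat_lit 0) (XT.nd (nat_lit 78) (nat_lit 0) (nat_lit 0) (XT.lf (nat_lit 0) (nat_lit 208975434862) (nat_lit 152) (nat_lit 458116796226) (nat_lit 0) (nat_lit 194668104446) (nat_lit 1) (nat_lit 5) (nat_lit 3) (nat_lit 4) (nat_lit 1) (nat_lit 4) (nat_lit 389) (nat_lit 303) (nat_lit 208)) (XT.lf (nat_lit 0) (nat_lit 241449209811) (nat_lit 152) (nat_lit 460756606916) (nat_lit 0) (nat_lit 227141171028) (nat_lit 1) (nat_lit 5) (nat_lit 3) (nat_lit 4) (nat_lit 1) (nat_lit 4) (nat_lit 390) (nat_lit 303) (nat_lit 207))) (XT.nd (nat_lit 78) (nat_lit 0) (nat_lit 0) (XT.lf (nat_lit 0) (nat_lit 276519278313) (nat_lit 152) (nat_lit 463610839079) (nat_lit 0) (nat_lit 262210583634) (nat_lit 1) (nat_lit 5) (nat_lit 3) (nat_lit 4) (nat_lit 1) (nat_lit 4) (nat_lit 391) (nat_lit 303) (nat_lit 206)) (XT.nd (nat_lit 78) (nat_lit 0) (nat_lit 0) (XT.lf (nat_lit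 0) (nat_lit 314393462997) (nat_lit 152) (nat_lit 466696406683) (nat_lit 0) (nat_lit 300084161008) (nat_lit 1) (nat_lit 5) (nat_lit 3) (nat_lit 4) (nat_lit 1) (nat_lit 4) (nat_lit 392) (nat_lit 303) (nat_lit 205)) (XT.lf (nat_lit 0) (nat_lit 355296203476) (nat_lit 152) (nat_lit 470031594573) (nat_lit 0) (nat_lit 340986339162) (nat_lit 1) (nat_lit 5) (nat_lit 3) (nat_lit 4) (nat_lit 1) (nat_lit 4) (nat_lit 393) (nat_lit 303) (nat_lit 204))))))) (XT.nd (nat_lit 702) (nat_lit 0) (nat_lit 0) (XT.nd (nat_lit 312) (nat_lit 0) (nat_lit 0) (XT.nd (nat_lit 156) (nat_lit 0) (nat_lit 0) (XT.nd (nat_lit 78) (nat_lit 0) (nat_lit 0) (XT.lf (nat_lit 0) (nat_lit 399469886359) (nat_lit 152) (nat_lit 473636166826) (nat_lit 0) (nat_lit 385159501375) (nat_lit 1) (nat_lit 5) (nat_lit 3) (nat_lit 4) (nat_lit 1) (nat_lit 4) (nat_lit 394) (nat_lit 303) (nat_lit 203)) (XT.lf (nat_lit 0) (nat_lit 447176281620)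 (nat_lit 152) (nat_lit 477531483869) (nat_lit 0) (nat_lit 432865414534) (nat_lit 1) (nat_lit 5) (nat_lit 3) (nat_lit 4) (nat_lit 1) (nat_lit 4) (nat_lit 395) (nat_lit 303) (nat_lit 202))) (XT.nd (nat_lit 78) (nat_lit 0) (nat_lit 0) (XT.lf (nat_lit 0) (nat_lit 498698093824) (nat_lit 152) (nat_lit 481740629064) (nat_lit 0) (nat_lit 484386780346) (nat_lit 1) (nat_lit 5) (nat_lit 3) (nat_lit 4) (nat_lit 1) (nat_lit 4) (nat_lit 396) (nat_lit 303) (nat_lit 201)) (XT.lf (nat_lit 0) (nat_lit 554340637412) (nat_lit 152) (nat_lit 486288545492) (nat_lit 0) (nat_lit 540028910609) (nat_lit 1) (nat_lit 5) (nat_lit 3) (nat_lit 4) (nat_lit 1) (nat_lit 4) (nat_lit 397) (nat_lit 303) (nat_lit 200)))) (XT.nd (nat_lit 156) (nat_lit 0) (nat_lit 0) (XT.nd (nat_lit 78) (nat_lit 0) (nat_lit 0) (XT.lf (nat_lit 0) (nat_lit 614433645977) (nat_lit 152) (nat_lit 491202183769) (nat_lit 0) (nat_lit 600121536465) (nat_lit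 1) (nat_lit 5) (nat_lit 3) (nat_lit 4) (nat_lit 1) (nat_lit 4) (nat_lit 398) (nat_lit 303) (nat_lit 199)) (XT.lf (nat_lit 0) (nat_lit 679333226235) (nat_lit 152) (nat_lit 496510661753) (nat_lit 0) (nat_lit 665020762363) (nat_lit 1) (nat_lit 5) (nat_lit 3) (nat_lit 4) (nat_lit 1) (nat_lit 4) (nat_lit 399) (nat_lit 303) (nat_lit 198))) (XT.nd (nat_lit 78) (nat_lit 0) (nat_lit 0) (XT.lf (nat_lit 0) (nat_lit 749423968293) (nat_lit 152) (nat_lit 502245437089) (nat_lit 0) (nat_lit 735111176310) (nat_lit 1) (nat_lit 5) (nat_lit 3) (nat_lit 4) (nat_lit 1) (nat_lit 4) (nat_lit 400) (nat_lit 303) (nat_lit 197)) (XT.nd (nat_lit 78) (nat_lit 0) (nat_lit 0) (XT.lf (nat_lit 0) (nat_lit 825121224695) (nat_lit 152) (nat_lit 508440493633) (nat_lit 0) (nat_lit 810808128906) (nat_lit 1) (nat_lit 5) (nat_lit 3) (nat_lit 4) (nat_lit 1) (nat_lit 4) (nat_lit 401) (nat_lit 303) (nat_lit 196)) (XT.lf (nat_lit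 0) (nat_lit 906873571777) (nat_lit 152) (nat_lit 515132542830) (nat_lit 0) (nat_lit 892560194685) (nat_lit 1) (nat_lit 5) (nat_lit 3) (nat_lit 4) (nat_lit 1) (nat_lit 4) (nat_lit 402) (nat_lit 303) (nat_lit 195)))))) (XT.nd (nat_lit 312) (nat_lit 0) (nat_lit 0) (XT.nd (nat_lit 156) (nat_lit 0) (nat_lit 0) (XT.nd (nat_lit 78) (nat_lit 0) (nat_lit 0) (XT.lf (nat_lit 0) (nat_lit 995165467890) (nat_lit 152) (nat_lit 522361241268) (nat_lit 0) (nat_lit 980851830333) (nat_lit 1) (nat_lit 5) (nat_lit 3) (nat_lit 4) (nat_lit 1) (nat_lit 4) (nat_lit 403) (nat_lit 303) (nat_lit 194)) (XT.lf (nat_lit 0) (nat_lit 1090520124271) (nat_lit 152) (nat_lit 530169425679) (nat_lit 0) (nat_lit 1076206245543) (nat_lit 1) (nat_lit 5) (nat_lit 3) (nat_lit 4) (nat_lit 1) (nat_lit 4) (nat_lit 404) (nat_lit 303) (nat_lit 193))) (XT.nd (nat_lit 78) (nat_lit 0) (nat_lit 0) (XT.lf (nat_lit 0) (nat_lit 1193502605551)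 (nat_lit 152) (nat_lit 538603366785) (nat_lit 0) (nat_lit 1179188503516) (nat_lit 1) (nat_lit 5) (nat_lit 3) (nat_lit 4) (nat_lit 1) (nat_lit 4) (nat_lit 405) (nat_lit 303) (nat_lit 192)) (XT.lf (nat_lit 0) (nat_lit 1304723178285) (nat_lit 152) (nat_lit 547713043496) (nat_lit 0) (nat_lit 1290408869485) (nat_lit 1) (nat_lit 5) (nat_lit 3) (nat_lit 4) (nat_lit 1) (nat_lit 4) (nat_lit 406) (nat_lit 303) (nat_lit 191)))) (XT.nd (nat_lit 156) (nat_lit 0) (nat_lit 0) (XT.nd (nat_lit 78) (nat_lit 0) (nat_lit 0) (XT.lf (nat_lit 0) (nat_lit 1424840927349) (nat_lit 152) (nat_lit 557552439082) (nat_lit 0) (nat_lit 1410526427099) (nat_lit 1) (nat_lit 5) (nat_lit 3) (nat_lit 4) (nat_lit 1) (nat_lit 4) (nat_lit 407) (nat_lit 303) (nat_lit 190)) (XT.lf (nat_lit 0) (nat_lit 1554567661626) (nat_lit 152) (nat_lit 568179861072) (nat_lit 0) (nat_lit 1540252984108) (nat_lit 1) (nat_lit 5) (nat_lit 3) (nat_lit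 4) (nat_lit 1) (nat_lit 4) (nat_lit 408) (nat_lit 303) (nat_lit 189))) (XT.nd (nat_lit 78) (nat_lit 0) (nat_lit 0) (XT.lf (nat_lit 0) (nat_lit 1694672132135) (nat_lit 152) (nat_lit 579658286781) (nat_lit 0) (nat_lit 1680357290480) (nat_lit 1) (nat_lit 5) (nat_lit 3) (nat_lit 4) (nat_lit 1) (nat_lit 4) (nat_lit 409) (nat_lit 303) (nat_lit 188)) (XT.nd (nat_lit 78) (nat_lit 0) (nat_lit 0) (XT.lf (nat_lit 0) (nat_lit 1845984587588) (nat_lit 152) (nat_lit 592055736511) (nat_lit 0) (nat_lit 1831669593954) (nat_lit 1) (nat_lit 5) (nat_lit 3) (nat_lit 4) (nat_lit 1) (nat_lit 4) (nat_lit 410) (nat_lit 303) (nat_lit 187)) (XT.lf (nat_lit 0) (nat_lit 2009401694389) (nat_lit 152) (nat_lit 605445676629) (nat_lit 0) (nat_lit 1995086560034) (nat_lit 1) (nat_lit 5) (nat_lit 3) (nat_lit 4) (nat_lit 1) (nat_lit 4) (nat_lit 411) (nat_lit 303) (nat_lit 186))))))))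
noncomputable def xc108 : XT := (XT.nd (nat_lit 39546) (nat_lit 0) (nat_lit 1596) (XT.nd (nat_lit 38844) (nat_lit 0) (nat_lit 3496) (XT.nd (nat_lit 38454) (nat_lit 0) (nat_lit 4940) (XT.nd (nat_lit 156) (nat_lit 0) (nat_lit 0) (XT.nd (nat_lit 78) (nat_lit 0) (nat_lit 0) (XT.lf (nat_lit 0) (nat_lit 2185891850208) (nat_lit 152) (nat_lit 619907454930) (nat_lit 0) (nat_lit 2171576585556) (nat_lit 1) (nat_lit 5) (nat_lit 3) (nat_lit 4) (nat_lit 1) (nat_lit 4) (nat_lit 412) (nat_lit 303) (nat_lit 185)) (XT.lf (nat_lit 0) (nat_lit 2376500922635) (nat_lit 152) (nat_lit 635526770839) (nat_lit 0) (nat_lit 2362185537337) (nat_lit 1) (nat_lit 5) (nat_lit 3) (nat_lit 4) (nat_lit 1) (nat_lit 4) (nat_lit 413) (nat_lit 303) (nat_lit 184))) (XT.nd (nat_lit 78) (nat_lit 0) (nat_lit 0) (XT.lf (nat_lit 0) (nat_lit 2582358446914) (nat_lit 152) (nat_lit 652396183267) (nat_lit 0) (nat_lit 2568042949907) (nat_lit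 1) (nat_lit 5) (nat_lit 3) (nat_lit 4) (nat_lit 1) (nat_lit 4) (nat_lit 414) (nat_lit 303) (nat_lit 183)) (XT.lf (nat_lit 0) (nat_lit 2804684319485) (nat_lit 152) (nat_lit 670615659102) (nat_lit 0) (nat_lit 2790368719043) (nat_lit 1) (nat_lit 5) (nat_lit 3) (nat_lit 4) (nat_lit 1) (nat_lit 4) (nat_lit 415) (nat_lit 303) (nat_lit 182)))) (XT.nd (nat_lit 156) (nat_lit 304) (nat_lit 0) (XT.nd (nat_lit 78) (nat_lit 0) (nat_lit 0) (XT.lf (nat_lit 0) (nat_lit 51439445) (nat_lit 380) (nat_lit 1700148781) (nat_lit 380) (nat_lit 1700148781) (nat_lit 70) (nat_lit 3) (nat_lit 75) (nat_lit 3) (nat_lit 75) (nat_lit 5) (nat_lit 304) (nat_lit 304) (nat_lit 292)) (XT.lf (nat_lit 0) (nat_lit 1936605140) (nat_lit 380) (nat_lit 75088636) (nat_lit 380) (nat_lit 5018083187) (nat_lit 70) (nat_lit 3) (nat_lit 75) (nat_lit 3) (nat_lit 75) (nat_lit 5) (nat_lit 305) (nat_lit 304) (nat_lit 291))) (XT.nd (nat_lit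 78) (nat_lit 304) (nat_lit 0) (XT.lf (nat_lit 76) (nat_lit 3597056369) (nat_lit 0) (nat_lit 223433298) (nat_lit 380) (nat_lit 3353764545) (nat_lit 71) (nat_lit 5) (nat_lit 70) (nat_lit 3) (nat_lit 75) (nat_lit 5) (nat_lit 306) (nat_lit 304) (nat_lit 290)) (XT.nd (nat_lit 78) (nat_lit 380) (nat_lit 0) (XT.lf (nat_lit 76) (nat_lit 88001962) (nat_lit 0) (nat_lit 5642380429) (nat_lit 380) (nat_lit 1610204640) (nat_lit 72) (nat_lit 5) (nat_lit 71) (nat_lit 5) (nat_lit 76) (nat_lit 5) (nat_lit 307) (nat_lit 304) (nat_lit 289)) (XT.lf (nat_lit 0) (nat_lit 200860770) (nat_lit 380) (nat_lit 3395932935) (nat_lit 456) (nat_lit 3927849648) (nat_lit 66) (nat_lit 5) (nat_lit 71) (nat_lit 5) (nat_lit 72) (nat_lit 5) (nat_lit 308) (nat_lit 304) (nat_lit 288)))))) (XT.nd (nat_lit 312) (nat_lit 1140) (nat_lit 0) (XT.nd (nat_lit 156) (nat_lit 304) (nat_lit 0) (XT.nd (nat_lit 78) (nat_lit 0) (nat_lit 76)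 (XT.lf (nat_lit 76) (nat_lit 650251001) (nat_lit 0) (nat_lit 1282908358) (nat_lit 456) (nat_lit 5798106641) (nat_lit 67) (nat_lit 5) (nat_lit 66) (nat_lit 5) (nat_lit 72) (nat_lit 5) (nat_lit 309) (nat_lit 304) (nat_lit 287)) (XT.lf (nat_lit 0) (nat_lit 3785844961) (nat_lit 380) (nat_lit 2884922199) (nat_lit 76) (nat_lit 1285343132) (nat_lit 67) (nat_lit 5) (nat_lit 72) (nat_lit 5) (nat_lit 68) (nat_lit 5) (nat_lit 310) (nat_lit 304) (nat_lit 286))) (XT.nd (nat_lit 78) (nat_lit 0) (nat_lit 0) (XT.lf (nat_lit 0) (nat_lit 1581995280) (nat_lit 380) (nat_lit 4143983937) (nat_lit 456) (nat_lit 2478042796) (nat_lit 62) (nat_lit 5) (nat_lit 67) (nat_lit 5) (nat_lit 68) (nat_lit 5) (nat_lit 311) (nat_lit 304) (nat_lit 285)) (XT.lf (nat_lit 0) (nat_lit 6462457962) (nat_lit 380) (nat_lit 1312803016) (nat_lit 456) (nat_lit 700393154) (nat_lit 62) (nat_lit 5) (nat_lit 67) (nat_lit 5) (nat_lit 68)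 (nat_lit 5) (nat_lit 312) (nat_lit 304) (nat_lit 284)))) (XT.nd (nat_lit 156) (nat_lit 608) (nat_lit 0) (XT.nd (nat_lit 78) (nat_lit 0) (nat_lit 0) (XT.lf (nat_lit 0) (nat_lit 1156096099) (nat_lit 532) (nat_lit 5837864462) (nat_lit 76) (nat_lit 1773073095) (nat_lit 55) (nat_lit 5) (nat_lit 62) (nat_lit 5) (nat_lit 56) (nat_lit 5) (nat_lit 313) (nat_lit 304) (nat_lit 283)) (XT.lf (nat_lit 0) (nat_lit 3101495612) (nat_lit 532) (nat_lit 862631348) (nat_lit 76) (nat_lit 5118043448) (nat_lit 55) (nat_lit 5) (nat_lit 62) (nat_lit 5) (nat_lit 56) (nat_lit 5) (nat_lit 314) (nat_lit 304) (nat_lit 282))) (XT.nd (nat_lit 78) (nat_lit 228) (nat_lit 0) (XT.lf (nat_lit 0) (nat_lit 4637995765) (nat_lit 380) (nat_lit 572054572) (nat_lit 456) (nat_lit 4212014674) (nat_lit 50) (nat_lit 5) (nat_lit 55) (nat_lit 5) (nat_lit 56) (nat_lit 5) (nat_lit 315) (nat_lit 304) (nat_lit 281)) (XT.nd (nat_lit 78) (nat_lit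 0) (nat_lit 0) (XT.lf (nat_lit 0) (nat_lit 690078636) (nat_lit 228) (nat_lit 6813507926) (nat_lit 304) (nat_lit 2284398600) (nat_lit 47) (nat_lit 5) (nat_lit 50) (nat_lit 5) (nat_lit 51) (nat_lit 5) (nat_lit 316) (nat_lit 304) (nat_lit 280)) (XT.lf (nat_lit 0) (nat_lit 6751426368) (nat_lit 228) (nat_lit 3280365589) (nat_lit 304) (nat_lit 147419614) (nat_lit 47) (nat_lit 5) (nat_lit 50) (nat_lit 5) (nat_lit 51) (nat_lit 5) (nat_lit 317) (nat_lit 304) (nat_lit 279))))))) (XT.nd (nat_lit 702) (nat_lit 836) (nat_lit 0) (XT.nd (nat_lit 312) (nat_lit 380) (nat_lit 0) (XT.nd (nat_lit 156) (nat_lit 380) (nat_lit 0) (XT.nd (nat_lit 78) (nat_lit 0) (nat_lit 0) (XT.lf (nat_lit 0) (nat_lit 2042783176) (nat_lit 304) (nat_lit 7941567826) (nat_lit 76) (nat_lit 614110136) (nat_lit 43) (nat_lit 5) (nat_lit 47) (nat_lit 5) (nat_lit 44) (nat_lit 5) (nat_lit 318) (nat_lit 304) (nat_lit 278)) (XT.lf (nat_lit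 0) (nat_lit 4495895931) (nat_lit 304) (nat_lit 1819888066) (nat_lit 76) (nat_lit 4727608938) (nat_lit 43) (nat_lit 5) (nat_lit 47) (nat_lit 5) (nat_lit 44) (nat_lit 5) (nat_lit 319) (nat_lit 304) (nat_lit 277))) (XT.nd (nat_lit 78) (nat_lit 228) (nat_lit 0) (XT.lf (nat_lit 0) (nat_lit 4938617660) (nat_lit 152) (nat_lit 2246060099) (nat_lit 228) (nat_lit 4336181662) (nat_lit 41) (nat_lit 5) (nat_lit 43) (nat_lit 5) (nat_lit 44) (nat_lit 5) (nat_lit 320) (nat_lit 304) (nat_lit 276)) (XT.lf (nat_lit 0) (nat_lit 160759974) (nat_lit 228) (nat_lit 9958070583) (nat_lit 304) (nat_lit 1915358003) (nat_lit 38) (nat_lit 5) (nat_lit 41) (nat_lit 5) (nat_lit 42) (nat_lit 5) (nat_lit 321) (nat_lit 304) (nat_lit 275)))) (XT.nd (nat_lit 156) (nat_lit 152) (nat_lit 0) (XT.nd (nat_lit 78) (nat_lit 152) (nat_lit 0) (XT.lf (nat_lit 0) (nat_lit 832067316) (nat_lit 304) (nat_lit 4940953276) (nat_lit 76) (nat_lit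 6800859997) (nat_lit 37) (nat_lit 5) (nat_lit 41) (nat_lit 5) (nat_lit 38) (nat_lit 5) (nat_lit 322) (nat_lit 304) (nat_lit 274)) (XT.lf (nat_lit 0) (nat_lit 2525991251) (nat_lit 152) (nat_lit 1161052803) (nat_lit 228) (nat_lit 9466493952) (nat_lit 35) (nat_lit 5) (nat_lit 37) (nat_lit 5) (nat_lit 38) (nat_lit 5) (nat_lit 323) (nat_lit 304) (nat_lit 273))) (XT.nd (nat_lit 78) (nat_lit 152) (nat_lit 0) (XT.lf (nat_lit 0) (nat_lit 6933592939) (nat_lit 228) (nat_lit 3091869359) (nat_lit 76) (nat_lit 3741115604) (nat_lit 35) (nat_lit 5) (nat_lit 38) (nat_lit 5) (nat_lit 36) (nat_lit 5) (nat_lit 324) (nat_lit 304) (nat_lit 272)) (XT.nd (nat_lit 78) (nat_lit 0) (nat_lit 0) (XT.lf (nat_lit 0) (nat_lit 5184152446) (nat_lit 152) (nat_lit 5348237103) (nat_lit 228) (nat_lit 3888928614) (nat_lit 33) (nat_lit 5) (nat_lit 35) (nat_lit 5) (nat_lit 36) (nat_lit 5) (nat_lit 325) (nat_lit 304) (nat_lit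 271)) (XT.lf (nat_lit 0) (nat_lit 14208729615) (nat_lit 152) (nat_lit 235051603) (nat_lit 228) (nat_lit 682735825) (nat_lit 33) (nat_lit 5) (nat_lit 35) (nat_lit 5) (nat_lit 36) (nat_lit 5) (nat_lit 326) (nat_lit 304) (nat_lit 270)))))) (XT.nd (nat_lit 312) (nat_lit 380) (nat_lit 0) (XT.nd (nat_lit 156) (nat_lit 76) (nat_lit 0) (XT.nd (nat_lit 78) (nat_lit 152) (nat_lit 0) (XT.lf (nat_lit 0) (nat_lit 2917757837) (nat_lit 228) (nat_lit 7673496778) (nat_lit 76) (nat_lit 5269425887) (nat_lit 30) (nat_lit 5) (nat_lit 33) (nat_lit 5) (nat_lit 31) (nat_lit 5) (nat_lit 327) (nat_lit 304) (nat_lit 269)) (XT.lf (nat_lit 0) (nat_lit 1378296838) (nat_lit 152) (nat_lit 5400715847) (nat_lit 228) (nat_lit 9872420532) (nat_lit 28) (nat_lit 5) (nat_lit 30) (nat_lit 5) (nat_lit 31) (nat_lit 5) (nat_lit 328) (nat_lit 304) (nat_lit 268))) (XT.nd (nat_lit 78) (nat_lit 76) (nat_lit 0) (XT.lf (nat_lit 0) (nat_lit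 11115255600) (nat_lit 228) (nat_lit 5997081000) (nat_lit 76) (nat_lit 379862745) (nat_lit 28) (nat_lit 5) (nat_lit 31) (nat_lit 5) (nat_lit 29) (nat_lit 4) (nat_lit 329) (nat_lit 304) (nat_lit 267)) (XT.lf (nat_lit 0) (nat_lit 3998709784) (nat_lit 76) (nat_lit 11986042322) (nat_lit 152) (nat_lit 2400603552) (nat_lit 27) (nat_lit 5) (nat_lit 28) (nat_lit 5) (nat_lit 29) (nat_lit 4) (nat_lit 330) (nat_lit 304) (nat_lit 266)))) (XT.nd (nat_lit 156) (nat_lit 152) (nat_lit 0) (XT.nd (nat_lit 78) (nat_lit 152) (nat_lit 0) (XT.lf (nat_lit 0) (nat_lit 1917741236) (nat_lit 152) (nat_lit 4334096940) (nat_lit 76) (nat_lit 13085023653) (nat_lit 26) (nat_lit 5) (nat_lit 28) (nat_lit 5) (nat_lit 27) (nat_lit 5) (nat_lit 331) (nat_lit 304) (nat_lit 265)) (XT.lf (nat_lit 0) (nat_lit 6571216173) (nat_lit 228) (nat_lit 13634022493) (nat_lit 76) (nat_lit 144742511) (nat_lit 24) (nat_lit 5) (nat_lit 27)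 (nat_lit 5) (nat_lit 25) (nat_lit 4) (nat_lit 332) (nat_lit 304) (nat_lit 264))) (XT.nd (nat_lit 78) (nat_lit 152) (nat_lit 0) (XT.lf (nat_lit 0) (nat_lit 11835892122) (nat_lit 228) (nat_lit 2781080516) (nat_lit 76) (nat_lit 6808090959) (nat_lit 24) (nat_lit 5) (nat_lit 27) (nat_lit 5) (nat_lit 25) (nat_lit 4) (nat_lit 333) (nat_lit 304) (nat_lit 263)) (XT.nd (nat_lit 78) (nat_lit 76) (nat_lit 0) (XT.lf (nat_lit 0) (nat_lit 9335377321) (nat_lit 76) (nat_lit 8369175084) (nat_lit 152) (nat_lit 4867000723) (nat_lit 23) (nat_lit 5) (nat_lit 24) (nat_lit 5) (nat_lit 25) (nat_lit 4) (nat_lit 334) (nat_lit 304) (nat_lit 262)) (XT.lf (nat_lit 0) (nat_lit 257939147) (nat_lit 152) (nat_lit 1304039079) (nat_lit 76) (nat_lit 22244425276) (nat_lit 22) (nat_lit 5) (nat_lit 24) (nat_lit 5) (nat_lit 23) (nat_lit 5) (nat_lit 335) (nat_lit 304) (nat_lit 261))))))))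
noncomputable def xc109 : XT := (XT.nd (nat_lit 1404) (nat_lit 456) (nat_lit 0) (XT.nd (nat_lit 702) (nat_lit 380) (nat_lit 0) (XT.nd (nat_lit 312) (nat_lit 304) (nat_lit 0) (XT.nd (nat_lit 156) (nat_lit 76) (nat_lit 0) (XT.nd (nat_lit 78) (nat_lit 0) (nat_lit 0) (XT.lf (nat_lit 0) (nat_lit 5929302410) (nat_lit 228) (nat_lit 13270032056) (nat_lit 76) (nat_lit 5898664492) (nat_lit 20) (nat_lit 5) (nat_lit 23) (nat_lit 5) (nat_lit 21) (nat_lit 4) (nat_lit 336) (nat_lit 304) (nat_lit 260)) (XT.lf (nat_lit 0) (nat_lit 12093822199) (nat_lit 228) (nat_lit 514244923) (nat_lit 76) (nat_lit 13881717756) (nat_lit 20) (nat_lit 5) (nat_lit 23) (nat_lit 5) (nat_lit 21) (nat_lit 4) (nat_lit 337) (nat_lit 304) (nat_lit 259))) (XT.nd (nat_lit 78) (nat_lit 0) (nat_lit 0) (XT.lf (nat_lit 0) (nat_lit 13894691016) (nat_lit 76) (nat_lit 5156068880) (nat_lit 152) (nat_lit 8918230513) (nat_lit 19) (nat_lit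 5) (nat_lit 20) (nat_lit 5) (nat_lit 21) (nat_lit 4) (nat_lit 338) (nat_lit 304) (nat_lit 258)) (XT.lf (nat_lit 0) (nat_lit 26613795632) (nat_lit 152) (nat_lit 212612991) (nat_lit 0) (nat_lit 2736176286) (nat_lit 19) (nat_lit 5) (nat_lit 21) (nat_lit 4) (nat_lit 19) (nat_lit 4) (nat_lit 339) (nat_lit 304) (nat_lit 257)))) (XT.nd (nat_lit 156) (nat_lit 152) (nat_lit 0) (XT.nd (nat_lit 78) (nat_lit 0) (nat_lit 0) (XT.lf (nat_lit 0) (nat_lit 3806220714) (nat_lit 152) (nat_lit 16009496552) (nat_lit 76) (nat_lit 11422592197) (nat_lit 17) (nat_lit 5) (nat_lit 19) (nat_lit 5) (nat_lit 18) (nat_lit 4) (nat_lit 340) (nat_lit 304) (nat_lit 256)) (XT.lf (nat_lit 0) (nat_lit 10916580053) (nat_lit 152) (nat_lit 1265149401) (nat_lit 76) (nat_lit 20862307070) (nat_lit 17) (nat_lit 5) (nat_lit 19) (nat_lit 5) (nat_lit 18) (nat_lit 4) (nat_lit 341) (nat_lit 304) (nat_lit 255))) (XT.nd (nat_lit 78) (nat_lit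 76) (nat_lit 0) (XT.lf (nat_lit 0) (nat_lit 15373704239) (nat_lit 76) (nat_lit 3562445882) (nat_lit 152) (nat_lit 16030852804) (nat_lit 16) (nat_lit 5) (nat_lit 17) (nat_lit 5) (nat_lit 18) (nat_lit 4) (nat_lit 342) (nat_lit 304) (nat_lit 254)) (XT.nd (nat_lit 78) (nat_lit 76) (nat_lit 0) (XT.lf (nat_lit 0) (nat_lit 27741942888) (nat_lit 152) (nat_lit 3818951722) (nat_lit 0) (nat_lit 5471350330) (nat_lit 16) (nat_lit 5) (nat_lit 18) (nat_lit 4) (nat_lit 16) (nat_lit 4) (nat_lit 343) (nat_lit 304) (nat_lit 253)) (XT.lf (nat_lit 0) (nat_lit 13762889571) (nat_lit 76) (nat_lit 23885955612) (nat_lit 76) (nat_lit 1582139505) (nat_lit 15) (nat_lit 4) (nat_lit 16) (nat_lit 5) (nat_lit 16) (nat_lit 4) (nat_lit 344) (nat_lit 304) (nat_lit 252)))))) (XT.nd (nat_lit 312) (nat_lit 152) (nat_lit 0) (XT.nd (nat_lit 156) (nat_lit 76) (nat_lit 0) (XT.nd (nat_lit 78) (nat_lit 76) (nat_lit 0) (XT.lf (nat_lit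 0) (nat_lit 6485750204) (nat_lit 152) (nat_lit 8844218228) (nat_lit 76) (nat_lit 26256261280) (nat_lit 14) (nat_lit 5) (nat_lit 16) (nat_lit 5) (nat_lit 15) (nat_lit 4) (nat_lit 345) (nat_lit 304) (nat_lit 251)) (XT.lf (nat_lit 0) (nat_lit 9496743898) (nat_lit 76) (nat_lit 5820470712) (nat_lit 152) (nat_lit 28793110541) (nat_lit 13) (nat_lit 5) (nat_lit 14) (nat_lit 5) (nat_lit 15) (nat_lit 4) (nat_lit 346) (nat_lit 304) (nat_lit 250))) (XT.nd (nat_lit 78) (nat_lit 76) (nat_lit 0) (XT.lf (nat_lit 0) (nat_lit 25185753965) (nat_lit 152) (nat_lit 17169362711) (nat_lit 0) (nat_lit 4454794320) (nat_lit 13) (nat_lit 5) (nat_lit 15) (nat_lit 4) (nat_lit 13) (nat_lit 4) (nat_lit 347) (nat_lit 304) (nat_lit 249)) (XT.lf (nat_lit 0) (nat_lit 1553378828) (nat_lit 76) (nat_lit 34456199315) (nat_lit 76) (nat_lit 13702628281) (nat_lit 12) (nat_lit 4) (nat_lit 13) (nat_lit 5) (nat_lit 13) (nat_lit 4)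 (nat_lit 348) (nat_lit 304) (nat_lit 248)))) (XT.nd (nat_lit 156) (nat_lit 76) (nat_lit 0) (XT.nd (nat_lit 78) (nat_lit 76) (nat_lit 0) (XT.lf (nat_lit 0) (nat_lit 22707939105) (nat_lit 76) (nat_lit 25438735461) (nat_lit 76) (nat_lit 4664227955) (nat_lit 12) (nat_lit 4) (nat_lit 13) (nat_lit 5) (nat_lit 13) (nat_lit 4) (nat_lit 349) (nat_lit 304) (nat_lit 247)) (XT.lf (nat_lit 0) (nat_lit 4821283773) (nat_lit 152) (nat_lit 10765622879) (nat_lit 76) (nat_lit 40562464049) (nat_lit 11) (nat_lit 5) (nat_lit 13) (nat_lit 5) (nat_lit 12) (nat_lit 4) (nat_lit 350) (nat_lit 304) (nat_lit 246))) (XT.nd (nat_lit 78) (nat_lit 0) (nat_lit 0) (XT.lf (nat_lit 0) (nat_lit 10484628669) (nat_lit 76) (nat_lit 4561751833) (nat_lit 152) (nat_lit 44680230280) (nat_lit 10) (nat_lit 5) (nat_lit 11) (nat_lit 5) (nat_lit 12) (nat_lit 4) (nat_lit 351) (nat_lit 304) (nat_lit 245)) (XT.nd (nat_lit 78) (nat_lit 0)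 (nat_lit 0) (XT.lf (nat_lit 0) (nat_lit 26548855376) (nat_lit 152) (nat_lit 29741188073) (nat_lit 0) (nat_lit 7263241651) (nat_lit 10) (nat_lit 5) (nat_lit 12) (nat_lit 4) (nat_lit 10) (nat_lit 4) (nat_lit 352) (nat_lit 304) (nat_lit 244)) (XT.lf (nat_lit 0) (nat_lit 39072160018) (nat_lit 152) (nat_lit 8833589837) (nat_lit 0) (nat_lit 19772297282) (nat_lit 10) (nat_lit 5) (nat_lit 12) (nat_lit 4) (nat_lit 10) (nat_lit 4) (nat_lit 353) (nat_lit 304) (nat_lit 243))))))) (XT.nd (nat_lit 702) (nat_lit 152) (nat_lit 0) (XT.nd (nat_lit 312) (nat_lit 76) (nat_lit 0) (XT.nd (nat_lit 156) (nat_lit 152) (nat_lit 0) (XT.nd (nat_lit 78) (nat_lit 0) (nat_lit 0) (XT.lf (nat_lit 0) (nat_lit 14436596752) (nat_lit 76) (nat_lit 38491400109) (nat_lit 76) (nat_lit 19178343844) (nat_lit 9) (nat_lit 4) (nat_lit 10) (nat_lit 5) (nat_lit 10) (nat_lit 4) (nat_lit 354) (nat_lit 304) (nat_lit 242)) (XT.lf (nat_lit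 0) (nat_lit 40039390908) (nat_lit 76) (nat_lit 28078372993) (nat_lit 76) (nat_lit 8753100498) (nat_lit 9) (nat_lit 4) (nat_lit 10) (nat_lit 5) (nat_lit 10) (nat_lit 4) (nat_lit 355) (nat_lit 304) (nat_lit 241))) (XT.nd (nat_lit 78) (nat_lit 76) (nat_lit 0) (XT.lf (nat_lit 0) (nat_lit 2365531444) (nat_lit 152) (nat_lit 14416278413) (nat_lit 76) (nat_lit 65231142439) (nat_lit 8) (nat_lit 5) (nat_lit 10) (nat_lit 5) (nat_lit 9) (nat_lit 4) (nat_lit 356) (nat_lit 304) (nat_lit 240)) (XT.lf (nat_lit 0) (nat_lit 10039335610) (nat_lit 76) (nat_lit 4088737888) (nat_lit 152) (nat_lit 73401963259) (nat_lit 7) (nat_lit 5) (nat_lit 8) (nat_lit 5) (nat_lit 9) (nat_lit 4) (nat_lit 357) (nat_lit 304) (nat_lit 239)))) (XT.nd (nat_lit 156) (nat_lit 76) (nat_lit 0) (XT.nd (nat_lit 78) (nat_lit 0) (nat_lit 0) (XT.lf (nat_lit 0) (nat_lit 27453328341) (nat_lit 152) (nat_lit 56455018463) (nat_lit 0) (nat_lit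 9530407134) (nat_lit 7) (nat_lit 5) (nat_lit 9) (nat_lit 4) (nat_lit 7) (nat_lit 4) (nat_lit 358) (nat_lit 304) (nat_lit 238)) (XT.lf (nat_lit 0) (nat_lit 41937794182) (nat_lit 152) (nat_lit 33868362768) (nat_lit 0) (nat_lit 24006558813) (nat_lit 7) (nat_lit 5) (nat_lit 9) (nat_lit 4) (nat_lit 7) (nat_lit 4) (nat_lit 359) (nat_lit 304) (nat_lit 237))) (XT.nd (nat_lit 78) (nat_lit 76) (nat_lit 0) (XT.lf (nat_lit 0) (nat_lit 57568970647) (nat_lit 152) (nat_lit 9498552971) (nat_lit 0) (nat_lit 39630036981) (nat_lit 7) (nat_lit 5) (nat_lit 9) (nat_lit 4) (nat_lit 7) (nat_lit 4) (nat_lit 360) (nat_lit 304) (nat_lit 236)) (XT.nd (nat_lit 78) (nat_lit 0) (nat_lit 0) (XT.lf (nat_lit 0) (nat_lit 17683420952) (nat_lit 76) (nat_lit 57181352677) (nat_lit 76) (nat_lit 39235290958) (nat_lit 6) (nat_lit 4) (nat_lit 7) (nat_lit 5) (nat_lit 7) (nat_lit 4) (nat_lit 361) (nat_lit 304) (nat_lit 235)) (XT.lf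 (nat_lit 0) (nat_lit 47558684312) (nat_lit 76) (nat_lit 46234419650) (nat_lit 76) (nat_lit 28281757882) (nat_lit 6) (nat_lit 4) (nat_lit 7) (nat_lit 5) (nat_lit 7) (nat_lit 4) (nat_lit 362) (nat_lit 304) (nat_lit 234)))))) (XT.nd (nat_lit 312) (nat_lit 0) (nat_lit 0) (XT.nd (nat_lit 156) (nat_lit 152) (nat_lit 0) (XT.nd (nat_lit 78) (nat_lit 0) (nat_lit 0) (XT.lf (nat_lit 0) (nat_lit 79804098741) (nat_lit 76) (nat_lit 34421561094) (nat_lit 76) (nat_lit 16462788170) (nat_lit 6) (nat_lit 4) (nat_lit 7) (nat_lit 5) (nat_lit 7) (nat_lit 4) (nat_lit 363) (nat_lit 304) (nat_lit 233)) (XT.lf (nat_lit 0) (nat_lit 114610748175) (nat_lit 76) (nat_lit 21672774884) (nat_lit 76) (nat_lit 3708343481) (nat_lit 6) (nat_lit 4) (nat_lit 7) (nat_lit 5) (nat_lit 7) (nat_lit 4) (nat_lit 364) (nat_lit 304) (nat_lit 232))) (XT.nd (nat_lit 78) (nat_lit 0) (nat_lit 0) (XT.lf (nat_lit 0) (nat_lit 2002967050) (nat_lit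 76) (nat_lit 7599262653) (nat_lit 152) (nat_lit 140414815413) (nat_lit 4) (nat_lit 5) (nat_lit 5) (nat_lit 5) (nat_lit 6) (nat_lit 4) (nat_lit 365) (nat_lit 304) (nat_lit 231)) (XT.lf (nat_lit 0) (nat_lit 24663281848) (nat_lit 152) (nat_lit 128082167493) (nat_lit 0) (nat_lit 8020205952) (nat_lit 4) (nat_lit 5) (nat_lit 6) (nat_lit 4) (nat_lit 4) (nat_lit 4) (nat_lit 366) (nat_lit 304) (nat_lit 230)))) (XT.nd (nat_lit 156) (nat_lit 0) (nat_lit 0) (XT.nd (nat_lit 78) (nat_lit 0) (nat_lit 0) (XT.lf (nat_lit 0) (nat_lit 41118459790) (nat_lit 152) (nat_lit 106769331679) (nat_lit 0) (nat_lit 24471224744) (nat_lit 4) (nat_lit 5) (nat_lit 6) (nat_lit 4) (nat_lit 4) (nat_lit 4) (nat_lit 367) (nat_lit 304) (nat_lit 229)) (XT.lf (nat_lit 0) (nat_lit 58882513246) (nat_lit 152) (nat_lit 83766509890) (nat_lit 0) (nat_lit 42231427135) (nat_lit 4) (nat_lit 5) (nat_lit 6) (nat_lit 4) (nat_lit 4) (nat_lit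 4) (nat_lit 368) (nat_lit 304) (nat_lit 228))) (XT.nd (nat_lit 78) (nat_lit 0) (nat_lit 0) (XT.lf (nat_lit 0) (nat_lit 78060710682) (nat_lit 152) (nat_lit 58937389106) (nat_lit 0) (nat_lit 61406058770) (nat_lit 4) (nat_lit 5) (nat_lit 6) (nat_lit 4) (nat_lit 4) (nat_lit 4) (nat_lit 369) (nat_lit 304) (nat_lit 227)) (XT.nd (nat_lit 78) (nat_lit 0) (nat_lit 0) (XT.lf (nat_lit 0) (nat_lit 98766700674) (nat_lit 152) (nat_lit 32134833797) (nat_lit 0) (nat_lit 82108747094) (nat_lit 4) (nat_lit 5) (nat_lit 6) (nat_lit 4) (nat_lit 4) (nat_lit 4) (nat_lit 370) (nat_lit 304) (nat_lit 226)) (XT.lf (nat_lit 0) (nat_lit 121123185386) (nat_lit 152) (nat_lit 3200014007) (nat_lit 0) (nat_lit 104462174706) (nat_lit 4) (nat_lit 5) (nat_lit 6) (nat_lit 4) (nat_lit 4) (nat_lit 4) (nat_lit 371) (nat_lit 304) (nat_lit 225))))))))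
noncomputable def xc110 : XT := (XT.nd (nat_lit 1404) (nat_lit 0) (nat_lit 0) (XT.nd (nat_lit 702) (nat_lit 152) (nat_lit 0) (XT.nd (nat_lit 312) (nat_lit 0) (nat_lit 0) (XT.nd (nat_lit 156) (nat_lit 0) (nat_lit 0) (XT.nd (nat_lit 78) (nat_lit 0) (nat_lit 0) (XT.lf (nat_lit 0) (nat_lit 29514995474) (nat_lit 76) (nat_lit 116457488566) (nat_lit 76) (nat_lit 99793647239) (nat_lit 3) (nat_lit 4) (nat_lit 4) (nat_lit 5) (nat_lit 4) (nat_lit 4) (nat_lit 372) (nat_lit 304) (nat_lit 224)) (XT.lf (nat_lit 0) (nat_lit 65018417729) (nat_lit 76) (nat_lit 107873413030) (nat_lit 76) (nat_lit 91206950733) (nat_lit 3) (nat_lit 4) (nat_lit 4) (nat_lit 5) (nat_lit 4) (nat_lit 4) (nat_lit 373) (nat_lit 304) (nat_lit 223))) (XT.nd (nat_lit 78) (nat_lit 0) (nat_lit 0) (XT.lf (nat_lit 0) (nat_lit 103352136343) (nat_lit 76) (nat_lit 98607598244) (nat_lit 76) (nat_lit 81938709122) (nat_lit 3) (nat_lit 4) (nat_lit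 4) (nat_lit 5) (nat_lit 4) (nat_lit 4) (nat_lit 374) (nat_lit 304) (nat_lit 222)) (XT.lf (nat_lit 0) (nat_lit 144743314091) (nat_lit 76) (nat_lit 88605135675) (nat_lit 76) (nat_lit 71933999493) (nat_lit 3) (nat_lit 4) (nat_lit 4) (nat_lit 5) (nat_lit 4) (nat_lit 4) (nat_lit 375) (nat_lit 304) (nat_lit 221)))) (XT.nd (nat_lit 156) (nat_lit 0) (nat_lit 0) (XT.nd (nat_lit 78) (nat_lit 0) (nat_lit 0) (XT.lf (nat_lit 0) (nat_lit 189437232028) (nat_lit 76) (nat_lit 77806751471) (nat_lit 76) (nat_lit 61133534679) (nat_lit 3) (nat_lit 4) (nat_lit 4) (nat_lit 5) (nat_lit 4) (nat_lit 4) (nat_lit 376) (nat_lit 304) (nat_lit 220)) (XT.lf (nat_lit 0) (nat_lit 237698743000) (nat_lit 76) (nat_lit 66148455207) (nat_lit 76) (nat_lit 49473311923) (nat_lit 3) (nat_lit 4) (nat_lit 4) (nat_lit 5) (nat_lit 4) (nat_lit 4) (nat_lit 377) (nat_lit 304) (nat_lit 219))) (XT.nd (nat_lit 78) (nat_lit 0) (nat_lit 0)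 (XT.lf (nat_lit 0) (nat_lit 289813841146) (nat_lit 76) (nat_lit 53561160683) (nat_lit 76) (nat_lit 36884233611) (nat_lit 3) (nat_lit 4) (nat_lit 4) (nat_lit 5) (nat_lit 4) (nat_lit 4) (nat_lit 378) (nat_lit 304) (nat_lit 218)) (XT.nd (nat_lit 78) (nat_lit 0) (nat_lit 0) (XT.lf (nat_lit 0) (nat_lit 346091356678) (nat_lit 76) (nat_lit 39970276525) (nat_lit 76) (nat_lit 23291697797) (nat_lit 3) (nat_lit 4) (nat_lit 4) (nat_lit 5) (nat_lit 4) (nat_lit 4) (nat_lit 379) (nat_lit 304) (nat_lit 217)) (XT.lf (nat_lit 0) (nat_lit 406864785983) (nat_lit 76) (nat_lit 25295264158) (nat_lit 76) (nat_lit 8615156119) (nat_lit 3) (nat_lit 4) (nat_lit 4) (nat_lit 5) (nat_lit 4) (nat_lit 4) (nat_lit 380) (nat_lit 304) (nat_lit 216)))))) (XT.nd (nat_lit 312) (nat_lit 0) (nat_lit 0) (XT.nd (nat_lit 156) (nat_lit 0) (nat_lit 0) (XT.nd (nat_lit 78) (nat_lit 76) (nat_lit 0) (XT.lf (nat_lit 0) (nat_lit 6870571405)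 (nat_lit 152) (nat_lit 2390735544) (nat_lit 76) (nat_lit 465435842900) (nat_lit 2) (nat_lit 5) (nat_lit 4) (nat_lit 5) (nat_lit 3) (nat_lit 4) (nat_lit 381) (nat_lit 304) (nat_lit 215)) (XT.lf (nat_lit 0) (nat_lit 24142561114) (nat_lit 152) (nat_lit 478395867381) (nat_lit 0) (nat_lit 8695491479) (nat_lit 1) (nat_lit 5) (nat_lit 3) (nat_lit 4) (nat_lit 1) (nat_lit 4) (nat_lit 382) (nat_lit 304) (nat_lit 214))) (XT.nd (nat_lit 78) (nat_lit 0) (nat_lit 0) (XT.lf (nat_lit 0) (nat_lit 43101171629) (nat_lit 152) (nat_lit 479915093586) (nat_lit 0) (nat_lit 27652977906) (nat_lit 1) (nat_lit 5) (nat_lit 3) (nat_lit 4) (nat_lit 1) (nat_lit 4) (nat_lit 383) (nat_lit 304) (nat_lit 213)) (XT.lf (nat_lit 0) (nat_lit 63573918590) (nat_lit 152) (nat_lit 481560993992) (nat_lit 0) (nat_lit 48124684043) (nat_lit 1) (nat_lit 5) (nat_lit 3) (nat_lit 4) (nat_lit 1) (nat_lit 4) (nat_lit 384) (nat_lit 304) (nat_lit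 212)))) (XT.nd (nat_lit 156) (nat_lit 0) (nat_lit 0) (XT.nd (nat_lit 78) (nat_lit 0) (nat_lit 0) (XT.lf (nat_lit 0) (nat_lit 85682121978) (nat_lit 152) (nat_lit 483343322084) (nat_lit 0) (nat_lit 70231923706) (nat_lit 1) (nat_lit 5) (nat_lit 3) (nat_lit 4) (nat_lit 1) (nat_lit 4) (nat_lit 385) (nat_lit 304) (nat_lit 211)) (XT.lf (nat_lit 0) (nat_lit 109556793370) (nat_lit 152) (nat_lit 485272639805) (nat_lit 0) (nat_lit 94105702759) (nat_lit 1) (nat_lit 5) (nat_lit 3) (nat_lit 4) (nat_lit 1) (nat_lit 4) (nat_lit 386) (nat_lit 304) (nat_lit 210))) (XT.nd (nat_lit 78) (nat_lit 0) (nat_lit 0) (XT.lf (nat_lit 0) (nat_lit 135339412299) (nat_lit 152) (nat_lit 487360380150) (nat_lit 0) (nat_lit 119887495449) (nat_lit 1) (nat_lit 5) (nat_lit 3) (nat_lit 4) (nat_lit 1) (nat_lit 4) (nat_lit 387) (nat_lit 304) (nat_lit 209)) (XT.nd (nat_lit 78) (nat_lit 0) (nat_lit 0) (XT.lf (nat_lit 0) (nat_lit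 163182764655) (nat_lit 152) (nat_lit 489618914914) (nat_lit 0) (nat_lit 147730082769) (nat_lit 1) (nat_lit 5) (nat_lit 3) (nat_lit 4) (nat_lit 1) (nat_lit 4) (nat_lit 388) (nat_lit 304) (nat_lit 208)) (XT.lf (nat_lit 0) (nat_lit 193251848082) (nat_lit 152) (nat_lit 492061628005) (nat_lit 0) (nat_lit 177798457829) (nat_lit 1) (nat_lit 5) (nat_lit 3) (nat_lit 4) (nat_lit 1) (nat_lit 4) (nat_lit 389) (nat_lit 304) (nat_lit 207))))))) (XT.nd (nat_lit 702) (nat_lit 0) (nat_lit 0) (XT.nd (nat_lit 312) (nat_lit 0) (nat_lit 0) (XT.nd (nat_lit 156) (nat_lit 0) (nat_lit 0) (XT.nd (nat_lit 78) (nat_lit 0) (nat_lit 0) (XT.lf (nat_lit 0) (nat_lit 225724849741) (nat_lit 152) (nat_lit 494702994761) (nat_lit 0) (nat_lit 210270803593) (nat_lit 1) (nat_lit 5) (nat_lit 3) (nat_lit 4) (nat_lit 1) (nat_lit 4) (nat_lit 390) (nat_lit 304) (nat_lit 206)) (XT.lf (nat_lit 0) (nat_lit 260794202234) (nat_lit 152)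 (nat_lit 497558667726) (nat_lit 0) (nat_lit 245339548776) (nat_lit 1) (nat_lit 5) (nat_lit 3) (nat_lit 4) (nat_lit 1) (nat_lit 4) (nat_lit 391) (nat_lit 304) (nat_lit 205))) (XT.nd (nat_lit 78) (nat_lit 0) (nat_lit 0) (XT.lf (nat_lit 0) (nat_lit 298667723947) (nat_lit 152) (nat_lit 500645569406) (nat_lit 0) (nat_lit 283212508164) (nat_lit 1) (nat_lit 5) (nat_lit 3) (nat_lit 4) (nat_lit 1) (nat_lit 4) (nat_lit 392) (nat_lit 304) (nat_lit 204)) (XT.lf (nat_lit 0) (nat_lit 339569850563) (nat_lit 152) (nat_lit 503981992552) (nat_lit 0) (nat_lit 324114114110) (nat_lit 1) (nat_lit 5) (nat_lit 3) (nat_lit 4) (nat_lit 1) (nat_lit 4) (nat_lit 393) (nat_lit 304) (nat_lit 203)))) (XT.nd (nat_lit 156) (nat_lit 0) (nat_lit 0) (XT.nd (nat_lit 78) (nat_lit 0) (nat_lit 0) (XT.lf (nat_lit 0) (nat_lit 383742965056) (nat_lit 152) (nat_lit 507587708559) (nat_lit 0) (nat_lit 368286746500) (nat_lit 1) (nat_lit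 5) (nat_lit 3) (nat_lit 4) (nat_lit 1) (nat_lit 4) (nat_lit 394) (nat_lit 304) (nat_lit 202)) (XT.lf (nat_lit 0) (nat_lit 431448834030) (nat_lit 152) (nat_lit 511484084635) (nat_lit 0) (nat_lit 415992169082) (nat_lit 1) (nat_lit 5) (nat_lit 3) (nat_lit 4) (nat_lit 1) (nat_lit 4) (nat_lit 395) (nat_lit 304) (nat_lit 201))) (XT.nd (nat_lit 78) (nat_lit 0) (nat_lit 0) (XT.lf (nat_lit 0) (nat_lit 482970158929) (nat_lit 152) (nat_lit 515694210415) (nat_lit 0) (nat_lit 467513080656) (nat_lit 1) (nat_lit 5) (nat_lit 3) (nat_lit 4) (nat_lit 1) (nat_lit 4) (nat_lit 396) (nat_lit 304) (nat_lit 200)) (XT.nd (nat_lit 78) (nat_lit 0) (nat_lit 0) (XT.lf (nat_lit 0) (nat_lit 538612251311) (nat_lit 152) (nat_lit 520243034793) (nat_lit 0) (nat_lit 523154790329) (nat_lit 1) (nat_lit 5) (nat_lit 3) (nat_lit 4) (nat_lit 1) (nat_lit 4) (nat_lit 397) (nat_lit 304) (nat_lit 199)) (XT.lf (nat_lit 0) (nat_lit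 598704842091) (nat_lit 152) (nat_lit 525157513764) (nat_lit 0) (nat_lit 583247026750) (nat_lit 1) (nat_lit 5) (nat_lit 3) (nat_lit 4) (nat_lit 1) (nat_lit 4) (nat_lit 398) (nat_lit 304) (nat_lit 198)))))) (XT.nd (nat_lit 312) (nat_lit 0) (nat_lit 0) (XT.nd (nat_lit 156) (nat_lit 0) (nat_lit 0) (XT.nd (nat_lit 78) (nat_lit 0) (nat_lit 0) (XT.lf (nat_lit 0) (nat_lit 663604035512) (nat_lit 152) (nat_lit 530466770168) (nat_lit 0) (nat_lit 648145892060) (nat_lit 1) (nat_lit 5) (nat_lit 3) (nat_lit 4) (nat_lit 1) (nat_lit 4) (nat_lit 399) (nat_lit 304) (nat_lit 197)) (XT.lf (nat_lit 0) (nat_lit 733694419387) (nat_lit 152) (nat_lit 536202266265) (nat_lit 0) (nat_lit 718235972129) (nat_lit 1) (nat_lit 5) (nat_lit 3) (nat_lit 4) (nat_lit 1) (nat_lit 4) (nat_lit 400) (nat_lit 304) (nat_lit 196))) (XT.nd (nat_lit 78) (nat_lit 0) (nat_lit 0) (XT.lf (nat_lit 0) (nat_lit 809391344139) (nat_lit 152)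 (nat_lit 542397990178) (nat_lit 0) (nat_lit 793932615578) (nat_lit 1) (nat_lit 5) (nat_lit 3) (nat_lit 4) (nat_lit 1) (nat_lit 4) (nat_lit 401) (nat_lit 304) (nat_lit 195)) (XT.lf (nat_lit 0) (nat_lit 891143384136) (nat_lit 152) (nat_lit 549090657311) (nat_lit 0) (nat_lit 875684395110) (nat_lit 1) (nat_lit 5) (nat_lit 3) (nat_lit 4) (nat_lit 1) (nat_lit 4) (nat_lit 402) (nat_lit 304) (nat_lit 194)))) (XT.nd (nat_lit 156) (nat_lit 0) (nat_lit 0) (XT.nd (nat_lit 78) (nat_lit 0) (nat_lit 0) (XT.lf (nat_lit 0) (nat_lit 979434995912) (nat_lit 152) (nat_lit 556319927911) (nat_lit 0) (nat_lit 963975765715) (nat_lit 1) (nat_lit 5) (nat_lit 3) (nat_lit 4) (nat_lit 1) (nat_lit 4) (nat_lit 403) (nat_lit 304) (nat_lit 193)) (XT.lf (nat_lit 0) (nat_lit 1074789389019) (nat_lit 152) (nat_lit 564128642102) (nat_lit 0) (nat_lit 1059329935515) (nat_lit 1) (nat_lit 5) (nat_lit 3) (nat_lit 4) (nat_lit 1)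 (nat_lit 4) (nat_lit 404) (nat_lit 304) (nat_lit 192))) (XT.nd (nat_lit 78) (nat_lit 0) (nat_lit 0) (XT.lf (nat_lit 0) (nat_lit 1177771626526) (nat_lit 152) (nat_lit 572563073745) (nat_lit 0) (nat_lit 1162311966256) (nat_lit 1) (nat_lit 5) (nat_lit 3) (nat_lit 4) (nat_lit 1) (nat_lit 4) (nat_lit 405) (nat_lit 304) (nat_lit 191)) (XT.nd (nat_lit 78) (nat_lit 0) (nat_lit 0) (XT.lf (nat_lit 0) (nat_lit 1288991973544) (nat_lit 152) (nat_lit 581673204656) (nat_lit 0) (nat_lit 1273532121825) (nat_lit 1) (nat_lit 5) (nat_lit 3) (nat_lit 4) (nat_lit 1) (nat_lit 4) (nat_lit 406) (nat_lit 304) (nat_lit 190)) (XT.lf (nat_lit 0) (nat_lit 1409109513612) (nat_lit 152) (nat_lit 591513020799) (nat_lit 0) (nat_lit 1393649484625) (nat_lit 1) (nat_lit 5) (nat_lit 3) (nat_lit 4) (nat_lit 1) (nat_lit 4) (nat_lit 407) (nat_lit 304) (nat_lit 189))))))))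
noncomputable def xc111 : XT := (XT.nd (nat_lit 39624) (nat_lit 0) (nat_lit 1748) (XT.nd (nat_lit 38922) (nat_lit 0) (nat_lit 4104) (XT.nd (nat_lit 312) (nat_lit 0) (nat_lit 0) (XT.nd (nat_lit 156) (nat_lit 0) (nat_lit 0) (XT.nd (nat_lit 78) (nat_lit 0) (nat_lit 0) (XT.lf (nat_lit 0) (nat_lit 1538836054374) (nat_lit 152) (nat_lit 602140832193) (nat_lit 0) (nat_lit 1523375861250) (nat_lit 1) (nat_lit 5) (nat_lit 3) (nat_lit 4) (nat_lit 1) (nat_lit 4) (nat_lit 408) (nat_lit 304) (nat_lit 188)) (XT.lf (nat_lit 0) (nat_lit 1678940345702) (nat_lit 152) (nat_lit 613619618461) (nat_lit 0) (nat_lit 1663480000598) (nat_lit 1) (nat_lit 5) (nat_lit 3) (nat_lit 4) (nat_lit 1) (nat_lit 4) (nat_lit 409) (nat_lit 304) (nat_lit 187))) (XT.nd (nat_lit 78) (nat_lit 0) (nat_lit 0) (XT.lf (nat_lit 0) (nat_lit 1830252635247) (nat_lit 152) (nat_lit 626017402042) (nat_lit 0) (nat_lit 1814792149423) (nat_lit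 1) (nat_lit 5) (nat_lit 3) (nat_lit 4) (nat_lit 1) (nat_lit 4) (nat_lit 410) (nat_lit 304) (nat_lit 186)) (XT.lf (nat_lit 0) (nat_lit 1993669588430) (nat_lit 152) (nat_lit 639407651282) (nat_lit 0) (nat_lit 1978208972308) (nat_lit 1) (nat_lit 5) (nat_lit 3) (nat_lit 4) (nat_lit 1) (nat_lit 4) (nat_lit 411) (nat_lit 304) (nat_lit 185)))) (XT.nd (nat_lit 156) (nat_lit 0) (nat_lit 0) (XT.nd (nat_lit 78) (nat_lit 0) (nat_lit 0) (XT.lf (nat_lit 0) (nat_lit 2170159602010) (nat_lit 152) (nat_lit 653869715806) (nat_lit 0) (nat_lit 2154698865242) (nat_lit 1) (nat_lit 5) (nat_lit 3) (nat_lit 4) (nat_lit 1) (nat_lit 4) (nat_lit 412) (nat_lit 304) (nat_lit 184)) (XT.lf (nat_lit 0) (nat_lit 2360768542734) (nat_lit 152) (nat_lit 669489296738) (nat_lit 0) (nat_lit 2345307694257) (nat_lit 1) (nat_lit 5) (nat_lit 3) (nat_lit 4) (nat_lit 1) (nat_lit 4) (nat_lit 413) (nat_lit 304) (nat_lit 183))) (XT.nd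 (nat_lit 78) (nat_lit 0) (nat_lit 0) (XT.lf (nat_lit 0) (nat_lit 2566625945065) (nat_lit 152) (nat_lit 686358954556) (nat_lit 0) (nat_lit 2551164993154) (nat_lit 1) (nat_lit 5) (nat_lit 3) (nat_lit 4) (nat_lit 1) (nat_lit 4) (nat_lit 414) (nat_lit 304) (nat_lit 182)) (XT.nd (nat_lit 38298) (nat_lit 0) (nat_lit 5244) (XT.lf (nat_lit 0) (nat_lit 2788951704722) (nat_lit 152) (nat_lit 704578657604) (nat_lit 0) (nat_lit 2773490657039) (nat_lit 1) (nat_lit 5) (nat_lit 3) (nat_lit 4) (nat_lit 1) (nat_lit 4) (nat_lit 415) (nat_lit 304) (nat_lit 181)) (XT.lf (nat_lit 0) (nat_lit 1841163503) (nat_lit 380) (nat_lit 870240006) (nat_lit 380) (nat_lit 870240006) (nat_lit 70) (nat_lit 3) (nat_lit 75) (nat_lit 3) (nat_lit 75) (nat_lit 5) (nat_lit 305) (nat_lit 305) (nat_lit 290)))))) (XT.nd (nat_lit 312) (nat_lit 836) (nat_lit 0) (XT.nd (nat_lit 156) (nat_lit 304) (nat_lit 0) (XT.nd (nat_lit 78) (nat_lit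 0) (nat_lit 0) (XT.lf (nat_lit 76) (nat_lit 1797567894) (nat_lit 0) (nat_lit 3643880361) (nat_lit 380) (nat_lit 1876451503) (nat_lit 71) (nat_lit 5) (nat_lit 70) (nat_lit 3) (nat_lit 75) (nat_lit 5) (nat_lit 306) (nat_lit 305) (nat_lit 289)) (XT.lf (nat_lit 76) (nat_lit 5628278267) (nat_lit 0) (nat_lit 1601524427) (nat_lit 380) (nat_lit 264295924) (nat_lit 71) (nat_lit 5) (nat_lit 70) (nat_lit 3) (nat_lit 75) (nat_lit 5) (nat_lit 307) (nat_lit 305) (nat_lit 288))) (XT.nd (nat_lit 78) (nat_lit 0) (nat_lit 0) (XT.lf (nat_lit 0) (nat_lit 1319242050) (nat_lit 380) (nat_lit 5650664850) (nat_lit 456) (nat_lit 718597058) (nat_lit 66) (nat_lit 5) (nat_lit 71) (nat_lit 5) (nat_lit 72) (nat_lit 5) (nat_lit 308) (nat_lit 305) (nat_lit 287)) (XT.lf (nat_lit 0) (nat_lit 2968105733) (nat_lit 380) (nat_lit 1685845044) (nat_lit 456) (nat_lit 3247964123) (nat_lit 66) (nat_lit 5) (nat_lit 71) (nat_lit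 5) (nat_lit 72) (nat_lit 5) (nat_lit 309) (nat_lit 305) (nat_lit 286)))) (XT.nd (nat_lit 156) (nat_lit 836) (nat_lit 0) (XT.nd (nat_lit 78) (nat_lit 0) (nat_lit 76) (XT.lf (nat_lit 76) (nat_lit 2633862404) (nat_lit 0) (nat_lit 2047789800) (nat_lit 456) (nat_lit 3456343208) (nat_lit 67) (nat_lit 5) (nat_lit 66) (nat_lit 5) (nat_lit 72) (nat_lit 5) (nat_lit 310) (nat_lit 305) (nat_lit 285)) (XT.lf (nat_lit 0) (nat_lit 6475669037) (nat_lit 380) (nat_lit 1116373114) (nat_lit 76) (nat_lit 805651686) (nat_lit 67) (nat_lit 5) (nat_lit 72) (nat_lit 5) (nat_lit 68) (nat_lit 5) (nat_lit 311) (nat_lit 305) (nat_lit 284))) (XT.nd (nat_lit 78) (nat_lit 532) (nat_lit 0) (XT.lf (nat_lit 0) (nat_lit 3657281489) (nat_lit 380) (nat_lit 4783787875) (nat_lit 456) (nat_lit 235057206) (nat_lit 62) (nat_lit 5) (nat_lit 67) (nat_lit 5) (nat_lit 68) (nat_lit 5) (nat_lit 312) (nat_lit 305) (nat_lit 283)) (XT.nd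 (nat_lit 78) (nat_lit 456) (nat_lit 0) (XT.lf (nat_lit 0) (nat_lit 1428737825) (nat_lit 456) (nat_lit 235474489) (nat_lit 76) (nat_lit 7316029018) (nat_lit 61) (nat_lit 5) (nat_lit 67) (nat_lit 5) (nat_lit 62) (nat_lit 5) (nat_lit 313) (nat_lit 305) (nat_lit 282)) (XT.lf (nat_lit 0) (nat_lit 3277986840) (nat_lit 532) (nat_lit 4263485861) (nat_lit 76) (nat_lit 1761668948) (nat_lit 55) (nat_lit 5) (nat_lit 62) (nat_lit 5) (nat_lit 56) (nat_lit 5) (nat_lit 314) (nat_lit 305) (nat_lit 281))))))) (XT.nd (nat_lit 702) (nat_lit 988) (nat_lit 0) (XT.nd (nat_lit 312) (nat_lit 684) (nat_lit 0) (XT.nd (nat_lit 156) (nat_lit 304) (nat_lit 0) (XT.nd (nat_lit 78) (nat_lit 0) (nat_lit 0) (XT.lf (nat_lit 0) (nat_lit 1009026084) (nat_lit 380) (nat_lit 4243933179) (nat_lit 456) (nat_lit 4400829798) (nat_lit 50) (nat_lit 5) (nat_lit 55) (nat_lit 5) (nat_lit 56) (nat_lit 5) (nat_lit 315) (nat_lit 305) (nat_lit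 280)) (XT.lf (nat_lit 0) (nat_lit 6851374825) (nat_lit 380) (nat_lit 559673866) (nat_lit 456) (nat_lit 2619557587) (nat_lit 50) (nat_lit 5) (nat_lit 55) (nat_lit 5) (nat_lit 56) (nat_lit 5) (nat_lit 316) (nat_lit 305) (nat_lit 279))) (XT.nd (nat_lit 78) (nat_lit 76) (nat_lit 0) (XT.lf (nat_lit 0) (nat_lit 2681167212) (nat_lit 228) (nat_lit 7122590880) (nat_lit 304) (nat_lit 628971052) (nat_lit 47) (nat_lit 5) (nat_lit 50) (nat_lit 5) (nat_lit 51) (nat_lit 5) (nat_lit 317) (nat_lit 305) (nat_lit 278)) (XT.lf (nat_lit 0) (nat_lit 1465627467) (nat_lit 304) (nat_lit 1818578146) (nat_lit 76) (nat_lit 7578323755) (nat_lit 46) (nat_lit 5) (nat_lit 50) (nat_lit 5) (nat_lit 47) (nat_lit 5) (nat_lit 318) (nat_lit 305) (nat_lit 277)))) (XT.nd (nat_lit 156) (nat_lit 456) (nat_lit 0) (XT.nd (nat_lit 78) (nat_lit 0) (nat_lit 0) (XT.lf (nat_lit 0) (nat_lit 3754368327) (nat_lit 304) (nat_lit 6626749752)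 (nat_lit 76) (nat_lit 939537910) (nat_lit 43) (nat_lit 5) (nat_lit 47) (nat_lit 5) (nat_lit 44) (nat_lit 5) (nat_lit 319) (nat_lit 305) (nat_lit 276)) (XT.lf (nat_lit 0) (nat_lit 6289051399) (nat_lit 304) (nat_lit 159790685) (nat_lit 76) (nat_lit 5361650026) (nat_lit 43) (nat_lit 5) (nat_lit 47) (nat_lit 5) (nat_lit 44) (nat_lit 5) (nat_lit 320) (nat_lit 305) (nat_lit 275))) (XT.nd (nat_lit 78) (nat_lit 304) (nat_lit 0) (XT.lf (nat_lit 0) (nat_lit 7093681868) (nat_lit 152) (nat_lit 2035397357) (nat_lit 228) (nat_lit 3202310664) (nat_lit 41) (nat_lit 5) (nat_lit 43) (nat_lit 5) (nat_lit 44) (nat_lit 5) (nat_lit 321) (nat_lit 305) (nat_lit 274)) (XT.nd (nat_lit 78) (nat_lit 76) (nat_lit 0) (XT.lf (nat_lit 0) (nat_lit 1988213701) (nat_lit 228) (nat_lit 10260630149) (nat_lit 304) (nat_lit 640987296) (nat_lit 38) (nat_lit 5) (nat_lit 41) (nat_lit 5) (nat_lit 42) (nat_lit 5) (nat_lit 322) (nat_lit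 305) (nat_lit 273)) (XT.lf (nat_lit 0) (nat_lit 2154359596) (nat_lit 304) (nat_lit 3588681733) (nat_lit 76) (nat_lit 7735046742) (nat_lit 37) (nat_lit 5) (nat_lit 41) (nat_lit 5) (nat_lit 38) (nat_lit 5) (nat_lit 323) (nat_lit 305) (nat_lit 272)))))) (XT.nd (nat_lit 390) (nat_lit 456) (nat_lit 0) (XT.nd (nat_lit 156) (nat_lit 380) (nat_lit 0) (XT.nd (nat_lit 78) (nat_lit 0) (nat_lit 0) (XT.lf (nat_lit 0) (nat_lit 4431376640) (nat_lit 152) (nat_lit 754305580) (nat_lit 228) (nat_lit 8922692251) (nat_lit 35) (nat_lit 5) (nat_lit 37) (nat_lit 5) (nat_lit 38) (nat_lit 5) (nat_lit 324) (nat_lit 305) (nat_lit 271)) (XT.lf (nat_lit 0) (nat_lit 8613919994) (nat_lit 228) (nat_lit 1682981392) (nat_lit 76) (nat_lit 4479884352) (nat_lit 35) (nat_lit 5) (nat_lit 38) (nat_lit 5) (nat_lit 36) (nat_lit 5) (nat_lit 325) (nat_lit 305) (nat_lit 270))) (XT.nd (nat_lit 78) (nat_lit 228) (nat_lit 0) (XT.lf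 (nat_lit 0) (nat_lit 7213192094) (nat_lit 152) (nat_lit 5242871659) (nat_lit 228) (nat_lit 3031485047) (nat_lit 33) (nat_lit 5) (nat_lit 35) (nat_lit 5) (nat_lit 36) (nat_lit 5) (nat_lit 326) (nat_lit 305) (nat_lit 269)) (XT.nd (nat_lit 78) (nat_lit 0) (nat_lit 0) (XT.lf (nat_lit 0) (nat_lit 348353941) (nat_lit 228) (nat_lit 15653607947) (nat_lit 76) (nat_lit 251342137) (nat_lit 30) (nat_lit 5) (nat_lit 33) (nat_lit 5) (nat_lit 31) (nat_lit 5) (nat_lit 327) (nat_lit 305) (nat_lit 268)) (XT.lf (nat_lit 0) (nat_lit 4151802655) (nat_lit 228) (nat_lit 6709641930) (nat_lit 76) (nat_lit 6187255977) (nat_lit 30) (nat_lit 5) (nat_lit 33) (nat_lit 5) (nat_lit 31) (nat_lit 5) (nat_lit 328) (nat_lit 305) (nat_lit 267))))) (XT.nd (nat_lit 156) (nat_lit 304) (nat_lit 0) (XT.nd (nat_lit 78) (nat_lit 0) (nat_lit 0) (XT.lf (nat_lit 0) (nat_lit 3026352527) (nat_lit 152) (nat_lit 5258468987) (nat_lit 228)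 (nat_lit 9620920999) (nat_lit 28) (nat_lit 5) (nat_lit 30) (nat_lit 5) (nat_lit 31) (nat_lit 5) (nat_lit 329) (nat_lit 305) (nat_lit 266)) (XT.lf (nat_lit 0) (nat_lit 12909383309) (nat_lit 228) (nat_lit 4993712965) (nat_lit 76) (nat_lit 915413903) (nat_lit 28) (nat_lit 5) (nat_lit 31) (nat_lit 5) (nat_lit 29) (nat_lit 4) (nat_lit 330) (nat_lit 305) (nat_lit 265))) (XT.nd (nat_lit 78) (nat_lit 228) (nat_lit 0) (XT.lf (nat_lit 0) (nat_lit 5764193372) (nat_lit 76) (nat_lit 12371982394) (nat_lit 152) (nat_lit 1649574150) (nat_lit 27) (nat_lit 5) (nat_lit 28) (nat_lit 5) (nat_lit 29) (nat_lit 4) (nat_lit 331) (nat_lit 305) (nat_lit 264)) (XT.nd (nat_lit 78) (nat_lit 152) (nat_lit 0) (XT.lf (nat_lit 0) (nat_lit 2900698610) (nat_lit 152) (nat_lit 3298102510) (nat_lit 76) (nat_lit 14618112729) (nat_lit 26) (nat_lit 5) (nat_lit 28) (nat_lit 5) (nat_lit 27) (nat_lit 5) (nat_lit 332) (nat_lit 305)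 (nat_lit 263)) (XT.lf (nat_lit 0) (nat_lit 7910577382) (nat_lit 228) (nat_lit 13325653614) (nat_lit 76) (nat_lit 676161229) (nat_lit 24) (nat_lit 5) (nat_lit 27) (nat_lit 5) (nat_lit 25) (nat_lit 4) (nat_lit 333) (nat_lit 305) (nat_lit 262))))))))
noncomputable def xc112 : XT := (XT.nd (nat_lit 1404) (nat_lit 532) (nat_lit 0) (XT.nd (nat_lit 702) (nat_lit 456) (nat_lit 0) (XT.nd (nat_lit 312) (nat_lit 228) (nat_lit 0) (XT.nd (nat_lit 156) (nat_lit 228) (nat_lit 0) (XT.nd (nat_lit 78) (nat_lit 76) (nat_lit 0) (XT.lf (nat_lit 0) (nat_lit 13536156006) (nat_lit 228) (nat_lit 1708112626) (nat_lit 76) (nat_lit 7834070937) (nat_lit 24) (nat_lit 5) (nat_lit 27) (nat_lit 5) (nat_lit 25) (nat_lit 4) (nat_lit 334) (nat_lit 305) (nat_lit 261)) (XT.lf (nat_lit 0) (nat_lit 11344865526) (nat_lit 76) (nat_lit 8504003689) (nat_lit 152) (nat_lit 4469748144) (nat_lit 23) (nat_lit 5) (nat_lit 24) (nat_lit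 5) (nat_lit 25) (nat_lit 4) (nat_lit 335) (nat_lit 305) (nat_lit 260))) (XT.nd (nat_lit 78) (nat_lit 152) (nat_lit 0) (XT.lf (nat_lit 0) (nat_lit 970484545) (nat_lit 152) (nat_lit 202436292) (nat_lit 76) (nat_lit 24482278775) (nat_lit 22) (nat_lit 5) (nat_lit 24) (nat_lit 5) (nat_lit 23) (nat_lit 5) (nat_lit 336) (nat_lit 305) (nat_lit 259)) (XT.lf (nat_lit 0) (nat_lit 7084753182) (nat_lit 228) (nat_lit 13114568586) (nat_lit 76) (nat_lit 6851692146) (nat_lit 20) (nat_lit 5) (nat_lit 23) (nat_lit 5) (nat_lit 21) (nat_lit 4) (nat_lit 337) (nat_lit 305) (nat_lit 258)))) (XT.nd (nat_lit 156) (nat_lit 152) (nat_lit 0) (XT.nd (nat_lit 78) (nat_lit 0) (nat_lit 0) (XT.lf (nat_lit 0) (nat_lit 601624154) (nat_lit 76) (nat_lit 13104827136) (nat_lit 152) (nat_lit 14850595000) (nat_lit 19) (nat_lit 5) (nat_lit 20) (nat_lit 5) (nat_lit 21) (nat_lit 4) (nat_lit 338) (nat_lit 305) (nat_lit 257)) (XT.lf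 (nat_lit 0) (nat_lit 16104649849) (nat_lit 76) (nat_lit 5080526100) (nat_lit 152) (nat_lit 8972216833) (nat_lit 19) (nat_lit 5) (nat_lit 20) (nat_lit 5) (nat_lit 21) (nat_lit 4) (nat_lit 339) (nat_lit 305) (nat_lit 256))) (XT.nd (nat_lit 78) (nat_lit 76) (nat_lit 0) (XT.lf (nat_lit 0) (nat_lit 865296297) (nat_lit 76) (nat_lit 28474424821) (nat_lit 76) (nat_lit 2539857764) (nat_lit 18) (nat_lit 4) (nat_lit 19) (nat_lit 5) (nat_lit 19) (nat_lit 4) (nat_lit 340) (nat_lit 305) (nat_lit 255)) (XT.nd (nat_lit 78) (nat_lit 0) (nat_lit 0) (XT.lf (nat_lit 0) (nat_lit 4683442096) (nat_lit 152) (nat_lit 16234859598) (nat_lit 76) (nat_lit 12773025657) (nat_lit 17) (nat_lit 5) (nat_lit 19) (nat_lit 5) (nat_lit 18) (nat_lit 4) (nat_lit 341) (nat_lit 305) (nat_lit 254)) (XT.lf (nat_lit 0) (nat_lit 12320206202) (nat_lit 152) (nat_lit 389142206) (nat_lit 76) (nat_lit 22935575047) (nat_lit 17) (nat_lit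 5) (nat_lit 19) (nat_lit 5) (nat_lit 18) (nat_lit 4) (nat_lit 342) (nat_lit 305) (nat_lit 253)))))) (XT.nd (nat_lit 312) (nat_lit 228) (nat_lit 0) (XT.nd (nat_lit 156) (nat_lit 152) (nat_lit 0) (XT.nd (nat_lit 78) (nat_lit 0) (nat_lit 0) (XT.lf (nat_lit 0) (nat_lit 17556080000) (nat_lit 76) (nat_lit 3408887567) (nat_lit 152) (nat_lit 16758085252) (nat_lit 16) (nat_lit 5) (nat_lit 17) (nat_lit 5) (nat_lit 18) (nat_lit 4) (nat_lit 343) (nat_lit 305) (nat_lit 252)) (XT.lf (nat_lit 0) (nat_lit 30446921161) (nat_lit 152) (nat_lit 3214058111) (nat_lit 0) (nat_lit 6294813670) (nat_lit 16) (nat_lit 5) (nat_lit 18) (nat_lit 4) (nat_lit 16) (nat_lit 4) (nat_lit 344) (nat_lit 305) (nat_lit 251))) (XT.nd (nat_lit 78) (nat_lit 76) (nat_lit 0) (XT.lf (nat_lit 0) (nat_lit 15751282137) (nat_lit 76) (nat_lit 25380462504) (nat_lit 76) (nat_lit 1199871174) (nat_lit 15) (nat_lit 4) (nat_lit 16) (nat_lit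 5) (nat_lit 16) (nat_lit 4) (nat_lit 345) (nat_lit 305) (nat_lit 250)) (XT.lf (nat_lit 0) (nat_lit 7452189182) (nat_lit 152) (nat_lit 8706411754) (nat_lit 76) (nat_lit 28718576545) (nat_lit 14) (nat_lit 5) (nat_lit 16) (nat_lit 5) (nat_lit 15) (nat_lit 4) (nat_lit 346) (nat_lit 305) (nat_lit 249)))) (XT.nd (nat_lit 156) (nat_lit 152) (nat_lit 0) (XT.nd (nat_lit 78) (nat_lit 0) (nat_lit 0) (XT.lf (nat_lit 0) (nat_lit 11080426230) (nat_lit 76) (nat_lit 5896406358) (nat_lit 152) (nat_lit 30627445707) (nat_lit 13) (nat_lit 5) (nat_lit 14) (nat_lit 5) (nat_lit 15) (nat_lit 4) (nat_lit 347) (nat_lit 305) (nat_lit 248)) (XT.lf (nat_lit 0) (nat_lit 27611367201) (nat_lit 152) (nat_lit 17756390112) (nat_lit 0) (nat_lit 5153962623) (nat_lit 13) (nat_lit 5) (nat_lit 15) (nat_lit 4) (nat_lit 13) (nat_lit 4) (nat_lit 348) (nat_lit 305) (nat_lit 247))) (XT.nd (nat_lit 78) (nat_lit 76) (nat_lit 0) (XT.lf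 (nat_lit 0) (nat_lit 2444258810) (nat_lit 76) (nat_lit 36844849342) (nat_lit 76) (nat_lit 14368059142) (nat_lit 12) (nat_lit 4) (nat_lit 13) (nat_lit 5) (nat_lit 13) (nat_lit 4) (nat_lit 349) (nat_lit 305) (nat_lit 246)) (XT.nd (nat_lit 78) (nat_lit 76) (nat_lit 0) (XT.lf (nat_lit 0) (nat_lit 25234398008) (nat_lit 76) (nat_lit 27133236225) (nat_lit 76) (nat_lit 4638496376) (nat_lit 12) (nat_lit 4) (nat_lit 13) (nat_lit 5) (nat_lit 13) (nat_lit 4) (nat_lit 350) (nat_lit 305) (nat_lit 245)) (XT.lf (nat_lit 0) (nat_lit 5557835301) (nat_lit 152) (nat_lit 10951062468) (nat_lit 76) (nat_lit 44104263753) (nat_lit 11) (nat_lit 5) (nat_lit 13) (nat_lit 5) (nat_lit 12) (nat_lit 4) (nat_lit 351) (nat_lit 305) (nat_lit 244))))))) (XT.nd (nat_lit 702) (nat_lit 228) (nat_lit 0) (XT.nd (nat_lit 312) (nat_lit 152) (nat_lit 0) (XT.nd (nat_lit 156) (nat_lit 76) (nat_lit 0) (XT.nd (nat_lit 78) (nat_lit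 0) (nat_lit 0) (XT.lf (nat_lit 0) (nat_lit 11982100083) (nat_lit 76) (nat_lit 4608692661) (nat_lit 152) (nat_lit 47886606564) (nat_lit 10) (nat_lit 5) (nat_lit 11) (nat_lit 5) (nat_lit 12) (nat_lit 4) (nat_lit 352) (nat_lit 305) (nat_lit 243)) (XT.lf (nat_lit 0) (nat_lit 28995309819) (nat_lit 152) (nat_lit 31492340928) (nat_lit 0) (nat_lit 8124015525) (nat_lit 10) (nat_lit 5) (nat_lit 12) (nat_lit 4) (nat_lit 10) (nat_lit 4) (nat_lit 353) (nat_lit 305) (nat_lit 242))) (XT.nd (nat_lit 78) (nat_lit 76) (nat_lit 0) (XT.lf (nat_lit 0) (nat_lit 42496586534) (nat_lit 152) (nat_lit 8958663884) (nat_lit 0) (nat_lit 21613076010) (nat_lit 10) (nat_lit 5) (nat_lit 12) (nat_lit 4) (nat_lit 10) (nat_lit 4) (nat_lit 354) (nat_lit 305) (nat_lit 241)) (XT.lf (nat_lit 0) (nat_lit 16158413248) (nat_lit 76) (nat_lit 41293988267) (nat_lit 76) (nat_lit 20399166419) (nat_lit 9) (nat_lit 4) (nat_lit 10) (nat_lit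 5) (nat_lit 10) (nat_lit 4) (nat_lit 355) (nat_lit 305) (nat_lit 240)))) (XT.nd (nat_lit 156) (nat_lit 76) (nat_lit 0) (XT.nd (nat_lit 78) (nat_lit 76) (nat_lit 0) (XT.lf (nat_lit 0) (nat_lit 43767439177) (nat_lit 76) (nat_lit 30068417045) (nat_lit 76) (nat_lit 9163121748) (nat_lit 9) (nat_lit 4) (nat_lit 10) (nat_lit 5) (nat_lit 10) (nat_lit 4) (nat_lit 356) (nat_lit 305) (nat_lit 239)) (XT.lf (nat_lit 0) (nat_lit 2810059581) (nat_lit 152) (nat_lit 15070069005) (nat_lit 76) (nat_lit 70673383990) (nat_lit 8) (nat_lit 5) (nat_lit 10) (nat_lit 5) (nat_lit 9) (nat_lit 4) (nat_lit 357) (nat_lit 305) (nat_lit 238))) (XT.nd (nat_lit 78) (nat_lit 0) (nat_lit 0) (XT.lf (nat_lit 0) (nat_lit 11329348274) (nat_lit 76) (nat_lit 4177055812) (nat_lit 152) (nat_lit 79006139708) (nat_lit 7) (nat_lit 5) (nat_lit 8) (nat_lit 5) (nat_lit 9) (nat_lit 4) (nat_lit 358) (nat_lit 305) (nat_lit 237)) (XT.nd (nat_lit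 78) (nat_lit 0) (nat_lit 0) (XT.lf (nat_lit 0) (nat_lit 29884619980) (nat_lit 152) (nat_lit 60507513434) (nat_lit 0) (nat_lit 10502873324) (nat_lit 7) (nat_lit 5) (nat_lit 9) (nat_lit 4) (nat_lit 7) (nat_lit 4) (nat_lit 359) (nat_lit 305) (nat_lit 236)) (XT.lf (nat_lit 0) (nat_lit 45510433801) (nat_lit 152) (nat_lit 36148288729) (nat_lit 0) (nat_lit 26121559092) (nat_lit 7) (nat_lit 5) (nat_lit 9) (nat_lit 4) (nat_lit 7) (nat_lit 4) (nat_lit 360) (nat_lit 305) (nat_lit 235)))))) (XT.nd (nat_lit 312) (nat_lit 152) (nat_lit 0) (XT.nd (nat_lit 156) (nat_lit 0) (nat_lit 0) (XT.nd (nat_lit 78) (nat_lit 76) (nat_lit 0) (XT.lf (nat_lit 0) (nat_lit 62375984673) (nat_lit 152) (nat_lit 9860712151) (nat_lit 0) (nat_lit 42980509915) (nat_lit 7) (nat_lit 5) (nat_lit 9) (nat_lit 4) (nat_lit 7) (nat_lit 4) (nat_lit 361) (nat_lit 305) (nat_lit 234)) (XT.lf (nat_lit 0) (nat_lit 19485750696) (nat_lit 76)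 (nat_lit 61564098678) (nat_lit 76) (nat_lit 42162512763) (nat_lit 6) (nat_lit 4) (nat_lit 7) (nat_lit 5) (nat_lit 7) (nat_lit 4) (nat_lit 362) (nat_lit 305) (nat_lit 233))) (XT.nd (nat_lit 78) (nat_lit 0) (nat_lit 0) (XT.lf (nat_lit 0) (nat_lit 51722319861) (nat_lit 76) (nat_lit 49755615617) (nat_lit 76) (nat_lit 30348371224) (nat_lit 6) (nat_lit 4) (nat_lit 7) (nat_lit 5) (nat_lit 7) (nat_lit 4) (nat_lit 363) (nat_lit 305) (nat_lit 232)) (XT.lf (nat_lit 0) (nat_lit 86520779236) (nat_lit 76) (nat_lit 37010880791) (nat_lit 76) (nat_lit 17598397067) (nat_lit 6) (nat_lit 4) (nat_lit 7) (nat_lit 5) (nat_lit 7) (nat_lit 4) (nat_lit 364) (nat_lit 305) (nat_lit 231)))) (XT.nd (nat_lit 156) (nat_lit 0) (nat_lit 0) (XT.nd (nat_lit 78) (nat_lit 152) (nat_lit 0) (XT.lf (nat_lit 0) (nat_lit 124087341914) (nat_lit 76) (nat_lit 23254369847) (nat_lit 76) (nat_lit 3837034889) (nat_lit 6) (nat_lit 4)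 (nat_lit 7) (nat_lit 5) (nat_lit 7) (nat_lit 4) (nat_lit 365) (nat_lit 305) (nat_lit 230)) (XT.lf (nat_lit 0) (nat_lit 2471363550) (nat_lit 76) (nat_lit 8054208752) (nat_lit 152) (nat_lit 151480398711) (nat_lit 4) (nat_lit 5) (nat_lit 5) (nat_lit 5) (nat_lit 6) (nat_lit 4) (nat_lit 366) (nat_lit 305) (nat_lit 229))) (XT.nd (nat_lit 78) (nat_lit 0) (nat_lit 0) (XT.lf (nat_lit 0) (nat_lit 26783421945) (nat_lit 152) (nat_lit 138035298932) (nat_lit 0) (nat_lit 8796397880) (nat_lit 4) (nat_lit 5) (nat_lit 6) (nat_lit 4) (nat_lit 4) (nat_lit 4) (nat_lit 367) (nat_lit 305) (nat_lit 228)) (XT.nd (nat_lit 78) (nat_lit 0) (nat_lit 0) (XT.lf (nat_lit 0) (nat_lit 44544119490) (nat_lit 152) (nat_lit 115039172695) (nat_lit 0) (nat_lit 26553529624) (nat_lit 4) (nat_lit 5) (nat_lit 6) (nat_lit 4) (nat_lit 4) (nat_lit 4) (nat_lit 368) (nat_lit 305) (nat_lit 227)) (XT.lf (nat_lit 0) (nat_lit 63719209599)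 (nat_lit 152) (nat_lit 90216251496) (nat_lit 0) (nat_lit 45725318065) (nat_lit 4) (nat_lit 5) (nat_lit 6) (nat_lit 4) (nat_lit 4) (nat_lit 4) (nat_lit 369) (nat_lit 305) (nat_lit 226))))))))
noncomputable def xc113 : XT := (XT.nd (nat_lit 1404) (nat_lit 0) (nat_lit 0) (XT.nd (nat_lit 702) (nat_lit 152) (nat_lit 0) (XT.nd (nat_lit 312) (nat_lit 0) (nat_lit 0) (XT.nd (nat_lit 156) (nat_lit 76) (nat_lit 0) (XT.nd (nat_lit 78) (nat_lit 0) (nat_lit 0) (XT.lf (nat_lit 0) (nat_lit 84422322438) (nat_lit 152) (nat_lit 63419436545) (nat_lit 0) (nat_lit 66425373804) (nat_lit 4) (nat_lit 5) (nat_lit 6) (nat_lit 4) (nat_lit 4) (nat_lit 4) (nat_lit 370) (nat_lit 305) (nat_lit 225)) (XT.lf (nat_lit 0) (nat_lit 106776143118) (nat_lit 152) (nat_lit 34489931900) (nat_lit 0) (nat_lit 88776363837) (nat_lit 4) (nat_lit 5) (nat_lit 6) (nat_lit 4) (nat_lit 4) (nat_lit 4) (nat_lit 371) (nat_lit 305) (nat_lit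 224))) (XT.nd (nat_lit 78) (nat_lit 76) (nat_lit 0) (XT.lf (nat_lit 0) (nat_lit 130913138726) (nat_lit 152) (nat_lit 3256303459) (nat_lit 0) (nat_lit 112910738474) (nat_lit 4) (nat_lit 5) (nat_lit 6) (nat_lit 4) (nat_lit 4) (nat_lit 4) (nat_lit 372) (nat_lit 305) (nat_lit 223)) (XT.lf (nat_lit 0) (nat_lit 32070850788) (nat_lit 76) (nat_lit 125676797254) (nat_lit 76) (nat_lit 107671970178) (nat_lit 3) (nat_lit 4) (nat_lit 4) (nat_lit 5) (nat_lit 4) (nat_lit 4) (nat_lit 373) (nat_lit 305) (nat_lit 222)))) (XT.nd (nat_lit 156) (nat_lit 0) (nat_lit 0) (XT.nd (nat_lit 78) (nat_lit 0) (nat_lit 0) (XT.lf (nat_lit 0) (nat_lit 70400127885) (nat_lit 76) (nat_lit 116413202371) (nat_lit 76) (nat_lit 98406128236) (nat_lit 3) (nat_lit 4) (nat_lit 4) (nat_lit 5) (nat_lit 4) (nat_lit 4) (nat_lit 374) (nat_lit 305) (nat_lit 221)) (XT.lf (nat_lit 0) (nat_lit 111787193118) (nat_lit 76) (nat_lit 106412795269)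 (nat_lit 76) (nat_lit 88403640523) (nat_lit 3) (nat_lit 4) (nat_lit 4) (nat_lit 5) (nat_lit 4) (nat_lit 4) (nat_lit 375) (nat_lit 305) (nat_lit 220))) (XT.nd (nat_lit 78) (nat_lit 0) (nat_lit 0) (XT.lf (nat_lit 0) (nat_lit 156477303170) (nat_lit 76) (nat_lit 95616314275) (nat_lit 76) (nat_lit 77605233037) (nat_lit 3) (nat_lit 4) (nat_lit 4) (nat_lit 5) (nat_lit 4) (nat_lit 4) (nat_lit 376) (nat_lit 305) (nat_lit 219)) (XT.nd (nat_lit 78) (nat_lit 0) (nat_lit 0) (XT.lf (nat_lit 0) (nat_lit 204735288323) (nat_lit 76) (nat_lit 83959780242) (nat_lit 76) (nat_lit 65946915216) (nat_lit 3) (nat_lit 4) (nat_lit 4) (nat_lit 5) (nat_lit 4) (nat_lit 4) (nat_lit 377) (nat_lit 305) (nat_lit 218)) (XT.lf (nat_lit 0) (nat_lit 256847121822) (nat_lit 76) (nat_lit 71374117414) (nat_lit 76) (nat_lit 53359600732) (nat_lit 3) (nat_lit 4) (nat_lit 4) (nat_lit 5) (nat_lit 4) (nat_lit 4) (nat_lit 378) (nat_lit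 305) (nat_lit 217)))))) (XT.nd (nat_lit 312) (nat_lit 76) (nat_lit 0) (XT.nd (nat_lit 156) (nat_lit 76) (nat_lit 0) (XT.nd (nat_lit 78) (nat_lit 0) (nat_lit 0) (XT.lf (nat_lit 0) (nat_lit 313121614532) (nat_lit 76) (nat_lit 57784744084) (nat_lit 76) (nat_lit 39768698092) (nat_lit 3) (nat_lit 4) (nat_lit 4) (nat_lit 5) (nat_lit 4) (nat_lit 4) (nat_lit 379) (nat_lit 305) (nat_lit 216)) (XT.lf (nat_lit 0) (nat_lit 373892244929) (nat_lit 76) (nat_lit 43111130634) (nat_lit 76) (nat_lit 25093668612) (nat_lit 3) (nat_lit 4) (nat_lit 4) (nat_lit 5) (nat_lit 4) (nat_lit 4) (nat_lit 380) (nat_lit 305) (nat_lit 215))) (XT.nd (nat_lit 78) (nat_lit 76) (nat_lit 0) (XT.lf (nat_lit 0) (nat_lit 439519135267) (nat_lit 76) (nat_lit 27266322316) (nat_lit 76) (nat_lit 9247549157) (nat_lit 3) (nat_lit 4) (nat_lit 4) (nat_lit 5) (nat_lit 4) (nat_lit 4) (nat_lit 381) (nat_lit 305) (nat_lit 214)) (XT.lf (nat_lit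 0) (nat_lit 7470195925) (nat_lit 152) (nat_lit 2481979650) (nat_lit 76) (nat_lit 502716741316) (nat_lit 2) (nat_lit 5) (nat_lit 4) (nat_lit 5) (nat_lit 3) (nat_lit 4) (nat_lit 382) (nat_lit 305) (nat_lit 213)))) (XT.nd (nat_lit 156) (nat_lit 0) (nat_lit 0) (XT.nd (nat_lit 78) (nat_lit 0) (nat_lit 0) (XT.lf (nat_lit 0) (nat_lit 26123762261) (nat_lit 152) (nat_lit 516567333334) (nat_lit 0) (nat_lit 9437548127) (nat_lit 1) (nat_lit 5) (nat_lit 3) (nat_lit 4) (nat_lit 1) (nat_lit 4) (nat_lit 383) (nat_lit 305) (nat_lit 212)) (XT.lf (nat_lit 0) (nat_lit 46595373006) (nat_lit 152) (nat_lit 518215520112) (nat_lit 0) (nat_lit 29908195147) (nat_lit 1) (nat_lit 5) (nat_lit 3) (nat_lit 4) (nat_lit 1) (nat_lit 4) (nat_lit 384) (nat_lit 305) (nat_lit 211))) (XT.nd (nat_lit 78) (nat_lit 0) (nat_lit 0) (XT.lf (nat_lit 0) (nat_lit 68702524343) (nat_lit 152) (nat_lit 519999965214) (nat_lit 0) (nat_lit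 52014454145) (nat_lit 1) (nat_lit 5) (nat_lit 3) (nat_lit 4) (nat_lit 1) (nat_lit 4) (nat_lit 385) (nat_lit 305) (nat_lit 210)) (XT.nd (nat_lit 78) (nat_lit 0) (nat_lit 0) (XT.lf (nat_lit 0) (nat_lit 92576221612) (nat_lit 152) (nat_lit 521931243131) (nat_lit 0) (nat_lit 75887325175) (nat_lit 1) (nat_lit 5) (nat_lit 3) (nat_lit 4) (nat_lit 1) (nat_lit 4) (nat_lit 386) (nat_lit 305) (nat_lit 209)) (XT.lf (nat_lit 0) (nat_lit 118357938576) (nat_lit 152) (nat_lit 524020798471) (nat_lit 0) (nat_lit 101668277103) (nat_lit 1) (nat_lit 5) (nat_lit 3) (nat_lit 4) (nat_lit 1) (nat_lit 4) (nat_lit 387) (nat_lit 305) (nat_lit 208))))))) (XT.nd (nat_lit 702) (nat_lit 0) (nat_lit 0) (XT.nd (nat_lit 312) (nat_lit 0) (nat_lit 0) (XT.nd (nat_lit 156) (nat_lit 0) (nat_lit 0) (XT.nd (nat_lit 78) (nat_lit 0) (nat_lit 0) (XT.lf (nat_lit 0) (nat_lit 146200455779) (nat_lit 152) (nat_lit 526281013786) (nat_lit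 0) (nat_lit 129510085939) (nat_lit 1) (nat_lit 5) (nat_lit 3) (nat_lit 4) (nat_lit 1) (nat_lit 4) (nat_lit 388) (nat_lit 305) (nat_lit 207)) (XT.lf (nat_lit 0) (nat_lit 176268765917) (nat_lit 152) (nat_lit 528725282944) (nat_lit 0) (nat_lit 159577740182) (nat_lit 1) (nat_lit 5) (nat_lit 3) (nat_lit 4) (nat_lit 1) (nat_lit 4) (nat_lit 389) (nat_lit 305) (nat_lit 206))) (XT.nd (nat_lit 78) (nat_lit 0) (nat_lit 0) (XT.lf (nat_lit 0) (nat_lit 208741051567) (nat_lit 152) (nat_lit 531368090502) (nat_lit 0) (nat_lit 192049418521) (nat_lit 1) (nat_lit 5) (nat_lit 3) (nat_lit 4) (nat_lit 1) (nat_lit 4) (nat_lit 390) (nat_lit 305) (nat_lit 205)) (XT.lf (nat_lit 0) (nat_lit 243809741089) (nat_lit 152) (nat_lit 534225097543) (nat_lit 0) (nat_lit 227117545719) (nat_lit 1) (nat_lit 5) (nat_lit 3) (nat_lit 4) (nat_lit 1) (nat_lit 4) (nat_lit 391) (nat_lit 305) (nat_lit 204)))) (XT.nd (nat_lit 156) (nat_lit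 0) (nat_lit 0) (XT.nd (nat_lit 78) (nat_lit 0) (nat_lit 0) (XT.lf (nat_lit 0) (nat_lit 281682648940) (nat_lit 152) (nat_lit 537313234478) (nat_lit 0) (nat_lit 264989932899) (nat_lit 1) (nat_lit 5) (nat_lit 3) (nat_lit 4) (nat_lit 1) (nat_lit 4) (nat_lit 392) (nat_lit 305) (nat_lit 203)) (XT.lf (nat_lit 0) (nat_lit 322584207165) (nat_lit 152) (nat_lit 540650801378) (nat_lit 0) (nat_lit 305891009022) (nat_lit 1) (nat_lit 5) (nat_lit 3) (nat_lit 4) (nat_lit 1) (nat_lit 4) (nat_lit 393) (nat_lit 305) (nat_lit 202))) (XT.nd (nat_lit 78) (nat_lit 0) (nat_lit 0) (XT.lf (nat_lit 0) (nat_lit 366756795370) (nat_lit 152) (nat_lit 544257576419) (nat_lit 0) (nat_lit 350063150835) (nat_lit 1) (nat_lit 5) (nat_lit 3) (nat_lit 4) (nat_lit 1) (nat_lit 4) (nat_lit 394) (nat_lit 305) (nat_lit 201)) (XT.nd (nat_lit 78) (nat_lit 0) (nat_lit 0) (XT.lf (nat_lit 0) (nat_lit 414462177040) (nat_lit 152) (nat_lit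 548154933080) (nat_lit 0) (nat_lit 397768119180) (nat_lit 1) (nat_lit 5) (nat_lit 3) (nat_lit 4) (nat_lit 1) (nat_lit 4) (nat_lit 395) (nat_lit 305) (nat_lit 200)) (XT.lf (nat_lit 0) (nat_lit 465983050733) (nat_lit 152) (nat_lit 552365966810) (nat_lit 0) (nat_lit 449288610164) (nat_lit 1) (nat_lit 5) (nat_lit 3) (nat_lit 4) (nat_lit 1) (nat_lit 4) (nat_lit 396) (nat_lit 305) (nat_lit 199)))))) (XT.nd (nat_lit 312) (nat_lit 0) (nat_lit 0) (XT.nd (nat_lit 156) (nat_lit 0) (nat_lit 0) (XT.nd (nat_lit 78) (nat_lit 0) (nat_lit 0) (XT.lf (nat_lit 0) (nat_lit 521624725330) (nat_lit 152) (nat_lit 556915631881) (nat_lit 0) (nat_lit 504929930401) (nat_lit 1) (nat_lit 5) (nat_lit 3) (nat_lit 4) (nat_lit 1) (nat_lit 4) (nat_lit 397) (nat_lit 305) (nat_lit 198)) (XT.lf (nat_lit 0) (nat_lit 581716929273) (nat_lit 152) (nat_lit 561830889273) (nat_lit 0) (nat_lit 565021806233) (nat_lit 1) (nat_lit 5)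 (nat_lit 3) (nat_lit 4) (nat_lit 1) (nat_lit 4) (nat_lit 398) (nat_lit 305) (nat_lit 197))) (XT.nd (nat_lit 78) (nat_lit 0) (nat_lit 0) (XT.lf (nat_lit 0) (nat_lit 646615764511) (nat_lit 152) (nat_lit 567140866437) (nat_lit 0) (nat_lit 629920337666) (nat_lit 1) (nat_lit 5) (nat_lit 3) (nat_lit 4) (nat_lit 1) (nat_lit 4) (nat_lit 399) (nat_lit 305) (nat_lit 196)) (XT.lf (nat_lit 0) (nat_lit 716705816736) (nat_lit 152) (nat_lit 572877029904) (nat_lit 0) (nat_lit 700010108588) (nat_lit 1) (nat_lit 5) (nat_lit 3) (nat_lit 4) (nat_lit 1) (nat_lit 4) (nat_lit 400) (nat_lit 305) (nat_lit 195)))) (XT.nd (nat_lit 156) (nat_lit 0) (nat_lit 0) (XT.nd (nat_lit 78) (nat_lit 0) (nat_lit 0) (XT.lf (nat_lit 0) (nat_lit 792402434404) (nat_lit 152) (nat_lit 579073371753) (nat_lit 0) (nat_lit 775706465790) (nat_lit 1) (nat_lit 5) (nat_lit 3) (nat_lit 4) (nat_lit 1) (nat_lit 4) (nat_lit 401) (nat_lit 305)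 (nat_lit 194)) (XT.lf (nat_lit 0) (nat_lit 874154190064) (nat_lit 152) (nat_lit 585766611047) (nat_lit 0) (nat_lit 857457980279) (nat_lit 1) (nat_lit 5) (nat_lit 3) (nat_lit 4) (nat_lit 1) (nat_lit 4) (nat_lit 402) (nat_lit 305) (nat_lit 193))) (XT.nd (nat_lit 78) (nat_lit 0) (nat_lit 0) (XT.lf (nat_lit 0) (nat_lit 962445538565) (nat_lit 152) (nat_lit 592996411428) (nat_lit 0) (nat_lit 945749105474) (nat_lit 1) (nat_lit 5) (nat_lit 3) (nat_lit 4) (nat_lit 1) (nat_lit 4) (nat_lit 403) (nat_lit 305) (nat_lit 192)) (XT.nd (nat_lit 78) (nat_lit 0) (nat_lit 0) (XT.lf (nat_lit 0) (nat_lit 1057799687898) (nat_lit 152) (nat_lit 600805616155) (nat_lit 0) (nat_lit 1041103048042) (nat_lit 1) (nat_lit 5) (nat_lit 3) (nat_lit 4) (nat_lit 1) (nat_lit 4) (nat_lit 404) (nat_lit 305) (nat_lit 191)) (XT.lf (nat_lit 0) (nat_lit 1160781699689) (nat_lit 152) (nat_lit 609240501999) (nat_lit 0) (nat_lit 1144084868383)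 (nat_lit 1) (nat_lit 5) (nat_lit 3) (nat_lit 4) (nat_lit 1) (nat_lit 4) (nat_lit 405) (nat_lit 305) (nat_lit 190))))))))
noncomputable def xc114 : XT := (XT.nd (nat_lit 39702) (nat_lit 0) (nat_lit 2052) (XT.nd (nat_lit 702) (nat_lit 0) (nat_lit 0) (XT.nd (nat_lit 312) (nat_lit 0) (nat_lit 0) (XT.nd (nat_lit 156) (nat_lit 0) (nat_lit 0) (XT.nd (nat_lit 78) (nat_lit 0) (nat_lit 0) (XT.lf (nat_lit 0) (nat_lit 1272001837712) (nat_lit 152) (nat_lit 618351053467) (nat_lit 0) (nat_lit 1255304829137) (nat_lit 1) (nat_lit 5) (nat_lit 3) (nat_lit 4) (nat_lit 1) (nat_lit 4) (nat_lit 406) (nat_lit 305) (nat_lit 189)) (XT.lf (nat_lit 0) (nat_lit 1392119184265) (nat_lit 152) (nat_lit 628191259013) (nat_lit 0) (nat_lit 1375422011553) (nat_lit 1) (nat_lit 5) (nat_lit 3) (nat_lit 4) (nat_lit 1) (nat_lit 4) (nat_lit 407) (nat_lit 305) (nat_lit 188))) (XT.nd (nat_lit 78) (nat_lit 0) (nat_lit 0) (XT.lf (nat_lit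 0) (nat_lit 1521845545846) (nat_lit 152) (nat_lit 638819430966) (nat_lit 0) (nat_lit 1505148221156) (nat_lit 1) (nat_lit 5) (nat_lit 3) (nat_lit 4) (nat_lit 1) (nat_lit 4) (nat_lit 408) (nat_lit 305) (nat_lit 187)) (XT.lf (nat_lit 0) (nat_lit 1661949671266) (nat_lit 152) (nat_lit 650298551086) (nat_lit 0) (nat_lit 1645252205854) (nat_lit 1) (nat_lit 5) (nat_lit 3) (nat_lit 4) (nat_lit 1) (nat_lit 4) (nat_lit 409) (nat_lit 305) (nat_lit 186)))) (XT.nd (nat_lit 156) (nat_lit 0) (nat_lit 0) (XT.nd (nat_lit 78) (nat_lit 0) (nat_lit 0) (XT.lf (nat_lit 0) (nat_lit 1813261807193) (nat_lit 152) (nat_lit 662696643789) (nat_lit 0) (nat_lit 1796564211484) (nat_lit 1) (nat_lit 5) (nat_lit 3) (nat_lit 4) (nat_lit 1) (nat_lit 4) (nat_lit 410) (nat_lit 305) (nat_lit 185)) (XT.lf (nat_lit 0) (nat_lit 1976678618137) (nat_lit 152) (nat_lit 676087179252) (nat_lit 0) (nat_lit 1959980901782) (nat_lit 1) (nat_lit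 5) (nat_lit 3) (nat_lit 4) (nat_lit 1) (nat_lit 4) (nat_lit 411) (nat_lit 305) (nat_lit 184))) (XT.nd (nat_lit 78) (nat_lit 0) (nat_lit 0) (XT.lf (nat_lit 0) (nat_lit 2153168500013) (nat_lit 152) (nat_lit 690549508798) (nat_lit 0) (nat_lit 2136470671950) (nat_lit 1) (nat_lit 5) (nat_lit 3) (nat_lit 4) (nat_lit 1) (nat_lit 4) (nat_lit 412) (nat_lit 305) (nat_lit 183)) (XT.nd (nat_lit 78) (nat_lit 0) (nat_lit 0) (XT.lf (nat_lit 0) (nat_lit 2343777318790) (nat_lit 152) (nat_lit 706169335120) (nat_lit 0) (nat_lit 2327079387292) (nat_lit 1) (nat_lit 5) (nat_lit 3) (nat_lit 4) (nat_lit 1) (nat_lit 4) (nat_lit 413) (nat_lit 305) (nat_lit 182)) (XT.lf (nat_lit 0) (nat_lit 2549634608207) (nat_lit 152) (nat_lit 723039220152) (nat_lit 0) (nat_lit 2532936580937) (nat_lit 1) (nat_lit 5) (nat_lit 3) (nat_lit 4) (nat_lit 1) (nat_lit 4) (nat_lit 414) (nat_lit 305) (nat_lit 181)))))) (XT.nd (nat_lit 38610)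 (nat_lit 0) (nat_lit 4560) (XT.nd (nat_lit 38454) (nat_lit 0) (nat_lit 4864) (XT.nd (nat_lit 38376) (nat_lit 0) (nat_lit 5244) (XT.lf (nat_lit 0) (nat_lit 2771960263314) (nat_lit 152) (nat_lit 741259133583) (nat_lit 0) (nat_lit 2755262147365) (nat_lit 1) (nat_lit 5) (nat_lit 3) (nat_lit 4) (nat_lit 1) (nat_lit 4) (nat_lit 415) (nat_lit 305) (nat_lit 180)) (XT.lf (nat_lit 0) (nat_lit 3519328414) (nat_lit 380) (nat_lit 111737912) (nat_lit 380) (nat_lit 111737912) (nat_lit 70) (nat_lit 3) (nat_lit 75) (nat_lit 3) (nat_lit 75) (nat_lit 5) (nat_lit 306) (nat_lit 306) (nat_lit 288))) (XT.nd (nat_lit 78) (nat_lit 0) (nat_lit 0) (XT.lf (nat_lit 0) (nat_lit 1028328515) (nat_lit 380) (nat_lit 4138405640) (nat_lit 456) (nat_lit 2499240882) (nat_lit 65) (nat_lit 5) (nat_lit 70) (nat_lit 3) (nat_lit 71) (nat_lit 5) (nat_lit 307) (nat_lit 306) (nat_lit 287)) (XT.lf (nat_lit 0) (nat_lit 2463579078)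 (nat_lit 380) (nat_lit 364875063) (nat_lit 456) (nat_lit 5042336532) (nat_lit 65) (nat_lit 5) (nat_lit 70) (nat_lit 3) (nat_lit 71) (nat_lit 5) (nat_lit 308) (nat_lit 306) (nat_lit 286)))) (XT.nd (nat_lit 156) (nat_lit 304) (nat_lit 0) (XT.nd (nat_lit 78) (nat_lit 0) (nat_lit 76) (XT.lf (nat_lit 76) (nat_lit 3823828160) (nat_lit 0) (nat_lit 151993991) (nat_lit 456) (nat_lit 4119414204) (nat_lit 66) (nat_lit 5) (nat_lit 65) (nat_lit 5) (nat_lit 71) (nat_lit 5) (nat_lit 309) (nat_lit 306) (nat_lit 285)) (XT.lf (nat_lit 0) (nat_lit 5564244264) (nat_lit 380) (nat_lit 121670701) (nat_lit 456) (nat_lit 2655509161) (nat_lit 66) (nat_lit 5) (nat_lit 71) (nat_lit 5) (nat_lit 72) (nat_lit 5) (nat_lit 310) (nat_lit 306) (nat_lit 284))) (XT.nd (nat_lit 78) (nat_lit 380) (nat_lit 0) (XT.lf (nat_lit 76) (nat_lit 4500599622) (nat_lit 0) (nat_lit 2779384567) (nat_lit 456) (nat_lit 1327490613) (nat_lit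 67) (nat_lit 5) (nat_lit 66) (nat_lit 5) (nat_lit 72) (nat_lit 5) (nat_lit 311) (nat_lit 306) (nat_lit 283)) (XT.nd (nat_lit 78) (nat_lit 0) (nat_lit 0) (XT.lf (nat_lit 0) (nat_lit 144059046) (nat_lit 456) (nat_lit 8369822437) (nat_lit 76) (nat_lit 387206500) (nat_lit 61) (nat_lit 5) (nat_lit 67) (nat_lit 5) (nat_lit 62) (nat_lit 5) (nat_lit 312) (nat_lit 306) (nat_lit 282)) (XT.lf (nat_lit 0) (nat_lit 1747099457) (nat_lit 456) (nat_lit 3635927542) (nat_lit 76) (nat_lit 3825714708) (nat_lit 61) (nat_lit 5) (nat_lit 67) (nat_lit 5) (nat_lit 62) (nat_lit 5) (nat_lit 313) (nat_lit 306) (nat_lit 281))))))) (XT.nd (nat_lit 702) (nat_lit 988) (nat_lit 0) (XT.nd (nat_lit 312) (nat_lit 684) (nat_lit 0) (XT.nd (nat_lit 156) (nat_lit 380) (nat_lit 0) (XT.nd (nat_lit 78) (nat_lit 0) (nat_lit 0) (XT.lf (nat_lit 0) (nat_lit 1465594919) (nat_lit 456) (nat_lit 1953672901) (nat_lit 532) (nat_lit 6126606882)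 (nat_lit 55) (nat_lit 5) (nat_lit 61) (nat_lit 5) (nat_lit 62) (nat_lit 5) (nat_lit 314) (nat_lit 306) (nat_lit 280)) (XT.lf (nat_lit 0) (nat_lit 5280111806) (nat_lit 532) (nat_lit 2854386610) (nat_lit 76) (nat_lit 1771215294) (nat_lit 55) (nat_lit 5) (nat_lit 62) (nat_lit 5) (nat_lit 56) (nat_lit 5) (nat_lit 315) (nat_lit 306) (nat_lit 279))) (XT.nd (nat_lit 78) (nat_lit 0) (nat_lit 0) (XT.lf (nat_lit 0) (nat_lit 2795617984) (nat_lit 380) (nat_lit 4529609805) (nat_lit 456) (nat_lit 2966397792) (nat_lit 50) (nat_lit 5) (nat_lit 55) (nat_lit 5) (nat_lit 56) (nat_lit 5) (nat_lit 316) (nat_lit 306) (nat_lit 278)) (XT.lf (nat_lit 0) (nat_lit 8978993897) (nat_lit 380) (nat_lit 554597748) (nat_lit 456) (nat_lit 1174957019) (nat_lit 50) (nat_lit 5) (nat_lit 55) (nat_lit 5) (nat_lit 56) (nat_lit 5) (nat_lit 317) (nat_lit 306) (nat_lit 277)))) (XT.nd (nat_lit 156) (nat_lit 380) (nat_lit 0) (XT.nd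 (nat_lit 78) (nat_lit 0) (nat_lit 0) (XT.lf (nat_lit 0) (nat_lit 851799596) (nat_lit 304) (nat_lit 6614978871) (nat_lit 76) (nat_lit 3680278317) (nat_lit 46) (nat_lit 5) (nat_lit 50) (nat_lit 5) (nat_lit 47) (nat_lit 5) (nat_lit 318) (nat_lit 306) (nat_lit 276)) (XT.lf (nat_lit 0) (nat_lit 2969088367) (nat_lit 304) (nat_lit 352609670) (nat_lit 76) (nat_lit 8297243268) (nat_lit 46) (nat_lit 5) (nat_lit 50) (nat_lit 5) (nat_lit 47) (nat_lit 5) (nat_lit 319) (nat_lit 306) (nat_lit 275))) (XT.nd (nat_lit 78) (nat_lit 152) (nat_lit 0) (XT.lf (nat_lit 0) (nat_lit 5382017603) (nat_lit 304) (nat_lit 5484956004) (nat_lit 76) (nat_lit 1251582770) (nat_lit 43) (nat_lit 5) (nat_lit 47) (nat_lit 5) (nat_lit 44) (nat_lit 5) (nat_lit 320) (nat_lit 306) (nat_lit 274)) (XT.nd (nat_lit 78) (nat_lit 0) (nat_lit 0) (XT.lf (nat_lit 0) (nat_lit 1447944913) (nat_lit 152) (nat_lit 6608035013) (nat_lit 228) (nat_lit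 4596795250) (nat_lit 41) (nat_lit 5) (nat_lit 43) (nat_lit 5) (nat_lit 44) (nat_lit 5) (nat_lit 321) (nat_lit 306) (nat_lit 273)) (XT.lf (nat_lit 0) (nat_lit 9170071132) (nat_lit 152) (nat_lit 1863569038) (nat_lit 228) (nat_lit 2188977743) (nat_lit 41) (nat_lit 5) (nat_lit 43) (nat_lit 5) (nat_lit 44) (nat_lit 5) (nat_lit 322) (nat_lit 306) (nat_lit 272)))))) (XT.nd (nat_lit 312) (nat_lit 532) (nat_lit 0) (XT.nd (nat_lit 156) (nat_lit 152) (nat_lit 0) (XT.nd (nat_lit 78) (nat_lit 0) (nat_lit 0) (XT.lf (nat_lit 0) (nat_lit 505073771) (nat_lit 304) (nat_lit 10138998001) (nat_lit 76) (nat_lit 3184108376) (nat_lit 37) (nat_lit 5) (nat_lit 41) (nat_lit 5) (nat_lit 38) (nat_lit 5) (nat_lit 323) (nat_lit 306) (nat_lit 271)) (XT.lf (nat_lit 0) (nat_lit 3403291779) (nat_lit 304) (nat_lit 2377535698) (nat_lit 76) (nat_lit 8688313739) (nat_lit 37) (nat_lit 5) (nat_lit 41) (nat_lit 5) (nat_lit 38)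 (nat_lit 5) (nat_lit 324) (nat_lit 306) (nat_lit 270))) (XT.nd (nat_lit 78) (nat_lit 0) (nat_lit 0) (XT.lf (nat_lit 0) (nat_lit 6246197204) (nat_lit 152) (nat_lit 386296590) (nat_lit 228) (nat_lit 8521005902) (nat_lit 35) (nat_lit 5) (nat_lit 37) (nat_lit 5) (nat_lit 38) (nat_lit 5) (nat_lit 325) (nat_lit 306) (nat_lit 269)) (XT.lf (nat_lit 0) (nat_lit 10268088137) (nat_lit 228) (nat_lit 397663186) (nat_lit 76) (nat_lit 5215057936) (nat_lit 35) (nat_lit 5) (nat_lit 38) (nat_lit 5) (nat_lit 36) (nat_lit 5) (nat_lit 326) (nat_lit 306) (nat_lit 268)))) (XT.nd (nat_lit 156) (nat_lit 152) (nat_lit 0) (XT.nd (nat_lit 78) (nat_lit 228) (nat_lit 0) (XT.lf (nat_lit 0) (nat_lit 9174255908) (nat_lit 152) (nat_lit 5205147403) (nat_lit 228) (nat_lit 2272153837) (nat_lit 33) (nat_lit 5) (nat_lit 35) (nat_lit 5) (nat_lit 36) (nat_lit 5) (nat_lit 327) (nat_lit 306) (nat_lit 267)) (XT.lf (nat_lit 0) (nat_lit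 1302726136) (nat_lit 228) (nat_lit 15445031222) (nat_lit 76) (nat_lit 730964341) (nat_lit 30) (nat_lit 5) (nat_lit 33) (nat_lit 5) (nat_lit 31) (nat_lit 5) (nat_lit 328) (nat_lit 306) (nat_lit 266))) (XT.nd (nat_lit 78) (nat_lit 152) (nat_lit 0) (XT.lf (nat_lit 0) (nat_lit 5341820831) (nat_lit 228) (nat_lit 5893760173) (nat_lit 76) (nat_lit 7107713152) (nat_lit 30) (nat_lit 5) (nat_lit 33) (nat_lit 5) (nat_lit 31) (nat_lit 5) (nat_lit 329) (nat_lit 306) (nat_lit 265)) (XT.nd (nat_lit 78) (nat_lit 0) (nat_lit 0) (XT.lf (nat_lit 0) (nat_lit 4586869458) (nat_lit 152) (nat_lit 5186773283) (nat_lit 228) (nat_lit 9497853616) (nat_lit 28) (nat_lit 5) (nat_lit 30) (nat_lit 5) (nat_lit 31) (nat_lit 5) (nat_lit 330) (nat_lit 306) (nat_lit 264)) (XT.lf (nat_lit 0) (nat_lit 14717946097) (nat_lit 228) (nat_lit 4121661208) (nat_lit 76) (nat_lit 1421742127) (nat_lit 28) (nat_lit 5) (nat_lit 31) (nat_lit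 5) (nat_lit 29) (nat_lit 4) (nat_lit 331) (nat_lit 306) (nat_lit 263))))))))
noncomputable def xc115 : XT := (XT.nd (nat_lit 1404) (nat_lit 684) (nat_lit 0) (XT.nd (nat_lit 702) (nat_lit 456) (nat_lit 0) (XT.nd (nat_lit 312) (nat_lit 380) (nat_lit 0) (XT.nd (nat_lit 156) (nat_lit 152) (nat_lit 0) (XT.nd (nat_lit 78) (nat_lit 76) (nat_lit 0) (XT.lf (nat_lit 0) (nat_lit 7464686528) (nat_lit 76) (nat_lit 12870534441) (nat_lit 152) (nat_lit 973002970) (nat_lit 27) (nat_lit 5) (nat_lit 28) (nat_lit 5) (nat_lit 29) (nat_lit 4) (nat_lit 332) (nat_lit 306) (nat_lit 262)) (XT.lf (nat_lit 0) (nat_lit 3843949694) (nat_lit 152) (nat_lit 2376489304) (nat_lit 76) (nat_lit 16204474629) (nat_lit 26) (nat_lit 5) (nat_lit 28) (nat_lit 5) (nat_lit 27) (nat_lit 5) (nat_lit 333) (nat_lit 306) (nat_lit 261))) (XT.nd (nat_lit 78) (nat_lit 0) (nat_lit 0) (XT.lf (nat_lit 0) (nat_lit 9241009234) (nat_lit 228)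 (nat_lit 13192211152) (nat_lit 76) (nat_lit 1175932554) (nat_lit 24) (nat_lit 5) (nat_lit 27) (nat_lit 5) (nat_lit 25) (nat_lit 4) (nat_lit 334) (nat_lit 306) (nat_lit 260)) (XT.lf (nat_lit 0) (nat_lit 15264961136) (nat_lit 228) (nat_lit 734118348) (nat_lit 76) (nat_lit 8873461822) (nat_lit 24) (nat_lit 5) (nat_lit 27) (nat_lit 5) (nat_lit 25) (nat_lit 4) (nat_lit 335) (nat_lit 306) (nat_lit 259)))) (XT.nd (nat_lit 156) (nat_lit 76) (nat_lit 0) (XT.nd (nat_lit 78) (nat_lit 228) (nat_lit 0) (XT.lf (nat_lit 0) (nat_lit 13334980505) (nat_lit 76) (nat_lit 8725900285) (nat_lit 152) (nat_lit 4152934446) (nat_lit 23) (nat_lit 5) (nat_lit 24) (nat_lit 5) (nat_lit 25) (nat_lit 4) (nat_lit 336) (nat_lit 306) (nat_lit 258)) (XT.lf (nat_lit 0) (nat_lit 858185835) (nat_lit 152) (nat_lit 803778394) (nat_lit 228) (nat_lit 25996232564) (nat_lit 20) (nat_lit 5) (nat_lit 22) (nat_lit 5) (nat_lit 23) (nat_lit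 5) (nat_lit 337) (nat_lit 306) (nat_lit 257))) (XT.nd (nat_lit 78) (nat_lit 76) (nat_lit 0) (XT.lf (nat_lit 0) (nat_lit 8235472548) (nat_lit 228) (nat_lit 13120296114) (nat_lit 76) (nat_lit 7812322798) (nat_lit 20) (nat_lit 5) (nat_lit 23) (nat_lit 5) (nat_lit 21) (nat_lit 4) (nat_lit 338) (nat_lit 306) (nat_lit 256)) (XT.nd (nat_lit 78) (nat_lit 0) (nat_lit 0) (XT.lf (nat_lit 0) (nat_lit 1666775894) (nat_lit 76) (nat_lit 13701335260) (nat_lit 152) (nat_lit 15428020265) (nat_lit 19) (nat_lit 5) (nat_lit 20) (nat_lit 5) (nat_lit 21) (nat_lit 4) (nat_lit 339) (nat_lit 306) (nat_lit 255)) (XT.lf (nat_lit 0) (nat_lit 18334708696) (nat_lit 76) (nat_lit 5068562590) (nat_lit 152) (nat_lit 9124603129) (nat_lit 19) (nat_lit 5) (nat_lit 20) (nat_lit 5) (nat_lit 21) (nat_lit 4) (nat_lit 340) (nat_lit 306) (nat_lit 254)))))) (XT.nd (nat_lit 312) (nat_lit 228) (nat_lit 0) (XT.nd (nat_lit 156) (nat_lit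 76) (nat_lit 0) (XT.nd (nat_lit 78) (nat_lit 76) (nat_lit 0) (XT.lf (nat_lit 0) (nat_lit 1883602492) (nat_lit 76) (nat_lit 30319958740) (nat_lit 76) (nat_lit 2184821996) (nat_lit 18) (nat_lit 4) (nat_lit 19) (nat_lit 5) (nat_lit 19) (nat_lit 4) (nat_lit 341) (nat_lit 306) (nat_lit 253)) (XT.lf (nat_lit 0) (nat_lit 5549135747) (nat_lit 152) (nat_lit 16628815823) (nat_lit 76) (nat_lit 14169204201) (nat_lit 17) (nat_lit 5) (nat_lit 19) (nat_lit 5) (nat_lit 18) (nat_lit 4) (nat_lit 342) (nat_lit 306) (nat_lit 252))) (XT.nd (nat_lit 78) (nat_lit 0) (nat_lit 0) (XT.lf (nat_lit 0) (nat_lit 439520944) (nat_lit 76) (nat_lit 13331518801) (nat_lit 152) (nat_lit 24688078458) (nat_lit 16) (nat_lit 5) (nat_lit 17) (nat_lit 5) (nat_lit 18) (nat_lit 4) (nat_lit 343) (nat_lit 306) (nat_lit 251)) (XT.lf (nat_lit 0) (nat_lit 19777163984) (nat_lit 76) (nat_lit 3305609216) (nat_lit 152) (nat_lit 17622706886)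 (nat_lit 16) (nat_lit 5) (nat_lit 17) (nat_lit 5) (nat_lit 18) (nat_lit 4) (nat_lit 344) (nat_lit 306) (nat_lit 250)))) (XT.nd (nat_lit 156) (nat_lit 152) (nat_lit 0) (XT.nd (nat_lit 78) (nat_lit 76) (nat_lit 0) (XT.lf (nat_lit 0) (nat_lit 33299018169) (nat_lit 152) (nat_lit 2690653140) (nat_lit 0) (nat_lit 7129121770) (nat_lit 16) (nat_lit 5) (nat_lit 18) (nat_lit 4) (nat_lit 16) (nat_lit 4) (nat_lit 345) (nat_lit 306) (nat_lit 249)) (XT.lf (nat_lit 0) (nat_lit 17772154085) (nat_lit 76) (nat_lit 27053929718) (nat_lit 76) (nat_lit 859613019) (nat_lit 15) (nat_lit 4) (nat_lit 16) (nat_lit 5) (nat_lit 16) (nat_lit 4) (nat_lit 346) (nat_lit 306) (nat_lit 248))) (XT.nd (nat_lit 78) (nat_lit 76) (nat_lit 0) (XT.lf (nat_lit 0) (nat_lit 8432091136) (nat_lit 152) (nat_lit 8678178524) (nat_lit 76) (nat_lit 31326260168) (nat_lit 14) (nat_lit 5) (nat_lit 16) (nat_lit 5) (nat_lit 15) (nat_lit 4)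 (nat_lit 347) (nat_lit 306) (nat_lit 247)) (XT.nd (nat_lit 78) (nat_lit 0) (nat_lit 0) (XT.lf (nat_lit 0) (nat_lit 12673258494) (nat_lit 76) (nat_lit 6034012204) (nat_lit 152) (nat_lit 32675451997) (nat_lit 13) (nat_lit 5) (nat_lit 14) (nat_lit 5) (nat_lit 15) (nat_lit 4) (nat_lit 348) (nat_lit 306) (nat_lit 246)) (XT.lf (nat_lit 0) (nat_lit 30172431000) (nat_lit 152) (nat_lit 18502585807) (nat_lit 0) (nat_lit 5860162313) (nat_lit 13) (nat_lit 5) (nat_lit 15) (nat_lit 4) (nat_lit 13) (nat_lit 4) (nat_lit 349) (nat_lit 306) (nat_lit 245))))))) (XT.nd (nat_lit 702) (nat_lit 304) (nat_lit 0) (XT.nd (nat_lit 312) (nat_lit 152) (nat_lit 0) (XT.nd (nat_lit 156) (nat_lit 152) (nat_lit 0) (XT.nd (nat_lit 78) (nat_lit 0) (nat_lit 0) (XT.lf (nat_lit 0) (nat_lit 3297043751) (nat_lit 76) (nat_lit 39477068703) (nat_lit 76) (nat_lit 15148179970) (nat_lit 12) (nat_lit 4) (nat_lit 13) (nat_lit 5) (nat_lit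 13) (nat_lit 4) (nat_lit 350) (nat_lit 306) (nat_lit 244)) (XT.lf (nat_lit 0) (nat_lit 27861709326) (nat_lit 76) (nat_lit 29011887173) (nat_lit 76) (nat_lit 4667609508) (nat_lit 12) (nat_lit 4) (nat_lit 13) (nat_lit 5) (nat_lit 13) (nat_lit 4) (nat_lit 351) (nat_lit 306) (nat_lit 243))) (XT.nd (nat_lit 78) (nat_lit 76) (nat_lit 0) (XT.lf (nat_lit 0) (nat_lit 6303258444) (nat_lit 152) (nat_lit 11247749111) (nat_lit 76) (nat_lit 47887065228) (nat_lit 11) (nat_lit 5) (nat_lit 13) (nat_lit 5) (nat_lit 12) (nat_lit 4) (nat_lit 352) (nat_lit 306) (nat_lit 242)) (XT.lf (nat_lit 0) (nat_lit 13505398132) (nat_lit 76) (nat_lit 4704754914) (nat_lit 152) (nat_lit 51401998277) (nat_lit 10) (nat_lit 5) (nat_lit 11) (nat_lit 5) (nat_lit 12) (nat_lit 4) (nat_lit 353) (nat_lit 306) (nat_lit 241)))) (XT.nd (nat_lit 156) (nat_lit 152) (nat_lit 0) (XT.nd (nat_lit 78) (nat_lit 0) (nat_lit 0) (XT.lf (nat_lit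 0) (nat_lit 31591465822) (nat_lit 152) (nat_lit 33473197518) (nat_lit 0) (nat_lit 9013746902) (nat_lit 10) (nat_lit 5) (nat_lit 12) (nat_lit 4) (nat_lit 10) (nat_lit 4) (nat_lit 354) (nat_lit 306) (nat_lit 240)) (XT.lf (nat_lit 0) (nat_lit 46152360881) (nat_lit 152) (nat_lit 9176717472) (nat_lit 0) (nat_lit 23564168512) (nat_lit 10) (nat_lit 5) (nat_lit 12) (nat_lit 4) (nat_lit 10) (nat_lit 4) (nat_lit 355) (nat_lit 306) (nat_lit 239))) (XT.nd (nat_lit 78) (nat_lit 76) (nat_lit 0) (XT.lf (nat_lit 0) (nat_lit 17937102045) (nat_lit 76) (nat_lit 44360261229) (nat_lit 76) (nat_lit 21762371223) (nat_lit 9) (nat_lit 4) (nat_lit 10) (nat_lit 5) (nat_lit 10) (nat_lit 4) (nat_lit 356) (nat_lit 306) (nat_lit 238)) (XT.nd (nat_lit 78) (nat_lit 76) (nat_lit 0) (XT.lf (nat_lit 0) (nat_lit 47718848883) (nat_lit 76) (nat_lit 32254218094) (nat_lit 76) (nat_lit 9647348794) (nat_lit 9) (nat_lit 4) (nat_lit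 10) (nat_lit 5) (nat_lit 10) (nat_lit 4) (nat_lit 357) (nat_lit 306) (nat_lit 237)) (XT.lf (nat_lit 0) (nat_lit 3253730620) (nat_lit 152) (nat_lit 15847423770) (nat_lit 76) (nat_lit 76519084403) (nat_lit 8) (nat_lit 5) (nat_lit 10) (nat_lit 5) (nat_lit 9) (nat_lit 4) (nat_lit 358) (nat_lit 306) (nat_lit 236)))))) (XT.nd (nat_lit 312) (nat_lit 228) (nat_lit 0) (XT.nd (nat_lit 156) (nat_lit 0) (nat_lit 0) (XT.nd (nat_lit 78) (nat_lit 0) (nat_lit 0) (XT.lf (nat_lit 0) (nat_lit 12653105101) (nat_lit 76) (nat_lit 4306503965) (nat_lit 152) (nat_lit 85096880703) (nat_lit 7) (nat_lit 5) (nat_lit 8) (nat_lit 5) (nat_lit 9) (nat_lit 4) (nat_lit 359) (nat_lit 306) (nat_lit 235)) (XT.lf (nat_lit 0) (nat_lit 32476885953) (nat_lit 152) (nat_lit 64950389451) (nat_lit 0) (nat_lit 11523173165) (nat_lit 7) (nat_lit 5) (nat_lit 9) (nat_lit 4) (nat_lit 7) (nat_lit 4) (nat_lit 360) (nat_lit 306) (nat_lit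 234))) (XT.nd (nat_lit 78) (nat_lit 0) (nat_lit 0) (XT.lf (nat_lit 0) (nat_lit 49337839222) (nat_lit 152) (nat_lit 38671887885) (nat_lit 0) (nat_lit 28378015278) (nat_lit 7) (nat_lit 5) (nat_lit 9) (nat_lit 4) (nat_lit 7) (nat_lit 4) (nat_lit 361) (nat_lit 306) (nat_lit 233)) (XT.lf (nat_lit 0) (nat_lit 67538814111) (nat_lit 152) (nat_lit 10308583992) (nat_lit 0) (nat_lit 46573331688) (nat_lit 7) (nat_lit 5) (nat_lit 9) (nat_lit 4) (nat_lit 7) (nat_lit 4) (nat_lit 362) (nat_lit 306) (nat_lit 232)))) (XT.nd (nat_lit 156) (nat_lit 152) (nat_lit 0) (XT.nd (nat_lit 78) (nat_lit 0) (nat_lit 0) (XT.lf (nat_lit 0) (nat_lit 21376963348) (nat_lit 76) (nat_lit 66324821382) (nat_lit 76) (nat_lit 45354099628) (nat_lit 6) (nat_lit 4) (nat_lit 7) (nat_lit 5) (nat_lit 7) (nat_lit 4) (nat_lit 363) (nat_lit 306) (nat_lit 231)) (XT.lf (nat_lit 0) (nat_lit 56167839335) (nat_lit 76) (nat_lit 53583837839)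 (nat_lit 76) (nat_lit 32608264852) (nat_lit 6) (nat_lit 4) (nat_lit 7) (nat_lit 5) (nat_lit 7) (nat_lit 4) (nat_lit 364) (nat_lit 306) (nat_lit 230))) (XT.nd (nat_lit 78) (nat_lit 152) (nat_lit 0) (XT.lf (nat_lit 0) (nat_lit 93727380358) (nat_lit 76) (nat_lit 39830800303) (nat_lit 76) (nat_lit 18850735434) (nat_lit 6) (nat_lit 4) (nat_lit 7) (nat_lit 5) (nat_lit 7) (nat_lit 4) (nat_lit 365) (nat_lit 306) (nat_lit 229)) (XT.nd (nat_lit 78) (nat_lit 152) (nat_lit 0) (XT.lf (nat_lit 0) (nat_lit 134278161474) (nat_lit 76) (nat_lit 24984209294) (nat_lit 76) (nat_lit 3999985274) (nat_lit 6) (nat_lit 4) (nat_lit 7) (nat_lit 5) (nat_lit 7) (nat_lit 4) (nat_lit 366) (nat_lit 306) (nat_lit 228)) (XT.lf (nat_lit 0) (nat_lit 2933269424) (nat_lit 76) (nat_lit 8567376974) (nat_lit 152) (nat_lit 163455138962) (nat_lit 4) (nat_lit 5) (nat_lit 5) (nat_lit 5) (nat_lit 6) (nat_lit 4) (nat_lit 367) (nat_lit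 306) (nat_lit 227))))))))
noncomputable def xc116 : XT := (XT.nd (nat_lit 1404) (nat_lit 0) (nat_lit 0) (XT.nd (nat_lit 702) (nat_lit 152) (nat_lit 0) (XT.nd (nat_lit 312) (nat_lit 76) (nat_lit 0) (XT.nd (nat_lit 156) (nat_lit 0) (nat_lit 0) (XT.nd (nat_lit 78) (nat_lit 0) (nat_lit 0) (XT.lf (nat_lit 0) (nat_lit 29052190994) (nat_lit 152) (nat_lit 148826543662) (nat_lit 0) (nat_lit 9615486470) (nat_lit 4) (nat_lit 5) (nat_lit 6) (nat_lit 4) (nat_lit 4) (nat_lit 4) (nat_lit 368) (nat_lit 306) (nat_lit 226)) (XT.lf (nat_lit 0) (nat_lit 48224403950) (nat_lit 152) (nat_lit 124009362821) (nat_lit 0) (nat_lit 28784642326) (nat_lit 4) (nat_lit 5) (nat_lit 6) (nat_lit 4) (nat_lit 4) (nat_lit 4) (nat_lit 369) (nat_lit 306) (nat_lit 225))) (XT.nd (nat_lit 78) (nat_lit 0) (nat_lit 0) (XT.lf (nat_lit 0) (nat_lit 68924852757) (nat_lit 152) (nat_lit 97217863015) (nat_lit 0) (nat_lit 49482260485) (nat_lit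 4) (nat_lit 5) (nat_lit 6) (nat_lit 4) (nat_lit 4) (nat_lit 4) (nat_lit 370) (nat_lit 306) (nat_lit 224)) (XT.lf (nat_lit 0) (nat_lit 91276206742) (nat_lit 152) (nat_lit 68293279801) (nat_lit 0) (nat_lit 71830993500) (nat_lit 4) (nat_lit 5) (nat_lit 6) (nat_lit 4) (nat_lit 4) (nat_lit 4) (nat_lit 371) (nat_lit 306) (nat_lit 223)))) (XT.nd (nat_lit 156) (nat_lit 76) (nat_lit 0) (XT.nd (nat_lit 78) (nat_lit 0) (nat_lit 0) (XT.lf (nat_lit 0) (nat_lit 115410918373) (nat_lit 152) (nat_lit 37064208241) (nat_lit 0) (nat_lit 95963278306) (nat_lit 4) (nat_lit 5) (nat_lit 6) (nat_lit 4) (nat_lit 4) (nat_lit 4) (nat_lit 372) (nat_lit 306) (nat_lit 222)) (XT.lf (nat_lit 0) (nat_lit 141472008162) (nat_lit 152) (nat_lit 3345587170) (nat_lit 0) (nat_lit 122022121036) (nat_lit 4) (nat_lit 5) (nat_lit 6) (nat_lit 4) (nat_lit 4) (nat_lit 4) (nat_lit 373) (nat_lit 306) (nat_lit 221))) (XT.nd (nat_lit 78)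 (nat_lit 0) (nat_lit 0) (XT.lf (nat_lit 0) (nat_lit 34803404719) (nat_lit 76) (nat_lit 135647530199) (nat_lit 76) (nat_lit 116195562462) (nat_lit 3) (nat_lit 4) (nat_lit 4) (nat_lit 5) (nat_lit 4) (nat_lit 4) (nat_lit 374) (nat_lit 306) (nat_lit 220)) (XT.nd (nat_lit 78) (nat_lit 0) (nat_lit 0) (XT.lf (nat_lit 0) (nat_lit 76186662068) (nat_lit 76) (nat_lit 125649026307) (nat_lit 76) (nat_lit 106195132078) (nat_lit 3) (nat_lit 4) (nat_lit 4) (nat_lit 5) (nat_lit 4) (nat_lit 4) (nat_lit 375) (nat_lit 306) (nat_lit 219)) (XT.lf (nat_lit 0) (nat_lit 120873246301) (nat_lit 76) (nat_lit 114854307544) (nat_lit 76) (nat_lit 95398629527) (nat_lit 3) (nat_lit 4) (nat_lit 4) (nat_lit 5) (nat_lit 4) (nat_lit 4) (nat_lit 376) (nat_lit 306) (nat_lit 218)))))) (XT.nd (nat_lit 312) (nat_lit 152) (nat_lit 0) (XT.nd (nat_lit 156) (nat_lit 0) (nat_lit 0) (XT.nd (nat_lit 78) (nat_lit 0) (nat_lit 0) (XT.lf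 (nat_lit 0) (nat_lit 169127966806) (nat_lit 76) (nat_lit 103199405207) (nat_lit 76) (nat_lit 83742075535) (nat_lit 3) (nat_lit 4) (nat_lit 4) (nat_lit 5) (nat_lit 4) (nat_lit 4) (nat_lit 377) (nat_lit 306) (nat_lit 217)) (XT.lf (nat_lit 0) (nat_lit 221236777484) (nat_lit 76) (nat_lit 90615253208) (nat_lit 76) (nat_lit 71156394225) (nat_lit 3) (nat_lit 4) (nat_lit 4) (nat_lit 5) (nat_lit 4) (nat_lit 4) (nat_lit 378) (nat_lit 306) (nat_lit 216))) (XT.nd (nat_lit 78) (nat_lit 0) (nat_lit 0) (XT.lf (nat_lit 0) (nat_lit 277508471285) (nat_lit 76) (nat_lit 77027278795) (nat_lit 76) (nat_lit 57567003782) (nat_lit 3) (nat_lit 4) (nat_lit 4) (nat_lit 5) (nat_lit 4) (nat_lit 4) (nat_lit 379) (nat_lit 306) (nat_lit 215)) (XT.lf (nat_lit 0) (nat_lit 338276510100) (nat_lit 76) (nat_lit 62354960637) (nat_lit 76) (nat_lit 42893374487) (nat_lit 3) (nat_lit 4) (nat_lit 4) (nat_lit 5) (nat_lit 4) (nat_lit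 4) (nat_lit 380) (nat_lit 306) (nat_lit 214)))) (XT.nd (nat_lit 156) (nat_lit 152) (nat_lit 0) (XT.nd (nat_lit 78) (nat_lit 0) (nat_lit 0) (XT.lf (nat_lit 0) (nat_lit 403901000825) (nat_lit 76) (nat_lit 46511351664) (nat_lit 76) (nat_lit 27048551498) (nat_lit 3) (nat_lit 4) (nat_lit 4) (nat_lit 5) (nat_lit 4) (nat_lit 4) (nat_lit 381) (nat_lit 306) (nat_lit 213)) (XT.lf (nat_lit 0) (nat_lit 474770829330) (nat_lit 76) (nat_lit 29402563823) (nat_lit 76) (nat_lit 9938639567) (nat_lit 3) (nat_lit 4) (nat_lit 4) (nat_lit 5) (nat_lit 4) (nat_lit 4) (nat_lit 382) (nat_lit 306) (nat_lit 212))) (XT.nd (nat_lit 78) (nat_lit 76) (nat_lit 0) (XT.lf (nat_lit 0) (nat_lit 8110660372) (nat_lit 152) (nat_lit 2594791504) (nat_lit 76) (nat_lit 542973544770) (nat_lit 2) (nat_lit 5) (nat_lit 4) (nat_lit 5) (nat_lit 3) (nat_lit 4) (nat_lit 383) (nat_lit 306) (nat_lit 211)) (XT.nd (nat_lit 78) (nat_lit 0) (nat_lit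 0) (XT.lf (nat_lit 0) (nat_lit 28256355508) (nat_lit 152) (nat_lit 557806811703) (nat_lit 0) (nat_lit 10232347356) (nat_lit 1) (nat_lit 5) (nat_lit 3) (nat_lit 4) (nat_lit 1) (nat_lit 4) (nat_lit 384) (nat_lit 306) (nat_lit 210)) (XT.lf (nat_lit 0) (nat_lit 50362532722) (nat_lit 152) (nat_lit 559593217001) (nat_lit 0) (nat_lit 32337698331) (nat_lit 1) (nat_lit 5) (nat_lit 3) (nat_lit 4) (nat_lit 1) (nat_lit 4) (nat_lit 385) (nat_lit 306) (nat_lit 209))))))) (XT.nd (nat_lit 702) (nat_lit 0) (nat_lit 0) (XT.nd (nat_lit 312) (nat_lit 0) (nat_lit 0) (XT.nd (nat_lit 156) (nat_lit 0) (nat_lit 0) (XT.nd (nat_lit 78) (nat_lit 0) (nat_lit 0) (XT.lf (nat_lit 0) (nat_lit 74235328026) (nat_lit 152) (nat_lit 561526309913) (nat_lit 0) (nat_lit 56209728599) (nat_lit 1) (nat_lit 5) (nat_lit 3) (nat_lit 4) (nat_lit 1) (nat_lit 4) (nat_lit 386) (nat_lit 306) (nat_lit 208)) (XT.lf (nat_lit 0) (nat_lit 100016209838)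 (nat_lit 152) (nat_lit 563617545805) (nat_lit 0) (nat_lit 81989902044) (nat_lit 1) (nat_lit 5) (nat_lit 3) (nat_lit 4) (nat_lit 1) (nat_lit 4) (nat_lit 387) (nat_lit 306) (nat_lit 207))) (XT.nd (nat_lit 78) (nat_lit 0) (nat_lit 0) (XT.lf (nat_lit 0) (nat_lit 127857953752) (nat_lit 152) (nat_lit 565879317186) (nat_lit 0) (nat_lit 109830990062) (nat_lit 1) (nat_lit 5) (nat_lit 3) (nat_lit 4) (nat_lit 1) (nat_lit 4) (nat_lit 388) (nat_lit 306) (nat_lit 206)) (XT.lf (nat_lit 0) (nat_lit 157925547880) (nat_lit 152) (nat_lit 568325027145) (nat_lit 0) (nat_lit 139897976880) (nat_lit 1) (nat_lit 5) (nat_lit 3) (nat_lit 4) (nat_lit 1) (nat_lit 4) (nat_lit 389) (nat_lit 306) (nat_lit 205)))) (XT.nd (nat_lit 156) (nat_lit 0) (nat_lit 0) (XT.nd (nat_lit 78) (nat_lit 0) (nat_lit 0) (XT.lf (nat_lit 0) (nat_lit 190397170559) (nat_lit 152) (nat_lit 570969168779) (nat_lit 0) (nat_lit 172369037235) (nat_lit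 1) (nat_lit 5) (nat_lit 3) (nat_lit 4) (nat_lit 1) (nat_lit 4) (nat_lit 390) (nat_lit 306) (nat_lit 204)) (XT.lf (nat_lit 0) (nat_lit 225465246219) (nat_lit 152) (nat_lit 573827411076) (nat_lit 0) (nat_lit 207436592224) (nat_lit 1) (nat_lit 5) (nat_lit 3) (nat_lit 4) (nat_lit 1) (nat_lit 4) (nat_lit 391) (nat_lit 306) (nat_lit 203))) (XT.nd (nat_lit 78) (nat_lit 0) (nat_lit 0) (XT.lf (nat_lit 0) (nat_lit 263337585679) (nat_lit 152) (nat_lit 576916691766) (nat_lit 0) (nat_lit 245308449581) (nat_lit 1) (nat_lit 5) (nat_lit 3) (nat_lit 4) (nat_lit 1) (nat_lit 4) (nat_lit 392) (nat_lit 306) (nat_lit 202)) (XT.nd (nat_lit 78) (nat_lit 0) (nat_lit 0) (XT.lf (nat_lit 0) (nat_lit 304238617617) (nat_lit 152) (nat_lit 580255317699) (nat_lit 0) (nat_lit 286209035128) (nat_lit 1) (nat_lit 5) (nat_lit 3) (nat_lit 4) (nat_lit 1) (nat_lit 4) (nat_lit 393) (nat_lit 306) (nat_lit 201)) (XT.lf (nat_lit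 0) (nat_lit 348410718518) (nat_lit 152) (nat_lit 583863073325) (nat_lit 0) (nat_lit 330380722704) (nat_lit 1) (nat_lit 5) (nat_lit 3) (nat_lit 4) (nat_lit 1) (nat_lit 4) (nat_lit 394) (nat_lit 306) (nat_lit 200)))))) (XT.nd (nat_lit 312) (nat_lit 0) (nat_lit 0) (XT.nd (nat_lit 156) (nat_lit 0) (nat_lit 0) (XT.nd (nat_lit 78) (nat_lit 0) (nat_lit 0) (XT.lf (nat_lit 0) (nat_lit 396115648981) (nat_lit 152) (nat_lit 587761337936) (nat_lit 0) (nat_lit 378085270458) (nat_lit 1) (nat_lit 5) (nat_lit 3) (nat_lit 4) (nat_lit 1) (nat_lit 4) (nat_lit 395) (nat_lit 306) (nat_lit 199)) (XT.lf (nat_lit 0) (nat_lit 447636104889) (nat_lit 152) (nat_lit 591973212360) (nat_lit 0) (nat_lit 429605372007) (nat_lit 1) (nat_lit 5) (nat_lit 3) (nat_lit 4) (nat_lit 1) (nat_lit 4) (nat_lit 396) (nat_lit 306) (nat_lit 198))) (XT.nd (nat_lit 78) (nat_lit 0) (nat_lit 0) (XT.lf (nat_lit 0) (nat_lit 503277392649) (nat_lit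 152) (nat_lit 596523655852) (nat_lit 0) (nat_lit 485246331655) (nat_lit 1) (nat_lit 5) (nat_lit 3) (nat_lit 4) (nat_lit 1) (nat_lit 4) (nat_lit 397) (nat_lit 306) (nat_lit 197)) (XT.lf (nat_lit 0) (nat_lit 563369238409) (nat_lit 152) (nat_lit 601439634004) (nat_lit 0) (nat_lit 545337873609) (nat_lit 1) (nat_lit 5) (nat_lit 3) (nat_lit 4) (nat_lit 1) (nat_lit 4) (nat_lit 398) (nat_lit 306) (nat_lit 196)))) (XT.nd (nat_lit 156) (nat_lit 0) (nat_lit 0) (XT.nd (nat_lit 78) (nat_lit 0) (nat_lit 0) (XT.lf (nat_lit 0) (nat_lit 628267741997) (nat_lit 152) (nat_lit 606750278537) (nat_lit 0) (nat_lit 610236095895) (nat_lit 1) (nat_lit 5) (nat_lit 3) (nat_lit 4) (nat_lit 1) (nat_lit 4) (nat_lit 399) (nat_lit 306) (nat_lit 195)) (XT.lf (nat_lit 0) (nat_lit 698357487138) (nat_lit 152) (nat_lit 612487059939) (nat_lit 0) (nat_lit 680325580570) (nat_lit 1) (nat_lit 5) (nat_lit 3) (nat_lit 4) (nat_lit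 1) (nat_lit 4) (nat_lit 400) (nat_lit 306) (nat_lit 194))) (XT.nd (nat_lit 78) (nat_lit 0) (nat_lit 0) (XT.lf (nat_lit 0) (nat_lit 774053820469) (nat_lit 152) (nat_lit 618683973950) (nat_lit 0) (nat_lit 756021672730) (nat_lit 1) (nat_lit 5) (nat_lit 3) (nat_lit 4) (nat_lit 1) (nat_lit 4) (nat_lit 401) (nat_lit 306) (nat_lit 193)) (XT.nd (nat_lit 78) (nat_lit 0) (nat_lit 0) (XT.lf (nat_lit 0) (nat_lit 855805312854) (nat_lit 152) (nat_lit 625377743025) (nat_lit 0) (nat_lit 837772941809) (nat_lit 1) (nat_lit 5) (nat_lit 3) (nat_lit 4) (nat_lit 1) (nat_lit 4) (nat_lit 402) (nat_lit 306) (nat_lit 192)) (XT.lf (nat_lit 0) (nat_lit 944096417582) (nat_lit 152) (nat_lit 632608033942) (nat_lit 0) (nat_lit 926063839771) (nat_lit 1) (nat_lit 5) (nat_lit 3) (nat_lit 4) (nat_lit 1) (nat_lit 4) (nat_lit 403) (nat_lit 306) (nat_lit 191))))))))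
noncomputable def xc117 : XT := (XT.nd (nat_lit 39780) (nat_lit 0) (nat_lit 2204) (XT.nd (nat_lit 702) (nat_lit 0) (nat_lit 0) (XT.nd (nat_lit 312) (nat_lit 0) (nat_lit 0) (XT.nd (nat_lit 156) (nat_lit 0) (nat_lit 0) (XT.nd (nat_lit 78) (nat_lit 0) (nat_lit 0) (XT.lf (nat_lit 0) (nat_lit 1039450341199) (nat_lit 152) (nat_lit 640417692871) (nat_lit 0) (nat_lit 1021417571939) (nat_lit 1) (nat_lit 5) (nat_lit 3) (nat_lit 4) (nat_lit 1) (nat_lit 4) (nat_lit 404) (nat_lit 306) (nat_lit 190)) (XT.lf (nat_lit 0) (nat_lit 1142432143994) (nat_lit 152) (nat_lit 648852999271) (nat_lit 0) (nat_lit 1124399197466) (nat_lit 1) (nat_lit 5) (nat_lit 3) (nat_lit 4) (nat_lit 1) (nat_lit 4) (nat_lit 405) (nat_lit 306) (nat_lit 189))) (XT.nd (nat_lit 78) (nat_lit 0) (nat_lit 0) (XT.lf (nat_lit 0) (nat_lit 1253652088502) (nat_lit 152) (nat_lit 657963940143) (nat_lit 0) (nat_lit 1235618977836) (nat_lit 1) (nat_lit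 5) (nat_lit 3) (nat_lit 4) (nat_lit 1) (nat_lit 4) (nat_lit 406) (nat_lit 306) (nat_lit 188)) (XT.lf (nat_lit 0) (nat_lit 1373769255874) (nat_lit 152) (nat_lit 667804506248) (nat_lit 0) (nat_lit 1355735993229) (nat_lit 1) (nat_lit 5) (nat_lit 3) (nat_lit 4) (nat_lit 1) (nat_lit 4) (nat_lit 407) (nat_lit 306) (nat_lit 187)))) (XT.nd (nat_lit 156) (nat_lit 0) (nat_lit 0) (XT.nd (nat_lit 78) (nat_lit 0) (nat_lit 0) (XT.lf (nat_lit 0) (nat_lit 1503495451548) (nat_lit 152) (nat_lit 678433012053) (nat_lit 0) (nat_lit 1485462048182) (nat_lit 1) (nat_lit 5) (nat_lit 3) (nat_lit 4) (nat_lit 1) (nat_lit 4) (nat_lit 408) (nat_lit 306) (nat_lit 186)) (XT.lf (nat_lit 0) (nat_lit 1643599423349) (nat_lit 152) (nat_lit 689912441294) (nat_lit 0) (nat_lit 1625565889686) (nat_lit 1) (nat_lit 5) (nat_lit 3) (nat_lit 4) (nat_lit 1) (nat_lit 4) (nat_lit 409) (nat_lit 306) (nat_lit 185))) (XT.nd (nat_lit 78)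 (nat_lit 0) (nat_lit 0) (XT.lf (nat_lit 0) (nat_lit 1794911417037) (nat_lit 152) (nat_lit 702310820220) (nat_lit 0) (nat_lit 1776877762728) (nat_lit 1) (nat_lit 5) (nat_lit 3) (nat_lit 4) (nat_lit 1) (nat_lit 4) (nat_lit 410) (nat_lit 306) (nat_lit 184)) (XT.nd (nat_lit 78) (nat_lit 0) (nat_lit 0) (XT.lf (nat_lit 0) (nat_lit 1958328096277) (nat_lit 152) (nat_lit 715701620705) (nat_lit 0) (nat_lit 1940294330260) (nat_lit 1) (nat_lit 5) (nat_lit 3) (nat_lit 4) (nat_lit 1) (nat_lit 4) (nat_lit 411) (nat_lit 306) (nat_lit 183)) (XT.lf (nat_lit 0) (nat_lit 2134817856207) (nat_lit 152) (nat_lit 730164195642) (nat_lit 0) (nat_lit 2116783986755) (nat_lit 1) (nat_lit 5) (nat_lit 3) (nat_lit 4) (nat_lit 1) (nat_lit 4) (nat_lit 412) (nat_lit 306) (nat_lit 182)))))) (XT.nd (nat_lit 38688) (nat_lit 0) (nat_lit 4484) (XT.nd (nat_lit 156) (nat_lit 0) (nat_lit 0) (XT.nd (nat_lit 78) (nat_lit 0) (nat_lit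 0) (XT.lf (nat_lit 0) (nat_lit 2325426562069) (nat_lit 152) (nat_lit 745784249177) (nat_lit 0) (nat_lit 2307392596845) (nat_lit 1) (nat_lit 5) (nat_lit 3) (nat_lit 4) (nat_lit 1) (nat_lit 4) (nat_lit 413) (nat_lit 306) (nat_lit 181)) (XT.lf (nat_lit 0) (nat_lit 2531283746937) (nat_lit 152) (nat_lit 762654344592) (nat_lit 0) (nat_lit 2513249693034) (nat_lit 1) (nat_lit 5) (nat_lit 3) (nat_lit 4) (nat_lit 1) (nat_lit 4) (nat_lit 414) (nat_lit 306) (nat_lit 180))) (XT.nd (nat_lit 38454) (nat_lit 0) (nat_lit 4864) (XT.lf (nat_lit 0) (nat_lit 2753609305238) (nat_lit 152) (nat_lit 780874452822) (nat_lit 0) (nat_lit 2735575169225) (nat_lit 1) (nat_lit 5) (nat_lit 3) (nat_lit 4) (nat_lit 1) (nat_lit 4) (nat_lit 415) (nat_lit 306) (nat_lit 179)) (XT.lf (nat_lit 0) (nat_lit 574384510) (nat_lit 0) (nat_lit 574384510) (nat_lit 380) (nat_lit 2781377053) (nat_lit 65) (nat_lit 5) (nat_lit 65) (nat_lit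 3) (nat_lit 70) (nat_lit 3) (nat_lit 307) (nat_lit 307) (nat_lit 286)))) (XT.nd (nat_lit 156) (nat_lit 380) (nat_lit 0) (XT.nd (nat_lit 78) (nat_lit 0) (nat_lit 0) (XT.lf (nat_lit 0) (nat_lit 3642761309) (nat_lit 380) (nat_lit 2947861344) (nat_lit 456) (nat_lit 1481792406) (nat_lit 65) (nat_lit 5) (nat_lit 70) (nat_lit 3) (nat_lit 71) (nat_lit 5) (nat_lit 308) (nat_lit 307) (nat_lit 285)) (XT.lf (nat_lit 76) (nat_lit 1068278967) (nat_lit 0) (nat_lit 3962677194) (nat_lit 456) (nat_lit 3275925746) (nat_lit 66) (nat_lit 5) (nat_lit 65) (nat_lit 5) (nat_lit 71) (nat_lit 5) (nat_lit 309) (nat_lit 307) (nat_lit 284))) (XT.nd (nat_lit 78) (nat_lit 380) (nat_lit 0) (XT.lf (nat_lit 76) (nat_lit 5502970343) (nat_lit 0) (nat_lit 994868588) (nat_lit 456) (nat_lit 2065043993) (nat_lit 66) (nat_lit 5) (nat_lit 65) (nat_lit 5) (nat_lit 71) (nat_lit 5) (nat_lit 310) (nat_lit 307) (nat_lit 283)) (XT.nd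 (nat_lit 78) (nat_lit 456) (nat_lit 0) (XT.lf (nat_lit 76) (nat_lit 1395035589) (nat_lit 0) (nat_lit 6670095419) (nat_lit 456) (nat_lit 775761846) (nat_lit 67) (nat_lit 5) (nat_lit 66) (nat_lit 5) (nat_lit 72) (nat_lit 5) (nat_lit 311) (nat_lit 307) (nat_lit 282)) (XT.lf (nat_lit 0) (nat_lit 597077636) (nat_lit 456) (nat_lit 2875105154) (nat_lit 532) (nat_lit 5667022081) (nat_lit 60) (nat_lit 5) (nat_lit 66) (nat_lit 5) (nat_lit 67) (nat_lit 5) (nat_lit 312) (nat_lit 307) (nat_lit 281))))))) (XT.nd (nat_lit 702) (nat_lit 988) (nat_lit 0) (XT.nd (nat_lit 312) (nat_lit 912) (nat_lit 0) (XT.nd (nat_lit 156) (nat_lit 456) (nat_lit 0) (XT.nd (nat_lit 78) (nat_lit 0) (nat_lit 0) (XT.lf (nat_lit 0) (nat_lit 1996567146) (nat_lit 456) (nat_lit 7392815858) (nat_lit 76) (nat_lit 73825889) (nat_lit 61) (nat_lit 5) (nat_lit 67) (nat_lit 5) (nat_lit 62) (nat_lit 5) (nat_lit 313) (nat_lit 307) (nat_lit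 280)) (XT.lf (nat_lit 0) (nat_lit 3591481651) (nat_lit 456) (nat_lit 2402179177) (nat_lit 76) (nat_lit 3812922689) (nat_lit 61) (nat_lit 5) (nat_lit 67) (nat_lit 5) (nat_lit 62) (nat_lit 5) (nat_lit 314) (nat_lit 307) (nat_lit 279))) (XT.nd (nat_lit 78) (nat_lit 0) (nat_lit 0) (XT.lf (nat_lit 0) (nat_lit 3068867042) (nat_lit 456) (nat_lit 2238027645) (nat_lit 532) (nat_lit 4871219092) (nat_lit 55) (nat_lit 5) (nat_lit 61) (nat_lit 5) (nat_lit 62) (nat_lit 5) (nat_lit 315) (nat_lit 307) (nat_lit 278)) (XT.lf (nat_lit 0) (nat_lit 7194192578) (nat_lit 532) (nat_lit 1582241894) (nat_lit 76) (nat_lit 1800269197) (nat_lit 55) (nat_lit 5) (nat_lit 62) (nat_lit 5) (nat_lit 56) (nat_lit 5) (nat_lit 316) (nat_lit 307) (nat_lit 277)))) (XT.nd (nat_lit 156) (nat_lit 456) (nat_lit 0) (XT.nd (nat_lit 78) (nat_lit 76) (nat_lit 0) (XT.lf (nat_lit 0) (nat_lit 4481775835) (nat_lit 380) (nat_lit 4845821156)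 (nat_lit 456) (nat_lit 1672075194) (nat_lit 50) (nat_lit 5) (nat_lit 55) (nat_lit 5) (nat_lit 56) (nat_lit 5) (nat_lit 317) (nat_lit 307) (nat_lit 276)) (XT.lf (nat_lit 0) (nat_lit 141761528) (nat_lit 456) (nat_lit 410589664) (nat_lit 76) (nat_lit 10905850325) (nat_lit 49) (nat_lit 5) (nat_lit 55) (nat_lit 5) (nat_lit 50) (nat_lit 5) (nat_lit 318) (nat_lit 307) (nat_lit 275))) (XT.nd (nat_lit 78) (nat_lit 228) (nat_lit 0) (XT.lf (nat_lit 0) (nat_lit 2203471992) (nat_lit 304) (nat_lit 5652089470) (nat_lit 76) (nat_lit 4079009484) (nat_lit 46) (nat_lit 5) (nat_lit 50) (nat_lit 5) (nat_lit 47) (nat_lit 5) (nat_lit 319) (nat_lit 307) (nat_lit 274)) (XT.nd (nat_lit 78) (nat_lit 0) (nat_lit 0) (XT.lf (nat_lit 0) (nat_lit 1053441669) (nat_lit 228) (nat_lit 3366961313) (nat_lit 304) (nat_lit 8029498674) (nat_lit 43) (nat_lit 5) (nat_lit 46) (nat_lit 5) (nat_lit 47) (nat_lit 5) (nat_lit 320) (nat_lit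 307) (nat_lit 273)) (XT.lf (nat_lit 0) (nat_lit 6950524664) (nat_lit 304) (nat_lit 4490338795) (nat_lit 76) (nat_lit 1554797378) (nat_lit 43) (nat_lit 5) (nat_lit 47) (nat_lit 5) (nat_lit 44) (nat_lit 5) (nat_lit 321) (nat_lit 307) (nat_lit 272)))))) (XT.nd (nat_lit 312) (nat_lit 532) (nat_lit 0) (XT.nd (nat_lit 156) (nat_lit 304) (nat_lit 0) (XT.nd (nat_lit 78) (nat_lit 0) (nat_lit 0) (XT.lf (nat_lit 0) (nat_lit 2960905241) (nat_lit 152) (nat_lit 6826807344) (nat_lit 228) (nat_lit 3789059450) (nat_lit 41) (nat_lit 5) (nat_lit 43) (nat_lit 5) (nat_lit 44) (nat_lit 5) (nat_lit 322) (nat_lit 307) (nat_lit 271)) (XT.lf (nat_lit 0) (nat_lit 11197310837) (nat_lit 152) (nat_lit 1725737459) (nat_lit 228) (nat_lit 1275689091) (nat_lit 41) (nat_lit 5) (nat_lit 43) (nat_lit 5) (nat_lit 44) (nat_lit 5) (nat_lit 323) (nat_lit 307) (nat_lit 270))) (XT.nd (nat_lit 78) (nat_lit 0) (nat_lit 0) (XT.lf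 (nat_lit 0) (nat_lit 1542316168) (nat_lit 304) (nat_lit 9562858050) (nat_lit 76) (nat_lit 3748525248) (nat_lit 37) (nat_lit 5) (nat_lit 41) (nat_lit 5) (nat_lit 38) (nat_lit 5) (nat_lit 324) (nat_lit 307) (nat_lit 269)) (XT.lf (nat_lit 0) (nat_lit 4598551876) (nat_lit 304) (nat_lit 1283238748) (nat_lit 76) (nat_lit 9670127174) (nat_lit 37) (nat_lit 5) (nat_lit 41) (nat_lit 5) (nat_lit 38) (nat_lit 5) (nat_lit 325) (nat_lit 307) (nat_lit 268)))) (XT.nd (nat_lit 156) (nat_lit 228) (nat_lit 0) (XT.nd (nat_lit 78) (nat_lit 152) (nat_lit 0) (XT.lf (nat_lit 0) (nat_lit 7997873804) (nat_lit 152) (nat_lit 49956287) (nat_lit 228) (nat_lit 8246323437) (nat_lit 35) (nat_lit 5) (nat_lit 37) (nat_lit 5) (nat_lit 38) (nat_lit 5) (nat_lit 326) (nat_lit 307) (nat_lit 267)) (XT.lf (nat_lit 0) (nat_lit 829397603) (nat_lit 152) (nat_lit 11107463340) (nat_lit 228) (nat_lit 5145842552) (nat_lit 33) (nat_lit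 5) (nat_lit 35) (nat_lit 5) (nat_lit 36) (nat_lit 5) (nat_lit 327) (nat_lit 307) (nat_lit 266))) (XT.nd (nat_lit 78) (nat_lit 228) (nat_lit 0) (XT.lf (nat_lit 0) (nat_lit 11094760549) (nat_lit 152) (nat_lit 5229623334) (nat_lit 228) (nat_lit 1595001235) (nat_lit 33) (nat_lit 5) (nat_lit 35) (nat_lit 5) (nat_lit 36) (nat_lit 5) (nat_lit 328) (nat_lit 307) (nat_lit 265)) (XT.nd (nat_lit 78) (nat_lit 0) (nat_lit 0) (XT.lf (nat_lit 0) (nat_lit 2201271971) (nat_lit 228) (nat_lit 15428177135) (nat_lit 76) (nat_lit 1183401393) (nat_lit 30) (nat_lit 5) (nat_lit 33) (nat_lit 5) (nat_lit 31) (nat_lit 5) (nat_lit 329) (nat_lit 307) (nat_lit 264)) (XT.lf (nat_lit 0) (nat_lit 6504655149) (nat_lit 228) (nat_lit 5205578964) (nat_lit 76) (nat_lit 8041107894) (nat_lit 30) (nat_lit 5) (nat_lit 33) (nat_lit 5) (nat_lit 31) (nat_lit 5) (nat_lit 330) (nat_lit 307) (nat_lit 263))))))))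
noncomputable def xc118 : XT := (XT.nd (nat_lit 1404) (nat_lit 608) (nat_lit 0) (XT.nd (nat_lit 702) (nat_lit 456) (nat_lit 0) (XT.nd (nat_lit 312) (nat_lit 456) (nat_lit 0) (XT.nd (nat_lit 156) (nat_lit 152) (nat_lit 0) (XT.nd (nat_lit 78) (nat_lit 0) (nat_lit 0) (XT.lf (nat_lit 0) (nat_lit 6084141999) (nat_lit 152) (nat_lit 5179584467) (nat_lit 228) (nat_lit 9492300336) (nat_lit 28) (nat_lit 5) (nat_lit 30) (nat_lit 5) (nat_lit 31) (nat_lit 5) (nat_lit 331) (nat_lit 307) (nat_lit 262)) (XT.lf (nat_lit 0) (nat_lit 16560515636) (nat_lit 228) (nat_lit 3361245961) (nat_lit 76) (nat_lit 1906790750) (nat_lit 28) (nat_lit 5) (nat_lit 31) (nat_lit 5) (nat_lit 29) (nat_lit 4) (nat_lit 332) (nat_lit 307) (nat_lit 261))) (XT.nd (nat_lit 78) (nat_lit 76) (nat_lit 0) (XT.lf (nat_lit 0) (nat_lit 9124410907) (nat_lit 76) (nat_lit 13479046756) (nat_lit 152) (nat_lit 357652954) (nat_lit 27) (nat_lit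 5) (nat_lit 28) (nat_lit 5) (nat_lit 29) (nat_lit 4) (nat_lit 333) (nat_lit 307) (nat_lit 260)) (XT.lf (nat_lit 0) (nat_lit 4761200919) (nat_lit 152) (nat_lit 1550266364) (nat_lit 76) (nat_lit 17858268196) (nat_lit 26) (nat_lit 5) (nat_lit 28) (nat_lit 5) (nat_lit 27) (nat_lit 5) (nat_lit 334) (nat_lit 307) (nat_lit 259)))) (XT.nd (nat_lit 156) (nat_lit 228) (nat_lit 0) (XT.nd (nat_lit 78) (nat_lit 76) (nat_lit 0) (XT.lf (nat_lit 0) (nat_lit 10578357241) (nat_lit 228) (nat_lit 13219214629) (nat_lit 76) (nat_lit 1652104575) (nat_lit 24) (nat_lit 5) (nat_lit 27) (nat_lit 5) (nat_lit 25) (nat_lit 4) (nat_lit 335) (nat_lit 307) (nat_lit 258)) (XT.lf (nat_lit 0) (nat_lit 167740867) (nat_lit 76) (nat_lit 16876217319) (nat_lit 152) (nat_lit 9773425976) (nat_lit 23) (nat_lit 5) (nat_lit 24) (nat_lit 5) (nat_lit 25) (nat_lit 4) (nat_lit 336) (nat_lit 307) (nat_lit 257))) (XT.nd (nat_lit 78) (nat_lit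 228) (nat_lit 0) (XT.lf (nat_lit 0) (nat_lit 15329870283) (nat_lit 76) (nat_lit 9030947875) (nat_lit 152) (nat_lit 3906985431) (nat_lit 23) (nat_lit 5) (nat_lit 24) (nat_lit 5) (nat_lit 25) (nat_lit 4) (nat_lit 337) (nat_lit 307) (nat_lit 256)) (XT.nd (nat_lit 78) (nat_lit 0) (nat_lit 0) (XT.lf (nat_lit 0) (nat_lit 1859908056) (nat_lit 152) (nat_lit 466028304) (nat_lit 228) (nat_lit 27502167904) (nat_lit 20) (nat_lit 5) (nat_lit 22) (nat_lit 5) (nat_lit 23) (nat_lit 5) (nat_lit 338) (nat_lit 307) (nat_lit 255)) (XT.lf (nat_lit 0) (nat_lit 9394944020) (nat_lit 228) (nat_lit 13275339935) (nat_lit 76) (nat_lit 8790956839) (nat_lit 20) (nat_lit 5) (nat_lit 23) (nat_lit 5) (nat_lit 21) (nat_lit 4) (nat_lit 339) (nat_lit 307) (nat_lit 254)))))) (XT.nd (nat_lit 312) (nat_lit 228) (nat_lit 0) (XT.nd (nat_lit 156) (nat_lit 152) (nat_lit 0) (XT.nd (nat_lit 78) (nat_lit 0) (nat_lit 0) (XT.lf (nat_lit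 0) (nat_lit 2672050242) (nat_lit 76) (nat_lit 14410029490) (nat_lit 152) (nat_lit 16138751654) (nat_lit 19) (nat_lit 5) (nat_lit 20) (nat_lit 5) (nat_lit 21) (nat_lit 4) (nat_lit 340) (nat_lit 307) (nat_lit 253)) (XT.lf (nat_lit 0) (nat_lit 20608830092) (nat_lit 76) (nat_lit 5115332235) (nat_lit 152) (nat_lit 9369839684) (nat_lit 19) (nat_lit 5) (nat_lit 20) (nat_lit 5) (nat_lit 21) (nat_lit 4) (nat_lit 341) (nat_lit 307) (nat_lit 252))) (XT.nd (nat_lit 78) (nat_lit 76) (nat_lit 0) (XT.lf (nat_lit 0) (nat_lit 2847975954) (nat_lit 76) (nat_lit 32374824929) (nat_lit 76) (nat_lit 1881020316) (nat_lit 18) (nat_lit 4) (nat_lit 19) (nat_lit 5) (nat_lit 19) (nat_lit 4) (nat_lit 342) (nat_lit 307) (nat_lit 251)) (XT.lf (nat_lit 0) (nat_lit 6414035641) (nat_lit 152) (nat_lit 17183373024) (nat_lit 76) (nat_lit 15623673744) (nat_lit 17) (nat_lit 5) (nat_lit 19) (nat_lit 5) (nat_lit 18) (nat_lit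 4) (nat_lit 343) (nat_lit 307) (nat_lit 250)))) (XT.nd (nat_lit 156) (nat_lit 152) (nat_lit 0) (XT.nd (nat_lit 78) (nat_lit 0) (nat_lit 0) (XT.lf (nat_lit 0) (nat_lit 1230791493) (nat_lit 76) (nat_lit 14049902011) (nat_lit 152) (nat_lit 26222360674) (nat_lit 16) (nat_lit 5) (nat_lit 17) (nat_lit 5) (nat_lit 18) (nat_lit 4) (nat_lit 344) (nat_lit 307) (nat_lit 249)) (XT.lf (nat_lit 0) (nat_lit 22059437911) (nat_lit 76) (nat_lit 3247707681) (nat_lit 152) (nat_lit 18624408566) (nat_lit 16) (nat_lit 5) (nat_lit 17) (nat_lit 5) (nat_lit 18) (nat_lit 4) (nat_lit 345) (nat_lit 307) (nat_lit 248))) (XT.nd (nat_lit 78) (nat_lit 152) (nat_lit 0) (XT.lf (nat_lit 0) (nat_lit 36319886908) (nat_lit 152) (nat_lit 2236727048) (nat_lit 0) (nat_lit 7982993184) (nat_lit 16) (nat_lit 5) (nat_lit 18) (nat_lit 4) (nat_lit 16) (nat_lit 4) (nat_lit 346) (nat_lit 307) (nat_lit 247)) (XT.nd (nat_lit 78) (nat_lit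 76) (nat_lit 0) (XT.lf (nat_lit 0) (nat_lit 19846163531) (nat_lit 76) (nat_lit 28912200041) (nat_lit 76) (nat_lit 554369844) (nat_lit 15) (nat_lit 4) (nat_lit 16) (nat_lit 5) (nat_lit 16) (nat_lit 4) (nat_lit 347) (nat_lit 307) (nat_lit 246)) (XT.lf (nat_lit 0) (nat_lit 9435642325) (nat_lit 152) (nat_lit 8751079780) (nat_lit 76) (nat_lit 34098305339) (nat_lit 14) (nat_lit 5) (nat_lit 16) (nat_lit 5) (nat_lit 15) (nat_lit 4) (nat_lit 348) (nat_lit 307) (nat_lit 245))))))) (XT.nd (nat_lit 702) (nat_lit 228) (nat_lit 0) (XT.nd (nat_lit 312) (nat_lit 228) (nat_lit 0) (XT.nd (nat_lit 156) (nat_lit 76) (nat_lit 0) (XT.nd (nat_lit 78) (nat_lit 0) (nat_lit 0) (XT.lf (nat_lit 0) (nat_lit 14292741744) (nat_lit 76) (nat_lit 6230290569) (nat_lit 152) (nat_lit 34944675600) (nat_lit 13) (nat_lit 5) (nat_lit 14) (nat_lit 5) (nat_lit 15) (nat_lit 4) (nat_lit 349) (nat_lit 307) (nat_lit 244)) (XT.lf (nat_lit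 0) (nat_lit 32888141137) (nat_lit 152) (nat_lit 19404675804) (nat_lit 0) (nat_lit 6580932327) (nat_lit 13) (nat_lit 5) (nat_lit 15) (nat_lit 4) (nat_lit 13) (nat_lit 4) (nat_lit 350) (nat_lit 307) (nat_lit 243))) (XT.nd (nat_lit 78) (nat_lit 0) (nat_lit 0) (XT.lf (nat_lit 0) (nat_lit 4124288248) (nat_lit 76) (nat_lit 42364856468) (nat_lit 76) (nat_lit 16043398648) (nat_lit 12) (nat_lit 4) (nat_lit 13) (nat_lit 5) (nat_lit 13) (nat_lit 4) (nat_lit 351) (nat_lit 307) (nat_lit 242)) (XT.lf (nat_lit 0) (nat_lit 30612387736) (nat_lit 76) (nat_lit 31082488396) (nat_lit 76) (nat_lit 4747837047) (nat_lit 12) (nat_lit 4) (nat_lit 13) (nat_lit 5) (nat_lit 13) (nat_lit 4) (nat_lit 352) (nat_lit 307) (nat_lit 241)))) (XT.nd (nat_lit 156) (nat_lit 76) (nat_lit 0) (XT.nd (nat_lit 78) (nat_lit 76) (nat_lit 0) (XT.lf (nat_lit 0) (nat_lit 7065403480) (nat_lit 152) (nat_lit 11650828339) (nat_lit 76) (nat_lit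 51936189203) (nat_lit 11) (nat_lit 5) (nat_lit 13) (nat_lit 5) (nat_lit 12) (nat_lit 4) (nat_lit 353) (nat_lit 307) (nat_lit 240)) (XT.lf (nat_lit 0) (nat_lit 15069994970) (nat_lit 76) (nat_lit 4847396314) (nat_lit 152) (nat_lit 55243636180) (nat_lit 10) (nat_lit 5) (nat_lit 11) (nat_lit 5) (nat_lit 12) (nat_lit 4) (nat_lit 354) (nat_lit 307) (nat_lit 239))) (XT.nd (nat_lit 78) (nat_lit 76) (nat_lit 0) (XT.lf (nat_lit 0) (nat_lit 34355864036) (nat_lit 152) (nat_lit 35689350057) (nat_lit 0) (nat_lit 9940445192) (nat_lit 10) (nat_lit 5) (nat_lit 12) (nat_lit 4) (nat_lit 10) (nat_lit 4) (nat_lit 355) (nat_lit 307) (nat_lit 238)) (XT.nd (nat_lit 78) (nat_lit 76) (nat_lit 0) (XT.lf (nat_lit 0) (nat_lit 50064069148) (nat_lit 152) (nat_lit 9483351849) (nat_lit 0) (nat_lit 25639671010) (nat_lit 10) (nat_lit 5) (nat_lit 12) (nat_lit 4) (nat_lit 10) (nat_lit 4) (nat_lit 356) (nat_lit 307) (nat_lit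 237)) (XT.lf (nat_lit 0) (nat_lit 19788750368) (nat_lit 76) (nat_lit 47705681837) (nat_lit 76) (nat_lit 23272969538) (nat_lit 9) (nat_lit 4) (nat_lit 10) (nat_lit 5) (nat_lit 10) (nat_lit 4) (nat_lit 357) (nat_lit 307) (nat_lit 236)))))) (XT.nd (nat_lit 312) (nat_lit 76) (nat_lit 0) (XT.nd (nat_lit 156) (nat_lit 76) (nat_lit 0) (XT.nd (nat_lit 78) (nat_lit 76) (nat_lit 0) (XT.lf (nat_lit 0) (nat_lit 51922171755) (nat_lit 76) (nat_lit 34646221939) (nat_lit 76) (nat_lit 10205811343) (nat_lit 9) (nat_lit 4) (nat_lit 10) (nat_lit 5) (nat_lit 10) (nat_lit 4) (nat_lit 358) (nat_lit 307) (nat_lit 235)) (XT.lf (nat_lit 0) (nat_lit 3701671622) (nat_lit 152) (nat_lit 16748061674) (nat_lit 76) (nat_lit 82805074200) (nat_lit 8) (nat_lit 5) (nat_lit 10) (nat_lit 5) (nat_lit 9) (nat_lit 4) (nat_lit 359) (nat_lit 307) (nat_lit 234))) (XT.nd (nat_lit 78) (nat_lit 0) (nat_lit 0) (XT.lf (nat_lit 0) (nat_lit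 14023214418) (nat_lit 76) (nat_lit 4475513041) (nat_lit 152) (nat_lit 91707657410) (nat_lit 7) (nat_lit 5) (nat_lit 8) (nat_lit 5) (nat_lit 9) (nat_lit 4) (nat_lit 360) (nat_lit 307) (nat_lit 233)) (XT.lf (nat_lit 0) (nat_lit 35247787493) (nat_lit 152) (nat_lit 69805435477) (nat_lit 0) (nat_lit 12599407998) (nat_lit 7) (nat_lit 5) (nat_lit 9) (nat_lit 4) (nat_lit 7) (nat_lit 4) (nat_lit 361) (nat_lit 307) (nat_lit 232)))) (XT.nd (nat_lit 156) (nat_lit 76) (nat_lit 0) (XT.nd (nat_lit 78) (nat_lit 0) (nat_lit 0) (XT.lf (nat_lit 0) (nat_lit 53444820678) (nat_lit 152) (nat_lit 41449911943) (nat_lit 0) (nat_lit 30791201852) (nat_lit 7) (nat_lit 5) (nat_lit 9) (nat_lit 4) (nat_lit 7) (nat_lit 4) (nat_lit 362) (nat_lit 307) (nat_lit 231)) (XT.lf (nat_lit 0) (nat_lit 73090025090) (nat_lit 152) (nat_lit 10840930922) (nat_lit 0) (nat_lit 50431555031) (nat_lit 7) (nat_lit 5) (nat_lit 9) (nat_lit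 4) (nat_lit 7) (nat_lit 4) (nat_lit 363) (nat_lit 307) (nat_lit 230))) (XT.nd (nat_lit 78) (nat_lit 0) (nat_lit 0) (XT.lf (nat_lit 0) (nat_lit 23372059198) (nat_lit 76) (nat_lit 71489856141) (nat_lit 76) (nat_lit 48826894200) (nat_lit 6) (nat_lit 4) (nat_lit 7) (nat_lit 5) (nat_lit 7) (nat_lit 4) (nat_lit 364) (nat_lit 307) (nat_lit 229)) (XT.nd (nat_lit 78) (nat_lit 0) (nat_lit 0) (XT.lf (nat_lit 0) (nat_lit 60925098688) (nat_lit 76) (nat_lit 57740034726) (nat_lit 76) (nat_lit 35072913634) (nat_lit 6) (nat_lit 4) (nat_lit 7) (nat_lit 5) (nat_lit 7) (nat_lit 4) (nat_lit 365) (nat_lit 307) (nat_lit 228)) (XT.lf (nat_lit 0) (nat_lit 101469859866) (nat_lit 76) (nat_lit 42896421605) (nat_lit 76) (nat_lit 20225449448) (nat_lit 6) (nat_lit 4) (nat_lit 7) (nat_lit 5) (nat_lit 7) (nat_lit 4) (nat_lit 366) (nat_lit 307) (nat_lit 227))))))))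
noncomputable def xc119 : XT := (XT.nd (nat_lit 1404) (nat_lit 76) (nat_lit 0) (XT.nd (nat_lit 702) (nat_lit 76) (nat_lit 0) (XT.nd (nat_lit 312) (nat_lit 76) (nat_lit 0) (XT.nd (nat_lit 156) (nat_lit 0) (nat_lit 0) (XT.nd (nat_lit 78) (nat_lit 152) (nat_lit 0) (XT.lf (nat_lit 0) (nat_lit 145246607984) (nat_lit 76) (nat_lit 26871054628) (nat_lit 76) (nat_lit 4196516670) (nat_lit 6) (nat_lit 4) (nat_lit 7) (nat_lit 5) (nat_lit 7) (nat_lit 4) (nat_lit 367) (nat_lit 307) (nat_lit 226)) (XT.lf (nat_lit 0) (nat_lit 3394437143) (nat_lit 76) (nat_lit 9140311303) (nat_lit 152) (nat_lit 176408357653) (nat_lit 4) (nat_lit 5) (nat_lit 5) (nat_lit 5) (nat_lit 6) (nat_lit 4) (nat_lit 368) (nat_lit 307) (nat_lit 225))) (XT.nd (nat_lit 78) (nat_lit 0) (nat_lit 0) (XT.lf (nat_lit 0) (nat_lit 31484472664) (nat_lit 152) (nat_lit 160516978554) (nat_lit 0) (nat_lit 10483642362) (nat_lit 4) (nat_lit 5) (nat_lit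 6) (nat_lit 4) (nat_lit 4) (nat_lit 4) (nat_lit 369) (nat_lit 307) (nat_lit 224)) (XT.lf (nat_lit 0) (nat_lit 52182454776) (nat_lit 152) (nat_lit 133730400179) (nat_lit 0) (nat_lit 31179003504) (nat_lit 4) (nat_lit 5) (nat_lit 6) (nat_lit 4) (nat_lit 4) (nat_lit 4) (nat_lit 370) (nat_lit 307) (nat_lit 223)))) (XT.nd (nat_lit 156) (nat_lit 76) (nat_lit 0) (XT.nd (nat_lit 78) (nat_lit 0) (nat_lit 0) (XT.lf (nat_lit 0) (nat_lit 74531524783) (nat_lit 152) (nat_lit 104810373845) (nat_lit 0) (nat_lit 53525646687) (nat_lit 4) (nat_lit 5) (nat_lit 6) (nat_lit 4) (nat_lit 4) (nat_lit 4) (nat_lit 371) (nat_lit 307) (nat_lit 222)) (XT.lf (nat_lit 0) (nat_lit 98664121619) (nat_lit 152) (nat_lit 73585521619) (nat_lit 0) (nat_lit 77655996464) (nat_lit 4) (nat_lit 5) (nat_lit 6) (nat_lit 4) (nat_lit 4) (nat_lit 4) (nat_lit 372) (nat_lit 307) (nat_lit 221))) (XT.nd (nat_lit 78) (nat_lit 76) (nat_lit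 0) (XT.lf (nat_lit 0) (nat_lit 124723253266) (nat_lit 152) (nat_lit 39870807339) (nat_lit 0) (nat_lit 103713047500) (nat_lit 4) (nat_lit 5) (nat_lit 6) (nat_lit 4) (nat_lit 4) (nat_lit 4) (nat_lit 373) (nat_lit 307) (nat_lit 220)) (XT.nd (nat_lit 78) (nat_lit 76) (nat_lit 0) (XT.lf (nat_lit 0) (nat_lit 152863344208) (nat_lit 152) (nat_lit 3466440106) (nat_lit 0) (nat_lit 131851211950) (nat_lit 4) (nat_lit 5) (nat_lit 6) (nat_lit 4) (nat_lit 4) (nat_lit 4) (nat_lit 374) (nat_lit 307) (nat_lit 219)) (XT.lf (nat_lit 0) (nat_lit 37730754829) (nat_lit 76) (nat_lit 146427821269) (nat_lit 76) (nat_lit 125413905222) (nat_lit 3) (nat_lit 4) (nat_lit 4) (nat_lit 5) (nat_lit 4) (nat_lit 4) (nat_lit 375) (nat_lit 307) (nat_lit 218)))))) (XT.nd (nat_lit 312) (nat_lit 76) (nat_lit 0) (XT.nd (nat_lit 156) (nat_lit 0) (nat_lit 0) (XT.nd (nat_lit 78) (nat_lit 0) (nat_lit 0) (XT.lf (nat_lit 0) (nat_lit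 82414074415) (nat_lit 76) (nat_lit 135634734201) (nat_lit 76) (nat_lit 114619166499) (nat_lit 3) (nat_lit 4) (nat_lit 4) (nat_lit 5) (nat_lit 4) (nat_lit 4) (nat_lit 376) (nat_lit 307) (nat_lit 217)) (XT.lf (nat_lit 0) (nat_lit 130665772100) (nat_lit 76) (nat_lit 123981342694) (nat_lit 76) (nat_lit 102964245681) (nat_lit 3) (nat_lit 4) (nat_lit 4) (nat_lit 5) (nat_lit 4) (nat_lit 4) (nat_lit 377) (nat_lit 307) (nat_lit 216))) (XT.nd (nat_lit 78) (nat_lit 0) (nat_lit 0) (XT.lf (nat_lit 0) (nat_lit 182771783868) (nat_lit 76) (nat_lit 111398589611) (nat_lit 76) (nat_lit 90380076569) (nat_lit 3) (nat_lit 4) (nat_lit 4) (nat_lit 5) (nat_lit 4) (nat_lit 4) (nat_lit 378) (nat_lit 307) (nat_lit 215)) (XT.lf (nat_lit 0) (nat_lit 239040886088) (nat_lit 76) (nat_lit 97811910490) (nat_lit 76) (nat_lit 76792086311) (nat_lit 3) (nat_lit 4) (nat_lit 4) (nat_lit 5) (nat_lit 4) (nat_lit 4) (nat_lit 379)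 (nat_lit 307) (nat_lit 214)))) (XT.nd (nat_lit 156) (nat_lit 76) (nat_lit 0) (XT.nd (nat_lit 78) (nat_lit 0) (nat_lit 0) (XT.lf (nat_lit 0) (nat_lit 299806525289) (nat_lit 76) (nat_lit 83140791677) (nat_lit 76) (nat_lit 62119753481) (nat_lit 3) (nat_lit 4) (nat_lit 4) (nat_lit 5) (nat_lit 4) (nat_lit 4) (nat_lit 380) (nat_lit 307) (nat_lit 213)) (XT.lf (nat_lit 0) (nat_lit 365428794150) (nat_lit 76) (nat_lit 67298293209) (nat_lit 76) (nat_lit 46276130924) (nat_lit 3) (nat_lit 4) (nat_lit 4) (nat_lit 5) (nat_lit 4) (nat_lit 4) (nat_lit 381) (nat_lit 307) (nat_lit 212))) (XT.nd (nat_lit 78) (nat_lit 76) (nat_lit 0) (XT.lf (nat_lit 0) (nat_lit 436296565374) (nat_lit 76) (nat_lit 50190533613) (nat_lit 76) (nat_lit 29167330505) (nat_lit 3) (nat_lit 4) (nat_lit 4) (nat_lit 5) (nat_lit 4) (nat_lit 4) (nat_lit 382) (nat_lit 307) (nat_lit 211)) (XT.nd (nat_lit 78) (nat_lit 76) (nat_lit 0) (XT.lf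 (nat_lit 0) (nat_lit 512829796124) (nat_lit 76) (nat_lit 31716133573) (nat_lit 76) (nat_lit 10691966739) (nat_lit 3) (nat_lit 4) (nat_lit 4) (nat_lit 5) (nat_lit 4) (nat_lit 4) (nat_lit 383) (nat_lit 307) (nat_lit 210)) (XT.lf (nat_lit 0) (nat_lit 8796249117) (nat_lit 152) (nat_lit 2728861006) (nat_lit 76) (nat_lit 586445262499) (nat_lit 2) (nat_lit 5) (nat_lit 4) (nat_lit 5) (nat_lit 3) (nat_lit 4) (nat_lit 384) (nat_lit 307) (nat_lit 209))))))) (XT.nd (nat_lit 702) (nat_lit 0) (nat_lit 0) (XT.nd (nat_lit 312) (nat_lit 0) (nat_lit 0) (XT.nd (nat_lit 156) (nat_lit 0) (nat_lit 0) (XT.nd (nat_lit 78) (nat_lit 0) (nat_lit 0) (XT.lf (nat_lit 0) (nat_lit 30553465685) (nat_lit 152) (nat_lit 602357704121) (nat_lit 0) (nat_lit 11085053267) (nat_lit 1) (nat_lit 5) (nat_lit 3) (nat_lit 4) (nat_lit 1) (nat_lit 4) (nat_lit 385) (nat_lit 307) (nat_lit 208)) (XT.lf (nat_lit 0) (nat_lit 54425425836)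 (nat_lit 152) (nat_lit 604292477585) (nat_lit 0) (nat_lit 34956305052) (nat_lit 1) (nat_lit 5) (nat_lit 3) (nat_lit 4) (nat_lit 1) (nat_lit 4) (nat_lit 386) (nat_lit 307) (nat_lit 207))) (XT.nd (nat_lit 78) (nat_lit 0) (nat_lit 0) (XT.lf (nat_lit 0) (nat_lit 80205534358) (nat_lit 152) (nat_lit 606385269543) (nat_lit 0) (nat_lit 60735757678) (nat_lit 1) (nat_lit 5) (nat_lit 3) (nat_lit 4) (nat_lit 1) (nat_lit 4) (nat_lit 387) (nat_lit 307) (nat_lit 206)) (XT.lf (nat_lit 0) (nat_lit 108046562263) (nat_lit 152) (nat_lit 608648481726) (nat_lit 0) (nat_lit 88576178273) (nat_lit 1) (nat_lit 5) (nat_lit 3) (nat_lit 4) (nat_lit 1) (nat_lit 4) (nat_lit 388) (nat_lit 307) (nat_lit 205)))) (XT.nd (nat_lit 156) (nat_lit 0) (nat_lit 0) (XT.nd (nat_lit 78) (nat_lit 0) (nat_lit 0) (XT.lf (nat_lit 0) (nat_lit 138113493421) (nat_lit 152) (nat_lit 611095525761) (nat_lit 0) (nat_lit 118642547106) (nat_lit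 1) (nat_lit 5) (nat_lit 3) (nat_lit 4) (nat_lit 1) (nat_lit 4) (nat_lit 389) (nat_lit 307) (nat_lit 204)) (XT.lf (nat_lit 0) (nat_lit 170584502237) (nat_lit 152) (nat_lit 613740902651) (nat_lit 0) (nat_lit 151113035252) (nat_lit 1) (nat_lit 5) (nat_lit 3) (nat_lit 4) (nat_lit 1) (nat_lit 4) (nat_lit 390) (nat_lit 307) (nat_lit 203))) (XT.nd (nat_lit 78) (nat_lit 0) (nat_lit 0) (XT.lf (nat_lit 0) (nat_lit 205652009507) (nat_lit 152) (nat_lit 616600288702) (nat_lit 0) (nat_lit 186180060418) (nat_lit 1) (nat_lit 5) (nat_lit 3) (nat_lit 4) (nat_lit 1) (nat_lit 4) (nat_lit 391) (nat_lit 307) (nat_lit 202)) (XT.nd (nat_lit 78) (nat_lit 0) (nat_lit 0) (XT.lf (nat_lit 0) (nat_lit 243523822678) (nat_lit 152) (nat_lit 619690628425) (nat_lit 0) (nat_lit 224051427199) (nat_lit 1) (nat_lit 5) (nat_lit 3) (nat_lit 4) (nat_lit 1) (nat_lit 4) (nat_lit 392) (nat_lit 307) (nat_lit 201)) (XT.lf (nat_lit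 0) (nat_lit 284424367313) (nat_lit 152) (nat_lit 623030234943) (nat_lit 0) (nat_lit 264951558508) (nat_lit 1) (nat_lit 5) (nat_lit 3) (nat_lit 4) (nat_lit 1) (nat_lit 4) (nat_lit 393) (nat_lit 307) (nat_lit 200)))))) (XT.nd (nat_lit 312) (nat_lit 0) (nat_lit 0) (XT.nd (nat_lit 156) (nat_lit 0) (nat_lit 0) (XT.nd (nat_lit 78) (nat_lit 0) (nat_lit 0) (XT.lf (nat_lit 0) (nat_lit 328596017007) (nat_lit 152) (nat_lit 626638898519) (nat_lit 0) (nat_lit 309122825494) (nat_lit 1) (nat_lit 5) (nat_lit 3) (nat_lit 4) (nat_lit 1) (nat_lit 4) (nat_lit 394) (nat_lit 307) (nat_lit 199)) (XT.lf (nat_lit 0) (nat_lit 376300529685) (nat_lit 152) (nat_lit 630538003824) (nat_lit 0) (nat_lit 356826983812) (nat_lit 1) (nat_lit 5) (nat_lit 3) (nat_lit 4) (nat_lit 1) (nat_lit 4) (nat_lit 395) (nat_lit 307) (nat_lit 198))) (XT.nd (nat_lit 78) (nat_lit 0) (nat_lit 0) (XT.lf (nat_lit 0) (nat_lit 427820598757) (nat_lit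 152) (nat_lit 634750656668) (nat_lit 0) (nat_lit 408346724773) (nat_lit 1) (nat_lit 5) (nat_lit 3) (nat_lit 4) (nat_lit 1) (nat_lit 4) (nat_lit 396) (nat_lit 307) (nat_lit 197)) (XT.lf (nat_lit 0) (nat_lit 483461528334) (nat_lit 152) (nat_lit 639301820920) (nat_lit 0) (nat_lit 463987350543) (nat_lit 1) (nat_lit 5) (nat_lit 3) (nat_lit 4) (nat_lit 1) (nat_lit 4) (nat_lit 397) (nat_lit 307) (nat_lit 196)))) (XT.nd (nat_lit 156) (nat_lit 0) (nat_lit 0) (XT.nd (nat_lit 78) (nat_lit 0) (nat_lit 0) (XT.lf (nat_lit 0) (nat_lit 543553042443) (nat_lit 152) (nat_lit 644218466442) (nat_lit 0) (nat_lit 524078583351) (nat_lit 1) (nat_lit 5) (nat_lit 3) (nat_lit 4) (nat_lit 1) (nat_lit 4) (nat_lit 398) (nat_lit 307) (nat_lit 195)) (XT.lf (nat_lit 0) (nat_lit 608451238947) (nat_lit 152) (nat_lit 649529728911) (nat_lit 0) (nat_lit 588976519390) (nat_lit 1) (nat_lit 5) (nat_lit 3) (nat_lit 4) (nat_lit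 1) (nat_lit 4) (nat_lit 399) (nat_lit 307) (nat_lit 194))) (XT.nd (nat_lit 78) (nat_lit 0) (nat_lit 0) (XT.lf (nat_lit 0) (nat_lit 678540699751) (nat_lit 152) (nat_lit 655267082475) (nat_lit 0) (nat_lit 659065739022) (nat_lit 1) (nat_lit 5) (nat_lit 3) (nat_lit 4) (nat_lit 1) (nat_lit 4) (nat_lit 400) (nat_lit 307) (nat_lit 193)) (XT.nd (nat_lit 78) (nat_lit 0) (nat_lit 0) (XT.lf (nat_lit 0) (nat_lit 754236769807) (nat_lit 152) (nat_lit 661464526266) (nat_lit 0) (nat_lit 734761585771) (nat_lit 1) (nat_lit 5) (nat_lit 3) (nat_lit 4) (nat_lit 1) (nat_lit 4) (nat_lit 401) (nat_lit 307) (nat_lit 192)) (XT.lf (nat_lit 0) (nat_lit 835988018419) (nat_lit 152) (nat_lit 668158785878) (nat_lit 0) (nat_lit 816512627618) (nat_lit 1) (nat_lit 5) (nat_lit 3) (nat_lit 4) (nat_lit 1) (nat_lit 4) (nat_lit 402) (nat_lit 307) (nat_lit 191))))))))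
noncomputable def xc120 : XT := (XT.nd (nat_lit 39858) (nat_lit 0) (nat_lit 2204) (XT.nd (nat_lit 702) (nat_lit 0) (nat_lit 0) (XT.nd (nat_lit 312) (nat_lit 0) (nat_lit 0) (XT.nd (nat_lit 156) (nat_lit 0) (nat_lit 0) (XT.nd (nat_lit 78) (nat_lit 0) (nat_lit 0) (XT.lf (nat_lit 0) (nat_lit 924278897431) (nat_lit 152) (nat_lit 675389530996) (nat_lit 0) (nat_lit 904803315180) (nat_lit 1) (nat_lit 5) (nat_lit 3) (nat_lit 4) (nat_lit 1) (nat_lit 4) (nat_lit 403) (nat_lit 307) (nat_lit 190)) (XT.lf (nat_lit 0) (nat_lit 1019632612052) (nat_lit 152) (nat_lit 683199610481) (nat_lit 0) (nat_lit 1000156852533) (nat_lit 1) (nat_lit 5) (nat_lit 3) (nat_lit 4) (nat_lit 1) (nat_lit 4) (nat_lit 404) (nat_lit 307) (nat_lit 189))) (XT.nd (nat_lit 78) (nat_lit 0) (nat_lit 0) (XT.lf (nat_lit 0) (nat_lit 1122614221332) (nat_lit 152) (nat_lit 691635306285) (nat_lit 0) (nat_lit 1103138297676) (nat_lit 1) (nat_lit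 5) (nat_lit 3) (nat_lit 4) (nat_lit 1) (nat_lit 4) (nat_lit 405) (nat_lit 307) (nat_lit 188)) (XT.lf (nat_lit 0) (nat_lit 1233833986659) (nat_lit 152) (nat_lit 700746607716) (nat_lit 0) (nat_lit 1214357911024) (nat_lit 1) (nat_lit 5) (nat_lit 3) (nat_lit 4) (nat_lit 1) (nat_lit 4) (nat_lit 406) (nat_lit 307) (nat_lit 187)))) (XT.nd (nat_lit 156) (nat_lit 0) (nat_lit 0) (XT.nd (nat_lit 78) (nat_lit 0) (nat_lit 0) (XT.lf (nat_lit 0) (nat_lit 1353950988124) (nat_lit 152) (nat_lit 710587507673) (nat_lit 0) (nat_lit 1334474771767) (nat_lit 1) (nat_lit 5) (nat_lit 3) (nat_lit 4) (nat_lit 1) (nat_lit 4) (nat_lit 407) (nat_lit 307) (nat_lit 186)) (XT.lf (nat_lit 0) (nat_lit 1483677030179) (nat_lit 152) (nat_lit 721216322599) (nat_lit 0) (nat_lit 1464200683525) (nat_lit 1) (nat_lit 5) (nat_lit 3) (nat_lit 4) (nat_lit 1) (nat_lit 4) (nat_lit 408) (nat_lit 307) (nat_lit 185))) (XT.nd (nat_lit 78)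 (nat_lit 0) (nat_lit 0) (XT.lf (nat_lit 0) (nat_lit 1623780859741) (nat_lit 152) (nat_lit 732696038064) (nat_lit 0) (nat_lit 1604304392442) (nat_lit 1) (nat_lit 5) (nat_lit 3) (nat_lit 4) (nat_lit 1) (nat_lit 4) (nat_lit 409) (nat_lit 307) (nat_lit 184)) (XT.nd (nat_lit 78) (nat_lit 0) (nat_lit 0) (XT.lf (nat_lit 0) (nat_lit 1775092721726) (nat_lit 152) (nat_lit 745094682011) (nat_lit 0) (nat_lit 1755616142718) (nat_lit 1) (nat_lit 5) (nat_lit 3) (nat_lit 4) (nat_lit 1) (nat_lit 4) (nat_lit 410) (nat_lit 307) (nat_lit 183)) (XT.lf (nat_lit 0) (nat_lit 1938509279019) (nat_lit 152) (nat_lit 758485727887) (nat_lit 0) (nat_lit 1919032596577) (nat_lit 1) (nat_lit 5) (nat_lit 3) (nat_lit 4) (nat_lit 1) (nat_lit 4) (nat_lit 411) (nat_lit 307) (nat_lit 182)))))) (XT.nd (nat_lit 38766) (nat_lit 0) (nat_lit 4484) (XT.nd (nat_lit 156) (nat_lit 0) (nat_lit 0) (XT.nd (nat_lit 78) (nat_lit 0) (nat_lit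 0) (XT.lf (nat_lit 0) (nat_lit 2114998926035) (nat_lit 152) (nat_lit 772948530037) (nat_lit 0) (nat_lit 2095522147820) (nat_lit 1) (nat_lit 5) (nat_lit 3) (nat_lit 4) (nat_lit 1) (nat_lit 4) (nat_lit 412) (nat_lit 307) (nat_lit 181)) (XT.lf (nat_lit 0) (nat_lit 2305607527347) (nat_lit 152) (nat_lit 788568793956) (nat_lit 0) (nat_lit 2286130660454) (nat_lit 1) (nat_lit 5) (nat_lit 3) (nat_lit 4) (nat_lit 1) (nat_lit 4) (nat_lit 413) (nat_lit 307) (nat_lit 180))) (XT.nd (nat_lit 78) (nat_lit 0) (nat_lit 0) (XT.lf (nat_lit 0) (nat_lit 2511464615409) (nat_lit 152) (nat_lit 805439084170) (nat_lit 0) (nat_lit 2491987666406) (nat_lit 1) (nat_lit 5) (nat_lit 3) (nat_lit 4) (nat_lit 1) (nat_lit 4) (nat_lit 414) (nat_lit 307) (nat_lit 179)) (XT.lf (nat_lit 0) (nat_lit 2733790084075) (nat_lit 152) (nat_lit 823659372769) (nat_lit 0) (nat_lit 2714313059045) (nat_lit 1) (nat_lit 5) (nat_lit 3) (nat_lit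 4) (nat_lit 1) (nat_lit 4) (nat_lit 415) (nat_lit 307) (nat_lit 178)))) (XT.nd (nat_lit 156) (nat_lit 380) (nat_lit 0) (XT.nd (nat_lit 78) (nat_lit 0) (nat_lit 0) (XT.lf (nat_lit 0) (nat_lit 1213619172) (nat_lit 0) (nat_lit 1213619172) (nat_lit 380) (nat_lit 1720419610) (nat_lit 65) (nat_lit 5) (nat_lit 65) (nat_lit 3) (nat_lit 70) (nat_lit 3) (nat_lit 308) (nat_lit 308) (nat_lit 284)) (XT.lf (nat_lit 0) (nat_lit 6105106863) (nat_lit 380) (nat_lit 1879149145) (nat_lit 456) (nat_lit 556622025) (nat_lit 65) (nat_lit 5) (nat_lit 70) (nat_lit 3) (nat_lit 71) (nat_lit 5) (nat_lit 309) (nat_lit 308) (nat_lit 283))) (XT.nd (nat_lit 78) (nat_lit 380) (nat_lit 0) (XT.lf (nat_lit 76) (nat_lit 2425256034) (nat_lit 0) (nat_lit 5048871997) (nat_lit 456) (nat_lit 1330663373) (nat_lit 66) (nat_lit 5) (nat_lit 65) (nat_lit 5) (nat_lit 71) (nat_lit 5) (nat_lit 310) (nat_lit 308) (nat_lit 282)) (XT.nd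 (nat_lit 78) (nat_lit 380) (nat_lit 0) (XT.lf (nat_lit 76) (nat_lit 7120536443) (nat_lit 0) (nat_lit 1786662359) (nat_lit 456) (nat_lit 186417483) (nat_lit 66) (nat_lit 5) (nat_lit 65) (nat_lit 5) (nat_lit 71) (nat_lit 5) (nat_lit 311) (nat_lit 308) (nat_lit 281)) (XT.lf (nat_lit 0) (nat_lit 1018022315) (nat_lit 456) (nat_lit 6608561591) (nat_lit 532) (nat_lit 1775390185) (nat_lit 60) (nat_lit 5) (nat_lit 66) (nat_lit 5) (nat_lit 67) (nat_lit 5) (nat_lit 312) (nat_lit 308) (nat_lit 280))))))) (XT.nd (nat_lit 702) (nat_lit 988) (nat_lit 0) (XT.nd (nat_lit 312) (nat_lit 912) (nat_lit 0) (XT.nd (nat_lit 156) (nat_lit 380) (nat_lit 0) (XT.nd (nat_lit 78) (nat_lit 0) (nat_lit 0) (XT.lf (nat_lit 0) (nat_lit 2324412199) (nat_lit 456) (nat_lit 1796951901) (nat_lit 532) (nat_lit 5612123303) (nat_lit 60) (nat_lit 5) (nat_lit 66) (nat_lit 5) (nat_lit 67) (nat_lit 5) (nat_lit 313) (nat_lit 308) (nat_lit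 279)) (XT.lf (nat_lit 76) (nat_lit 3513248139) (nat_lit 0) (nat_lit 226846559) (nat_lit 532) (nat_lit 6351162668) (nat_lit 61) (nat_lit 5) (nat_lit 60) (nat_lit 5) (nat_lit 67) (nat_lit 5) (nat_lit 314) (nat_lit 308) (nat_lit 278))) (XT.nd (nat_lit 78) (nat_lit 456) (nat_lit 0) (XT.lf (nat_lit 0) (nat_lit 5340232142) (nat_lit 456) (nat_lit 1287235396) (nat_lit 76) (nat_lit 3844594711) (nat_lit 61) (nat_lit 5) (nat_lit 67) (nat_lit 5) (nat_lit 62) (nat_lit 5) (nat_lit 315) (nat_lit 308) (nat_lit 277)) (XT.lf (nat_lit 0) (nat_lit 4588402922) (nat_lit 456) (nat_lit 2526861448) (nat_lit 532) (nat_lit 3764417699) (nat_lit 55) (nat_lit 5) (nat_lit 61) (nat_lit 5) (nat_lit 62) (nat_lit 5) (nat_lit 316) (nat_lit 308) (nat_lit 276)))) (XT.nd (nat_lit 156) (nat_lit 532) (nat_lit 0) (XT.nd (nat_lit 78) (nat_lit 380) (nat_lit 0) (XT.lf (nat_lit 0) (nat_lit 9048596149) (nat_lit 532) (nat_lit 422388080)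 (nat_lit 76) (nat_lit 1847717240) (nat_lit 55) (nat_lit 5) (nat_lit 62) (nat_lit 5) (nat_lit 56) (nat_lit 5) (nat_lit 317) (nat_lit 308) (nat_lit 275)) (XT.lf (nat_lit 0) (nat_lit 6094183140) (nat_lit 380) (nat_lit 5193914290) (nat_lit 456) (nat_lit 492711561) (nat_lit 50) (nat_lit 5) (nat_lit 55) (nat_lit 5) (nat_lit 56) (nat_lit 5) (nat_lit 318) (nat_lit 308) (nat_lit 274))) (XT.nd (nat_lit 78) (nat_lit 228) (nat_lit 0) (XT.lf (nat_lit 0) (nat_lit 820887860) (nat_lit 228) (nat_lit 506995468) (nat_lit 304) (nat_lit 10951539890) (nat_lit 46) (nat_lit 5) (nat_lit 49) (nat_lit 5) (nat_lit 50) (nat_lit 5) (nat_lit 319) (nat_lit 308) (nat_lit 273)) (XT.nd (nat_lit 78) (nat_lit 228) (nat_lit 0) (XT.lf (nat_lit 0) (nat_lit 3480168500) (nat_lit 304) (nat_lit 4825031911) (nat_lit 76) (nat_lit 4494758312) (nat_lit 46) (nat_lit 5) (nat_lit 50) (nat_lit 5) (nat_lit 47) (nat_lit 5) (nat_lit 320)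 (nat_lit 308) (nat_lit 272)) (XT.lf (nat_lit 0) (nat_lit 2384556284) (nat_lit 228) (nat_lit 3438371700) (nat_lit 304) (nat_lit 7537809569) (nat_lit 43) (nat_lit 5) (nat_lit 46) (nat_lit 5) (nat_lit 47) (nat_lit 5) (nat_lit 321) (nat_lit 308) (nat_lit 271)))))) (XT.nd (nat_lit 312) (nat_lit 532) (nat_lit 0) (XT.nd (nat_lit 156) (nat_lit 304) (nat_lit 0) (XT.nd (nat_lit 78) (nat_lit 152) (nat_lit 0) (XT.lf (nat_lit 0) (nat_lit 8482171620) (nat_lit 304) (nat_lit 3620644696) (nat_lit 76) (nat_lit 1853296382) (nat_lit 43) (nat_lit 5) (nat_lit 47) (nat_lit 5) (nat_lit 44) (nat_lit 5) (nat_lit 322) (nat_lit 308) (nat_lit 270)) (XT.lf (nat_lit 0) (nat_lit 4395586933) (nat_lit 152) (nat_lit 7107287948) (nat_lit 228) (nat_lit 3084400066) (nat_lit 41) (nat_lit 5) (nat_lit 43) (nat_lit 5) (nat_lit 44) (nat_lit 5) (nat_lit 323) (nat_lit 308) (nat_lit 269))) (XT.nd (nat_lit 78) (nat_lit 304) (nat_lit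 0) (XT.lf (nat_lit 0) (nat_lit 13202178364) (nat_lit 152) (nat_lit 1617811286) (nat_lit 228) (nat_lit 444610756) (nat_lit 41) (nat_lit 5) (nat_lit 43) (nat_lit 5) (nat_lit 44) (nat_lit 5) (nat_lit 324) (nat_lit 308) (nat_lit 268)) (XT.lf (nat_lit 0) (nat_lit 2520328086) (nat_lit 304) (nat_lit 9138535022) (nat_lit 76) (nat_lit 4313914986) (nat_lit 37) (nat_lit 5) (nat_lit 41) (nat_lit 5) (nat_lit 38) (nat_lit 5) (nat_lit 325) (nat_lit 308) (nat_lit 267)))) (XT.nd (nat_lit 156) (nat_lit 380) (nat_lit 0) (XT.nd (nat_lit 78) (nat_lit 152) (nat_lit 0) (XT.lf (nat_lit 0) (nat_lit 5757756975) (nat_lit 304) (nat_lit 284646299) (nat_lit 76) (nat_lit 10689577828) (nat_lit 37) (nat_lit 5) (nat_lit 41) (nat_lit 5) (nat_lit 38) (nat_lit 5) (nat_lit 326) (nat_lit 308) (nat_lit 266)) (XT.lf (nat_lit 0) (nat_lit 9456450344) (nat_lit 228) (nat_lit 7831477114) (nat_lit 76) (nat_lit 247848509) (nat_lit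 35) (nat_lit 5) (nat_lit 38) (nat_lit 5) (nat_lit 36) (nat_lit 5) (nat_lit 327) (nat_lit 308) (nat_lit 265))) (XT.nd (nat_lit 78) (nat_lit 228) (nat_lit 0) (XT.lf (nat_lit 0) (nat_lit 1994419938) (nat_lit 152) (nat_lit 11633156832) (nat_lit 228) (nat_lit 4762209114) (nat_lit 33) (nat_lit 5) (nat_lit 35) (nat_lit 5) (nat_lit 36) (nat_lit 5) (nat_lit 328) (nat_lit 308) (nat_lit 264)) (XT.nd (nat_lit 78) (nat_lit 228) (nat_lit 0) (XT.lf (nat_lit 0) (nat_lit 12999628918) (nat_lit 152) (nat_lit 5311971372) (nat_lit 228) (nat_lit 986211666) (nat_lit 33) (nat_lit 5) (nat_lit 35) (nat_lit 5) (nat_lit 36) (nat_lit 5) (nat_lit 329) (nat_lit 308) (nat_lit 263)) (XT.lf (nat_lit 0) (nat_lit 3058381740) (nat_lit 228) (nat_lit 15588651655) (nat_lit 76) (nat_lit 1615830624) (nat_lit 30) (nat_lit 5) (nat_lit 33) (nat_lit 5) (nat_lit 31) (nat_lit 5) (nat_lit 330) (nat_lit 308) (nat_lit 262))))))))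
noncomputable def xc121 : XT := (XT.nd (nat_lit 1404) (nat_lit 684) (nat_lit 0) (XT.nd (nat_lit 702) (nat_lit 380) (nat_lit 0) (XT.nd (nat_lit 312) (nat_lit 456) (nat_lit 0) (XT.nd (nat_lit 156) (nat_lit 152) (nat_lit 0) (XT.nd (nat_lit 78) (nat_lit 152) (nat_lit 0) (XT.lf (nat_lit 0) (nat_lit 7655590534) (nat_lit 228) (nat_lit 4627784864) (nat_lit 76) (nat_lit 8997134599) (nat_lit 30) (nat_lit 5) (nat_lit 33) (nat_lit 5) (nat_lit 31) (nat_lit 5) (nat_lit 331) (nat_lit 308) (nat_lit 261)) (XT.lf (nat_lit 0) (nat_lit 7539943133) (nat_lit 152) (nat_lit 5232042207) (nat_lit 228) (nat_lit 9595493031) (nat_lit 28) (nat_lit 5) (nat_lit 30) (nat_lit 5) (nat_lit 31) (nat_lit 5) (nat_lit 332) (nat_lit 308) (nat_lit 260))) (XT.nd (nat_lit 78) (nat_lit 152) (nat_lit 0) (XT.lf (nat_lit 0) (nat_lit 18455601958) (nat_lit 228) (nat_lit 2695519314) (nat_lit 76) (nat_lit 2377671846) (nat_lit 28) (nat_lit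 5) (nat_lit 31) (nat_lit 5) (nat_lit 29) (nat_lit 4) (nat_lit 333) (nat_lit 308) (nat_lit 259)) (XT.lf (nat_lit 0) (nat_lit 197627033) (nat_lit 152) (nat_lit 13993288515) (nat_lit 76) (nat_lit 10562298170) (nat_lit 26) (nat_lit 5) (nat_lit 28) (nat_lit 5) (nat_lit 27) (nat_lit 5) (nat_lit 334) (nat_lit 308) (nat_lit 258)))) (XT.nd (nat_lit 156) (nat_lit 304) (nat_lit 0) (XT.nd (nat_lit 78) (nat_lit 152) (nat_lit 0) (XT.lf (nat_lit 0) (nat_lit 5664846692) (nat_lit 152) (nat_lit 802938149) (nat_lit 76) (nat_lit 19593373066) (nat_lit 26) (nat_lit 5) (nat_lit 28) (nat_lit 5) (nat_lit 27) (nat_lit 5) (nat_lit 335) (nat_lit 308) (nat_lit 257)) (XT.lf (nat_lit 0) (nat_lit 11937372106) (nat_lit 228) (nat_lit 13395087349) (nat_lit 76) (nat_lit 2111859889) (nat_lit 24) (nat_lit 5) (nat_lit 27) (nat_lit 5) (nat_lit 25) (nat_lit 4) (nat_lit 336) (nat_lit 308) (nat_lit 256))) (XT.nd (nat_lit 78) (nat_lit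 228) (nat_lit 0) (XT.lf (nat_lit 0) (nat_lit 1040503968) (nat_lit 76) (nat_lit 17862403193) (nat_lit 152) (nat_lit 10019944711) (nat_lit 23) (nat_lit 5) (nat_lit 24) (nat_lit 5) (nat_lit 25) (nat_lit 4) (nat_lit 337) (nat_lit 308) (nat_lit 255)) (XT.nd (nat_lit 78) (nat_lit 228) (nat_lit 0) (XT.lf (nat_lit 0) (nat_lit 17351948639) (nat_lit 76) (nat_lit 9416468601) (nat_lit 152) (nat_lit 3723844873) (nat_lit 23) (nat_lit 5) (nat_lit 24) (nat_lit 5) (nat_lit 25) (nat_lit 4) (nat_lit 338) (nat_lit 308) (nat_lit 254)) (XT.lf (nat_lit 0) (nat_lit 2808655566) (nat_lit 152) (nat_lit 158615471) (nat_lit 228) (nat_lit 29210431816) (nat_lit 20) (nat_lit 5) (nat_lit 22) (nat_lit 5) (nat_lit 23) (nat_lit 5) (nat_lit 339) (nat_lit 308) (nat_lit 253)))))) (XT.nd (nat_lit 312) (nat_lit 228) (nat_lit 0) (XT.nd (nat_lit 156) (nat_lit 76) (nat_lit 0) (XT.nd (nat_lit 78) (nat_lit 76) (nat_lit 0) (XT.lf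 (nat_lit 0) (nat_lit 10575752221) (nat_lit 228) (nat_lit 13570409081) (nat_lit 76) (nat_lit 9797429731) (nat_lit 20) (nat_lit 5) (nat_lit 23) (nat_lit 5) (nat_lit 21) (nat_lit 4) (nat_lit 340) (nat_lit 308) (nat_lit 252)) (XT.lf (nat_lit 0) (nat_lit 3633355651) (nat_lit 76) (nat_lit 15230687995) (nat_lit 152) (nat_lit 16981026142) (nat_lit 19) (nat_lit 5) (nat_lit 20) (nat_lit 5) (nat_lit 21) (nat_lit 4) (nat_lit 341) (nat_lit 308) (nat_lit 251))) (XT.nd (nat_lit 78) (nat_lit 76) (nat_lit 0) (XT.lf (nat_lit 0) (nat_lit 22949704453) (nat_lit 76) (nat_lit 5217018208) (nat_lit 152) (nat_lit 9703847558) (nat_lit 19) (nat_lit 5) (nat_lit 20) (nat_lit 5) (nat_lit 21) (nat_lit 4) (nat_lit 342) (nat_lit 308) (nat_lit 250)) (XT.lf (nat_lit 0) (nat_lit 3773417994) (nat_lit 76) (nat_lit 34646969266) (nat_lit 76) (nat_lit 1621190350) (nat_lit 18) (nat_lit 4) (nat_lit 19) (nat_lit 5) (nat_lit 19)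 (nat_lit 4) (nat_lit 343) (nat_lit 308) (nat_lit 249)))) (XT.nd (nat_lit 156) (nat_lit 76) (nat_lit 0) (XT.nd (nat_lit 78) (nat_lit 76) (nat_lit 0) (XT.lf (nat_lit 0) (nat_lit 7288071589) (nat_lit 152) (nat_lit 17892963935) (nat_lit 76) (nat_lit 17148716140) (nat_lit 17) (nat_lit 5) (nat_lit 19) (nat_lit 5) (nat_lit 18) (nat_lit 4) (nat_lit 344) (nat_lit 308) (nat_lit 248)) (XT.lf (nat_lit 0) (nat_lit 1977496302) (nat_lit 76) (nat_lit 14875421699) (nat_lit 152) (nat_lit 27942265388) (nat_lit 16) (nat_lit 5) (nat_lit 17) (nat_lit 5) (nat_lit 18) (nat_lit 4) (nat_lit 345) (nat_lit 308) (nat_lit 247))) (XT.nd (nat_lit 78) (nat_lit 76) (nat_lit 0) (XT.lf (nat_lit 0) (nat_lit 24424416546) (nat_lit 76) (nat_lit 3231160894) (nat_lit 152) (nat_lit 19764468529) (nat_lit 16) (nat_lit 5) (nat_lit 17) (nat_lit 5) (nat_lit 18) (nat_lit 4) (nat_lit 346) (nat_lit 308) (nat_lit 246)) (XT.nd (nat_lit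 78) (nat_lit 76) (nat_lit 0) (XT.lf (nat_lit 0) (nat_lit 39531502626) (nat_lit 152) (nat_lit 1841952640) (nat_lit 0) (nat_lit 8864723921) (nat_lit 16) (nat_lit 5) (nat_lit 18) (nat_lit 4) (nat_lit 16) (nat_lit 4) (nat_lit 347) (nat_lit 308) (nat_lit 245)) (XT.lf (nat_lit 0) (nat_lit 21993044817) (nat_lit 76) (nat_lit 30962792595) (nat_lit 76) (nat_lit 278064240) (nat_lit 15) (nat_lit 4) (nat_lit 16) (nat_lit 5) (nat_lit 16) (nat_lit 4) (nat_lit 348) (nat_lit 308) (nat_lit 244))))))) (XT.nd (nat_lit 702) (nat_lit 304) (nat_lit 0) (XT.nd (nat_lit 312) (nat_lit 152) (nat_lit 0) (XT.nd (nat_lit 156) (nat_lit 76) (nat_lit 0) (XT.nd (nat_lit 78) (nat_lit 76) (nat_lit 0) (XT.lf (nat_lit 0) (nat_lit 10472544379) (nat_lit 152) (nat_lit 8918456092) (nat_lit 76) (nat_lit 37054174188) (nat_lit 14) (nat_lit 5) (nat_lit 16) (nat_lit 5) (nat_lit 15) (nat_lit 4) (nat_lit 349) (nat_lit 308) (nat_lit 243))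 (XT.lf (nat_lit 0) (nat_lit 15955384823) (nat_lit 76) (nat_lit 6483135444) (nat_lit 152) (nat_lit 37444628457) (nat_lit 13) (nat_lit 5) (nat_lit 14) (nat_lit 5) (nat_lit 15) (nat_lit 4) (nat_lit 350) (nat_lit 308) (nat_lit 242))) (XT.nd (nat_lit 78) (nat_lit 76) (nat_lit 0) (XT.lf (nat_lit 0) (nat_lit 35778036441) (nat_lit 152) (nat_lit 20461407835) (nat_lit 0) (nat_lit 7323419456) (nat_lit 13) (nat_lit 5) (nat_lit 15) (nat_lit 4) (nat_lit 13) (nat_lit 4) (nat_lit 351) (nat_lit 308) (nat_lit 241)) (XT.lf (nat_lit 0) (nat_lit 4937325441) (nat_lit 76) (nat_lit 45522239661) (nat_lit 76) (nat_lit 17055406445) (nat_lit 12) (nat_lit 4) (nat_lit 13) (nat_lit 5) (nat_lit 13) (nat_lit 4) (nat_lit 352) (nat_lit 308) (nat_lit 240)))) (XT.nd (nat_lit 156) (nat_lit 76) (nat_lit 0) (XT.nd (nat_lit 78) (nat_lit 76) (nat_lit 0) (XT.lf (nat_lit 0) (nat_lit 33508688138) (nat_lit 76) (nat_lit 33354452907)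 (nat_lit 76) (nat_lit 4876308368) (nat_lit 12) (nat_lit 4) (nat_lit 13) (nat_lit 5) (nat_lit 13) (nat_lit 4) (nat_lit 353) (nat_lit 308) (nat_lit 239)) (XT.lf (nat_lit 0) (nat_lit 7851730032) (nat_lit 152) (nat_lit 12157019519) (nat_lit 76) (nat_lit 56278120311) (nat_lit 11) (nat_lit 5) (nat_lit 13) (nat_lit 5) (nat_lit 12) (nat_lit 4) (nat_lit 354) (nat_lit 308) (nat_lit 238))) (XT.nd (nat_lit 78) (nat_lit 0) (nat_lit 0) (XT.lf (nat_lit 0) (nat_lit 16690688007) (nat_lit 76) (nat_lit 5034794508) (nat_lit 152) (nat_lit 59431198097) (nat_lit 10) (nat_lit 5) (nat_lit 11) (nat_lit 5) (nat_lit 12) (nat_lit 4) (nat_lit 355) (nat_lit 308) (nat_lit 237)) (XT.nd (nat_lit 78) (nat_lit 0) (nat_lit 0) (XT.lf (nat_lit 0) (nat_lit 37307591859) (nat_lit 152) (nat_lit 38148661932) (nat_lit 0) (nat_lit 10911948415) (nat_lit 10) (nat_lit 5) (nat_lit 12) (nat_lit 4) (nat_lit 10) (nat_lit 4) (nat_lit 356)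 (nat_lit 308) (nat_lit 236)) (XT.lf (nat_lit 0) (nat_lit 54257397180) (nat_lit 152) (nat_lit 9875505062) (nat_lit 0) (nat_lit 27854055439) (nat_lit 10) (nat_lit 5) (nat_lit 12) (nat_lit 4) (nat_lit 10) (nat_lit 4) (nat_lit 357) (nat_lit 308) (nat_lit 235)))))) (XT.nd (nat_lit 312) (nat_lit 76) (nat_lit 0) (XT.nd (nat_lit 156) (nat_lit 152) (nat_lit 0) (XT.nd (nat_lit 78) (nat_lit 0) (nat_lit 0) (XT.lf (nat_lit 0) (nat_lit 21729086474) (nat_lit 76) (nat_lit 51347753418) (nat_lit 76) (nat_lit 24937283625) (nat_lit 9) (nat_lit 4) (nat_lit 10) (nat_lit 5) (nat_lit 10) (nat_lit 4) (nat_lit 358) (nat_lit 308) (nat_lit 234)) (XT.lf (nat_lit 0) (nat_lit 56406719640) (nat_lit 76) (nat_lit 37256453985) (nat_lit 76) (nat_lit 10839384143) (nat_lit 9) (nat_lit 4) (nat_lit 10) (nat_lit 5) (nat_lit 10) (nat_lit 4) (nat_lit 359) (nat_lit 308) (nat_lit 233))) (XT.nd (nat_lit 78) (nat_lit 76) (nat_lit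 0) (XT.lf (nat_lit 0) (nat_lit 4158678596) (nat_lit 152) (nat_lit 17773129518) (nat_lit 76) (nat_lit 89570480688) (nat_lit 8) (nat_lit 5) (nat_lit 10) (nat_lit 5) (nat_lit 9) (nat_lit 4) (nat_lit 360) (nat_lit 308) (nat_lit 232)) (XT.lf (nat_lit 0) (nat_lit 15451879621) (nat_lit 76) (nat_lit 4683081483) (nat_lit 152) (nat_lit 98875396761) (nat_lit 7) (nat_lit 5) (nat_lit 8) (nat_lit 5) (nat_lit 9) (nat_lit 4) (nat_lit 361) (nat_lit 308) (nat_lit 231)))) (XT.nd (nat_lit 156) (nat_lit 76) (nat_lit 0) (XT.nd (nat_lit 78) (nat_lit 0) (nat_lit 0) (XT.lf (nat_lit 0) (nat_lit 38215716343) (nat_lit 152) (nat_lit 75097530525) (nat_lit 0) (nat_lit 13739717446) (nat_lit 7) (nat_lit 5) (nat_lit 9) (nat_lit 4) (nat_lit 7) (nat_lit 4) (nat_lit 362) (nat_lit 308) (nat_lit 230)) (XT.lf (nat_lit 0) (nat_lit 57857541379) (nat_lit 152) (nat_lit 44495219908) (nat_lit 0) (nat_lit 33377050600) (nat_lit 7)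 (nat_lit 5) (nat_lit 9) (nat_lit 4) (nat_lit 7) (nat_lit 4) (nat_lit 363) (nat_lit 308) (nat_lit 229))) (XT.nd (nat_lit 78) (nat_lit 76) (nat_lit 0) (XT.lf (nat_lit 0) (nat_lit 79064203992) (nat_lit 152) (nat_lit 11457571145) (nat_lit 0) (nat_lit 54579554063) (nat_lit 7) (nat_lit 5) (nat_lit 9) (nat_lit 4) (nat_lit 7) (nat_lit 4) (nat_lit 364) (nat_lit 308) (nat_lit 228)) (XT.nd (nat_lit 78) (nat_lit 0) (nat_lit 0) (XT.lf (nat_lit 0) (nat_lit 25486113014) (nat_lit 76) (nat_lit 77088201910) (nat_lit 76) (nat_lit 52599700915) (nat_lit 6) (nat_lit 4) (nat_lit 7) (nat_lit 5) (nat_lit 7) (nat_lit 4) (nat_lit 365) (nat_lit 308) (nat_lit 227)) (XT.lf (nat_lit 0) (nat_lit 66025300175) (nat_lit 76) (nat_lit 62247346094) (nat_lit 76) (nat_lit 37755279298) (nat_lit 6) (nat_lit 4) (nat_lit 7) (nat_lit 5) (nat_lit 7) (nat_lit 4) (nat_lit 366) (nat_lit 308) (nat_lit 226))))))))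
noncomputable def xc122 : XT := (XT.nd (nat_lit 1404) (nat_lit 152) (nat_lit 0) (XT.nd (nat_lit 702) (nat_lit 76) (nat_lit 0) (XT.nd (nat_lit 312) (nat_lit 0) (nat_lit 0) (XT.nd (nat_lit 156) (nat_lit 152) (nat_lit 0) (XT.nd (nat_lit 78) (nat_lit 0) (nat_lit 0) (XT.lf (nat_lit 0) (nat_lit 109796887167) (nat_lit 76) (nat_lit 46224532177) (nat_lit 76) (nat_lit 21729163713) (nat_lit 6) (nat_lit 4) (nat_lit 7) (nat_lit 5) (nat_lit 7) (nat_lit 4) (nat_lit 367) (nat_lit 308) (nat_lit 225)) (XT.lf (nat_lit 0) (nat_lit 157060261170) (nat_lit 76) (nat_lit 28924810149) (nat_lit 76) (nat_lit 4426384586) (nat_lit 6) (nat_lit 4) (nat_lit 7) (nat_lit 5) (nat_lit 7) (nat_lit 4) (nat_lit 368) (nat_lit 308) (nat_lit 224))) (XT.nd (nat_lit 78) (nat_lit 0) (nat_lit 0) (XT.lf (nat_lit 0) (nat_lit 3860184642) (nat_lit 76) (nat_lit 9775123460) (nat_lit 152) (nat_lit 190415408616) (nat_lit 4) (nat_lit 5) (nat_lit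 5) (nat_lit 5) (nat_lit 6) (nat_lit 4) (nat_lit 369) (nat_lit 308) (nat_lit 223)) (XT.lf (nat_lit 0) (nat_lit 34095914282) (nat_lit 152) (nat_lit 173173418627) (nat_lit 0) (nat_lit 11407139114) (nat_lit 4) (nat_lit 5) (nat_lit 6) (nat_lit 4) (nat_lit 4) (nat_lit 4) (nat_lit 370) (nat_lit 308) (nat_lit 222)))) (XT.nd (nat_lit 156) (nat_lit 0) (nat_lit 0) (XT.nd (nat_lit 78) (nat_lit 0) (nat_lit 0) (XT.lf (nat_lit 0) (nat_lit 56442869496) (nat_lit 152) (nat_lit 144257611627) (nat_lit 0) (nat_lit 33751847268) (nat_lit 4) (nat_lit 5) (nat_lit 6) (nat_lit 4) (nat_lit 4) (nat_lit 4) (nat_lit 371) (nat_lit 308) (nat_lit 221)) (XT.lf (nat_lit 0) (nat_lit 80573508189) (nat_lit 152) (nat_lit 113036666192) (nat_lit 0) (nat_lit 57880405351) (nat_lit 4) (nat_lit 5) (nat_lit 6) (nat_lit 4) (nat_lit 4) (nat_lit 4) (nat_lit 372) (nat_lit 308) (nat_lit 220))) (XT.nd (nat_lit 78) (nat_lit 0) (nat_lit 0)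 (XT.lf (nat_lit 0) (nat_lit 106630826741) (nat_lit 152) (nat_lit 79325569311) (nat_lit 0) (nat_lit 83935797412) (nat_lit 4) (nat_lit 5) (nat_lit 6) (nat_lit 4) (nat_lit 4) (nat_lit 4) (nat_lit 373) (nat_lit 308) (nat_lit 219)) (XT.nd (nat_lit 78) (nat_lit 0) (nat_lit 0) (XT.lf (nat_lit 0) (nat_lit 134769238891) (nat_lit 152) (nat_lit 42924551521) (nat_lit 0) (nat_lit 112072425773) (nat_lit 4) (nat_lit 5) (nat_lit 6) (nat_lit 4) (nat_lit 4) (nat_lit 4) (nat_lit 374) (nat_lit 308) (nat_lit 218)) (XT.lf (nat_lit 0) (nat_lit 165155490784) (nat_lit 152) (nat_lit 3617903088) (nat_lit 0) (nat_lit 142457026010) (nat_lit 4) (nat_lit 5) (nat_lit 6) (nat_lit 4) (nat_lit 4) (nat_lit 4) (nat_lit 375) (nat_lit 308) (nat_lit 217)))))) (XT.nd (nat_lit 312) (nat_lit 0) (nat_lit 0) (XT.nd (nat_lit 156) (nat_lit 0) (nat_lit 0) (XT.nd (nat_lit 78) (nat_lit 0) (nat_lit 0) (XT.lf (nat_lit 0) (nat_lit 40871881311)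 (nat_lit 76) (nat_lit 158080737517) (nat_lit 76) (nat_lit 135380743432) (nat_lit 3) (nat_lit 4) (nat_lit 4) (nat_lit 5) (nat_lit 4) (nat_lit 4) (nat_lit 376) (nat_lit 308) (nat_lit 216)) (XT.lf (nat_lit 0) (nat_lit 89120780086) (nat_lit 76) (nat_lit 146428744925) (nat_lit 76) (nat_lit 123727334811) (nat_lit 3) (nat_lit 4) (nat_lit 4) (nat_lit 5) (nat_lit 4) (nat_lit 4) (nat_lit 377) (nat_lit 308) (nat_lit 215))) (XT.nd (nat_lit 78) (nat_lit 0) (nat_lit 0) (XT.lf (nat_lit 0) (nat_lit 141224200273) (nat_lit 76) (nat_lit 133847287135) (nat_lit 76) (nat_lit 111144565883) (nat_lit 3) (nat_lit 4) (nat_lit 4) (nat_lit 5) (nat_lit 4) (nat_lit 4) (nat_lit 378) (nat_lit 308) (nat_lit 214)) (XT.lf (nat_lit 0) (nat_lit 197490902879) (nat_lit 76) (nat_lit 120261807359) (nat_lit 76) (nat_lit 97557872091) (nat_lit 3) (nat_lit 4) (nat_lit 4) (nat_lit 5) (nat_lit 4) (nat_lit 4) (nat_lit 379) (nat_lit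 308) (nat_lit 213)))) (XT.nd (nat_lit 156) (nat_lit 0) (nat_lit 0) (XT.nd (nat_lit 78) (nat_lit 0) (nat_lit 0) (XT.lf (nat_lit 0) (nat_lit 258254320217) (nat_lit 76) (nat_lit 105591799051) (nat_lit 76) (nat_lit 82886739694) (nat_lit 3) (nat_lit 4) (nat_lit 4) (nat_lit 5) (nat_lit 4) (nat_lit 4) (nat_lit 380) (nat_lit 308) (nat_lit 212)) (XT.lf (nat_lit 0) (nat_lit 323874531796) (nat_lit 76) (nat_lit 89750328828) (nat_lit 76) (nat_lit 67044228647) (nat_lit 3) (nat_lit 4) (nat_lit 4) (nat_lit 5) (nat_lit 4) (nat_lit 4) (nat_lit 381) (nat_lit 308) (nat_lit 211))) (XT.nd (nat_lit 78) (nat_lit 0) (nat_lit 0) (XT.lf (nat_lit 0) (nat_lit 394740398129) (nat_lit 76) (nat_lit 72643521310) (nat_lit 76) (nat_lit 49936457405) (nat_lit 3) (nat_lit 4) (nat_lit 4) (nat_lit 5) (nat_lit 4) (nat_lit 4) (nat_lit 382) (nat_lit 308) (nat_lit 210)) (XT.nd (nat_lit 78) (nat_lit 0) (nat_lit 0) (XT.lf (nat_lit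 0) (nat_lit 471271865092) (nat_lit 76) (nat_lit 54170002825) (nat_lit 76) (nat_lit 31462046581) (nat_lit 3) (nat_lit 4) (nat_lit 4) (nat_lit 5) (nat_lit 4) (nat_lit 4) (nat_lit 383) (nat_lit 308) (nat_lit 209)) (XT.lf (nat_lit 0) (nat_lit 553922452488) (nat_lit 76) (nat_lit 34220300669) (nat_lit 76) (nat_lit 11511518186) (nat_lit 3) (nat_lit 4) (nat_lit 4) (nat_lit 5) (nat_lit 4) (nat_lit 4) (nat_lit 384) (nat_lit 308) (nat_lit 208))))))) (XT.nd (nat_lit 702) (nat_lit 0) (nat_lit 0) (XT.nd (nat_lit 312) (nat_lit 0) (nat_lit 0) (XT.nd (nat_lit 156) (nat_lit 0) (nat_lit 0) (XT.nd (nat_lit 78) (nat_lit 76) (nat_lit 0) (XT.lf (nat_lit 0) (nat_lit 9531444174) (nat_lit 152) (nat_lit 2884143636) (nat_lit 76) (nat_lit 633389890827) (nat_lit 2) (nat_lit 5) (nat_lit 4) (nat_lit 5) (nat_lit 3) (nat_lit 4) (nat_lit 385) (nat_lit 308) (nat_lit 207)) (XT.lf (nat_lit 0) (nat_lit 33029123029) (nat_lit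 152) (nat_lit 650483175288) (nat_lit 0) (nat_lit 12001108319) (nat_lit 1) (nat_lit 5) (nat_lit 3) (nat_lit 4) (nat_lit 1) (nat_lit 4) (nat_lit 386) (nat_lit 308) (nat_lit 206))) (XT.nd (nat_lit 78) (nat_lit 0) (nat_lit 0) (XT.lf (nat_lit 0) (nat_lit 58808515542) (nat_lit 152) (nat_lit 652577408048) (nat_lit 0) (nat_lit 37779893522) (nat_lit 1) (nat_lit 5) (nat_lit 3) (nat_lit 4) (nat_lit 1) (nat_lit 4) (nat_lit 387) (nat_lit 308) (nat_lit 205)) (XT.lf (nat_lit 0) (nat_lit 86648880476) (nat_lit 152) (nat_lit 654841954307) (nat_lit 0) (nat_lit 65619696131) (nat_lit 1) (nat_lit 5) (nat_lit 3) (nat_lit 4) (nat_lit 1) (nat_lit 4) (nat_lit 388) (nat_lit 308) (nat_lit 204)))) (XT.nd (nat_lit 156) (nat_lit 0) (nat_lit 0) (XT.nd (nat_lit 78) (nat_lit 0) (nat_lit 0) (XT.lf (nat_lit 0) (nat_lit 116715197771) (nat_lit 152) (nat_lit 657290233597) (nat_lit 0) (nat_lit 95685492756) (nat_lit 1) (nat_lit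 5) (nat_lit 3) (nat_lit 4) (nat_lit 1) (nat_lit 4) (nat_lit 389) (nat_lit 308) (nat_lit 203)) (XT.lf (nat_lit 0) (nat_lit 149185638197) (nat_lit 152) (nat_lit 659936754242) (nat_lit 0) (nat_lit 128155451079) (nat_lit 1) (nat_lit 5) (nat_lit 3) (nat_lit 4) (nat_lit 1) (nat_lit 4) (nat_lit 390) (nat_lit 308) (nat_lit 202))) (XT.nd (nat_lit 78) (nat_lit 0) (nat_lit 0) (XT.lf (nat_lit 0) (nat_lit 184252619178) (nat_lit 152) (nat_lit 662797199326) (nat_lit 0) (nat_lit 163221985669) (nat_lit 1) (nat_lit 5) (nat_lit 3) (nat_lit 4) (nat_lit 1) (nat_lit 4) (nat_lit 391) (nat_lit 308) (nat_lit 201)) (XT.nd (nat_lit 78) (nat_lit 0) (nat_lit 0) (XT.lf (nat_lit 0) (nat_lit 222123945046) (nat_lit 152) (nat_lit 665888519634) (nat_lit 0) (nat_lit 201092898212) (nat_lit 1) (nat_lit 5) (nat_lit 3) (nat_lit 4) (nat_lit 1) (nat_lit 4) (nat_lit 392) (nat_lit 308) (nat_lit 200)) (XT.lf (nat_lit 0) (nat_lit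 263024038474) (nat_lit 152) (nat_lit 669229034102) (nat_lit 0) (nat_lit 241992608931) (nat_lit 1) (nat_lit 5) (nat_lit 3) (nat_lit 4) (nat_lit 1) (nat_lit 4) (nat_lit 393) (nat_lit 308) (nat_lit 199)))))) (XT.nd (nat_lit 312) (nat_lit 0) (nat_lit 0) (XT.nd (nat_lit 156) (nat_lit 0) (nat_lit 0) (XT.nd (nat_lit 78) (nat_lit 0) (nat_lit 0) (XT.lf (nat_lit 0) (nat_lit 307195270384) (nat_lit 152) (nat_lit 672838538372) (nat_lit 0) (nat_lit 286163486481) (nat_lit 1) (nat_lit 5) (nat_lit 3) (nat_lit 4) (nat_lit 1) (nat_lit 4) (nat_lit 394) (nat_lit 308) (nat_lit 198)) (XT.lf (nat_lit 0) (nat_lit 354899396225) (nat_lit 152) (nat_lit 676738422098) (nat_lit 0) (nat_lit 333867284211) (nat_lit 1) (nat_lit 5) (nat_lit 3) (nat_lit 4) (nat_lit 1) (nat_lit 4) (nat_lit 395) (nat_lit 308) (nat_lit 197))) (XT.nd (nat_lit 78) (nat_lit 0) (nat_lit 0) (XT.lf (nat_lit 0) (nat_lit 406419107113) (nat_lit 152)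 (nat_lit 680951795702) (nat_lit 0) (nat_lit 385386691293) (nat_lit 1) (nat_lit 5) (nat_lit 3) (nat_lit 4) (nat_lit 1) (nat_lit 4) (nat_lit 396) (nat_lit 308) (nat_lit 196)) (XT.lf (nat_lit 0) (nat_lit 462059705040) (nat_lit 152) (nat_lit 685503627324) (nat_lit 0) (nat_lit 441027007917) (nat_lit 1) (nat_lit 5) (nat_lit 3) (nat_lit 4) (nat_lit 1) (nat_lit 4) (nat_lit 397) (nat_lit 308) (nat_lit 195)))) (XT.nd (nat_lit 156) (nat_lit 0) (nat_lit 0) (XT.nd (nat_lit 78) (nat_lit 0) (nat_lit 0) (XT.lf (nat_lit 0) (nat_lit 522150912066) (nat_lit 152) (nat_lit 690420890781) (nat_lit 0) (nat_lit 501117954478) (nat_lit 1) (nat_lit 5) (nat_lit 3) (nat_lit 4) (nat_lit 1) (nat_lit 4) (nat_lit 398) (nat_lit 308) (nat_lit 194)) (XT.lf (nat_lit 0) (nat_lit 587048824233) (nat_lit 152) (nat_lit 695732725412) (nat_lit 0) (nat_lit 566015625474) (nat_lit 1) (nat_lit 5) (nat_lit 3) (nat_lit 4) (nat_lit 1) (nat_lit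 4) (nat_lit 399) (nat_lit 308) (nat_lit 193))) (XT.nd (nat_lit 78) (nat_lit 0) (nat_lit 0) (XT.lf (nat_lit 0) (nat_lit 657138021761) (nat_lit 152) (nat_lit 701470608756) (nat_lit 0) (nat_lit 636104599696) (nat_lit 1) (nat_lit 5) (nat_lit 3) (nat_lit 4) (nat_lit 1) (nat_lit 4) (nat_lit 400) (nat_lit 308) (nat_lit 192)) (XT.nd (nat_lit 78) (nat_lit 0) (nat_lit 0) (XT.lf (nat_lit 0) (nat_lit 732833848044) (nat_lit 152) (nat_lit 707668543084) (nat_lit 0) (nat_lit 711800219213) (nat_lit 1) (nat_lit 5) (nat_lit 3) (nat_lit 4) (nat_lit 1) (nat_lit 4) (nat_lit 401) (nat_lit 308) (nat_lit 191)) (XT.lf (nat_lit 0) (nat_lit 814584870940) (nat_lit 152) (nat_lit 714363256896) (nat_lit 0) (nat_lit 793551050660) (nat_lit 1) (nat_lit 5) (nat_lit 3) (nat_lit 4) (nat_lit 1) (nat_lit 4) (nat_lit 402) (nat_lit 308) (nat_lit 190))))))))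
noncomputable def xc123 : XT := (XT.nd (nat_lit 39936) (nat_lit 0) (nat_lit 2204) (XT.nd (nat_lit 702) (nat_lit 0) (nat_lit 0) (XT.nd (nat_lit 312) (nat_lit 0) (nat_lit 0) (XT.nd (nat_lit 156) (nat_lit 0) (nat_lit 0) (XT.nd (nat_lit 78) (nat_lit 0) (nat_lit 0) (XT.lf (nat_lit 0) (nat_lit 902875540956) (nat_lit 152) (nat_lit 721594422571) (nat_lit 0) (nat_lit 881841543408) (nat_lit 1) (nat_lit 5) (nat_lit 3) (nat_lit 4) (nat_lit 1) (nat_lit 4) (nat_lit 403) (nat_lit 308) (nat_lit 189)) (XT.lf (nat_lit 0) (nat_lit 998229062063) (nat_lit 152) (nat_lit 729404891460) (nat_lit 0) (nat_lit 977194900377) (nat_lit 1) (nat_lit 5) (nat_lit 3) (nat_lit 4) (nat_lit 1) (nat_lit 4) (nat_lit 404) (nat_lit 308) (nat_lit 188))) (XT.nd (nat_lit 78) (nat_lit 0) (nat_lit 0) (XT.lf (nat_lit 0) (nat_lit 1101210492162) (nat_lit 152) (nat_lit 737840947823) (nat_lit 0) (nat_lit 1080176178497) (nat_lit 1) (nat_lit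 5) (nat_lit 3) (nat_lit 4) (nat_lit 1) (nat_lit 4) (nat_lit 405) (nat_lit 308) (nat_lit 187)) (XT.lf (nat_lit 0) (nat_lit 1212430091581) (nat_lit 152) (nat_lit 746952583106) (nat_lit 0) (nat_lit 1191395637195) (nat_lit 1) (nat_lit 5) (nat_lit 3) (nat_lit 4) (nat_lit 1) (nat_lit 4) (nat_lit 406) (nat_lit 308) (nat_lit 186)))) (XT.nd (nat_lit 156) (nat_lit 0) (nat_lit 0) (XT.nd (nat_lit 78) (nat_lit 0) (nat_lit 0) (XT.lf (nat_lit 0) (nat_lit 1332546939427) (nat_lit 152) (nat_lit 756793792184) (nat_lit 0) (nat_lit 1311512354744) (nat_lit 1) (nat_lit 5) (nat_lit 3) (nat_lit 4) (nat_lit 1) (nat_lit 4) (nat_lit 407) (nat_lit 308) (nat_lit 185)) (XT.lf (nat_lit 0) (nat_lit 1462272839243) (nat_lit 152) (nat_lit 767422893333) (nat_lit 0) (nat_lit 1441238133914) (nat_lit 1) (nat_lit 5) (nat_lit 3) (nat_lit 4) (nat_lit 1) (nat_lit 4) (nat_lit 408) (nat_lit 308) (nat_lit 184))) (XT.nd (nat_lit 78)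 (nat_lit 0) (nat_lit 0) (XT.lf (nat_lit 0) (nat_lit 1602376537102) (nat_lit 152) (nat_lit 778902873820) (nat_lit 0) (nat_lit 1581341720064) (nat_lit 1) (nat_lit 5) (nat_lit 3) (nat_lit 4) (nat_lit 1) (nat_lit 4) (nat_lit 409) (nat_lit 308) (nat_lit 183)) (XT.nd (nat_lit 78) (nat_lit 0) (nat_lit 0) (XT.lf (nat_lit 0) (nat_lit 1753688277140) (nat_lit 152) (nat_lit 791301763158) (nat_lit 0) (nat_lit 1732653356668) (nat_lit 1) (nat_lit 5) (nat_lit 3) (nat_lit 4) (nat_lit 1) (nat_lit 4) (nat_lit 410) (nat_lit 308) (nat_lit 182)) (XT.lf (nat_lit 0) (nat_lit 1917104721519) (nat_lit 152) (nat_lit 804693036248) (nat_lit 0) (nat_lit 1896069705274) (nat_lit 1) (nat_lit 5) (nat_lit 3) (nat_lit 4) (nat_lit 1) (nat_lit 4) (nat_lit 411) (nat_lit 308) (nat_lit 181)))))) (XT.nd (nat_lit 38844) (nat_lit 0) (nat_lit 4408) (XT.nd (nat_lit 156) (nat_lit 0) (nat_lit 0) (XT.nd (nat_lit 78) (nat_lit 0) (nat_lit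 0) (XT.lf (nat_lit 0) (nat_lit 2093594263984) (nat_lit 152) (nat_lit 819156048781) (nat_lit 0) (nat_lit 2072559159061) (nat_lit 1) (nat_lit 5) (nat_lit 3) (nat_lit 4) (nat_lit 1) (nat_lit 4) (nat_lit 412) (nat_lit 308) (nat_lit 180)) (XT.lf (nat_lit 0) (nat_lit 2284202768491) (nat_lit 152) (nat_lit 834776507498) (nat_lit 0) (nat_lit 2263167581459) (nat_lit 1) (nat_lit 5) (nat_lit 3) (nat_lit 4) (nat_lit 1) (nat_lit 4) (nat_lit 413) (nat_lit 308) (nat_lit 179))) (XT.nd (nat_lit 78) (nat_lit 0) (nat_lit 0) (XT.lf (nat_lit 0) (nat_lit 2490059766918) (nat_lit 152) (nat_lit 851646978082) (nat_lit 0) (nat_lit 2469024503858) (nat_lit 1) (nat_lit 5) (nat_lit 3) (nat_lit 4) (nat_lit 1) (nat_lit 4) (nat_lit 414) (nat_lit 308) (nat_lit 178)) (XT.lf (nat_lit 0) (nat_lit 2712385152589) (nat_lit 152) (nat_lit 869867433690) (nat_lit 0) (nat_lit 2691349819133) (nat_lit 1) (nat_lit 5) (nat_lit 3) (nat_lit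 4) (nat_lit 1) (nat_lit 4) (nat_lit 415) (nat_lit 308) (nat_lit 177)))) (XT.nd (nat_lit 156) (nat_lit 456) (nat_lit 0) (XT.nd (nat_lit 78) (nat_lit 0) (nat_lit 0) (XT.lf (nat_lit 0) (nat_lit 1819354026) (nat_lit 0) (nat_lit 1819354026) (nat_lit 380) (nat_lit 757686575) (nat_lit 65) (nat_lit 5) (nat_lit 65) (nat_lit 3) (nat_lit 70) (nat_lit 3) (nat_lit 309) (nat_lit 309) (nat_lit 282)) (XT.lf (nat_lit 0) (nat_lit 8153039533) (nat_lit 0) (nat_lit 309128403) (nat_lit 380) (nat_lit 609353485) (nat_lit 65) (nat_lit 5) (nat_lit 65) (nat_lit 3) (nat_lit 70) (nat_lit 3) (nat_lit 310) (nat_lit 309) (nat_lit 281))) (XT.nd (nat_lit 78) (nat_lit 0) (nat_lit 0) (XT.lf (nat_lit 0) (nat_lit 432541880) (nat_lit 456) (nat_lit 5667861826) (nat_lit 532) (nat_lit 3265027131) (nat_lit 59) (nat_lit 5) (nat_lit 65) (nat_lit 5) (nat_lit 66) (nat_lit 5) (nat_lit 311) (nat_lit 309) (nat_lit 280)) (XT.nd (nat_lit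 78) (nat_lit 0) (nat_lit 76) (XT.lf (nat_lit 0) (nat_lit 1473340447) (nat_lit 456) (nat_lit 1026571543) (nat_lit 532) (nat_lit 7185924575) (nat_lit 59) (nat_lit 5) (nat_lit 65) (nat_lit 5) (nat_lit 66) (nat_lit 5) (nat_lit 312) (nat_lit 309) (nat_lit 279)) (XT.lf (nat_lit 0) (nat_lit 2654619981) (nat_lit 456) (nat_lit 5925985718) (nat_lit 532) (nat_lit 1446809785) (nat_lit 60) (nat_lit 5) (nat_lit 66) (nat_lit 5) (nat_lit 67) (nat_lit 5) (nat_lit 313) (nat_lit 309) (nat_lit 278))))))) (XT.nd (nat_lit 702) (nat_lit 988) (nat_lit 0) (XT.nd (nat_lit 312) (nat_lit 912) (nat_lit 0) (XT.nd (nat_lit 156) (nat_lit 380) (nat_lit 0) (XT.nd (nat_lit 78) (nat_lit 0) (nat_lit 0) (XT.lf (nat_lit 0) (nat_lit 3950324324) (nat_lit 456) (nat_lit 819170275) (nat_lit 532) (nat_lit 5625341672) (nat_lit 60) (nat_lit 5) (nat_lit 66) (nat_lit 5) (nat_lit 67) (nat_lit 5) (nat_lit 314) (nat_lit 309) (nat_lit 277))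 (XT.lf (nat_lit 76) (nat_lit 4887452407) (nat_lit 0) (nat_lit 511435526) (nat_lit 532) (nat_lit 5388927808) (nat_lit 61) (nat_lit 5) (nat_lit 60) (nat_lit 5) (nat_lit 67) (nat_lit 5) (nat_lit 315) (nat_lit 309) (nat_lit 276))) (XT.nd (nat_lit 78) (nat_lit 456) (nat_lit 0) (XT.lf (nat_lit 0) (nat_lit 7020393065) (nat_lit 456) (nat_lit 269571125) (nat_lit 76) (nat_lit 3917798610) (nat_lit 61) (nat_lit 5) (nat_lit 67) (nat_lit 5) (nat_lit 62) (nat_lit 5) (nat_lit 316) (nat_lit 309) (nat_lit 275)) (XT.lf (nat_lit 0) (nat_lit 6047747547) (nat_lit 456) (nat_lit 2823138958) (nat_lit 532) (nat_lit 2782564497) (nat_lit 55) (nat_lit 5) (nat_lit 61) (nat_lit 5) (nat_lit 62) (nat_lit 5) (nat_lit 317) (nat_lit 309) (nat_lit 274)))) (XT.nd (nat_lit 156) (nat_lit 456) (nat_lit 0) (XT.nd (nat_lit 78) (nat_lit 76) (nat_lit 0) (XT.lf (nat_lit 0) (nat_lit 680785619) (nat_lit 380) (nat_lit 10204494456) (nat_lit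 456) (nat_lit 1248325707) (nat_lit 50) (nat_lit 5) (nat_lit 55) (nat_lit 5) (nat_lit 56) (nat_lit 5) (nat_lit 318) (nat_lit 309) (nat_lit 273)) (XT.lf (nat_lit 0) (nat_lit 563970832) (nat_lit 456) (nat_lit 4996109548) (nat_lit 76) (nat_lit 7077314339) (nat_lit 49) (nat_lit 5) (nat_lit 55) (nat_lit 5) (nat_lit 50) (nat_lit 5) (nat_lit 319) (nat_lit 309) (nat_lit 272))) (XT.nd (nat_lit 78) (nat_lit 228) (nat_lit 0) (XT.lf (nat_lit 0) (nat_lit 1990532907) (nat_lit 228) (nat_lit 460391037) (nat_lit 304) (nat_lit 10728263521) (nat_lit 46) (nat_lit 5) (nat_lit 49) (nat_lit 5) (nat_lit 50) (nat_lit 5) (nat_lit 320) (nat_lit 309) (nat_lit 271)) (XT.nd (nat_lit 78) (nat_lit 228) (nat_lit 0) (XT.lf (nat_lit 0) (nat_lit 4702013692) (nat_lit 304) (nat_lit 4114305453) (nat_lit 76) (nat_lit 4931009134) (nat_lit 46) (nat_lit 5) (nat_lit 50) (nat_lit 5) (nat_lit 47) (nat_lit 5) (nat_lit 321) (nat_lit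 309) (nat_lit 270)) (XT.lf (nat_lit 0) (nat_lit 3644284506) (nat_lit 228) (nat_lit 3543734202) (nat_lit 304) (nat_lit 7168570104) (nat_lit 43) (nat_lit 5) (nat_lit 46) (nat_lit 5) (nat_lit 47) (nat_lit 5) (nat_lit 322) (nat_lit 309) (nat_lit 269)))))) (XT.nd (nat_lit 312) (nat_lit 532) (nat_lit 0) (XT.nd (nat_lit 156) (nat_lit 304) (nat_lit 0) (XT.nd (nat_lit 78) (nat_lit 152) (nat_lit 0) (XT.lf (nat_lit 0) (nat_lit 9997169375) (nat_lit 304) (nat_lit 2856694419) (nat_lit 76) (nat_lit 2150835826) (nat_lit 43) (nat_lit 5) (nat_lit 47) (nat_lit 5) (nat_lit 44) (nat_lit 5) (nat_lit 323) (nat_lit 309) (nat_lit 268)) (XT.lf (nat_lit 0) (nat_lit 5774162277) (nat_lit 152) (nat_lit 7448106938) (nat_lit 228) (nat_lit 2467139606) (nat_lit 41) (nat_lit 5) (nat_lit 43) (nat_lit 5) (nat_lit 44) (nat_lit 5) (nat_lit 324) (nat_lit 309) (nat_lit 267))) (XT.nd (nat_lit 78) (nat_lit 228) (nat_lit 0) (XT.lf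 (nat_lit 0) (nat_lit 303832636) (nat_lit 228) (nat_lit 1224203594) (nat_lit 76) (nat_lit 14897072293) (nat_lit 40) (nat_lit 5) (nat_lit 43) (nat_lit 5) (nat_lit 41) (nat_lit 5) (nat_lit 325) (nat_lit 309) (nat_lit 266)) (XT.lf (nat_lit 0) (nat_lit 3454658915) (nat_lit 304) (nat_lit 8849940464) (nat_lit 76) (nat_lit 4886658259) (nat_lit 37) (nat_lit 5) (nat_lit 41) (nat_lit 5) (nat_lit 38) (nat_lit 5) (nat_lit 326) (nat_lit 309) (nat_lit 265)))) (XT.nd (nat_lit 156) (nat_lit 380) (nat_lit 0) (XT.nd (nat_lit 78) (nat_lit 0) (nat_lit 0) (XT.lf (nat_lit 0) (nat_lit 670256651) (nat_lit 152) (nat_lit 6242670739) (nat_lit 228) (nat_lit 11101375678) (nat_lit 35) (nat_lit 5) (nat_lit 37) (nat_lit 5) (nat_lit 38) (nat_lit 5) (nat_lit 327) (nat_lit 309) (nat_lit 264)) (XT.lf (nat_lit 0) (nat_lit 10869766278) (nat_lit 228) (nat_lit 7491596600) (nat_lit 76) (nat_lit 524108457) (nat_lit 35) (nat_lit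 5) (nat_lit 38) (nat_lit 5) (nat_lit 36) (nat_lit 5) (nat_lit 328) (nat_lit 309) (nat_lit 263))) (XT.nd (nat_lit 78) (nat_lit 228) (nat_lit 0) (XT.lf (nat_lit 0) (nat_lit 3095906426) (nat_lit 152) (nat_lit 12252678056) (nat_lit 228) (nat_lit 4461343558) (nat_lit 33) (nat_lit 5) (nat_lit 35) (nat_lit 5) (nat_lit 36) (nat_lit 5) (nat_lit 329) (nat_lit 309) (nat_lit 262)) (XT.nd (nat_lit 78) (nat_lit 228) (nat_lit 0) (XT.lf (nat_lit 0) (nat_lit 14911759318) (nat_lit 152) (nat_lit 5448844524) (nat_lit 228) (nat_lit 433773150) (nat_lit 33) (nat_lit 5) (nat_lit 35) (nat_lit 5) (nat_lit 36) (nat_lit 5) (nat_lit 330) (nat_lit 309) (nat_lit 261)) (XT.lf (nat_lit 0) (nat_lit 3886906884) (nat_lit 228) (nat_lit 15915150808) (nat_lit 76) (nat_lit 2034669365) (nat_lit 30) (nat_lit 5) (nat_lit 33) (nat_lit 5) (nat_lit 31) (nat_lit 5) (nat_lit 331) (nat_lit 309) (nat_lit 260))))))))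
noncomputable def xc124 : XT := (XT.nd (nat_lit 1404) (nat_lit 684) (nat_lit 0) (XT.nd (nat_lit 702) (nat_lit 380) (nat_lit 0) (XT.nd (nat_lit 312) (nat_lit 456) (nat_lit 0) (XT.nd (nat_lit 156) (nat_lit 152) (nat_lit 0) (XT.nd (nat_lit 78) (nat_lit 152) (nat_lit 0) (XT.lf (nat_lit 0) (nat_lit 8808643892) (nat_lit 228) (nat_lit 4145606747) (nat_lit 76) (nat_lit 9985027859) (nat_lit 30) (nat_lit 5) (nat_lit 33) (nat_lit 5) (nat_lit 31) (nat_lit 5) (nat_lit 332) (nat_lit 309) (nat_lit 259)) (XT.lf (nat_lit 0) (nat_lit 8973959720) (nat_lit 152) (nat_lit 5340326933) (nat_lit 228) (nat_lit 9800554171) (nat_lit 28) (nat_lit 5) (nat_lit 30) (nat_lit 5) (nat_lit 31) (nat_lit 5) (nat_lit 333) (nat_lit 309) (nat_lit 258))) (XT.nd (nat_lit 78) (nat_lit 152) (nat_lit 0) (XT.lf (nat_lit 0) (nat_lit 20420943351) (nat_lit 228) (nat_lit 2109869430) (nat_lit 76) (nat_lit 2840808979) (nat_lit 28) (nat_lit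 5) (nat_lit 31) (nat_lit 5) (nat_lit 29) (nat_lit 4) (nat_lit 334) (nat_lit 309) (nat_lit 257)) (XT.lf (nat_lit 0) (nat_lit 697464695) (nat_lit 152) (nat_lit 14305946482) (nat_lit 76) (nat_lit 11691025925) (nat_lit 26) (nat_lit 5) (nat_lit 28) (nat_lit 5) (nat_lit 27) (nat_lit 5) (nat_lit 335) (nat_lit 309) (nat_lit 256)))) (XT.nd (nat_lit 156) (nat_lit 304) (nat_lit 0) (XT.nd (nat_lit 78) (nat_lit 152) (nat_lit 0) (XT.lf (nat_lit 0) (nat_lit 6566208039) (nat_lit 152) (nat_lit 120131429) (nat_lit 76) (nat_lit 21423568746) (nat_lit 26) (nat_lit 5) (nat_lit 28) (nat_lit 5) (nat_lit 27) (nat_lit 5) (nat_lit 336) (nat_lit 309) (nat_lit 255)) (XT.lf (nat_lit 0) (nat_lit 13331959171) (nat_lit 228) (nat_lit 13710809177) (nat_lit 76) (nat_lit 2561661688) (nat_lit 24) (nat_lit 5) (nat_lit 27) (nat_lit 5) (nat_lit 25) (nat_lit 4) (nat_lit 337) (nat_lit 309) (nat_lit 254))) (XT.nd (nat_lit 78) (nat_lit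 228) (nat_lit 0) (XT.lf (nat_lit 0) (nat_lit 1860493113) (nat_lit 76) (nat_lit 18979399982) (nat_lit 152) (nat_lit 10362559369) (nat_lit 23) (nat_lit 5) (nat_lit 24) (nat_lit 5) (nat_lit 25) (nat_lit 4) (nat_lit 338) (nat_lit 309) (nat_lit 253)) (XT.nd (nat_lit 78) (nat_lit 228) (nat_lit 0) (XT.lf (nat_lit 0) (nat_lit 19422279370) (nat_lit 76) (nat_lit 9880901398) (nat_lit 152) (nat_lit 3596770131) (nat_lit 23) (nat_lit 5) (nat_lit 24) (nat_lit 5) (nat_lit 25) (nat_lit 4) (nat_lit 339) (nat_lit 309) (nat_lit 252)) (XT.lf (nat_lit 0) (nat_lit 3597951986) (nat_lit 228) (nat_lit 31004304847) (nat_lit 76) (nat_lit 118002002) (nat_lit 20) (nat_lit 5) (nat_lit 23) (nat_lit 5) (nat_lit 21) (nat_lit 4) (nat_lit 340) (nat_lit 309) (nat_lit 251)))))) (XT.nd (nat_lit 312) (nat_lit 228) (nat_lit 0) (XT.nd (nat_lit 156) (nat_lit 76) (nat_lit 0) (XT.nd (nat_lit 78) (nat_lit 76) (nat_lit 0) (XT.lf (nat_lit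 0) (nat_lit 11789793090) (nat_lit 228) (nat_lit 13998498899) (nat_lit 76) (nat_lit 10841166106) (nat_lit 20) (nat_lit 5) (nat_lit 23) (nat_lit 5) (nat_lit 21) (nat_lit 4) (nat_lit 341) (nat_lit 309) (nat_lit 250)) (XT.lf (nat_lit 0) (nat_lit 4564920356) (nat_lit 76) (nat_lit 16164383215) (nat_lit 152) (nat_lit 17954712585) (nat_lit 19) (nat_lit 5) (nat_lit 20) (nat_lit 5) (nat_lit 21) (nat_lit 4) (nat_lit 342) (nat_lit 309) (nat_lit 249))) (XT.nd (nat_lit 78) (nat_lit 76) (nat_lit 0) (XT.lf (nat_lit 0) (nat_lit 25379103265) (nat_lit 76) (nat_lit 5370713165) (nat_lit 152) (nat_lit 10123863095) (nat_lit 19) (nat_lit 5) (nat_lit 20) (nat_lit 5) (nat_lit 21) (nat_lit 4) (nat_lit 343) (nat_lit 309) (nat_lit 248)) (XT.lf (nat_lit 0) (nat_lit 4673374393) (nat_lit 76) (nat_lit 37146228815) (nat_lit 76) (nat_lit 1399109522) (nat_lit 18) (nat_lit 4) (nat_lit 19) (nat_lit 5) (nat_lit 19) (nat_lit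 4) (nat_lit 344) (nat_lit 309) (nat_lit 247)))) (XT.nd (nat_lit 156) (nat_lit 76) (nat_lit 0) (XT.nd (nat_lit 78) (nat_lit 76) (nat_lit 0) (XT.lf (nat_lit 0) (nat_lit 8180542124) (nat_lit 152) (nat_lit 18754203063) (nat_lit 76) (nat_lit 18756508918) (nat_lit 17) (nat_lit 5) (nat_lit 19) (nat_lit 5) (nat_lit 18) (nat_lit 4) (nat_lit 345) (nat_lit 309) (nat_lit 246)) (XT.lf (nat_lit 0) (nat_lit 2691458601) (nat_lit 76) (nat_lit 15809563396) (nat_lit 152) (nat_lit 29853671877) (nat_lit 16) (nat_lit 5) (nat_lit 17) (nat_lit 5) (nat_lit 18) (nat_lit 4) (nat_lit 346) (nat_lit 309) (nat_lit 245))) (XT.nd (nat_lit 78) (nat_lit 76) (nat_lit 0) (XT.lf (nat_lit 0) (nat_lit 26892964864) (nat_lit 76) (nat_lit 3252716693) (nat_lit 152) (nat_lit 21045649398) (nat_lit 16) (nat_lit 5) (nat_lit 17) (nat_lit 5) (nat_lit 18) (nat_lit 4) (nat_lit 347) (nat_lit 309) (nat_lit 244)) (XT.nd (nat_lit 78) (nat_lit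 76) (nat_lit 0) (XT.lf (nat_lit 0) (nat_lit 42956389748) (nat_lit 152) (nat_lit 1497442792) (nat_lit 0) (nat_lit 9782313428) (nat_lit 16) (nat_lit 5) (nat_lit 18) (nat_lit 4) (nat_lit 16) (nat_lit 4) (nat_lit 348) (nat_lit 309) (nat_lit 243)) (XT.lf (nat_lit 0) (nat_lit 24231902156) (nat_lit 76) (nat_lit 33214864486) (nat_lit 76) (nat_lit 25399235) (nat_lit 15) (nat_lit 4) (nat_lit 16) (nat_lit 5) (nat_lit 16) (nat_lit 4) (nat_lit 349) (nat_lit 309) (nat_lit 242))))))) (XT.nd (nat_lit 702) (nat_lit 304) (nat_lit 0) (XT.nd (nat_lit 312) (nat_lit 152) (nat_lit 0) (XT.nd (nat_lit 156) (nat_lit 76) (nat_lit 0) (XT.nd (nat_lit 78) (nat_lit 76) (nat_lit 0) (XT.lf (nat_lit 0) (nat_lit 11552160916) (nat_lit 152) (nat_lit 9175219556) (nat_lit 76) (nat_lit 40213985165) (nat_lit 14) (nat_lit 5) (nat_lit 16) (nat_lit 5) (nat_lit 15) (nat_lit 4) (nat_lit 350) (nat_lit 309) (nat_lit 241)) (XT.lf (nat_lit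 0) (nat_lit 17676966277) (nat_lit 76) (nat_lit 6791242409) (nat_lit 152) (nat_lit 40186751211) (nat_lit 13) (nat_lit 5) (nat_lit 14) (nat_lit 5) (nat_lit 15) (nat_lit 4) (nat_lit 351) (nat_lit 309) (nat_lit 240))) (XT.nd (nat_lit 78) (nat_lit 76) (nat_lit 0) (XT.lf (nat_lit 0) (nat_lit 38862196378) (nat_lit 152) (nat_lit 21673387306) (nat_lit 0) (nat_lit 8094488951) (nat_lit 13) (nat_lit 5) (nat_lit 15) (nat_lit 4) (nat_lit 13) (nat_lit 4) (nat_lit 352) (nat_lit 309) (nat_lit 239)) (XT.lf (nat_lit 0) (nat_lit 5746486831) (nat_lit 76) (nat_lit 48965283129) (nat_lit 76) (nat_lit 18187102255) (nat_lit 12) (nat_lit 4) (nat_lit 13) (nat_lit 5) (nat_lit 13) (nat_lit 4) (nat_lit 353) (nat_lit 309) (nat_lit 238)))) (XT.nd (nat_lit 156) (nat_lit 76) (nat_lit 0) (XT.nd (nat_lit 78) (nat_lit 76) (nat_lit 0) (XT.lf (nat_lit 0) (nat_lit 36572878888) (nat_lit 76) (nat_lit 35838794599) (nat_lit 76)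 (nat_lit 5050916087) (nat_lit 12) (nat_lit 4) (nat_lit 13) (nat_lit 5) (nat_lit 13) (nat_lit 4) (nat_lit 354) (nat_lit 309) (nat_lit 237)) (XT.lf (nat_lit 0) (nat_lit 8669421139) (nat_lit 152) (nat_lit 12764461835) (nat_lit 76) (nat_lit 60940723135) (nat_lit 11) (nat_lit 5) (nat_lit 13) (nat_lit 5) (nat_lit 12) (nat_lit 4) (nat_lit 355) (nat_lit 309) (nat_lit 236))) (XT.nd (nat_lit 78) (nat_lit 0) (nat_lit 0) (XT.lf (nat_lit 0) (nat_lit 18381818767) (nat_lit 76) (nat_lit 5265772931) (nat_lit 152) (nat_lit 63986852229) (nat_lit 10) (nat_lit 5) (nat_lit 11) (nat_lit 5) (nat_lit 12) (nat_lit 4) (nat_lit 356) (nat_lit 309) (nat_lit 235)) (XT.nd (nat_lit 78) (nat_lit 0) (nat_lit 0) (XT.lf (nat_lit 0) (nat_lit 40466460782) (nat_lit 152) (nat_lit 40861189206) (nat_lit 0) (nat_lit 11936025352) (nat_lit 10) (nat_lit 5) (nat_lit 12) (nat_lit 4) (nat_lit 10) (nat_lit 4) (nat_lit 357) (nat_lit 309)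 (nat_lit 234)) (XT.lf (nat_lit 0) (nat_lit 58759342264) (nat_lit 152) (nat_lit 10351317985) (nat_lit 0) (nat_lit 30222306785) (nat_lit 10) (nat_lit 5) (nat_lit 12) (nat_lit 4) (nat_lit 10) (nat_lit 4) (nat_lit 358) (nat_lit 309) (nat_lit 233)))))) (XT.nd (nat_lit 312) (nat_lit 76) (nat_lit 0) (XT.nd (nat_lit 156) (nat_lit 152) (nat_lit 0) (XT.nd (nat_lit 78) (nat_lit 0) (nat_lit 0) (XT.lf (nat_lit 0) (nat_lit 23773685747) (nat_lit 76) (nat_lit 55306068406) (nat_lit 76) (nat_lit 26762921770) (nat_lit 9) (nat_lit 4) (nat_lit 10) (nat_lit 5) (nat_lit 10) (nat_lit 4) (nat_lit 359) (nat_lit 309) (nat_lit 232)) (XT.lf (nat_lit 0) (nat_lit 61202842726) (nat_lit 76) (nat_lit 40098539484) (nat_lit 76) (nat_lit 11549734370) (nat_lit 9) (nat_lit 4) (nat_lit 10) (nat_lit 5) (nat_lit 10) (nat_lit 4) (nat_lit 360) (nat_lit 309) (nat_lit 231))) (XT.nd (nat_lit 78) (nat_lit 76) (nat_lit 0) (XT.lf (nat_lit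 0) (nat_lit 4629295761) (nat_lit 152) (nat_lit 18925109260) (nat_lit 76) (nat_lit 96857004389) (nat_lit 8) (nat_lit 5) (nat_lit 10) (nat_lit 5) (nat_lit 9) (nat_lit 4) (nat_lit 361) (nat_lit 309) (nat_lit 230)) (XT.lf (nat_lit 0) (nat_lit 16951068442) (nat_lit 76) (nat_lit 4928722000) (nat_lit 152) (nat_lit 106640646916) (nat_lit 7) (nat_lit 5) (nat_lit 8) (nat_lit 5) (nat_lit 9) (nat_lit 4) (nat_lit 362) (nat_lit 309) (nat_lit 229)))) (XT.nd (nat_lit 156) (nat_lit 76) (nat_lit 0) (XT.nd (nat_lit 78) (nat_lit 0) (nat_lit 0) (XT.lf (nat_lit 0) (nat_lit 41399950545) (nat_lit 152) (nat_lit 80854698716) (nat_lit 0) (nat_lit 14952369470) (nat_lit 7) (nat_lit 5) (nat_lit 9) (nat_lit 4) (nat_lit 7) (nat_lit 4) (nat_lit 363) (nat_lit 309) (nat_lit 228)) (XT.lf (nat_lit 0) (nat_lit 62603715889) (nat_lit 152) (nat_lit 47822768750) (nat_lit 0) (nat_lit 36152283749) (nat_lit 7) (nat_lit 5) (nat_lit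 9) (nat_lit 4) (nat_lit 7) (nat_lit 4) (nat_lit 364) (nat_lit 309) (nat_lit 227))) (XT.nd (nat_lit 78) (nat_lit 76) (nat_lit 0) (XT.lf (nat_lit 0) (nat_lit 85498202533) (nat_lit 152) (nat_lit 12159298364) (nat_lit 0) (nat_lit 59043204592) (nat_lit 7) (nat_lit 5) (nat_lit 9) (nat_lit 4) (nat_lit 7) (nat_lit 4) (nat_lit 365) (nat_lit 309) (nat_lit 226)) (XT.nd (nat_lit 78) (nat_lit 0) (nat_lit 0) (XT.lf (nat_lit 0) (nat_lit 27734440567) (nat_lit 76) (nat_lit 83151654906) (nat_lit 76) (nat_lit 56693355298) (nat_lit 6) (nat_lit 4) (nat_lit 7) (nat_lit 5) (nat_lit 7) (nat_lit 4) (nat_lit 366) (nat_lit 309) (nat_lit 225)) (XT.lf (nat_lit 0) (nat_lit 71501248737) (nat_lit 76) (nat_lit 67131204933) (nat_lit 76) (nat_lit 40669848224) (nat_lit 6) (nat_lit 4) (nat_lit 7) (nat_lit 5) (nat_lit 7) (nat_lit 4) (nat_lit 367) (nat_lit 309) (nat_lit 224))))))))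
noncomputable def xc125 : XT := (XT.nd (nat_lit 1404) (nat_lit 152) (nat_lit 0) (XT.nd (nat_lit 702) (nat_lit 76) (nat_lit 0) (XT.nd (nat_lit 312) (nat_lit 0) (nat_lit 0) (XT.nd (nat_lit 156) (nat_lit 152) (nat_lit 0) (XT.nd (nat_lit 78) (nat_lit 0) (nat_lit 0) (XT.lf (nat_lit 0) (nat_lit 118760197907) (nat_lit 76) (nat_lit 49833671742) (nat_lit 76) (nat_lit 23369484386) (nat_lit 6) (nat_lit 4) (nat_lit 7) (nat_lit 5) (nat_lit 7) (nat_lit 4) (nat_lit 368) (nat_lit 309) (nat_lit 223)) (XT.lf (nat_lit 0) (nat_lit 169791341107) (nat_lit 76) (nat_lit 31156551435) (nat_lit 76) (nat_lit 4689743108) (nat_lit 6) (nat_lit 4) (nat_lit 7) (nat_lit 5) (nat_lit 7) (nat_lit 4) (nat_lit 369) (nat_lit 309) (nat_lit 222))) (XT.nd (nat_lit 78) (nat_lit 0) (nat_lit 0) (XT.lf (nat_lit 0) (nat_lit 4335488206) (nat_lit 76) (nat_lit 10474474945) (nat_lit 152) (nat_lit 205558091195) (nat_lit 4) (nat_lit 5) (nat_lit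 5) (nat_lit 5) (nat_lit 6) (nat_lit 4) (nat_lit 370) (nat_lit 309) (nat_lit 221)) (XT.lf (nat_lit 0) (nat_lit 36903048849) (nat_lit 152) (nat_lit 186868754557) (nat_lit 0) (nat_lit 12392417172) (nat_lit 4) (nat_lit 5) (nat_lit 6) (nat_lit 4) (nat_lit 4) (nat_lit 4) (nat_lit 371) (nat_lit 309) (nat_lit 220)))) (XT.nd (nat_lit 156) (nat_lit 0) (nat_lit 0) (XT.nd (nat_lit 78) (nat_lit 0) (nat_lit 0) (XT.lf (nat_lit 0) (nat_lit 61031874448) (nat_lit 152) (nat_lit 155651426520) (nat_lit 0) (nat_lit 36519316280) (nat_lit 4) (nat_lit 5) (nat_lit 6) (nat_lit 4) (nat_lit 4) (nat_lit 4) (nat_lit 372) (nat_lit 309) (nat_lit 219)) (XT.lf (nat_lit 0) (nat_lit 87087514208) (nat_lit 152) (nat_lit 121943679082) (nat_lit 0) (nat_lit 62573172252) (nat_lit 4) (nat_lit 5) (nat_lit 6) (nat_lit 4) (nat_lit 4) (nat_lit 4) (nat_lit 373) (nat_lit 309) (nat_lit 218))) (XT.nd (nat_lit 78) (nat_lit 0) (nat_lit 0)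 (XT.lf (nat_lit 0) (nat_lit 115224371921) (nat_lit 152) (nat_lit 85545762629) (nat_lit 0) (nat_lit 90708378309) (nat_lit 4) (nat_lit 5) (nat_lit 6) (nat_lit 4) (nat_lit 4) (nat_lit 4) (nat_lit 374) (nat_lit 309) (nat_lit 217)) (XT.nd (nat_lit 78) (nat_lit 0) (nat_lit 0) (XT.lf (nat_lit 0) (nat_lit 145609184521) (nat_lit 152) (nat_lit 46241985803) (nat_lit 0) (nat_lit 121091661598) (nat_lit 4) (nat_lit 5) (nat_lit 6) (nat_lit 4) (nat_lit 4) (nat_lit 4) (nat_lit 375) (nat_lit 309) (nat_lit 216)) (XT.lf (nat_lit 0) (nat_lit 178422010157) (nat_lit 152) (nat_lit 3799437335) (nat_lit 0) (nat_lit 153903071206) (nat_lit 4) (nat_lit 5) (nat_lit 6) (nat_lit 4) (nat_lit 4) (nat_lit 4) (nat_lit 376) (nat_lit 309) (nat_lit 215)))))) (XT.nd (nat_lit 312) (nat_lit 0) (nat_lit 0) (XT.nd (nat_lit 156) (nat_lit 0) (nat_lit 0) (XT.nd (nat_lit 78) (nat_lit 0) (nat_lit 0) (XT.lf (nat_lit 0) (nat_lit 44246798221)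 (nat_lit 76) (nat_lit 170674633543) (nat_lit 76) (nat_lit 146154383454) (nat_lit 3) (nat_lit 4) (nat_lit 4) (nat_lit 5) (nat_lit 4) (nat_lit 4) (nat_lit 377) (nat_lit 309) (nat_lit 214)) (XT.lf (nat_lit 0) (nat_lit 96347818794) (nat_lit 76) (nat_lit 158094375098) (nat_lit 76) (nat_lit 133572910993) (nat_lit 3) (nat_lit 4) (nat_lit 4) (nat_lit 5) (nat_lit 4) (nat_lit 4) (nat_lit 378) (nat_lit 309) (nat_lit 213))) (XT.nd (nat_lit 78) (nat_lit 0) (nat_lit 0) (XT.lf (nat_lit 0) (nat_lit 152612299536) (nat_lit 76) (nat_lit 144510005827) (nat_lit 76) (nat_lit 119987417632) (nat_lit 3) (nat_lit 4) (nat_lit 4) (nat_lit 5) (nat_lit 4) (nat_lit 4) (nat_lit 379) (nat_lit 309) (nat_lit 212)) (XT.lf (nat_lit 0) (nat_lit 213373659592) (nat_lit 76) (nat_lit 129841025764) (nat_lit 76) (nat_lit 105317396746) (nat_lit 3) (nat_lit 4) (nat_lit 4) (nat_lit 5) (nat_lit 4) (nat_lit 4) (nat_lit 380) (nat_lit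 309) (nat_lit 211)))) (XT.nd (nat_lit 156) (nat_lit 0) (nat_lit 0) (XT.nd (nat_lit 78) (nat_lit 0) (nat_lit 0) (XT.lf (nat_lit 0) (nat_lit 278991966281) (nat_lit 76) (nat_lit 114000507619) (nat_lit 76) (nat_lit 89475914876) (nat_lit 3) (nat_lit 4) (nat_lit 4) (nat_lit 5) (nat_lit 4) (nat_lit 4) (nat_lit 381) (nat_lit 309) (nat_lit 210)) (XT.lf (nat_lit 0) (nat_lit 349856068827) (nat_lit 76) (nat_lit 96894581656) (nat_lit 76) (nat_lit 72369096575) (nat_lit 3) (nat_lit 4) (nat_lit 4) (nat_lit 5) (nat_lit 4) (nat_lit 4) (nat_lit 382) (nat_lit 309) (nat_lit 209))) (XT.nd (nat_lit 78) (nat_lit 0) (nat_lit 0) (XT.lf (nat_lit 0) (nat_lit 426385902654) (nat_lit 76) (nat_lit 78421879425) (nat_lit 76) (nat_lit 53895568104) (nat_lit 3) (nat_lit 4) (nat_lit 4) (nat_lit 5) (nat_lit 4) (nat_lit 4) (nat_lit 383) (nat_lit 309) (nat_lit 208)) (XT.nd (nat_lit 78) (nat_lit 0) (nat_lit 0) (XT.lf (nat_lit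 0) (nat_lit 509034977886) (nat_lit 76) (nat_lit 58472933060) (nat_lit 76) (nat_lit 33945856703) (nat_lit 3) (nat_lit 4) (nat_lit 4) (nat_lit 5) (nat_lit 4) (nat_lit 4) (nat_lit 384) (nat_lit 309) (nat_lit 207)) (XT.lf (nat_lit 0) (nat_lit 598293066823) (nat_lit 76) (nat_lit 36929526583) (nat_lit 76) (nat_lit 12401741859) (nat_lit 3) (nat_lit 4) (nat_lit 4) (nat_lit 5) (nat_lit 4) (nat_lit 4) (nat_lit 385) (nat_lit 309) (nat_lit 206))))))) (XT.nd (nat_lit 702) (nat_lit 0) (nat_lit 0) (XT.nd (nat_lit 312) (nat_lit 0) (nat_lit 0) (XT.nd (nat_lit 156) (nat_lit 0) (nat_lit 0) (XT.nd (nat_lit 78) (nat_lit 76) (nat_lit 0) (XT.lf (nat_lit 0) (nat_lit 10320961703) (nat_lit 152) (nat_lit 3060840276) (nat_lit 76) (nat_lit 684085951201) (nat_lit 2) (nat_lit 5) (nat_lit 4) (nat_lit 5) (nat_lit 3) (nat_lit 4) (nat_lit 386) (nat_lit 309) (nat_lit 205)) (XT.lf (nat_lit 0) (nat_lit 35698356240) (nat_lit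 152) (nat_lit 702467692511) (nat_lit 0) (nat_lit 12986274824) (nat_lit 1) (nat_lit 5) (nat_lit 3) (nat_lit 4) (nat_lit 1) (nat_lit 4) (nat_lit 387) (nat_lit 309) (nat_lit 204))) (XT.nd (nat_lit 78) (nat_lit 0) (nat_lit 0) (XT.lf (nat_lit 0) (nat_lit 63538107312) (nat_lit 152) (nat_lit 704733474025) (nat_lit 0) (nat_lit 40825505225) (nat_lit 1) (nat_lit 5) (nat_lit 3) (nat_lit 4) (nat_lit 1) (nat_lit 4) (nat_lit 388) (nat_lit 309) (nat_lit 203)) (XT.lf (nat_lit 0) (nat_lit 93603856216) (nat_lit 152) (nat_lit 707182897071) (nat_lit 0) (nat_lit 70890772027) (nat_lit 1) (nat_lit 5) (nat_lit 3) (nat_lit 4) (nat_lit 1) (nat_lit 4) (nat_lit 389) (nat_lit 309) (nat_lit 202)))) (XT.nd (nat_lit 156) (nat_lit 0) (nat_lit 0) (XT.nd (nat_lit 78) (nat_lit 0) (nat_lit 0) (XT.lf (nat_lit 0) (nat_lit 126073770354) (nat_lit 152) (nat_lit 709830476748) (nat_lit 0) (nat_lit 103360239773) (nat_lit 1) (nat_lit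 5) (nat_lit 3) (nat_lit 4) (nat_lit 1) (nat_lit 4) (nat_lit 390) (nat_lit 309) (nat_lit 201)) (XT.lf (nat_lit 0) (nat_lit 161140264032) (nat_lit 152) (nat_lit 712691902418) (nat_lit 0) (nat_lit 138426320126) (nat_lit 1) (nat_lit 5) (nat_lit 3) (nat_lit 4) (nat_lit 1) (nat_lit 4) (nat_lit 391) (nat_lit 309) (nat_lit 200))) (XT.nd (nat_lit 78) (nat_lit 0) (nat_lit 0) (XT.lf (nat_lit 0) (nat_lit 199011138693) (nat_lit 152) (nat_lit 715784130676) (nat_lit 0) (nat_lit 176296812078) (nat_lit 1) (nat_lit 5) (nat_lit 3) (nat_lit 4) (nat_lit 1) (nat_lit 4) (nat_lit 392) (nat_lit 309) (nat_lit 199)) (XT.nd (nat_lit 78) (nat_lit 0) (nat_lit 0) (XT.lf (nat_lit 0) (nat_lit 239910814336) (nat_lit 152) (nat_lit 719125485838) (nat_lit 0) (nat_lit 217196133361) (nat_lit 1) (nat_lit 5) (nat_lit 3) (nat_lit 4) (nat_lit 1) (nat_lit 4) (nat_lit 393) (nat_lit 309) (nat_lit 198)) (XT.lf (nat_lit 0) (nat_lit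 284081659409) (nat_lit 152) (nat_lit 722735768528) (nat_lit 0) (nat_lit 261366650323) (nat_lit 1) (nat_lit 5) (nat_lit 3) (nat_lit 4) (nat_lit 1) (nat_lit 4) (nat_lit 394) (nat_lit 309) (nat_lit 197)))))) (XT.nd (nat_lit 312) (nat_lit 0) (nat_lit 0) (XT.nd (nat_lit 156) (nat_lit 0) (nat_lit 0) (XT.nd (nat_lit 78) (nat_lit 0) (nat_lit 0) (XT.lf (nat_lit 0) (nat_lit 331785427067) (nat_lit 152) (nat_lit 726636373013) (nat_lit 0) (nat_lit 309070114175) (nat_lit 1) (nat_lit 5) (nat_lit 3) (nat_lit 4) (nat_lit 1) (nat_lit 4) (nat_lit 395) (nat_lit 309) (nat_lit 196)) (XT.lf (nat_lit 0) (nat_lit 383304806305) (nat_lit 152) (nat_lit 730850413987) (nat_lit 0) (nat_lit 360589212111) (nat_lit 1) (nat_lit 5) (nat_lit 3) (nat_lit 4) (nat_lit 1) (nat_lit 4) (nat_lit 396) (nat_lit 309) (nat_lit 195))) (XT.nd (nat_lit 78) (nat_lit 0) (nat_lit 0) (XT.lf (nat_lit 0) (nat_lit 438945097148) (nat_lit 152)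 (nat_lit 735402863545) (nat_lit 0) (nat_lit 416229242488) (nat_lit 1) (nat_lit 5) (nat_lit 3) (nat_lit 4) (nat_lit 1) (nat_lit 4) (nat_lit 397) (nat_lit 309) (nat_lit 194)) (XT.lf (nat_lit 0) (nat_lit 499036019837) (nat_lit 152) (nat_lit 740320699164) (nat_lit 0) (nat_lit 476319924006) (nat_lit 1) (nat_lit 5) (nat_lit 3) (nat_lit 4) (nat_lit 1) (nat_lit 4) (nat_lit 398) (nat_lit 309) (nat_lit 193)))) (XT.nd (nat_lit 156) (nat_lit 0) (nat_lit 0) (XT.nd (nat_lit 78) (nat_lit 0) (nat_lit 0) (XT.lf (nat_lit 0) (nat_lit 563933668729) (nat_lit 152) (nat_lit 745633063575) (nat_lit 0) (nat_lit 541217349591) (nat_lit 1) (nat_lit 5) (nat_lit 3) (nat_lit 4) (nat_lit 1) (nat_lit 4) (nat_lit 399) (nat_lit 309) (nat_lit 192)) (XT.lf (nat_lit 0) (nat_lit 634022622484) (nat_lit 152) (nat_lit 751371437456) (nat_lit 0) (nat_lit 611306096581) (nat_lit 1) (nat_lit 5) (nat_lit 3) (nat_lit 4) (nat_lit 1) (nat_lit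 4) (nat_lit 400) (nat_lit 309) (nat_lit 191))) (XT.nd (nat_lit 78) (nat_lit 0) (nat_lit 0) (XT.lf (nat_lit 0) (nat_lit 709718223051) (nat_lit 152) (nat_lit 757569825985) (nat_lit 0) (nat_lit 687001505699) (nat_lit 1) (nat_lit 5) (nat_lit 3) (nat_lit 4) (nat_lit 1) (nat_lit 4) (nat_lit 401) (nat_lit 309) (nat_lit 190)) (XT.nd (nat_lit 78) (nat_lit 0) (nat_lit 0) (XT.lf (nat_lit 0) (nat_lit 791469036951) (nat_lit 152) (nat_lit 764264960354) (nat_lit 0) (nat_lit 768752142331) (nat_lit 1) (nat_lit 5) (nat_lit 3) (nat_lit 4) (nat_lit 1) (nat_lit 4) (nat_lit 402) (nat_lit 309) (nat_lit 189)) (XT.lf (nat_lit 0) (nat_lit 879759513452) (nat_lit 152) (nat_lit 771496515432) (nat_lit 0) (nat_lit 857042454695) (nat_lit 1) (nat_lit 5) (nat_lit 3) (nat_lit 4) (nat_lit 1) (nat_lit 4) (nat_lit 403) (nat_lit 309) (nat_lit 188))))))))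
noncomputable def xc126 : XT := (XT.nd (nat_lit 40014) (nat_lit 0) (nat_lit 2204) (XT.nd (nat_lit 702) (nat_lit 0) (nat_lit 0) (XT.nd (nat_lit 312) (nat_lit 0) (nat_lit 0) (XT.nd (nat_lit 156) (nat_lit 0) (nat_lit 0) (XT.nd (nat_lit 78) (nat_lit 0) (nat_lit 0) (XT.lf (nat_lit 0) (nat_lit 975112855378) (nat_lit 152) (nat_lit 779307344880) (nat_lit 0) (nat_lit 952395644642) (nat_lit 1) (nat_lit 5) (nat_lit 3) (nat_lit 4) (nat_lit 1) (nat_lit 4) (nat_lit 404) (nat_lit 309) (nat_lit 187)) (XT.lf (nat_lit 0) (nat_lit 1078094119570) (nat_lit 152) (nat_lit 787743735095) (nat_lit 0) (nat_lit 1055376768112) (nat_lit 1) (nat_lit 5) (nat_lit 3) (nat_lit 4) (nat_lit 1) (nat_lit 4) (nat_lit 405) (nat_lit 309) (nat_lit 186))) (XT.nd (nat_lit 78) (nat_lit 0) (nat_lit 0) (XT.lf (nat_lit 0) (nat_lit 1189313565370) (nat_lit 152) (nat_lit 796855679499) (nat_lit 0) (nat_lit 1166596083615) (nat_lit 1) (nat_lit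 5) (nat_lit 3) (nat_lit 4) (nat_lit 1) (nat_lit 4) (nat_lit 406) (nat_lit 309) (nat_lit 185)) (XT.lf (nat_lit 0) (nat_lit 1309430270977) (nat_lit 152) (nat_lit 806697174801) (nat_lit 0) (nat_lit 1286712668576) (nat_lit 1) (nat_lit 5) (nat_lit 3) (nat_lit 4) (nat_lit 1) (nat_lit 4) (nat_lit 407) (nat_lit 309) (nat_lit 184)))) (XT.nd (nat_lit 156) (nat_lit 0) (nat_lit 0) (XT.nd (nat_lit 78) (nat_lit 0) (nat_lit 0) (XT.lf (nat_lit 0) (nat_lit 1439156039090) (nat_lit 152) (nat_lit 817326540972) (nat_lit 0) (nat_lit 1416438324980) (nat_lit 1) (nat_lit 5) (nat_lit 3) (nat_lit 4) (nat_lit 1) (nat_lit 4) (nat_lit 408) (nat_lit 309) (nat_lit 183)) (XT.lf (nat_lit 0) (nat_lit 1579259615002) (nat_lit 152) (nat_lit 828806766850) (nat_lit 0) (nat_lit 1556541797458) (nat_lit 1) (nat_lit 5) (nat_lit 3) (nat_lit 4) (nat_lit 1) (nat_lit 4) (nat_lit 409) (nat_lit 309) (nat_lit 182))) (XT.nd (nat_lit 78)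 (nat_lit 0) (nat_lit 0) (XT.lf (nat_lit 0) (nat_lit 1730571242125) (nat_lit 152) (nat_lit 841205883401) (nat_lit 0) (nat_lit 1707853328809) (nat_lit 1) (nat_lit 5) (nat_lit 3) (nat_lit 4) (nat_lit 1) (nat_lit 4) (nat_lit 410) (nat_lit 309) (nat_lit 181)) (XT.nd (nat_lit 78) (nat_lit 0) (nat_lit 0) (XT.lf (nat_lit 0) (nat_lit 1893987581954) (nat_lit 152) (nat_lit 854597366874) (nat_lit 0) (nat_lit 1871269579960) (nat_lit 1) (nat_lit 5) (nat_lit 3) (nat_lit 4) (nat_lit 1) (nat_lit 4) (nat_lit 411) (nat_lit 309) (nat_lit 180)) (XT.lf (nat_lit 0) (nat_lit 2070477027614) (nat_lit 152) (nat_lit 869060574206) (nat_lit 0) (nat_lit 2047758943510) (nat_lit 1) (nat_lit 5) (nat_lit 3) (nat_lit 4) (nat_lit 1) (nat_lit 4) (nat_lit 412) (nat_lit 309) (nat_lit 179)))))) (XT.nd (nat_lit 38922) (nat_lit 0) (nat_lit 4332) (XT.nd (nat_lit 156) (nat_lit 0) (nat_lit 0) (XT.nd (nat_lit 78) (nat_lit 0) (nat_lit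 0) (XT.lf (nat_lit 0) (nat_lit 2261085442486) (nat_lit 152) (nat_lit 884681213293) (nat_lit 0) (nat_lit 2238367282354) (nat_lit 1) (nat_lit 5) (nat_lit 3) (nat_lit 4) (nat_lit 1) (nat_lit 4) (nat_lit 413) (nat_lit 309) (nat_lit 178)) (XT.lf (nat_lit 0) (nat_lit 2466942357917) (nat_lit 152) (nat_lit 901551850885) (nat_lit 0) (nat_lit 2444224127390) (nat_lit 1) (nat_lit 5) (nat_lit 3) (nat_lit 4) (nat_lit 1) (nat_lit 4) (nat_lit 414) (nat_lit 309) (nat_lit 177))) (XT.nd (nat_lit 38688) (nat_lit 0) (nat_lit 4332) (XT.lf (nat_lit 0) (nat_lit 2689267666741) (nat_lit 152) (nat_lit 919772461130) (nat_lit 0) (nat_lit 2666549371033) (nat_lit 1) (nat_lit 5) (nat_lit 3) (nat_lit 4) (nat_lit 1) (nat_lit 4) (nat_lit 415) (nat_lit 309) (nat_lit 176)) (XT.lf (nat_lit 0) (nat_lit 118828221) (nat_lit 532) (nat_lit 2278906531) (nat_lit 532) (nat_lit 2278906531) (nat_lit 58) (nat_lit 3) (nat_lit 65) (nat_lit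 3) (nat_lit 65) (nat_lit 5) (nat_lit 310) (nat_lit 310) (nat_lit 280)))) (XT.nd (nat_lit 156) (nat_lit 0) (nat_lit 76) (XT.nd (nat_lit 78) (nat_lit 0) (nat_lit 76) (XT.lf (nat_lit 0) (nat_lit 1034439462) (nat_lit 532) (nat_lit 78693914) (nat_lit 532) (nat_lit 8550117934) (nat_lit 58) (nat_lit 3) (nat_lit 65) (nat_lit 3) (nat_lit 65) (nat_lit 5) (nat_lit 311) (nat_lit 310) (nat_lit 279)) (XT.lf (nat_lit 0) (nat_lit 2008441474) (nat_lit 456) (nat_lit 5103223481) (nat_lit 532) (nat_lit 2877392586) (nat_lit 59) (nat_lit 5) (nat_lit 65) (nat_lit 5) (nat_lit 66) (nat_lit 5) (nat_lit 312) (nat_lit 310) (nat_lit 278))) (XT.nd (nat_lit 78) (nat_lit 0) (nat_lit 76) (XT.lf (nat_lit 0) (nat_lit 3018333835) (nat_lit 456) (nat_lit 166042367) (nat_lit 532) (nat_lit 7160023805) (nat_lit 59) (nat_lit 5) (nat_lit 65) (nat_lit 5) (nat_lit 66) (nat_lit 5) (nat_lit 313) (nat_lit 310) (nat_lit 277)) (XT.nd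 (nat_lit 78) (nat_lit 0) (nat_lit 0) (XT.lf (nat_lit 0) (nat_lit 4200285089) (nat_lit 456) (nat_lit 5361603669) (nat_lit 532) (nat_lit 1159080961) (nat_lit 60) (nat_lit 5) (nat_lit 66) (nat_lit 5) (nat_lit 67) (nat_lit 5) (nat_lit 314) (nat_lit 310) (nat_lit 276)) (XT.lf (nat_lit 76) (nat_lit 80879918) (nat_lit 0) (nat_lit 5421948394) (nat_lit 532) (nat_lit 5622847578) (nat_lit 61) (nat_lit 5) (nat_lit 60) (nat_lit 5) (nat_lit 67) (nat_lit 5) (nat_lit 315) (nat_lit 310) (nat_lit 275))))))) (XT.nd (nat_lit 702) (nat_lit 988) (nat_lit 0) (XT.nd (nat_lit 312) (nat_lit 532) (nat_lit 0) (XT.nd (nat_lit 156) (nat_lit 380) (nat_lit 0) (XT.nd (nat_lit 78) (nat_lit 380) (nat_lit 0) (XT.lf (nat_lit 76) (nat_lit 6215643744) (nat_lit 0) (nat_lit 780780787) (nat_lit 532) (nat_lit 4559472867) (nat_lit 61) (nat_lit 5) (nat_lit 60) (nat_lit 5) (nat_lit 67) (nat_lit 5) (nat_lit 316) (nat_lit 310) (nat_lit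 274)) (XT.lf (nat_lit 0) (nat_lit 704895760) (nat_lit 456) (nat_lit 7968277628) (nat_lit 532) (nat_lit 3342350420) (nat_lit 55) (nat_lit 5) (nat_lit 61) (nat_lit 5) (nat_lit 62) (nat_lit 5) (nat_lit 317) (nat_lit 310) (nat_lit 273))) (XT.nd (nat_lit 78) (nat_lit 380) (nat_lit 0) (XT.lf (nat_lit 0) (nat_lit 7468014874) (nat_lit 456) (nat_lit 3129690172) (nat_lit 532) (nat_lit 1905198275) (nat_lit 55) (nat_lit 5) (nat_lit 61) (nat_lit 5) (nat_lit 62) (nat_lit 5) (nat_lit 318) (nat_lit 310) (nat_lit 272)) (XT.lf (nat_lit 0) (nat_lit 1730607120) (nat_lit 380) (nat_lit 10989440040) (nat_lit 456) (nat_lit 305787112) (nat_lit 50) (nat_lit 5) (nat_lit 55) (nat_lit 5) (nat_lit 56) (nat_lit 5) (nat_lit 319) (nat_lit 310) (nat_lit 271)))) (XT.nd (nat_lit 156) (nat_lit 228) (nat_lit 0) (XT.nd (nat_lit 78) (nat_lit 228) (nat_lit 0) (XT.lf (nat_lit 0) (nat_lit 1525995304) (nat_lit 456) (nat_lit 4424734638)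 (nat_lit 76) (nat_lit 7623151206) (nat_lit 49) (nat_lit 5) (nat_lit 55) (nat_lit 5) (nat_lit 50) (nat_lit 5) (nat_lit 320) (nat_lit 310) (nat_lit 270)) (XT.lf (nat_lit 0) (nat_lit 3096255323) (nat_lit 228) (nat_lit 422493181) (nat_lit 304) (nat_lit 10643966680) (nat_lit 46) (nat_lit 5) (nat_lit 49) (nat_lit 5) (nat_lit 50) (nat_lit 5) (nat_lit 321) (nat_lit 310) (nat_lit 269))) (XT.nd (nat_lit 78) (nat_lit 228) (nat_lit 0) (XT.lf (nat_lit 0) (nat_lit 5887015418) (nat_lit 304) (nat_lit 3503181534) (nat_lit 76) (nat_lit 5391222165) (nat_lit 46) (nat_lit 5) (nat_lit 50) (nat_lit 5) (nat_lit 47) (nat_lit 5) (nat_lit 322) (nat_lit 310) (nat_lit 268)) (XT.nd (nat_lit 78) (nat_lit 0) (nat_lit 0) (XT.lf (nat_lit 0) (nat_lit 4852291360) (nat_lit 228) (nat_lit 3681736338) (nat_lit 304) (nat_lit 6908495845) (nat_lit 43) (nat_lit 5) (nat_lit 46) (nat_lit 5) (nat_lit 47) (nat_lit 5) (nat_lit 323)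 (nat_lit 310) (nat_lit 267)) (XT.lf (nat_lit 0) (nat_lit 11514041712) (nat_lit 304) (nat_lit 2181936202) (nat_lit 76) (nat_lit 2450882572) (nat_lit 43) (nat_lit 5) (nat_lit 47) (nat_lit 5) (nat_lit 44) (nat_lit 5) (nat_lit 324) (nat_lit 310) (nat_lit 266)))))) (XT.nd (nat_lit 312) (nat_lit 380) (nat_lit 0) (XT.nd (nat_lit 156) (nat_lit 380) (nat_lit 0) (XT.nd (nat_lit 78) (nat_lit 76) (nat_lit 0) (XT.lf (nat_lit 0) (nat_lit 7116520832) (nat_lit 152) (nat_lit 7848684534) (nat_lit 228) (nat_lit 1923759347) (nat_lit 41) (nat_lit 5) (nat_lit 43) (nat_lit 5) (nat_lit 44) (nat_lit 5) (nat_lit 325) (nat_lit 310) (nat_lit 265)) (XT.lf (nat_lit 0) (nat_lit 979709656) (nat_lit 228) (nat_lit 471947941) (nat_lit 76) (nat_lit 16234661442) (nat_lit 40) (nat_lit 5) (nat_lit 43) (nat_lit 5) (nat_lit 41) (nat_lit 5) (nat_lit 326) (nat_lit 310) (nat_lit 264))) (XT.nd (nat_lit 78) (nat_lit 152) (nat_lit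 0) (XT.lf (nat_lit 0) (nat_lit 4359207711) (nat_lit 304) (nat_lit 8683726717) (nat_lit 76) (nat_lit 5472747019) (nat_lit 37) (nat_lit 5) (nat_lit 41) (nat_lit 5) (nat_lit 38) (nat_lit 5) (nat_lit 327) (nat_lit 310) (nat_lit 263)) (XT.lf (nat_lit 0) (nat_lit 1575954295) (nat_lit 152) (nat_lit 6492144282) (nat_lit 228) (nat_lit 11338601187) (nat_lit 35) (nat_lit 5) (nat_lit 37) (nat_lit 5) (nat_lit 38) (nat_lit 5) (nat_lit 328) (nat_lit 310) (nat_lit 262)))) (XT.nd (nat_lit 156) (nat_lit 228) (nat_lit 0) (XT.nd (nat_lit 78) (nat_lit 152) (nat_lit 0) (XT.lf (nat_lit 0) (nat_lit 12302447637) (nat_lit 228) (nat_lit 7262393222) (nat_lit 76) (nat_lit 785886299) (nat_lit 35) (nat_lit 5) (nat_lit 38) (nat_lit 5) (nat_lit 36) (nat_lit 5) (nat_lit 329) (nat_lit 310) (nat_lit 261)) (XT.lf (nat_lit 0) (nat_lit 4151134576) (nat_lit 152) (nat_lit 12966147339) (nat_lit 228) (nat_lit 4233681182) (nat_lit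 33) (nat_lit 5) (nat_lit 35) (nat_lit 5) (nat_lit 36) (nat_lit 5) (nat_lit 330) (nat_lit 310) (nat_lit 260))) (XT.nd (nat_lit 78) (nat_lit 152) (nat_lit 0) (XT.lf (nat_lit 0) (nat_lit 69151967) (nat_lit 228) (nat_lit 5566723306) (nat_lit 76) (nat_lit 16781394058) (nat_lit 32) (nat_lit 5) (nat_lit 35) (nat_lit 5) (nat_lit 33) (nat_lit 5) (nat_lit 331) (nat_lit 310) (nat_lit 259)) (XT.nd (nat_lit 78) (nat_lit 0) (nat_lit 0) (XT.lf (nat_lit 0) (nat_lit 4698420653) (nat_lit 228) (nat_lit 16399102774) (nat_lit 76) (nat_lit 2445704480) (nat_lit 30) (nat_lit 5) (nat_lit 33) (nat_lit 5) (nat_lit 31) (nat_lit 5) (nat_lit 332) (nat_lit 310) (nat_lit 258)) (XT.lf (nat_lit 0) (nat_lit 9976818013) (nat_lit 228) (nat_lit 3746458899) (nat_lit 76) (nat_lit 11013701908) (nat_lit 30) (nat_lit 5) (nat_lit 33) (nat_lit 5) (nat_lit 31) (nat_lit 5) (nat_lit 333) (nat_lit 310) (nat_lit 257))))))))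
noncomputable def xc127 : XT := (XT.nd (nat_lit 1404) (nat_lit 608) (nat_lit 0) (XT.nd (nat_lit 702) (nat_lit 456) (nat_lit 0) (XT.nd (nat_lit 312) (nat_lit 304) (nat_lit 0) (XT.nd (nat_lit 156) (nat_lit 304) (nat_lit 0) (XT.nd (nat_lit 78) (nat_lit 0) (nat_lit 0) (XT.lf (nat_lit 0) (nat_lit 10404171711) (nat_lit 152) (nat_lit 5501539155) (nat_lit 228) (nat_lit 10102278286) (nat_lit 28) (nat_lit 5) (nat_lit 30) (nat_lit 5) (nat_lit 31) (nat_lit 5) (nat_lit 334) (nat_lit 310) (nat_lit 256)) (XT.lf (nat_lit 0) (nat_lit 22473765969) (nat_lit 228) (nat_lit 1591680735) (nat_lit 76) (nat_lit 3302061510) (nat_lit 28) (nat_lit 5) (nat_lit 31) (nat_lit 5) (nat_lit 29) (nat_lit 4) (nat_lit 335) (nat_lit 310) (nat_lit 255))) (XT.nd (nat_lit 78) (nat_lit 152) (nat_lit 0) (XT.lf (nat_lit 0) (nat_lit 1168237436) (nat_lit 152) (nat_lit 14758716856) (nat_lit 76) (nat_lit 12869572661) (nat_lit 26) (nat_lit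 5) (nat_lit 28) (nat_lit 5) (nat_lit 27) (nat_lit 5) (nat_lit 336) (nat_lit 310) (nat_lit 254)) (XT.lf (nat_lit 0) (nat_lit 537619892) (nat_lit 152) (nat_lit 6951051195) (nat_lit 228) (nat_lit 22838009181) (nat_lit 24) (nat_lit 5) (nat_lit 26) (nat_lit 5) (nat_lit 27) (nat_lit 5) (nat_lit 337) (nat_lit 310) (nat_lit 253)))) (XT.nd (nat_lit 156) (nat_lit 228) (nat_lit 0) (XT.nd (nat_lit 78) (nat_lit 76) (nat_lit 0) (XT.lf (nat_lit 0) (nat_lit 14775399732) (nat_lit 228) (nat_lit 14159624220) (nat_lit 76) (nat_lit 3007380809) (nat_lit 24) (nat_lit 5) (nat_lit 27) (nat_lit 5) (nat_lit 25) (nat_lit 4) (nat_lit 338) (nat_lit 310) (nat_lit 252)) (XT.lf (nat_lit 0) (nat_lit 2640975932) (nat_lit 76) (nat_lit 20230266155) (nat_lit 152) (nat_lit 10798061959) (nat_lit 23) (nat_lit 5) (nat_lit 24) (nat_lit 5) (nat_lit 25) (nat_lit 4) (nat_lit 339) (nat_lit 310) (nat_lit 251))) (XT.nd (nat_lit 78)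 (nat_lit 228) (nat_lit 0) (XT.lf (nat_lit 0) (nat_lit 21560916691) (nat_lit 76) (nat_lit 10423701450) (nat_lit 152) (nat_lit 3520157890) (nat_lit 23) (nat_lit 5) (nat_lit 24) (nat_lit 5) (nat_lit 25) (nat_lit 4) (nat_lit 340) (nat_lit 310) (nat_lit 250)) (XT.nd (nat_lit 78) (nat_lit 0) (nat_lit 0) (XT.lf (nat_lit 0) (nat_lit 4226511007) (nat_lit 228) (nat_lit 32875813208) (nat_lit 76) (nat_lit 368129196) (nat_lit 20) (nat_lit 5) (nat_lit 23) (nat_lit 5) (nat_lit 21) (nat_lit 4) (nat_lit 341) (nat_lit 310) (nat_lit 249)) (XT.lf (nat_lit 0) (nat_lit 13048460669) (nat_lit 228) (nat_lit 14554641749) (nat_lit 76) (nat_lit 11931317759) (nat_lit 20) (nat_lit 5) (nat_lit 23) (nat_lit 5) (nat_lit 21) (nat_lit 4) (nat_lit 342) (nat_lit 310) (nat_lit 248)))))) (XT.nd (nat_lit 312) (nat_lit 228) (nat_lit 0) (XT.nd (nat_lit 156) (nat_lit 152) (nat_lit 0) (XT.nd (nat_lit 78) (nat_lit 0) (nat_lit 0)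 (XT.lf (nat_lit 0) (nat_lit 5479579221) (nat_lit 76) (nat_lit 17213398224) (nat_lit 152) (nat_lit 19061189344) (nat_lit 19) (nat_lit 5) (nat_lit 20) (nat_lit 5) (nat_lit 21) (nat_lit 4) (nat_lit 343) (nat_lit 310) (nat_lit 247)) (XT.lf (nat_lit 0) (nat_lit 27918195635) (nat_lit 76) (nat_lit 5574318692) (nat_lit 152) (nat_lit 10628308951) (nat_lit 19) (nat_lit 5) (nat_lit 20) (nat_lit 5) (nat_lit 21) (nat_lit 4) (nat_lit 344) (nat_lit 310) (nat_lit 246))) (XT.nd (nat_lit 78) (nat_lit 76) (nat_lit 0) (XT.lf (nat_lit 0) (nat_lit 5560004083) (nat_lit 76) (nat_lit 39884304013) (nat_lit 76) (nat_lit 1209447016) (nat_lit 18) (nat_lit 4) (nat_lit 19) (nat_lit 5) (nat_lit 19) (nat_lit 4) (nat_lit 345) (nat_lit 310) (nat_lit 245)) (XT.lf (nat_lit 0) (nat_lit 9100267393) (nat_lit 152) (nat_lit 19765686440) (nat_lit 76) (nat_lit 20459271991) (nat_lit 17) (nat_lit 5) (nat_lit 19) (nat_lit 5) (nat_lit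 18) (nat_lit 4) (nat_lit 346) (nat_lit 310) (nat_lit 244)))) (XT.nd (nat_lit 156) (nat_lit 152) (nat_lit 0) (XT.nd (nat_lit 78) (nat_lit 0) (nat_lit 0) (XT.lf (nat_lit 0) (nat_lit 3383252135) (nat_lit 76) (nat_lit 16854942289) (nat_lit 152) (nat_lit 31964209503) (nat_lit 16) (nat_lit 5) (nat_lit 17) (nat_lit 5) (nat_lit 18) (nat_lit 4) (nat_lit 347) (nat_lit 310) (nat_lit 243)) (XT.lf (nat_lit 0) (nat_lit 29485584318) (nat_lit 76) (nat_lit 3309798678) (nat_lit 152) (nat_lit 22472119754) (nat_lit 16) (nat_lit 5) (nat_lit 17) (nat_lit 5) (nat_lit 18) (nat_lit 4) (nat_lit 348) (nat_lit 310) (nat_lit 242))) (XT.nd (nat_lit 78) (nat_lit 152) (nat_lit 0) (XT.lf (nat_lit 0) (nat_lit 46617838266) (nat_lit 152) (nat_lit 1195542348) (nat_lit 0) (nat_lit 10743577852) (nat_lit 16) (nat_lit 5) (nat_lit 18) (nat_lit 4) (nat_lit 16) (nat_lit 4) (nat_lit 349) (nat_lit 310) (nat_lit 241)) (XT.nd (nat_lit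 78) (nat_lit 0) (nat_lit 0) (XT.lf (nat_lit 0) (nat_lit 197841957) (nat_lit 152) (nat_lit 35475942670) (nat_lit 76) (nat_lit 26378223044) (nat_lit 14) (nat_lit 5) (nat_lit 16) (nat_lit 5) (nat_lit 15) (nat_lit 4) (nat_lit 350) (nat_lit 310) (nat_lit 240)) (XT.lf (nat_lit 0) (nat_lit 12683649450) (nat_lit 152) (nat_lit 9517679316) (nat_lit 76) (nat_lit 43598694035) (nat_lit 14) (nat_lit 5) (nat_lit 16) (nat_lit 5) (nat_lit 15) (nat_lit 4) (nat_lit 351) (nat_lit 310) (nat_lit 239))))))) (XT.nd (nat_lit 702) (nat_lit 228) (nat_lit 0) (XT.nd (nat_lit 312) (nat_lit 228) (nat_lit 0) (XT.nd (nat_lit 156) (nat_lit 76) (nat_lit 0) (XT.nd (nat_lit 78) (nat_lit 0) (nat_lit 0) (XT.lf (nat_lit 0) (nat_lit 19472768528) (nat_lit 76) (nat_lit 7154034368) (nat_lit 152) (nat_lit 43184400908) (nat_lit 13) (nat_lit 5) (nat_lit 14) (nat_lit 5) (nat_lit 15) (nat_lit 4) (nat_lit 352) (nat_lit 310) (nat_lit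 238)) (XT.lf (nat_lit 0) (nat_lit 42161430165) (nat_lit 152) (nat_lit 23042946600) (nat_lit 0) (nat_lit 8900823735) (nat_lit 13) (nat_lit 5) (nat_lit 15) (nat_lit 4) (nat_lit 13) (nat_lit 4) (nat_lit 353) (nat_lit 310) (nat_lit 237))) (XT.nd (nat_lit 78) (nat_lit 0) (nat_lit 0) (XT.lf (nat_lit 0) (nat_lit 6561294388) (nat_lit 76) (nat_lit 52712121946) (nat_lit 76) (nat_lit 19442536221) (nat_lit 12) (nat_lit 4) (nat_lit 13) (nat_lit 5) (nat_lit 13) (nat_lit 4) (nat_lit 354) (nat_lit 310) (nat_lit 236)) (XT.lf (nat_lit 0) (nat_lit 39827494949) (nat_lit 76) (nat_lit 38548135358) (nat_lit 76) (nat_lit 5270235472) (nat_lit 12) (nat_lit 4) (nat_lit 13) (nat_lit 5) (nat_lit 13) (nat_lit 4) (nat_lit 355) (nat_lit 310) (nat_lit 235)))) (XT.nd (nat_lit 156) (nat_lit 76) (nat_lit 0) (XT.nd (nat_lit 78) (nat_lit 76) (nat_lit 0) (XT.lf (nat_lit 0) (nat_lit 9525485722) (nat_lit 152) (nat_lit 13472587880)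 (nat_lit 76) (nat_lit 65953458008) (nat_lit 11) (nat_lit 5) (nat_lit 13) (nat_lit 5) (nat_lit 12) (nat_lit 4) (nat_lit 356) (nat_lit 310) (nat_lit 234)) (XT.lf (nat_lit 0) (nat_lit 20157470338) (nat_lit 76) (nat_lit 5539739552) (nat_lit 152) (nat_lit 68935325686) (nat_lit 10) (nat_lit 5) (nat_lit 11) (nat_lit 5) (nat_lit 12) (nat_lit 4) (nat_lit 357) (nat_lit 310) (nat_lit 233))) (XT.nd (nat_lit 78) (nat_lit 76) (nat_lit 0) (XT.lf (nat_lit 0) (nat_lit 43853178857) (nat_lit 152) (nat_lit 43839132970) (nat_lit 0) (nat_lit 13020469334) (nat_lit 10) (nat_lit 5) (nat_lit 12) (nat_lit 4) (nat_lit 10) (nat_lit 4) (nat_lit 358) (nat_lit 310) (nat_lit 232)) (XT.nd (nat_lit 78) (nat_lit 76) (nat_lit 0) (XT.lf (nat_lit 0) (nat_lit 63598424101) (nat_lit 152) (nat_lit 10910024005) (nat_lit 0) (nat_lit 32760056100) (nat_lit 10) (nat_lit 5) (nat_lit 12) (nat_lit 4) (nat_lit 10) (nat_lit 4) (nat_lit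 359) (nat_lit 310) (nat_lit 231)) (XT.lf (nat_lit 0) (nat_lit 25938159788) (nat_lit 76) (nat_lit 59602377193) (nat_lit 76) (nat_lit 28758769860) (nat_lit 9) (nat_lit 4) (nat_lit 10) (nat_lit 5) (nat_lit 10) (nat_lit 4) (nat_lit 360) (nat_lit 310) (nat_lit 230)))))) (XT.nd (nat_lit 390) (nat_lit 76) (nat_lit 0) (XT.nd (nat_lit 156) (nat_lit 76) (nat_lit 0) (XT.nd (nat_lit 78) (nat_lit 76) (nat_lit 0) (XT.lf (nat_lit 0) (nat_lit 66342199015) (nat_lit 76) (nat_lit 43187740526) (nat_lit 76) (nat_lit 12339281961) (nat_lit 9) (nat_lit 4) (nat_lit 10) (nat_lit 5) (nat_lit 10) (nat_lit 4) (nat_lit 361) (nat_lit 310) (nat_lit 229)) (XT.lf (nat_lit 0) (nat_lit 5117886059) (nat_lit 152) (nat_lit 20207747443) (nat_lit 76) (nat_lit 104709204356) (nat_lit 8) (nat_lit 5) (nat_lit 10) (nat_lit 5) (nat_lit 9) (nat_lit 4) (nat_lit 362) (nat_lit 310) (nat_lit 228))) (XT.nd (nat_lit 78) (nat_lit 0) (nat_lit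 0) (XT.lf (nat_lit 0) (nat_lit 18532666993) (nat_lit 76) (nat_lit 5212417906) (nat_lit 152) (nat_lit 115047771795) (nat_lit 7) (nat_lit 5) (nat_lit 8) (nat_lit 5) (nat_lit 9) (nat_lit 4) (nat_lit 363) (nat_lit 310) (nat_lit 227)) (XT.nd (nat_lit 78) (nat_lit 0) (nat_lit 0) (XT.lf (nat_lit 0) (nat_lit 44820808810) (nat_lit 152) (nat_lit 87108196140) (nat_lit 0) (nat_lit 16245845233) (nat_lit 7) (nat_lit 5) (nat_lit 9) (nat_lit 4) (nat_lit 7) (nat_lit 4) (nat_lit 364) (nat_lit 310) (nat_lit 226)) (XT.lf (nat_lit 0) (nat_lit 67712811513) (nat_lit 152) (nat_lit 51449628701) (nat_lit 0) (nat_lit 39134546268) (nat_lit 7) (nat_lit 5) (nat_lit 9) (nat_lit 4) (nat_lit 7) (nat_lit 4) (nat_lit 365) (nat_lit 310) (nat_lit 225))))) (XT.nd (nat_lit 156) (nat_lit 0) (nat_lit 0) (XT.nd (nat_lit 78) (nat_lit 76) (nat_lit 0) (XT.lf (nat_lit 0) (nat_lit 92431390544) (nat_lit 152) (nat_lit 12947818576) (nat_lit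 0) (nat_lit 63850068200) (nat_lit 7) (nat_lit 5) (nat_lit 9) (nat_lit 4) (nat_lit 7) (nat_lit 4) (nat_lit 366) (nat_lit 310) (nat_lit 224)) (XT.lf (nat_lit 0) (nat_lit 30132755578) (nat_lit 76) (nat_lit 89714964290) (nat_lit 76) (nat_lit 61130811298) (nat_lit 6) (nat_lit 4) (nat_lit 7) (nat_lit 5) (nat_lit 7) (nat_lit 4) (nat_lit 367) (nat_lit 310) (nat_lit 223))) (XT.nd (nat_lit 78) (nat_lit 0) (nat_lit 0) (XT.lf (nat_lit 0) (nat_lit 77387607679) (nat_lit 76) (nat_lit 72419457801) (nat_lit 76) (nat_lit 43832683838) (nat_lit 6) (nat_lit 4) (nat_lit 7) (nat_lit 5) (nat_lit 7) (nat_lit 4) (nat_lit 368) (nat_lit 310) (nat_lit 222)) (XT.nd (nat_lit 78) (nat_lit 0) (nat_lit 0) (XT.lf (nat_lit 0) (nat_lit 128414957297) (nat_lit 76) (nat_lit 53744214068) (nat_lit 76) (nat_lit 25155013281) (nat_lit 6) (nat_lit 4) (nat_lit 7) (nat_lit 5) (nat_lit 7) (nat_lit 4) (nat_lit 369) (nat_lit 310) (nat_lit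 221)) (XT.lf (nat_lit 0) (nat_lit 183517188727) (nat_lit 76) (nat_lit 33578564982) (nat_lit 76) (nat_lit 4987117135) (nat_lit 6) (nat_lit 4) (nat_lit 7) (nat_lit 5) (nat_lit 7) (nat_lit 4) (nat_lit 370) (nat_lit 310) (nat_lit 220))))))))
noncomputable def xc128 : XT := (XT.nd (nat_lit 1404) (nat_lit 0) (nat_lit 0) (XT.nd (nat_lit 702) (nat_lit 152) (nat_lit 0) (XT.nd (nat_lit 312) (nat_lit 76) (nat_lit 0) (XT.nd (nat_lit 156) (nat_lit 0) (nat_lit 0) (XT.nd (nat_lit 78) (nat_lit 0) (nat_lit 0) (XT.lf (nat_lit 0) (nat_lit 4825064568) (nat_lit 76) (nat_lit 11241566693) (nat_lit 152) (nat_lit 221925106365) (nat_lit 4) (nat_lit 5) (nat_lit 5) (nat_lit 5) (nat_lit 6) (nat_lit 4) (nat_lit 371) (nat_lit 310) (nat_lit 219)) (XT.lf (nat_lit 0) (nat_lit 39923418120) (nat_lit 152) (nat_lit 201682334516) (nat_lit 0) (nat_lit 13446145019) (nat_lit 4) (nat_lit 5) (nat_lit 6) (nat_lit 4) (nat_lit 4)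 (nat_lit 4) (nat_lit 372) (nat_lit 310) (nat_lit 218))) (XT.nd (nat_lit 78) (nat_lit 0) (nat_lit 0) (XT.lf (nat_lit 0) (nat_lit 65977503444) (nat_lit 152) (nat_lit 167977688414) (nat_lit 0) (nat_lit 39498578687) (nat_lit 4) (nat_lit 5) (nat_lit 6) (nat_lit 4) (nat_lit 4) (nat_lit 4) (nat_lit 373) (nat_lit 310) (nat_lit 217)) (XT.lf (nat_lit 0) (nat_lit 94112921864) (nat_lit 152) (nat_lit 131582643569) (nat_lit 0) (nat_lit 67632467796) (nat_lit 4) (nat_lit 5) (nat_lit 6) (nat_lit 4) (nat_lit 4) (nat_lit 4) (nat_lit 374) (nat_lit 310) (nat_lit 216)))) (XT.nd (nat_lit 156) (nat_lit 76) (nat_lit 0) (XT.nd (nat_lit 78) (nat_lit 0) (nat_lit 0) (XT.lf (nat_lit 0) (nat_lit 124496401785) (nat_lit 152) (nat_lit 92281525639) (nat_lit 0) (nat_lit 98014531688) (nat_lit 4) (nat_lit 5) (nat_lit 6) (nat_lit 4) (nat_lit 4) (nat_lit 4) (nat_lit 375) (nat_lit 310) (nat_lit 215)) (XT.lf (nat_lit 0) (nat_lit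 157307993459) (nat_lit 152) (nat_lit 49841439112) (nat_lit 0) (nat_lit 130824812225) (nat_lit 4) (nat_lit 5) (nat_lit 6) (nat_lit 4) (nat_lit 4) (nat_lit 4) (nat_lit 376) (nat_lit 310) (nat_lit 214))) (XT.nd (nat_lit 78) (nat_lit 76) (nat_lit 0) (XT.lf (nat_lit 0) (nat_lit 192742135947) (nat_lit 152) (nat_lit 4010887177) (nat_lit 0) (nat_lit 166257740697) (nat_lit 4) (nat_lit 5) (nat_lit 6) (nat_lit 4) (nat_lit 4) (nat_lit 4) (nat_lit 377) (nat_lit 310) (nat_lit 213)) (XT.nd (nat_lit 78) (nat_lit 0) (nat_lit 0) (XT.lf (nat_lit 0) (nat_lit 47876705320) (nat_lit 76) (nat_lit 184283539948) (nat_lit 76) (nat_lit 157798020609) (nat_lit 3) (nat_lit 4) (nat_lit 4) (nat_lit 5) (nat_lit 4) (nat_lit 4) (nat_lit 378) (nat_lit 310) (nat_lit 212)) (XT.lf (nat_lit 0) (nat_lit 104139128781) (nat_lit 76) (nat_lit 170700198922) (nat_lit 76) (nat_lit 144213638759) (nat_lit 3) (nat_lit 4) (nat_lit 4) (nat_lit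 5) (nat_lit 4) (nat_lit 4) (nat_lit 379) (nat_lit 310) (nat_lit 211)))))) (XT.nd (nat_lit 312) (nat_lit 152) (nat_lit 0) (XT.nd (nat_lit 156) (nat_lit 0) (nat_lit 0) (XT.nd (nat_lit 78) (nat_lit 0) (nat_lit 0) (XT.lf (nat_lit 0) (nat_lit 164898583946) (nat_lit 76) (nat_lit 156032170938) (nat_lit 76) (nat_lit 129544647049) (nat_lit 3) (nat_lit 4) (nat_lit 4) (nat_lit 5) (nat_lit 4) (nat_lit 4) (nat_lit 380) (nat_lit 310) (nat_lit 210)) (XT.lf (nat_lit 0) (nat_lit 230515126848) (nat_lit 76) (nat_lit 140192534348) (nat_lit 76) (nat_lit 113704118121) (nat_lit 3) (nat_lit 4) (nat_lit 4) (nat_lit 5) (nat_lit 4) (nat_lit 4) (nat_lit 381) (nat_lit 310) (nat_lit 209))) (XT.nd (nat_lit 78) (nat_lit 0) (nat_lit 0) (XT.lf (nat_lit 0) (nat_lit 301377596258) (nat_lit 76) (nat_lit 123087424639) (nat_lit 76) (nat_lit 96598182173) (nat_lit 3) (nat_lit 4) (nat_lit 4) (nat_lit 5) (nat_lit 4) (nat_lit 4)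 (nat_lit 382) (nat_lit 310) (nat_lit 208)) (XT.lf (nat_lit 0) (nat_lit 377905917921) (nat_lit 76) (nat_lit 104615478198) (nat_lit 76) (nat_lit 78125470696) (nat_lit 3) (nat_lit 4) (nat_lit 4) (nat_lit 5) (nat_lit 4) (nat_lit 4) (nat_lit 383) (nat_lit 310) (nat_lit 207)))) (XT.nd (nat_lit 156) (nat_lit 152) (nat_lit 0) (XT.nd (nat_lit 78) (nat_lit 0) (nat_lit 0) (XT.lf (nat_lit 0) (nat_lit 460553593002) (nat_lit 76) (nat_lit 84667231639) (nat_lit 76) (nat_lit 58176515771) (nat_lit 3) (nat_lit 4) (nat_lit 4) (nat_lit 5) (nat_lit 4) (nat_lit 4) (nat_lit 384) (nat_lit 310) (nat_lit 206)) (XT.lf (nat_lit 0) (nat_lit 549810385503) (nat_lit 76) (nat_lit 63124473131) (nat_lit 76) (nat_lit 36633101367) (nat_lit 3) (nat_lit 4) (nat_lit 4) (nat_lit 5) (nat_lit 4) (nat_lit 4) (nat_lit 385) (nat_lit 310) (nat_lit 205))) (XT.nd (nat_lit 78) (nat_lit 152) (nat_lit 0) (XT.lf (nat_lit 0) (nat_lit 646205224563)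 (nat_lit 76) (nat_lit 39859541882) (nat_lit 76) (nat_lit 13367562807) (nat_lit 3) (nat_lit 4) (nat_lit 4) (nat_lit 5) (nat_lit 4) (nat_lit 4) (nat_lit 386) (nat_lit 310) (nat_lit 204)) (XT.nd (nat_lit 78) (nat_lit 76) (nat_lit 0) (XT.lf (nat_lit 0) (nat_lit 11169788497) (nat_lit 152) (nat_lit 3259381323) (nat_lit 76) (nat_lit 738834148549) (nat_lit 2) (nat_lit 5) (nat_lit 4) (nat_lit 5) (nat_lit 3) (nat_lit 4) (nat_lit 387) (nat_lit 310) (nat_lit 203)) (XT.lf (nat_lit 0) (nat_lit 38577290042) (nat_lit 152) (nat_lit 758618694332) (nat_lit 0) (nat_lit 14046677014) (nat_lit 1) (nat_lit 5) (nat_lit 3) (nat_lit 4) (nat_lit 1) (nat_lit 4) (nat_lit 388) (nat_lit 310) (nat_lit 202))))))) (XT.nd (nat_lit 702) (nat_lit 0) (nat_lit 0) (XT.nd (nat_lit 312) (nat_lit 0) (nat_lit 0) (XT.nd (nat_lit 156) (nat_lit 0) (nat_lit 0) (XT.nd (nat_lit 78) (nat_lit 0) (nat_lit 0) (XT.lf (nat_lit 0) (nat_lit 68642512659)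 (nat_lit 152) (nat_lit 761069176410) (nat_lit 0) (nat_lit 44111453240) (nat_lit 1) (nat_lit 5) (nat_lit 3) (nat_lit 4) (nat_lit 1) (nat_lit 4) (nat_lit 389) (nat_lit 310) (nat_lit 201)) (XT.lf (nat_lit 0) (nat_lit 101111939493) (nat_lit 152) (nat_lit 763717736673) (nat_lit 0) (nat_lit 76580466749) (nat_lit 1) (nat_lit 5) (nat_lit 3) (nat_lit 4) (nat_lit 1) (nat_lit 4) (nat_lit 390) (nat_lit 310) (nat_lit 200))) (XT.nd (nat_lit 78) (nat_lit 0) (nat_lit 0) (XT.lf (nat_lit 0) (nat_lit 136177981964) (nat_lit 152) (nat_lit 766580070292) (nat_lit 0) (nat_lit 111646126511) (nat_lit 1) (nat_lit 5) (nat_lit 3) (nat_lit 4) (nat_lit 1) (nat_lit 4) (nat_lit 391) (nat_lit 310) (nat_lit 199)) (XT.lf (nat_lit 0) (nat_lit 174048438841) (nat_lit 152) (nat_lit 769673139244) (nat_lit 0) (nat_lit 149516229028) (nat_lit 1) (nat_lit 5) (nat_lit 3) (nat_lit 4) (nat_lit 1) (nat_lit 4) (nat_lit 392) (nat_lit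 310) (nat_lit 198)))) (XT.nd (nat_lit 156) (nat_lit 0) (nat_lit 0) (XT.nd (nat_lit 78) (nat_lit 0) (nat_lit 0) (XT.lf (nat_lit 0) (nat_lit 214947727646) (nat_lit 152) (nat_lit 773015272827) (nat_lit 0) (nat_lit 190415189723) (nat_lit 1) (nat_lit 5) (nat_lit 3) (nat_lit 4) (nat_lit 1) (nat_lit 4) (nat_lit 393) (nat_lit 310) (nat_lit 197)) (XT.lf (nat_lit 0) (nat_lit 259118214536) (nat_lit 152) (nat_lit 776626276277) (nat_lit 0) (nat_lit 234585372806) (nat_lit 1) (nat_lit 5) (nat_lit 3) (nat_lit 4) (nat_lit 1) (nat_lit 4) (nat_lit 394) (nat_lit 310) (nat_lit 196))) (XT.nd (nat_lit 78) (nat_lit 0) (nat_lit 0) (XT.lf (nat_lit 0) (nat_lit 306821650544) (nat_lit 152) (nat_lit 780527548132) (nat_lit 0) (nat_lit 282288527512) (nat_lit 1) (nat_lit 5) (nat_lit 3) (nat_lit 4) (nat_lit 1) (nat_lit 4) (nat_lit 395) (nat_lit 310) (nat_lit 195)) (XT.nd (nat_lit 78) (nat_lit 0) (nat_lit 0) (XT.lf (nat_lit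 0) (nat_lit 358340722698) (nat_lit 152) (nat_lit 784742207041) (nat_lit 0) (nat_lit 333807339201) (nat_lit 1) (nat_lit 5) (nat_lit 3) (nat_lit 4) (nat_lit 1) (nat_lit 4) (nat_lit 396) (nat_lit 310) (nat_lit 194)) (XT.lf (nat_lit 0) (nat_lit 413980729204) (nat_lit 152) (nat_lit 789295228761) (nat_lit 0) (nat_lit 389447104535) (nat_lit 1) (nat_lit 5) (nat_lit 3) (nat_lit 4) (nat_lit 1) (nat_lit 4) (nat_lit 397) (nat_lit 310) (nat_lit 193)))))) (XT.nd (nat_lit 312) (nat_lit 0) (nat_lit 0) (XT.nd (nat_lit 156) (nat_lit 0) (nat_lit 0) (XT.nd (nat_lit 78) (nat_lit 0) (nat_lit 0) (XT.lf (nat_lit 0) (nat_lit 474071388617) (nat_lit 152) (nat_lit 794213594160) (nat_lit 0) (nat_lit 449537540642) (nat_lit 1) (nat_lit 5) (nat_lit 3) (nat_lit 4) (nat_lit 1) (nat_lit 4) (nat_lit 398) (nat_lit 310) (nat_lit 192)) (XT.lf (nat_lit 0) (nat_lit 538968793736) (nat_lit 152) (nat_lit 799526449108) (nat_lit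 0) (nat_lit 514434738996) (nat_lit 1) (nat_lit 5) (nat_lit 3) (nat_lit 4) (nat_lit 1) (nat_lit 4) (nat_lit 399) (nat_lit 310) (nat_lit 191))) (XT.nd (nat_lit 78) (nat_lit 0) (nat_lit 0) (XT.lf (nat_lit 0) (nat_lit 609057521776) (nat_lit 152) (nat_lit 805265277190) (nat_lit 0) (nat_lit 584523275586) (nat_lit 1) (nat_lit 5) (nat_lit 3) (nat_lit 4) (nat_lit 1) (nat_lit 4) (nat_lit 400) (nat_lit 310) (nat_lit 190)) (XT.lf (nat_lit 0) (nat_lit 684752913347) (nat_lit 152) (nat_lit 811464086275) (nat_lit 0) (nat_lit 660218489888) (nat_lit 1) (nat_lit 5) (nat_lit 3) (nat_lit 4) (nat_lit 1) (nat_lit 4) (nat_lit 401) (nat_lit 310) (nat_lit 189)))) (XT.nd (nat_lit 156) (nat_lit 0) (nat_lit 0) (XT.nd (nat_lit 78) (nat_lit 0) (nat_lit 0) (XT.lf (nat_lit 0) (nat_lit 766503533732) (nat_lit 152) (nat_lit 818159610048) (nat_lit 0) (nat_lit 741968946136) (nat_lit 1) (nat_lit 5) (nat_lit 3) (nat_lit 4)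 (nat_lit 1) (nat_lit 4) (nat_lit 402) (nat_lit 310) (nat_lit 188)) (XT.lf (nat_lit 0) (nat_lit 854793831053) (nat_lit 152) (nat_lit 825391525686) (nat_lit 0) (nat_lit 830259091478) (nat_lit 1) (nat_lit 5) (nat_lit 3) (nat_lit 4) (nat_lit 1) (nat_lit 4) (nat_lit 403) (nat_lit 310) (nat_lit 187))) (XT.nd (nat_lit 78) (nat_lit 0) (nat_lit 0) (XT.lf (nat_lit 0) (nat_lit 950147007071) (nat_lit 152) (nat_lit 833202688985) (nat_lit 0) (nat_lit 925612126775) (nat_lit 1) (nat_lit 5) (nat_lit 3) (nat_lit 4) (nat_lit 1) (nat_lit 4) (nat_lit 404) (nat_lit 310) (nat_lit 186)) (XT.nd (nat_lit 78) (nat_lit 0) (nat_lit 0) (XT.lf (nat_lit 0) (nat_lit 1053128117644) (nat_lit 152) (nat_lit 841639388321) (nat_lit 0) (nat_lit 1028593107051) (nat_lit 1) (nat_lit 5) (nat_lit 3) (nat_lit 4) (nat_lit 1) (nat_lit 4) (nat_lit 405) (nat_lit 310) (nat_lit 185)) (XT.lf (nat_lit 0) (nat_lit 1164347421205) (nat_lit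 152) (nat_lit 850751618949) (nat_lit 0) (nat_lit 1139812289966) (nat_lit 1) (nat_lit 5) (nat_lit 3) (nat_lit 4) (nat_lit 1) (nat_lit 4) (nat_lit 406) (nat_lit 310) (nat_lit 184))))))))
noncomputable def xc129 : XT := (XT.nd (nat_lit 40092) (nat_lit 0) (nat_lit 1900) (XT.nd (nat_lit 39390) (nat_lit 0) (nat_lit 4104) (XT.nd (nat_lit 312) (nat_lit 0) (nat_lit 0) (XT.nd (nat_lit 156) (nat_lit 0) (nat_lit 0) (XT.nd (nat_lit 78) (nat_lit 0) (nat_lit 0) (XT.lf (nat_lit 0) (nat_lit 1284463995109) (nat_lit 152) (nat_lit 860593379273) (nat_lit 0) (nat_lit 1259928752161) (nat_lit 1) (nat_lit 5) (nat_lit 3) (nat_lit 4) (nat_lit 1) (nat_lit 4) (nat_lit 407) (nat_lit 310) (nat_lit 183)) (XT.lf (nat_lit 0) (nat_lit 1414189641275) (nat_lit 152) (nat_lit 871222990835) (nat_lit 0) (nat_lit 1389654294893) (nat_lit 1) (nat_lit 5) (nat_lit 3) (nat_lit 4) (nat_lit 1) (nat_lit 4) (nat_lit 408) (nat_lit 310)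 (nat_lit 182))) (XT.nd (nat_lit 78) (nat_lit 0) (nat_lit 0) (XT.lf (nat_lit 0) (nat_lit 1554293104272) (nat_lit 152) (nat_lit 882703443926) (nat_lit 0) (nat_lit 1529757662118) (nat_lit 1) (nat_lit 5) (nat_lit 3) (nat_lit 4) (nat_lit 1) (nat_lit 4) (nat_lit 409) (nat_lit 310) (nat_lit 181)) (XT.lf (nat_lit 0) (nat_lit 1705604626846) (nat_lit 152) (nat_lit 895102770860) (nat_lit 0) (nat_lit 1681069096013) (nat_lit 1) (nat_lit 5) (nat_lit 3) (nat_lit 4) (nat_lit 1) (nat_lit 4) (nat_lit 410) (nat_lit 310) (nat_lit 180)))) (XT.nd (nat_lit 156) (nat_lit 0) (nat_lit 0) (XT.nd (nat_lit 78) (nat_lit 0) (nat_lit 0) (XT.lf (nat_lit 0) (nat_lit 1869020869869) (nat_lit 152) (nat_lit 908494449132) (nat_lit 0) (nat_lit 1844485256927) (nat_lit 1) (nat_lit 5) (nat_lit 3) (nat_lit 4) (nat_lit 1) (nat_lit 4) (nat_lit 411) (nat_lit 310) (nat_lit 179)) (XT.lf (nat_lit 0) (nat_lit 2045510225894) (nat_lit 152)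 (nat_lit 922957836833) (nat_lit 0) (nat_lit 2020974536924) (nat_lit 1) (nat_lit 5) (nat_lit 3) (nat_lit 4) (nat_lit 1) (nat_lit 4) (nat_lit 412) (nat_lit 310) (nat_lit 178))) (XT.nd (nat_lit 78) (nat_lit 0) (nat_lit 0) (XT.lf (nat_lit 0) (nat_lit 2236118557770) (nat_lit 152) (nat_lit 938578642928) (nat_lit 0) (nat_lit 2211582798405) (nat_lit 1) (nat_lit 5) (nat_lit 3) (nat_lit 4) (nat_lit 1) (nat_lit 4) (nat_lit 413) (nat_lit 310) (nat_lit 177)) (XT.nd (nat_lit 78) (nat_lit 0) (nat_lit 0) (XT.lf (nat_lit 0) (nat_lit 2441975396354) (nat_lit 152) (nat_lit 955449435158) (nat_lit 0) (nat_lit 2417439571808) (nat_lit 1) (nat_lit 5) (nat_lit 3) (nat_lit 4) (nat_lit 1) (nat_lit 4) (nat_lit 414) (nat_lit 310) (nat_lit 176)) (XT.lf (nat_lit 0) (nat_lit 2664300634023) (nat_lit 152) (nat_lit 973670188587) (nat_lit 0) (nat_lit 2639764749124) (nat_lit 1) (nat_lit 5) (nat_lit 3) (nat_lit 4) (nat_lit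 1) (nat_lit 4) (nat_lit 415) (nat_lit 310) (nat_lit 175)))))) (XT.nd (nat_lit 312) (nat_lit 228) (nat_lit 0) (XT.nd (nat_lit 156) (nat_lit 0) (nat_lit 76) (XT.nd (nat_lit 78) (nat_lit 0) (nat_lit 0) (XT.lf (nat_lit 0) (nat_lit 896677215) (nat_lit 532) (nat_lit 2045737960) (nat_lit 532) (nat_lit 2045737960) (nat_lit 58) (nat_lit 3) (nat_lit 65) (nat_lit 3) (nat_lit 65) (nat_lit 5) (nat_lit 311) (nat_lit 311) (nat_lit 278)) (XT.lf (nat_lit 76) (nat_lit 720460349) (nat_lit 0) (nat_lit 1836918277) (nat_lit 532) (nat_lit 7761584676) (nat_lit 59) (nat_lit 5) (nat_lit 58) (nat_lit 3) (nat_lit 65) (nat_lit 5) (nat_lit 312) (nat_lit 311) (nat_lit 277))) (XT.nd (nat_lit 78) (nat_lit 0) (nat_lit 0) (XT.lf (nat_lit 0) (nat_lit 3490529896) (nat_lit 456) (nat_lit 4638652748) (nat_lit 532) (nat_lit 2551311089) (nat_lit 59) (nat_lit 5) (nat_lit 65) (nat_lit 5) (nat_lit 66) (nat_lit 5) (nat_lit 313) (nat_lit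 311) (nat_lit 276)) (XT.lf (nat_lit 76) (nat_lit 661962950) (nat_lit 0) (nat_lit 3837288467) (nat_lit 532) (nat_lit 6571715480) (nat_lit 60) (nat_lit 5) (nat_lit 59) (nat_lit 5) (nat_lit 66) (nat_lit 5) (nat_lit 314) (nat_lit 311) (nat_lit 275)))) (XT.nd (nat_lit 156) (nat_lit 380) (nat_lit 0) (XT.nd (nat_lit 78) (nat_lit 0) (nat_lit 0) (XT.lf (nat_lit 0) (nat_lit 5679393894) (nat_lit 456) (nat_lit 4900219115) (nat_lit 532) (nat_lit 905893852) (nat_lit 60) (nat_lit 5) (nat_lit 66) (nat_lit 5) (nat_lit 67) (nat_lit 5) (nat_lit 315) (nat_lit 311) (nat_lit 274)) (XT.lf (nat_lit 76) (nat_lit 955123594) (nat_lit 0) (nat_lit 6067213913) (nat_lit 532) (nat_lit 4905481713) (nat_lit 61) (nat_lit 5) (nat_lit 60) (nat_lit 5) (nat_lit 67) (nat_lit 5) (nat_lit 316) (nat_lit 311) (nat_lit 273))) (XT.nd (nat_lit 78) (nat_lit 380) (nat_lit 0) (XT.lf (nat_lit 76) (nat_lit 7516389023) (nat_lit 0) (nat_lit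 1039085517) (nat_lit 532) (nat_lit 3843495816) (nat_lit 61) (nat_lit 5) (nat_lit 60) (nat_lit 5) (nat_lit 67) (nat_lit 5) (nat_lit 317) (nat_lit 311) (nat_lit 272)) (XT.nd (nat_lit 78) (nat_lit 0) (nat_lit 0) (XT.lf (nat_lit 0) (nat_lit 1628368460) (nat_lit 456) (nat_lit 8680462151) (nat_lit 532) (nat_lit 2591246434) (nat_lit 55) (nat_lit 5) (nat_lit 61) (nat_lit 5) (nat_lit 62) (nat_lit 5) (nat_lit 318) (nat_lit 311) (nat_lit 271)) (XT.lf (nat_lit 0) (nat_lit 8868308879) (nat_lit 456) (nat_lit 3449252712) (nat_lit 532) (nat_lit 1114565971) (nat_lit 55) (nat_lit 5) (nat_lit 61) (nat_lit 5) (nat_lit 62) (nat_lit 5) (nat_lit 319) (nat_lit 311) (nat_lit 270))))))) (XT.nd (nat_lit 702) (nat_lit 836) (nat_lit 0) (XT.nd (nat_lit 312) (nat_lit 684) (nat_lit 0) (XT.nd (nat_lit 156) (nat_lit 228) (nat_lit 0) (XT.nd (nat_lit 78) (nat_lit 0) (nat_lit 0) (XT.lf (nat_lit 0) (nat_lit 535258147) (nat_lit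 456) (nat_lit 11291769770) (nat_lit 76) (nat_lit 2172522248) (nat_lit 49) (nat_lit 5) (nat_lit 55) (nat_lit 5) (nat_lit 50) (nat_lit 5) (nat_lit 320) (nat_lit 311) (nat_lit 269)) (XT.lf (nat_lit 0) (nat_lit 2434174726) (nat_lit 456) (nat_lit 3946182825) (nat_lit 76) (nat_lit 8215557931) (nat_lit 49) (nat_lit 5) (nat_lit 55) (nat_lit 5) (nat_lit 50) (nat_lit 5) (nat_lit 321) (nat_lit 311) (nat_lit 268))) (XT.nd (nat_lit 78) (nat_lit 0) (nat_lit 0) (XT.lf (nat_lit 0) (nat_lit 4155409610) (nat_lit 228) (nat_lit 392224443) (nat_lit 304) (nat_lit 10687392517) (nat_lit 46) (nat_lit 5) (nat_lit 49) (nat_lit 5) (nat_lit 50) (nat_lit 5) (nat_lit 322) (nat_lit 311) (nat_lit 267)) (XT.lf (nat_lit 0) (nat_lit 7051427124) (nat_lit 304) (nat_lit 2977307493) (nat_lit 76) (nat_lit 5878874792) (nat_lit 46) (nat_lit 5) (nat_lit 50) (nat_lit 5) (nat_lit 47) (nat_lit 5) (nat_lit 323) (nat_lit 311) (nat_lit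 266)))) (XT.nd (nat_lit 156) (nat_lit 456) (nat_lit 0) (XT.nd (nat_lit 78) (nat_lit 0) (nat_lit 0) (XT.lf (nat_lit 0) (nat_lit 6026194914) (nat_lit 228) (nat_lit 3851535362) (nat_lit 304) (nat_lit 6746532278) (nat_lit 43) (nat_lit 5) (nat_lit 46) (nat_lit 5) (nat_lit 47) (nat_lit 5) (nat_lit 324) (nat_lit 311) (nat_lit 265)) (XT.lf (nat_lit 0) (nat_lit 13049961678) (nat_lit 304) (nat_lit 1582062283) (nat_lit 76) (nat_lit 2756675298) (nat_lit 43) (nat_lit 5) (nat_lit 47) (nat_lit 5) (nat_lit 44) (nat_lit 5) (nat_lit 325) (nat_lit 311) (nat_lit 264))) (XT.nd (nat_lit 78) (nat_lit 304) (nat_lit 0) (XT.lf (nat_lit 0) (nat_lit 8440665521) (nat_lit 152) (nat_lit 8309165924) (nat_lit 228) (nat_lit 1442585140) (nat_lit 41) (nat_lit 5) (nat_lit 43) (nat_lit 5) (nat_lit 44) (nat_lit 5) (nat_lit 326) (nat_lit 311) (nat_lit 263)) (XT.nd (nat_lit 78) (nat_lit 0) (nat_lit 0) (XT.lf (nat_lit 0) (nat_lit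 230741398) (nat_lit 228) (nat_lit 1391510971) (nat_lit 304) (nat_lit 17433262327) (nat_lit 37) (nat_lit 5) (nat_lit 40) (nat_lit 5) (nat_lit 41) (nat_lit 5) (nat_lit 327) (nat_lit 311) (nat_lit 262)) (XT.lf (nat_lit 0) (nat_lit 5246504069) (nat_lit 304) (nat_lit 8628931555) (nat_lit 76) (nat_lit 6077881680) (nat_lit 37) (nat_lit 5) (nat_lit 41) (nat_lit 5) (nat_lit 38) (nat_lit 5) (nat_lit 328) (nat_lit 311) (nat_lit 261)))))) (XT.nd (nat_lit 312) (nat_lit 456) (nat_lit 0) (XT.nd (nat_lit 156) (nat_lit 228) (nat_lit 0) (XT.nd (nat_lit 78) (nat_lit 0) (nat_lit 0) (XT.lf (nat_lit 0) (nat_lit 2432549424) (nat_lit 152) (nat_lit 6797232460) (nat_lit 228) (nat_lit 11687660694) (nat_lit 35) (nat_lit 5) (nat_lit 37) (nat_lit 5) (nat_lit 38) (nat_lit 5) (nat_lit 329) (nat_lit 311) (nat_lit 260)) (XT.lf (nat_lit 0) (nat_lit 13769410986) (nat_lit 228) (nat_lit 7133052798) (nat_lit 76) (nat_lit 1037242427)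 (nat_lit 35) (nat_lit 5) (nat_lit 38) (nat_lit 5) (nat_lit 36) (nat_lit 5) (nat_lit 330) (nat_lit 311) (nat_lit 259))) (XT.nd (nat_lit 78) (nat_lit 76) (nat_lit 0) (XT.lf (nat_lit 0) (nat_lit 5175574138) (nat_lit 152) (nat_lit 13774748315) (nat_lit 228) (nat_lit 4071201242) (nat_lit 33) (nat_lit 5) (nat_lit 35) (nat_lit 5) (nat_lit 36) (nat_lit 5) (nat_lit 331) (nat_lit 311) (nat_lit 258)) (XT.lf (nat_lit 0) (nat_lit 515520846) (nat_lit 228) (nat_lit 5347420441) (nat_lit 76) (nat_lit 18312079304) (nat_lit 32) (nat_lit 5) (nat_lit 35) (nat_lit 5) (nat_lit 33) (nat_lit 5) (nat_lit 332) (nat_lit 311) (nat_lit 257)))) (XT.nd (nat_lit 156) (nat_lit 304) (nat_lit 0) (XT.nd (nat_lit 78) (nat_lit 0) (nat_lit 0) (XT.lf (nat_lit 0) (nat_lit 5503444869) (nat_lit 228) (nat_lit 17034367674) (nat_lit 76) (nat_lit 2854205117) (nat_lit 30) (nat_lit 5) (nat_lit 33) (nat_lit 5) (nat_lit 31) (nat_lit 5)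 (nat_lit 333) (nat_lit 311) (nat_lit 256)) (XT.lf (nat_lit 0) (nat_lit 11172325088) (nat_lit 228) (nat_lit 3419635498) (nat_lit 76) (nat_lit 12091876096) (nat_lit 30) (nat_lit 5) (nat_lit 33) (nat_lit 5) (nat_lit 31) (nat_lit 5) (nat_lit 334) (nat_lit 311) (nat_lit 255))) (XT.nd (nat_lit 78) (nat_lit 152) (nat_lit 0) (XT.lf (nat_lit 0) (nat_lit 11847183786) (nat_lit 152) (nat_lit 5713598217) (nat_lit 228) (nat_lit 10496948702) (nat_lit 28) (nat_lit 5) (nat_lit 30) (nat_lit 5) (nat_lit 31) (nat_lit 5) (nat_lit 335) (nat_lit 311) (nat_lit 254)) (XT.nd (nat_lit 78) (nat_lit 152) (nat_lit 0) (XT.lf (nat_lit 0) (nat_lit 24631018371) (nat_lit 228) (nat_lit 1130042073) (nat_lit 76) (nat_lit 3766833266) (nat_lit 28) (nat_lit 5) (nat_lit 31) (nat_lit 5) (nat_lit 29) (nat_lit 4) (nat_lit 336) (nat_lit 311) (nat_lit 253)) (XT.lf (nat_lit 0) (nat_lit 1617471093) (nat_lit 152) (nat_lit 15346388360)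 (nat_lit 76) (nat_lit 14107698712) (nat_lit 26) (nat_lit 5) (nat_lit 28) (nat_lit 5) (nat_lit 27) (nat_lit 5) (nat_lit 337) (nat_lit 311) (nat_lit 252))))))))
noncomputable def xc130 : XT := (XT.nd (nat_lit 1404) (nat_lit 608) (nat_lit 0) (XT.nd (nat_lit 702) (nat_lit 456) (nat_lit 0) (XT.nd (nat_lit 312) (nat_lit 380) (nat_lit 0) (XT.nd (nat_lit 156) (nat_lit 76) (nat_lit 0) (XT.nd (nat_lit 78) (nat_lit 0) (nat_lit 0) (XT.lf (nat_lit 0) (nat_lit 1158642016) (nat_lit 152) (nat_lit 7272444957) (nat_lit 228) (nat_lit 24294049930) (nat_lit 24) (nat_lit 5) (nat_lit 26) (nat_lit 5) (nat_lit 27) (nat_lit 5) (nat_lit 338) (nat_lit 311) (nat_lit 251)) (XT.lf (nat_lit 0) (nat_lit 16280548846) (nat_lit 228) (nat_lit 14736796000) (nat_lit 76) (nat_lit 3454406619) (nat_lit 24) (nat_lit 5) (nat_lit 27) (nat_lit 5) (nat_lit 25) (nat_lit 4) (nat_lit 339) (nat_lit 311) (nat_lit 250))) (XT.nd (nat_lit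 78) (nat_lit 0) (nat_lit 0) (XT.lf (nat_lit 0) (nat_lit 3393786388) (nat_lit 76) (nat_lit 21619361466) (nat_lit 152) (nat_lit 11324542239) (nat_lit 23) (nat_lit 5) (nat_lit 24) (nat_lit 5) (nat_lit 25) (nat_lit 4) (nat_lit 340) (nat_lit 311) (nat_lit 249)) (XT.lf (nat_lit 0) (nat_lit 23787208899) (nat_lit 76) (nat_lit 11045258694) (nat_lit 152) (nat_lit 3489395821) (nat_lit 23) (nat_lit 5) (nat_lit 24) (nat_lit 5) (nat_lit 25) (nat_lit 4) (nat_lit 341) (nat_lit 311) (nat_lit 248)))) (XT.nd (nat_lit 156) (nat_lit 152) (nat_lit 0) (XT.nd (nat_lit 78) (nat_lit 0) (nat_lit 0) (XT.lf (nat_lit 0) (nat_lit 4856746825) (nat_lit 228) (nat_lit 34983899504) (nat_lit 76) (nat_lit 603929869) (nat_lit 20) (nat_lit 5) (nat_lit 23) (nat_lit 5) (nat_lit 21) (nat_lit 4) (nat_lit 342) (nat_lit 311) (nat_lit 247)) (XT.lf (nat_lit 0) (nat_lit 14362814317) (nat_lit 228) (nat_lit 15235699422) (nat_lit 76) (nat_lit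 13076888307) (nat_lit 20) (nat_lit 5) (nat_lit 23) (nat_lit 5) (nat_lit 21) (nat_lit 4) (nat_lit 343) (nat_lit 311) (nat_lit 246))) (XT.nd (nat_lit 78) (nat_lit 76) (nat_lit 0) (XT.lf (nat_lit 0) (nat_lit 6389023438) (nat_lit 76) (nat_lit 18381163114) (nat_lit 152) (nat_lit 20303248203) (nat_lit 19) (nat_lit 5) (nat_lit 20) (nat_lit 5) (nat_lit 21) (nat_lit 4) (nat_lit 344) (nat_lit 311) (nat_lit 245)) (XT.nd (nat_lit 78) (nat_lit 76) (nat_lit 0) (XT.lf (nat_lit 0) (nat_lit 30587834507) (nat_lit 76) (nat_lit 5826461439) (nat_lit 152) (nat_lit 11216688214) (nat_lit 19) (nat_lit 5) (nat_lit 20) (nat_lit 5) (nat_lit 21) (nat_lit 4) (nat_lit 345) (nat_lit 311) (nat_lit 244)) (XT.lf (nat_lit 0) (nat_lit 6444413239) (nat_lit 76) (nat_lit 42874754175) (nat_lit 76) (nat_lit 1047636875) (nat_lit 18) (nat_lit 4) (nat_lit 19) (nat_lit 5) (nat_lit 19) (nat_lit 4) (nat_lit 346) (nat_lit 311) (nat_lit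 243)))))) (XT.nd (nat_lit 312) (nat_lit 304) (nat_lit 0) (XT.nd (nat_lit 156) (nat_lit 0) (nat_lit 0) (XT.nd (nat_lit 78) (nat_lit 76) (nat_lit 0) (XT.lf (nat_lit 0) (nat_lit 10055725256) (nat_lit 152) (nat_lit 20927828813) (nat_lit 76) (nat_lit 22269403975) (nat_lit 17) (nat_lit 5) (nat_lit 19) (nat_lit 5) (nat_lit 18) (nat_lit 4) (nat_lit 347) (nat_lit 311) (nat_lit 242)) (XT.lf (nat_lit 0) (nat_lit 4062414404) (nat_lit 76) (nat_lit 18015249385) (nat_lit 152) (nat_lit 34283215156) (nat_lit 16) (nat_lit 5) (nat_lit 17) (nat_lit 5) (nat_lit 18) (nat_lit 4) (nat_lit 348) (nat_lit 311) (nat_lit 241))) (XT.nd (nat_lit 78) (nat_lit 0) (nat_lit 0) (XT.lf (nat_lit 0) (nat_lit 32222673747) (nat_lit 76) (nat_lit 3400426750) (nat_lit 152) (nat_lit 24049397568) (nat_lit 16) (nat_lit 5) (nat_lit 17) (nat_lit 5) (nat_lit 18) (nat_lit 4) (nat_lit 349) (nat_lit 311) (nat_lit 240)) (XT.lf (nat_lit 0)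 (nat_lit 50540112839) (nat_lit 152) (nat_lit 929649499) (nat_lit 0) (nat_lit 11756252823) (nat_lit 16) (nat_lit 5) (nat_lit 18) (nat_lit 4) (nat_lit 16) (nat_lit 4) (nat_lit 350) (nat_lit 311) (nat_lit 239)))) (XT.nd (nat_lit 156) (nat_lit 152) (nat_lit 0) (XT.nd (nat_lit 78) (nat_lit 0) (nat_lit 0) (XT.lf (nat_lit 0) (nat_lit 405628259) (nat_lit 152) (nat_lit 37951464561) (nat_lit 76) (nat_lit 28643656865) (nat_lit 14) (nat_lit 5) (nat_lit 16) (nat_lit 5) (nat_lit 15) (nat_lit 4) (nat_lit 351) (nat_lit 311) (nat_lit 238)) (XT.lf (nat_lit 0) (nat_lit 13876081170) (nat_lit 152) (nat_lit 9943395954) (nat_lit 76) (nat_lit 47230271019) (nat_lit 14) (nat_lit 5) (nat_lit 16) (nat_lit 5) (nat_lit 15) (nat_lit 4) (nat_lit 352) (nat_lit 311) (nat_lit 237))) (XT.nd (nat_lit 78) (nat_lit 76) (nat_lit 0) (XT.lf (nat_lit 0) (nat_lit 21357789041) (nat_lit 76) (nat_lit 7571601087) (nat_lit 152) (nat_lit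 46452861485) (nat_lit 13) (nat_lit 5) (nat_lit 14) (nat_lit 5) (nat_lit 15) (nat_lit 4) (nat_lit 353) (nat_lit 311) (nat_lit 236)) (XT.nd (nat_lit 78) (nat_lit 76) (nat_lit 0) (XT.lf (nat_lit 0) (nat_lit 45697460214) (nat_lit 152) (nat_lit 24574043773) (nat_lit 0) (nat_lit 9749014177) (nat_lit 13) (nat_lit 5) (nat_lit 15) (nat_lit 4) (nat_lit 13) (nat_lit 4) (nat_lit 354) (nat_lit 311) (nat_lit 235)) (XT.lf (nat_lit 0) (nat_lit 7390629189) (nat_lit 76) (nat_lit 56783015026) (nat_lit 76) (nat_lit 20826870692) (nat_lit 12) (nat_lit 4) (nat_lit 13) (nat_lit 5) (nat_lit 13) (nat_lit 4) (nat_lit 355) (nat_lit 311) (nat_lit 234))))))) (XT.nd (nat_lit 702) (nat_lit 228) (nat_lit 0) (XT.nd (nat_lit 312) (nat_lit 228) (nat_lit 0) (XT.nd (nat_lit 156) (nat_lit 76) (nat_lit 0) (XT.nd (nat_lit 78) (nat_lit 76) (nat_lit 0) (XT.lf (nat_lit 0) (nat_lit 43295575332) (nat_lit 76) (nat_lit 41496730006)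 (nat_lit 76) (nat_lit 5533457619) (nat_lit 12) (nat_lit 4) (nat_lit 13) (nat_lit 5) (nat_lit 13) (nat_lit 4) (nat_lit 356) (nat_lit 311) (nat_lit 233)) (XT.lf (nat_lit 0) (nat_lit 10426851476) (nat_lit 152) (nat_lit 14282021365) (nat_lit 76) (nat_lit 71347599037) (nat_lit 11) (nat_lit 5) (nat_lit 13) (nat_lit 5) (nat_lit 12) (nat_lit 4) (nat_lit 357) (nat_lit 311) (nat_lit 232))) (XT.nd (nat_lit 78) (nat_lit 0) (nat_lit 0) (XT.lf (nat_lit 0) (nat_lit 22031647243) (nat_lit 76) (nat_lit 5856636812) (nat_lit 152) (nat_lit 74303997143) (nat_lit 10) (nat_lit 5) (nat_lit 11) (nat_lit 5) (nat_lit 12) (nat_lit 4) (nat_lit 358) (nat_lit 311) (nat_lit 231)) (XT.lf (nat_lit 0) (nat_lit 47489520625) (nat_lit 152) (nat_lit 47096819701) (nat_lit 0) (nat_lit 14173185374) (nat_lit 10) (nat_lit 5) (nat_lit 12) (nat_lit 4) (nat_lit 10) (nat_lit 4) (nat_lit 359) (nat_lit 311) (nat_lit 230)))) (XT.nd (nat_lit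 156) (nat_lit 152) (nat_lit 0) (XT.nd (nat_lit 78) (nat_lit 76) (nat_lit 0) (XT.lf (nat_lit 0) (nat_lit 68804897528) (nat_lit 152) (nat_lit 11551859346) (nat_lit 0) (nat_lit 35483711044) (nat_lit 10) (nat_lit 5) (nat_lit 12) (nat_lit 4) (nat_lit 10) (nat_lit 4) (nat_lit 360) (nat_lit 311) (nat_lit 229)) (XT.lf (nat_lit 0) (nat_lit 28238331895) (nat_lit 76) (nat_lit 64260676520) (nat_lit 76) (nat_lit 30934998154) (nat_lit 9) (nat_lit 4) (nat_lit 10) (nat_lit 5) (nat_lit 10) (nat_lit 4) (nat_lit 361) (nat_lit 311) (nat_lit 228))) (XT.nd (nat_lit 78) (nat_lit 152) (nat_lit 0) (XT.lf (nat_lit 0) (nat_lit 71858018756) (nat_lit 76) (nat_lit 46541008983) (nat_lit 76) (nat_lit 13211171466) (nat_lit 9) (nat_lit 4) (nat_lit 10) (nat_lit 5) (nat_lit 10) (nat_lit 4) (nat_lit 362) (nat_lit 311) (nat_lit 227)) (XT.nd (nat_lit 78) (nat_lit 76) (nat_lit 0) (XT.lf (nat_lit 0) (nat_lit 5628694376) (nat_lit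 152) (nat_lit 21626004277) (nat_lit 76) (nat_lit 113174794969) (nat_lit 8) (nat_lit 5) (nat_lit 10) (nat_lit 5) (nat_lit 9) (nat_lit 4) (nat_lit 363) (nat_lit 311) (nat_lit 226)) (XT.lf (nat_lit 0) (nat_lit 20208621467) (nat_lit 76) (nat_lit 5534588076) (nat_lit 152) (nat_lit 124145174751) (nat_lit 7) (nat_lit 5) (nat_lit 8) (nat_lit 5) (nat_lit 9) (nat_lit 4) (nat_lit 364) (nat_lit 311) (nat_lit 225)))))) (XT.nd (nat_lit 312) (nat_lit 152) (nat_lit 0) (XT.nd (nat_lit 156) (nat_lit 76) (nat_lit 0) (XT.nd (nat_lit 78) (nat_lit 0) (nat_lit 0) (XT.lf (nat_lit 0) (nat_lit 48499805323) (nat_lit 152) (nat_lit 93892628175) (nat_lit 0) (nat_lit 17628920091) (nat_lit 7) (nat_lit 5) (nat_lit 9) (nat_lit 4) (nat_lit 7) (nat_lit 4) (nat_lit 365) (nat_lit 311) (nat_lit 224)) (XT.lf (nat_lit 0) (nat_lit 73216254775) (nat_lit 152) (nat_lit 55395021537) (nat_lit 0) (nat_lit 42342538895) (nat_lit 7) (nat_lit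 5) (nat_lit 9) (nat_lit 4) (nat_lit 7) (nat_lit 4) (nat_lit 366) (nat_lit 311) (nat_lit 223))) (XT.nd (nat_lit 78) (nat_lit 76) (nat_lit 0) (XT.lf (nat_lit 0) (nat_lit 99905918770) (nat_lit 152) (nat_lit 13825701970) (nat_lit 0) (nat_lit 69029581920) (nat_lit 7) (nat_lit 5) (nat_lit 9) (nat_lit 4) (nat_lit 7) (nat_lit 4) (nat_lit 367) (nat_lit 311) (nat_lit 222)) (XT.lf (nat_lit 0) (nat_lit 32697319583) (nat_lit 76) (nat_lit 96816010020) (nat_lit 76) (nat_lit 65937246346) (nat_lit 6) (nat_lit 4) (nat_lit 7) (nat_lit 5) (nat_lit 7) (nat_lit 4) (nat_lit 368) (nat_lit 311) (nat_lit 221)))) (XT.nd (nat_lit 156) (nat_lit 152) (nat_lit 0) (XT.nd (nat_lit 78) (nat_lit 0) (nat_lit 0) (XT.lf (nat_lit 0) (nat_lit 83721156625) (nat_lit 76) (nat_lit 78142503857) (nat_lit 76) (nat_lit 47261493123) (nat_lit 6) (nat_lit 4) (nat_lit 7) (nat_lit 5) (nat_lit 7) (nat_lit 4) (nat_lit 369) (nat_lit 311) (nat_lit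 220)) (XT.lf (nat_lit 0) (nat_lit 138820135670) (nat_lit 76) (nat_lit 57978463631) (nat_lit 76) (nat_lit 27095372286) (nat_lit 6) (nat_lit 4) (nat_lit 7) (nat_lit 5) (nat_lit 7) (nat_lit 4) (nat_lit 370) (nat_lit 311) (nat_lit 219))) (XT.nd (nat_lit 78) (nat_lit 152) (nat_lit 0) (XT.lf (nat_lit 0) (nat_lit 198320769185) (nat_lit 76) (nat_lit 36204398733) (nat_lit 76) (nat_lit 5319380897) (nat_lit 6) (nat_lit 4) (nat_lit 7) (nat_lit 5) (nat_lit 7) (nat_lit 4) (nat_lit 371) (nat_lit 311) (nat_lit 218)) (XT.nd (nat_lit 78) (nat_lit 0) (nat_lit 0) (XT.lf (nat_lit 0) (nat_lit 5333443966) (nat_lit 76) (nat_lit 12080135644) (nat_lit 152) (nat_lit 239612557840) (nat_lit 4) (nat_lit 5) (nat_lit 5) (nat_lit 5) (nat_lit 6) (nat_lit 4) (nat_lit 372) (nat_lit 311) (nat_lit 217)) (XT.lf (nat_lit 0) (nat_lit 43175698088) (nat_lit 152) (nat_lit 217700391437) (nat_lit 0) (nat_lit 14575278384) (nat_lit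 4) (nat_lit 5) (nat_lit 6) (nat_lit 4) (nat_lit 4) (nat_lit 4) (nat_lit 373) (nat_lit 311) (nat_lit 216))))))))
noncomputable def xc131 : XT := (XT.nd (nat_lit 1404) (nat_lit 0) (nat_lit 0) (XT.nd (nat_lit 702) (nat_lit 152) (nat_lit 0) (XT.nd (nat_lit 312) (nat_lit 76) (nat_lit 0) (XT.nd (nat_lit 156) (nat_lit 0) (nat_lit 0) (XT.nd (nat_lit 78) (nat_lit 0) (nat_lit 0) (XT.lf (nat_lit 0) (nat_lit 71309783829) (nat_lit 152) (nat_lit 181308005488) (nat_lit 0) (nat_lit 42707948097) (nat_lit 4) (nat_lit 5) (nat_lit 6) (nat_lit 4) (nat_lit 4) (nat_lit 4) (nat_lit 374) (nat_lit 311) (nat_lit 215)) (XT.lf (nat_lit 0) (nat_lit 101692029789) (nat_lit 152) (nat_lit 142009349499) (nat_lit 0) (nat_lit 73088882918) (nat_lit 4) (nat_lit 5) (nat_lit 6) (nat_lit 4) (nat_lit 4) (nat_lit 4) (nat_lit 375) (nat_lit 311) (nat_lit 214))) (XT.nd (nat_lit 78) (nat_lit 0) (nat_lit 0) (XT.lf (nat_lit 0) (nat_lit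 134502478905) (nat_lit 152) (nat_lit 99571542546) (nat_lit 0) (nat_lit 105898118019) (nat_lit 4) (nat_lit 5) (nat_lit 6) (nat_lit 4) (nat_lit 4) (nat_lit 4) (nat_lit 376) (nat_lit 311) (nat_lit 213)) (XT.lf (nat_lit 0) (nat_lit 169935563470) (nat_lit 152) (nat_lit 53743101329) (nat_lit 0) (nat_lit 141330078494) (nat_lit 4) (nat_lit 5) (nat_lit 6) (nat_lit 4) (nat_lit 4) (nat_lit 4) (nat_lit 377) (nat_lit 311) (nat_lit 212)))) (XT.nd (nat_lit 156) (nat_lit 0) (nat_lit 0) (XT.nd (nat_lit 78) (nat_lit 76) (nat_lit 0) (XT.lf (nat_lit 0) (nat_lit 208201257319) (nat_lit 152) (nat_lit 4252449901) (nat_lit 0) (nat_lit 179594731519) (nat_lit 4) (nat_lit 5) (nat_lit 6) (nat_lit 4) (nat_lit 4) (nat_lit 4) (nat_lit 378) (nat_lit 311) (nat_lit 211)) (XT.lf (nat_lit 0) (nat_lit 51784142193) (nat_lit 76) (nat_lit 198987587789) (nat_lit 76) (nat_lit 170380098264) (nat_lit 3) (nat_lit 4) (nat_lit 4) (nat_lit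 5) (nat_lit 4) (nat_lit 4) (nat_lit 379) (nat_lit 311) (nat_lit 210))) (XT.nd (nat_lit 78) (nat_lit 0) (nat_lit 0) (XT.lf (nat_lit 0) (nat_lit 112541833571) (nat_lit 76) (nat_lit 184320441359) (nat_lit 76) (nat_lit 155712059496) (nat_lit 3) (nat_lit 4) (nat_lit 4) (nat_lit 5) (nat_lit 4) (nat_lit 4) (nat_lit 380) (nat_lit 311) (nat_lit 209)) (XT.nd (nat_lit 78) (nat_lit 0) (nat_lit 0) (XT.lf (nat_lit 0) (nat_lit 178156743336) (nat_lit 76) (nat_lit 168481621023) (nat_lit 76) (nat_lit 139872412921) (nat_lit 3) (nat_lit 4) (nat_lit 4) (nat_lit 5) (nat_lit 4) (nat_lit 4) (nat_lit 381) (nat_lit 311) (nat_lit 208)) (XT.lf (nat_lit 0) (nat_lit 249017700583) (nat_lit 76) (nat_lit 151377267105) (nat_lit 76) (nat_lit 122767293966) (nat_lit 3) (nat_lit 4) (nat_lit 4) (nat_lit 5) (nat_lit 4) (nat_lit 4) (nat_lit 382) (nat_lit 311) (nat_lit 207)))))) (XT.nd (nat_lit 312) (nat_lit 152) (nat_lit 0)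 (XT.nd (nat_lit 156) (nat_lit 0) (nat_lit 0) (XT.nd (nat_lit 78) (nat_lit 0) (nat_lit 0) (XT.lf (nat_lit 0) (nat_lit 325544622095) (nat_lit 76) (nat_lit 132906020470) (nat_lit 76) (nat_lit 104295338965) (nat_lit 3) (nat_lit 4) (nat_lit 4) (nat_lit 5) (nat_lit 4) (nat_lit 4) (nat_lit 383) (nat_lit 311) (nat_lit 206)) (XT.lf (nat_lit 0) (nat_lit 408191000740) (nat_lit 76) (nat_lit 112958421880) (nat_lit 76) (nat_lit 84347084480) (nat_lit 3) (nat_lit 4) (nat_lit 4) (nat_lit 5) (nat_lit 4) (nat_lit 4) (nat_lit 384) (nat_lit 311) (nat_lit 205))) (XT.nd (nat_lit 78) (nat_lit 0) (nat_lit 0) (XT.lf (nat_lit 0) (nat_lit 497446592837) (nat_lit 76) (nat_lit 91416263343) (nat_lit 76) (nat_lit 62804318632) (nat_lit 3) (nat_lit 4) (nat_lit 4) (nat_lit 5) (nat_lit 4) (nat_lit 4) (nat_lit 385) (nat_lit 311) (nat_lit 204)) (XT.lf (nat_lit 0) (nat_lit 593840320412) (nat_lit 76) (nat_lit 68151887623) (nat_lit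 76) (nat_lit 39539380587) (nat_lit 3) (nat_lit 4) (nat_lit 4) (nat_lit 5) (nat_lit 4) (nat_lit 4) (nat_lit 386) (nat_lit 311) (nat_lit 203)))) (XT.nd (nat_lit 156) (nat_lit 76) (nat_lit 0) (XT.nd (nat_lit 78) (nat_lit 76) (nat_lit 0) (XT.lf (nat_lit 0) (nat_lit 697943405555) (nat_lit 76) (nat_lit 43027431752) (nat_lit 76) (nat_lit 14414404046) (nat_lit 3) (nat_lit 4) (nat_lit 4) (nat_lit 5) (nat_lit 4) (nat_lit 4) (nat_lit 387) (nat_lit 311) (nat_lit 202)) (XT.lf (nat_lit 0) (nat_lit 12083218850) (nat_lit 152) (nat_lit 3480414600) (nat_lit 76) (nat_lit 797959159970) (nat_lit 2) (nat_lit 5) (nat_lit 4) (nat_lit 5) (nat_lit 3) (nat_lit 4) (nat_lit 388) (nat_lit 311) (nat_lit 201))) (XT.nd (nat_lit 78) (nat_lit 0) (nat_lit 0) (XT.lf (nat_lit 0) (nat_lit 41683248025) (nat_lit 152) (nat_lit 819268397715) (nat_lit 0) (nat_lit 15188844136) (nat_lit 1) (nat_lit 5) (nat_lit 3) (nat_lit 4) (nat_lit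 1) (nat_lit 4) (nat_lit 389) (nat_lit 311) (nat_lit 200)) (XT.nd (nat_lit 78) (nat_lit 0) (nat_lit 0) (XT.lf (nat_lit 0) (nat_lit 74152223652) (nat_lit 152) (nat_lit 821917865927) (nat_lit 0) (nat_lit 47657437055) (nat_lit 1) (nat_lit 5) (nat_lit 3) (nat_lit 4) (nat_lit 1) (nat_lit 4) (nat_lit 390) (nat_lit 311) (nat_lit 199)) (XT.lf (nat_lit 0) (nat_lit 109217848338) (nat_lit 152) (nat_lit 824781040240) (nat_lit 0) (nat_lit 82722707381) (nat_lit 1) (nat_lit 5) (nat_lit 3) (nat_lit 4) (nat_lit 1) (nat_lit 4) (nat_lit 391) (nat_lit 311) (nat_lit 198))))))) (XT.nd (nat_lit 702) (nat_lit 0) (nat_lit 0) (XT.nd (nat_lit 312) (nat_lit 0) (nat_lit 0) (XT.nd (nat_lit 156) (nat_lit 0) (nat_lit 0) (XT.nd (nat_lit 78) (nat_lit 0) (nat_lit 0) (XT.lf (nat_lit 0) (nat_lit 147087918378) (nat_lit 152) (nat_lit 827874887613) (nat_lit 0) (nat_lit 120592449310) (nat_lit 1) (nat_lit 5) (nat_lit 3) (nat_lit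 4) (nat_lit 1) (nat_lit 4) (nat_lit 392) (nat_lit 311) (nat_lit 197)) (XT.lf (nat_lit 0) (nat_lit 187986849001) (nat_lit 152) (nat_lit 831217741955) (nat_lit 0) (nat_lit 161491076126) (nat_lit 1) (nat_lit 5) (nat_lit 3) (nat_lit 4) (nat_lit 1) (nat_lit 4) (nat_lit 393) (nat_lit 311) (nat_lit 196))) (XT.nd (nat_lit 78) (nat_lit 0) (nat_lit 0) (XT.lf (nat_lit 0) (nat_lit 232157004240) (nat_lit 152) (nat_lit 834829412775) (nat_lit 0) (nat_lit 205660950063) (nat_lit 1) (nat_lit 5) (nat_lit 3) (nat_lit 4) (nat_lit 1) (nat_lit 4) (nat_lit 394) (nat_lit 311) (nat_lit 195)) (XT.lf (nat_lit 0) (nat_lit 279860133164) (nat_lit 152) (nat_lit 838731302566) (nat_lit 0) (nat_lit 253363818522) (nat_lit 1) (nat_lit 5) (nat_lit 3) (nat_lit 4) (nat_lit 1) (nat_lit 4) (nat_lit 395) (nat_lit 311) (nat_lit 194)))) (XT.nd (nat_lit 156) (nat_lit 0) (nat_lit 0) (XT.nd (nat_lit 78) (nat_lit 0) (nat_lit 0) (XT.lf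 (nat_lit 0) (nat_lit 331378920981) (nat_lit 152) (nat_lit 842946533637) (nat_lit 0) (nat_lit 304882365168) (nat_lit 1) (nat_lit 5) (nat_lit 3) (nat_lit 4) (nat_lit 1) (nat_lit 4) (nat_lit 396) (nat_lit 311) (nat_lit 193)) (XT.lf (nat_lit 0) (nat_lit 387018664212) (nat_lit 152) (nat_lit 847500085137) (nat_lit 0) (nat_lit 360521885092) (nat_lit 1) (nat_lit 5) (nat_lit 3) (nat_lit 4) (nat_lit 1) (nat_lit 4) (nat_lit 397) (nat_lit 311) (nat_lit 192))) (XT.nd (nat_lit 78) (nat_lit 0) (nat_lit 0) (XT.lf (nat_lit 0) (nat_lit 447109079853) (nat_lit 152) (nat_lit 852418941073) (nat_lit 0) (nat_lit 420612093967) (nat_lit 1) (nat_lit 5) (nat_lit 3) (nat_lit 4) (nat_lit 1) (nat_lit 4) (nat_lit 398) (nat_lit 311) (nat_lit 191)) (XT.nd (nat_lit 78) (nat_lit 0) (nat_lit 0) (XT.lf (nat_lit 0) (nat_lit 512006259256) (nat_lit 152) (nat_lit 857732250222) (nat_lit 0) (nat_lit 485509081921) (nat_lit 1) (nat_lit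 5) (nat_lit 3) (nat_lit 4) (nat_lit 1) (nat_lit 4) (nat_lit 399) (nat_lit 311) (nat_lit 190)) (XT.lf (nat_lit 0) (nat_lit 582094778299) (nat_lit 152) (nat_lit 863471498860) (nat_lit 0) (nat_lit 555597423696) (nat_lit 1) (nat_lit 5) (nat_lit 3) (nat_lit 4) (nat_lit 1) (nat_lit 4) (nat_lit 400) (nat_lit 311) (nat_lit 189)))))) (XT.nd (nat_lit 312) (nat_lit 0) (nat_lit 0) (XT.nd (nat_lit 156) (nat_lit 0) (nat_lit 0) (XT.nd (nat_lit 78) (nat_lit 0) (nat_lit 0) (XT.lf (nat_lit 0) (nat_lit 657789976355) (nat_lit 152) (nat_lit 869670697349) (nat_lit 0) (nat_lit 631292457615) (nat_lit 1) (nat_lit 5) (nat_lit 3) (nat_lit 4) (nat_lit 1) (nat_lit 4) (nat_lit 401) (nat_lit 311) (nat_lit 188)) (XT.lf (nat_lit 0) (nat_lit 739540417560) (nat_lit 152) (nat_lit 876366581681) (nat_lit 0) (nat_lit 713042746841) (nat_lit 1) (nat_lit 5) (nat_lit 3) (nat_lit 4) (nat_lit 1) (nat_lit 4) (nat_lit 402) (nat_lit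 311) (nat_lit 187))) (XT.nd (nat_lit 78) (nat_lit 0) (nat_lit 0) (XT.lf (nat_lit 0) (nat_lit 827830548973) (nat_lit 152) (nat_lit 883598831170) (nat_lit 0) (nat_lit 801332737532) (nat_lit 1) (nat_lit 5) (nat_lit 3) (nat_lit 4) (nat_lit 1) (nat_lit 4) (nat_lit 403) (nat_lit 311) (nat_lit 186)) (XT.lf (nat_lit 0) (nat_lit 923183571372) (nat_lit 152) (nat_lit 891410303591) (nat_lit 0) (nat_lit 896685629634) (nat_lit 1) (nat_lit 5) (nat_lit 3) (nat_lit 4) (nat_lit 1) (nat_lit 4) (nat_lit 404) (nat_lit 311) (nat_lit 185)))) (XT.nd (nat_lit 156) (nat_lit 0) (nat_lit 0) (XT.nd (nat_lit 78) (nat_lit 0) (nat_lit 0) (XT.lf (nat_lit 0) (nat_lit 1026164539706) (nat_lit 152) (nat_lit 899847289151) (nat_lit 0) (nat_lit 999666477322) (nat_lit 1) (nat_lit 5) (nat_lit 3) (nat_lit 4) (nat_lit 1) (nat_lit 4) (nat_lit 405) (nat_lit 311) (nat_lit 184)) (XT.lf (nat_lit 0) (nat_lit 1137383711564) (nat_lit 152)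 (nat_lit 908959784801) (nat_lit 0) (nat_lit 1110885537472) (nat_lit 1) (nat_lit 5) (nat_lit 3) (nat_lit 4) (nat_lit 1) (nat_lit 4) (nat_lit 406) (nat_lit 311) (nat_lit 183))) (XT.nd (nat_lit 78) (nat_lit 0) (nat_lit 0) (XT.lf (nat_lit 0) (nat_lit 1257500163521) (nat_lit 152) (nat_lit 918801790515) (nat_lit 0) (nat_lit 1231001885994) (nat_lit 1) (nat_lit 5) (nat_lit 3) (nat_lit 4) (nat_lit 1) (nat_lit 4) (nat_lit 407) (nat_lit 311) (nat_lit 182)) (XT.nd (nat_lit 78) (nat_lit 0) (nat_lit 0) (XT.lf (nat_lit 0) (nat_lit 1387225696772) (nat_lit 152) (nat_lit 929431629290) (nat_lit 0) (nat_lit 1360727323473) (nat_lit 1) (nat_lit 5) (nat_lit 3) (nat_lit 4) (nat_lit 1) (nat_lit 4) (nat_lit 408) (nat_lit 311) (nat_lit 181)) (XT.lf (nat_lit 0) (nat_lit 1527329055220) (nat_lit 152) (nat_lit 940912292764) (nat_lit 0) (nat_lit 1500830593243) (nat_lit 1) (nat_lit 5) (nat_lit 3) (nat_lit 4) (nat_lit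 1) (nat_lit 4) (nat_lit 409) (nat_lit 311) (nat_lit 180))))))))
noncomputable def xc132 : XT := (XT.nd (nat_lit 40170) (nat_lit 0) (nat_lit 1672) (XT.nd (nat_lit 39468) (nat_lit 0) (nat_lit 3420) (XT.nd (nat_lit 312) (nat_lit 0) (nat_lit 0) (XT.nd (nat_lit 156) (nat_lit 0) (nat_lit 0) (XT.nd (nat_lit 78) (nat_lit 0) (nat_lit 0) (XT.lf (nat_lit 0) (nat_lit 1678640480988) (nat_lit 152) (nat_lit 953311814498) (nat_lit 0) (nat_lit 1652141936901) (nat_lit 1) (nat_lit 5) (nat_lit 3) (nat_lit 4) (nat_lit 1) (nat_lit 4) (nat_lit 410) (nat_lit 311) (nat_lit 179)) (XT.lf (nat_lit 0) (nat_lit 1842056634376) (nat_lit 152) (nat_lit 966703673138) (nat_lit 0) (nat_lit 1815558014262) (nat_lit 1) (nat_lit 5) (nat_lit 3) (nat_lit 4) (nat_lit 1) (nat_lit 4) (nat_lit 411) (nat_lit 311) (nat_lit 178))) (XT.nd (nat_lit 78) (nat_lit 0) (nat_lit 0) (XT.lf (nat_lit 0) (nat_lit 2018545907406) (nat_lit 152) (nat_lit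 981167227848) (nat_lit 0) (nat_lit 1992047216896) (nat_lit 1) (nat_lit 5) (nat_lit 3) (nat_lit 4) (nat_lit 1) (nat_lit 4) (nat_lit 412) (nat_lit 311) (nat_lit 177)) (XT.lf (nat_lit 0) (nat_lit 2209154162435) (nat_lit 152) (nat_lit 996788188582) (nat_lit 0) (nat_lit 2182655406744) (nat_lit 1) (nat_lit 5) (nat_lit 3) (nat_lit 4) (nat_lit 1) (nat_lit 4) (nat_lit 413) (nat_lit 311) (nat_lit 176)))) (XT.nd (nat_lit 38922) (nat_lit 0) (nat_lit 4332) (XT.nd (nat_lit 78) (nat_lit 0) (nat_lit 0) (XT.lf (nat_lit 0) (nat_lit 2415010929864) (nat_lit 152) (nat_lit 1013659123994) (nat_lit 0) (nat_lit 2388512113820) (nat_lit 1) (nat_lit 5) (nat_lit 3) (nat_lit 4) (nat_lit 1) (nat_lit 4) (nat_lit 414) (nat_lit 311) (nat_lit 175)) (XT.lf (nat_lit 0) (nat_lit 2637336101648) (nat_lit 152) (nat_lit 1031880010000) (nat_lit 0) (nat_lit 2610837229722) (nat_lit 1) (nat_lit 5) (nat_lit 3) (nat_lit 4) (nat_lit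 1) (nat_lit 4) (nat_lit 415) (nat_lit 311) (nat_lit 174))) (XT.nd (nat_lit 78) (nat_lit 0) (nat_lit 0) (XT.lf (nat_lit 0) (nat_lit 1627141447) (nat_lit 532) (nat_lit 1853188927) (nat_lit 532) (nat_lit 1853188927) (nat_lit 58) (nat_lit 3) (nat_lit 65) (nat_lit 3) (nat_lit 65) (nat_lit 5) (nat_lit 312) (nat_lit 312) (nat_lit 276)) (XT.nd (nat_lit 78) (nat_lit 0) (nat_lit 76) (XT.lf (nat_lit 76) (nat_lit 1472477466) (nat_lit 0) (nat_lit 2526061785) (nat_lit 532) (nat_lit 7045186449) (nat_lit 59) (nat_lit 5) (nat_lit 58) (nat_lit 3) (nat_lit 65) (nat_lit 5) (nat_lit 313) (nat_lit 312) (nat_lit 275)) (XT.lf (nat_lit 0) (nat_lit 4902671039) (nat_lit 456) (nat_lit 4261435117) (nat_lit 532) (nat_lit 2278501620) (nat_lit 59) (nat_lit 5) (nat_lit 65) (nat_lit 5) (nat_lit 66) (nat_lit 5) (nat_lit 314) (nat_lit 312) (nat_lit 274)))))) (XT.nd (nat_lit 312) (nat_lit 988) (nat_lit 0) (XT.nd (nat_lit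 156) (nat_lit 0) (nat_lit 76) (XT.nd (nat_lit 78) (nat_lit 0) (nat_lit 76) (XT.lf (nat_lit 76) (nat_lit 1444285285) (nat_lit 0) (nat_lit 4481427825) (nat_lit 532) (nat_lit 5944041307) (nat_lit 60) (nat_lit 5) (nat_lit 59) (nat_lit 5) (nat_lit 66) (nat_lit 5) (nat_lit 315) (nat_lit 312) (nat_lit 273)) (XT.lf (nat_lit 0) (nat_lit 7113757407) (nat_lit 456) (nat_lit 4528936878) (nat_lit 532) (nat_lit 681800215) (nat_lit 60) (nat_lit 5) (nat_lit 66) (nat_lit 5) (nat_lit 67) (nat_lit 5) (nat_lit 316) (nat_lit 312) (nat_lit 272))) (XT.nd (nat_lit 78) (nat_lit 0) (nat_lit 0) (XT.lf (nat_lit 76) (nat_lit 1775509204) (nat_lit 0) (nat_lit 6733926458) (nat_lit 532) (nat_lit 4297239805) (nat_lit 61) (nat_lit 5) (nat_lit 60) (nat_lit 5) (nat_lit 67) (nat_lit 5) (nat_lit 317) (nat_lit 312) (nat_lit 271)) (XT.lf (nat_lit 76) (nat_lit 8806566554) (nat_lit 0) (nat_lit 1290115536) (nat_lit 532) (nat_lit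 3224419514) (nat_lit 61) (nat_lit 5) (nat_lit 60) (nat_lit 5) (nat_lit 67) (nat_lit 5) (nat_lit 318) (nat_lit 312) (nat_lit 270)))) (XT.nd (nat_lit 156) (nat_lit 684) (nat_lit 0) (XT.nd (nat_lit 78) (nat_lit 0) (nat_lit 0) (XT.lf (nat_lit 0) (nat_lit 2502020173) (nat_lit 456) (nat_lit 9438961462) (nat_lit 532) (nat_lit 1925353403) (nat_lit 55) (nat_lit 5) (nat_lit 61) (nat_lit 5) (nat_lit 62) (nat_lit 5) (nat_lit 319) (nat_lit 312) (nat_lit 269)) (XT.lf (nat_lit 0) (nat_lit 10266090474) (nat_lit 456) (nat_lit 3784509909) (nat_lit 532) (nat_lit 395219447) (nat_lit 55) (nat_lit 5) (nat_lit 61) (nat_lit 5) (nat_lit 62) (nat_lit 5) (nat_lit 320) (nat_lit 312) (nat_lit 268))) (XT.nd (nat_lit 78) (nat_lit 228) (nat_lit 0) (XT.lf (nat_lit 0) (nat_lit 1305948983) (nat_lit 456) (nat_lit 11424249700) (nat_lit 76) (nat_lit 2330170906) (nat_lit 49) (nat_lit 5) (nat_lit 55) (nat_lit 5) (nat_lit 50)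 (nat_lit 5) (nat_lit 321) (nat_lit 312) (nat_lit 267)) (XT.nd (nat_lit 78) (nat_lit 228) (nat_lit 0) (XT.lf (nat_lit 0) (nat_lit 3302862578) (nat_lit 456) (nat_lit 3548116662) (nat_lit 76) (nat_lit 8857845972) (nat_lit 49) (nat_lit 5) (nat_lit 55) (nat_lit 5) (nat_lit 50) (nat_lit 5) (nat_lit 322) (nat_lit 312) (nat_lit 266)) (XT.lf (nat_lit 0) (nat_lit 5183533275) (nat_lit 228) (nat_lit 368674250) (nat_lit 304) (nat_lit 10849575708) (nat_lit 46) (nat_lit 5) (nat_lit 49) (nat_lit 5) (nat_lit 50) (nat_lit 5) (nat_lit 323) (nat_lit 312) (nat_lit 265))))))) (XT.nd (nat_lit 702) (nat_lit 760) (nat_lit 0) (XT.nd (nat_lit 312) (nat_lit 608) (nat_lit 0) (XT.nd (nat_lit 156) (nat_lit 152) (nat_lit 0) (XT.nd (nat_lit 78) (nat_lit 228) (nat_lit 0) (XT.lf (nat_lit 0) (nat_lit 8210063304) (nat_lit 304) (nat_lit 2524366782) (nat_lit 76) (nat_lit 6397499979) (nat_lit 46) (nat_lit 5) (nat_lit 50) (nat_lit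 5) (nat_lit 47) (nat_lit 5) (nat_lit 324) (nat_lit 312) (nat_lit 264)) (XT.lf (nat_lit 0) (nat_lit 7181918975) (nat_lit 228) (nat_lit 4052713846) (nat_lit 304) (nat_lit 6673563473) (nat_lit 43) (nat_lit 5) (nat_lit 46) (nat_lit 5) (nat_lit 47) (nat_lit 5) (nat_lit 325) (nat_lit 312) (nat_lit 263))) (XT.nd (nat_lit 78) (nat_lit 152) (nat_lit 0) (XT.lf (nat_lit 0) (nat_lit 14621047628) (nat_lit 304) (nat_lit 1044679379) (nat_lit 76) (nat_lit 3071278354) (nat_lit 43) (nat_lit 5) (nat_lit 47) (nat_lit 5) (nat_lit 44) (nat_lit 5) (nat_lit 326) (nat_lit 312) (nat_lit 262)) (XT.lf (nat_lit 0) (nat_lit 9763057842) (nat_lit 152) (nat_lit 8830369214) (nat_lit 228) (nat_lit 1013517538) (nat_lit 41) (nat_lit 5) (nat_lit 43) (nat_lit 5) (nat_lit 44) (nat_lit 5) (nat_lit 327) (nat_lit 312) (nat_lit 261)))) (XT.nd (nat_lit 156) (nat_lit 304) (nat_lit 0) (XT.nd (nat_lit 78) (nat_lit 0) (nat_lit 0) (XT.lf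 (nat_lit 0) (nat_lit 907024161) (nat_lit 228) (nat_lit 1339752770) (nat_lit 304) (nat_lit 18293105060) (nat_lit 37) (nat_lit 5) (nat_lit 40) (nat_lit 5) (nat_lit 41) (nat_lit 5) (nat_lit 328) (nat_lit 312) (nat_lit 260)) (XT.lf (nat_lit 0) (nat_lit 6127952568) (nat_lit 304) (nat_lit 8676676378) (nat_lit 76) (nat_lit 6707557773) (nat_lit 37) (nat_lit 5) (nat_lit 41) (nat_lit 5) (nat_lit 38) (nat_lit 5) (nat_lit 329) (nat_lit 312) (nat_lit 259))) (XT.nd (nat_lit 78) (nat_lit 152) (nat_lit 0) (XT.lf (nat_lit 0) (nat_lit 3253455492) (nat_lit 152) (nat_lit 7157297611) (nat_lit 228) (nat_lit 12144253979) (nat_lit 35) (nat_lit 5) (nat_lit 37) (nat_lit 5) (nat_lit 38) (nat_lit 5) (nat_lit 330) (nat_lit 312) (nat_lit 258)) (XT.nd (nat_lit 78) (nat_lit 152) (nat_lit 0) (XT.lf (nat_lit 0) (nat_lit 15284859217) (nat_lit 228) (nat_lit 7094701925) (nat_lit 76) (nat_lit 1281817521) (nat_lit 35) (nat_lit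 5) (nat_lit 38) (nat_lit 5) (nat_lit 36) (nat_lit 5) (nat_lit 331) (nat_lit 312) (nat_lit 257)) (XT.lf (nat_lit 0) (nat_lit 6183197569) (nat_lit 152) (nat_lit 14680662671) (nat_lit 228) (nat_lit 3967221043) (nat_lit 33) (nat_lit 5) (nat_lit 35) (nat_lit 5) (nat_lit 36) (nat_lit 5) (nat_lit 332) (nat_lit 312) (nat_lit 256)))))) (XT.nd (nat_lit 312) (nat_lit 380) (nat_lit 0) (XT.nd (nat_lit 156) (nat_lit 152) (nat_lit 0) (XT.nd (nat_lit 78) (nat_lit 152) (nat_lit 0) (XT.lf (nat_lit 0) (nat_lit 934708949) (nat_lit 228) (nat_lit 5205391777) (nat_lit 76) (nat_lit 19938374284) (nat_lit 32) (nat_lit 5) (nat_lit 35) (nat_lit 5) (nat_lit 33) (nat_lit 5) (nat_lit 333) (nat_lit 312) (nat_lit 255)) (XT.lf (nat_lit 0) (nat_lit 6311647897) (nat_lit 228) (nat_lit 17816987354) (nat_lit 76) (nat_lit 3265021188) (nat_lit 30) (nat_lit 5) (nat_lit 33) (nat_lit 5) (nat_lit 31) (nat_lit 5) (nat_lit 334) (nat_lit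 312) (nat_lit 254))) (XT.nd (nat_lit 78) (nat_lit 152) (nat_lit 0) (XT.lf (nat_lit 0) (nat_lit 12406784649) (nat_lit 228) (nat_lit 3156049176) (nat_lit 76) (nat_lit 13228188834) (nat_lit 30) (nat_lit 5) (nat_lit 33) (nat_lit 5) (nat_lit 31) (nat_lit 5) (nat_lit 335) (nat_lit 312) (nat_lit 253)) (XT.lf (nat_lit 0) (nat_lit 13318516735) (nat_lit 152) (nat_lit 5975157893) (nat_lit 228) (nat_lit 10982184839) (nat_lit 28) (nat_lit 5) (nat_lit 30) (nat_lit 5) (nat_lit 31) (nat_lit 5) (nat_lit 336) (nat_lit 312) (nat_lit 252)))) (XT.nd (nat_lit 156) (nat_lit 228) (nat_lit 0) (XT.nd (nat_lit 78) (nat_lit 152) (nat_lit 0) (XT.lf (nat_lit 0) (nat_lit 26909585509) (nat_lit 228) (nat_lit 715495917) (nat_lit 76) (nat_lit 4240167955) (nat_lit 28) (nat_lit 5) (nat_lit 31) (nat_lit 5) (nat_lit 29) (nat_lit 4) (nat_lit 337) (nat_lit 312) (nat_lit 251)) (XT.lf (nat_lit 0) (nat_lit 2051888209) (nat_lit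 152) (nat_lit 16065675351) (nat_lit 76) (nat_lit 15415121398) (nat_lit 26) (nat_lit 5) (nat_lit 28) (nat_lit 5) (nat_lit 27) (nat_lit 5) (nat_lit 338) (nat_lit 312) (nat_lit 250))) (XT.nd (nat_lit 78) (nat_lit 76) (nat_lit 0) (XT.lf (nat_lit 0) (nat_lit 1746885959) (nat_lit 152) (nat_lit 7653031420) (nat_lit 228) (nat_lit 25919501235) (nat_lit 24) (nat_lit 5) (nat_lit 26) (nat_lit 5) (nat_lit 27) (nat_lit 5) (nat_lit 339) (nat_lit 312) (nat_lit 249)) (XT.nd (nat_lit 78) (nat_lit 76) (nat_lit 0) (XT.lf (nat_lit 0) (nat_lit 17860013617) (nat_lit 228) (nat_lit 15439403811) (nat_lit 76) (nat_lit 3907744184) (nat_lit 24) (nat_lit 5) (nat_lit 27) (nat_lit 5) (nat_lit 25) (nat_lit 4) (nat_lit 340) (nat_lit 312) (nat_lit 248)) (XT.lf (nat_lit 0) (nat_lit 4129566032) (nat_lit 76) (nat_lit 23152300317) (nat_lit 152) (nat_lit 11941269784) (nat_lit 23) (nat_lit 5) (nat_lit 24) (nat_lit 5) (nat_lit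 25) (nat_lit 4) (nat_lit 341) (nat_lit 312) (nat_lit 247))))))))
noncomputable def xc133 : XT := (XT.nd (nat_lit 1404) (nat_lit 456) (nat_lit 0) (XT.nd (nat_lit 702) (nat_lit 456) (nat_lit 0) (XT.nd (nat_lit 312) (nat_lit 228) (nat_lit 0) (XT.nd (nat_lit 156) (nat_lit 76) (nat_lit 0) (XT.nd (nat_lit 78) (nat_lit 228) (nat_lit 0) (XT.lf (nat_lit 0) (nat_lit 26120071475) (nat_lit 76) (nat_lit 11746833031) (nat_lit 152) (nat_lit 3500736529) (nat_lit 23) (nat_lit 5) (nat_lit 24) (nat_lit 5) (nat_lit 25) (nat_lit 4) (nat_lit 342) (nat_lit 312) (nat_lit 246)) (XT.lf (nat_lit 0) (nat_lit 5495728047) (nat_lit 228) (nat_lit 37335098809) (nat_lit 76) (nat_lit 829156414) (nat_lit 20) (nat_lit 5) (nat_lit 23) (nat_lit 5) (nat_lit 21) (nat_lit 4) (nat_lit 343) (nat_lit 312) (nat_lit 245))) (XT.nd (nat_lit 78) (nat_lit 76) (nat_lit 0) (XT.lf (nat_lit 0) (nat_lit 15743729717) (nat_lit 228) (nat_lit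 16040191806) (nat_lit 76) (nat_lit 14286846923) (nat_lit 20) (nat_lit 5) (nat_lit 23) (nat_lit 5) (nat_lit 21) (nat_lit 4) (nat_lit 344) (nat_lit 312) (nat_lit 244)) (XT.lf (nat_lit 0) (nat_lit 7304018665) (nat_lit 76) (nat_lit 19672209174) (nat_lit 152) (nat_lit 21685021529) (nat_lit 19) (nat_lit 5) (nat_lit 20) (nat_lit 5) (nat_lit 21) (nat_lit 4) (nat_lit 345) (nat_lit 312) (nat_lit 243)))) (XT.nd (nat_lit 156) (nat_lit 152) (nat_lit 0) (XT.nd (nat_lit 78) (nat_lit 76) (nat_lit 0) (XT.lf (nat_lit 0) (nat_lit 33408818076) (nat_lit 76) (nat_lit 6126423735) (nat_lit 152) (nat_lit 11889498706) (nat_lit 19) (nat_lit 5) (nat_lit 20) (nat_lit 5) (nat_lit 21) (nat_lit 4) (nat_lit 346) (nat_lit 312) (nat_lit 242)) (XT.lf (nat_lit 0) (nat_lit 7336860014) (nat_lit 76) (nat_lit 46133014551) (nat_lit 76) (nat_lit 909769239) (nat_lit 18) (nat_lit 4) (nat_lit 19) (nat_lit 5) (nat_lit 19) (nat_lit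 4) (nat_lit 347) (nat_lit 312) (nat_lit 241))) (XT.nd (nat_lit 78) (nat_lit 76) (nat_lit 0) (XT.lf (nat_lit 0) (nat_lit 11055173392) (nat_lit 152) (nat_lit 22242733666) (nat_lit 76) (nat_lit 24199610465) (nat_lit 17) (nat_lit 5) (nat_lit 19) (nat_lit 5) (nat_lit 18) (nat_lit 4) (nat_lit 348) (nat_lit 312) (nat_lit 240)) (XT.nd (nat_lit 78) (nat_lit 0) (nat_lit 0) (XT.lf (nat_lit 0) (nat_lit 4737632263) (nat_lit 76) (nat_lit 19295213945) (nat_lit 152) (nat_lit 36821713326) (nat_lit 16) (nat_lit 5) (nat_lit 17) (nat_lit 5) (nat_lit 18) (nat_lit 4) (nat_lit 349) (nat_lit 312) (nat_lit 239)) (XT.lf (nat_lit 0) (nat_lit 35124769783) (nat_lit 76) (nat_lit 3523150344) (nat_lit 152) (nat_lit 25784313223) (nat_lit 16) (nat_lit 5) (nat_lit 17) (nat_lit 5) (nat_lit 18) (nat_lit 4) (nat_lit 350) (nat_lit 312) (nat_lit 238)))))) (XT.nd (nat_lit 312) (nat_lit 228) (nat_lit 0) (XT.nd (nat_lit 156) (nat_lit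 76) (nat_lit 0) (XT.nd (nat_lit 78) (nat_lit 152) (nat_lit 0) (XT.lf (nat_lit 0) (nat_lit 54748657525) (nat_lit 152) (nat_lit 694062407) (nat_lit 0) (nat_lit 12828087704) (nat_lit 16) (nat_lit 5) (nat_lit 18) (nat_lit 4) (nat_lit 16) (nat_lit 4) (nat_lit 351) (nat_lit 312) (nat_lit 237)) (XT.lf (nat_lit 0) (nat_lit 602652375) (nat_lit 152) (nat_lit 40676750516) (nat_lit 76) (nat_lit 31068187805) (nat_lit 14) (nat_lit 5) (nat_lit 16) (nat_lit 5) (nat_lit 15) (nat_lit 4) (nat_lit 352) (nat_lit 312) (nat_lit 236))) (XT.nd (nat_lit 78) (nat_lit 76) (nat_lit 0) (XT.lf (nat_lit 0) (nat_lit 15138550863) (nat_lit 152) (nat_lit 10451060955) (nat_lit 76) (nat_lit 51131876395) (nat_lit 14) (nat_lit 5) (nat_lit 16) (nat_lit 5) (nat_lit 15) (nat_lit 4) (nat_lit 353) (nat_lit 312) (nat_lit 235)) (XT.lf (nat_lit 0) (nat_lit 23346932595) (nat_lit 76) (nat_lit 8044650821) (nat_lit 152) (nat_lit 50009375473)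 (nat_lit 13) (nat_lit 5) (nat_lit 14) (nat_lit 5) (nat_lit 15) (nat_lit 4) (nat_lit 354) (nat_lit 312) (nat_lit 234)))) (XT.nd (nat_lit 156) (nat_lit 152) (nat_lit 0) (XT.nd (nat_lit 78) (nat_lit 76) (nat_lit 0) (XT.lf (nat_lit 0) (nat_lit 49493102398) (nat_lit 152) (nat_lit 26272187307) (nat_lit 0) (nat_lit 10645640167) (nat_lit 13) (nat_lit 5) (nat_lit 15) (nat_lit 4) (nat_lit 13) (nat_lit 4) (nat_lit 355) (nat_lit 312) (nat_lit 233)) (XT.lf (nat_lit 0) (nat_lit 8242880253) (nat_lit 76) (nat_lit 61200419024) (nat_lit 76) (nat_lit 22346356744) (nat_lit 12) (nat_lit 4) (nat_lit 13) (nat_lit 5) (nat_lit 13) (nat_lit 4) (nat_lit 356) (nat_lit 312) (nat_lit 232))) (XT.nd (nat_lit 78) (nat_lit 152) (nat_lit 0) (XT.lf (nat_lit 0) (nat_lit 47000888700) (nat_lit 76) (nat_lit 44700508032) (nat_lit 76) (nat_lit 5840334595) (nat_lit 12) (nat_lit 4) (nat_lit 13) (nat_lit 5) (nat_lit 13) (nat_lit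 4) (nat_lit 357) (nat_lit 312) (nat_lit 231)) (XT.nd (nat_lit 78) (nat_lit 76) (nat_lit 0) (XT.lf (nat_lit 0) (nat_lit 11380449950) (nat_lit 152) (nat_lit 15194496016) (nat_lit 76) (nat_lit 77156456676) (nat_lit 11) (nat_lit 5) (nat_lit 13) (nat_lit 5) (nat_lit 12) (nat_lit 4) (nat_lit 358) (nat_lit 312) (nat_lit 230)) (XT.lf (nat_lit 0) (nat_lit 24018441092) (nat_lit 76) (nat_lit 6216901378) (nat_lit 152) (nat_lit 80123012905) (nat_lit 10) (nat_lit 5) (nat_lit 11) (nat_lit 5) (nat_lit 12) (nat_lit 4) (nat_lit 359) (nat_lit 312) (nat_lit 229))))))) (XT.nd (nat_lit 702) (nat_lit 228) (nat_lit 0) (XT.nd (nat_lit 312) (nat_lit 152) (nat_lit 0) (XT.nd (nat_lit 156) (nat_lit 76) (nat_lit 0) (XT.nd (nat_lit 78) (nat_lit 0) (nat_lit 0) (XT.lf (nat_lit 0) (nat_lit 51398496626) (nat_lit 152) (nat_lit 50650707333) (nat_lit 0) (nat_lit 15402272108) (nat_lit 10) (nat_lit 5) (nat_lit 12) (nat_lit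 4) (nat_lit 10) (nat_lit 4) (nat_lit 360) (nat_lit 312) (nat_lit 228)) (XT.lf (nat_lit 0) (nat_lit 74410969285) (nat_lit 152) (nat_lit 12277991479) (nat_lit 0) (nat_lit 38410585617) (nat_lit 10) (nat_lit 5) (nat_lit 12) (nat_lit 4) (nat_lit 10) (nat_lit 4) (nat_lit 361) (nat_lit 312) (nat_lit 227))) (XT.nd (nat_lit 78) (nat_lit 0) (nat_lit 0) (XT.lf (nat_lit 0) (nat_lit 30690401983) (nat_lit 76) (nat_lit 69307316951) (nat_lit 76) (nat_lit 33303082218) (nat_lit 9) (nat_lit 4) (nat_lit 10) (nat_lit 5) (nat_lit 10) (nat_lit 4) (nat_lit 362) (nat_lit 312) (nat_lit 226)) (XT.lf (nat_lit 0) (nat_lit 77785367234) (nat_lit 76) (nat_lit 50177054803) (nat_lit 76) (nat_lit 14169254269) (nat_lit 9) (nat_lit 4) (nat_lit 10) (nat_lit 5) (nat_lit 10) (nat_lit 4) (nat_lit 363) (nat_lit 312) (nat_lit 225)))) (XT.nd (nat_lit 156) (nat_lit 0) (nat_lit 0) (XT.nd (nat_lit 78) (nat_lit 76) (nat_lit 0) (XT.lf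 (nat_lit 0) (nat_lit 6165904735) (nat_lit 152) (nat_lit 23186020352) (nat_lit 76) (nat_lit 122304956778) (nat_lit 8) (nat_lit 5) (nat_lit 10) (nat_lit 5) (nat_lit 9) (nat_lit 4) (nat_lit 364) (nat_lit 312) (nat_lit 224)) (XT.lf (nat_lit 0) (nat_lit 21991070027) (nat_lit 76) (nat_lit 5896059458) (nat_lit 152) (nat_lit 133985551773) (nat_lit 7) (nat_lit 5) (nat_lit 8) (nat_lit 5) (nat_lit 9) (nat_lit 4) (nat_lit 365) (nat_lit 312) (nat_lit 223))) (XT.nd (nat_lit 78) (nat_lit 0) (nat_lit 0) (XT.lf (nat_lit 0) (nat_lit 52459806732) (nat_lit 152) (nat_lit 101246096337) (nat_lit 0) (nat_lit 19110741963) (nat_lit 7) (nat_lit 5) (nat_lit 9) (nat_lit 4) (nat_lit 7) (nat_lit 4) (nat_lit 366) (nat_lit 312) (nat_lit 222)) (XT.nd (nat_lit 78) (nat_lit 0) (nat_lit 0) (XT.lf (nat_lit 0) (nat_lit 79147644956) (nat_lit 152) (nat_lit 59680380582) (nat_lit 0) (nat_lit 45796153363) (nat_lit 7) (nat_lit 5)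 (nat_lit 9) (nat_lit 4) (nat_lit 7) (nat_lit 4) (nat_lit 367) (nat_lit 312) (nat_lit 221)) (XT.lf (nat_lit 0) (nat_lit 107966993938) (nat_lit 152) (nat_lit 14796348241) (nat_lit 0) (nat_lit 74613255285) (nat_lit 7) (nat_lit 5) (nat_lit 9) (nat_lit 4) (nat_lit 7) (nat_lit 4) (nat_lit 368) (nat_lit 312) (nat_lit 220)))))) (XT.nd (nat_lit 312) (nat_lit 152) (nat_lit 0) (XT.nd (nat_lit 156) (nat_lit 0) (nat_lit 0) (XT.nd (nat_lit 78) (nat_lit 0) (nat_lit 0) (XT.lf (nat_lit 0) (nat_lit 35445086938) (nat_lit 76) (nat_lit 104496003259) (nat_lit 76) (nat_lit 71140183996) (nat_lit 6) (nat_lit 4) (nat_lit 7) (nat_lit 5) (nat_lit 7) (nat_lit 4) (nat_lit 369) (nat_lit 312) (nat_lit 219)) (XT.lf (nat_lit 0) (nat_lit 90541054515) (nat_lit 76) (nat_lit 84333452719) (nat_lit 76) (nat_lit 50975706964) (nat_lit 6) (nat_lit 4) (nat_lit 7) (nat_lit 5) (nat_lit 7) (nat_lit 4) (nat_lit 370) (nat_lit 312) (nat_lit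 218))) (XT.nd (nat_lit 78) (nat_lit 0) (nat_lit 0) (XT.lf (nat_lit 0) (nat_lit 150038899635) (nat_lit 76) (nat_lit 62560767159) (nat_lit 76) (nat_lit 29201237617) (nat_lit 6) (nat_lit 4) (nat_lit 7) (nat_lit 5) (nat_lit 7) (nat_lit 4) (nat_lit 371) (nat_lit 312) (nat_lit 217)) (XT.lf (nat_lit 0) (nat_lit 214291202119) (nat_lit 76) (nat_lit 39048923259) (nat_lit 76) (nat_lit 5687742061) (nat_lit 6) (nat_lit 4) (nat_lit 7) (nat_lit 5) (nat_lit 7) (nat_lit 4) (nat_lit 372) (nat_lit 312) (nat_lit 216)))) (XT.nd (nat_lit 156) (nat_lit 0) (nat_lit 0) (XT.nd (nat_lit 78) (nat_lit 0) (nat_lit 0) (XT.lf (nat_lit 0) (nat_lit 5865035664) (nat_lit 76) (nat_lit 12994457688) (nat_lit 152) (nat_lit 258724500537) (nat_lit 4) (nat_lit 5) (nat_lit 5) (nat_lit 5) (nat_lit 6) (nat_lit 4) (nat_lit 373) (nat_lit 312) (nat_lit 215)) (XT.lf (nat_lit 0) (nat_lit 46679828111) (nat_lit 152) (nat_lit 235016517197)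 (nat_lit 0) (nat_lit 15787118354) (nat_lit 4) (nat_lit 5) (nat_lit 6) (nat_lit 4) (nat_lit 4) (nat_lit 4) (nat_lit 374) (nat_lit 312) (nat_lit 214))) (XT.nd (nat_lit 78) (nat_lit 0) (nat_lit 0) (XT.lf (nat_lit 0) (nat_lit 77060931513) (nat_lit 152) (nat_lit 195720140783) (nat_lit 0) (nat_lit 46167007739) (nat_lit 4) (nat_lit 5) (nat_lit 6) (nat_lit 4) (nat_lit 4) (nat_lit 4) (nat_lit 375) (nat_lit 312) (nat_lit 213)) (XT.nd (nat_lit 78) (nat_lit 0) (nat_lit 0) (XT.lf (nat_lit 0) (nat_lit 109870322707) (nat_lit 152) (nat_lit 153284444547) (nat_lit 0) (nat_lit 78975274843) (nat_lit 4) (nat_lit 5) (nat_lit 6) (nat_lit 4) (nat_lit 4) (nat_lit 4) (nat_lit 376) (nat_lit 312) (nat_lit 212)) (XT.lf (nat_lit 0) (nat_lit 145302427713) (nat_lit 152) (nat_lit 107457957699) (nat_lit 0) (nat_lit 114406339026) (nat_lit 4) (nat_lit 5) (nat_lit 6) (nat_lit 4) (nat_lit 4) (nat_lit 4) (nat_lit 377) (nat_lit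 312) (nat_lit 211))))))))
noncomputable def xc134 : XT := (XT.nd (nat_lit 1404) (nat_lit 0) (nat_lit 0) (XT.nd (nat_lit 702) (nat_lit 152) (nat_lit 0) (XT.nd (nat_lit 312) (nat_lit 0) (nat_lit 0) (XT.nd (nat_lit 156) (nat_lit 76) (nat_lit 0) (XT.nd (nat_lit 78) (nat_lit 0) (nat_lit 0) (XT.lf (nat_lit 0) (nat_lit 183567214562) (nat_lit 152) (nat_lit 57969115870) (nat_lit 0) (nat_lit 152670162150) (nat_lit 4) (nat_lit 5) (nat_lit 6) (nat_lit 4) (nat_lit 4) (nat_lit 4) (nat_lit 378) (nat_lit 312) (nat_lit 210)) (XT.lf (nat_lit 0) (nat_lit 224891437547) (nat_lit 152) (nat_lit 4524651850) (nat_lit 0) (nat_lit 193993492797) (nat_lit 4) (nat_lit 5) (nat_lit 6) (nat_lit 4) (nat_lit 4) (nat_lit 4) (nat_lit 379) (nat_lit 312) (nat_lit 209))) (XT.nd (nat_lit 78) (nat_lit 0) (nat_lit 0) (XT.lf (nat_lit 0) (nat_lit 55993146243) (nat_lit 76) (nat_lit 214873471222) (nat_lit 76) (nat_lit 183974700232)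 (nat_lit 3) (nat_lit 4) (nat_lit 4) (nat_lit 5) (nat_lit 4) (nat_lit 4) (nat_lit 380) (nat_lit 312) (nat_lit 208)) (XT.lf (nat_lit 0) (nat_lit 121606543844) (nat_lit 76) (nat_lit 199035406676) (nat_lit 76) (nat_lit 168135870651) (nat_lit 3) (nat_lit 4) (nat_lit 4) (nat_lit 5) (nat_lit 4) (nat_lit 4) (nat_lit 381) (nat_lit 312) (nat_lit 207)))) (XT.nd (nat_lit 156) (nat_lit 0) (nat_lit 0) (XT.nd (nat_lit 78) (nat_lit 0) (nat_lit 0) (XT.lf (nat_lit 0) (nat_lit 192466100940) (nat_lit 76) (nat_lit 181931752565) (nat_lit 76) (nat_lit 151031508172) (nat_lit 3) (nat_lit 4) (nat_lit 4) (nat_lit 5) (nat_lit 4) (nat_lit 4) (nat_lit 382) (nat_lit 312) (nat_lit 206)) (XT.lf (nat_lit 0) (nat_lit 268991726015) (nat_lit 76) (nat_lit 163461153899) (nat_lit 76) (nat_lit 132560253612) (nat_lit 3) (nat_lit 4) (nat_lit 4) (nat_lit 5) (nat_lit 4) (nat_lit 4) (nat_lit 383) (nat_lit 312) (nat_lit 205))) (XT.nd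 (nat_lit 78) (nat_lit 0) (nat_lit 0) (XT.lf (nat_lit 0) (nat_lit 351636904256) (nat_lit 76) (nat_lit 143514155280) (nat_lit 76) (nat_lit 112612647682) (nat_lit 3) (nat_lit 4) (nat_lit 4) (nat_lit 5) (nat_lit 4) (nat_lit 4) (nat_lit 384) (nat_lit 312) (nat_lit 204)) (XT.nd (nat_lit 78) (nat_lit 0) (nat_lit 0) (XT.lf (nat_lit 0) (nat_lit 440891384868) (nat_lit 76) (nat_lit 121972552272) (nat_lit 76) (nat_lit 91070482349) (nat_lit 3) (nat_lit 4) (nat_lit 4) (nat_lit 5) (nat_lit 4) (nat_lit 4) (nat_lit 385) (nat_lit 312) (nat_lit 203)) (XT.lf (nat_lit 0) (nat_lit 537284083290) (nat_lit 76) (nat_lit 98708690930) (nat_lit 76) (nat_lit 67806100337) (nat_lit 3) (nat_lit 4) (nat_lit 4) (nat_lit 5) (nat_lit 4) (nat_lit 4) (nat_lit 386) (nat_lit 312) (nat_lit 202)))))) (XT.nd (nat_lit 312) (nat_lit 0) (nat_lit 0) (XT.nd (nat_lit 156) (nat_lit 152) (nat_lit 0) (XT.nd (nat_lit 78) (nat_lit 0) (nat_lit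 0) (XT.lf (nat_lit 0) (nat_lit 641386215514) (nat_lit 76) (nat_lit 73584711336) (nat_lit 76) (nat_lit 42681638640) (nat_lit 3) (nat_lit 4) (nat_lit 4) (nat_lit 5) (nat_lit 4) (nat_lit 4) (nat_lit 387) (nat_lit 312) (nat_lit 201)) (XT.lf (nat_lit 0) (nat_lit 753814683063) (nat_lit 76) (nat_lit 46451730647) (nat_lit 76) (nat_lit 15548211560) (nat_lit 3) (nat_lit 4) (nat_lit 4) (nat_lit 5) (nat_lit 4) (nat_lit 4) (nat_lit 388) (nat_lit 312) (nat_lit 200))) (XT.nd (nat_lit 78) (nat_lit 76) (nat_lit 0) (XT.lf (nat_lit 0) (nat_lit 13066892195) (nat_lit 152) (nat_lit 3724796646) (nat_lit 76) (nat_lit 861811564524) (nat_lit 2) (nat_lit 5) (nat_lit 4) (nat_lit 5) (nat_lit 3) (nat_lit 4) (nat_lit 389) (nat_lit 312) (nat_lit 199)) (XT.lf (nat_lit 0) (nat_lit 45034861553) (nat_lit 152) (nat_lit 884775754165) (nat_lit 0) (nat_lit 16419754959) (nat_lit 1) (nat_lit 5) (nat_lit 3) (nat_lit 4) (nat_lit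 1) (nat_lit 4) (nat_lit 390) (nat_lit 312) (nat_lit 198)))) (XT.nd (nat_lit 156) (nat_lit 0) (nat_lit 0) (XT.nd (nat_lit 78) (nat_lit 0) (nat_lit 0) (XT.lf (nat_lit 0) (nat_lit 80100099402) (nat_lit 152) (nat_lit 887639706899) (nat_lit 0) (nat_lit 51484664697) (nat_lit 1) (nat_lit 5) (nat_lit 3) (nat_lit 4) (nat_lit 1) (nat_lit 4) (nat_lit 391) (nat_lit 312) (nat_lit 197)) (XT.lf (nat_lit 0) (nat_lit 117969811259) (nat_lit 152) (nat_lit 890734275031) (nat_lit 0) (nat_lit 89354072748) (nat_lit 1) (nat_lit 5) (nat_lit 3) (nat_lit 4) (nat_lit 1) (nat_lit 4) (nat_lit 392) (nat_lit 312) (nat_lit 196))) (XT.nd (nat_lit 78) (nat_lit 0) (nat_lit 0) (XT.lf (nat_lit 0) (nat_lit 158868410231) (nat_lit 152) (nat_lit 894077796744) (nat_lit 0) (nat_lit 130252390418) (nat_lit 1) (nat_lit 5) (nat_lit 3) (nat_lit 4) (nat_lit 1) (nat_lit 4) (nat_lit 393) (nat_lit 312) (nat_lit 195)) (XT.nd (nat_lit 78)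 (nat_lit 0) (nat_lit 0) (XT.lf (nat_lit 0) (nat_lit 203038258386) (nat_lit 152) (nat_lit 897690085499) (nat_lit 0) (nat_lit 174421978108) (nat_lit 1) (nat_lit 5) (nat_lit 3) (nat_lit 4) (nat_lit 1) (nat_lit 4) (nat_lit 394) (nat_lit 312) (nat_lit 194)) (XT.lf (nat_lit 0) (nat_lit 250741102973) (nat_lit 152) (nat_lit 901592547452) (nat_lit 0) (nat_lit 222124581524) (nat_lit 1) (nat_lit 5) (nat_lit 3) (nat_lit 4) (nat_lit 1) (nat_lit 4) (nat_lit 395) (nat_lit 312) (nat_lit 193))))))) (XT.nd (nat_lit 702) (nat_lit 0) (nat_lit 0) (XT.nd (nat_lit 312) (nat_lit 0) (nat_lit 0) (XT.nd (nat_lit 156) (nat_lit 0) (nat_lit 0) (XT.nd (nat_lit 78) (nat_lit 0) (nat_lit 0) (XT.lf (nat_lit 0) (nat_lit 302259627515) (nat_lit 152) (nat_lit 905808308303) (nat_lit 0) (nat_lit 273642882759) (nat_lit 1) (nat_lit 5) (nat_lit 3) (nat_lit 4) (nat_lit 1) (nat_lit 4) (nat_lit 396) (nat_lit 312) (nat_lit 192)) (XT.lf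 (nat_lit 0) (nat_lit 357899126973) (nat_lit 152) (nat_lit 910362350339) (nat_lit 0) (nat_lit 329282175451) (nat_lit 1) (nat_lit 5) (nat_lit 3) (nat_lit 4) (nat_lit 1) (nat_lit 4) (nat_lit 397) (nat_lit 312) (nat_lit 191))) (XT.nd (nat_lit 78) (nat_lit 0) (nat_lit 0) (XT.lf (nat_lit 0) (nat_lit 417989316898) (nat_lit 152) (nat_lit 915281660477) (nat_lit 0) (nat_lit 389372173926) (nat_lit 1) (nat_lit 5) (nat_lit 3) (nat_lit 4) (nat_lit 1) (nat_lit 4) (nat_lit 398) (nat_lit 312) (nat_lit 190)) (XT.lf (nat_lit 0) (nat_lit 482886287305) (nat_lit 152) (nat_lit 920595390182) (nat_lit 0) (nat_lit 454268967065) (nat_lit 1) (nat_lit 5) (nat_lit 3) (nat_lit 4) (nat_lit 1) (nat_lit 4) (nat_lit 399) (nat_lit 312) (nat_lit 189)))) (XT.nd (nat_lit 156) (nat_lit 0) (nat_lit 0) (XT.nd (nat_lit 78) (nat_lit 0) (nat_lit 0) (XT.lf (nat_lit 0) (nat_lit 552974612833) (nat_lit 152) (nat_lit 926335028224) (nat_lit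 0) (nat_lit 524357128457) (nat_lit 1) (nat_lit 5) (nat_lit 3) (nat_lit 4) (nat_lit 1) (nat_lit 4) (nat_lit 400) (nat_lit 312) (nat_lit 188)) (XT.lf (nat_lit 0) (nat_lit 628669631709) (nat_lit 152) (nat_lit 932534587273) (nat_lit 0) (nat_lit 600051995353) (nat_lit 1) (nat_lit 5) (nat_lit 3) (nat_lit 4) (nat_lit 1) (nat_lit 4) (nat_lit 401) (nat_lit 312) (nat_lit 187))) (XT.nd (nat_lit 78) (nat_lit 0) (nat_lit 0) (XT.lf (nat_lit 0) (nat_lit 710419907006) (nat_lit 152) (nat_lit 939230805456) (nat_lit 0) (nat_lit 681802129929) (nat_lit 1) (nat_lit 5) (nat_lit 3) (nat_lit 4) (nat_lit 1) (nat_lit 4) (nat_lit 402) (nat_lit 312) (nat_lit 186)) (XT.nd (nat_lit 78) (nat_lit 0) (nat_lit 0) (XT.lf (nat_lit 0) (nat_lit 798709884800) (nat_lit 152) (nat_lit 946463364066) (nat_lit 0) (nat_lit 770091977426) (nat_lit 1) (nat_lit 5) (nat_lit 3) (nat_lit 4) (nat_lit 1) (nat_lit 4) (nat_lit 403) (nat_lit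 312) (nat_lit 185)) (XT.lf (nat_lit 0) (nat_lit 894062764960) (nat_lit 152) (nat_lit 954275122711) (nat_lit 0) (nat_lit 865444736940) (nat_lit 1) (nat_lit 5) (nat_lit 3) (nat_lit 4) (nat_lit 1) (nat_lit 4) (nat_lit 404) (nat_lit 312) (nat_lit 184)))))) (XT.nd (nat_lit 312) (nat_lit 0) (nat_lit 0) (XT.nd (nat_lit 156) (nat_lit 0) (nat_lit 0) (XT.nd (nat_lit 78) (nat_lit 0) (nat_lit 0) (XT.lf (nat_lit 0) (nat_lit 997043601591) (nat_lit 152) (nat_lit 962712373292) (nat_lit 0) (nat_lit 968425461862) (nat_lit 1) (nat_lit 5) (nat_lit 3) (nat_lit 4) (nat_lit 1) (nat_lit 4) (nat_lit 405) (nat_lit 312) (nat_lit 183)) (XT.lf (nat_lit 0) (nat_lit 1108262651502) (nat_lit 152) (nat_lit 971825114333) (nat_lit 0) (nat_lit 1079644408339) (nat_lit 1) (nat_lit 5) (nat_lit 3) (nat_lit 4) (nat_lit 1) (nat_lit 4) (nat_lit 406) (nat_lit 312) (nat_lit 182))) (XT.nd (nat_lit 78) (nat_lit 0) (nat_lit 0) (XT.lf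 (nat_lit 0) (nat_lit 1228378990544) (nat_lit 152) (nat_lit 981667347260) (nat_lit 0) (nat_lit 1199760651609) (nat_lit 1) (nat_lit 5) (nat_lit 3) (nat_lit 4) (nat_lit 1) (nat_lit 4) (nat_lit 407) (nat_lit 312) (nat_lit 181)) (XT.lf (nat_lit 0) (nat_lit 1358104419246) (nat_lit 152) (nat_lit 992297396418) (nat_lit 0) (nat_lit 1329485991632) (nat_lit 1) (nat_lit 5) (nat_lit 3) (nat_lit 4) (nat_lit 1) (nat_lit 4) (nat_lit 408) (nat_lit 312) (nat_lit 180)))) (XT.nd (nat_lit 156) (nat_lit 0) (nat_lit 0) (XT.nd (nat_lit 78) (nat_lit 0) (nat_lit 0) (XT.lf (nat_lit 0) (nat_lit 1498207680888) (nat_lit 152) (nat_lit 1003778254691) (nat_lit 0) (nat_lit 1469589171165) (nat_lit 1) (nat_lit 5) (nat_lit 3) (nat_lit 4) (nat_lit 1) (nat_lit 4) (nat_lit 409) (nat_lit 312) (nat_lit 179)) (XT.lf (nat_lit 0) (nat_lit 1649519017021) (nat_lit 152) (nat_lit 1016177956794) (nat_lit 0) (nat_lit 1620900431270) (nat_lit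 1) (nat_lit 5) (nat_lit 3) (nat_lit 4) (nat_lit 1) (nat_lit 4) (nat_lit 410) (nat_lit 312) (nat_lit 178))) (XT.nd (nat_lit 78) (nat_lit 0) (nat_lit 0) (XT.lf (nat_lit 0) (nat_lit 1812935087414) (nat_lit 152) (nat_lit 1029569982444) (nat_lit 0) (nat_lit 1784316431268) (nat_lit 1) (nat_lit 5) (nat_lit 3) (nat_lit 4) (nat_lit 1) (nat_lit 4) (nat_lit 411) (nat_lit 312) (nat_lit 177)) (XT.nd (nat_lit 78) (nat_lit 0) (nat_lit 0) (XT.lf (nat_lit 0) (nat_lit 1989424283596) (nat_lit 152) (nat_lit 1044033691792) (nat_lit 0) (nat_lit 1960805562269) (nat_lit 1) (nat_lit 5) (nat_lit 3) (nat_lit 4) (nat_lit 1) (nat_lit 4) (nat_lit 412) (nat_lit 312) (nat_lit 176)) (XT.lf (nat_lit 0) (nat_lit 2180032467470) (nat_lit 152) (nat_lit 1059654795708) (nat_lit 0) (nat_lit 2151413685790) (nat_lit 1) (nat_lit 5) (nat_lit 3) (nat_lit 4) (nat_lit 1) (nat_lit 4) (nat_lit 413) (nat_lit 312) (nat_lit 175))))))))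
noncomputable def xc135 : XT := (XT.nd (nat_lit 40248) (nat_lit 0) (nat_lit 1368) (XT.nd (nat_lit 39546) (nat_lit 0) (nat_lit 3040) (XT.nd (nat_lit 39156) (nat_lit 0) (nat_lit 4408) (XT.nd (nat_lit 39000) (nat_lit 0) (nat_lit 4332) (XT.nd (nat_lit 78) (nat_lit 0) (nat_lit 0) (XT.lf (nat_lit 0) (nat_lit 2385889169015) (nat_lit 152) (nat_lit 1076525863697) (nat_lit 0) (nat_lit 2357270331452) (nat_lit 1) (nat_lit 5) (nat_lit 3) (nat_lit 4) (nat_lit 1) (nat_lit 4) (nat_lit 414) (nat_lit 312) (nat_lit 174)) (XT.lf (nat_lit 0) (nat_lit 2608214279795) (nat_lit 152) (nat_lit 1094746872460) (nat_lit 0) (nat_lit 2579595390489) (nat_lit 1) (nat_lit 5) (nat_lit 3) (nat_lit 4) (nat_lit 1) (nat_lit 4) (nat_lit 415) (nat_lit 312) (nat_lit 173))) (XT.nd (nat_lit 78) (nat_lit 0) (nat_lit 0) (XT.lf (nat_lit 0) (nat_lit 2322067612) (nat_lit 532) (nat_lit 1696053034) (nat_lit 532) (nat_lit 1696053034) (nat_lit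 58) (nat_lit 3) (nat_lit 65) (nat_lit 3) (nat_lit 65) (nat_lit 5) (nat_lit 313) (nat_lit 313) (nat_lit 274)) (XT.lf (nat_lit 76) (nat_lit 2185594842) (nat_lit 0) (nat_lit 3192987302) (nat_lit 532) (nat_lit 6462260725) (nat_lit 59) (nat_lit 5) (nat_lit 58) (nat_lit 3) (nat_lit 65) (nat_lit 5) (nat_lit 314) (nat_lit 313) (nat_lit 273)))) (XT.nd (nat_lit 156) (nat_lit 0) (nat_lit 76) (XT.nd (nat_lit 78) (nat_lit 0) (nat_lit 0) (XT.lf (nat_lit 0) (nat_lit 6266162801) (nat_lit 456) (nat_lit 3960794841) (nat_lit 532) (nat_lit 2051904559) (nat_lit 59) (nat_lit 5) (nat_lit 65) (nat_lit 5) (nat_lit 66) (nat_lit 5) (nat_lit 315) (nat_lit 313) (nat_lit 272)) (XT.lf (nat_lit 76) (nat_lit 2185141292) (nat_lit 0) (nat_lit 5128999218) (nat_lit 532) (nat_lit 5430700233) (nat_lit 60) (nat_lit 5) (nat_lit 59) (nat_lit 5) (nat_lit 66) (nat_lit 5) (nat_lit 316) (nat_lit 313) (nat_lit 271))) (XT.nd (nat_lit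 78) (nat_lit 0) (nat_lit 0) (XT.lf (nat_lit 0) (nat_lit 8523060333) (nat_lit 456) (nat_lit 4236845307) (nat_lit 532) (nat_lit 482087420) (nat_lit 60) (nat_lit 5) (nat_lit 66) (nat_lit 5) (nat_lit 67) (nat_lit 5) (nat_lit 317) (nat_lit 313) (nat_lit 270)) (XT.nd (nat_lit 78) (nat_lit 0) (nat_lit 0) (XT.lf (nat_lit 76) (nat_lit 2555389208) (nat_lit 0) (nat_lit 7428106480) (nat_lit 532) (nat_lit 3783096797) (nat_lit 61) (nat_lit 5) (nat_lit 60) (nat_lit 5) (nat_lit 67) (nat_lit 5) (nat_lit 318) (nat_lit 313) (nat_lit 269)) (XT.lf (nat_lit 76) (nat_lit 10101683793) (nat_lit 0) (nat_lit 1537274691) (nat_lit 532) (nat_lit 2688000675) (nat_lit 61) (nat_lit 5) (nat_lit 60) (nat_lit 5) (nat_lit 67) (nat_lit 5) (nat_lit 319) (nat_lit 313) (nat_lit 268)))))) (XT.nd (nat_lit 312) (nat_lit 608) (nat_lit 0) (XT.nd (nat_lit 156) (nat_lit 380) (nat_lit 0) (XT.nd (nat_lit 78) (nat_lit 76) (nat_lit 0)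 (XT.lf (nat_lit 0) (nat_lit 3339512236) (nat_lit 456) (nat_lit 10249001509) (nat_lit 532) (nat_lit 1330759636) (nat_lit 55) (nat_lit 5) (nat_lit 61) (nat_lit 5) (nat_lit 62) (nat_lit 5) (nat_lit 320) (nat_lit 313) (nat_lit 267)) (XT.lf (nat_lit 0) (nat_lit 253008568) (nat_lit 532) (nat_lit 3878199181) (nat_lit 76) (nat_lit 11417572227) (nat_lit 54) (nat_lit 5) (nat_lit 61) (nat_lit 5) (nat_lit 55) (nat_lit 5) (nat_lit 321) (nat_lit 313) (nat_lit 266))) (XT.nd (nat_lit 78) (nat_lit 0) (nat_lit 0) (XT.lf (nat_lit 0) (nat_lit 2034456266) (nat_lit 456) (nat_lit 11677300056) (nat_lit 76) (nat_lit 2502735881) (nat_lit 49) (nat_lit 5) (nat_lit 55) (nat_lit 5) (nat_lit 50) (nat_lit 5) (nat_lit 322) (nat_lit 313) (nat_lit 265)) (XT.lf (nat_lit 0) (nat_lit 4144898404) (nat_lit 456) (nat_lit 3220031162) (nat_lit 76) (nat_lit 9553650781) (nat_lit 49) (nat_lit 5) (nat_lit 55) (nat_lit 5) (nat_lit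 50) (nat_lit 5) (nat_lit 323) (nat_lit 313) (nat_lit 264)))) (XT.nd (nat_lit 156) (nat_lit 380) (nat_lit 0) (XT.nd (nat_lit 78) (nat_lit 0) (nat_lit 0) (XT.lf (nat_lit 0) (nat_lit 6194658748) (nat_lit 228) (nat_lit 351076156) (nat_lit 304) (nat_lit 11123570390) (nat_lit 46) (nat_lit 5) (nat_lit 49) (nat_lit 5) (nat_lit 50) (nat_lit 5) (nat_lit 324) (nat_lit 313) (nat_lit 263)) (XT.lf (nat_lit 0) (nat_lit 9376575167) (nat_lit 304) (nat_lit 2133787565) (nat_lit 76) (nat_lit 6950722477) (nat_lit 46) (nat_lit 5) (nat_lit 50) (nat_lit 5) (nat_lit 47) (nat_lit 5) (nat_lit 325) (nat_lit 313) (nat_lit 262))) (XT.nd (nat_lit 78) (nat_lit 152) (nat_lit 0) (XT.lf (nat_lit 0) (nat_lit 8334000329) (nat_lit 228) (nat_lit 4285243416) (nat_lit 304) (nat_lit 6682164440) (nat_lit 43) (nat_lit 5) (nat_lit 46) (nat_lit 5) (nat_lit 47) (nat_lit 5) (nat_lit 326) (nat_lit 313) (nat_lit 261)) (XT.nd (nat_lit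 78) (nat_lit 152) (nat_lit 0) (XT.lf (nat_lit 0) (nat_lit 16242625314) (nat_lit 304) (nat_lit 559025432) (nat_lit 76) (nat_lit 3397629656) (nat_lit 43) (nat_lit 5) (nat_lit 47) (nat_lit 5) (nat_lit 44) (nat_lit 5) (nat_lit 327) (nat_lit 313) (nat_lit 260)) (XT.lf (nat_lit 0) (nat_lit 11098919925) (nat_lit 152) (nat_lit 9413744924) (nat_lit 228) (nat_lit 627799890) (nat_lit 41) (nat_lit 5) (nat_lit 43) (nat_lit 5) (nat_lit 44) (nat_lit 5) (nat_lit 328) (nat_lit 313) (nat_lit 259))))))) (XT.nd (nat_lit 702) (nat_lit 684) (nat_lit 0) (XT.nd (nat_lit 312) (nat_lit 532) (nat_lit 0) (XT.nd (nat_lit 156) (nat_lit 152) (nat_lit 0) (XT.nd (nat_lit 78) (nat_lit 0) (nat_lit 0) (XT.lf (nat_lit 0) (nat_lit 1543563675) (nat_lit 228) (nat_lit 1307118966) (nat_lit 304) (nat_lit 19298033014) (nat_lit 37) (nat_lit 5) (nat_lit 40) (nat_lit 5) (nat_lit 41) (nat_lit 5) (nat_lit 329) (nat_lit 313) (nat_lit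 258)) (XT.lf (nat_lit 0) (nat_lit 7014046261) (nat_lit 304) (nat_lit 8819910539) (nat_lit 76) (nat_lit 7367143841) (nat_lit 37) (nat_lit 5) (nat_lit 41) (nat_lit 5) (nat_lit 38) (nat_lit 5) (nat_lit 330) (nat_lit 313) (nat_lit 257))) (XT.nd (nat_lit 78) (nat_lit 0) (nat_lit 0) (XT.lf (nat_lit 0) (nat_lit 4050685047) (nat_lit 152) (nat_lit 7572376750) (nat_lit 228) (nat_lit 12705626626) (nat_lit 35) (nat_lit 5) (nat_lit 37) (nat_lit 5) (nat_lit 38) (nat_lit 5) (nat_lit 331) (nat_lit 313) (nat_lit 256)) (XT.lf (nat_lit 0) (nat_lit 16862496507) (nat_lit 228) (nat_lit 7140162941) (nat_lit 76) (nat_lit 1522905190) (nat_lit 35) (nat_lit 5) (nat_lit 38) (nat_lit 5) (nat_lit 36) (nat_lit 5) (nat_lit 332) (nat_lit 313) (nat_lit 255)))) (XT.nd (nat_lit 156) (nat_lit 304) (nat_lit 0) (XT.nd (nat_lit 78) (nat_lit 76) (nat_lit 0) (XT.lf (nat_lit 0) (nat_lit 7186750408) (nat_lit 152) (nat_lit 15687021112)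 (nat_lit 228) (nat_lit 3916220556) (nat_lit 33) (nat_lit 5) (nat_lit 35) (nat_lit 5) (nat_lit 36) (nat_lit 5) (nat_lit 333) (nat_lit 313) (nat_lit 254)) (XT.lf (nat_lit 0) (nat_lit 1333513815) (nat_lit 228) (nat_lit 5133292342) (nat_lit 76) (nat_lit 21671757529) (nat_lit 32) (nat_lit 5) (nat_lit 35) (nat_lit 5) (nat_lit 33) (nat_lit 5) (nat_lit 334) (nat_lit 313) (nat_lit 253))) (XT.nd (nat_lit 78) (nat_lit 152) (nat_lit 0) (XT.lf (nat_lit 0) (nat_lit 7132018205) (nat_lit 228) (nat_lit 18744978601) (nat_lit 76) (nat_lit 3682669782) (nat_lit 30) (nat_lit 5) (nat_lit 33) (nat_lit 5) (nat_lit 31) (nat_lit 5) (nat_lit 335) (nat_lit 313) (nat_lit 252)) (XT.nd (nat_lit 78) (nat_lit 152) (nat_lit 0) (XT.lf (nat_lit 0) (nat_lit 13691400084) (nat_lit 228) (nat_lit 2948007423) (nat_lit 76) (nat_lit 14431302180) (nat_lit 30) (nat_lit 5) (nat_lit 33) (nat_lit 5) (nat_lit 31) (nat_lit 5) (nat_lit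 336) (nat_lit 313) (nat_lit 251)) (XT.lf (nat_lit 0) (nat_lit 14832864883) (nat_lit 152) (nat_lit 6285536624) (nat_lit 228) (nat_lit 11556816075) (nat_lit 28) (nat_lit 5) (nat_lit 30) (nat_lit 5) (nat_lit 31) (nat_lit 5) (nat_lit 337) (nat_lit 313) (nat_lit 250)))))) (XT.nd (nat_lit 312) (nat_lit 380) (nat_lit 0) (XT.nd (nat_lit 156) (nat_lit 152) (nat_lit 0) (XT.nd (nat_lit 78) (nat_lit 152) (nat_lit 0) (XT.lf (nat_lit 0) (nat_lit 29326486153) (nat_lit 228) (nat_lit 339822764) (nat_lit 76) (nat_lit 4726833404) (nat_lit 28) (nat_lit 5) (nat_lit 31) (nat_lit 5) (nat_lit 29) (nat_lit 4) (nat_lit 338) (nat_lit 313) (nat_lit 249)) (XT.lf (nat_lit 0) (nat_lit 2477544263) (nat_lit 152) (nat_lit 16915037680) (nat_lit 76) (nat_lit 16801629111) (nat_lit 26) (nat_lit 5) (nat_lit 28) (nat_lit 5) (nat_lit 27) (nat_lit 5) (nat_lit 339) (nat_lit 313) (nat_lit 248))) (XT.nd (nat_lit 78) (nat_lit 0)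 (nat_lit 0) (XT.lf (nat_lit 0) (nat_lit 2311493302) (nat_lit 152) (nat_lit 8092769532) (nat_lit 228) (nat_lit 27720365270) (nat_lit 24) (nat_lit 5) (nat_lit 26) (nat_lit 5) (nat_lit 27) (nat_lit 5) (nat_lit 340) (nat_lit 313) (nat_lit 247)) (XT.lf (nat_lit 0) (nat_lit 19526315448) (nat_lit 228) (nat_lit 16266174883) (nat_lit 76) (nat_lit 4372099860) (nat_lit 24) (nat_lit 5) (nat_lit 27) (nat_lit 5) (nat_lit 25) (nat_lit 4) (nat_lit 341) (nat_lit 313) (nat_lit 246)))) (XT.nd (nat_lit 156) (nat_lit 304) (nat_lit 0) (XT.nd (nat_lit 78) (nat_lit 0) (nat_lit 0) (XT.lf (nat_lit 0) (nat_lit 4857973782) (nat_lit 76) (nat_lit 24835922899) (nat_lit 152) (nat_lit 12648598258) (nat_lit 23) (nat_lit 5) (nat_lit 24) (nat_lit 5) (nat_lit 25) (nat_lit 4) (nat_lit 342) (nat_lit 313) (nat_lit 245)) (XT.lf (nat_lit 0) (nat_lit 28578235032) (nat_lit 76) (nat_lit 12530504264) (nat_lit 152) (nat_lit 3551190721)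 (nat_lit 23) (nat_lit 5) (nat_lit 24) (nat_lit 5) (nat_lit 25) (nat_lit 4) (nat_lit 343) (nat_lit 313) (nat_lit 244))) (XT.nd (nat_lit 78) (nat_lit 76) (nat_lit 0) (XT.lf (nat_lit 0) (nat_lit 6150099490) (nat_lit 228) (nat_lit 39938236742) (nat_lit 76) (nat_lit 1047162585) (nat_lit 20) (nat_lit 5) (nat_lit 23) (nat_lit 5) (nat_lit 21) (nat_lit 4) (nat_lit 344) (nat_lit 313) (nat_lit 243)) (XT.nd (nat_lit 78) (nat_lit 76) (nat_lit 0) (XT.lf (nat_lit 0) (nat_lit 17202036613) (nat_lit 228) (nat_lit 16968157177) (nat_lit 76) (nat_lit 15570233249) (nat_lit 20) (nat_lit 5) (nat_lit 23) (nat_lit 5) (nat_lit 21) (nat_lit 4) (nat_lit 345) (nat_lit 313) (nat_lit 242)) (XT.lf (nat_lit 0) (nat_lit 8234596462) (nat_lit 76) (nat_lit 21092139037) (nat_lit 152) (nat_lit 23211930135) (nat_lit 19) (nat_lit 5) (nat_lit 20) (nat_lit 5) (nat_lit 21) (nat_lit 4) (nat_lit 346) (nat_lit 313) (nat_lit 241))))))))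
noncomputable def xc136 : XT := (XT.nd (nat_lit 1404) (nat_lit 456) (nat_lit 0) (XT.nd (nat_lit 702) (nat_lit 304) (nat_lit 0) (XT.nd (nat_lit 312) (nat_lit 228) (nat_lit 0) (XT.nd (nat_lit 156) (nat_lit 152) (nat_lit 0) (XT.nd (nat_lit 78) (nat_lit 76) (nat_lit 0) (XT.lf (nat_lit 0) (nat_lit 36402131210) (nat_lit 76) (nat_lit 6474086828) (nat_lit 152) (nat_lit 12648164977) (nat_lit 19) (nat_lit 5) (nat_lit 20) (nat_lit 5) (nat_lit 21) (nat_lit 4) (nat_lit 347) (nat_lit 313) (nat_lit 240)) (XT.lf (nat_lit 0) (nat_lit 8246934428) (nat_lit 76) (nat_lit 49676433529) (nat_lit 76) (nat_lit 792497121) (nat_lit 18) (nat_lit 4) (nat_lit 19) (nat_lit 5) (nat_lit 19) (nat_lit 4) (nat_lit 348) (nat_lit 313) (nat_lit 239))) (XT.nd (nat_lit 78) (nat_lit 76) (nat_lit 0) (XT.lf (nat_lit 0) (nat_lit 12106759859) (nat_lit 152) (nat_lit 23714092129) (nat_lit 76) (nat_lit 26263026294) (nat_lit 17) (nat_lit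 5) (nat_lit 19) (nat_lit 5) (nat_lit 18) (nat_lit 4) (nat_lit 349) (nat_lit 313) (nat_lit 238)) (XT.lf (nat_lit 0) (nat_lit 5416904081) (nat_lit 76) (nat_lit 20700580555) (nat_lit 152) (nat_lit 39592416919) (nat_lit 16) (nat_lit 5) (nat_lit 17) (nat_lit 5) (nat_lit 18) (nat_lit 4) (nat_lit 350) (nat_lit 313) (nat_lit 237)))) (XT.nd (nat_lit 156) (nat_lit 228) (nat_lit 0) (XT.nd (nat_lit 78) (nat_lit 0) (nat_lit 0) (XT.lf (nat_lit 0) (nat_lit 38212771029) (nat_lit 76) (nat_lit 3676992643) (nat_lit 152) (nat_lit 27684990250) (nat_lit 16) (nat_lit 5) (nat_lit 17) (nat_lit 5) (nat_lit 18) (nat_lit 4) (nat_lit 351) (nat_lit 313) (nat_lit 236)) (XT.lf (nat_lit 0) (nat_lit 59270298805) (nat_lit 152) (nat_lit 483847473) (nat_lit 0) (nat_lit 13966933020) (nat_lit 16) (nat_lit 5) (nat_lit 18) (nat_lit 4) (nat_lit 16) (nat_lit 4) (nat_lit 352) (nat_lit 313) (nat_lit 235))) (XT.nd (nat_lit 78) (nat_lit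 76) (nat_lit 0) (XT.lf (nat_lit 0) (nat_lit 791960120) (nat_lit 152) (nat_lit 43664402895) (nat_lit 76) (nat_lit 33667701806) (nat_lit 14) (nat_lit 5) (nat_lit 16) (nat_lit 5) (nat_lit 15) (nat_lit 4) (nat_lit 353) (nat_lit 313) (nat_lit 234)) (XT.nd (nat_lit 78) (nat_lit 76) (nat_lit 0) (XT.lf (nat_lit 0) (nat_lit 16480278964) (nat_lit 152) (nat_lit 11040397996) (nat_lit 76) (nat_lit 55328036670) (nat_lit 14) (nat_lit 5) (nat_lit 16) (nat_lit 5) (nat_lit 15) (nat_lit 4) (nat_lit 354) (nat_lit 313) (nat_lit 233)) (XT.lf (nat_lit 0) (nat_lit 25455188257) (nat_lit 76) (nat_lit 8574472585) (nat_lit 152) (nat_lit 53873195700) (nat_lit 13) (nat_lit 5) (nat_lit 14) (nat_lit 5) (nat_lit 15) (nat_lit 4) (nat_lit 355) (nat_lit 313) (nat_lit 232)))))) (XT.nd (nat_lit 312) (nat_lit 152) (nat_lit 0) (XT.nd (nat_lit 156) (nat_lit 76) (nat_lit 0) (XT.nd (nat_lit 78) (nat_lit 76) (nat_lit 0) (XT.lf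 (nat_lit 0) (nat_lit 53572445451) (nat_lit 152) (nat_lit 28144384129) (nat_lit 0) (nat_lit 11597346983) (nat_lit 13) (nat_lit 5) (nat_lit 15) (nat_lit 4) (nat_lit 13) (nat_lit 4) (nat_lit 356) (nat_lit 313) (nat_lit 231)) (XT.lf (nat_lit 0) (nat_lit 9126076730) (nat_lit 76) (nat_lit 65989081829) (nat_lit 76) (nat_lit 24008324883) (nat_lit 12) (nat_lit 4) (nat_lit 13) (nat_lit 5) (nat_lit 13) (nat_lit 4) (nat_lit 357) (nat_lit 313) (nat_lit 230))) (XT.nd (nat_lit 78) (nat_lit 76) (nat_lit 0) (XT.lf (nat_lit 0) (nat_lit 50968150589) (nat_lit 76) (nat_lit 48177131343) (nat_lit 76) (nat_lit 6191135066) (nat_lit 12) (nat_lit 4) (nat_lit 13) (nat_lit 5) (nat_lit 13) (nat_lit 4) (nat_lit 358) (nat_lit 313) (nat_lit 229)) (XT.lf (nat_lit 0) (nat_lit 12393295374) (nat_lit 152) (nat_lit 16212793130) (nat_lit 76) (nat_lit 83415607054) (nat_lit 11) (nat_lit 5) (nat_lit 13) (nat_lit 5) (nat_lit 12)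 (nat_lit 4) (nat_lit 359) (nat_lit 313) (nat_lit 228)))) (XT.nd (nat_lit 156) (nat_lit 76) (nat_lit 0) (XT.nd (nat_lit 78) (nat_lit 0) (nat_lit 0) (XT.lf (nat_lit 0) (nat_lit 26132184958) (nat_lit 76) (nat_lit 6621432518) (nat_lit 152) (nat_lit 86425425946) (nat_lit 10) (nat_lit 5) (nat_lit 11) (nat_lit 5) (nat_lit 12) (nat_lit 4) (nat_lit 360) (nat_lit 313) (nat_lit 227)) (XT.lf (nat_lit 0) (nat_lit 55604524462) (nat_lit 152) (nat_lit 54519415202) (nat_lit 0) (nat_lit 16716099885) (nat_lit 10) (nat_lit 5) (nat_lit 12) (nat_lit 4) (nat_lit 10) (nat_lit 4) (nat_lit 361) (nat_lit 313) (nat_lit 226))) (XT.nd (nat_lit 78) (nat_lit 76) (nat_lit 0) (XT.lf (nat_lit 0) (nat_lit 80451021001) (nat_lit 152) (nat_lit 13090463466) (nat_lit 0) (nat_lit 41559030622) (nat_lit 10) (nat_lit 5) (nat_lit 12) (nat_lit 4) (nat_lit 10) (nat_lit 4) (nat_lit 362) (nat_lit 313) (nat_lit 225)) (XT.nd (nat_lit 78)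 (nat_lit 0) (nat_lit 0) (XT.lf (nat_lit 0) (nat_lit 33311103566) (nat_lit 76) (nat_lit 74771129253) (nat_lit 76) (nat_lit 35875837207) (nat_lit 9) (nat_lit 4) (nat_lit 10) (nat_lit 5) (nat_lit 10) (nat_lit 4) (nat_lit 363) (nat_lit 313) (nat_lit 224)) (XT.lf (nat_lit 0) (nat_lit 84161409043) (nat_lit 76) (nat_lit 54116429323) (nat_lit 76) (nat_lit 15218080177) (nat_lit 9) (nat_lit 4) (nat_lit 10) (nat_lit 5) (nat_lit 10) (nat_lit 4) (nat_lit 364) (nat_lit 313) (nat_lit 223))))))) (XT.nd (nat_lit 702) (nat_lit 228) (nat_lit 0) (XT.nd (nat_lit 312) (nat_lit 76) (nat_lit 0) (XT.nd (nat_lit 156) (nat_lit 0) (nat_lit 0) (XT.nd (nat_lit 78) (nat_lit 76) (nat_lit 0) (XT.lf (nat_lit 0) (nat_lit 6733692553) (nat_lit 152) (nat_lit 24895099282) (nat_lit 76) (nat_lit 132154663858) (nat_lit 8) (nat_lit 5) (nat_lit 10) (nat_lit 5) (nat_lit 9) (nat_lit 4) (nat_lit 365) (nat_lit 313) (nat_lit 222)) (XT.lf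 (nat_lit 0) (nat_lit 23892467120) (nat_lit 76) (nat_lit 6298046285) (nat_lit 152) (nat_lit 144626174928) (nat_lit 7) (nat_lit 5) (nat_lit 8) (nat_lit 5) (nat_lit 9) (nat_lit 4) (nat_lit 366) (nat_lit 313) (nat_lit 221))) (XT.nd (nat_lit 78) (nat_lit 0) (nat_lit 0) (XT.lf (nat_lit 0) (nat_lit 56725192936) (nat_lit 152) (nat_lit 109210374157) (nat_lit 0) (nat_lit 20700908132) (nat_lit 7) (nat_lit 5) (nat_lit 9) (nat_lit 4) (nat_lit 7) (nat_lit 4) (nat_lit 367) (nat_lit 313) (nat_lit 220)) (XT.lf (nat_lit 0) (nat_lit 85542976613) (nat_lit 152) (nat_lit 64329431504) (nat_lit 0) (nat_lit 49516611198) (nat_lit 7) (nat_lit 5) (nat_lit 9) (nat_lit 4) (nat_lit 7) (nat_lit 4) (nat_lit 368) (nat_lit 313) (nat_lit 219)))) (XT.nd (nat_lit 156) (nat_lit 0) (nat_lit 0) (XT.nd (nat_lit 78) (nat_lit 76) (nat_lit 0) (XT.lf (nat_lit 0) (nat_lit 116663168324) (nat_lit 152) (nat_lit 15863963948) (nat_lit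 0) (nat_lit 80634876417) (nat_lit 7) (nat_lit 5) (nat_lit 9) (nat_lit 4) (nat_lit 7) (nat_lit 4) (nat_lit 369) (nat_lit 313) (nat_lit 218)) (XT.lf (nat_lit 0) (nat_lit 38393847004) (nat_lit 76) (nat_lit 112799709958) (nat_lit 76) (nat_lit 76769634263) (nat_lit 6) (nat_lit 4) (nat_lit 7) (nat_lit 5) (nat_lit 7) (nat_lit 4) (nat_lit 370) (nat_lit 313) (nat_lit 217))) (XT.nd (nat_lit 78) (nat_lit 0) (nat_lit 0) (XT.lf (nat_lit 0) (nat_lit 97889110275) (nat_lit 76) (nat_lit 91028301564) (nat_lit 76) (nat_lit 54996574213) (nat_lit 6) (nat_lit 4) (nat_lit 7) (nat_lit 5) (nat_lit 7) (nat_lit 4) (nat_lit 371) (nat_lit 313) (nat_lit 216)) (XT.nd (nat_lit 78) (nat_lit 0) (nat_lit 0) (XT.lf (nat_lit 0) (nat_lit 162139022160) (nat_lit 76) (nat_lit 67517640224) (nat_lit 76) (nat_lit 31484383563) (nat_lit 6) (nat_lit 4) (nat_lit 7) (nat_lit 5) (nat_lit 7) (nat_lit 4) (nat_lit 372) (nat_lit 313) (nat_lit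 215)) (XT.lf (nat_lit 0) (nat_lit 231524322877) (nat_lit 76) (nat_lit 42128403502) (nat_lit 76) (nat_lit 6093730812) (nat_lit 6) (nat_lit 4) (nat_lit 7) (nat_lit 5) (nat_lit 7) (nat_lit 4) (nat_lit 373) (nat_lit 313) (nat_lit 214)))))) (XT.nd (nat_lit 312) (nat_lit 76) (nat_lit 0) (XT.nd (nat_lit 156) (nat_lit 0) (nat_lit 0) (XT.nd (nat_lit 78) (nat_lit 0) (nat_lit 0) (XT.lf (nat_lit 0) (nat_lit 6424187232) (nat_lit 76) (nat_lit 13989356546) (nat_lit 152) (nat_lit 279373539173) (nat_lit 4) (nat_lit 5) (nat_lit 5) (nat_lit 5) (nat_lit 6) (nat_lit 4) (nat_lit 374) (nat_lit 313) (nat_lit 213)) (XT.lf (nat_lit 0) (nat_lit 50457144895) (nat_lit 152) (nat_lit 253732185661) (nat_lit 0) (nat_lit 17089369114) (nat_lit 4) (nat_lit 5) (nat_lit 6) (nat_lit 4) (nat_lit 4) (nat_lit 4) (nat_lit 375) (nat_lit 313) (nat_lit 212))) (XT.nd (nat_lit 78) (nat_lit 0) (nat_lit 0) (XT.lf (nat_lit 0) (nat_lit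 83265556530) (nat_lit 152) (nat_lit 211298443794) (nat_lit 0) (nat_lit 49896739925) (nat_lit 4) (nat_lit 5) (nat_lit 6) (nat_lit 4) (nat_lit 4) (nat_lit 4) (nat_lit 376) (nat_lit 313) (nat_lit 211)) (XT.lf (nat_lit 0) (nat_lit 118696754537) (nat_lit 152) (nat_lit 165473766545) (nat_lit 0) (nat_lit 85326974207) (nat_lit 4) (nat_lit 5) (nat_lit 6) (nat_lit 4) (nat_lit 4) (nat_lit 4) (nat_lit 377) (nat_lit 313) (nat_lit 210)))) (XT.nd (nat_lit 156) (nat_lit 76) (nat_lit 0) (XT.nd (nat_lit 78) (nat_lit 0) (nat_lit 0) (XT.lf (nat_lit 0) (nat_lit 156960701573) (nat_lit 152) (nat_lit 115986600272) (nat_lit 0) (nat_lit 123590028904) (nat_lit 4) (nat_lit 5) (nat_lit 6) (nat_lit 4) (nat_lit 4) (nat_lit 4) (nat_lit 378) (nat_lit 313) (nat_lit 209)) (XT.lf (nat_lit 0) (nat_lit 198284146952) (nat_lit 152) (nat_lit 62543687693) (nat_lit 0) (nat_lit 164912648044) (nat_lit 4) (nat_lit 5) (nat_lit 6)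 (nat_lit 4) (nat_lit 4) (nat_lit 4) (nat_lit 379) (nat_lit 313) (nat_lit 208))) (XT.nd (nat_lit 78) (nat_lit 76) (nat_lit 0) (XT.lf (nat_lit 0) (nat_lit 242911970351) (nat_lit 152) (nat_lit 4828330066) (nat_lit 0) (nat_lit 209539706407) (nat_lit 4) (nat_lit 5) (nat_lit 6) (nat_lit 4) (nat_lit 4) (nat_lit 4) (nat_lit 380) (nat_lit 313) (nat_lit 207)) (XT.nd (nat_lit 78) (nat_lit 0) (nat_lit 0) (XT.lf (nat_lit 0) (nat_lit 60529416078) (nat_lit 76) (nat_lit 232034950780) (nat_lit 76) (nat_lit 198661978469) (nat_lit 3) (nat_lit 4) (nat_lit 4) (nat_lit 5) (nat_lit 4) (nat_lit 4) (nat_lit 381) (nat_lit 313) (nat_lit 206)) (XT.lf (nat_lit 0) (nat_lit 131387676737) (nat_lit 76) (nat_lit 214931944637) (nat_lit 76) (nat_lit 181558316431) (nat_lit 3) (nat_lit 4) (nat_lit 4) (nat_lit 5) (nat_lit 4) (nat_lit 4) (nat_lit 382) (nat_lit 313) (nat_lit 205))))))))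
noncomputable def xc137 : XT := (XT.nd (nat_lit 1404) (nat_lit 0) (nat_lit 0) (XT.nd (nat_lit 702) (nat_lit 0) (nat_lit 0) (XT.nd (nat_lit 312) (nat_lit 152) (nat_lit 0) (XT.nd (nat_lit 156) (nat_lit 0) (nat_lit 0) (XT.nd (nat_lit 78) (nat_lit 0) (nat_lit 0) (XT.lf (nat_lit 0) (nat_lit 207912101409) (nat_lit 76) (nat_lit 196461945942) (nat_lit 76) (nat_lit 163087710426) (nat_lit 3) (nat_lit 4) (nat_lit 4) (nat_lit 5) (nat_lit 4) (nat_lit 4) (nat_lit 383) (nat_lit 313) (nat_lit 204)) (XT.lf (nat_lit 0) (nat_lit 290556168165) (nat_lit 76) (nat_lit 176515502852) (nat_lit 76) (nat_lit 143140705012) (nat_lit 3) (nat_lit 4) (nat_lit 4) (nat_lit 5) (nat_lit 4) (nat_lit 4) (nat_lit 384) (nat_lit 313) (nat_lit 203))) (XT.nd (nat_lit 78) (nat_lit 0) (nat_lit 0) (XT.lf (nat_lit 0) (nat_lit 379809619623) (nat_lit 76) (nat_lit 154974414222) (nat_lit 76) (nat_lit 121599095711) (nat_lit 3) (nat_lit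 4) (nat_lit 4) (nat_lit 5) (nat_lit 4) (nat_lit 4) (nat_lit 385) (nat_lit 313) (nat_lit 202)) (XT.lf (nat_lit 0) (nat_lit 476201365126) (nat_lit 76) (nat_lit 131711029157) (nat_lit 76) (nat_lit 98335228543) (nat_lit 3) (nat_lit 4) (nat_lit 4) (nat_lit 5) (nat_lit 4) (nat_lit 4) (nat_lit 386) (nat_lit 313) (nat_lit 201)))) (XT.nd (nat_lit 156) (nat_lit 152) (nat_lit 0) (XT.nd (nat_lit 78) (nat_lit 0) (nat_lit 0) (XT.lf (nat_lit 0) (nat_lit 580302615017) (nat_lit 76) (nat_lit 106587490559) (nat_lit 76) (nat_lit 73211243554) (nat_lit 3) (nat_lit 4) (nat_lit 4) (nat_lit 5) (nat_lit 4) (nat_lit 4) (nat_lit 387) (nat_lit 313) (nat_lit 200)) (XT.lf (nat_lit 0) (nat_lit 692730265592) (nat_lit 76) (nat_lit 79454918201) (nat_lit 76) (nat_lit 46078257870) (nat_lit 3) (nat_lit 4) (nat_lit 4) (nat_lit 5) (nat_lit 4) (nat_lit 4) (nat_lit 388) (nat_lit 313) (nat_lit 199))) (XT.nd (nat_lit 78) (nat_lit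 152) (nat_lit 0) (XT.lf (nat_lit 0) (nat_lit 814150554779) (nat_lit 76) (nat_lit 50152526468) (nat_lit 76) (nat_lit 16775483428) (nat_lit 3) (nat_lit 4) (nat_lit 4) (nat_lit 5) (nat_lit 4) (nat_lit 4) (nat_lit 389) (nat_lit 313) (nat_lit 198)) (XT.nd (nat_lit 78) (nat_lit 76) (nat_lit 0) (XT.lf (nat_lit 0) (nat_lit 14126831908) (nat_lit 152) (nat_lit 3993587029) (nat_lit 76) (nat_lit 930769925691) (nat_lit 2) (nat_lit 5) (nat_lit 4) (nat_lit 5) (nat_lit 3) (nat_lit 4) (nat_lit 390) (nat_lit 313) (nat_lit 197)) (XT.lf (nat_lit 0) (nat_lit 48652185530) (nat_lit 152) (nat_lit 955528566070) (nat_lit 0) (nat_lit 17746884132) (nat_lit 1) (nat_lit 5) (nat_lit 3) (nat_lit 4) (nat_lit 1) (nat_lit 4) (nat_lit 391) (nat_lit 313) (nat_lit 196)))))) (XT.nd (nat_lit 312) (nat_lit 0) (nat_lit 0) (XT.nd (nat_lit 156) (nat_lit 0) (nat_lit 0) (XT.nd (nat_lit 78) (nat_lit 0) (nat_lit 0) (XT.lf (nat_lit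 0) (nat_lit 86521565736) (nat_lit 152) (nat_lit 958623801572) (nat_lit 0) (nat_lit 55615983036) (nat_lit 1) (nat_lit 5) (nat_lit 3) (nat_lit 4) (nat_lit 1) (nat_lit 4) (nat_lit 392) (nat_lit 313) (nat_lit 195)) (XT.lf (nat_lit 0) (nat_lit 127419857625) (nat_lit 152) (nat_lit 961967941220) (nat_lit 0) (nat_lit 96514014459) (nat_lit 1) (nat_lit 5) (nat_lit 3) (nat_lit 4) (nat_lit 1) (nat_lit 4) (nat_lit 393) (nat_lit 313) (nat_lit 194))) (XT.nd (nat_lit 78) (nat_lit 0) (nat_lit 0) (XT.lf (nat_lit 0) (nat_lit 171589421443) (nat_lit 152) (nat_lit 965580802138) (nat_lit 0) (nat_lit 140683337106) (nat_lit 1) (nat_lit 5) (nat_lit 3) (nat_lit 4) (nat_lit 1) (nat_lit 4) (nat_lit 394) (nat_lit 313) (nat_lit 193)) (XT.lf (nat_lit 0) (nat_lit 219292002755) (nat_lit 152) (nat_lit 969483793871) (nat_lit 0) (nat_lit 188385695112) (nat_lit 1) (nat_lit 5) (nat_lit 3) (nat_lit 4) (nat_lit 1) (nat_lit 4)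 (nat_lit 395) (nat_lit 313) (nat_lit 192)))) (XT.nd (nat_lit 156) (nat_lit 0) (nat_lit 0) (XT.nd (nat_lit 78) (nat_lit 0) (nat_lit 0) (XT.lf (nat_lit 0) (nat_lit 270810283524) (nat_lit 152) (nat_lit 973700045259) (nat_lit 0) (nat_lit 239903769115) (nat_lit 1) (nat_lit 5) (nat_lit 3) (nat_lit 4) (nat_lit 1) (nat_lit 4) (nat_lit 396) (nat_lit 313) (nat_lit 191)) (XT.lf (nat_lit 0) (nat_lit 326449557266) (nat_lit 152) (nat_lit 978254541496) (nat_lit 0) (nat_lit 295542851407) (nat_lit 1) (nat_lit 5) (nat_lit 3) (nat_lit 4) (nat_lit 1) (nat_lit 4) (nat_lit 397) (nat_lit 313) (nat_lit 190))) (XT.nd (nat_lit 78) (nat_lit 0) (nat_lit 0) (XT.lf (nat_lit 0) (nat_lit 386539538195) (nat_lit 152) (nat_lit 983174272190) (nat_lit 0) (nat_lit 355632655068) (nat_lit 1) (nat_lit 5) (nat_lit 3) (nat_lit 4) (nat_lit 1) (nat_lit 4) (nat_lit 398) (nat_lit 313) (nat_lit 189)) (XT.nd (nat_lit 78) (nat_lit 0)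 (nat_lit 0) (XT.lf (nat_lit 0) (nat_lit 451436315087) (nat_lit 152) (nat_lit 988488391299) (nat_lit 0) (nat_lit 420529267823) (nat_lit 1) (nat_lit 5) (nat_lit 3) (nat_lit 4) (nat_lit 1) (nat_lit 4) (nat_lit 399) (nat_lit 313) (nat_lit 188)) (XT.lf (nat_lit 0) (nat_lit 521524461435) (nat_lit 152) (nat_lit 994228389900) (nat_lit 0) (nat_lit 490617262192) (nat_lit 1) (nat_lit 5) (nat_lit 3) (nat_lit 4) (nat_lit 1) (nat_lit 4) (nat_lit 400) (nat_lit 313) (nat_lit 187))))))) (XT.nd (nat_lit 702) (nat_lit 0) (nat_lit 0) (XT.nd (nat_lit 312) (nat_lit 0) (nat_lit 0) (XT.nd (nat_lit 156) (nat_lit 0) (nat_lit 0) (XT.nd (nat_lit 78) (nat_lit 0) (nat_lit 0) (XT.lf (nat_lit 0) (nat_lit 597219314402) (nat_lit 152) (nat_lit 1000428282800) (nat_lit 0) (nat_lit 566311974438) (nat_lit 1) (nat_lit 5) (nat_lit 3) (nat_lit 4) (nat_lit 1) (nat_lit 4) (nat_lit 401) (nat_lit 313) (nat_lit 186)) (XT.lf (nat_lit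 0) (nat_lit 678969436080) (nat_lit 152) (nat_lit 1007124810105) (nat_lit 0) (nat_lit 648061965819) (nat_lit 1) (nat_lit 5) (nat_lit 3) (nat_lit 4) (nat_lit 1) (nat_lit 4) (nat_lit 402) (nat_lit 313) (nat_lit 185))) (XT.nd (nat_lit 78) (nat_lit 0) (nat_lit 0) (XT.lf (nat_lit 0) (nat_lit 767259271636) (nat_lit 152) (nat_lit 1014357654939) (nat_lit 0) (nat_lit 736351680728) (nat_lit 1) (nat_lit 5) (nat_lit 3) (nat_lit 4) (nat_lit 1) (nat_lit 4) (nat_lit 403) (nat_lit 313) (nat_lit 184)) (XT.lf (nat_lit 0) (nat_lit 862612020093) (nat_lit 152) (nat_lit 1022169678605) (nat_lit 0) (nat_lit 831704317477) (nat_lit 1) (nat_lit 5) (nat_lit 3) (nat_lit 4) (nat_lit 1) (nat_lit 4) (nat_lit 404) (nat_lit 313) (nat_lit 183)))) (XT.nd (nat_lit 156) (nat_lit 0) (nat_lit 0) (XT.nd (nat_lit 78) (nat_lit 0) (nat_lit 0) (XT.lf (nat_lit 0) (nat_lit 965592734776) (nat_lit 152) (nat_lit 1030607174577) (nat_lit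 0) (nat_lit 934684928726) (nat_lit 1) (nat_lit 5) (nat_lit 3) (nat_lit 4) (nat_lit 1) (nat_lit 4) (nat_lit 405) (nat_lit 313) (nat_lit 182)) (XT.lf (nat_lit 0) (nat_lit 1076811671773) (nat_lit 152) (nat_lit 1039720142831) (nat_lit 0) (nat_lit 1045903769950) (nat_lit 1) (nat_lit 5) (nat_lit 3) (nat_lit 4) (nat_lit 1) (nat_lit 4) (nat_lit 406) (nat_lit 313) (nat_lit 181))) (XT.nd (nat_lit 78) (nat_lit 0) (nat_lit 0) (XT.lf (nat_lit 0) (nat_lit 1196927906265) (nat_lit 152) (nat_lit 1049562586142) (nat_lit 0) (nat_lit 1166019915764) (nat_lit 1) (nat_lit 5) (nat_lit 3) (nat_lit 4) (nat_lit 1) (nat_lit 4) (nat_lit 407) (nat_lit 313) (nat_lit 180)) (XT.nd (nat_lit 78) (nat_lit 0) (nat_lit 0) (XT.lf (nat_lit 0) (nat_lit 1326653238161) (nat_lit 152) (nat_lit 1060192830099) (nat_lit 0) (nat_lit 1295745165551) (nat_lit 1) (nat_lit 5) (nat_lit 3) (nat_lit 4) (nat_lit 1) (nat_lit 4) (nat_lit 408)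 (nat_lit 313) (nat_lit 179)) (XT.lf (nat_lit 0) (nat_lit 1466756410168) (nat_lit 152) (nat_lit 1071673868741) (nat_lit 0) (nat_lit 1435848261531) (nat_lit 1) (nat_lit 5) (nat_lit 3) (nat_lit 4) (nat_lit 1) (nat_lit 4) (nat_lit 409) (nat_lit 313) (nat_lit 178)))))) (XT.nd (nat_lit 312) (nat_lit 0) (nat_lit 0) (XT.nd (nat_lit 156) (nat_lit 0) (nat_lit 0) (XT.nd (nat_lit 78) (nat_lit 0) (nat_lit 0) (XT.lf (nat_lit 0) (nat_lit 1618067663306) (nat_lit 152) (nat_lit 1084073737853) (nat_lit 0) (nat_lit 1587159444273) (nat_lit 1) (nat_lit 5) (nat_lit 3) (nat_lit 4) (nat_lit 1) (nat_lit 4) (nat_lit 410) (nat_lit 313) (nat_lit 177)) (XT.lf (nat_lit 0) (nat_lit 1781483656852) (nat_lit 152) (nat_lit 1097465918140) (nat_lit 0) (nat_lit 1750575372637) (nat_lit 1) (nat_lit 5) (nat_lit 3) (nat_lit 4) (nat_lit 1) (nat_lit 4) (nat_lit 411) (nat_lit 313) (nat_lit 176))) (XT.nd (nat_lit 78) (nat_lit 0) (nat_lit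 0) (XT.lf (nat_lit 0) (nat_lit 1957972781879) (nat_lit 152) (nat_lit 1111929770671) (nat_lit 0) (nat_lit 1927064437311) (nat_lit 1) (nat_lit 5) (nat_lit 3) (nat_lit 4) (nat_lit 1) (nat_lit 4) (nat_lit 412) (nat_lit 313) (nat_lit 175)) (XT.lf (nat_lit 0) (nat_lit 2148580899869) (nat_lit 152) (nat_lit 1127551007164) (nat_lit 0) (nat_lit 2117672499419) (nat_lit 1) (nat_lit 5) (nat_lit 3) (nat_lit 4) (nat_lit 1) (nat_lit 4) (nat_lit 413) (nat_lit 313) (nat_lit 174)))) (XT.nd (nat_lit 39156) (nat_lit 0) (nat_lit 4332) (XT.nd (nat_lit 39078) (nat_lit 0) (nat_lit 4332) (XT.lf (nat_lit 0) (nat_lit 2354437540409) (nat_lit 152) (nat_lit 1144422197910) (nat_lit 0) (nat_lit 2323529088217) (nat_lit 1) (nat_lit 5) (nat_lit 3) (nat_lit 4) (nat_lit 1) (nat_lit 4) (nat_lit 414) (nat_lit 313) (nat_lit 173)) (XT.lf (nat_lit 0) (nat_lit 2992019276) (nat_lit 532) (nat_lit 1569913711) (nat_lit 532) (nat_lit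 1569913711) (nat_lit 58) (nat_lit 3) (nat_lit 65) (nat_lit 3) (nat_lit 65) (nat_lit 5) (nat_lit 314) (nat_lit 314) (nat_lit 272))) (XT.nd (nat_lit 78) (nat_lit 0) (nat_lit 76) (XT.lf (nat_lit 76) (nat_lit 2870832671) (nat_lit 0) (nat_lit 3846952156) (nat_lit 532) (nat_lit 5996267784) (nat_lit 59) (nat_lit 5) (nat_lit 58) (nat_lit 3) (nat_lit 65) (nat_lit 5) (nat_lit 315) (nat_lit 314) (nat_lit 271)) (XT.nd (nat_lit 78) (nat_lit 0) (nat_lit 0) (XT.lf (nat_lit 0) (nat_lit 7600170228) (nat_lit 456) (nat_lit 3727628348) (nat_lit 532) (nat_lit 1865510636) (nat_lit 59) (nat_lit 5) (nat_lit 65) (nat_lit 5) (nat_lit 66) (nat_lit 5) (nat_lit 316) (nat_lit 314) (nat_lit 270)) (XT.lf (nat_lit 76) (nat_lit 2896057863) (nat_lit 0) (nat_lit 5787139086) (nat_lit 532) (nat_lit 5017364431) (nat_lit 60) (nat_lit 5) (nat_lit 59) (nat_lit 5) (nat_lit 66) (nat_lit 5) (nat_lit 317) (nat_lit 314) (nat_lit 269))))))))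
noncomputable def xc138 : XT := (XT.nd (nat_lit 1404) (nat_lit 1216) (nat_lit 0) (XT.nd (nat_lit 702) (nat_lit 1064) (nat_lit 0) (XT.nd (nat_lit 312) (nat_lit 684) (nat_lit 0) (XT.nd (nat_lit 156) (nat_lit 380) (nat_lit 0) (XT.nd (nat_lit 78) (nat_lit 0) (nat_lit 0) (XT.lf (nat_lit 0) (nat_lit 9925243237) (nat_lit 456) (nat_lit 4014744816) (nat_lit 532) (nat_lit 302670178) (nat_lit 60) (nat_lit 5) (nat_lit 66) (nat_lit 5) (nat_lit 67) (nat_lit 5) (nat_lit 318) (nat_lit 314) (nat_lit 268)) (XT.lf (nat_lit 76) (nat_lit 3306664710) (nat_lit 0) (nat_lit 8155641955) (nat_lit 532) (nat_lit 3350214541) (nat_lit 61) (nat_lit 5) (nat_lit 60) (nat_lit 5) (nat_lit 67) (nat_lit 5) (nat_lit 319) (nat_lit 314) (nat_lit 267))) (XT.nd (nat_lit 78) (nat_lit 380) (nat_lit 0) (XT.lf (nat_lit 76) (nat_lit 11416155872) (nat_lit 0) (nat_lit 1783670515) (nat_lit 532) (nat_lit 2221994432) (nat_lit 61) (nat_lit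 5) (nat_lit 60) (nat_lit 5) (nat_lit 67) (nat_lit 5) (nat_lit 320) (nat_lit 314) (nat_lit 266)) (XT.lf (nat_lit 0) (nat_lit 4153081351) (nat_lit 456) (nat_lit 11116009362) (nat_lit 532) (nat_lit 795397671) (nat_lit 55) (nat_lit 5) (nat_lit 61) (nat_lit 5) (nat_lit 62) (nat_lit 5) (nat_lit 321) (nat_lit 314) (nat_lit 265)))) (XT.nd (nat_lit 156) (nat_lit 228) (nat_lit 0) (XT.nd (nat_lit 78) (nat_lit 380) (nat_lit 0) (XT.lf (nat_lit 0) (nat_lit 837801257) (nat_lit 532) (nat_lit 3652067012) (nat_lit 76) (nat_lit 12256923609) (nat_lit 54) (nat_lit 5) (nat_lit 61) (nat_lit 5) (nat_lit 55) (nat_lit 5) (nat_lit 322) (nat_lit 314) (nat_lit 264)) (XT.lf (nat_lit 0) (nat_lit 2732219081) (nat_lit 456) (nat_lit 12044877734) (nat_lit 76) (nat_lit 2691081725) (nat_lit 49) (nat_lit 5) (nat_lit 55) (nat_lit 5) (nat_lit 50) (nat_lit 5) (nat_lit 323) (nat_lit 314) (nat_lit 263))) (XT.nd (nat_lit 78) (nat_lit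 228) (nat_lit 0) (XT.lf (nat_lit 0) (nat_lit 4971866492) (nat_lit 456) (nat_lit 2952998167) (nat_lit 76) (nat_lit 10306949301) (nat_lit 49) (nat_lit 5) (nat_lit 55) (nat_lit 5) (nat_lit 50) (nat_lit 5) (nat_lit 324) (nat_lit 314) (nat_lit 262)) (XT.nd (nat_lit 78) (nat_lit 0) (nat_lit 0) (XT.lf (nat_lit 0) (nat_lit 7201585025) (nat_lit 228) (nat_lit 338788420) (nat_lit 304) (nat_lit 11504221304) (nat_lit 46) (nat_lit 5) (nat_lit 49) (nat_lit 5) (nat_lit 50) (nat_lit 5) (nat_lit 325) (nat_lit 314) (nat_lit 261)) (XT.lf (nat_lit 0) (nat_lit 10563692605) (nat_lit 304) (nat_lit 1796492835) (nat_lit 76) (nat_lit 7542293393) (nat_lit 46) (nat_lit 5) (nat_lit 50) (nat_lit 5) (nat_lit 47) (nat_lit 5) (nat_lit 326) (nat_lit 314) (nat_lit 260)))))) (XT.nd (nat_lit 312) (nat_lit 380) (nat_lit 0) (XT.nd (nat_lit 156) (nat_lit 456) (nat_lit 0) (XT.nd (nat_lit 78) (nat_lit 0) (nat_lit 0) (XT.lf (nat_lit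 0) (nat_lit 9495857389) (nat_lit 228) (nat_lit 4549455603) (nat_lit 304) (nat_lit 6766391135) (nat_lit 43) (nat_lit 5) (nat_lit 46) (nat_lit 5) (nat_lit 47) (nat_lit 5) (nat_lit 327) (nat_lit 314) (nat_lit 259)) (XT.lf (nat_lit 0) (nat_lit 17929461501) (nat_lit 304) (nat_lit 115725949) (nat_lit 76) (nat_lit 3738583576) (nat_lit 43) (nat_lit 5) (nat_lit 47) (nat_lit 5) (nat_lit 44) (nat_lit 5) (nat_lit 328) (nat_lit 314) (nat_lit 258))) (XT.nd (nat_lit 78) (nat_lit 304) (nat_lit 0) (XT.lf (nat_lit 0) (nat_lit 12462500061) (nat_lit 152) (nat_lit 10061345695) (nat_lit 228) (nat_lit 277818934) (nat_lit 41) (nat_lit 5) (nat_lit 43) (nat_lit 5) (nat_lit 44) (nat_lit 5) (nat_lit 329) (nat_lit 314) (nat_lit 257)) (XT.lf (nat_lit 0) (nat_lit 2150568643) (nat_lit 228) (nat_lit 1291820491) (nat_lit 304) (nat_lit 20448768273) (nat_lit 37) (nat_lit 5) (nat_lit 40) (nat_lit 5) (nat_lit 41) (nat_lit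 5) (nat_lit 330) (nat_lit 314) (nat_lit 256)))) (XT.nd (nat_lit 156) (nat_lit 228) (nat_lit 0) (XT.nd (nat_lit 78) (nat_lit 152) (nat_lit 0) (XT.lf (nat_lit 0) (nat_lit 7914553953) (nat_lit 304) (nat_lit 9053195469) (nat_lit 76) (nat_lit 8061952116) (nat_lit 37) (nat_lit 5) (nat_lit 41) (nat_lit 5) (nat_lit 38) (nat_lit 5) (nat_lit 331) (nat_lit 314) (nat_lit 255)) (XT.lf (nat_lit 0) (nat_lit 4835090601) (nat_lit 152) (nat_lit 8043132022) (nat_lit 228) (nat_lit 13370424089) (nat_lit 35) (nat_lit 5) (nat_lit 37) (nat_lit 5) (nat_lit 38) (nat_lit 5) (nat_lit 332) (nat_lit 314) (nat_lit 254))) (XT.nd (nat_lit 78) (nat_lit 228) (nat_lit 0) (XT.lf (nat_lit 0) (nat_lit 18515721667) (nat_lit 228) (nat_lit 7263746399) (nat_lit 76) (nat_lit 1763515269) (nat_lit 35) (nat_lit 5) (nat_lit 38) (nat_lit 5) (nat_lit 36) (nat_lit 5) (nat_lit 333) (nat_lit 314) (nat_lit 253)) (XT.nd (nat_lit 78) (nat_lit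 76) (nat_lit 0) (XT.lf (nat_lit 0) (nat_lit 8197987622) (nat_lit 152) (nat_lit 16797868798) (nat_lit 228) (nat_lit 3913693294) (nat_lit 33) (nat_lit 5) (nat_lit 35) (nat_lit 5) (nat_lit 36) (nat_lit 5) (nat_lit 334) (nat_lit 314) (nat_lit 252)) (XT.lf (nat_lit 0) (nat_lit 1717996833) (nat_lit 228) (nat_lit 5125119328) (nat_lit 76) (nat_lit 23524079494) (nat_lit 32) (nat_lit 5) (nat_lit 35) (nat_lit 5) (nat_lit 33) (nat_lit 5) (nat_lit 335) (nat_lit 314) (nat_lit 251))))))) (XT.nd (nat_lit 702) (nat_lit 532) (nat_lit 0) (XT.nd (nat_lit 312) (nat_lit 304) (nat_lit 0) (XT.nd (nat_lit 156) (nat_lit 228) (nat_lit 0) (XT.nd (nat_lit 78) (nat_lit 0) (nat_lit 0) (XT.lf (nat_lit 0) (nat_lit 7973017312) (nat_lit 228) (nat_lit 19818164216) (nat_lit 76) (nat_lit 4111411364) (nat_lit 30) (nat_lit 5) (nat_lit 33) (nat_lit 5) (nat_lit 31) (nat_lit 5) (nat_lit 336) (nat_lit 314) (nat_lit 250)) (XT.lf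 (nat_lit 0) (nat_lit 15037117323) (nat_lit 228) (nat_lit 2789021468) (nat_lit 76) (nat_lit 15709998946) (nat_lit 30) (nat_lit 5) (nat_lit 33) (nat_lit 5) (nat_lit 31) (nat_lit 5) (nat_lit 337) (nat_lit 314) (nat_lit 249))) (XT.nd (nat_lit 78) (nat_lit 76) (nat_lit 0) (XT.lf (nat_lit 0) (nat_lit 16404325014) (nat_lit 152) (nat_lit 6644660504) (nat_lit 228) (nat_lit 12220778755) (nat_lit 28) (nat_lit 5) (nat_lit 30) (nat_lit 5) (nat_lit 31) (nat_lit 5) (nat_lit 338) (nat_lit 314) (nat_lit 248)) (XT.lf (nat_lit 0) (nat_lit 4362622) (nat_lit 76) (nat_lit 31894799507) (nat_lit 152) (nat_lit 5227138710) (nat_lit 27) (nat_lit 5) (nat_lit 28) (nat_lit 5) (nat_lit 29) (nat_lit 4) (nat_lit 339) (nat_lit 314) (nat_lit 247)))) (XT.nd (nat_lit 156) (nat_lit 76) (nat_lit 0) (XT.nd (nat_lit 78) (nat_lit 152) (nat_lit 0) (XT.lf (nat_lit 0) (nat_lit 2899946190) (nat_lit 152) (nat_lit 17894533819) (nat_lit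 76) (nat_lit 18277187767) (nat_lit 26) (nat_lit 5) (nat_lit 28) (nat_lit 5) (nat_lit 27) (nat_lit 5) (nat_lit 340) (nat_lit 314) (nat_lit 246)) (XT.lf (nat_lit 0) (nat_lit 2860658708) (nat_lit 152) (nat_lit 8592296375) (nat_lit 228) (nat_lit 29704201569) (nat_lit 24) (nat_lit 5) (nat_lit 26) (nat_lit 5) (nat_lit 27) (nat_lit 5) (nat_lit 341) (nat_lit 314) (nat_lit 245))) (XT.nd (nat_lit 78) (nat_lit 76) (nat_lit 0) (XT.lf (nat_lit 0) (nat_lit 21292039288) (nat_lit 228) (nat_lit 17217347790) (nat_lit 76) (nat_lit 4851957133) (nat_lit 24) (nat_lit 5) (nat_lit 27) (nat_lit 5) (nat_lit 25) (nat_lit 4) (nat_lit 342) (nat_lit 314) (nat_lit 244)) (XT.nd (nat_lit 78) (nat_lit 0) (nat_lit 0) (XT.lf (nat_lit 0) (nat_lit 5587868943) (nat_lit 76) (nat_lit 26678282463) (nat_lit 152) (nat_lit 13447889146) (nat_lit 23) (nat_lit 5) (nat_lit 24) (nat_lit 5) (nat_lit 25) (nat_lit 4) (nat_lit 343) (nat_lit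 314) (nat_lit 243)) (XT.lf (nat_lit 0) (nat_lit 31180472779) (nat_lit 76) (nat_lit 13399135097) (nat_lit 152) (nat_lit 3638436930) (nat_lit 23) (nat_lit 5) (nat_lit 24) (nat_lit 5) (nat_lit 25) (nat_lit 4) (nat_lit 344) (nat_lit 314) (nat_lit 242)))))) (XT.nd (nat_lit 312) (nat_lit 228) (nat_lit 0) (XT.nd (nat_lit 156) (nat_lit 76) (nat_lit 0) (XT.nd (nat_lit 78) (nat_lit 0) (nat_lit 0) (XT.lf (nat_lit 0) (nat_lit 6826189410) (nat_lit 228) (nat_lit 42804360521) (nat_lit 76) (nat_lit 1260971307) (nat_lit 20) (nat_lit 5) (nat_lit 23) (nat_lit 5) (nat_lit 21) (nat_lit 4) (nat_lit 345) (nat_lit 314) (nat_lit 241)) (XT.lf (nat_lit 0) (nat_lit 18748645802) (nat_lit 228) (nat_lit 18021040157) (nat_lit 76) (nat_lit 16936255349) (nat_lit 20) (nat_lit 5) (nat_lit 23) (nat_lit 5) (nat_lit 21) (nat_lit 4) (nat_lit 346) (nat_lit 314) (nat_lit 240))) (XT.nd (nat_lit 78) (nat_lit 0) (nat_lit 0) (XT.lf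 (nat_lit 0) (nat_lit 9190223150) (nat_lit 76) (nat_lit 22647611266) (nat_lit 152) (nat_lit 24890649707) (nat_lit 19) (nat_lit 5) (nat_lit 20) (nat_lit 5) (nat_lit 21) (nat_lit 4) (nat_lit 347) (nat_lit 314) (nat_lit 239)) (XT.lf (nat_lit 0) (nat_lit 39589171125) (nat_lit 76) (nat_lit 6869885168) (nat_lit 152) (nat_lit 13494985917) (nat_lit 19) (nat_lit 5) (nat_lit 20) (nat_lit 5) (nat_lit 21) (nat_lit 4) (nat_lit 348) (nat_lit 314) (nat_lit 238)))) (XT.nd (nat_lit 156) (nat_lit 76) (nat_lit 0) (XT.nd (nat_lit 78) (nat_lit 76) (nat_lit 0) (XT.lf (nat_lit 0) (nat_lit 9183717314) (nat_lit 76) (nat_lit 53524328916) (nat_lit 76) (nat_lit 692956513) (nat_lit 18) (nat_lit 4) (nat_lit 19) (nat_lit 5) (nat_lit 19) (nat_lit 4) (nat_lit 349) (nat_lit 314) (nat_lit 237)) (XT.lf (nat_lit 0) (nat_lit 13218624204) (nat_lit 152) (nat_lit 25347107506) (nat_lit 76) (nat_lit 28473333651) (nat_lit 17) (nat_lit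 5) (nat_lit 19) (nat_lit 5) (nat_lit 18) (nat_lit 4) (nat_lit 350) (nat_lit 314) (nat_lit 236))) (XT.nd (nat_lit 78) (nat_lit 0) (nat_lit 0) (XT.lf (nat_lit 0) (nat_lit 6107682022) (nat_lit 76) (nat_lit 22238099473) (nat_lit 152) (nat_lit 42609747281) (nat_lit 16) (nat_lit 5) (nat_lit 17) (nat_lit 5) (nat_lit 18) (nat_lit 4) (nat_lit 351) (nat_lit 314) (nat_lit 235)) (XT.nd (nat_lit 78) (nat_lit 0) (nat_lit 0) (XT.lf (nat_lit 0) (nat_lit 41508149762) (nat_lit 76) (nat_lit 3861404346) (nat_lit 152) (nat_lit 29760842256) (nat_lit 16) (nat_lit 5) (nat_lit 17) (nat_lit 5) (nat_lit 18) (nat_lit 4) (nat_lit 352) (nat_lit 314) (nat_lit 234)) (XT.lf (nat_lit 0) (nat_lit 64133449354) (nat_lit 152) (nat_lit 294726115) (nat_lit 0) (nat_lit 15180822554) (nat_lit 16) (nat_lit 5) (nat_lit 18) (nat_lit 4) (nat_lit 16) (nat_lit 4) (nat_lit 353) (nat_lit 314) (nat_lit 233))))))))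
noncomputable def xc139 : XT := (XT.nd (nat_lit 1404) (nat_lit 228) (nat_lit 0) (XT.nd (nat_lit 702) (nat_lit 304) (nat_lit 0) (XT.nd (nat_lit 312) (nat_lit 228) (nat_lit 0) (XT.nd (nat_lit 156) (nat_lit 76) (nat_lit 0) (XT.nd (nat_lit 78) (nat_lit 0) (nat_lit 0) (XT.lf (nat_lit 0) (nat_lit 976283627) (nat_lit 152) (nat_lit 46929084908) (nat_lit 76) (nat_lit 36458905139) (nat_lit 14) (nat_lit 5) (nat_lit 16) (nat_lit 5) (nat_lit 15) (nat_lit 4) (nat_lit 354) (nat_lit 314) (nat_lit 232)) (XT.lf (nat_lit 0) (nat_lit 17910707482) (nat_lit 152) (nat_lit 11712083337) (nat_lit 76) (nat_lit 59844823297) (nat_lit 14) (nat_lit 5) (nat_lit 16) (nat_lit 5) (nat_lit 15) (nat_lit 4) (nat_lit 355) (nat_lit 314) (nat_lit 231))) (XT.nd (nat_lit 78) (nat_lit 0) (nat_lit 0) (XT.lf (nat_lit 0) (nat_lit 27697794209) (nat_lit 76) (nat_lit 9162907842) (nat_lit 152) (nat_lit 58065656114) (nat_lit 13) (nat_lit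 5) (nat_lit 14) (nat_lit 5) (nat_lit 15) (nat_lit 4) (nat_lit 356) (nat_lit 314) (nat_lit 230)) (XT.lf (nat_lit 0) (nat_lit 57961031606) (nat_lit 152) (nat_lit 30199108589) (nat_lit 0) (nat_lit 12610916295) (nat_lit 13) (nat_lit 5) (nat_lit 15) (nat_lit 4) (nat_lit 13) (nat_lit 4) (nat_lit 357) (nat_lit 314) (nat_lit 229)))) (XT.nd (nat_lit 156) (nat_lit 152) (nat_lit 0) (XT.nd (nat_lit 78) (nat_lit 0) (nat_lit 0) (XT.lf (nat_lit 0) (nat_lit 10048006195) (nat_lit 76) (nat_lit 71176155291) (nat_lit 76) (nat_lit 25821188746) (nat_lit 12) (nat_lit 4) (nat_lit 13) (nat_lit 5) (nat_lit 13) (nat_lit 4) (nat_lit 358) (nat_lit 314) (nat_lit 228)) (XT.lf (nat_lit 0) (nat_lit 55223235347) (nat_lit 76) (nat_lit 51946067514) (nat_lit 76) (nat_lit 6586609087) (nat_lit 12) (nat_lit 4) (nat_lit 13) (nat_lit 5) (nat_lit 13) (nat_lit 4) (nat_lit 359) (nat_lit 314) (nat_lit 227))) (XT.nd (nat_lit 78) (nat_lit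 76) (nat_lit 0) (XT.lf (nat_lit 0) (nat_lit 13472558583) (nat_lit 152) (nat_lit 17340695724) (nat_lit 76) (nat_lit 90163130176) (nat_lit 11) (nat_lit 5) (nat_lit 13) (nat_lit 5) (nat_lit 12) (nat_lit 4) (nat_lit 360) (nat_lit 314) (nat_lit 226)) (XT.nd (nat_lit 78) (nat_lit 0) (nat_lit 0) (XT.lf (nat_lit 0) (nat_lit 28387599070) (nat_lit 76) (nat_lit 7071568099) (nat_lit 152) (nat_lit 93247357833) (nat_lit 10) (nat_lit 5) (nat_lit 11) (nat_lit 5) (nat_lit 12) (nat_lit 4) (nat_lit 361) (nat_lit 314) (nat_lit 225)) (XT.lf (nat_lit 0) (nat_lit 60133603246) (nat_lit 152) (nat_lit 58723776445) (nat_lit 0) (nat_lit 18123386168) (nat_lit 10) (nat_lit 5) (nat_lit 12) (nat_lit 4) (nat_lit 10) (nat_lit 4) (nat_lit 362) (nat_lit 314) (nat_lit 224)))))) (XT.nd (nat_lit 312) (nat_lit 152) (nat_lit 0) (XT.nd (nat_lit 156) (nat_lit 76) (nat_lit 0) (XT.nd (nat_lit 78) (nat_lit 76) (nat_lit 0) (XT.lf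 (nat_lit 0) (nat_lit 86961840483) (nat_lit 152) (nat_lit 13992152419) (nat_lit 0) (nat_lit 44948566306) (nat_lit 10) (nat_lit 5) (nat_lit 12) (nat_lit 4) (nat_lit 10) (nat_lit 4) (nat_lit 363) (nat_lit 314) (nat_lit 223)) (XT.lf (nat_lit 0) (nat_lit 36117855212) (nat_lit 76) (nat_lit 80683569719) (nat_lit 76) (nat_lit 38667464893) (nat_lit 9) (nat_lit 4) (nat_lit 10) (nat_lit 5) (nat_lit 10) (nat_lit 4) (nat_lit 364) (nat_lit 314) (nat_lit 222))) (XT.nd (nat_lit 78) (nat_lit 76) (nat_lit 0) (XT.lf (nat_lit 0) (nat_lit 91025676730) (nat_lit 76) (nat_lit 58381623414) (nat_lit 76) (nat_lit 16362897619) (nat_lit 9) (nat_lit 4) (nat_lit 10) (nat_lit 5) (nat_lit 10) (nat_lit 4) (nat_lit 365) (nat_lit 314) (nat_lit 221)) (XT.lf (nat_lit 0) (nat_lit 7336272936) (nat_lit 152) (nat_lit 26761704912) (nat_lit 76) (nat_lit 142783030226) (nat_lit 8) (nat_lit 5) (nat_lit 10) (nat_lit 5) (nat_lit 9)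 (nat_lit 4) (nat_lit 366) (nat_lit 314) (nat_lit 220)))) (XT.nd (nat_lit 156) (nat_lit 76) (nat_lit 0) (XT.nd (nat_lit 78) (nat_lit 0) (nat_lit 0) (XT.lf (nat_lit 0) (nat_lit 25925702187) (nat_lit 76) (nat_lit 6742135248) (nat_lit 152) (nat_lit 156129207035) (nat_lit 7) (nat_lit 5) (nat_lit 8) (nat_lit 5) (nat_lit 9) (nat_lit 4) (nat_lit 367) (nat_lit 314) (nat_lit 219)) (XT.lf (nat_lit 0) (nat_lit 61322023242) (nat_lit 152) (nat_lit 117831111937) (nat_lit 0) (nat_lit 22409541492) (nat_lit 7) (nat_lit 5) (nat_lit 9) (nat_lit 4) (nat_lit 7) (nat_lit 4) (nat_lit 368) (nat_lit 314) (nat_lit 218))) (XT.nd (nat_lit 78) (nat_lit 76) (nat_lit 0) (XT.lf (nat_lit 0) (nat_lit 92440872956) (nat_lit 152) (nat_lit 69368293290) (nat_lit 0) (nat_lit 53526607417) (nat_lit 7) (nat_lit 5) (nat_lit 9) (nat_lit 4) (nat_lit 7) (nat_lit 4) (nat_lit 369) (nat_lit 314) (nat_lit 217)) (XT.nd (nat_lit 78) (nat_lit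 76) (nat_lit 0) (XT.lf (nat_lit 0) (nat_lit 126046646061) (nat_lit 152) (nat_lit 17033550754) (nat_lit 0) (nat_lit 87130728867) (nat_lit 7) (nat_lit 5) (nat_lit 9) (nat_lit 4) (nat_lit 7) (nat_lit 4) (nat_lit 370) (nat_lit 314) (nat_lit 216)) (XT.lf (nat_lit 0) (nat_lit 41562365319) (nat_lit 76) (nat_lit 121775698446) (nat_lit 76) (nat_lit 82858251941) (nat_lit 6) (nat_lit 4) (nat_lit 7) (nat_lit 5) (nat_lit 7) (nat_lit 4) (nat_lit 371) (nat_lit 314) (nat_lit 215))))))) (XT.nd (nat_lit 702) (nat_lit 76) (nat_lit 0) (XT.nd (nat_lit 312) (nat_lit 0) (nat_lit 0) (XT.nd (nat_lit 156) (nat_lit 152) (nat_lit 0) (XT.nd (nat_lit 78) (nat_lit 0) (nat_lit 0) (XT.lf (nat_lit 0) (nat_lit 105810063685) (nat_lit 76) (nat_lit 98266132071) (nat_lit 76) (nat_lit 59347269537) (nat_lit 6) (nat_lit 4) (nat_lit 7) (nat_lit 5) (nat_lit 7) (nat_lit 4) (nat_lit 372) (nat_lit 314) (nat_lit 214)) (XT.lf (nat_lit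 0) (nat_lit 175193314847) (nat_lit 76) (nat_lit 72877909203) (nat_lit 76) (nat_lit 33957735532) (nat_lit 6) (nat_lit 4) (nat_lit 7) (nat_lit 5) (nat_lit 7) (nat_lit 4) (nat_lit 373) (nat_lit 314) (nat_lit 213))) (XT.nd (nat_lit 78) (nat_lit 152) (nat_lit 0) (XT.lf (nat_lit 0) (nat_lit 250123278813) (nat_lit 76) (nat_lit 45460581116) (nat_lit 76) (nat_lit 6539193428) (nat_lit 6) (nat_lit 4) (nat_lit 7) (nat_lit 5) (nat_lit 7) (nat_lit 4) (nat_lit 374) (nat_lit 314) (nat_lit 212)) (XT.lf (nat_lit 0) (nat_lit 7015238735) (nat_lit 76) (nat_lit 15070218241) (nat_lit 152) (nat_lit 301681480085) (nat_lit 4) (nat_lit 5) (nat_lit 5) (nat_lit 5) (nat_lit 6) (nat_lit 4) (nat_lit 375) (nat_lit 314) (nat_lit 211)))) (XT.nd (nat_lit 156) (nat_lit 0) (nat_lit 0) (XT.nd (nat_lit 78) (nat_lit 0) (nat_lit 0) (XT.lf (nat_lit 0) (nat_lit 54530522501) (nat_lit 152) (nat_lit 273957326949) (nat_lit 0) (nat_lit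 18490196019) (nat_lit 4) (nat_lit 5) (nat_lit 6) (nat_lit 4) (nat_lit 4) (nat_lit 4) (nat_lit 376) (nat_lit 314) (nat_lit 210)) (XT.lf (nat_lit 0) (nat_lit 89960880695) (nat_lit 152) (nat_lit 228134325255) (nat_lit 0) (nat_lit 53919661875) (nat_lit 4) (nat_lit 5) (nat_lit 6) (nat_lit 4) (nat_lit 4) (nat_lit 4) (nat_lit 377) (nat_lit 314) (nat_lit 209))) (XT.nd (nat_lit 78) (nat_lit 0) (nat_lit 0) (XT.lf (nat_lit 0) (nat_lit 128224050125) (nat_lit 152) (nat_lit 178648710422) (nat_lit 0) (nat_lit 92182005066) (nat_lit 4) (nat_lit 5) (nat_lit 6) (nat_lit 4) (nat_lit 4) (nat_lit 4) (nat_lit 378) (nat_lit 314) (nat_lit 208)) (XT.nd (nat_lit 78) (nat_lit 0) (nat_lit 0) (XT.lf (nat_lit 0) (nat_lit 169546775499) (nat_lit 152) (nat_lit 125207234362) (nat_lit 0) (nat_lit 133503965404) (nat_lit 4) (nat_lit 5) (nat_lit 6) (nat_lit 4) (nat_lit 4) (nat_lit 4) (nat_lit 379) (nat_lit 314) (nat_lit 207))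 (XT.lf (nat_lit 0) (nat_lit 214173932227) (nat_lit 152) (nat_lit 67493206845) (nat_lit 0) (nat_lit 178130413765) (nat_lit 4) (nat_lit 5) (nat_lit 6) (nat_lit 4) (nat_lit 4) (nat_lit 4) (nat_lit 380) (nat_lit 314) (nat_lit 206)))))) (XT.nd (nat_lit 312) (nat_lit 0) (nat_lit 0) (XT.nd (nat_lit 156) (nat_lit 0) (nat_lit 0) (XT.nd (nat_lit 78) (nat_lit 76) (nat_lit 0) (XT.lf (nat_lit 0) (nat_lit 262369977534) (nat_lit 152) (nat_lit 5164618821) (nat_lit 0) (nat_lit 226325803176) (nat_lit 4) (nat_lit 5) (nat_lit 6) (nat_lit 4) (nat_lit 4) (nat_lit 4) (nat_lit 381) (nat_lit 314) (nat_lit 205)) (XT.lf (nat_lit 0) (nat_lit 65420481759) (nat_lit 76) (nat_lit 250573400015) (nat_lit 76) (nat_lit 214528618346) (nat_lit 3) (nat_lit 4) (nat_lit 4) (nat_lit 5) (nat_lit 4) (nat_lit 4) (nat_lit 382) (nat_lit 314) (nat_lit 204))) (XT.nd (nat_lit 78) (nat_lit 0) (nat_lit 0) (XT.lf (nat_lit 0) (nat_lit 141943794945)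 (nat_lit 76) (nat_lit 232103956849) (nat_lit 76) (nat_lit 196058612856) (nat_lit 3) (nat_lit 4) (nat_lit 4) (nat_lit 5) (nat_lit 4) (nat_lit 4) (nat_lit 383) (nat_lit 314) (nat_lit 203)) (XT.lf (nat_lit 0) (nat_lit 224586832548) (nat_lit 76) (nat_lit 212158028137) (nat_lit 76) (nat_lit 176112163474) (nat_lit 3) (nat_lit 4) (nat_lit 4) (nat_lit 5) (nat_lit 4) (nat_lit 4) (nat_lit 384) (nat_lit 314) (nat_lit 202)))) (XT.nd (nat_lit 156) (nat_lit 0) (nat_lit 0) (XT.nd (nat_lit 78) (nat_lit 0) (nat_lit 0) (XT.lf (nat_lit 0) (nat_lit 313839331087) (nat_lit 76) (nat_lit 190617415784) (nat_lit 76) (nat_lit 154571069018) (nat_lit 3) (nat_lit 4) (nat_lit 4) (nat_lit 5) (nat_lit 4) (nat_lit 4) (nat_lit 385) (nat_lit 314) (nat_lit 201)) (XT.lf (nat_lit 0) (nat_lit 410230194257) (nat_lit 76) (nat_lit 167354471715) (nat_lit 76) (nat_lit 131307678558) (nat_lit 3) (nat_lit 4) (nat_lit 4) (nat_lit 5)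 (nat_lit 4) (nat_lit 4) (nat_lit 386) (nat_lit 314) (nat_lit 200))) (XT.nd (nat_lit 78) (nat_lit 0) (nat_lit 0) (XT.lf (nat_lit 0) (nat_lit 514330627173) (nat_lit 76) (nat_lit 142231341448) (nat_lit 76) (nat_lit 106184134965) (nat_lit 3) (nat_lit 4) (nat_lit 4) (nat_lit 5) (nat_lit 4) (nat_lit 4) (nat_lit 387) (nat_lit 314) (nat_lit 199)) (XT.nd (nat_lit 78) (nat_lit 0) (nat_lit 0) (XT.lf (nat_lit 0) (nat_lit 626757521290) (nat_lit 76) (nat_lit 115099147173) (nat_lit 76) (nat_lit 79051557982) (nat_lit 3) (nat_lit 4) (nat_lit 4) (nat_lit 5) (nat_lit 4) (nat_lit 4) (nat_lit 388) (nat_lit 314) (nat_lit 198)) (XT.lf (nat_lit 0) (nat_lit 748177110053) (nat_lit 76) (nat_lit 85797105517) (nat_lit 76) (nat_lit 49749161966) (nat_lit 3) (nat_lit 4) (nat_lit 4) (nat_lit 5) (nat_lit 4) (nat_lit 4) (nat_lit 389) (nat_lit 314) (nat_lit 197))))))))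
noncomputable def xc140 : XT := (XT.nd (nat_lit 1404) (nat_lit 0) (nat_lit 0) (XT.nd (nat_lit 702) (nat_lit 0) (nat_lit 0) (XT.nd (nat_lit 312) (nat_lit 0) (nat_lit 0) (XT.nd (nat_lit 156) (nat_lit 76) (nat_lit 0) (XT.nd (nat_lit 78) (nat_lit 76) (nat_lit 0) (XT.lf (nat_lit 0) (nat_lit 879308916952) (nat_lit 76) (nat_lit 54151574752) (nat_lit 76) (nat_lit 18103303090) (nat_lit 3) (nat_lit 4) (nat_lit 4) (nat_lit 5) (nat_lit 4) (nat_lit 4) (nat_lit 390) (nat_lit 314) (nat_lit 196)) (XT.lf (nat_lit 0) (nat_lit 15269485609) (nat_lit 152) (nat_lit 4288045400) (nat_lit 76) (nat_lit 1005243038956) (nat_lit 2) (nat_lit 5) (nat_lit 4) (nat_lit 5) (nat_lit 3) (nat_lit 4) (nat_lit 391) (nat_lit 314) (nat_lit 195))) (XT.nd (nat_lit 78) (nat_lit 0) (nat_lit 0) (XT.lf (nat_lit 0) (nat_lit 52556821838) (nat_lit 152) (nat_lit 1031945775543) (nat_lit 0) (nat_lit 19178250754) (nat_lit 1) (nat_lit 5) (nat_lit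 3) (nat_lit 4) (nat_lit 1) (nat_lit 4) (nat_lit 392) (nat_lit 314) (nat_lit 194)) (XT.lf (nat_lit 0) (nat_lit 93454829389) (nat_lit 152) (nat_lit 1035290487353) (nat_lit 0) (nat_lit 60076017134) (nat_lit 1) (nat_lit 5) (nat_lit 3) (nat_lit 4) (nat_lit 1) (nat_lit 4) (nat_lit 393) (nat_lit 314) (nat_lit 193)))) (XT.nd (nat_lit 156) (nat_lit 0) (nat_lit 0) (XT.nd (nat_lit 78) (nat_lit 0) (nat_lit 0) (XT.lf (nat_lit 0) (nat_lit 137624129933) (nat_lit 152) (nat_lit 1038903878050) (nat_lit 0) (nat_lit 104245094371) (nat_lit 1) (nat_lit 5) (nat_lit 3) (nat_lit 4) (nat_lit 1) (nat_lit 4) (nat_lit 394) (nat_lit 314) (nat_lit 192)) (XT.lf (nat_lit 0) (nat_lit 185326467472) (nat_lit 152) (nat_lit 1042807360320) (nat_lit 0) (nat_lit 151947225144) (nat_lit 1) (nat_lit 5) (nat_lit 3) (nat_lit 4) (nat_lit 1) (nat_lit 4) (nat_lit 395) (nat_lit 314) (nat_lit 191))) (XT.nd (nat_lit 78) (nat_lit 0) (nat_lit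 0) (XT.lf (nat_lit 0) (nat_lit 236844522525) (nat_lit 152) (nat_lit 1047024065909) (nat_lit 0) (nat_lit 203465088748) (nat_lit 1) (nat_lit 5) (nat_lit 3) (nat_lit 4) (nat_lit 1) (nat_lit 4) (nat_lit 396) (nat_lit 314) (nat_lit 190)) (XT.nd (nat_lit 78) (nat_lit 0) (nat_lit 0) (XT.lf (nat_lit 0) (nat_lit 292483587270) (nat_lit 152) (nat_lit 1051578982703) (nat_lit 0) (nat_lit 259103976225) (nat_lit 1) (nat_lit 5) (nat_lit 3) (nat_lit 4) (nat_lit 1) (nat_lit 4) (nat_lit 397) (nat_lit 314) (nat_lit 189)) (XT.lf (nat_lit 0) (nat_lit 352573374684) (nat_lit 152) (nat_lit 1056499102800) (nat_lit 0) (nat_lit 319193599502) (nat_lit 1) (nat_lit 5) (nat_lit 3) (nat_lit 4) (nat_lit 1) (nat_lit 4) (nat_lit 398) (nat_lit 314) (nat_lit 188)))))) (XT.nd (nat_lit 312) (nat_lit 0) (nat_lit 0) (XT.nd (nat_lit 156) (nat_lit 0) (nat_lit 0) (XT.nd (nat_lit 78) (nat_lit 0) (nat_lit 0) (XT.lf (nat_lit 0) (nat_lit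 417469972395) (nat_lit 152) (nat_lit 1061813582469) (nat_lit 0) (nat_lit 384090045234) (nat_lit 1) (nat_lit 5) (nat_lit 3) (nat_lit 4) (nat_lit 1) (nat_lit 4) (nat_lit 399) (nat_lit 314) (nat_lit 187)) (XT.lf (nat_lit 0) (nat_lit 487557952836) (nat_lit 152) (nat_lit 1067553914921) (nat_lit 0) (nat_lit 454177884953) (nat_lit 1) (nat_lit 5) (nat_lit 3) (nat_lit 4) (nat_lit 1) (nat_lit 4) (nat_lit 400) (nat_lit 314) (nat_lit 186))) (XT.nd (nat_lit 78) (nat_lit 0) (nat_lit 0) (XT.lf (nat_lit 0) (nat_lit 563252652185) (nat_lit 152) (nat_lit 1073754116943) (nat_lit 0) (nat_lit 529872454005) (nat_lit 1) (nat_lit 5) (nat_lit 3) (nat_lit 4) (nat_lit 1) (nat_lit 4) (nat_lit 401) (nat_lit 314) (nat_lit 185)) (XT.lf (nat_lit 0) (nat_lit 645002631624) (nat_lit 152) (nat_lit 1080450930471) (nat_lit 0) (nat_lit 611622312798) (nat_lit 1) (nat_lit 5) (nat_lit 3) (nat_lit 4) (nat_lit 1) (nat_lit 4) (nat_lit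 402) (nat_lit 314) (nat_lit 184)))) (XT.nd (nat_lit 156) (nat_lit 0) (nat_lit 0) (XT.nd (nat_lit 78) (nat_lit 0) (nat_lit 0) (XT.lf (nat_lit 0) (nat_lit 733292335476) (nat_lit 152) (nat_lit 1087684040327) (nat_lit 0) (nat_lit 699911904941) (nat_lit 1) (nat_lit 5) (nat_lit 3) (nat_lit 4) (nat_lit 1) (nat_lit 4) (nat_lit 403) (nat_lit 314) (nat_lit 183)) (XT.lf (nat_lit 0) (nat_lit 828644961986) (nat_lit 152) (nat_lit 1095496309384) (nat_lit 0) (nat_lit 795264428017) (nat_lit 1) (nat_lit 5) (nat_lit 3) (nat_lit 4) (nat_lit 1) (nat_lit 4) (nat_lit 404) (nat_lit 314) (nat_lit 182))) (XT.nd (nat_lit 78) (nat_lit 0) (nat_lit 0) (XT.lf (nat_lit 0) (nat_lit 931625563755) (nat_lit 152) (nat_lit 1103934032569) (nat_lit 0) (nat_lit 898244934014) (nat_lit 1) (nat_lit 5) (nat_lit 3) (nat_lit 4) (nat_lit 1) (nat_lit 4) (nat_lit 405) (nat_lit 314) (nat_lit 181)) (XT.nd (nat_lit 78) (nat_lit 0) (nat_lit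 0) (XT.lf (nat_lit 0) (nat_lit 1042844396202) (nat_lit 152) (nat_lit 1113047211206) (nat_lit 0) (nat_lit 1009463677782) (nat_lit 1) (nat_lit 5) (nat_lit 3) (nat_lit 4) (nat_lit 1) (nat_lit 4) (nat_lit 406) (nat_lit 314) (nat_lit 180)) (XT.lf (nat_lit 0) (nat_lit 1162960533888) (nat_lit 152) (nat_lit 1122889849316) (nat_lit 0) (nat_lit 1129579733360) (nat_lit 1) (nat_lit 5) (nat_lit 3) (nat_lit 4) (nat_lit 1) (nat_lit 4) (nat_lit 407) (nat_lit 314) (nat_lit 179))))))) (XT.nd (nat_lit 39780) (nat_lit 0) (nat_lit 3648) (XT.nd (nat_lit 312) (nat_lit 0) (nat_lit 0) (XT.nd (nat_lit 156) (nat_lit 0) (nat_lit 0) (XT.nd (nat_lit 78) (nat_lit 0) (nat_lit 0) (XT.lf (nat_lit 0) (nat_lit 1292685776150) (nat_lit 152) (nat_lit 1133520273642) (nat_lit 0) (nat_lit 1259304899594) (nat_lit 1) (nat_lit 5) (nat_lit 3) (nat_lit 4) (nat_lit 1) (nat_lit 4) (nat_lit 408) (nat_lit 314) (nat_lit 178)) (XT.lf (nat_lit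 0) (nat_lit 1432788865161) (nat_lit 152) (nat_lit 1145001479293) (nat_lit 0) (nat_lit 1399407918210) (nat_lit 1) (nat_lit 5) (nat_lit 3) (nat_lit 4) (nat_lit 1) (nat_lit 4) (nat_lit 409) (nat_lit 314) (nat_lit 177))) (XT.nd (nat_lit 78) (nat_lit 0) (nat_lit 0) (XT.lf (nat_lit 0) (nat_lit 1584100041451) (nat_lit 152) (nat_lit 1157401503043) (nat_lit 0) (nat_lit 1550719029319) (nat_lit 1) (nat_lit 5) (nat_lit 3) (nat_lit 4) (nat_lit 1) (nat_lit 4) (nat_lit 410) (nat_lit 314) (nat_lit 176)) (XT.lf (nat_lit 0) (nat_lit 1747515963842) (nat_lit 152) (nat_lit 1170793826513) (nat_lit 0) (nat_lit 1714134891357) (nat_lit 1) (nat_lit 5) (nat_lit 3) (nat_lit 4) (nat_lit 1) (nat_lit 4) (nat_lit 411) (nat_lit 314) (nat_lit 175)))) (XT.nd (nat_lit 156) (nat_lit 0) (nat_lit 0) (XT.nd (nat_lit 78) (nat_lit 0) (nat_lit 0) (XT.lf (nat_lit 0) (nat_lit 1924005022985) (nat_lit 152) (nat_lit 1185257811621)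 (nat_lit 0) (nat_lit 1890623894617) (nat_lit 1) (nat_lit 5) (nat_lit 3) (nat_lit 4) (nat_lit 1) (nat_lit 4) (nat_lit 412) (nat_lit 314) (nat_lit 174)) (XT.lf (nat_lit 0) (nat_lit 2114613079971) (nat_lit 152) (nat_lit 1200879170870) (nat_lit 0) (nat_lit 2081231899860) (nat_lit 1) (nat_lit 5) (nat_lit 3) (nat_lit 4) (nat_lit 1) (nat_lit 4) (nat_lit 413) (nat_lit 314) (nat_lit 173))) (XT.nd (nat_lit 39156) (nat_lit 0) (nat_lit 4332) (XT.lf (nat_lit 0) (nat_lit 2320469664026) (nat_lit 152) (nat_lit 1217750475280) (nat_lit 0) (nat_lit 2287088436005) (nat_lit 1) (nat_lit 5) (nat_lit 3) (nat_lit 4) (nat_lit 1) (nat_lit 4) (nat_lit 414) (nat_lit 314) (nat_lit 172)) (XT.nd (nat_lit 78) (nat_lit 0) (nat_lit 0) (XT.lf (nat_lit 0) (nat_lit 3646492491) (nat_lit 532) (nat_lit 1471035301) (nat_lit 532) (nat_lit 1471035301) (nat_lit 58) (nat_lit 3) (nat_lit 65) (nat_lit 3) (nat_lit 65) (nat_lit 5) (nat_lit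 315) (nat_lit 315) (nat_lit 270)) (XT.lf (nat_lit 76) (nat_lit 3538076652) (nat_lit 0) (nat_lit 4496380027) (nat_lit 532) (nat_lit 5633227610) (nat_lit 59) (nat_lit 5) (nat_lit 58) (nat_lit 3) (nat_lit 65) (nat_lit 5) (nat_lit 316) (nat_lit 315) (nat_lit 269)))))) (XT.nd (nat_lit 312) (nat_lit 760) (nat_lit 0) (XT.nd (nat_lit 156) (nat_lit 0) (nat_lit 76) (XT.nd (nat_lit 78) (nat_lit 0) (nat_lit 0) (XT.lf (nat_lit 0) (nat_lit 8922102230) (nat_lit 456) (nat_lit 3554276476) (nat_lit 532) (nat_lit 1714214545) (nat_lit 59) (nat_lit 5) (nat_lit 65) (nat_lit 5) (nat_lit 66) (nat_lit 5) (nat_lit 317) (nat_lit 315) (nat_lit 268)) (XT.lf (nat_lit 76) (nat_lit 3587366350) (nat_lit 0) (nat_lit 6462575860) (nat_lit 532) (nat_lit 4691908747) (nat_lit 60) (nat_lit 5) (nat_lit 59) (nat_lit 5) (nat_lit 66) (nat_lit 5) (nat_lit 318) (nat_lit 315) (nat_lit 267))) (XT.nd (nat_lit 78) (nat_lit 0) (nat_lit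 0) (XT.lf (nat_lit 0) (nat_lit 11336836494) (nat_lit 456) (nat_lit 3854916072) (nat_lit 532) (nat_lit 139997445) (nat_lit 60) (nat_lit 5) (nat_lit 66) (nat_lit 5) (nat_lit 67) (nat_lit 5) (nat_lit 319) (nat_lit 315) (nat_lit 266)) (XT.lf (nat_lit 76) (nat_lit 4040028790) (nat_lit 0) (nat_lit 8922365393) (nat_lit 532) (nat_lit 2987633281) (nat_lit 61) (nat_lit 5) (nat_lit 60) (nat_lit 5) (nat_lit 67) (nat_lit 5) (nat_lit 320) (nat_lit 315) (nat_lit 265)))) (XT.nd (nat_lit 156) (nat_lit 456) (nat_lit 0) (XT.nd (nat_lit 78) (nat_lit 380) (nat_lit 0) (XT.lf (nat_lit 76) (nat_lit 12763551030) (nat_lit 0) (nat_lit 2032171639) (nat_lit 532) (nat_lit 1815866558) (nat_lit 61) (nat_lit 5) (nat_lit 60) (nat_lit 5) (nat_lit 67) (nat_lit 5) (nat_lit 321) (nat_lit 315) (nat_lit 264)) (XT.lf (nat_lit 0) (nat_lit 4953784765) (nat_lit 456) (nat_lit 12045660251) (nat_lit 532) (nat_lit 308769938) (nat_lit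 55) (nat_lit 5) (nat_lit 61) (nat_lit 5) (nat_lit 62) (nat_lit 5) (nat_lit 322) (nat_lit 315) (nat_lit 263))) (XT.nd (nat_lit 78) (nat_lit 380) (nat_lit 0) (XT.lf (nat_lit 0) (nat_lit 1388837705) (nat_lit 532) (nat_lit 3484366029) (nat_lit 76) (nat_lit 13173987789) (nat_lit 54) (nat_lit 5) (nat_lit 61) (nat_lit 5) (nat_lit 55) (nat_lit 5) (nat_lit 323) (nat_lit 315) (nat_lit 262)) (XT.nd (nat_lit 78) (nat_lit 0) (nat_lit 0) (XT.lf (nat_lit 0) (nat_lit 3409478289) (nat_lit 456) (nat_lit 12522694353) (nat_lit 76) (nat_lit 2896189057) (nat_lit 49) (nat_lit 5) (nat_lit 55) (nat_lit 5) (nat_lit 50) (nat_lit 5) (nat_lit 324) (nat_lit 315) (nat_lit 261)) (XT.lf (nat_lit 0) (nat_lit 5794321073) (nat_lit 456) (nat_lit 2739447650) (nat_lit 76) (nat_lit 11122080054) (nat_lit 49) (nat_lit 5) (nat_lit 55) (nat_lit 5) (nat_lit 50) (nat_lit 5) (nat_lit 325) (nat_lit 315) (nat_lit 260))))))))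
noncomputable def xc141 : XT := (XT.nd (nat_lit 1404) (nat_lit 988) (nat_lit 0) (XT.nd (nat_lit 702) (nat_lit 836) (nat_lit 0) (XT.nd (nat_lit 312) (nat_lit 456) (nat_lit 0) (XT.nd (nat_lit 156) (nat_lit 380) (nat_lit 0) (XT.nd (nat_lit 78) (nat_lit 0) (nat_lit 0) (XT.lf (nat_lit 0) (nat_lit 8216115099) (nat_lit 228) (nat_lit 331277443) (nat_lit 304) (nat_lit 11987972317) (nat_lit 46) (nat_lit 5) (nat_lit 49) (nat_lit 5) (nat_lit 50) (nat_lit 5) (nat_lit 326) (nat_lit 315) (nat_lit 259)) (XT.lf (nat_lit 0) (nat_lit 11783437727) (nat_lit 304) (nat_lit 1504686082) (nat_lit 76) (nat_lit 8176123638) (nat_lit 46) (nat_lit 5) (nat_lit 50) (nat_lit 5) (nat_lit 47) (nat_lit 5) (nat_lit 327) (nat_lit 315) (nat_lit 258))) (XT.nd (nat_lit 78) (nat_lit 152) (nat_lit 0) (XT.lf (nat_lit 0) (nat_lit 10680026180) (nat_lit 228) (nat_lit 4846018974) (nat_lit 304) (nat_lit 6921602923) (nat_lit 43) (nat_lit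 5) (nat_lit 46) (nat_lit 5) (nat_lit 47) (nat_lit 5) (nat_lit 328) (nat_lit 315) (nat_lit 257)) (XT.lf (nat_lit 0) (nat_lit 308866521) (nat_lit 152) (nat_lit 19394535635) (nat_lit 228) (nat_lit 3795511435) (nat_lit 41) (nat_lit 5) (nat_lit 43) (nat_lit 5) (nat_lit 44) (nat_lit 5) (nat_lit 329) (nat_lit 315) (nat_lit 256)))) (XT.nd (nat_lit 156) (nat_lit 152) (nat_lit 0) (XT.nd (nat_lit 78) (nat_lit 228) (nat_lit 0) (XT.lf (nat_lit 0) (nat_lit 40912413) (nat_lit 228) (nat_lit 10733774082) (nat_lit 76) (nat_lit 13825276427) (nat_lit 40) (nat_lit 5) (nat_lit 43) (nat_lit 5) (nat_lit 41) (nat_lit 5) (nat_lit 330) (nat_lit 315) (nat_lit 255)) (XT.lf (nat_lit 0) (nat_lit 2737154493) (nat_lit 228) (nat_lit 1292398648) (nat_lit 304) (nat_lit 21747643515) (nat_lit 37) (nat_lit 5) (nat_lit 40) (nat_lit 5) (nat_lit 41) (nat_lit 5) (nat_lit 331) (nat_lit 315) (nat_lit 254))) (XT.nd (nat_lit 78) (nat_lit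 152) (nat_lit 0) (XT.lf (nat_lit 0) (nat_lit 8838685340) (nat_lit 304) (nat_lit 9372523198) (nat_lit 76) (nat_lit 8797303319) (nat_lit 37) (nat_lit 5) (nat_lit 41) (nat_lit 5) (nat_lit 38) (nat_lit 5) (nat_lit 332) (nat_lit 315) (nat_lit 253)) (XT.nd (nat_lit 78) (nat_lit 0) (nat_lit 0) (XT.lf (nat_lit 0) (nat_lit 5616574419) (nat_lit 152) (nat_lit 8570811950) (nat_lit 228) (nat_lit 14138572534) (nat_lit 35) (nat_lit 5) (nat_lit 37) (nat_lit 5) (nat_lit 38) (nat_lit 5) (nat_lit 333) (nat_lit 315) (nat_lit 252)) (XT.lf (nat_lit 0) (nat_lit 20257803680) (nat_lit 228) (nat_lit 7461075898) (nat_lit 76) (nat_lit 2006429192) (nat_lit 35) (nat_lit 5) (nat_lit 38) (nat_lit 5) (nat_lit 36) (nat_lit 5) (nat_lit 334) (nat_lit 315) (nat_lit 251)))))) (XT.nd (nat_lit 312) (nat_lit 456) (nat_lit 0) (XT.nd (nat_lit 156) (nat_lit 152) (nat_lit 0) (XT.nd (nat_lit 78) (nat_lit 76) (nat_lit 0) (XT.lf (nat_lit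 0) (nat_lit 9227881144) (nat_lit 152) (nat_lit 18018143773) (nat_lit 228) (nat_lit 3956019804) (nat_lit 33) (nat_lit 5) (nat_lit 35) (nat_lit 5) (nat_lit 36) (nat_lit 5) (nat_lit 335) (nat_lit 315) (nat_lit 250)) (XT.lf (nat_lit 0) (nat_lit 2093606944) (nat_lit 228) (nat_lit 5176044169) (nat_lit 76) (nat_lit 25507670260) (nat_lit 32) (nat_lit 5) (nat_lit 35) (nat_lit 5) (nat_lit 33) (nat_lit 5) (nat_lit 336) (nat_lit 315) (nat_lit 249))) (XT.nd (nat_lit 78) (nat_lit 0) (nat_lit 0) (XT.lf (nat_lit 0) (nat_lit 8842715394) (nat_lit 228) (nat_lit 21038037215) (nat_lit 76) (nat_lit 4555317414) (nat_lit 30) (nat_lit 5) (nat_lit 33) (nat_lit 5) (nat_lit 31) (nat_lit 5) (nat_lit 337) (nat_lit 315) (nat_lit 248)) (XT.lf (nat_lit 0) (nat_lit 16454768835) (nat_lit 228) (nat_lit 2673643058) (nat_lit 76) (nat_lit 17073273992) (nat_lit 30) (nat_lit 5) (nat_lit 33) (nat_lit 5) (nat_lit 31) (nat_lit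 5) (nat_lit 338) (nat_lit 315) (nat_lit 247)))) (XT.nd (nat_lit 156) (nat_lit 228) (nat_lit 0) (XT.nd (nat_lit 78) (nat_lit 76) (nat_lit 0) (XT.lf (nat_lit 0) (nat_lit 18046601519) (nat_lit 152) (nat_lit 7053017423) (nat_lit 228) (nat_lit 12975033471) (nat_lit 28) (nat_lit 5) (nat_lit 30) (nat_lit 5) (nat_lit 31) (nat_lit 5) (nat_lit 339) (nat_lit 315) (nat_lit 246)) (XT.lf (nat_lit 0) (nat_lit 339671534) (nat_lit 76) (nat_lit 34313625590) (nat_lit 152) (nat_lit 5426787329) (nat_lit 27) (nat_lit 5) (nat_lit 28) (nat_lit 5) (nat_lit 29) (nat_lit 4) (nat_lit 340) (nat_lit 315) (nat_lit 245))) (XT.nd (nat_lit 78) (nat_lit 152) (nat_lit 0) (XT.lf (nat_lit 0) (nat_lit 3324155865) (nat_lit 152) (nat_lit 19005703113) (nat_lit 76) (nat_lit 19852041396) (nat_lit 26) (nat_lit 5) (nat_lit 28) (nat_lit 5) (nat_lit 27) (nat_lit 5) (nat_lit 341) (nat_lit 315) (nat_lit 244)) (XT.nd (nat_lit 78) (nat_lit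 0) (nat_lit 0) (XT.lf (nat_lit 0) (nat_lit 3401793591) (nat_lit 152) (nat_lit 9152884200) (nat_lit 228) (nat_lit 31880097947) (nat_lit 24) (nat_lit 5) (nat_lit 26) (nat_lit 5) (nat_lit 27) (nat_lit 5) (nat_lit 342) (nat_lit 315) (nat_lit 243)) (XT.lf (nat_lit 0) (nat_lit 23169972566) (nat_lit 228) (nat_lit 18294563216) (nat_lit 76) (nat_lit 5351644297) (nat_lit 24) (nat_lit 5) (nat_lit 27) (nat_lit 5) (nat_lit 25) (nat_lit 4) (nat_lit 343) (nat_lit 315) (nat_lit 242))))))) (XT.nd (nat_lit 702) (nat_lit 380) (nat_lit 0) (XT.nd (nat_lit 312) (nat_lit 304) (nat_lit 0) (XT.nd (nat_lit 156) (nat_lit 228) (nat_lit 0) (XT.nd (nat_lit 78) (nat_lit 0) (nat_lit 0) (XT.lf (nat_lit 0) (nat_lit 6327471554) (nat_lit 76) (nat_lit 28688647368) (nat_lit 152) (nat_lit 14341452640) (nat_lit 23) (nat_lit 5) (nat_lit 24) (nat_lit 5) (nat_lit 25) (nat_lit 4) (nat_lit 344) (nat_lit 315) (nat_lit 241)) (XT.lf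 (nat_lit 0) (nat_lit 33945811615) (nat_lit 76) (nat_lit 14356345820) (nat_lit 152) (nat_lit 3760745553) (nat_lit 23) (nat_lit 5) (nat_lit 24) (nat_lit 5) (nat_lit 25) (nat_lit 4) (nat_lit 345) (nat_lit 315) (nat_lit 240))) (XT.nd (nat_lit 78) (nat_lit 0) (nat_lit 0) (XT.lf (nat_lit 0) (nat_lit 7530105174) (nat_lit 228) (nat_lit 45946700479) (nat_lit 76) (nat_lit 1473333679) (nat_lit 20) (nat_lit 5) (nat_lit 23) (nat_lit 5) (nat_lit 21) (nat_lit 4) (nat_lit 346) (nat_lit 315) (nat_lit 239)) (XT.lf (nat_lit 0) (nat_lit 20394667662) (nat_lit 228) (nat_lit 19201604034) (nat_lit 76) (nat_lit 18394382321) (nat_lit 20) (nat_lit 5) (nat_lit 23) (nat_lit 5) (nat_lit 21) (nat_lit 4) (nat_lit 347) (nat_lit 315) (nat_lit 238)))) (XT.nd (nat_lit 156) (nat_lit 228) (nat_lit 0) (XT.nd (nat_lit 78) (nat_lit 0) (nat_lit 0) (XT.lf (nat_lit 0) (nat_lit 10179949722) (nat_lit 76) (nat_lit 24346338125) (nat_lit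 152) (nat_lit 26729094037) (nat_lit 19) (nat_lit 5) (nat_lit 20) (nat_lit 5) (nat_lit 21) (nat_lit 4) (nat_lit 348) (nat_lit 315) (nat_lit 237)) (XT.lf (nat_lit 0) (nat_lit 42991961037) (nat_lit 76) (nat_lit 7314770387) (nat_lit 152) (nat_lit 14433096229) (nat_lit 19) (nat_lit 5) (nat_lit 20) (nat_lit 5) (nat_lit 21) (nat_lit 4) (nat_lit 349) (nat_lit 315) (nat_lit 236))) (XT.nd (nat_lit 78) (nat_lit 152) (nat_lit 0) (XT.lf (nat_lit 0) (nat_lit 10155921672) (nat_lit 76) (nat_lit 57698062528) (nat_lit 76) (nat_lit 608697922) (nat_lit 18) (nat_lit 4) (nat_lit 19) (nat_lit 5) (nat_lit 19) (nat_lit 4) (nat_lit 350) (nat_lit 315) (nat_lit 235)) (XT.nd (nat_lit 78) (nat_lit 76) (nat_lit 0) (XT.lf (nat_lit 0) (nat_lit 14398990989) (nat_lit 152) (nat_lit 27148442641) (nat_lit 76) (nat_lit 30844877686) (nat_lit 17) (nat_lit 5) (nat_lit 19) (nat_lit 5) (nat_lit 18) (nat_lit 4) (nat_lit 351) (nat_lit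 315) (nat_lit 234)) (XT.lf (nat_lit 0) (nat_lit 6816997556) (nat_lit 76) (nat_lit 23915529182) (nat_lit 152) (nat_lit 45889872236) (nat_lit 16) (nat_lit 5) (nat_lit 17) (nat_lit 5) (nat_lit 18) (nat_lit 4) (nat_lit 352) (nat_lit 315) (nat_lit 233)))))) (XT.nd (nat_lit 312) (nat_lit 228) (nat_lit 0) (XT.nd (nat_lit 156) (nat_lit 152) (nat_lit 0) (XT.nd (nat_lit 78) (nat_lit 0) (nat_lit 0) (XT.lf (nat_lit 0) (nat_lit 45033154495) (nat_lit 76) (nat_lit 4076225722) (nat_lit 152) (nat_lit 32022584796) (nat_lit 16) (nat_lit 5) (nat_lit 17) (nat_lit 5) (nat_lit 18) (nat_lit 4) (nat_lit 353) (nat_lit 315) (nat_lit 232)) (XT.lf (nat_lit 0) (nat_lit 69368314813) (nat_lit 152) (nat_lit 122977425) (nat_lit 0) (nat_lit 16478051470) (nat_lit 16) (nat_lit 5) (nat_lit 18) (nat_lit 4) (nat_lit 16) (nat_lit 4) (nat_lit 354) (nat_lit 315) (nat_lit 231))) (XT.nd (nat_lit 78) (nat_lit 0) (nat_lit 0) (XT.lf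 (nat_lit 0) (nat_lit 1158095762) (nat_lit 152) (nat_lit 50487535313) (nat_lit 76) (nat_lit 39459454303) (nat_lit 14) (nat_lit 5) (nat_lit 16) (nat_lit 5) (nat_lit 15) (nat_lit 4) (nat_lit 355) (nat_lit 315) (nat_lit 230)) (XT.lf (nat_lit 0) (nat_lit 19439591345) (nat_lit 152) (nat_lit 12467682979) (nat_lit 76) (nat_lit 64710035784) (nat_lit 14) (nat_lit 5) (nat_lit 16) (nat_lit 5) (nat_lit 15) (nat_lit 4) (nat_lit 356) (nat_lit 315) (nat_lit 229)))) (XT.nd (nat_lit 156) (nat_lit 152) (nat_lit 0) (XT.nd (nat_lit 78) (nat_lit 0) (nat_lit 0) (XT.lf (nat_lit 0) (nat_lit 30090393200) (nat_lit 76) (nat_lit 9812330602) (nat_lit 152) (nat_lit 62610261105) (nat_lit 13) (nat_lit 5) (nat_lit 14) (nat_lit 5) (nat_lit 15) (nat_lit 4) (nat_lit 357) (nat_lit 315) (nat_lit 228)) (XT.lf (nat_lit 0) (nat_lit 62686040437) (nat_lit 152) (nat_lit 32446290473) (nat_lit 0) (nat_lit 13693333453) (nat_lit 13)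 (nat_lit 5) (nat_lit 15) (nat_lit 4) (nat_lit 13) (nat_lit 4) (nat_lit 358) (nat_lit 315) (nat_lit 227))) (XT.nd (nat_lit 78) (nat_lit 76) (nat_lit 0) (XT.lf (nat_lit 0) (nat_lit 11016321423) (nat_lit 76) (nat_lit 76791327032) (nat_lit 76) (nat_lit 27794460898) (nat_lit 12) (nat_lit 4) (nat_lit 13) (nat_lit 5) (nat_lit 13) (nat_lit 4) (nat_lit 359) (nat_lit 315) (nat_lit 226)) (XT.nd (nat_lit 78) (nat_lit 76) (nat_lit 0) (XT.lf (nat_lit 0) (nat_lit 59793385593) (nat_lit 76) (nat_lit 56028678209) (nat_lit 76) (nat_lit 7027961010) (nat_lit 12) (nat_lit 4) (nat_lit 13) (nat_lit 5) (nat_lit 13) (nat_lit 4) (nat_lit 360) (nat_lit 315) (nat_lit 225)) (XT.lf (nat_lit 0) (nat_lit 14625637256) (nat_lit 152) (nat_lit 18582957507) (nat_lit 76) (nat_lit 97439859052) (nat_lit 11) (nat_lit 5) (nat_lit 13) (nat_lit 5) (nat_lit 12) (nat_lit 4) (nat_lit 361) (nat_lit 315) (nat_lit 224))))))))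
noncomputable def xc142 : XT := (XT.nd (nat_lit 1404) (nat_lit 228) (nat_lit 0) (XT.nd (nat_lit 702) (nat_lit 228) (nat_lit 0) (XT.nd (nat_lit 312) (nat_lit 152) (nat_lit 0) (XT.nd (nat_lit 156) (nat_lit 76) (nat_lit 0) (XT.nd (nat_lit 78) (nat_lit 0) (nat_lit 0) (XT.lf (nat_lit 0) (nat_lit 30799930140) (nat_lit 76) (nat_lit 7569067363) (nat_lit 152) (nat_lit 100628183679) (nat_lit 10) (nat_lit 5) (nat_lit 11) (nat_lit 5) (nat_lit 12) (nat_lit 4) (nat_lit 362) (nat_lit 315) (nat_lit 223)) (XT.lf (nat_lit 0) (nat_lit 65013493174) (nat_lit 152) (nat_lit 63286911780) (nat_lit 0) (nat_lit 19633269315) (nat_lit 10) (nat_lit 5) (nat_lit 12) (nat_lit 4) (nat_lit 10) (nat_lit 4) (nat_lit 363) (nat_lit 315) (nat_lit 222))) (XT.nd (nat_lit 78) (nat_lit 76) (nat_lit 0) (XT.lf (nat_lit 0) (nat_lit 93982863341) (nat_lit 152) (nat_lit 14986740557) (nat_lit 0) (nat_lit 48600018512) (nat_lit 10) (nat_lit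 5) (nat_lit 12) (nat_lit 4) (nat_lit 10) (nat_lit 4) (nat_lit 364) (nat_lit 315) (nat_lit 221)) (XT.lf (nat_lit 0) (nat_lit 39128908596) (nat_lit 76) (nat_lit 87078884690) (nat_lit 76) (nat_lit 41693613036) (nat_lit 9) (nat_lit 4) (nat_lit 10) (nat_lit 5) (nat_lit 10) (nat_lit 4) (nat_lit 365) (nat_lit 315) (nat_lit 220)))) (XT.nd (nat_lit 156) (nat_lit 76) (nat_lit 0) (XT.nd (nat_lit 78) (nat_lit 76) (nat_lit 0) (XT.lf (nat_lit 0) (nat_lit 98420346578) (nat_lit 76) (nat_lit 62997180504) (nat_lit 76) (nat_lit 17609661791) (nat_lit 9) (nat_lit 4) (nat_lit 10) (nat_lit 5) (nat_lit 10) (nat_lit 4) (nat_lit 366) (nat_lit 315) (nat_lit 219)) (XT.lf (nat_lit 0) (nat_lit 7977945843) (nat_lit 152) (nat_lit 28795471969) (nat_lit 76) (nat_lit 154253677838) (nat_lit 8) (nat_lit 5) (nat_lit 10) (nat_lit 5) (nat_lit 9) (nat_lit 4) (nat_lit 367) (nat_lit 315) (nat_lit 218))) (XT.nd (nat_lit 78) (nat_lit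 0) (nat_lit 0) (XT.lf (nat_lit 0) (nat_lit 28104214550) (nat_lit 76) (nat_lit 7230276010) (nat_lit 152) (nat_lit 168562048838) (nat_lit 7) (nat_lit 5) (nat_lit 8) (nat_lit 5) (nat_lit 9) (nat_lit 4) (nat_lit 368) (nat_lit 315) (nat_lit 217)) (XT.nd (nat_lit 78) (nat_lit 0) (nat_lit 0) (XT.lf (nat_lit 0) (nat_lit 66278209373) (nat_lit 152) (nat_lit 127158070583) (nat_lit 0) (nat_lit 24247367147) (nat_lit 7) (nat_lit 5) (nat_lit 9) (nat_lit 4) (nat_lit 7) (nat_lit 4) (nat_lit 369) (nat_lit 315) (nat_lit 216)) (XT.lf (nat_lit 0) (nat_lit 99882831933) (nat_lit 152) (nat_lit 74825599059) (nat_lit 0) (nat_lit 57850460396) (nat_lit 7) (nat_lit 5) (nat_lit 9) (nat_lit 4) (nat_lit 7) (nat_lit 4) (nat_lit 370) (nat_lit 315) (nat_lit 215)))))) (XT.nd (nat_lit 312) (nat_lit 152) (nat_lit 0) (XT.nd (nat_lit 156) (nat_lit 0) (nat_lit 0) (XT.nd (nat_lit 78) (nat_lit 76) (nat_lit 0) (XT.lf (nat_lit 0)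 (nat_lit 136173608432) (nat_lit 152) (nat_lit 18310903616) (nat_lit 0) (nat_lit 94139820867) (nat_lit 7) (nat_lit 5) (nat_lit 9) (nat_lit 4) (nat_lit 7) (nat_lit 4) (nat_lit 371) (nat_lit 315) (nat_lit 214)) (XT.lf (nat_lit 0) (nat_lit 44970525459) (nat_lit 76) (nat_lit 131476612083) (nat_lit 76) (nat_lit 89441513380) (nat_lit 6) (nat_lit 4) (nat_lit 7) (nat_lit 5) (nat_lit 7) (nat_lit 4) (nat_lit 372) (nat_lit 315) (nat_lit 213))) (XT.nd (nat_lit 78) (nat_lit 0) (nat_lit 0) (XT.lf (nat_lit 0) (nat_lit 114351878886) (nat_lit 76) (nat_lit 106089327970) (nat_lit 76) (nat_lit 64053015251) (nat_lit 6) (nat_lit 4) (nat_lit 7) (nat_lit 5) (nat_lit 7) (nat_lit 4) (nat_lit 373) (nat_lit 315) (nat_lit 212)) (XT.lf (nat_lit 0) (nat_lit 189280085689) (nat_lit 76) (nat_lit 78672869101) (nat_lit 76) (nat_lit 36635432292) (nat_lit 6) (nat_lit 4) (nat_lit 7) (nat_lit 5) (nat_lit 7) (nat_lit 4) (nat_lit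 374) (nat_lit 315) (nat_lit 211)))) (XT.nd (nat_lit 156) (nat_lit 0) (nat_lit 0) (XT.nd (nat_lit 78) (nat_lit 152) (nat_lit 0) (XT.lf (nat_lit 0) (nat_lit 270199164871) (nat_lit 76) (nat_lit 49064767570) (nat_lit 76) (nat_lit 7026289938) (nat_lit 6) (nat_lit 4) (nat_lit 7) (nat_lit 5) (nat_lit 7) (nat_lit 4) (nat_lit 375) (nat_lit 315) (nat_lit 210)) (XT.lf (nat_lit 0) (nat_lit 7642572824) (nat_lit 76) (nat_lit 16243010916) (nat_lit 152) (nat_lit 325780039797) (nat_lit 4) (nat_lit 5) (nat_lit 5) (nat_lit 5) (nat_lit 6) (nat_lit 4) (nat_lit 376) (nat_lit 315) (nat_lit 209))) (XT.nd (nat_lit 78) (nat_lit 0) (nat_lit 0) (XT.lf (nat_lit 0) (nat_lit 58924519526) (nat_lit 152) (nat_lit 295810955658) (nat_lit 0) (nat_lit 19998284623) (nat_lit 4) (nat_lit 5) (nat_lit 6) (nat_lit 4) (nat_lit 4) (nat_lit 4) (nat_lit 377) (nat_lit 315) (nat_lit 208)) (XT.nd (nat_lit 78) (nat_lit 0) (nat_lit 0) (XT.lf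 (nat_lit 0) (nat_lit 97186968951) (nat_lit 152) (nat_lit 246326777344) (nat_lit 0) (nat_lit 58259969012) (nat_lit 4) (nat_lit 5) (nat_lit 6) (nat_lit 4) (nat_lit 4) (nat_lit 4) (nat_lit 378) (nat_lit 315) (nat_lit 207)) (XT.lf (nat_lit 0) (nat_lit 138509027654) (nat_lit 152) (nat_lit 192886631393) (nat_lit 0) (nat_lit 99581319348) (nat_lit 4) (nat_lit 5) (nat_lit 6) (nat_lit 4) (nat_lit 4) (nat_lit 4) (nat_lit 379) (nat_lit 315) (nat_lit 206))))))) (XT.nd (nat_lit 702) (nat_lit 152) (nat_lit 0) (XT.nd (nat_lit 312) (nat_lit 0) (nat_lit 0) (XT.nd (nat_lit 156) (nat_lit 76) (nat_lit 0) (XT.nd (nat_lit 78) (nat_lit 0) (nat_lit 0) (XT.lf (nat_lit 0) (nat_lit 183135567094) (nat_lit 152) (nat_lit 135173835460) (nat_lit 0) (nat_lit 144207202892) (nat_lit 4) (nat_lit 5) (nat_lit 6) (nat_lit 4) (nat_lit 4) (nat_lit 4) (nat_lit 380) (nat_lit 315) (nat_lit 205)) (XT.lf (nat_lit 0) (nat_lit 231331040838)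 (nat_lit 152) (nat_lit 72846387790) (nat_lit 0) (nat_lit 192402069326) (nat_lit 4) (nat_lit 5) (nat_lit 6) (nat_lit 4) (nat_lit 4) (nat_lit 4) (nat_lit 381) (nat_lit 315) (nat_lit 204))) (XT.nd (nat_lit 78) (nat_lit 76) (nat_lit 0) (XT.lf (nat_lit 0) (nat_lit 283381051693) (nat_lit 152) (nat_lit 5534940546) (nat_lit 0) (nat_lit 244451517856) (nat_lit 4) (nat_lit 5) (nat_lit 6) (nat_lit 4) (nat_lit 4) (nat_lit 4) (nat_lit 382) (nat_lit 315) (nat_lit 203)) (XT.lf (nat_lit 0) (nat_lit 70695883326) (nat_lit 76) (nat_lit 270598398535) (nat_lit 76) (nat_lit 231668344028) (nat_lit 3) (nat_lit 4) (nat_lit 4) (nat_lit 5) (nat_lit 4) (nat_lit 4) (nat_lit 383) (nat_lit 315) (nat_lit 202)))) (XT.nd (nat_lit 156) (nat_lit 0) (nat_lit 0) (XT.nd (nat_lit 78) (nat_lit 0) (nat_lit 0) (XT.lf (nat_lit 0) (nat_lit 153337968010) (nat_lit 76) (nat_lit 250652946100) (nat_lit 76) (nat_lit 211722409490) (nat_lit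 3) (nat_lit 4) (nat_lit 4) (nat_lit 5) (nat_lit 4) (nat_lit 4) (nat_lit 384) (nat_lit 315) (nat_lit 201)) (XT.lf (nat_lit 0) (nat_lit 242589584216) (nat_lit 76) (nat_lit 229112774743) (nat_lit 76) (nat_lit 190181791742) (nat_lit 3) (nat_lit 4) (nat_lit 4) (nat_lit 5) (nat_lit 4) (nat_lit 4) (nat_lit 385) (nat_lit 315) (nat_lit 200))) (XT.nd (nat_lit 78) (nat_lit 0) (nat_lit 0) (XT.lf (nat_lit 0) (nat_lit 338979630411) (nat_lit 76) (nat_lit 205850239005) (nat_lit 76) (nat_lit 166918842678) (nat_lit 3) (nat_lit 4) (nat_lit 4) (nat_lit 5) (nat_lit 4) (nat_lit 4) (nat_lit 386) (nat_lit 315) (nat_lit 199)) (XT.nd (nat_lit 78) (nat_lit 0) (nat_lit 0) (XT.lf (nat_lit 0) (nat_lit 443079306869) (nat_lit 76) (nat_lit 180727486821) (nat_lit 76) (nat_lit 141795707786) (nat_lit 3) (nat_lit 4) (nat_lit 4) (nat_lit 5) (nat_lit 4) (nat_lit 4) (nat_lit 387) (nat_lit 315) (nat_lit 198)) (XT.lf (nat_lit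 0) (nat_lit 555505500561) (nat_lit 76) (nat_lit 153595642624) (nat_lit 76) (nat_lit 114663509229) (nat_lit 3) (nat_lit 4) (nat_lit 4) (nat_lit 5) (nat_lit 4) (nat_lit 4) (nat_lit 388) (nat_lit 315) (nat_lit 197)))))) (XT.nd (nat_lit 312) (nat_lit 76) (nat_lit 0) (XT.nd (nat_lit 156) (nat_lit 76) (nat_lit 0) (XT.nd (nat_lit 78) (nat_lit 0) (nat_lit 0) (XT.lf (nat_lit 0) (nat_lit 676924440784) (nat_lit 76) (nat_lit 124293925114) (nat_lit 76) (nat_lit 85361463608) (nat_lit 3) (nat_lit 4) (nat_lit 4) (nat_lit 5) (nat_lit 4) (nat_lit 4) (nat_lit 389) (nat_lit 315) (nat_lit 196)) (XT.lf (nat_lit 0) (nat_lit 808055647182) (nat_lit 76) (nat_lit 92648694483) (nat_lit 76) (nat_lit 53715929171) (nat_lit 3) (nat_lit 4) (nat_lit 4) (nat_lit 5) (nat_lit 4) (nat_lit 4) (nat_lit 390) (nat_lit 315) (nat_lit 195))) (XT.nd (nat_lit 78) (nat_lit 76) (nat_lit 0) (XT.lf (nat_lit 0) (nat_lit 949676193572) (nat_lit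 76) (nat_lit 58472423440) (nat_lit 76) (nat_lit 19539376826) (nat_lit 3) (nat_lit 4) (nat_lit 4) (nat_lit 5) (nat_lit 4) (nat_lit 4) (nat_lit 391) (nat_lit 315) (nat_lit 194)) (XT.lf (nat_lit 0) (nat_lit 16501767321) (nat_lit 152) (nat_lit 4609631049) (nat_lit 76) (nat_lit 1085672357937) (nat_lit 2) (nat_lit 5) (nat_lit 4) (nat_lit 5) (nat_lit 3) (nat_lit 4) (nat_lit 392) (nat_lit 315) (nat_lit 193)))) (XT.nd (nat_lit 156) (nat_lit 0) (nat_lit 0) (XT.nd (nat_lit 78) (nat_lit 0) (nat_lit 0) (XT.lf (nat_lit 0) (nat_lit 56772051283) (nat_lit 152) (nat_lit 1114479939118) (nat_lit 0) (nat_lit 20722469569) (nat_lit 1) (nat_lit 5) (nat_lit 3) (nat_lit 4) (nat_lit 1) (nat_lit 4) (nat_lit 393) (nat_lit 315) (nat_lit 192)) (XT.lf (nat_lit 0) (nat_lit 100941108053) (nat_lit 152) (nat_lit 1118093820352) (nat_lit 0) (nat_lit 64891319574) (nat_lit 1) (nat_lit 5) (nat_lit 3) (nat_lit 4) (nat_lit 1)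 (nat_lit 4) (nat_lit 394) (nat_lit 315) (nat_lit 191))) (XT.nd (nat_lit 78) (nat_lit 0) (nat_lit 0) (XT.lf (nat_lit 0) (nat_lit 148643219876) (nat_lit 152) (nat_lit 1121997756823) (nat_lit 0) (nat_lit 112593239947) (nat_lit 1) (nat_lit 5) (nat_lit 3) (nat_lit 4) (nat_lit 1) (nat_lit 4) (nat_lit 395) (nat_lit 315) (nat_lit 190)) (XT.nd (nat_lit 78) (nat_lit 0) (nat_lit 0) (XT.lf (nat_lit 0) (nat_lit 200161065933) (nat_lit 152) (nat_lit 1126214882968) (nat_lit 0) (nat_lit 164110908736) (nat_lit 1) (nat_lit 5) (nat_lit 3) (nat_lit 4) (nat_lit 1) (nat_lit 4) (nat_lit 396) (nat_lit 315) (nat_lit 189)) (XT.lf (nat_lit 0) (nat_lit 255799937164) (nat_lit 152) (nat_lit 1130770189166) (nat_lit 0) (nat_lit 219749615829) (nat_lit 1) (nat_lit 5) (nat_lit 3) (nat_lit 4) (nat_lit 1) (nat_lit 4) (nat_lit 397) (nat_lit 315) (nat_lit 188))))))))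
noncomputable def xc143 : XT := (XT.nd (nat_lit 40560) (nat_lit 0) (nat_lit 2584) (XT.nd (nat_lit 702) (nat_lit 0) (nat_lit 0) (XT.nd (nat_lit 312) (nat_lit 0) (nat_lit 0) (XT.nd (nat_lit 156) (nat_lit 0) (nat_lit 0) (XT.nd (nat_lit 78) (nat_lit 0) (nat_lit 0) (XT.lf (nat_lit 0) (nat_lit 315889545397) (nat_lit 152) (nat_lit 1135690669823) (nat_lit 0) (nat_lit 279839072084) (nat_lit 1) (nat_lit 5) (nat_lit 3) (nat_lit 4) (nat_lit 1) (nat_lit 4) (nat_lit 398) (nat_lit 315) (nat_lit 187)) (XT.lf (nat_lit 0) (nat_lit 380785977201) (nat_lit 152) (nat_lit 1141005483343) (nat_lit 0) (nat_lit 344735363167) (nat_lit 1) (nat_lit 5) (nat_lit 3) (nat_lit 4) (nat_lit 1) (nat_lit 4) (nat_lit 399) (nat_lit 315) (nat_lit 186))) (XT.nd (nat_lit 78) (nat_lit 0) (nat_lit 0) (XT.lf (nat_lit 0) (nat_lit 450873804022) (nat_lit 152) (nat_lit 1146746124917) (nat_lit 0) (nat_lit 414823059691) (nat_lit 1) (nat_lit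 5) (nat_lit 3) (nat_lit 4) (nat_lit 1) (nat_lit 4) (nat_lit 400) (nat_lit 315) (nat_lit 185)) (XT.lf (nat_lit 0) (nat_lit 526568361132) (nat_lit 152) (nat_lit 1152946613162) (nat_lit 0) (nat_lit 490517496155) (nat_lit 1) (nat_lit 5) (nat_lit 3) (nat_lit 4) (nat_lit 1) (nat_lit 4) (nat_lit 401) (nat_lit 315) (nat_lit 184)))) (XT.nd (nat_lit 156) (nat_lit 0) (nat_lit 0) (XT.nd (nat_lit 78) (nat_lit 0) (nat_lit 0) (XT.lf (nat_lit 0) (nat_lit 608318208868) (nat_lit 152) (nat_lit 1159643691712) (nat_lit 0) (nat_lit 572267232182) (nat_lit 1) (nat_lit 5) (nat_lit 3) (nat_lit 4) (nat_lit 1) (nat_lit 4) (nat_lit 402) (nat_lit 315) (nat_lit 183)) (XT.lf (nat_lit 0) (nat_lit 696607790773) (nat_lit 152) (nat_lit 1166877046958) (nat_lit 0) (nat_lit 660556710653) (nat_lit 1) (nat_lit 5) (nat_lit 3) (nat_lit 4) (nat_lit 1) (nat_lit 4) (nat_lit 403) (nat_lit 315) (nat_lit 182))) (XT.nd (nat_lit 78) (nat_lit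 0) (nat_lit 0) (XT.lf (nat_lit 0) (nat_lit 791960304369) (nat_lit 152) (nat_lit 1174689543229) (nat_lit 0) (nat_lit 755909128476) (nat_lit 1) (nat_lit 5) (nat_lit 3) (nat_lit 4) (nat_lit 1) (nat_lit 4) (nat_lit 404) (nat_lit 315) (nat_lit 181)) (XT.nd (nat_lit 78) (nat_lit 0) (nat_lit 0) (XT.lf (nat_lit 0) (nat_lit 894940801588) (nat_lit 152) (nat_lit 1183127476797) (nat_lit 0) (nat_lit 858889537017) (nat_lit 1) (nat_lit 5) (nat_lit 3) (nat_lit 4) (nat_lit 1) (nat_lit 4) (nat_lit 405) (nat_lit 315) (nat_lit 180)) (XT.lf (nat_lit 0) (nat_lit 1006159537229) (nat_lit 152) (nat_lit 1192240850233) (nat_lit 0) (nat_lit 970108190549) (nat_lit 1) (nat_lit 5) (nat_lit 3) (nat_lit 4) (nat_lit 1) (nat_lit 4) (nat_lit 406) (nat_lit 315) (nat_lit 179)))))) (XT.nd (nat_lit 312) (nat_lit 0) (nat_lit 0) (XT.nd (nat_lit 156) (nat_lit 0) (nat_lit 0) (XT.nd (nat_lit 78) (nat_lit 0) (nat_lit 0) (XT.lf (nat_lit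 0) (nat_lit 1126275585281) (nat_lit 152) (nat_lit 1202083668712) (nat_lit 0) (nat_lit 1090224162573) (nat_lit 1) (nat_lit 5) (nat_lit 3) (nat_lit 4) (nat_lit 1) (nat_lit 4) (nat_lit 407) (nat_lit 315) (nat_lit 178)) (XT.lf (nat_lit 0) (nat_lit 1256000744547) (nat_lit 152) (nat_lit 1212714260047) (nat_lit 0) (nat_lit 1219949251443) (nat_lit 1) (nat_lit 5) (nat_lit 3) (nat_lit 4) (nat_lit 1) (nat_lit 4) (nat_lit 408) (nat_lit 315) (nat_lit 177))) (XT.nd (nat_lit 78) (nat_lit 0) (nat_lit 0) (XT.lf (nat_lit 0) (nat_lit 1396103756711) (nat_lit 152) (nat_lit 1224195620336) (nat_lit 0) (nat_lit 1360052198427) (nat_lit 1) (nat_lit 5) (nat_lit 3) (nat_lit 4) (nat_lit 1) (nat_lit 4) (nat_lit 409) (nat_lit 315) (nat_lit 176)) (XT.lf (nat_lit 0) (nat_lit 1547414861846) (nat_lit 152) (nat_lit 1236595787268) (nat_lit 0) (nat_lit 1511363243209) (nat_lit 1) (nat_lit 5) (nat_lit 3) (nat_lit 4) (nat_lit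 1) (nat_lit 4) (nat_lit 410) (nat_lit 315) (nat_lit 175)))) (XT.nd (nat_lit 156) (nat_lit 0) (nat_lit 0) (XT.nd (nat_lit 78) (nat_lit 0) (nat_lit 0) (XT.lf (nat_lit 0) (nat_lit 1710830718353) (nat_lit 152) (nat_lit 1249988243315) (nat_lit 0) (nat_lit 1674779043833) (nat_lit 1) (nat_lit 5) (nat_lit 3) (nat_lit 4) (nat_lit 1) (nat_lit 4) (nat_lit 411) (nat_lit 315) (nat_lit 174)) (XT.lf (nat_lit 0) (nat_lit 1887319716491) (nat_lit 152) (nat_lit 1264452351179) (nat_lit 0) (nat_lit 1851267990229) (nat_lit 1) (nat_lit 5) (nat_lit 3) (nat_lit 4) (nat_lit 1) (nat_lit 4) (nat_lit 412) (nat_lit 315) (nat_lit 173))) (XT.nd (nat_lit 78) (nat_lit 0) (nat_lit 0) (XT.lf (nat_lit 0) (nat_lit 2077927716992) (nat_lit 152) (nat_lit 1280073824092) (nat_lit 0) (nat_lit 2041875942819) (nat_lit 1) (nat_lit 5) (nat_lit 3) (nat_lit 4) (nat_lit 1) (nat_lit 4) (nat_lit 413) (nat_lit 315) (nat_lit 172)) (XT.nd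 (nat_lit 39234) (nat_lit 0) (nat_lit 4332) (XT.lf (nat_lit 0) (nat_lit 2283784248747) (nat_lit 152) (nat_lit 1296945233746) (nat_lit 0) (nat_lit 2247732430213) (nat_lit 1) (nat_lit 5) (nat_lit 3) (nat_lit 4) (nat_lit 1) (nat_lit 4) (nat_lit 414) (nat_lit 315) (nat_lit 171)) (XT.lf (nat_lit 0) (nat_lit 4294103243) (nat_lit 532) (nat_lit 1396269988) (nat_lit 532) (nat_lit 1396269988) (nat_lit 58) (nat_lit 3) (nat_lit 65) (nat_lit 3) (nat_lit 65) (nat_lit 5) (nat_lit 316) (nat_lit 316) (nat_lit 268))))))) (XT.nd (nat_lit 702) (nat_lit 1064) (nat_lit 0) (XT.nd (nat_lit 312) (nat_lit 684) (nat_lit 0) (XT.nd (nat_lit 156) (nat_lit 0) (nat_lit 76) (XT.nd (nat_lit 78) (nat_lit 0) (nat_lit 76) (XT.lf (nat_lit 76) (nat_lit 4196274849) (nat_lit 0) (nat_lit 5149018840) (nat_lit 532) (nat_lit 5361370732) (nat_lit 59) (nat_lit 5) (nat_lit 58) (nat_lit 3) (nat_lit 65) (nat_lit 5) (nat_lit 317) (nat_lit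 316) (nat_lit 267)) (XT.lf (nat_lit 0) (nat_lit 10247940353) (nat_lit 456) (nat_lit 3434330066) (nat_lit 532) (nat_lit 1593689722) (nat_lit 59) (nat_lit 5) (nat_lit 65) (nat_lit 5) (nat_lit 66) (nat_lit 5) (nat_lit 318) (nat_lit 316) (nat_lit 266))) (XT.nd (nat_lit 78) (nat_lit 0) (nat_lit 0) (XT.lf (nat_lit 76) (nat_lit 4268409034) (nat_lit 0) (nat_lit 7161736976) (nat_lit 532) (nat_lit 4444109150) (nat_lit 60) (nat_lit 5) (nat_lit 59) (nat_lit 5) (nat_lit 66) (nat_lit 5) (nat_lit 319) (nat_lit 316) (nat_lit 265)) (XT.lf (nat_lit 76) (nat_lit 12763978892) (nat_lit 0) (nat_lit 9503060) (nat_lit 532) (nat_lit 3741647732) (nat_lit 60) (nat_lit 5) (nat_lit 59) (nat_lit 5) (nat_lit 66) (nat_lit 5) (nat_lit 320) (nat_lit 316) (nat_lit 264)))) (XT.nd (nat_lit 156) (nat_lit 836) (nat_lit 0) (XT.nd (nat_lit 78) (nat_lit 0) (nat_lit 0) (XT.lf (nat_lit 76) (nat_lit 4765178026) (nat_lit 0) (nat_lit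 9734124516) (nat_lit 532) (nat_lit 2686007436) (nat_lit 61) (nat_lit 5) (nat_lit 60) (nat_lit 5) (nat_lit 67) (nat_lit 5) (nat_lit 321) (nat_lit 316) (nat_lit 263)) (XT.lf (nat_lit 76) (nat_lit 14156808199) (nat_lit 0) (nat_lit 2285458232) (nat_lit 532) (nat_lit 1460546524) (nat_lit 61) (nat_lit 5) (nat_lit 60) (nat_lit 5) (nat_lit 67) (nat_lit 5) (nat_lit 322) (nat_lit 316) (nat_lit 262))) (XT.nd (nat_lit 78) (nat_lit 380) (nat_lit 0) (XT.lf (nat_lit 0) (nat_lit 131369645) (nat_lit 532) (nat_lit 12908962436) (nat_lit 76) (nat_lit 5616752314) (nat_lit 54) (nat_lit 5) (nat_lit 61) (nat_lit 5) (nat_lit 55) (nat_lit 5) (nat_lit 323) (nat_lit 316) (nat_lit 261)) (XT.nd (nat_lit 78) (nat_lit 380) (nat_lit 0) (XT.lf (nat_lit 0) (nat_lit 1914907297) (nat_lit 532) (nat_lit 3368854043) (nat_lit 76) (nat_lit 14173474620) (nat_lit 54) (nat_lit 5) (nat_lit 61) (nat_lit 5) (nat_lit 55) (nat_lit 5)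 (nat_lit 324) (nat_lit 316) (nat_lit 260)) (XT.lf (nat_lit 0) (nat_lit 4075482165) (nat_lit 456) (nat_lit 13108037336) (nat_lit 76) (nat_lit 3119157152) (nat_lit 49) (nat_lit 5) (nat_lit 55) (nat_lit 5) (nat_lit 50) (nat_lit 5) (nat_lit 325) (nat_lit 316) (nat_lit 259)))))) (XT.nd (nat_lit 390) (nat_lit 456) (nat_lit 0) (XT.nd (nat_lit 156) (nat_lit 380) (nat_lit 0) (XT.nd (nat_lit 78) (nat_lit 228) (nat_lit 0) (XT.lf (nat_lit 0) (nat_lit 6621983066) (nat_lit 456) (nat_lit 2572980717) (nat_lit 76) (nat_lit 12003765876) (nat_lit 49) (nat_lit 5) (nat_lit 55) (nat_lit 5) (nat_lit 50) (nat_lit 5) (nat_lit 326) (nat_lit 316) (nat_lit 258)) (XT.lf (nat_lit 0) (nat_lit 9249264451) (nat_lit 228) (nat_lit 328103669) (nat_lit 304) (nat_lit 12572707383) (nat_lit 46) (nat_lit 5) (nat_lit 49) (nat_lit 5) (nat_lit 50) (nat_lit 5) (nat_lit 327) (nat_lit 316) (nat_lit 257))) (XT.nd (nat_lit 78) (nat_lit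 380) (nat_lit 0) (XT.lf (nat_lit 0) (nat_lit 13047314488) (nat_lit 304) (nat_lit 1251667468) (nat_lit 76) (nat_lit 8856316730) (nat_lit 46) (nat_lit 5) (nat_lit 50) (nat_lit 5) (nat_lit 47) (nat_lit 5) (nat_lit 328) (nat_lit 316) (nat_lit 256)) (XT.nd (nat_lit 78) (nat_lit 152) (nat_lit 0) (XT.lf (nat_lit 0) (nat_lit 11898368775) (nat_lit 228) (nat_lit 5175921790) (nat_lit 304) (nat_lit 7144313064) (nat_lit 43) (nat_lit 5) (nat_lit 46) (nat_lit 5) (nat_lit 47) (nat_lit 5) (nat_lit 329) (nat_lit 316) (nat_lit 255)) (XT.lf (nat_lit 0) (nat_lit 711175280) (nat_lit 152) (nat_lit 20862350119) (nat_lit 228) (nat_lit 3781456760) (nat_lit 41) (nat_lit 5) (nat_lit 43) (nat_lit 5) (nat_lit 44) (nat_lit 5) (nat_lit 330) (nat_lit 316) (nat_lit 254))))) (XT.nd (nat_lit 156) (nat_lit 152) (nat_lit 0) (XT.nd (nat_lit 78) (nat_lit 228) (nat_lit 0) (XT.lf (nat_lit 0) (nat_lit 323632786) (nat_lit 228)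 (nat_lit 11227843258) (nat_lit 76) (nat_lit 14993839683) (nat_lit 40) (nat_lit 5) (nat_lit 43) (nat_lit 5) (nat_lit 41) (nat_lit 5) (nat_lit 331) (nat_lit 316) (nat_lit 253)) (XT.lf (nat_lit 0) (nat_lit 3311528395) (nat_lit 228) (nat_lit 1307683988) (nat_lit 304) (nat_lit 23198509335) (nat_lit 37) (nat_lit 5) (nat_lit 40) (nat_lit 5) (nat_lit 41) (nat_lit 5) (nat_lit 332) (nat_lit 316) (nat_lit 252))) (XT.nd (nat_lit 78) (nat_lit 152) (nat_lit 0) (XT.lf (nat_lit 0) (nat_lit 9795237532) (nat_lit 304) (nat_lit 9775164638) (nat_lit 76) (nat_lit 9578586757) (nat_lit 37) (nat_lit 5) (nat_lit 41) (nat_lit 5) (nat_lit 38) (nat_lit 5) (nat_lit 333) (nat_lit 316) (nat_lit 251)) (XT.nd (nat_lit 78) (nat_lit 0) (nat_lit 0) (XT.lf (nat_lit 0) (nat_lit 6404271917) (nat_lit 152) (nat_lit 9157222247) (nat_lit 228) (nat_lit 15011183128) (nat_lit 35) (nat_lit 5) (nat_lit 37) (nat_lit 5) (nat_lit 38) (nat_lit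 5) (nat_lit 334) (nat_lit 316) (nat_lit 250)) (XT.lf (nat_lit 0) (nat_lit 22102042755) (nat_lit 228) (nat_lit 7728940868) (nat_lit 76) (nat_lit 2254248656) (nat_lit 35) (nat_lit 5) (nat_lit 38) (nat_lit 5) (nat_lit 36) (nat_lit 5) (nat_lit 335) (nat_lit 316) (nat_lit 249))))))))
noncomputable def xc144 : XT := (XT.nd (nat_lit 1404) (nat_lit 684) (nat_lit 0) (XT.nd (nat_lit 702) (nat_lit 608) (nat_lit 0) (XT.nd (nat_lit 312) (nat_lit 456) (nat_lit 0) (XT.nd (nat_lit 156) (nat_lit 152) (nat_lit 0) (XT.nd (nat_lit 78) (nat_lit 76) (nat_lit 0) (XT.lf (nat_lit 0) (nat_lit 10286803089) (nat_lit 152) (nat_lit 19353667181) (nat_lit 228) (nat_lit 4040360654) (nat_lit 33) (nat_lit 5) (nat_lit 35) (nat_lit 5) (nat_lit 36) (nat_lit 5) (nat_lit 336) (nat_lit 316) (nat_lit 248)) (XT.lf (nat_lit 0) (nat_lit 2465288199) (nat_lit 228) (nat_lit 5282270445) (nat_lit 76) (nat_lit 27635444723) (nat_lit 32)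 (nat_lit 5) (nat_lit 35) (nat_lit 5) (nat_lit 33) (nat_lit 5) (nat_lit 337) (nat_lit 316) (nat_lit 247))) (XT.nd (nat_lit 78) (nat_lit 0) (nat_lit 0) (XT.lf (nat_lit 0) (nat_lit 9748912372) (nat_lit 228) (nat_lit 22407654148) (nat_lit 76) (nat_lit 5018330891) (nat_lit 30) (nat_lit 5) (nat_lit 33) (nat_lit 5) (nat_lit 31) (nat_lit 5) (nat_lit 338) (nat_lit 316) (nat_lit 246)) (XT.lf (nat_lit 0) (nat_lit 17955205663) (nat_lit 228) (nat_lit 2597325202) (nat_lit 76) (nat_lit 18530421174) (nat_lit 30) (nat_lit 5) (nat_lit 33) (nat_lit 5) (nat_lit 31) (nat_lit 5) (nat_lit 339) (nat_lit 316) (nat_lit 245)))) (XT.nd (nat_lit 156) (nat_lit 228) (nat_lit 0) (XT.nd (nat_lit 78) (nat_lit 76) (nat_lit 0) (XT.lf (nat_lit 0) (nat_lit 19773191870) (nat_lit 152) (nat_lit 7511621024) (nat_lit 228) (nat_lit 13821500154) (nat_lit 28) (nat_lit 5) (nat_lit 30) (nat_lit 5) (nat_lit 31) (nat_lit 5) (nat_lit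 340) (nat_lit 316) (nat_lit 244)) (XT.lf (nat_lit 0) (nat_lit 654019384) (nat_lit 76) (nat_lit 36944897155) (nat_lit 152) (nat_lit 5673582513) (nat_lit 27) (nat_lit 5) (nat_lit 28) (nat_lit 5) (nat_lit 29) (nat_lit 4) (nat_lit 341) (nat_lit 316) (nat_lit 243))) (XT.nd (nat_lit 78) (nat_lit 152) (nat_lit 0) (XT.lf (nat_lit 0) (nat_lit 3754880841) (nat_lit 152) (nat_lit 20251473653) (nat_lit 76) (nat_lit 21536808451) (nat_lit 26) (nat_lit 5) (nat_lit 28) (nat_lit 5) (nat_lit 27) (nat_lit 5) (nat_lit 342) (nat_lit 316) (nat_lit 242)) (XT.nd (nat_lit 78) (nat_lit 0) (nat_lit 0) (XT.lf (nat_lit 0) (nat_lit 3941668719) (nat_lit 152) (nat_lit 9776407902) (nat_lit 228) (nat_lit 34258661005) (nat_lit 24) (nat_lit 5) (nat_lit 26) (nat_lit 5) (nat_lit 27) (nat_lit 5) (nat_lit 343) (nat_lit 316) (nat_lit 241)) (XT.lf (nat_lit 0) (nat_lit 25173236124) (nat_lit 228) (nat_lit 19500778825) (nat_lit 76)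 (nat_lit 5875395349) (nat_lit 24) (nat_lit 5) (nat_lit 27) (nat_lit 5) (nat_lit 25) (nat_lit 4) (nat_lit 344) (nat_lit 316) (nat_lit 240)))))) (XT.nd (nat_lit 312) (nat_lit 304) (nat_lit 0) (XT.nd (nat_lit 156) (nat_lit 228) (nat_lit 0) (XT.nd (nat_lit 78) (nat_lit 0) (nat_lit 0) (XT.lf (nat_lit 0) (nat_lit 7084503551) (nat_lit 76) (nat_lit 30877516856) (nat_lit 152) (nat_lit 15332503730) (nat_lit 23) (nat_lit 5) (nat_lit 24) (nat_lit 5) (nat_lit 25) (nat_lit 4) (nat_lit 345) (nat_lit 316) (nat_lit 239)) (XT.lf (nat_lit 0) (nat_lit 36893730501) (nat_lit 76) (nat_lit 15406499502) (nat_lit 152) (nat_lit 3916915270) (nat_lit 23) (nat_lit 5) (nat_lit 24) (nat_lit 5) (nat_lit 25) (nat_lit 4) (nat_lit 346) (nat_lit 316) (nat_lit 238))) (XT.nd (nat_lit 78) (nat_lit 0) (nat_lit 0) (XT.lf (nat_lit 0) (nat_lit 8267819325) (nat_lit 228) (nat_lit 49380659355) (nat_lit 76) (nat_lit 1686780506) (nat_lit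 20) (nat_lit 5) (nat_lit 23) (nat_lit 5) (nat_lit 21) (nat_lit 4) (nat_lit 347) (nat_lit 316) (nat_lit 237)) (XT.lf (nat_lit 0) (nat_lit 22151524164) (nat_lit 228) (nat_lit 20513864613) (nat_lit 76) (nat_lit 19954433029) (nat_lit 20) (nat_lit 5) (nat_lit 23) (nat_lit 5) (nat_lit 21) (nat_lit 4) (nat_lit 348) (nat_lit 316) (nat_lit 236)))) (XT.nd (nat_lit 156) (nat_lit 228) (nat_lit 0) (XT.nd (nat_lit 78) (nat_lit 0) (nat_lit 0) (XT.lf (nat_lit 0) (nat_lit 11212545905) (nat_lit 76) (nat_lit 26197095550) (nat_lit 152) (nat_lit 28736413633) (nat_lit 19) (nat_lit 5) (nat_lit 20) (nat_lit 5) (nat_lit 21) (nat_lit 4) (nat_lit 349) (nat_lit 316) (nat_lit 235)) (XT.lf (nat_lit 0) (nat_lit 46633355147) (nat_lit 76) (nat_lit 7810183847) (nat_lit 152) (nat_lit 15466440291) (nat_lit 19) (nat_lit 5) (nat_lit 20) (nat_lit 5) (nat_lit 21) (nat_lit 4) (nat_lit 350) (nat_lit 316) (nat_lit 234))) (XT.nd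 (nat_lit 78) (nat_lit 152) (nat_lit 0) (XT.lf (nat_lit 0) (nat_lit 11172019352) (nat_lit 76) (nat_lit 62221132580) (nat_lit 76) (nat_lit 537627714) (nat_lit 18) (nat_lit 4) (nat_lit 19) (nat_lit 5) (nat_lit 19) (nat_lit 4) (nat_lit 351) (nat_lit 316) (nat_lit 233)) (XT.nd (nat_lit 78) (nat_lit 76) (nat_lit 0) (XT.lf (nat_lit 0) (nat_lit 15656257360) (nat_lit 152) (nat_lit 29126187852) (nat_lit 76) (nat_lit 33392781125) (nat_lit 17) (nat_lit 5) (nat_lit 19) (nat_lit 5) (nat_lit 18) (nat_lit 4) (nat_lit 352) (nat_lit 316) (nat_lit 232)) (XT.lf (nat_lit 0) (nat_lit 7551572872) (nat_lit 76) (nat_lit 25741650246) (nat_lit 152) (nat_lit 49450761236) (nat_lit 16) (nat_lit 5) (nat_lit 17) (nat_lit 5) (nat_lit 18) (nat_lit 4) (nat_lit 353) (nat_lit 316) (nat_lit 231))))))) (XT.nd (nat_lit 702) (nat_lit 304) (nat_lit 0) (XT.nd (nat_lit 312) (nat_lit 228) (nat_lit 0) (XT.nd (nat_lit 156) (nat_lit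 76) (nat_lit 0) (XT.nd (nat_lit 78) (nat_lit 76) (nat_lit 0) (XT.lf (nat_lit 0) (nat_lit 48811006402) (nat_lit 76) (nat_lit 4321655937) (nat_lit 152) (nat_lit 34482261230) (nat_lit 16) (nat_lit 5) (nat_lit 17) (nat_lit 5) (nat_lit 18) (nat_lit 4) (nat_lit 354) (nat_lit 316) (nat_lit 230)) (XT.lf (nat_lit 0) (nat_lit 36469988) (nat_lit 76) (nat_lit 74971512826) (nat_lit 76) (nat_lit 17831658731) (nat_lit 15) (nat_lit 4) (nat_lit 16) (nat_lit 5) (nat_lit 16) (nat_lit 4) (nat_lit 355) (nat_lit 316) (nat_lit 229))) (XT.nd (nat_lit 78) (nat_lit 0) (nat_lit 0) (XT.lf (nat_lit 0) (nat_lit 1339657556) (nat_lit 152) (nat_lit 54358605707) (nat_lit 76) (nat_lit 42688087150) (nat_lit 14) (nat_lit 5) (nat_lit 16) (nat_lit 5) (nat_lit 15) (nat_lit 4) (nat_lit 356) (nat_lit 316) (nat_lit 228)) (XT.lf (nat_lit 0) (nat_lit 21077086554) (nat_lit 152) (nat_lit 13309604626) (nat_lit 76) (nat_lit 69953390964)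 (nat_lit 14) (nat_lit 5) (nat_lit 16) (nat_lit 5) (nat_lit 15) (nat_lit 4) (nat_lit 357) (nat_lit 316) (nat_lit 227)))) (XT.nd (nat_lit 156) (nat_lit 152) (nat_lit 0) (XT.nd (nat_lit 78) (nat_lit 0) (nat_lit 0) (XT.lf (nat_lit 0) (nat_lit 32649181117) (nat_lit 76) (nat_lit 10525635064) (nat_lit 152) (nat_lit 67532792985) (nat_lit 13) (nat_lit 5) (nat_lit 14) (nat_lit 5) (nat_lit 15) (nat_lit 4) (nat_lit 358) (nat_lit 316) (nat_lit 226)) (XT.lf (nat_lit 0) (nat_lit 67776477772) (nat_lit 152) (nat_lit 34897320526) (nat_lit 0) (nat_lit 14851852132) (nat_lit 13) (nat_lit 5) (nat_lit 15) (nat_lit 4) (nat_lit 13) (nat_lit 4) (nat_lit 359) (nat_lit 316) (nat_lit 225))) (XT.nd (nat_lit 78) (nat_lit 76) (nat_lit 0) (XT.lf (nat_lit 0) (nat_lit 12038637709) (nat_lit 76) (nat_lit 82866971430) (nat_lit 76) (nat_lit 29938779988) (nat_lit 12) (nat_lit 4) (nat_lit 13) (nat_lit 5) (nat_lit 13) (nat_lit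 4) (nat_lit 360) (nat_lit 316) (nat_lit 224)) (XT.nd (nat_lit 78) (nat_lit 76) (nat_lit 0) (XT.lf (nat_lit 0) (nat_lit 64707421786) (nat_lit 76) (nat_lit 60448322684) (nat_lit 76) (nat_lit 7516829574) (nat_lit 12) (nat_lit 4) (nat_lit 13) (nat_lit 5) (nat_lit 13) (nat_lit 4) (nat_lit 361) (nat_lit 316) (nat_lit 223)) (XT.lf (nat_lit 0) (nat_lit 15860223547) (nat_lit 152) (nat_lit 19945285229) (nat_lit 76) (nat_lit 105289641793) (nat_lit 11) (nat_lit 5) (nat_lit 13) (nat_lit 5) (nat_lit 12) (nat_lit 4) (nat_lit 362) (nat_lit 316) (nat_lit 222)))))) (XT.nd (nat_lit 312) (nat_lit 152) (nat_lit 0) (XT.nd (nat_lit 156) (nat_lit 76) (nat_lit 0) (XT.nd (nat_lit 78) (nat_lit 0) (nat_lit 0) (XT.lf (nat_lit 0) (nat_lit 33385086370) (nat_lit 76) (nat_lit 8116099796) (nat_lit 152) (nat_lit 108610740516) (nat_lit 10) (nat_lit 5) (nat_lit 11) (nat_lit 5) (nat_lit 12) (nat_lit 4) (nat_lit 363) (nat_lit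 316) (nat_lit 221)) (XT.lf (nat_lit 0) (nat_lit 70273901905) (nat_lit 152) (nat_lit 68234323929) (nat_lit 0) (nat_lit 21255381695) (nat_lit 10) (nat_lit 5) (nat_lit 12) (nat_lit 4) (nat_lit 10) (nat_lit 4) (nat_lit 364) (nat_lit 316) (nat_lit 220))) (XT.nd (nat_lit 78) (nat_lit 76) (nat_lit 0) (XT.lf (nat_lit 0) (nat_lit 101556426924) (nat_lit 152) (nat_lit 16078697585) (nat_lit 0) (nat_lit 52535659654) (nat_lit 10) (nat_lit 5) (nat_lit 12) (nat_lit 4) (nat_lit 10) (nat_lit 4) (nat_lit 365) (nat_lit 316) (nat_lit 219)) (XT.lf (nat_lit 0) (nat_lit 42363495089) (nat_lit 76) (nat_lit 93994294740) (nat_lit 76) (nat_lit 44971446859) (nat_lit 9) (nat_lit 4) (nat_lit 10) (nat_lit 5) (nat_lit 10) (nat_lit 4) (nat_lit 366) (nat_lit 316) (nat_lit 218)))) (XT.nd (nat_lit 156) (nat_lit 76) (nat_lit 0) (XT.nd (nat_lit 78) (nat_lit 76) (nat_lit 0) (XT.lf (nat_lit 0) (nat_lit 106390524124) (nat_lit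 76) (nat_lit 67989824643) (nat_lit 76) (nat_lit 18965050271) (nat_lit 9) (nat_lit 4) (nat_lit 10) (nat_lit 5) (nat_lit 10) (nat_lit 4) (nat_lit 367) (nat_lit 316) (nat_lit 217)) (XT.lf (nat_lit 0) (nat_lit 8663138877) (nat_lit 152) (nat_lit 31007229294) (nat_lit 76) (nat_lit 166635128783) (nat_lit 8) (nat_lit 5) (nat_lit 10) (nat_lit 5) (nat_lit 9) (nat_lit 4) (nat_lit 368) (nat_lit 316) (nat_lit 216))) (XT.nd (nat_lit 78) (nat_lit 0) (nat_lit 0) (XT.lf (nat_lit 0) (nat_lit 30442106059) (nat_lit 76) (nat_lit 7764776572) (nat_lit 152) (nat_lit 181997720255) (nat_lit 7) (nat_lit 5) (nat_lit 8) (nat_lit 5) (nat_lit 9) (nat_lit 4) (nat_lit 369) (nat_lit 316) (nat_lit 215)) (XT.nd (nat_lit 78) (nat_lit 0) (nat_lit 0) (XT.lf (nat_lit 0) (nat_lit 71623696809) (nat_lit 152) (nat_lit 137245385031) (nat_lit 0) (nat_lit 26225790210) (nat_lit 7) (nat_lit 5) (nat_lit 9) (nat_lit 4) (nat_lit 7) (nat_lit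 4) (nat_lit 370) (nat_lit 316) (nat_lit 214)) (XT.lf (nat_lit 0) (nat_lit 107913486901) (nat_lit 152) (nat_lit 80732636616) (nat_lit 0) (nat_lit 62514269164) (nat_lit 7) (nat_lit 5) (nat_lit 9) (nat_lit 4) (nat_lit 7) (nat_lit 4) (nat_lit 371) (nat_lit 316) (nat_lit 213))))))))
noncomputable def xc145 : XT := (XT.nd (nat_lit 1404) (nat_lit 152) (nat_lit 0) (XT.nd (nat_lit 702) (nat_lit 76) (nat_lit 0) (XT.nd (nat_lit 312) (nat_lit 152) (nat_lit 0) (XT.nd (nat_lit 156) (nat_lit 0) (nat_lit 0) (XT.nd (nat_lit 78) (nat_lit 76) (nat_lit 0) (XT.lf (nat_lit 0) (nat_lit 147104560452) (nat_lit 152) (nat_lit 19702618157) (nat_lit 0) (nat_lit 101704128699) (nat_lit 7) (nat_lit 5) (nat_lit 9) (nat_lit 4) (nat_lit 7) (nat_lit 4) (nat_lit 372) (nat_lit 316) (nat_lit 212)) (XT.lf (nat_lit 0) (nat_lit 48639473150) (nat_lit 76) (nat_lit 141959468211) (nat_lit 76) (nat_lit 96557912369) (nat_lit 6) (nat_lit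 4) (nat_lit 7) (nat_lit 5) (nat_lit 7) (nat_lit 4) (nat_lit 373) (nat_lit 316) (nat_lit 211))) (XT.nd (nat_lit 78) (nat_lit 0) (nat_lit 0) (XT.lf (nat_lit 0) (nat_lit 123566052951) (nat_lit 76) (nat_lit 114543814172) (nat_lit 76) (nat_lit 69141217506) (nat_lit 6) (nat_lit 4) (nat_lit 7) (nat_lit 5) (nat_lit 7) (nat_lit 4) (nat_lit 374) (nat_lit 316) (nat_lit 210)) (XT.lf (nat_lit 0) (nat_lit 204483625649) (nat_lit 76) (nat_lit 84936457855) (nat_lit 76) (nat_lit 39532897464) (nat_lit 6) (nat_lit 4) (nat_lit 7) (nat_lit 5) (nat_lit 7) (nat_lit 4) (nat_lit 375) (nat_lit 316) (nat_lit 209)))) (XT.nd (nat_lit 156) (nat_lit 0) (nat_lit 0) (XT.nd (nat_lit 78) (nat_lit 152) (nat_lit 0) (XT.lf (nat_lit 0) (nat_lit 291871702788) (nat_lit 76) (nat_lit 52961948259) (nat_lit 76) (nat_lit 7557495529) (nat_lit 6) (nat_lit 4) (nat_lit 7) (nat_lit 5) (nat_lit 7) (nat_lit 4) (nat_lit 376) (nat_lit 316)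 (nat_lit 208)) (XT.lf (nat_lit 0) (nat_lit 8310661598) (nat_lit 76) (nat_lit 17514309828) (nat_lit 152) (nat_lit 351811614196) (nat_lit 4) (nat_lit 5) (nat_lit 5) (nat_lit 5) (nat_lit 6) (nat_lit 4) (nat_lit 377) (nat_lit 316) (nat_lit 207))) (XT.nd (nat_lit 78) (nat_lit 0) (nat_lit 0) (XT.lf (nat_lit 0) (nat_lit 63665534607) (nat_lit 152) (nat_lit 319421856247) (nat_lit 0) (nat_lit 21622901269) (nat_lit 4) (nat_lit 5) (nat_lit 6) (nat_lit 4) (nat_lit 4) (nat_lit 4) (nat_lit 378) (nat_lit 316) (nat_lit 206)) (XT.nd (nat_lit 78) (nat_lit 0) (nat_lit 0) (XT.lf (nat_lit 0) (nat_lit 104986976022) (nat_lit 152) (nat_lit 265982941880) (nat_lit 0) (nat_lit 62943686789) (nat_lit 4) (nat_lit 5) (nat_lit 6) (nat_lit 4) (nat_lit 4) (nat_lit 4) (nat_lit 379) (nat_lit 316) (nat_lit 205)) (XT.lf (nat_lit 0) (nat_lit 149612943899) (nat_lit 152) (nat_lit 208271286302) (nat_lit 0) (nat_lit 107569047355)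 (nat_lit 4) (nat_lit 5) (nat_lit 6) (nat_lit 4) (nat_lit 4) (nat_lit 4) (nat_lit 380) (nat_lit 316) (nat_lit 204)))))) (XT.nd (nat_lit 312) (nat_lit 0) (nat_lit 0) (XT.nd (nat_lit 156) (nat_lit 76) (nat_lit 0) (XT.nd (nat_lit 78) (nat_lit 0) (nat_lit 0) (XT.lf (nat_lit 0) (nat_lit 197807888417) (nat_lit 152) (nat_lit 145944894516) (nat_lit 0) (nat_lit 155763429549) (nat_lit 4) (nat_lit 5) (nat_lit 6) (nat_lit 4) (nat_lit 4) (nat_lit 4) (nat_lit 381) (nat_lit 316) (nat_lit 203)) (XT.lf (nat_lit 0) (nat_lit 249857409249) (nat_lit 152) (nat_lit 78634424943) (nat_lit 0) (nat_lit 207812429710) (nat_lit 4) (nat_lit 5) (nat_lit 6) (nat_lit 4) (nat_lit 4) (nat_lit 4) (nat_lit 382) (nat_lit 316) (nat_lit 202))) (XT.nd (nat_lit 78) (nat_lit 76) (nat_lit 0) (XT.lf (nat_lit 0) (nat_lit 306069947999) (nat_lit 152) (nat_lit 5941000724) (nat_lit 0) (nat_lit 264024486357) (nat_lit 4) (nat_lit 5) (nat_lit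 6) (nat_lit 4) (nat_lit 4) (nat_lit 4) (nat_lit 383) (nat_lit 316) (nat_lit 201)) (XT.lf (nat_lit 0) (nat_lit 76387359056) (nat_lit 76) (nat_lit 292228374773) (nat_lit 76) (nat_lit 250182466741) (nat_lit 3) (nat_lit 4) (nat_lit 4) (nat_lit 5) (nat_lit 4) (nat_lit 4) (nat_lit 384) (nat_lit 316) (nat_lit 200)))) (XT.nd (nat_lit 156) (nat_lit 0) (nat_lit 0) (XT.nd (nat_lit 78) (nat_lit 0) (nat_lit 0) (XT.lf (nat_lit 0) (nat_lit 165638158287) (nat_lit 76) (nat_lit 270688611747) (nat_lit 76) (nat_lit 228642290389) (nat_lit 3) (nat_lit 4) (nat_lit 4) (nat_lit 5) (nat_lit 4) (nat_lit 4) (nat_lit 385) (nat_lit 316) (nat_lit 199)) (XT.lf (nat_lit 0) (nat_lit 262027448024) (nat_lit 76) (nat_lit 247426454092) (nat_lit 76) (nat_lit 205379750025) (nat_lit 3) (nat_lit 4) (nat_lit 4) (nat_lit 5) (nat_lit 4) (nat_lit 4) (nat_lit 386) (nat_lit 316) (nat_lit 198))) (XT.nd (nat_lit 78) (nat_lit 0) (nat_lit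 0) (XT.lf (nat_lit 0) (nat_lit 366126424058) (nat_lit 76) (nat_lit 222304051985) (nat_lit 76) (nat_lit 180256993559) (nat_lit 3) (nat_lit 4) (nat_lit 4) (nat_lit 5) (nat_lit 4) (nat_lit 4) (nat_lit 387) (nat_lit 316) (nat_lit 197)) (XT.nd (nat_lit 78) (nat_lit 0) (nat_lit 0) (XT.lf (nat_lit 0) (nat_lit 478551969209) (nat_lit 76) (nat_lit 195172531934) (nat_lit 76) (nat_lit 153125145396) (nat_lit 3) (nat_lit 4) (nat_lit 4) (nat_lit 5) (nat_lit 4) (nat_lit 4) (nat_lit 388) (nat_lit 316) (nat_lit 196)) (XT.lf (nat_lit 0) (nat_lit 599970308931) (nat_lit 76) (nat_lit 165871114558) (nat_lit 76) (nat_lit 123823424215) (nat_lit 3) (nat_lit 4) (nat_lit 4) (nat_lit 5) (nat_lit 4) (nat_lit 4) (nat_lit 389) (nat_lit 316) (nat_lit 195))))))) (XT.nd (nat_lit 702) (nat_lit 0) (nat_lit 0) (XT.nd (nat_lit 312) (nat_lit 76) (nat_lit 0) (XT.nd (nat_lit 156) (nat_lit 76) (nat_lit 0) (XT.nd (nat_lit 78) (nat_lit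 0) (nat_lit 0) (XT.lf (nat_lit 0) (nat_lit 731100959310) (nat_lit 76) (nat_lit 134226161831) (nat_lit 76) (nat_lit 92178190185) (nat_lit 3) (nat_lit 4) (nat_lit 4) (nat_lit 5) (nat_lit 4) (nat_lit 4) (nat_lit 390) (nat_lit 316) (nat_lit 194)) (XT.lf (nat_lit 0) (nat_lit 872720990867) (nat_lit 76) (nat_lit 100050148105) (nat_lit 76) (nat_lit 58001915994) (nat_lit 3) (nat_lit 4) (nat_lit 4) (nat_lit 5) (nat_lit 4) (nat_lit 4) (nat_lit 391) (nat_lit 316) (nat_lit 193))) (XT.nd (nat_lit 78) (nat_lit 76) (nat_lit 0) (XT.lf (nat_lit 0) (nat_lit 1025669633420) (nat_lit 76) (nat_lit 63140548855) (nat_lit 76) (nat_lit 21092075573) (nat_lit 3) (nat_lit 4) (nat_lit 4) (nat_lit 5) (nat_lit 4) (nat_lit 4) (nat_lit 392) (nat_lit 316) (nat_lit 192)) (XT.lf (nat_lit 0) (nat_lit 17831101834) (nat_lit 152) (nat_lit 4960004772) (nat_lit 76) (nat_lit 1172534613535) (nat_lit 2) (nat_lit 5) (nat_lit 4) (nat_lit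 5) (nat_lit 3) (nat_lit 4) (nat_lit 393) (nat_lit 316) (nat_lit 191)))) (XT.nd (nat_lit 156) (nat_lit 0) (nat_lit 0) (XT.nd (nat_lit 78) (nat_lit 0) (nat_lit 0) (XT.lf (nat_lit 0) (nat_lit 61322974934) (nat_lit 152) (nat_lit 1203619902776) (nat_lit 0) (nat_lit 22388805162) (nat_lit 1) (nat_lit 5) (nat_lit 3) (nat_lit 4) (nat_lit 1) (nat_lit 4) (nat_lit 394) (nat_lit 316) (nat_lit 190)) (XT.lf (nat_lit 0) (nat_lit 109024877761) (nat_lit 152) (nat_lit 1207524259803) (nat_lit 0) (nat_lit 70090530720) (nat_lit 1) (nat_lit 5) (nat_lit 3) (nat_lit 4) (nat_lit 1) (nat_lit 4) (nat_lit 395) (nat_lit 316) (nat_lit 189))) (XT.nd (nat_lit 78) (nat_lit 0) (nat_lit 0) (XT.lf (nat_lit 0) (nat_lit 160542530303) (nat_lit 152) (nat_lit 1211741775353) (nat_lit 0) (nat_lit 121608019125) (nat_lit 1) (nat_lit 5) (nat_lit 3) (nat_lit 4) (nat_lit 1) (nat_lit 4) (nat_lit 396) (nat_lit 316) (nat_lit 188)) (XT.nd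 (nat_lit 78) (nat_lit 0) (nat_lit 0) (XT.lf (nat_lit 0) (nat_lit 216181222353) (nat_lit 152) (nat_lit 1216297442110) (nat_lit 0) (nat_lit 177246559196) (nat_lit 1) (nat_lit 5) (nat_lit 3) (nat_lit 4) (nat_lit 1) (nat_lit 4) (nat_lit 397) (nat_lit 316) (nat_lit 187)) (XT.lf (nat_lit 0) (nat_lit 276270664679) (nat_lit 152) (nat_lit 1221218256618) (nat_lit 0) (nat_lit 237335860801) (nat_lit 1) (nat_lit 5) (nat_lit 3) (nat_lit 4) (nat_lit 1) (nat_lit 4) (nat_lit 398) (nat_lit 316) (nat_lit 186)))))) (XT.nd (nat_lit 312) (nat_lit 0) (nat_lit 0) (XT.nd (nat_lit 156) (nat_lit 0) (nat_lit 0) (XT.nd (nat_lit 78) (nat_lit 0) (nat_lit 0) (XT.lf (nat_lit 0) (nat_lit 341166942864) (nat_lit 152) (nat_lit 1226533379259) (nat_lit 0) (nat_lit 302232008689) (nat_lit 1) (nat_lit 5) (nat_lit 3) (nat_lit 4) (nat_lit 1) (nat_lit 4) (nat_lit 399) (nat_lit 316) (nat_lit 185)) (XT.lf (nat_lit 0) (nat_lit 411254627446)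 (nat_lit 152) (nat_lit 1232274307057) (nat_lit 0) (nat_lit 372319572625) (nat_lit 1) (nat_lit 5) (nat_lit 3) (nat_lit 4) (nat_lit 1) (nat_lit 4) (nat_lit 400) (nat_lit 316) (nat_lit 184))) (XT.nd (nat_lit 78) (nat_lit 0) (nat_lit 0) (XT.lf (nat_lit 0) (nat_lit 486949052853) (nat_lit 152) (nat_lit 1238475060324) (nat_lit 0) (nat_lit 448013886323) (nat_lit 1) (nat_lit 5) (nat_lit 3) (nat_lit 4) (nat_lit 1) (nat_lit 4) (nat_lit 401) (nat_lit 316) (nat_lit 183)) (XT.lf (nat_lit 0) (nat_lit 568698778642) (nat_lit 152) (nat_lit 1245172384264) (nat_lit 0) (nat_lit 529763508678) (nat_lit 1) (nat_lit 5) (nat_lit 3) (nat_lit 4) (nat_lit 1) (nat_lit 4) (nat_lit 402) (nat_lit 316) (nat_lit 182)))) (XT.nd (nat_lit 156) (nat_lit 0) (nat_lit 0) (XT.nd (nat_lit 78) (nat_lit 0) (nat_lit 0) (XT.lf (nat_lit 0) (nat_lit 656988247633) (nat_lit 152) (nat_lit 1252405966724) (nat_lit 0) (nat_lit 618052881896)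 (nat_lit 1) (nat_lit 5) (nat_lit 3) (nat_lit 4) (nat_lit 1) (nat_lit 4) (nat_lit 403) (nat_lit 316) (nat_lit 181)) (XT.lf (nat_lit 0) (nat_lit 752340656678) (nat_lit 152) (nat_lit 1260218673378) (nat_lit 0) (nat_lit 713405202263) (nat_lit 1) (nat_lit 5) (nat_lit 3) (nat_lit 4) (nat_lit 1) (nat_lit 4) (nat_lit 404) (nat_lit 316) (nat_lit 180))) (XT.nd (nat_lit 78) (nat_lit 0) (nat_lit 0) (XT.lf (nat_lit 0) (nat_lit 855321057092) (nat_lit 152) (nat_lit 1268656801745) (nat_lit 0) (nat_lit 816385520568) (nat_lit 1) (nat_lit 5) (nat_lit 3) (nat_lit 4) (nat_lit 1) (nat_lit 4) (nat_lit 405) (nat_lit 316) (nat_lit 179)) (XT.nd (nat_lit 78) (nat_lit 0) (nat_lit 0) (XT.lf (nat_lit 0) (nat_lit 966539703098) (nat_lit 152) (nat_lit 1277770355550) (nat_lit 0) (nat_lit 927604090546) (nat_lit 1) (nat_lit 5) (nat_lit 3) (nat_lit 4) (nat_lit 1) (nat_lit 4) (nat_lit 406) (nat_lit 316) (nat_lit 178)) (XT.lf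 (nat_lit 0) (nat_lit 1086655668155) (nat_lit 152) (nat_lit 1287613341038) (nat_lit 0) (nat_lit 1047719985207) (nat_lit 1) (nat_lit 5) (nat_lit 3) (nat_lit 4) (nat_lit 1) (nat_lit 4) (nat_lit 407) (nat_lit 316) (nat_lit 177))))))))
noncomputable def xc146 : XT := (XT.nd (nat_lit 40638) (nat_lit 0) (nat_lit 1748) (XT.nd (nat_lit 39936) (nat_lit 0) (nat_lit 3648) (XT.nd (nat_lit 312) (nat_lit 0) (nat_lit 0) (XT.nd (nat_lit 156) (nat_lit 0) (nat_lit 0) (XT.nd (nat_lit 78) (nat_lit 0) (nat_lit 0) (XT.lf (nat_lit 0) (nat_lit 1216380750573) (nat_lit 152) (nat_lit 1298244087011) (nat_lit 0) (nat_lit 1177445002445) (nat_lit 1) (nat_lit 5) (nat_lit 3) (nat_lit 4) (nat_lit 1) (nat_lit 4) (nat_lit 408) (nat_lit 316) (nat_lit 176)) (XT.lf (nat_lit 0) (nat_lit 1356483691582) (nat_lit 152) (nat_lit 1309725590483) (nat_lit 0) (nat_lit 1317547883101) (nat_lit 1) (nat_lit 5) (nat_lit 3) (nat_lit 4) (nat_lit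 1) (nat_lit 4) (nat_lit 409) (nat_lit 316) (nat_lit 175))) (XT.nd (nat_lit 78) (nat_lit 0) (nat_lit 0) (XT.lf (nat_lit 0) (nat_lit 1507794730833) (nat_lit 152) (nat_lit 1322125889992) (nat_lit 0) (nat_lit 1468858866470) (nat_lit 1) (nat_lit 5) (nat_lit 3) (nat_lit 4) (nat_lit 1) (nat_lit 4) (nat_lit 410) (nat_lit 316) (nat_lit 174)) (XT.lf (nat_lit 0) (nat_lit 1671210526336) (nat_lit 152) (nat_lit 1335518468795) (nat_lit 0) (nat_lit 1632274610229) (nat_lit 1) (nat_lit 5) (nat_lit 3) (nat_lit 4) (nat_lit 1) (nat_lit 4) (nat_lit 411) (nat_lit 316) (nat_lit 173)))) (XT.nd (nat_lit 156) (nat_lit 0) (nat_lit 0) (XT.nd (nat_lit 78) (nat_lit 0) (nat_lit 0) (XT.lf (nat_lit 0) (nat_lit 1847699467989) (nat_lit 152) (nat_lit 1349982690323) (nat_lit 0) (nat_lit 1808763503973) (nat_lit 1) (nat_lit 5) (nat_lit 3) (nat_lit 4) (nat_lit 1) (nat_lit 4) (nat_lit 412) (nat_lit 316) (nat_lit 172)) (XT.lf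 (nat_lit 0) (nat_lit 2038307416189) (nat_lit 152) (nat_lit 1365604268480) (nat_lit 0) (nat_lit 1999371407811) (nat_lit 1) (nat_lit 5) (nat_lit 3) (nat_lit 4) (nat_lit 1) (nat_lit 4) (nat_lit 413) (nat_lit 316) (nat_lit 171))) (XT.nd (nat_lit 39312) (nat_lit 0) (nat_lit 4332) (XT.lf (nat_lit 0) (nat_lit 2244163899516) (nat_lit 152) (nat_lit 1382475775581) (nat_lit 0) (nat_lit 2205227850063) (nat_lit 1) (nat_lit 5) (nat_lit 3) (nat_lit 4) (nat_lit 1) (nat_lit 4) (nat_lit 414) (nat_lit 316) (nat_lit 170)) (XT.nd (nat_lit 78) (nat_lit 0) (nat_lit 0) (XT.lf (nat_lit 0) (nat_lit 4942750974) (nat_lit 532) (nat_lit 1342978329) (nat_lit 532) (nat_lit 1342978329) (nat_lit 58) (nat_lit 3) (nat_lit 65) (nat_lit 3) (nat_lit 65) (nat_lit 5) (nat_lit 317) (nat_lit 317) (nat_lit 266)) (XT.lf (nat_lit 76) (nat_lit 4853609265) (nat_lit 0) (nat_lit 5812079246) (nat_lit 532) (nat_lit 5170840158) (nat_lit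 59) (nat_lit 5) (nat_lit 58) (nat_lit 3) (nat_lit 65) (nat_lit 5) (nat_lit 318) (nat_lit 317) (nat_lit 265)))))) (XT.nd (nat_lit 312) (nat_lit 760) (nat_lit 0) (XT.nd (nat_lit 156) (nat_lit 0) (nat_lit 0) (XT.nd (nat_lit 78) (nat_lit 0) (nat_lit 0) (XT.lf (nat_lit 0) (nat_lit 11592526905) (nat_lit 456) (nat_lit 3362464221) (nat_lit 532) (nat_lit 1500281276) (nat_lit 59) (nat_lit 5) (nat_lit 65) (nat_lit 5) (nat_lit 66) (nat_lit 5) (nat_lit 319) (nat_lit 317) (nat_lit 264)) (XT.lf (nat_lit 76) (nat_lit 4947719013) (nat_lit 0) (nat_lit 7890844528) (nat_lit 532) (nat_lit 4265385228) (nat_lit 60) (nat_lit 5) (nat_lit 59) (nat_lit 5) (nat_lit 66) (nat_lit 5) (nat_lit 320) (nat_lit 317) (nat_lit 263))) (XT.nd (nat_lit 78) (nat_lit 0) (nat_lit 76) (XT.lf (nat_lit 76) (nat_lit 14097909478) (nat_lit 0) (nat_lit 154863855) (nat_lit 532) (nat_lit 3546301167) (nat_lit 60) (nat_lit 5) (nat_lit 59)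 (nat_lit 5) (nat_lit 66) (nat_lit 5) (nat_lit 321) (nat_lit 317) (nat_lit 262)) (XT.lf (nat_lit 76) (nat_lit 5490996978) (nat_lit 0) (nat_lit 10596847868) (nat_lit 532) (nat_lit 2437379365) (nat_lit 61) (nat_lit 5) (nat_lit 60) (nat_lit 5) (nat_lit 67) (nat_lit 5) (nat_lit 322) (nat_lit 317) (nat_lit 261)))) (XT.nd (nat_lit 156) (nat_lit 380) (nat_lit 0) (XT.nd (nat_lit 78) (nat_lit 456) (nat_lit 0) (XT.lf (nat_lit 76) (nat_lit 15608431290) (nat_lit 0) (nat_lit 2546066550) (nat_lit 532) (nat_lit 1148215555) (nat_lit 61) (nat_lit 5) (nat_lit 60) (nat_lit 5) (nat_lit 67) (nat_lit 5) (nat_lit 323) (nat_lit 317) (nat_lit 260)) (XT.lf (nat_lit 0) (nat_lit 526103823) (nat_lit 532) (nat_lit 13576622700) (nat_lit 76) (nat_lit 6015692321) (nat_lit 54) (nat_lit 5) (nat_lit 61) (nat_lit 5) (nat_lit 55) (nat_lit 5) (nat_lit 324) (nat_lit 317) (nat_lit 259))) (XT.nd (nat_lit 78) (nat_lit 380) (nat_lit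 0) (XT.lf (nat_lit 0) (nat_lit 2423863406) (nat_lit 532) (nat_lit 3300346875) (nat_lit 76) (nat_lit 15260685758) (nat_lit 54) (nat_lit 5) (nat_lit 61) (nat_lit 5) (nat_lit 55) (nat_lit 5) (nat_lit 325) (nat_lit 317) (nat_lit 258)) (XT.nd (nat_lit 78) (nat_lit 0) (nat_lit 0) (XT.lf (nat_lit 0) (nat_lit 4738665467) (nat_lit 456) (nat_lit 13799622225) (nat_lit 76) (nat_lit 3361207704) (nat_lit 49) (nat_lit 5) (nat_lit 55) (nat_lit 5) (nat_lit 50) (nat_lit 5) (nat_lit 326) (nat_lit 317) (nat_lit 257)) (XT.lf (nat_lit 0) (nat_lit 7463912757) (nat_lit 456) (nat_lit 2448209825) (nat_lit 76) (nat_lit 12957139349) (nat_lit 49) (nat_lit 5) (nat_lit 55) (nat_lit 5) (nat_lit 50) (nat_lit 5) (nat_lit 327) (nat_lit 317) (nat_lit 256))))))) (XT.nd (nat_lit 702) (nat_lit 836) (nat_lit 0) (XT.nd (nat_lit 312) (nat_lit 456) (nat_lit 0) (XT.nd (nat_lit 156) (nat_lit 380) (nat_lit 0) (XT.nd (nat_lit 78)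 (nat_lit 0) (nat_lit 0) (XT.lf (nat_lit 0) (nat_lit 10311445100) (nat_lit 228) (nat_lit 328909601) (nat_lit 304) (nat_lit 13257619721) (nat_lit 46) (nat_lit 5) (nat_lit 49) (nat_lit 5) (nat_lit 50) (nat_lit 5) (nat_lit 328) (nat_lit 317) (nat_lit 255)) (XT.lf (nat_lit 0) (nat_lit 14366478371) (nat_lit 304) (nat_lit 1031676122) (nat_lit 76) (nat_lit 9587201357) (nat_lit 46) (nat_lit 5) (nat_lit 50) (nat_lit 5) (nat_lit 47) (nat_lit 5) (nat_lit 329) (nat_lit 317) (nat_lit 254))) (XT.nd (nat_lit 78) (nat_lit 152) (nat_lit 0) (XT.lf (nat_lit 0) (nat_lit 13162258597) (nat_lit 228) (nat_lit 5540459609) (nat_lit 304) (nat_lit 7432063449) (nat_lit 43) (nat_lit 5) (nat_lit 46) (nat_lit 5) (nat_lit 47) (nat_lit 5) (nat_lit 330) (nat_lit 317) (nat_lit 253)) (XT.lf (nat_lit 0) (nat_lit 1091799959) (nat_lit 152) (nat_lit 22459537402) (nat_lit 228) (nat_lit 3811600538) (nat_lit 41) (nat_lit 5) (nat_lit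 43) (nat_lit 5) (nat_lit 44) (nat_lit 5) (nat_lit 331) (nat_lit 317) (nat_lit 252)))) (XT.nd (nat_lit 156) (nat_lit 152) (nat_lit 0) (XT.nd (nat_lit 78) (nat_lit 228) (nat_lit 0) (XT.lf (nat_lit 0) (nat_lit 589104496) (nat_lit 228) (nat_lit 11813456907) (nat_lit 76) (nat_lit 16246965807) (nat_lit 40) (nat_lit 5) (nat_lit 43) (nat_lit 5) (nat_lit 41) (nat_lit 5) (nat_lit 332) (nat_lit 317) (nat_lit 251)) (XT.lf (nat_lit 0) (nat_lit 3881150205) (nat_lit 228) (nat_lit 1336761539) (nat_lit 304) (nat_lit 24806665750) (nat_lit 37) (nat_lit 5) (nat_lit 40) (nat_lit 5) (nat_lit 41) (nat_lit 5) (nat_lit 333) (nat_lit 317) (nat_lit 250))) (XT.nd (nat_lit 78) (nat_lit 152) (nat_lit 0) (XT.lf (nat_lit 0) (nat_lit 10792726018) (nat_lit 304) (nat_lit 10259543708) (nat_lit 76) (nat_lit 10411316746) (nat_lit 37) (nat_lit 5) (nat_lit 41) (nat_lit 5) (nat_lit 38) (nat_lit 5) (nat_lit 334) (nat_lit 317)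 (nat_lit 249)) (XT.nd (nat_lit 78) (nat_lit 0) (nat_lit 0) (XT.lf (nat_lit 0) (nat_lit 7206712731) (nat_lit 152) (nat_lit 9804705155) (nat_lit 228) (nat_lit 15990476949) (nat_lit 35) (nat_lit 5) (nat_lit 37) (nat_lit 5) (nat_lit 38) (nat_lit 5) (nat_lit 335) (nat_lit 317) (nat_lit 248)) (XT.lf (nat_lit 0) (nat_lit 24061919807) (nat_lit 228) (nat_lit 8065173574) (nat_lit 76) (nat_lit 2509438625) (nat_lit 35) (nat_lit 5) (nat_lit 38) (nat_lit 5) (nat_lit 36) (nat_lit 5) (nat_lit 336) (nat_lit 317) (nat_lit 247)))))) (XT.nd (nat_lit 312) (nat_lit 456) (nat_lit 0) (XT.nd (nat_lit 156) (nat_lit 152) (nat_lit 0) (XT.nd (nat_lit 78) (nat_lit 76) (nat_lit 0) (XT.lf (nat_lit 0) (nat_lit 11384688569) (nat_lit 152) (nat_lit 20811144288) (nat_lit 228) (nat_lit 4164566243) (nat_lit 33) (nat_lit 5) (nat_lit 35) (nat_lit 5) (nat_lit 36) (nat_lit 5) (nat_lit 337) (nat_lit 317) (nat_lit 246)) (XT.lf (nat_lit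 0) (nat_lit 2837573582) (nat_lit 228) (nat_lit 5440914102) (nat_lit 76) (nat_lit 29921006674) (nat_lit 32) (nat_lit 5) (nat_lit 35) (nat_lit 5) (nat_lit 33) (nat_lit 5) (nat_lit 338) (nat_lit 317) (nat_lit 245))) (XT.nd (nat_lit 78) (nat_lit 0) (nat_lit 0) (XT.lf (nat_lit 0) (nat_lit 10699246956) (nat_lit 228) (nat_lit 23931554164) (nat_lit 76) (nat_lit 5504320753) (nat_lit 30) (nat_lit 5) (nat_lit 33) (nat_lit 5) (nat_lit 31) (nat_lit 5) (nat_lit 339) (nat_lit 317) (nat_lit 244)) (XT.lf (nat_lit 0) (nat_lit 19549419888) (nat_lit 228) (nat_lit 2556303519) (nat_lit 76) (nat_lit 20091117268) (nat_lit 30) (nat_lit 5) (nat_lit 33) (nat_lit 5) (nat_lit 31) (nat_lit 5) (nat_lit 340) (nat_lit 317) (nat_lit 243)))) (XT.nd (nat_lit 156) (nat_lit 228) (nat_lit 0) (XT.nd (nat_lit 78) (nat_lit 76) (nat_lit 0) (XT.lf (nat_lit 0) (nat_lit 21597555990) (nat_lit 152) (nat_lit 8021983326) (nat_lit 228)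 (nat_lit 14763008922) (nat_lit 28) (nat_lit 5) (nat_lit 30) (nat_lit 5) (nat_lit 31) (nat_lit 5) (nat_lit 341) (nat_lit 317) (nat_lit 242)) (XT.lf (nat_lit 0) (nat_lit 952546463) (nat_lit 76) (nat_lit 39802907924) (nat_lit 152) (nat_lit 5966848570) (nat_lit 27) (nat_lit 5) (nat_lit 28) (nat_lit 5) (nat_lit 29) (nat_lit 4) (nat_lit 342) (nat_lit 317) (nat_lit 241))) (XT.nd (nat_lit 78) (nat_lit 152) (nat_lit 0) (XT.lf (nat_lit 0) (nat_lit 4196554322) (nat_lit 152) (nat_lit 21636092823) (nat_lit 76) (nat_lit 23342575268) (nat_lit 26) (nat_lit 5) (nat_lit 28) (nat_lit 5) (nat_lit 27) (nat_lit 5) (nat_lit 343) (nat_lit 317) (nat_lit 240)) (XT.nd (nat_lit 78) (nat_lit 0) (nat_lit 0) (XT.lf (nat_lit 0) (nat_lit 4486538945) (nat_lit 152) (nat_lit 10465321774) (nat_lit 228) (nat_lit 36852024687) (nat_lit 24) (nat_lit 5) (nat_lit 26) (nat_lit 5) (nat_lit 27) (nat_lit 5) (nat_lit 344) (nat_lit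 317) (nat_lit 239)) (XT.lf (nat_lit 0) (nat_lit 27315409275) (nat_lit 228) (nat_lit 20840205458) (nat_lit 76) (nat_lit 6427405292) (nat_lit 24) (nat_lit 5) (nat_lit 27) (nat_lit 5) (nat_lit 25) (nat_lit 4) (nat_lit 345) (nat_lit 317) (nat_lit 238))))))))
noncomputable def xc147 : XT := (XT.nd (nat_lit 1404) (nat_lit 532) (nat_lit 0) (XT.nd (nat_lit 702) (nat_lit 380) (nat_lit 0) (XT.nd (nat_lit 312) (nat_lit 304) (nat_lit 0) (XT.nd (nat_lit 156) (nat_lit 228) (nat_lit 0) (XT.nd (nat_lit 78) (nat_lit 0) (nat_lit 0) (XT.lf (nat_lit 0) (nat_lit 7866313795) (nat_lit 76) (nat_lit 33256649701) (nat_lit 152) (nat_lit 16425131874) (nat_lit 23) (nat_lit 5) (nat_lit 24) (nat_lit 5) (nat_lit 25) (nat_lit 4) (nat_lit 346) (nat_lit 317) (nat_lit 237)) (XT.lf (nat_lit 0) (nat_lit 40044349274) (nat_lit 76) (nat_lit 16554696775) (nat_lit 152) (nat_lit 4106220200) (nat_lit 23) (nat_lit 5) (nat_lit 24)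 (nat_lit 5) (nat_lit 25) (nat_lit 4) (nat_lit 347) (nat_lit 317) (nat_lit 236))) (XT.nd (nat_lit 78) (nat_lit 0) (nat_lit 0) (XT.lf (nat_lit 0) (nat_lit 9045247731) (nat_lit 228) (nat_lit 53123827156) (nat_lit 76) (nat_lit 1903667505) (nat_lit 20) (nat_lit 5) (nat_lit 23) (nat_lit 5) (nat_lit 21) (nat_lit 4) (nat_lit 348) (nat_lit 317) (nat_lit 235)) (XT.lf (nat_lit 0) (nat_lit 24031056153) (nat_lit 228) (nat_lit 21963043275) (nat_lit 76) (nat_lit 21626662262) (nat_lit 20) (nat_lit 5) (nat_lit 23) (nat_lit 5) (nat_lit 21) (nat_lit 4) (nat_lit 349) (nat_lit 317) (nat_lit 234)))) (XT.nd (nat_lit 156) (nat_lit 228) (nat_lit 0) (XT.nd (nat_lit 78) (nat_lit 0) (nat_lit 0) (XT.lf (nat_lit 0) (nat_lit 12296621085) (nat_lit 76) (nat_lit 28209744517) (nat_lit 152) (nat_lit 30923008542) (nat_lit 19) (nat_lit 5) (nat_lit 20) (nat_lit 5) (nat_lit 21) (nat_lit 4) (nat_lit 350) (nat_lit 317) (nat_lit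 233)) (XT.lf (nat_lit 0) (nat_lit 50537237917) (nat_lit 76) (nat_lit 8358036817) (nat_lit 152) (nat_lit 16599757197) (nat_lit 19) (nat_lit 5) (nat_lit 20) (nat_lit 5) (nat_lit 21) (nat_lit 4) (nat_lit 351) (nat_lit 317) (nat_lit 232))) (XT.nd (nat_lit 78) (nat_lit 152) (nat_lit 0) (XT.lf (nat_lit 0) (nat_lit 12240355615) (nat_lit 76) (nat_lit 67119283620) (nat_lit 76) (nat_lit 477957853) (nat_lit 18) (nat_lit 4) (nat_lit 19) (nat_lit 5) (nat_lit 19) (nat_lit 4) (nat_lit 352) (nat_lit 317) (nat_lit 231)) (XT.nd (nat_lit 78) (nat_lit 76) (nat_lit 0) (XT.lf (nat_lit 0) (nat_lit 16999076101) (nat_lit 152) (nat_lit 31289847523) (nat_lit 76) (nat_lit 36133059259) (nat_lit 17) (nat_lit 5) (nat_lit 19) (nat_lit 5) (nat_lit 18) (nat_lit 4) (nat_lit 353) (nat_lit 317) (nat_lit 230)) (XT.lf (nat_lit 0) (nat_lit 8317920505) (nat_lit 76) (nat_lit 27726289819) (nat_lit 152) (nat_lit 53312256996) (nat_lit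 16) (nat_lit 5) (nat_lit 17) (nat_lit 5) (nat_lit 18) (nat_lit 4) (nat_lit 354) (nat_lit 317) (nat_lit 229)))))) (XT.nd (nat_lit 312) (nat_lit 228) (nat_lit 0) (XT.nd (nat_lit 156) (nat_lit 76) (nat_lit 0) (XT.nd (nat_lit 78) (nat_lit 76) (nat_lit 0) (XT.lf (nat_lit 0) (nat_lit 52866092288) (nat_lit 76) (nat_lit 4598228739) (nat_lit 152) (nat_lit 37153281814) (nat_lit 16) (nat_lit 5) (nat_lit 17) (nat_lit 5) (nat_lit 18) (nat_lit 4) (nat_lit 355) (nat_lit 317) (nat_lit 228)) (XT.lf (nat_lit 0) (nat_lit 190518796) (nat_lit 76) (nat_lit 80898319752) (nat_lit 76) (nat_lit 19171528287) (nat_lit 15) (nat_lit 4) (nat_lit 16) (nat_lit 5) (nat_lit 16) (nat_lit 4) (nat_lit 356) (nat_lit 317) (nat_lit 227))) (XT.nd (nat_lit 78) (nat_lit 0) (nat_lit 0) (XT.lf (nat_lit 0) (nat_lit 1523059699) (nat_lit 152) (nat_lit 58563319172) (nat_lit 76) (nat_lit 46164756638) (nat_lit 14) (nat_lit 5) (nat_lit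 16) (nat_lit 5) (nat_lit 15) (nat_lit 4) (nat_lit 357) (nat_lit 317) (nat_lit 226)) (XT.lf (nat_lit 0) (nat_lit 22833836384) (nat_lit 152) (nat_lit 14241062818) (nat_lit 76) (nat_lit 75606720126) (nat_lit 14) (nat_lit 5) (nat_lit 16) (nat_lit 5) (nat_lit 15) (nat_lit 4) (nat_lit 358) (nat_lit 317) (nat_lit 225)))) (XT.nd (nat_lit 156) (nat_lit 152) (nat_lit 0) (XT.nd (nat_lit 78) (nat_lit 0) (nat_lit 0) (XT.lf (nat_lit 0) (nat_lit 35391050843) (nat_lit 76) (nat_lit 11306230121) (nat_lit 152) (nat_lit 72861437508) (nat_lit 13) (nat_lit 5) (nat_lit 14) (nat_lit 5) (nat_lit 15) (nat_lit 4) (nat_lit 359) (nat_lit 317) (nat_lit 224)) (XT.lf (nat_lit 0) (nat_lit 73263371457) (nat_lit 152) (nat_lit 37565072231) (nat_lit 0) (nat_lit 16094057231) (nat_lit 13) (nat_lit 5) (nat_lit 15) (nat_lit 4) (nat_lit 13) (nat_lit 4) (nat_lit 360) (nat_lit 317) (nat_lit 223))) (XT.nd (nat_lit 78) (nat_lit 76)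 (nat_lit 0) (XT.lf (nat_lit 0) (nat_lit 13122622564) (nat_lit 76) (nat_lit 89438320087) (nat_lit 76) (nat_lit 32265948761) (nat_lit 12) (nat_lit 4) (nat_lit 13) (nat_lit 5) (nat_lit 13) (nat_lit 4) (nat_lit 361) (nat_lit 317) (nat_lit 222)) (XT.nd (nat_lit 78) (nat_lit 76) (nat_lit 0) (XT.lf (nat_lit 0) (nat_lit 69995954267) (nat_lit 76) (nat_lit 65230476408) (nat_lit 76) (nat_lit 8055274435) (nat_lit 12) (nat_lit 4) (nat_lit 13) (nat_lit 5) (nat_lit 13) (nat_lit 4) (nat_lit 362) (nat_lit 317) (nat_lit 221)) (XT.lf (nat_lit 0) (nat_lit 17184370059) (nat_lit 152) (nat_lit 21434333220) (nat_lit 76) (nat_lit 113759618707) (nat_lit 11) (nat_lit 5) (nat_lit 13) (nat_lit 5) (nat_lit 12) (nat_lit 4) (nat_lit 363) (nat_lit 317) (nat_lit 220))))))) (XT.nd (nat_lit 702) (nat_lit 228) (nat_lit 0) (XT.nd (nat_lit 312) (nat_lit 152) (nat_lit 0) (XT.nd (nat_lit 156) (nat_lit 76) (nat_lit 0) (XT.nd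 (nat_lit 78) (nat_lit 0) (nat_lit 0) (XT.lf (nat_lit 0) (nat_lit 36159770010) (nat_lit 76) (nat_lit 8715239498) (nat_lit 152) (nat_lit 117241559756) (nat_lit 10) (nat_lit 5) (nat_lit 11) (nat_lit 5) (nat_lit 12) (nat_lit 4) (nat_lit 364) (nat_lit 317) (nat_lit 219)) (XT.lf (nat_lit 0) (nat_lit 75946679350) (nat_lit 152) (nat_lit 73594012236) (nat_lit 0) (nat_lit 22999923028) (nat_lit 10) (nat_lit 5) (nat_lit 12) (nat_lit 4) (nat_lit 10) (nat_lit 4) (nat_lit 365) (nat_lit 317) (nat_lit 218))) (XT.nd (nat_lit 78) (nat_lit 76) (nat_lit 0) (XT.lf (nat_lit 0) (nat_lit 109728038571) (nat_lit 152) (nat_lit 17273273386) (nat_lit 0) (nat_lit 56779355758) (nat_lit 10) (nat_lit 5) (nat_lit 12) (nat_lit 4) (nat_lit 10) (nat_lit 4) (nat_lit 366) (nat_lit 317) (nat_lit 217)) (XT.lf (nat_lit 0) (nat_lit 45841972677) (nat_lit 76) (nat_lit 101470199151) (nat_lit 76) (nat_lit 48519732550) (nat_lit 9) (nat_lit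 4) (nat_lit 10) (nat_lit 5) (nat_lit 10) (nat_lit 4) (nat_lit 367) (nat_lit 317) (nat_lit 216)))) (XT.nd (nat_lit 156) (nat_lit 76) (nat_lit 0) (XT.nd (nat_lit 78) (nat_lit 76) (nat_lit 0) (XT.lf (nat_lit 0) (nat_lit 114984541962) (nat_lit 76) (nat_lit 73388603978) (nat_lit 76) (nat_lit 20436485720) (nat_lit 9) (nat_lit 4) (nat_lit 10) (nat_lit 5) (nat_lit 10) (nat_lit 4) (nat_lit 368) (nat_lit 317) (nat_lit 215)) (XT.lf (nat_lit 0) (nat_lit 9396448361) (nat_lit 152) (nat_lit 33409034977) (nat_lit 76) (nat_lit 180001224336) (nat_lit 8) (nat_lit 5) (nat_lit 10) (nat_lit 5) (nat_lit 9) (nat_lit 4) (nat_lit 369) (nat_lit 317) (nat_lit 214))) (XT.nd (nat_lit 78) (nat_lit 0) (nat_lit 0) (XT.lf (nat_lit 0) (nat_lit 32954252960) (nat_lit 76) (nat_lit 8348303076) (nat_lit 152) (nat_lit 196515277511) (nat_lit 7) (nat_lit 5) (nat_lit 8) (nat_lit 5) (nat_lit 9) (nat_lit 4) (nat_lit 370) (nat_lit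 317) (nat_lit 213)) (XT.nd (nat_lit 78) (nat_lit 0) (nat_lit 0) (XT.lf (nat_lit 0) (nat_lit 77390655899) (nat_lit 152) (nat_lit 148151858085) (nat_lit 0) (nat_lit 28356975589) (nat_lit 7) (nat_lit 5) (nat_lit 9) (nat_lit 4) (nat_lit 7) (nat_lit 4) (nat_lit 371) (nat_lit 317) (nat_lit 212)) (XT.lf (nat_lit 0) (nat_lit 116580883765) (nat_lit 152) (nat_lit 87123508889) (nat_lit 0) (nat_lit 67546079366) (nat_lit 7) (nat_lit 5) (nat_lit 9) (nat_lit 4) (nat_lit 7) (nat_lit 4) (nat_lit 372) (nat_lit 317) (nat_lit 211)))))) (XT.nd (nat_lit 312) (nat_lit 152) (nat_lit 0) (XT.nd (nat_lit 156) (nat_lit 0) (nat_lit 0) (XT.nd (nat_lit 78) (nat_lit 76) (nat_lit 0) (XT.lf (nat_lit 0) (nat_lit 158904701133) (nat_lit 152) (nat_lit 21216106632) (nat_lit 0) (nat_lit 109868855911) (nat_lit 7) (nat_lit 5) (nat_lit 9) (nat_lit 4) (nat_lit 7) (nat_lit 4) (nat_lit 373) (nat_lit 317) (nat_lit 210)) (XT.lf (nat_lit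 0) (nat_lit 52591764107) (nat_lit 76) (nat_lit 153285984894) (nat_lit 76) (nat_lit 104249175946) (nat_lit 6) (nat_lit 4) (nat_lit 7) (nat_lit 5) (nat_lit 7) (nat_lit 4) (nat_lit 374) (nat_lit 317) (nat_lit 209))) (XT.nd (nat_lit 78) (nat_lit 0) (nat_lit 0) (XT.lf (nat_lit 0) (nat_lit 133507941913) (nat_lit 76) (nat_lit 123679318589) (nat_lit 76) (nat_lit 74641617303) (nat_lit 6) (nat_lit 4) (nat_lit 7) (nat_lit 5) (nat_lit 7) (nat_lit 4) (nat_lit 375) (nat_lit 317) (nat_lit 208)) (XT.lf (nat_lit 0) (nat_lit 220894727485) (nat_lit 76) (nat_lit 91705447894) (nat_lit 76) (nat_lit 42666920369) (nat_lit 6) (nat_lit 4) (nat_lit 7) (nat_lit 5) (nat_lit 7) (nat_lit 4) (nat_lit 376) (nat_lit 317) (nat_lit 207)))) (XT.nd (nat_lit 156) (nat_lit 0) (nat_lit 0) (XT.nd (nat_lit 78) (nat_lit 152) (nat_lit 0) (XT.lf (nat_lit 0) (nat_lit 315269968441) (nat_lit 76) (nat_lit 57174898018) (nat_lit 76) (nat_lit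 8135605457) (nat_lit 6) (nat_lit 4) (nat_lit 7) (nat_lit 5) (nat_lit 7) (nat_lit 4) (nat_lit 377) (nat_lit 317) (nat_lit 206)) (XT.lf (nat_lit 0) (nat_lit 9024111017) (nat_lit 76) (nat_lit 18891327417) (nat_lit 152) (nat_lit 379930112618) (nat_lit 4) (nat_lit 5) (nat_lit 5) (nat_lit 5) (nat_lit 6) (nat_lit 4) (nat_lit 378) (nat_lit 317) (nat_lit 205))) (XT.nd (nat_lit 78) (nat_lit 0) (nat_lit 0) (XT.lf (nat_lit 0) (nat_lit 68781971408) (nat_lit 152) (nat_lit 344929329145) (nat_lit 0) (nat_lit 23373955831) (nat_lit 4) (nat_lit 5) (nat_lit 6) (nat_lit 4) (nat_lit 4) (nat_lit 4) (nat_lit 379) (nat_lit 317) (nat_lit 204)) (XT.nd (nat_lit 78) (nat_lit 0) (nat_lit 0) (XT.lf (nat_lit 0) (nat_lit 113407410060) (nat_lit 152) (nat_lit 287218729450) (nat_lit 0) (nat_lit 67998832158) (nat_lit 4) (nat_lit 5) (nat_lit 6) (nat_lit 4) (nat_lit 4) (nat_lit 4) (nat_lit 380) (nat_lit 317) (nat_lit 203))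 (XT.lf (nat_lit 0) (nat_lit 161601864555) (nat_lit 152) (nat_lit 224893315335) (nat_lit 0) (nat_lit 116192765982) (nat_lit 4) (nat_lit 5) (nat_lit 6) (nat_lit 4) (nat_lit 4) (nat_lit 4) (nat_lit 381) (nat_lit 317) (nat_lit 202))))))))
noncomputable def xc148 : XT := (XT.nd (nat_lit 1404) (nat_lit 0) (nat_lit 0) (XT.nd (nat_lit 702) (nat_lit 152) (nat_lit 0) (XT.nd (nat_lit 312) (nat_lit 0) (nat_lit 0) (XT.nd (nat_lit 156) (nat_lit 76) (nat_lit 0) (XT.nd (nat_lit 78) (nat_lit 0) (nat_lit 0) (XT.lf (nat_lit 0) (nat_lit 213650931661) (nat_lit 152) (nat_lit 157583751012) (nat_lit 0) (nat_lit 168241350986) (nat_lit 4) (nat_lit 5) (nat_lit 6) (nat_lit 4) (nat_lit 4) (nat_lit 4) (nat_lit 382) (nat_lit 317) (nat_lit 201)) (XT.lf (nat_lit 0) (nat_lit 269863050295) (nat_lit 152) (nat_lit 84891164989) (nat_lit 0) (nat_lit 224453023228) (nat_lit 4) (nat_lit 5) (nat_lit 6) (nat_lit 4) (nat_lit 4)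 (nat_lit 4) (nat_lit 383) (nat_lit 317) (nat_lit 200))) (XT.nd (nat_lit 78) (nat_lit 76) (nat_lit 0) (XT.lf (nat_lit 0) (nat_lit 330571329307) (nat_lit 152) (nat_lit 6384786385) (nat_lit 0) (nat_lit 285160888915) (nat_lit 4) (nat_lit 5) (nat_lit 6) (nat_lit 4) (nat_lit 4) (nat_lit 4) (nat_lit 384) (nat_lit 317) (nat_lit 199)) (XT.lf (nat_lit 0) (nat_lit 82529044851) (nat_lit 76) (nat_lit 315591302124) (nat_lit 76) (nat_lit 270180479024) (nat_lit 3) (nat_lit 4) (nat_lit 4) (nat_lit 5) (nat_lit 4) (nat_lit 4) (nat_lit 385) (nat_lit 317) (nat_lit 198)))) (XT.nd (nat_lit 156) (nat_lit 0) (nat_lit 0) (XT.nd (nat_lit 78) (nat_lit 0) (nat_lit 0) (XT.lf (nat_lit 0) (nat_lit 178917634164) (nat_lit 76) (nat_lit 292329494546) (nat_lit 76) (nat_lit 246918317086) (nat_lit 3) (nat_lit 4) (nat_lit 4) (nat_lit 5) (nat_lit 4) (nat_lit 4) (nat_lit 386) (nat_lit 317) (nat_lit 197)) (XT.lf (nat_lit 0) (nat_lit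 283015961657) (nat_lit 76) (nat_lit 267207416586) (nat_lit 76) (nat_lit 221795911015) (nat_lit 3) (nat_lit 4) (nat_lit 4) (nat_lit 5) (nat_lit 4) (nat_lit 4) (nat_lit 387) (nat_lit 317) (nat_lit 196))) (XT.nd (nat_lit 78) (nat_lit 0) (nat_lit 0) (XT.lf (nat_lit 0) (nat_lit 395440906307) (nat_lit 76) (nat_lit 240076196669) (nat_lit 76) (nat_lit 194664387291) (nat_lit 3) (nat_lit 4) (nat_lit 4) (nat_lit 5) (nat_lit 4) (nat_lit 4) (nat_lit 388) (nat_lit 317) (nat_lit 195)) (XT.nd (nat_lit 78) (nat_lit 0) (nat_lit 0) (XT.lf (nat_lit 0) (nat_lit 516858690010) (nat_lit 76) (nat_lit 210775057196) (nat_lit 76) (nat_lit 165362966517) (nat_lit 3) (nat_lit 4) (nat_lit 4) (nat_lit 5) (nat_lit 4) (nat_lit 4) (nat_lit 389) (nat_lit 317) (nat_lit 194)) (XT.lf (nat_lit 0) (nat_lit 647988825556) (nat_lit 76) (nat_lit 179130361786) (nat_lit 76) (nat_lit 133718010641) (nat_lit 3) (nat_lit 4) (nat_lit 4)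 (nat_lit 5) (nat_lit 4) (nat_lit 4) (nat_lit 390) (nat_lit 317) (nat_lit 193)))))) (XT.nd (nat_lit 312) (nat_lit 76) (nat_lit 0) (XT.nd (nat_lit 156) (nat_lit 76) (nat_lit 0) (XT.nd (nat_lit 78) (nat_lit 0) (nat_lit 0) (XT.lf (nat_lit 0) (nat_lit 789608380417) (nat_lit 76) (nat_lit 144954586317) (nat_lit 76) (nat_lit 99541994001) (nat_lit 3) (nat_lit 4) (nat_lit 4) (nat_lit 5) (nat_lit 4) (nat_lit 4) (nat_lit 391) (nat_lit 317) (nat_lit 192)) (XT.lf (nat_lit 0) (nat_lit 942556581583) (nat_lit 76) (nat_lit 108045207675) (nat_lit 76) (nat_lit 62632392052) (nat_lit 3) (nat_lit 4) (nat_lit 4) (nat_lit 5) (nat_lit 4) (nat_lit 4) (nat_lit 392) (nat_lit 317) (nat_lit 191))) (XT.nd (nat_lit 78) (nat_lit 76) (nat_lit 0) (XT.lf (nat_lit 0) (nat_lit 1107739788766) (nat_lit 76) (nat_lit 68183503617) (nat_lit 76) (nat_lit 22770481229) (nat_lit 3) (nat_lit 4) (nat_lit 4) (nat_lit 5) (nat_lit 4) (nat_lit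 4) (nat_lit 393) (nat_lit 317) (nat_lit 190)) (XT.lf (nat_lit 0) (nat_lit 19265471606) (nat_lit 152) (nat_lit 5341032896) (nat_lit 76) (nat_lit 1266344641673) (nat_lit 2) (nat_lit 5) (nat_lit 4) (nat_lit 5) (nat_lit 3) (nat_lit 4) (nat_lit 394) (nat_lit 317) (nat_lit 189)))) (XT.nd (nat_lit 156) (nat_lit 0) (nat_lit 0) (XT.nd (nat_lit 78) (nat_lit 0) (nat_lit 0) (XT.lf (nat_lit 0) (nat_lit 66236665766) (nat_lit 152) (nat_lit 1299893692983) (nat_lit 0) (nat_lit 24187229557) (nat_lit 1) (nat_lit 5) (nat_lit 3) (nat_lit 4) (nat_lit 1) (nat_lit 4) (nat_lit 395) (nat_lit 317) (nat_lit 188)) (XT.lf (nat_lit 0) (nat_lit 117754139127) (nat_lit 152) (nat_lit 1304111569092) (nat_lit 0) (nat_lit 75704550939) (nat_lit 1) (nat_lit 5) (nat_lit 3) (nat_lit 4) (nat_lit 1) (nat_lit 4) (nat_lit 396) (nat_lit 317) (nat_lit 187))) (XT.nd (nat_lit 78) (nat_lit 0) (nat_lit 0) (XT.lf (nat_lit 0) (nat_lit 173392665270)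 (nat_lit 152) (nat_lit 1308667569700) (nat_lit 0) (nat_lit 131342936360) (nat_lit 1) (nat_lit 5) (nat_lit 3) (nat_lit 4) (nat_lit 1) (nat_lit 4) (nat_lit 397) (nat_lit 317) (nat_lit 186)) (XT.nd (nat_lit 78) (nat_lit 0) (nat_lit 0) (XT.lf (nat_lit 0) (nat_lit 233481953977) (nat_lit 152) (nat_lit 1313588693329) (nat_lit 0) (nat_lit 191432094770) (nat_lit 1) (nat_lit 5) (nat_lit 3) (nat_lit 4) (nat_lit 1) (nat_lit 4) (nat_lit 398) (nat_lit 317) (nat_lit 185)) (XT.lf (nat_lit 0) (nat_lit 298378089923) (nat_lit 152) (nat_lit 1318904102194) (nat_lit 0) (nat_lit 256328110070) (nat_lit 1) (nat_lit 5) (nat_lit 3) (nat_lit 4) (nat_lit 1) (nat_lit 4) (nat_lit 399) (nat_lit 317) (nat_lit 184))))))) (XT.nd (nat_lit 702) (nat_lit 0) (nat_lit 0) (XT.nd (nat_lit 312) (nat_lit 0) (nat_lit 0) (XT.nd (nat_lit 156) (nat_lit 0) (nat_lit 0) (XT.nd (nat_lit 78) (nat_lit 0) (nat_lit 0) (XT.lf (nat_lit 0) (nat_lit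 368465642802) (nat_lit 152) (nat_lit 1324645295013) (nat_lit 0) (nat_lit 326415551240) (nat_lit 1) (nat_lit 5) (nat_lit 3) (nat_lit 4) (nat_lit 1) (nat_lit 4) (nat_lit 400) (nat_lit 317) (nat_lit 183)) (XT.lf (nat_lit 0) (nat_lit 444159946261) (nat_lit 152) (nat_lit 1330846293671) (nat_lit 0) (nat_lit 402109751266) (nat_lit 1) (nat_lit 5) (nat_lit 3) (nat_lit 4) (nat_lit 1) (nat_lit 4) (nat_lit 401) (nat_lit 317) (nat_lit 182))) (XT.nd (nat_lit 78) (nat_lit 0) (nat_lit 0) (XT.lf (nat_lit 0) (nat_lit 525909559136) (nat_lit 152) (nat_lit 1337543844825) (nat_lit 0) (nat_lit 483859268368) (nat_lit 1) (nat_lit 5) (nat_lit 3) (nat_lit 4) (nat_lit 1) (nat_lit 4) (nat_lit 402) (nat_lit 317) (nat_lit 181)) (XT.lf (nat_lit 0) (nat_lit 614198923577) (nat_lit 152) (nat_lit 1344777637668) (nat_lit 0) (nat_lit 572148544130) (nat_lit 1) (nat_lit 5) (nat_lit 3) (nat_lit 4) (nat_lit 1) (nat_lit 4) (nat_lit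 403) (nat_lit 317) (nat_lit 180)))) (XT.nd (nat_lit 156) (nat_lit 0) (nat_lit 0) (XT.nd (nat_lit 78) (nat_lit 0) (nat_lit 0) (XT.lf (nat_lit 0) (nat_lit 709551235817) (nat_lit 152) (nat_lit 1352590539120) (nat_lit 0) (nat_lit 667500774261) (nat_lit 1) (nat_lit 5) (nat_lit 3) (nat_lit 4) (nat_lit 1) (nat_lit 4) (nat_lit 404) (nat_lit 317) (nat_lit 179)) (XT.lf (nat_lit 0) (nat_lit 812531546596) (nat_lit 152) (nat_lit 1361028847857) (nat_lit 0) (nat_lit 770481009013) (nat_lit 1) (nat_lit 5) (nat_lit 3) (nat_lit 4) (nat_lit 1) (nat_lit 4) (nat_lit 405) (nat_lit 317) (nat_lit 178))) (XT.nd (nat_lit 78) (nat_lit 0) (nat_lit 0) (XT.lf (nat_lit 0) (nat_lit 923750109606) (nat_lit 152) (nat_lit 1370142568671) (nat_lit 0) (nat_lit 881699501628) (nat_lit 1) (nat_lit 5) (nat_lit 3) (nat_lit 4) (nat_lit 1) (nat_lit 4) (nat_lit 406) (nat_lit 317) (nat_lit 177)) (XT.nd (nat_lit 78) (nat_lit 0) (nat_lit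 0) (XT.lf (nat_lit 0) (nat_lit 1043865997816) (nat_lit 152) (nat_lit 1379985708796) (nat_lit 0) (nat_lit 1001815324656) (nat_lit 1) (nat_lit 5) (nat_lit 3) (nat_lit 4) (nat_lit 1) (nat_lit 4) (nat_lit 407) (nat_lit 317) (nat_lit 176)) (XT.lf (nat_lit 0) (nat_lit 1173591009079) (nat_lit 152) (nat_lit 1390616597952) (nat_lit 0) (nat_lit 1131540275566) (nat_lit 1) (nat_lit 5) (nat_lit 3) (nat_lit 4) (nat_lit 1) (nat_lit 4) (nat_lit 408) (nat_lit 317) (nat_lit 175)))))) (XT.nd (nat_lit 312) (nat_lit 0) (nat_lit 0) (XT.nd (nat_lit 156) (nat_lit 0) (nat_lit 0) (XT.nd (nat_lit 78) (nat_lit 0) (nat_lit 0) (XT.lf (nat_lit 0) (nat_lit 1313693884204) (nat_lit 152) (nat_lit 1402098234001) (nat_lit 0) (nat_lit 1271643094809) (nat_lit 1) (nat_lit 5) (nat_lit 3) (nat_lit 4) (nat_lit 1) (nat_lit 4) (nat_lit 409) (nat_lit 317) (nat_lit 174)) (XT.lf (nat_lit 0) (nat_lit 1465004862451) (nat_lit 152) (nat_lit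 1414498656267) (nat_lit 0) (nat_lit 1422954021313) (nat_lit 1) (nat_lit 5) (nat_lit 3) (nat_lit 4) (nat_lit 1) (nat_lit 4) (nat_lit 410) (nat_lit 317) (nat_lit 173))) (XT.nd (nat_lit 78) (nat_lit 0) (nat_lit 0) (XT.lf (nat_lit 0) (nat_lit 1628420601468) (nat_lit 152) (nat_lit 1427891348734) (nat_lit 0) (nat_lit 1586369712420) (nat_lit 1) (nat_lit 5) (nat_lit 3) (nat_lit 4) (nat_lit 1) (nat_lit 4) (nat_lit 411) (nat_lit 317) (nat_lit 172)) (XT.lf (nat_lit 0) (nat_lit 1804909490821) (nat_lit 152) (nat_lit 1442355675505) (nat_lit 0) (nat_lit 1762858557411) (nat_lit 1) (nat_lit 5) (nat_lit 3) (nat_lit 4) (nat_lit 1) (nat_lit 4) (nat_lit 412) (nat_lit 317) (nat_lit 171)))) (XT.nd (nat_lit 39468) (nat_lit 0) (nat_lit 4332) (XT.nd (nat_lit 78) (nat_lit 0) (nat_lit 0) (XT.lf (nat_lit 0) (nat_lit 1995517390593) (nat_lit 152) (nat_lit 1457977351110) (nat_lit 0) (nat_lit 1953466416109) (nat_lit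 1) (nat_lit 5) (nat_lit 3) (nat_lit 4) (nat_lit 1) (nat_lit 4) (nat_lit 413) (nat_lit 317) (nat_lit 170)) (XT.lf (nat_lit 0) (nat_lit 2201373829081) (nat_lit 152) (nat_lit 1474848948440) (nat_lit 0) (nat_lit 2159322816564) (nat_lit 1) (nat_lit 5) (nat_lit 3) (nat_lit 4) (nat_lit 1) (nat_lit 4) (nat_lit 414) (nat_lit 317) (nat_lit 169))) (XT.nd (nat_lit 78) (nat_lit 0) (nat_lit 0) (XT.lf (nat_lit 0) (nat_lit 5599761820) (nat_lit 532) (nat_lit 1308961469) (nat_lit 532) (nat_lit 1308961469) (nat_lit 58) (nat_lit 3) (nat_lit 65) (nat_lit 3) (nat_lit 65) (nat_lit 5) (nat_lit 318) (nat_lit 318) (nat_lit 264)) (XT.nd (nat_lit 78) (nat_lit 0) (nat_lit 76) (XT.lf (nat_lit 76) (nat_lit 5517645973) (nat_lit 0) (nat_lit 6492356713) (nat_lit 532) (nat_lit 5053437213) (nat_lit 59) (nat_lit 5) (nat_lit 58) (nat_lit 3) (nat_lit 65) (nat_lit 5) (nat_lit 319) (nat_lit 318) (nat_lit 263)) (XT.lf (nat_lit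 0) (nat_lit 12969818739) (nat_lit 456) (nat_lit 3334297220) (nat_lit 532) (nat_lit 1430914526) (nat_lit 59) (nat_lit 5) (nat_lit 65) (nat_lit 5) (nat_lit 66) (nat_lit 5) (nat_lit 320) (nat_lit 318) (nat_lit 262))))))))
noncomputable def xc149 : XT := (XT.nd (nat_lit 1404) (nat_lit 1292) (nat_lit 0) (XT.nd (nat_lit 702) (nat_lit 988) (nat_lit 0) (XT.nd (nat_lit 312) (nat_lit 988) (nat_lit 0) (XT.nd (nat_lit 156) (nat_lit 0) (nat_lit 76) (XT.nd (nat_lit 78) (nat_lit 0) (nat_lit 0) (XT.lf (nat_lit 76) (nat_lit 5633177530) (nat_lit 0) (nat_lit 8656001488) (nat_lit 532) (nat_lit 4148580505) (nat_lit 60) (nat_lit 5) (nat_lit 59) (nat_lit 5) (nat_lit 66) (nat_lit 5) (nat_lit 321) (nat_lit 318) (nat_lit 261)) (XT.lf (nat_lit 76) (nat_lit 15493928343) (nat_lit 0) (nat_lit 291224628) (nat_lit 532) (nat_lit 3405898278) (nat_lit 60) (nat_lit 5) (nat_lit 59) (nat_lit 5) (nat_lit 66) (nat_lit 5) (nat_lit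 322) (nat_lit 318) (nat_lit 260))) (XT.nd (nat_lit 78) (nat_lit 0) (nat_lit 0) (XT.lf (nat_lit 76) (nat_lit 6225719732) (nat_lit 0) (nat_lit 11516606493) (nat_lit 532) (nat_lit 2234985742) (nat_lit 61) (nat_lit 5) (nat_lit 60) (nat_lit 5) (nat_lit 67) (nat_lit 5) (nat_lit 323) (nat_lit 318) (nat_lit 259)) (XT.lf (nat_lit 76) (nat_lit 17130664122) (nat_lit 0) (nat_lit 2816428536) (nat_lit 532) (nat_lit 872124677) (nat_lit 61) (nat_lit 5) (nat_lit 60) (nat_lit 5) (nat_lit 67) (nat_lit 5) (nat_lit 324) (nat_lit 318) (nat_lit 258)))) (XT.nd (nat_lit 156) (nat_lit 608) (nat_lit 0) (XT.nd (nat_lit 78) (nat_lit 0) (nat_lit 0) (XT.lf (nat_lit 0) (nat_lit 897602801) (nat_lit 532) (nat_lit 14349775210) (nat_lit 76) (nat_lit 6453737677) (nat_lit 54) (nat_lit 5) (nat_lit 61) (nat_lit 5) (nat_lit 55) (nat_lit 5) (nat_lit 325) (nat_lit 318) (nat_lit 257)) (XT.lf (nat_lit 0) (nat_lit 2922782360) (nat_lit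 532) (nat_lit 3274580823) (nat_lit 76) (nat_lit 16441531333) (nat_lit 54) (nat_lit 5) (nat_lit 61) (nat_lit 5) (nat_lit 55) (nat_lit 5) (nat_lit 326) (nat_lit 318) (nat_lit 256))) (XT.nd (nat_lit 78) (nat_lit 228) (nat_lit 0) (XT.lf (nat_lit 0) (nat_lit 5406805969) (nat_lit 456) (nat_lit 14597472235) (nat_lit 76) (nat_lit 3623689694) (nat_lit 49) (nat_lit 5) (nat_lit 55) (nat_lit 5) (nat_lit 50) (nat_lit 5) (nat_lit 327) (nat_lit 318) (nat_lit 255)) (XT.nd (nat_lit 78) (nat_lit 228) (nat_lit 0) (XT.lf (nat_lit 0) (nat_lit 8328662134) (nat_lit 456) (nat_lit 2360622381) (nat_lit 76) (nat_lit 13987771028) (nat_lit 49) (nat_lit 5) (nat_lit 55) (nat_lit 5) (nat_lit 50) (nat_lit 5) (nat_lit 328) (nat_lit 318) (nat_lit 254)) (XT.lf (nat_lit 0) (nat_lit 11412629135) (nat_lit 228) (nat_lit 333409646) (nat_lit 304) (nat_lit 14043105627) (nat_lit 46) (nat_lit 5) (nat_lit 49) (nat_lit 5) (nat_lit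 50) (nat_lit 5) (nat_lit 329) (nat_lit 318) (nat_lit 253)))))) (XT.nd (nat_lit 312) (nat_lit 532) (nat_lit 0) (XT.nd (nat_lit 156) (nat_lit 228) (nat_lit 0) (XT.nd (nat_lit 78) (nat_lit 228) (nat_lit 0) (XT.lf (nat_lit 0) (nat_lit 15751889510) (nat_lit 304) (nat_lit 839754842) (nat_lit 76) (nat_lit 10373364097) (nat_lit 46) (nat_lit 5) (nat_lit 50) (nat_lit 5) (nat_lit 47) (nat_lit 5) (nat_lit 330) (nat_lit 318) (nat_lit 252)) (XT.lf (nat_lit 0) (nat_lit 14482746418) (nat_lit 228) (nat_lit 5941227307) (nat_lit 304) (nat_lit 7783320345) (nat_lit 43) (nat_lit 5) (nat_lit 46) (nat_lit 5) (nat_lit 47) (nat_lit 5) (nat_lit 331) (nat_lit 318) (nat_lit 251))) (XT.nd (nat_lit 78) (nat_lit 76) (nat_lit 0) (XT.lf (nat_lit 0) (nat_lit 1456690814) (nat_lit 152) (nat_lit 24194742845) (nat_lit 228) (nat_lit 3883012838) (nat_lit 41) (nat_lit 5) (nat_lit 43) (nat_lit 5) (nat_lit 44) (nat_lit 5) (nat_lit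 332) (nat_lit 318) (nat_lit 250)) (XT.lf (nat_lit 0) (nat_lit 841635022) (nat_lit 228) (nat_lit 12490517502) (nat_lit 76) (nat_lit 17592692678) (nat_lit 40) (nat_lit 5) (nat_lit 43) (nat_lit 5) (nat_lit 41) (nat_lit 5) (nat_lit 333) (nat_lit 318) (nat_lit 249)))) (XT.nd (nat_lit 156) (nat_lit 304) (nat_lit 0) (XT.nd (nat_lit 78) (nat_lit 0) (nat_lit 0) (XT.lf (nat_lit 0) (nat_lit 4452872965) (nat_lit 228) (nat_lit 1378941516) (nat_lit 304) (nat_lit 26578815323) (nat_lit 37) (nat_lit 5) (nat_lit 40) (nat_lit 5) (nat_lit 41) (nat_lit 5) (nat_lit 334) (nat_lit 318) (nat_lit 248)) (XT.lf (nat_lit 0) (nat_lit 11839502710) (nat_lit 304) (nat_lit 10825133935) (nat_lit 76) (nat_lit 11301186291) (nat_lit 37) (nat_lit 5) (nat_lit 41) (nat_lit 5) (nat_lit 38) (nat_lit 5) (nat_lit 335) (nat_lit 318) (nat_lit 247))) (XT.nd (nat_lit 78) (nat_lit 152) (nat_lit 0) (XT.lf (nat_lit 0) (nat_lit 8031962936)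 (nat_lit 152) (nat_lit 10516126430) (nat_lit 228) (nat_lit 17079728111) (nat_lit 35) (nat_lit 5) (nat_lit 37) (nat_lit 5) (nat_lit 38) (nat_lit 5) (nat_lit 336) (nat_lit 318) (nat_lit 246)) (XT.nd (nat_lit 78) (nat_lit 152) (nat_lit 0) (XT.lf (nat_lit 0) (nat_lit 26151236930) (nat_lit 228) (nat_lit 8468547128) (nat_lit 76) (nat_lit 2774365590) (nat_lit 35) (nat_lit 5) (nat_lit 38) (nat_lit 5) (nat_lit 36) (nat_lit 5) (nat_lit 337) (nat_lit 318) (nat_lit 245)) (XT.lf (nat_lit 0) (nat_lit 12531181447) (nat_lit 152) (nat_lit 22398175519) (nat_lit 228) (nat_lit 4327101173) (nat_lit 33) (nat_lit 5) (nat_lit 35) (nat_lit 5) (nat_lit 36) (nat_lit 5) (nat_lit 338) (nat_lit 318) (nat_lit 244))))))) (XT.nd (nat_lit 702) (nat_lit 532) (nat_lit 0) (XT.nd (nat_lit 312) (nat_lit 380) (nat_lit 0) (XT.nd (nat_lit 156) (nat_lit 152) (nat_lit 0) (XT.nd (nat_lit 78) (nat_lit 152) (nat_lit 0) (XT.lf (nat_lit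 0) (nat_lit 3214667198) (nat_lit 228) (nat_lit 5649902955) (nat_lit 76) (nat_lit 32378753029) (nat_lit 32) (nat_lit 5) (nat_lit 35) (nat_lit 5) (nat_lit 33) (nat_lit 5) (nat_lit 339) (nat_lit 318) (nat_lit 243)) (XT.lf (nat_lit 0) (nat_lit 11701295760) (nat_lit 228) (nat_lit 25615700998) (nat_lit 76) (nat_lit 6017131598) (nat_lit 30) (nat_lit 5) (nat_lit 33) (nat_lit 5) (nat_lit 31) (nat_lit 5) (nat_lit 340) (nat_lit 318) (nat_lit 242))) (XT.nd (nat_lit 78) (nat_lit 152) (nat_lit 0) (XT.lf (nat_lit 0) (nat_lit 21248659634) (nat_lit 228) (nat_lit 2547495301) (nat_lit 76) (nat_lit 21765504042) (nat_lit 30) (nat_lit 5) (nat_lit 33) (nat_lit 5) (nat_lit 31) (nat_lit 5) (nat_lit 341) (nat_lit 318) (nat_lit 241)) (XT.lf (nat_lit 0) (nat_lit 23533272652) (nat_lit 152) (nat_lit 8586095061) (nat_lit 228) (nat_lit 15803264962) (nat_lit 28) (nat_lit 5) (nat_lit 30) (nat_lit 5) (nat_lit 31) (nat_lit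 5) (nat_lit 342) (nat_lit 318) (nat_lit 240)))) (XT.nd (nat_lit 156) (nat_lit 228) (nat_lit 0) (XT.nd (nat_lit 78) (nat_lit 76) (nat_lit 0) (XT.lf (nat_lit 0) (nat_lit 1239831737) (nat_lit 76) (nat_lit 42903480576) (nat_lit 152) (nat_lit 6306490227) (nat_lit 27) (nat_lit 5) (nat_lit 28) (nat_lit 5) (nat_lit 29) (nat_lit 4) (nat_lit 343) (nat_lit 318) (nat_lit 239)) (XT.lf (nat_lit 0) (nat_lit 4653406079) (nat_lit 152) (nat_lit 23165078052) (nat_lit 76) (nat_lit 25280987925) (nat_lit 26) (nat_lit 5) (nat_lit 28) (nat_lit 5) (nat_lit 27) (nat_lit 5) (nat_lit 344) (nat_lit 318) (nat_lit 238))) (XT.nd (nat_lit 78) (nat_lit 76) (nat_lit 0) (XT.lf (nat_lit 0) (nat_lit 5042252810) (nat_lit 152) (nat_lit 11222644600) (nat_lit 228) (nat_lit 39673875621) (nat_lit 24) (nat_lit 5) (nat_lit 26) (nat_lit 5) (nat_lit 27) (nat_lit 5) (nat_lit 345) (nat_lit 318) (nat_lit 237)) (XT.nd (nat_lit 78) (nat_lit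 76) (nat_lit 0) (XT.lf (nat_lit 0) (nat_lit 29610650813) (nat_lit 228) (nat_lit 22318262368) (nat_lit 76) (nat_lit 7011880908) (nat_lit 24) (nat_lit 5) (nat_lit 27) (nat_lit 5) (nat_lit 25) (nat_lit 4) (nat_lit 346) (nat_lit 318) (nat_lit 236)) (XT.lf (nat_lit 0) (nat_lit 8679989577) (nat_lit 76) (nat_lit 35839105115) (nat_lit 152) (nat_lit 17624282894) (nat_lit 23) (nat_lit 5) (nat_lit 24) (nat_lit 5) (nat_lit 25) (nat_lit 4) (nat_lit 347) (nat_lit 318) (nat_lit 235)))))) (XT.nd (nat_lit 312) (nat_lit 228) (nat_lit 0) (XT.nd (nat_lit 156) (nat_lit 76) (nat_lit 0) (XT.nd (nat_lit 78) (nat_lit 228) (nat_lit 0) (XT.lf (nat_lit 0) (nat_lit 43418610807) (nat_lit 76) (nat_lit 17806779403) (nat_lit 152) (nat_lit 4328366400) (nat_lit 23) (nat_lit 5) (nat_lit 24) (nat_lit 5) (nat_lit 25) (nat_lit 4) (nat_lit 348) (nat_lit 318) (nat_lit 234)) (XT.lf (nat_lit 0) (nat_lit 9868321306) (nat_lit 228)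 (nat_lit 57196019895) (nat_lit 76) (nat_lit 2126215156) (nat_lit 20) (nat_lit 5) (nat_lit 23) (nat_lit 5) (nat_lit 21) (nat_lit 4) (nat_lit 349) (nat_lit 318) (nat_lit 233))) (XT.nd (nat_lit 78) (nat_lit 76) (nat_lit 0) (XT.lf (nat_lit 0) (nat_lit 26045627457) (nat_lit 228) (nat_lit 23555537263) (nat_lit 76) (nat_lit 23421845476) (nat_lit 20) (nat_lit 5) (nat_lit 23) (nat_lit 5) (nat_lit 21) (nat_lit 4) (nat_lit 350) (nat_lit 318) (nat_lit 232)) (XT.lf (nat_lit 0) (nat_lit 13440734437) (nat_lit 76) (nat_lit 30395263210) (nat_lit 152) (nat_lit 33300554488) (nat_lit 19) (nat_lit 5) (nat_lit 20) (nat_lit 5) (nat_lit 21) (nat_lit 4) (nat_lit 351) (nat_lit 318) (nat_lit 231)))) (XT.nd (nat_lit 156) (nat_lit 152) (nat_lit 0) (XT.nd (nat_lit 78) (nat_lit 76) (nat_lit 0) (XT.lf (nat_lit 0) (nat_lit 54728720344) (nat_lit 76) (nat_lit 8960697476) (nat_lit 152) (nat_lit 17838575979) (nat_lit 19)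 (nat_lit 5) (nat_lit 20) (nat_lit 5) (nat_lit 21) (nat_lit 4) (nat_lit 352) (nat_lit 318) (nat_lit 230)) (XT.lf (nat_lit 0) (nat_lit 13369253744) (nat_lit 76) (nat_lit 72420633952) (nat_lit 76) (nat_lit 428162865) (nat_lit 18) (nat_lit 4) (nat_lit 19) (nat_lit 5) (nat_lit 19) (nat_lit 4) (nat_lit 353) (nat_lit 318) (nat_lit 229))) (XT.nd (nat_lit 78) (nat_lit 76) (nat_lit 0) (XT.lf (nat_lit 0) (nat_lit 18436435447) (nat_lit 152) (nat_lit 33650343833) (nat_lit 76) (nat_lit 39082736616) (nat_lit 17) (nat_lit 5) (nat_lit 19) (nat_lit 5) (nat_lit 18) (nat_lit 4) (nat_lit 354) (nat_lit 318) (nat_lit 228)) (XT.nd (nat_lit 78) (nat_lit 0) (nat_lit 0) (XT.lf (nat_lit 0) (nat_lit 9122433195) (nat_lit 76) (nat_lit 29880356271) (nat_lit 152) (nat_lit 57496163191) (nat_lit 16) (nat_lit 5) (nat_lit 17) (nat_lit 5) (nat_lit 18) (nat_lit 4) (nat_lit 355) (nat_lit 318) (nat_lit 227)) (XT.lf (nat_lit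 0) (nat_lit 57224156569) (nat_lit 76) (nat_lit 4906793766) (nat_lit 152) (nat_lit 40050475503) (nat_lit 16) (nat_lit 5) (nat_lit 17) (nat_lit 5) (nat_lit 18) (nat_lit 4) (nat_lit 356) (nat_lit 318) (nat_lit 226))))))))
noncomputable def xc150 : XT := (XT.nd (nat_lit 1404) (nat_lit 304) (nat_lit 0) (XT.nd (nat_lit 702) (nat_lit 228) (nat_lit 0) (XT.nd (nat_lit 312) (nat_lit 228) (nat_lit 0) (XT.nd (nat_lit 156) (nat_lit 76) (nat_lit 0) (XT.nd (nat_lit 78) (nat_lit 76) (nat_lit 0) (XT.lf (nat_lit 0) (nat_lit 335330952) (nat_lit 76) (nat_lit 87309387922) (nat_lit 76) (nat_lit 20630950874) (nat_lit 15) (nat_lit 4) (nat_lit 16) (nat_lit 5) (nat_lit 16) (nat_lit 4) (nat_lit 357) (nat_lit 318) (nat_lit 225)) (XT.lf (nat_lit 0) (nat_lit 1710259017) (nat_lit 152) (nat_lit 63124949356) (nat_lit 76) (nat_lit 49910768544) (nat_lit 14) (nat_lit 5) (nat_lit 16) (nat_lit 5) (nat_lit 15) (nat_lit 4)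 (nat_lit 358) (nat_lit 318) (nat_lit 224))) (XT.nd (nat_lit 78) (nat_lit 76) (nat_lit 0) (XT.lf (nat_lit 0) (nat_lit 24721056759) (nat_lit 152) (nat_lit 15266055853) (nat_lit 76) (nat_lit 81704175676) (nat_lit 14) (nat_lit 5) (nat_lit 16) (nat_lit 5) (nat_lit 15) (nat_lit 4) (nat_lit 359) (nat_lit 318) (nat_lit 223)) (XT.lf (nat_lit 0) (nat_lit 38333733433) (nat_lit 76) (nat_lit 12158040131) (nat_lit 152) (nat_lit 78626927512) (nat_lit 13) (nat_lit 5) (nat_lit 14) (nat_lit 5) (nat_lit 15) (nat_lit 4) (nat_lit 360) (nat_lit 318) (nat_lit 222)))) (XT.nd (nat_lit 156) (nat_lit 152) (nat_lit 0) (XT.nd (nat_lit 78) (nat_lit 76) (nat_lit 0) (XT.lf (nat_lit 0) (nat_lit 79179975693) (nat_lit 152) (nat_lit 40463938899) (nat_lit 0) (nat_lit 17427926914) (nat_lit 13) (nat_lit 5) (nat_lit 15) (nat_lit 4) (nat_lit 13) (nat_lit 4) (nat_lit 361) (nat_lit 318) (nat_lit 221)) (XT.lf (nat_lit 0) (nat_lit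 14276079349) (nat_lit 76) (nat_lit 96543652277) (nat_lit 76) (nat_lit 34788982527) (nat_lit 12) (nat_lit 4) (nat_lit 13) (nat_lit 5) (nat_lit 13) (nat_lit 4) (nat_lit 362) (nat_lit 318) (nat_lit 220))) (XT.nd (nat_lit 78) (nat_lit 152) (nat_lit 0) (XT.lf (nat_lit 0) (nat_lit 75691600035) (nat_lit 76) (nat_lit 70402865061) (nat_lit 76) (nat_lit 8645768487) (nat_lit 12) (nat_lit 4) (nat_lit 13) (nat_lit 5) (nat_lit 13) (nat_lit 4) (nat_lit 363) (nat_lit 318) (nat_lit 219)) (XT.nd (nat_lit 78) (nat_lit 76) (nat_lit 0) (XT.lf (nat_lit 0) (nat_lit 18606555043) (nat_lit 152) (nat_lit 23057709141) (nat_lit 76) (nat_lit 122900516436) (nat_lit 11) (nat_lit 5) (nat_lit 13) (nat_lit 5) (nat_lit 12) (nat_lit 4) (nat_lit 364) (nat_lit 318) (nat_lit 218)) (XT.lf (nat_lit 0) (nat_lit 39141609164) (nat_lit 76) (nat_lit 9369464589) (nat_lit 152) (nat_lit 126571124590) (nat_lit 10) (nat_lit 5) (nat_lit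 11) (nat_lit 5) (nat_lit 12) (nat_lit 4) (nat_lit 365) (nat_lit 318) (nat_lit 217)))))) (XT.nd (nat_lit 312) (nat_lit 152) (nat_lit 0) (XT.nd (nat_lit 156) (nat_lit 76) (nat_lit 0) (XT.nd (nat_lit 78) (nat_lit 0) (nat_lit 0) (XT.lf (nat_lit 0) (nat_lit 82066022488) (nat_lit 152) (nat_lit 79396607283) (nat_lit 0) (nat_lit 24877734770) (nat_lit 10) (nat_lit 5) (nat_lit 12) (nat_lit 4) (nat_lit 10) (nat_lit 4) (nat_lit 366) (nat_lit 318) (nat_lit 216)) (XT.lf (nat_lit 0) (nat_lit 118546660166) (nat_lit 152) (nat_lit 18576500134) (nat_lit 0) (nat_lit 61356720792) (nat_lit 10) (nat_lit 5) (nat_lit 12) (nat_lit 4) (nat_lit 10) (nat_lit 4) (nat_lit 367) (nat_lit 318) (nat_lit 215))) (XT.nd (nat_lit 78) (nat_lit 0) (nat_lit 0) (XT.lf (nat_lit 0) (nat_lit 49585974851) (nat_lit 76) (nat_lit 109550401531) (nat_lit 76) (nat_lit 52358932846) (nat_lit 9) (nat_lit 4) (nat_lit 10) (nat_lit 5) (nat_lit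 10) (nat_lit 4) (nat_lit 368) (nat_lit 318) (nat_lit 214)) (XT.lf (nat_lit 0) (nat_lit 124254272319) (nat_lit 76) (nat_lit 79225050117) (nat_lit 76) (nat_lit 22032165404) (nat_lit 9) (nat_lit 4) (nat_lit 10) (nat_lit 5) (nat_lit 10) (nat_lit 4) (nat_lit 369) (nat_lit 318) (nat_lit 213)))) (XT.nd (nat_lit 156) (nat_lit 0) (nat_lit 0) (XT.nd (nat_lit 78) (nat_lit 76) (nat_lit 0) (XT.lf (nat_lit 0) (nat_lit 10182679296) (nat_lit 152) (nat_lit 36014222915) (nat_lit 76) (nat_lit 194431573699) (nat_lit 8) (nat_lit 5) (nat_lit 10) (nat_lit 5) (nat_lit 9) (nat_lit 4) (nat_lit 370) (nat_lit 318) (nat_lit 212)) (XT.lf (nat_lit 0) (nat_lit 35656418314) (nat_lit 76) (nat_lit 8983883695) (nat_lit 152) (nat_lit 212200268261) (nat_lit 7) (nat_lit 5) (nat_lit 8) (nat_lit 5) (nat_lit 9) (nat_lit 4) (nat_lit 371) (nat_lit 318) (nat_lit 211))) (XT.nd (nat_lit 78) (nat_lit 0) (nat_lit 0) (XT.lf (nat_lit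 0) (nat_lit 83613684215) (nat_lit 152) (nat_lit 159941285754) (nat_lit 0) (nat_lit 30653930552) (nat_lit 7) (nat_lit 5) (nat_lit 9) (nat_lit 4) (nat_lit 7) (nat_lit 4) (nat_lit 372) (nat_lit 318) (nat_lit 210)) (XT.nd (nat_lit 78) (nat_lit 0) (nat_lit 0) (XT.lf (nat_lit 0) (nat_lit 125936776545) (nat_lit 152) (nat_lit 94035314620) (nat_lit 0) (nat_lit 72976059156) (nat_lit 7) (nat_lit 5) (nat_lit 9) (nat_lit 4) (nat_lit 7) (nat_lit 4) (nat_lit 373) (nat_lit 318) (nat_lit 209)) (XT.lf (nat_lit 0) (nat_lit 171644319889) (nat_lit 152) (nat_lit 22859622033) (nat_lit 0) (nat_lit 118682710162) (nat_lit 7) (nat_lit 5) (nat_lit 9) (nat_lit 4) (nat_lit 7) (nat_lit 4) (nat_lit 374) (nat_lit 318) (nat_lit 208))))))) (XT.nd (nat_lit 702) (nat_lit 76) (nat_lit 0) (XT.nd (nat_lit 312) (nat_lit 152) (nat_lit 0) (XT.nd (nat_lit 156) (nat_lit 0) (nat_lit 0) (XT.nd (nat_lit 78) (nat_lit 0) (nat_lit 0)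 (XT.lf (nat_lit 0) (nat_lit 56851517020) (nat_lit 76) (nat_lit 165522937096) (nat_lit 76) (nat_lit 112560501130) (nat_lit 6) (nat_lit 4) (nat_lit 7) (nat_lit 5) (nat_lit 7) (nat_lit 4) (nat_lit 375) (nat_lit 318) (nat_lit 207)) (XT.lf (nat_lit 0) (nat_lit 144237106696) (nat_lit 76) (nat_lit 133549657975) (nat_lit 76) (nat_lit 80586456973) (nat_lit 6) (nat_lit 4) (nat_lit 7) (nat_lit 5) (nat_lit 7) (nat_lit 4) (nat_lit 376) (nat_lit 318) (nat_lit 206))) (XT.nd (nat_lit 78) (nat_lit 0) (nat_lit 0) (XT.lf (nat_lit 0) (nat_lit 238611240341) (nat_lit 76) (nat_lit 99019655854) (nat_lit 76) (nat_lit 46055746484) (nat_lit 6) (nat_lit 4) (nat_lit 7) (nat_lit 5) (nat_lit 7) (nat_lit 4) (nat_lit 377) (nat_lit 318) (nat_lit 205)) (XT.lf (nat_lit 0) (nat_lit 340533172080) (nat_lit 76) (nat_lit 61728308497) (nat_lit 76) (nat_lit 8763743232) (nat_lit 6) (nat_lit 4) (nat_lit 7) (nat_lit 5) (nat_lit 7)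 (nat_lit 4) (nat_lit 378) (nat_lit 318) (nat_lit 204)))) (XT.nd (nat_lit 156) (nat_lit 0) (nat_lit 0) (XT.nd (nat_lit 78) (nat_lit 0) (nat_lit 0) (XT.lf (nat_lit 0) (nat_lit 9787703557) (nat_lit 76) (nat_lit 20381948429) (nat_lit 152) (nat_lit 410301861550) (nat_lit 4) (nat_lit 5) (nat_lit 5) (nat_lit 5) (nat_lit 6) (nat_lit 4) (nat_lit 379) (nat_lit 318) (nat_lit 203)) (XT.lf (nat_lit 0) (nat_lit 74304414265) (nat_lit 152) (nat_lit 372484001605) (nat_lit 0) (nat_lit 25262067136) (nat_lit 4) (nat_lit 5) (nat_lit 6) (nat_lit 4) (nat_lit 4) (nat_lit 4) (nat_lit 380) (nat_lit 318) (nat_lit 202))) (XT.nd (nat_lit 78) (nat_lit 0) (nat_lit 0) (XT.lf (nat_lit 0) (nat_lit 122498415035) (nat_lit 152) (nat_lit 310159492741) (nat_lit 0) (nat_lit 73455585803) (nat_lit 4) (nat_lit 5) (nat_lit 6) (nat_lit 4) (nat_lit 4) (nat_lit 4) (nat_lit 381) (nat_lit 318) (nat_lit 201)) (XT.nd (nat_lit 78) (nat_lit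 0) (nat_lit 0) (XT.lf (nat_lit 0) (nat_lit 174547062025) (nat_lit 152) (nat_lit 242850766613) (nat_lit 0) (nat_lit 125503786402) (nat_lit 4) (nat_lit 5) (nat_lit 6) (nat_lit 4) (nat_lit 4) (nat_lit 4) (nat_lit 382) (nat_lit 318) (nat_lit 200)) (XT.lf (nat_lit 0) (nat_lit 230758791663) (nat_lit 152) (nat_lit 170158956696) (nat_lit 0) (nat_lit 181715102714) (nat_lit 4) (nat_lit 5) (nat_lit 6) (nat_lit 4) (nat_lit 4) (nat_lit 4) (nat_lit 383) (nat_lit 318) (nat_lit 199)))))) (XT.nd (nat_lit 312) (nat_lit 0) (nat_lit 0) (XT.nd (nat_lit 156) (nat_lit 76) (nat_lit 0) (XT.nd (nat_lit 78) (nat_lit 0) (nat_lit 0) (XT.lf (nat_lit 0) (nat_lit 291466710493) (nat_lit 152) (nat_lit 91653296709) (nat_lit 0) (nat_lit 242422638836) (nat_lit 4) (nat_lit 5) (nat_lit 6) (nat_lit 4) (nat_lit 4) (nat_lit 4) (nat_lit 384) (nat_lit 318) (nat_lit 198)) (XT.lf (nat_lit 0) (nat_lit 357030569147) (nat_lit 152) (nat_lit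 6868567926) (nat_lit 0) (nat_lit 307986143130) (nat_lit 4) (nat_lit 5) (nat_lit 6) (nat_lit 4) (nat_lit 4) (nat_lit 4) (nat_lit 385) (nat_lit 318) (nat_lit 197))) (XT.nd (nat_lit 78) (nat_lit 0) (nat_lit 0) (XT.lf (nat_lit 0) (nat_lit 89157686230) (nat_lit 76) (nat_lit 340825452460) (nat_lit 76) (nat_lit 291780698333) (nat_lit 3) (nat_lit 4) (nat_lit 4) (nat_lit 5) (nat_lit 4) (nat_lit 4) (nat_lit 386) (nat_lit 318) (nat_lit 196)) (XT.lf (nat_lit 0) (nat_lit 193255413222) (nat_lit 76) (nat_lit 315703674635) (nat_lit 76) (nat_lit 266658616701) (nat_lit 3) (nat_lit 4) (nat_lit 4) (nat_lit 5) (nat_lit 4) (nat_lit 4) (nat_lit 387) (nat_lit 318) (nat_lit 195)))) (XT.nd (nat_lit 156) (nat_lit 0) (nat_lit 0) (XT.nd (nat_lit 78) (nat_lit 0) (nat_lit 0) (XT.lf (nat_lit 0) (nat_lit 305679801853) (nat_lit 76) (nat_lit 288572732621) (nat_lit 76) (nat_lit 239527393384) (nat_lit 3) (nat_lit 4) (nat_lit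 4) (nat_lit 5) (nat_lit 4) (nat_lit 4) (nat_lit 388) (nat_lit 318) (nat_lit 194)) (XT.lf (nat_lit 0) (nat_lit 427097070723) (nat_lit 76) (nat_lit 259271850465) (nat_lit 76) (nat_lit 210226250764) (nat_lit 3) (nat_lit 4) (nat_lit 4) (nat_lit 5) (nat_lit 4) (nat_lit 4) (nat_lit 389) (nat_lit 318) (nat_lit 193))) (XT.nd (nat_lit 78) (nat_lit 0) (nat_lit 0) (XT.lf (nat_lit 0) (nat_lit 558226729572) (nat_lit 76) (nat_lit 227627393312) (nat_lit 76) (nat_lit 178581552439) (nat_lit 3) (nat_lit 4) (nat_lit 4) (nat_lit 5) (nat_lit 4) (nat_lit 4) (nat_lit 390) (nat_lit 318) (nat_lit 192)) (XT.nd (nat_lit 78) (nat_lit 0) (nat_lit 0) (XT.lf (nat_lit 0) (nat_lit 699845843047) (nat_lit 76) (nat_lit 193451838451) (nat_lit 76) (nat_lit 144405774271) (nat_lit 3) (nat_lit 4) (nat_lit 4) (nat_lit 5) (nat_lit 4) (nat_lit 4) (nat_lit 391) (nat_lit 318) (nat_lit 191)) (XT.lf (nat_lit 0) (nat_lit 852793635522)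 (nat_lit 76) (nat_lit 156542664076) (nat_lit 76) (nat_lit 107496393131) (nat_lit 3) (nat_lit 4) (nat_lit 4) (nat_lit 5) (nat_lit 4) (nat_lit 4) (nat_lit 392) (nat_lit 318) (nat_lit 190))))))))
noncomputable def xc151 : XT := (XT.nd (nat_lit 1404) (nat_lit 0) (nat_lit 0) (XT.nd (nat_lit 702) (nat_lit 0) (nat_lit 0) (XT.nd (nat_lit 312) (nat_lit 0) (nat_lit 0) (XT.nd (nat_lit 156) (nat_lit 152) (nat_lit 0) (XT.nd (nat_lit 78) (nat_lit 0) (nat_lit 0) (XT.lf (nat_lit 0) (nat_lit 1017976464288) (nat_lit 76) (nat_lit 116681149154) (nat_lit 76) (nat_lit 67634686759) (nat_lit 3) (nat_lit 4) (nat_lit 4) (nat_lit 5) (nat_lit 4) (nat_lit 4) (nat_lit 393) (nat_lit 318) (nat_lit 189)) (XT.lf (nat_lit 0) (nat_lit 1196373190551) (nat_lit 76) (nat_lit 73631077300) (nat_lit 76) (nat_lit 24584437637) (nat_lit 3) (nat_lit 4) (nat_lit 4) (nat_lit 5) (nat_lit 4) (nat_lit 4) (nat_lit 394) (nat_lit 318) (nat_lit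 188))) (XT.nd (nat_lit 78) (nat_lit 76) (nat_lit 0) (XT.lf (nat_lit 0) (nat_lit 20813466558) (nat_lit 152) (nat_lit 5754793358) (nat_lit 76) (nat_lit 1367658436477) (nat_lit 2) (nat_lit 5) (nat_lit 4) (nat_lit 5) (nat_lit 3) (nat_lit 4) (nat_lit 395) (nat_lit 318) (nat_lit 187)) (XT.lf (nat_lit 0) (nat_lit 71542331569) (nat_lit 152) (nat_lit 1403871640740) (nat_lit 0) (nat_lit 26128483626) (nat_lit 1) (nat_lit 5) (nat_lit 3) (nat_lit 4) (nat_lit 1) (nat_lit 4) (nat_lit 396) (nat_lit 318) (nat_lit 186)))) (XT.nd (nat_lit 156) (nat_lit 0) (nat_lit 0) (XT.nd (nat_lit 78) (nat_lit 0) (nat_lit 0) (XT.lf (nat_lit 0) (nat_lit 127180704093) (nat_lit 152) (nat_lit 1408427950469) (nat_lit 0) (nat_lit 81766725852) (nat_lit 1) (nat_lit 5) (nat_lit 3) (nat_lit 4) (nat_lit 1) (nat_lit 4) (nat_lit 397) (nat_lit 318) (nat_lit 185)) (XT.lf (nat_lit 0) (nat_lit 187269850561) (nat_lit 152) (nat_lit 1413349360322)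 (nat_lit 0) (nat_lit 141855751674) (nat_lit 1) (nat_lit 5) (nat_lit 3) (nat_lit 4) (nat_lit 1) (nat_lit 4) (nat_lit 398) (nat_lit 318) (nat_lit 184))) (XT.nd (nat_lit 78) (nat_lit 0) (nat_lit 0) (XT.lf (nat_lit 0) (nat_lit 252165854804) (nat_lit 152) (nat_lit 1418665034209) (nat_lit 0) (nat_lit 206751644208) (nat_lit 1) (nat_lit 5) (nat_lit 3) (nat_lit 4) (nat_lit 1) (nat_lit 4) (nat_lit 399) (nat_lit 318) (nat_lit 183)) (XT.nd (nat_lit 78) (nat_lit 0) (nat_lit 0) (XT.lf (nat_lit 0) (nat_lit 322253285736) (nat_lit 152) (nat_lit 1424406472419) (nat_lit 0) (nat_lit 276838971706) (nat_lit 1) (nat_lit 5) (nat_lit 3) (nat_lit 4) (nat_lit 1) (nat_lit 4) (nat_lit 400) (nat_lit 318) (nat_lit 182)) (XT.lf (nat_lit 0) (nat_lit 397947476281) (nat_lit 152) (nat_lit 1430607698290) (nat_lit 0) (nat_lit 352533066479) (nat_lit 1) (nat_lit 5) (nat_lit 3) (nat_lit 4) (nat_lit 1) (nat_lit 4) (nat_lit 401)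 (nat_lit 318) (nat_lit 181)))))) (XT.nd (nat_lit 312) (nat_lit 0) (nat_lit 0) (XT.nd (nat_lit 156) (nat_lit 0) (nat_lit 0) (XT.nd (nat_lit 78) (nat_lit 0) (nat_lit 0) (XT.lf (nat_lit 0) (nat_lit 479696984606) (nat_lit 152) (nat_lit 1437305459827) (nat_lit 0) (nat_lit 434282486126) (nat_lit 1) (nat_lit 5) (nat_lit 3) (nat_lit 4) (nat_lit 1) (nat_lit 4) (nat_lit 402) (nat_lit 318) (nat_lit 180)) (XT.lf (nat_lit 0) (nat_lit 567986252241) (nat_lit 152) (nat_lit 1444539447469) (nat_lit 0) (nat_lit 522571671651) (nat_lit 1) (nat_lit 5) (nat_lit 3) (nat_lit 4) (nat_lit 1) (nat_lit 4) (nat_lit 403) (nat_lit 318) (nat_lit 179))) (XT.nd (nat_lit 78) (nat_lit 0) (nat_lit 0) (XT.lf (nat_lit 0) (nat_lit 663338474846) (nat_lit 152) (nat_lit 1452352529291) (nat_lit 0) (nat_lit 617923818229) (nat_lit 1) (nat_lit 5) (nat_lit 3) (nat_lit 4) (nat_lit 1) (nat_lit 4) (nat_lit 404) (nat_lit 318) (nat_lit 178))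 (XT.lf (nat_lit 0) (nat_lit 766318702629) (nat_lit 152) (nat_lit 1460791005036) (nat_lit 0) (nat_lit 720903975617) (nat_lit 1) (nat_lit 5) (nat_lit 3) (nat_lit 4) (nat_lit 1) (nat_lit 4) (nat_lit 405) (nat_lit 318) (nat_lit 177)))) (XT.nd (nat_lit 156) (nat_lit 0) (nat_lit 0) (XT.nd (nat_lit 78) (nat_lit 0) (nat_lit 0) (XT.lf (nat_lit 0) (nat_lit 877537188793) (nat_lit 152) (nat_lit 1469904880488) (nat_lit 0) (nat_lit 832122396599) (nat_lit 1) (nat_lit 5) (nat_lit 3) (nat_lit 4) (nat_lit 1) (nat_lit 4) (nat_lit 406) (nat_lit 318) (nat_lit 176)) (XT.lf (nat_lit 0) (nat_lit 997653005847) (nat_lit 152) (nat_lit 1479748163796) (nat_lit 0) (nat_lit 952238153300) (nat_lit 1) (nat_lit 5) (nat_lit 3) (nat_lit 4) (nat_lit 1) (nat_lit 4) (nat_lit 407) (nat_lit 318) (nat_lit 175))) (XT.nd (nat_lit 78) (nat_lit 0) (nat_lit 0) (XT.lf (nat_lit 0) (nat_lit 1127377951226) (nat_lit 152) (nat_lit 1490379185529)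 (nat_lit 0) (nat_lit 1081963042797) (nat_lit 1) (nat_lit 5) (nat_lit 3) (nat_lit 4) (nat_lit 1) (nat_lit 4) (nat_lit 408) (nat_lit 318) (nat_lit 174)) (XT.nd (nat_lit 78) (nat_lit 0) (nat_lit 0) (XT.lf (nat_lit 0) (nat_lit 1267480765347) (nat_lit 152) (nat_lit 1501860944334) (nat_lit 0) (nat_lit 1222065805175) (nat_lit 1) (nat_lit 5) (nat_lit 3) (nat_lit 4) (nat_lit 1) (nat_lit 4) (nat_lit 409) (nat_lit 318) (nat_lit 173)) (XT.lf (nat_lit 0) (nat_lit 1418791687109) (nat_lit 152) (nat_lit 1514261480263) (nat_lit 0) (nat_lit 1373376679027) (nat_lit 1) (nat_lit 5) (nat_lit 3) (nat_lit 4) (nat_lit 1) (nat_lit 4) (nat_lit 410) (nat_lit 318) (nat_lit 172))))))) (XT.nd (nat_lit 40092) (nat_lit 0) (nat_lit 3192) (XT.nd (nat_lit 39702) (nat_lit 0) (nat_lit 4332) (XT.nd (nat_lit 156) (nat_lit 0) (nat_lit 0) (XT.nd (nat_lit 78) (nat_lit 0) (nat_lit 0) (XT.lf (nat_lit 0) (nat_lit 1582207373825) (nat_lit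 152) (nat_lit 1527654277974) (nat_lit 0) (nat_lit 1536792321382) (nat_lit 1) (nat_lit 5) (nat_lit 3) (nat_lit 4) (nat_lit 1) (nat_lit 4) (nat_lit 411) (nat_lit 318) (nat_lit 171)) (XT.lf (nat_lit 0) (nat_lit 1758696214750) (nat_lit 152) (nat_lit 1542118702193) (nat_lit 0) (nat_lit 1713281121232) (nat_lit 1) (nat_lit 5) (nat_lit 3) (nat_lit 4) (nat_lit 1) (nat_lit 4) (nat_lit 412) (nat_lit 318) (nat_lit 170))) (XT.nd (nat_lit 78) (nat_lit 0) (nat_lit 0) (XT.lf (nat_lit 0) (nat_lit 1949304069683) (nat_lit 152) (nat_lit 1557740468028) (nat_lit 0) (nat_lit 1903888938133) (nat_lit 1) (nat_lit 5) (nat_lit 3) (nat_lit 4) (nat_lit 1) (nat_lit 4) (nat_lit 413) (nat_lit 318) (nat_lit 169)) (XT.lf (nat_lit 0) (nat_lit 2155160466653) (nat_lit 152) (nat_lit 1574612148904) (nat_lit 0) (nat_lit 2109745299887) (nat_lit 1) (nat_lit 5) (nat_lit 3) (nat_lit 4) (nat_lit 1) (nat_lit 4) (nat_lit 414) (nat_lit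 318) (nat_lit 168)))) (XT.nd (nat_lit 156) (nat_lit 0) (nat_lit 76) (XT.nd (nat_lit 78) (nat_lit 0) (nat_lit 0) (XT.lf (nat_lit 0) (nat_lit 6272014686) (nat_lit 532) (nat_lit 1292403416) (nat_lit 532) (nat_lit 1292403416) (nat_lit 58) (nat_lit 3) (nat_lit 65) (nat_lit 3) (nat_lit 65) (nat_lit 5) (nat_lit 319) (nat_lit 319) (nat_lit 262)) (XT.lf (nat_lit 76) (nat_lit 6195467087) (nat_lit 0) (nat_lit 7196339838) (nat_lit 532) (nat_lit 5002405127) (nat_lit 59) (nat_lit 5) (nat_lit 58) (nat_lit 3) (nat_lit 65) (nat_lit 5) (nat_lit 320) (nat_lit 319) (nat_lit 261))) (XT.nd (nat_lit 78) (nat_lit 0) (nat_lit 0) (XT.lf (nat_lit 0) (nat_lit 14393112127) (nat_lit 456) (nat_lit 3346270647) (nat_lit 532) (nat_lit 1383016930) (nat_lit 59) (nat_lit 5) (nat_lit 65) (nat_lit 5) (nat_lit 66) (nat_lit 5) (nat_lit 321) (nat_lit 319) (nat_lit 260)) (XT.nd (nat_lit 78) (nat_lit 0) (nat_lit 0) (XT.lf (nat_lit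 76) (nat_lit 6332152201) (nat_lit 0) (nat_lit 9463270185) (nat_lit 532) (nat_lit 4087775295) (nat_lit 60) (nat_lit 5) (nat_lit 59) (nat_lit 5) (nat_lit 66) (nat_lit 5) (nat_lit 322) (nat_lit 319) (nat_lit 259)) (XT.lf (nat_lit 76) (nat_lit 16963368970) (nat_lit 0) (nat_lit 420808318) (nat_lit 532) (nat_lit 3314766760) (nat_lit 60) (nat_lit 5) (nat_lit 59) (nat_lit 5) (nat_lit 66) (nat_lit 5) (nat_lit 323) (nat_lit 319) (nat_lit 258)))))) (XT.nd (nat_lit 312) (nat_lit 836) (nat_lit 0) (XT.nd (nat_lit 156) (nat_lit 456) (nat_lit 0) (XT.nd (nat_lit 78) (nat_lit 0) (nat_lit 0) (XT.lf (nat_lit 76) (nat_lit 6977072060) (nat_lit 0) (nat_lit 12499672662) (nat_lit 532) (nat_lit 2073091895) (nat_lit 61) (nat_lit 5) (nat_lit 60) (nat_lit 5) (nat_lit 67) (nat_lit 5) (nat_lit 324) (nat_lit 319) (nat_lit 257)) (XT.lf (nat_lit 76) (nat_lit 18735649427) (nat_lit 0) (nat_lit 3098907309) (nat_lit 532)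 (nat_lit 626438441) (nat_lit 61) (nat_lit 5) (nat_lit 60) (nat_lit 5) (nat_lit 67) (nat_lit 5) (nat_lit 325) (nat_lit 319) (nat_lit 256))) (XT.nd (nat_lit 78) (nat_lit 0) (nat_lit 0) (XT.lf (nat_lit 0) (nat_lit 1251827581) (nat_lit 532) (nat_lit 15229429632) (nat_lit 76) (nat_lit 6932991056) (nat_lit 54) (nat_lit 5) (nat_lit 61) (nat_lit 5) (nat_lit 55) (nat_lit 5) (nat_lit 326) (nat_lit 319) (nat_lit 255)) (XT.lf (nat_lit 0) (nat_lit 3418101760) (nat_lit 532) (nat_lit 3288095812) (nat_lit 76) (nat_lit 17722552325) (nat_lit 54) (nat_lit 5) (nat_lit 61) (nat_lit 5) (nat_lit 55) (nat_lit 5) (nat_lit 327) (nat_lit 319) (nat_lit 254)))) (XT.nd (nat_lit 156) (nat_lit 456) (nat_lit 0) (XT.nd (nat_lit 78) (nat_lit 0) (nat_lit 0) (XT.lf (nat_lit 0) (nat_lit 6087161887) (nat_lit 456) (nat_lit 15502821653) (nat_lit 76) (nat_lit 3908085361) (nat_lit 49) (nat_lit 5) (nat_lit 55) (nat_lit 5) (nat_lit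 50) (nat_lit 5) (nat_lit 328) (nat_lit 319) (nat_lit 253)) (XT.lf (nat_lit 0) (nat_lit 9224410142) (nat_lit 456) (nat_lit 2306464430) (nat_lit 76) (nat_lit 15101700573) (nat_lit 49) (nat_lit 5) (nat_lit 55) (nat_lit 5) (nat_lit 50) (nat_lit 5) (nat_lit 329) (nat_lit 319) (nat_lit 252))) (XT.nd (nat_lit 78) (nat_lit 228) (nat_lit 0) (XT.lf (nat_lit 0) (nat_lit 12562495112) (nat_lit 228) (nat_lit 341381523) (nat_lit 304) (nat_lit 14930679872) (nat_lit 46) (nat_lit 5) (nat_lit 49) (nat_lit 5) (nat_lit 50) (nat_lit 5) (nat_lit 330) (nat_lit 319) (nat_lit 251)) (XT.nd (nat_lit 78) (nat_lit 228) (nat_lit 0) (XT.lf (nat_lit 0) (nat_lit 17214452254) (nat_lit 304) (nat_lit 671633986) (nat_lit 76) (nat_lit 11219682670) (nat_lit 46) (nat_lit 5) (nat_lit 50) (nat_lit 5) (nat_lit 47) (nat_lit 5) (nat_lit 331) (nat_lit 319) (nat_lit 250)) (XT.lf (nat_lit 0) (nat_lit 15870710381) (nat_lit 228) (nat_lit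 6380115109) (nat_lit 304) (nat_lit 8197388425) (nat_lit 43) (nat_lit 5) (nat_lit 46) (nat_lit 5) (nat_lit 47) (nat_lit 5) (nat_lit 332) (nat_lit 319) (nat_lit 249))))))))
noncomputable def xc152 : XT := (XT.nd (nat_lit 1404) (nat_lit 760) (nat_lit 0) (XT.nd (nat_lit 702) (nat_lit 760) (nat_lit 0) (XT.nd (nat_lit 312) (nat_lit 532) (nat_lit 0) (XT.nd (nat_lit 156) (nat_lit 228) (nat_lit 0) (XT.nd (nat_lit 78) (nat_lit 76) (nat_lit 0) (XT.lf (nat_lit 0) (nat_lit 1811177776) (nat_lit 152) (nat_lit 26077546595) (nat_lit 228) (nat_lit 3993451753) (nat_lit 41) (nat_lit 5) (nat_lit 43) (nat_lit 5) (nat_lit 44) (nat_lit 5) (nat_lit 333) (nat_lit 319) (nat_lit 248)) (XT.lf (nat_lit 0) (nat_lit 1085065075) (nat_lit 228) (nat_lit 13259978418) (nat_lit 76) (nat_lit 19039519621) (nat_lit 40) (nat_lit 5) (nat_lit 43) (nat_lit 5) (nat_lit 41) (nat_lit 5) (nat_lit 334) (nat_lit 319) (nat_lit 247))) (XT.nd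 (nat_lit 78) (nat_lit 0) (nat_lit 0) (XT.lf (nat_lit 0) (nat_lit 5033066059) (nat_lit 228) (nat_lit 1433734764) (nat_lit 304) (nat_lit 28523035769) (nat_lit 37) (nat_lit 5) (nat_lit 40) (nat_lit 5) (nat_lit 41) (nat_lit 5) (nat_lit 335) (nat_lit 319) (nat_lit 246)) (XT.lf (nat_lit 0) (nat_lit 12943863382) (nat_lit 304) (nat_lit 11472374700) (nat_lit 76) (nat_lit 12254118818) (nat_lit 37) (nat_lit 5) (nat_lit 41) (nat_lit 5) (nat_lit 38) (nat_lit 5) (nat_lit 336) (nat_lit 319) (nat_lit 245)))) (XT.nd (nat_lit 156) (nat_lit 380) (nat_lit 0) (XT.nd (nat_lit 78) (nat_lit 0) (nat_lit 0) (XT.lf (nat_lit 0) (nat_lit 8887751440) (nat_lit 152) (nat_lit 11294869273) (nat_lit 228) (nat_lit 18283223134) (nat_lit 35) (nat_lit 5) (nat_lit 37) (nat_lit 5) (nat_lit 38) (nat_lit 5) (nat_lit 337) (nat_lit 319) (nat_lit 244)) (XT.lf (nat_lit 0) (nat_lit 28384251128) (nat_lit 228) (nat_lit 8938691793) (nat_lit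 76) (nat_lit 3051331878) (nat_lit 35) (nat_lit 5) (nat_lit 38) (nat_lit 5) (nat_lit 36) (nat_lit 5) (nat_lit 338) (nat_lit 319) (nat_lit 243))) (XT.nd (nat_lit 78) (nat_lit 228) (nat_lit 0) (XT.lf (nat_lit 0) (nat_lit 13735765976) (nat_lit 152) (nat_lit 24123276893) (nat_lit 228) (nat_lit 4526981226) (nat_lit 33) (nat_lit 5) (nat_lit 35) (nat_lit 5) (nat_lit 36) (nat_lit 5) (nat_lit 339) (nat_lit 319) (nat_lit 242)) (XT.nd (nat_lit 78) (nat_lit 152) (nat_lit 0) (XT.lf (nat_lit 0) (nat_lit 3600516611) (nat_lit 228) (nat_lit 5907892899) (nat_lit 76) (nat_lit 35023979387) (nat_lit 32) (nat_lit 5) (nat_lit 35) (nat_lit 5) (nat_lit 33) (nat_lit 5) (nat_lit 340) (nat_lit 319) (nat_lit 241)) (XT.lf (nat_lit 0) (nat_lit 12762664380) (nat_lit 228) (nat_lit 27467445505) (nat_lit 76) (nat_lit 6560629342) (nat_lit 30) (nat_lit 5) (nat_lit 33) (nat_lit 5) (nat_lit 31) (nat_lit 5) (nat_lit 341) (nat_lit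 319) (nat_lit 240)))))) (XT.nd (nat_lit 312) (nat_lit 456) (nat_lit 0) (XT.nd (nat_lit 156) (nat_lit 152) (nat_lit 0) (XT.nd (nat_lit 78) (nat_lit 152) (nat_lit 0) (XT.lf (nat_lit 0) (nat_lit 23064538478) (nat_lit 228) (nat_lit 2568413839) (nat_lit 76) (nat_lit 23564269566) (nat_lit 30) (nat_lit 5) (nat_lit 33) (nat_lit 5) (nat_lit 31) (nat_lit 5) (nat_lit 342) (nat_lit 319) (nat_lit 239)) (XT.lf (nat_lit 0) (nat_lit 25594185650) (nat_lit 152) (nat_lit 9206412938) (nat_lit 228) (nat_lit 16946825993) (nat_lit 28) (nat_lit 5) (nat_lit 30) (nat_lit 5) (nat_lit 31) (nat_lit 5) (nat_lit 343) (nat_lit 319) (nat_lit 238))) (XT.nd (nat_lit 78) (nat_lit 76) (nat_lit 0) (XT.lf (nat_lit 0) (nat_lit 1519986688) (nat_lit 76) (nat_lit 46264034071) (nat_lit 152) (nat_lit 6692948550) (nat_lit 27) (nat_lit 5) (nat_lit 28) (nat_lit 5) (nat_lit 29) (nat_lit 4) (nat_lit 344) (nat_lit 319) (nat_lit 237))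 (XT.lf (nat_lit 0) (nat_lit 5129525798) (nat_lit 152) (nat_lit 24845185705) (nat_lit 76) (nat_lit 27364343704) (nat_lit 26) (nat_lit 5) (nat_lit 28) (nat_lit 5) (nat_lit 27) (nat_lit 5) (nat_lit 345) (nat_lit 319) (nat_lit 236)))) (XT.nd (nat_lit 156) (nat_lit 304) (nat_lit 0) (XT.nd (nat_lit 78) (nat_lit 0) (nat_lit 0) (XT.lf (nat_lit 0) (nat_lit 5614349383) (nat_lit 152) (nat_lit 12051952297) (nat_lit 228) (nat_lit 42739494312) (nat_lit 24) (nat_lit 5) (nat_lit 26) (nat_lit 5) (nat_lit 27) (nat_lit 5) (nat_lit 346) (nat_lit 319) (nat_lit 235)) (XT.lf (nat_lit 0) (nat_lit 32073817690) (nat_lit 228) (nat_lit 23941549551) (nat_lit 76) (nat_lit 7633087890) (nat_lit 24) (nat_lit 5) (nat_lit 27) (nat_lit 5) (nat_lit 25) (nat_lit 4) (nat_lit 347) (nat_lit 319) (nat_lit 234))) (XT.nd (nat_lit 78) (nat_lit 228) (nat_lit 0) (XT.lf (nat_lit 0) (nat_lit 9532456884) (nat_lit 76) (nat_lit 38639295456)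 (nat_lit 152) (nat_lit 18935751993) (nat_lit 23) (nat_lit 5) (nat_lit 24) (nat_lit 5) (nat_lit 25) (nat_lit 4) (nat_lit 348) (nat_lit 319) (nat_lit 233)) (XT.nd (nat_lit 78) (nat_lit 228) (nat_lit 0) (XT.lf (nat_lit 0) (nat_lit 47038459061) (nat_lit 76) (nat_lit 19169342063) (nat_lit 152) (nat_lit 4583456515) (nat_lit 23) (nat_lit 5) (nat_lit 24) (nat_lit 5) (nat_lit 25) (nat_lit 4) (nat_lit 349) (nat_lit 319) (nat_lit 232)) (XT.lf (nat_lit 0) (nat_lit 10743052576) (nat_lit 228) (nat_lit 61619340863) (nat_lit 76) (nat_lit 2356544065) (nat_lit 20) (nat_lit 5) (nat_lit 23) (nat_lit 5) (nat_lit 21) (nat_lit 4) (nat_lit 350) (nat_lit 319) (nat_lit 231))))))) (XT.nd (nat_lit 702) (nat_lit 304) (nat_lit 0) (XT.nd (nat_lit 312) (nat_lit 304) (nat_lit 0) (XT.nd (nat_lit 156) (nat_lit 76) (nat_lit 0) (XT.nd (nat_lit 78) (nat_lit 76) (nat_lit 0) (XT.lf (nat_lit 0) (nat_lit 28208227251) (nat_lit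 228) (nat_lit 25298905592) (nat_lit 76) (nat_lit 25351363203) (nat_lit 20) (nat_lit 5) (nat_lit 23) (nat_lit 5) (nat_lit 21) (nat_lit 4) (nat_lit 351) (nat_lit 319) (nat_lit 230)) (XT.lf (nat_lit 0) (nat_lit 14653496334) (nat_lit 76) (nat_lit 32765789558) (nat_lit 152) (nat_lit 35882041630) (nat_lit 19) (nat_lit 5) (nat_lit 20) (nat_lit 5) (nat_lit 21) (nat_lit 4) (nat_lit 352) (nat_lit 319) (nat_lit 229))) (XT.nd (nat_lit 78) (nat_lit 76) (nat_lit 0) (XT.lf (nat_lit 0) (nat_lit 59234335696) (nat_lit 76) (nat_lit 9620984099) (nat_lit 152) (nat_lit 19189220190) (nat_lit 19) (nat_lit 5) (nat_lit 20) (nat_lit 5) (nat_lit 21) (nat_lit 4) (nat_lit 353) (nat_lit 319) (nat_lit 228)) (XT.lf (nat_lit 0) (nat_lit 14567111671) (nat_lit 76) (nat_lit 78155820712) (nat_lit 76) (nat_lit 386942973) (nat_lit 18) (nat_lit 4) (nat_lit 19) (nat_lit 5) (nat_lit 19) (nat_lit 4) (nat_lit 354) (nat_lit 319)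 (nat_lit 227)))) (XT.nd (nat_lit 156) (nat_lit 152) (nat_lit 0) (XT.nd (nat_lit 78) (nat_lit 76) (nat_lit 0) (XT.lf (nat_lit 0) (nat_lit 19977736821) (nat_lit 152) (nat_lit 36220036384) (nat_lit 76) (nat_lit 42259966500) (nat_lit 17) (nat_lit 5) (nat_lit 19) (nat_lit 5) (nat_lit 18) (nat_lit 4) (nat_lit 355) (nat_lit 319) (nat_lit 226)) (XT.lf (nat_lit 0) (nat_lit 9971465719) (nat_lit 76) (nat_lit 32215883594) (nat_lit 152) (nat_lit 62026348046) (nat_lit 16) (nat_lit 5) (nat_lit 17) (nat_lit 5) (nat_lit 18) (nat_lit 4) (nat_lit 356) (nat_lit 319) (nat_lit 225))) (XT.nd (nat_lit 78) (nat_lit 152) (nat_lit 0) (XT.lf (nat_lit 0) (nat_lit 61912494528) (nat_lit 76) (nat_lit 5248502843) (nat_lit 152) (nat_lit 43190154098) (nat_lit 16) (nat_lit 5) (nat_lit 17) (nat_lit 5) (nat_lit 18) (nat_lit 4) (nat_lit 357) (nat_lit 319) (nat_lit 224)) (XT.nd (nat_lit 78) (nat_lit 76) (nat_lit 0) (XT.lf (nat_lit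 0) (nat_lit 473243379) (nat_lit 76) (nat_lit 94242014975) (nat_lit 76) (nat_lit 22217726947) (nat_lit 15) (nat_lit 4) (nat_lit 16) (nat_lit 5) (nat_lit 16) (nat_lit 4) (nat_lit 358) (nat_lit 319) (nat_lit 223)) (XT.lf (nat_lit 0) (nat_lit 1903110725) (nat_lit 152) (nat_lit 68069119387) (nat_lit 76) (nat_lit 53948924416) (nat_lit 14) (nat_lit 5) (nat_lit 16) (nat_lit 5) (nat_lit 15) (nat_lit 4) (nat_lit 359) (nat_lit 319) (nat_lit 222)))))) (XT.nd (nat_lit 312) (nat_lit 152) (nat_lit 0) (XT.nd (nat_lit 156) (nat_lit 76) (nat_lit 0) (XT.nd (nat_lit 78) (nat_lit 76) (nat_lit 0) (XT.lf (nat_lit 0) (nat_lit 26750621843) (nat_lit 152) (nat_lit 16389353361) (nat_lit 76) (nat_lit 88282448979) (nat_lit 14) (nat_lit 5) (nat_lit 16) (nat_lit 5) (nat_lit 15) (nat_lit 4) (nat_lit 360) (nat_lit 319) (nat_lit 221)) (XT.lf (nat_lit 0) (nat_lit 41495938385) (nat_lit 76) (nat_lit 13085511532) (nat_lit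 152) (nat_lit 84862705002) (nat_lit 13) (nat_lit 5) (nat_lit 14) (nat_lit 5) (nat_lit 15) (nat_lit 4) (nat_lit 361) (nat_lit 319) (nat_lit 220))) (XT.nd (nat_lit 78) (nat_lit 76) (nat_lit 0) (XT.lf (nat_lit 0) (nat_lit 85561985647) (nat_lit 152) (nat_lit 43609885365) (nat_lit 0) (nat_lit 18861894524) (nat_lit 13) (nat_lit 5) (nat_lit 15) (nat_lit 4) (nat_lit 13) (nat_lit 4) (nat_lit 362) (nat_lit 319) (nat_lit 219)) (XT.lf (nat_lit 0) (nat_lit 15507026277) (nat_lit 76) (nat_lit 104224506070) (nat_lit 76) (nat_lit 37522167886) (nat_lit 12) (nat_lit 4) (nat_lit 13) (nat_lit 5) (nat_lit 13) (nat_lit 4) (nat_lit 363) (nat_lit 319) (nat_lit 218)))) (XT.nd (nat_lit 156) (nat_lit 76) (nat_lit 0) (XT.nd (nat_lit 78) (nat_lit 76) (nat_lit 0) (XT.lf (nat_lit 0) (nat_lit 81829206352) (nat_lit 76) (nat_lit 75995614276) (nat_lit 76) (nat_lit 9291195482) (nat_lit 12) (nat_lit 4) (nat_lit 13) (nat_lit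 5) (nat_lit 13) (nat_lit 4) (nat_lit 364) (nat_lit 319) (nat_lit 217)) (XT.lf (nat_lit 0) (nat_lit 20135747640) (nat_lit 152) (nat_lit 24823990193) (nat_lit 76) (nat_lit 132766961242) (nat_lit 11) (nat_lit 5) (nat_lit 13) (nat_lit 5) (nat_lit 12) (nat_lit 4) (nat_lit 365) (nat_lit 319) (nat_lit 216))) (XT.nd (nat_lit 78) (nat_lit 0) (nat_lit 0) (XT.lf (nat_lit 0) (nat_lit 42349290395) (nat_lit 76) (nat_lit 10082161272) (nat_lit 152) (nat_lit 136654153424) (nat_lit 10) (nat_lit 5) (nat_lit 11) (nat_lit 5) (nat_lit 12) (nat_lit 4) (nat_lit 366) (nat_lit 319) (nat_lit 215)) (XT.nd (nat_lit 78) (nat_lit 0) (nat_lit 0) (XT.lf (nat_lit 0) (nat_lit 88668691796) (nat_lit 152) (nat_lit 85675525567) (nat_lit 0) (nat_lit 26900376305) (nat_lit 10) (nat_lit 5) (nat_lit 12) (nat_lit 4) (nat_lit 10) (nat_lit 4) (nat_lit 367) (nat_lit 319) (nat_lit 214)) (XT.lf (nat_lit 0) (nat_lit 128065011042) (nat_lit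 152) (nat_lit 19995203202) (nat_lit 0) (nat_lit 66295279523) (nat_lit 10) (nat_lit 5) (nat_lit 12) (nat_lit 4) (nat_lit 10) (nat_lit 4) (nat_lit 368) (nat_lit 319) (nat_lit 213))))))))
noncomputable def xc153 : XT := (XT.nd (nat_lit 1404) (nat_lit 228) (nat_lit 0) (XT.nd (nat_lit 702) (nat_lit 152) (nat_lit 0) (XT.nd (nat_lit 312) (nat_lit 76) (nat_lit 0) (XT.nd (nat_lit 156) (nat_lit 152) (nat_lit 0) (XT.nd (nat_lit 78) (nat_lit 0) (nat_lit 0) (XT.lf (nat_lit 0) (nat_lit 53618563024) (nat_lit 76) (nat_lit 118282357562) (nat_lit 76) (nat_lit 56511314906) (nat_lit 9) (nat_lit 4) (nat_lit 10) (nat_lit 5) (nat_lit 10) (nat_lit 4) (nat_lit 369) (nat_lit 319) (nat_lit 212)) (XT.lf (nat_lit 0) (nat_lit 134255456868) (nat_lit 76) (nat_lit 85533354043) (nat_lit 76) (nat_lit 23761097369) (nat_lit 9) (nat_lit 4) (nat_lit 10) (nat_lit 5) (nat_lit 10) (nat_lit 4) (nat_lit 370) (nat_lit 319) (nat_lit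 211))) (XT.nd (nat_lit 78) (nat_lit 76) (nat_lit 0) (XT.lf (nat_lit 0) (nat_lit 11026884745) (nat_lit 152) (nat_lit 38837460490) (nat_lit 76) (nat_lit 210012035308) (nat_lit 8) (nat_lit 5) (nat_lit 10) (nat_lit 5) (nat_lit 9) (nat_lit 4) (nat_lit 371) (nat_lit 319) (nat_lit 210)) (XT.lf (nat_lit 0) (nat_lit 38565366208) (nat_lit 76) (nat_lit 9674916385) (nat_lit 152) (nat_lit 229145227092) (nat_lit 7) (nat_lit 5) (nat_lit 8) (nat_lit 5) (nat_lit 9) (nat_lit 4) (nat_lit 372) (nat_lit 319) (nat_lit 209)))) (XT.nd (nat_lit 156) (nat_lit 76) (nat_lit 0) (XT.nd (nat_lit 78) (nat_lit 0) (nat_lit 0) (XT.lf (nat_lit 0) (nat_lit 90330021618) (nat_lit 152) (nat_lit 172682815485) (nat_lit 0) (nat_lit 33130590774) (nat_lit 7) (nat_lit 5) (nat_lit 9) (nat_lit 4) (nat_lit 7) (nat_lit 4) (nat_lit 373) (nat_lit 319) (nat_lit 208)) (XT.lf (nat_lit 0) (nat_lit 136036943358) (nat_lit 152) (nat_lit 101508349856)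 (nat_lit 0) (nat_lit 78836686276) (nat_lit 7) (nat_lit 5) (nat_lit 9) (nat_lit 4) (nat_lit 7) (nat_lit 4) (nat_lit 374) (nat_lit 319) (nat_lit 207))) (XT.nd (nat_lit 78) (nat_lit 76) (nat_lit 0) (XT.lf (nat_lit 0) (nat_lit 185399221675) (nat_lit 152) (nat_lit 24642290005) (nat_lit 0) (nat_lit 128198199556) (nat_lit 7) (nat_lit 5) (nat_lit 9) (nat_lit 4) (nat_lit 7) (nat_lit 4) (nat_lit 375) (nat_lit 319) (nat_lit 206)) (XT.nd (nat_lit 78) (nat_lit 0) (nat_lit 0) (XT.lf (nat_lit 0) (nat_lit 61444573039) (nat_lit 76) (nat_lit 178742544192) (nat_lit 76) (nat_lit 121540813706) (nat_lit 6) (nat_lit 4) (nat_lit 7) (nat_lit 5) (nat_lit 7) (nat_lit 4) (nat_lit 376) (nat_lit 319) (nat_lit 205)) (XT.lf (nat_lit 0) (nat_lit 155817681396) (nat_lit 76) (nat_lit 144213049251) (nat_lit 76) (nat_lit 87010662870) (nat_lit 6) (nat_lit 4) (nat_lit 7) (nat_lit 5) (nat_lit 7) (nat_lit 4) (nat_lit 377) (nat_lit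 319) (nat_lit 204)))))) (XT.nd (nat_lit 312) (nat_lit 0) (nat_lit 0) (XT.nd (nat_lit 156) (nat_lit 152) (nat_lit 0) (XT.nd (nat_lit 78) (nat_lit 0) (nat_lit 0) (XT.lf (nat_lit 0) (nat_lit 257738663795) (nat_lit 76) (nat_lit 106922171505) (nat_lit 76) (nat_lit 49719177813) (nat_lit 6) (nat_lit 4) (nat_lit 7) (nat_lit 5) (nat_lit 7) (nat_lit 4) (nat_lit 378) (nat_lit 319) (nat_lit 203)) (XT.lf (nat_lit 0) (nat_lit 367811496426) (nat_lit 76) (nat_lit 66648927976) (nat_lit 76) (nat_lit 9445371960) (nat_lit 6) (nat_lit 4) (nat_lit 7) (nat_lit 5) (nat_lit 7) (nat_lit 4) (nat_lit 379) (nat_lit 319) (nat_lit 202))) (XT.nd (nat_lit 78) (nat_lit 0) (nat_lit 0) (XT.lf (nat_lit 0) (nat_lit 10606439714) (nat_lit 76) (nat_lit 21994770093) (nat_lit 152) (nat_lit 443106583110) (nat_lit 4) (nat_lit 5) (nat_lit 5) (nat_lit 5) (nat_lit 6) (nat_lit 4) (nat_lit 380) (nat_lit 319) (nat_lit 201)) (XT.lf (nat_lit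 0) (nat_lit 80265815712) (nat_lit 152) (nat_lit 402248707784) (nat_lit 0) (nat_lit 27298631648) (nat_lit 4) (nat_lit 5) (nat_lit 6) (nat_lit 4) (nat_lit 4) (nat_lit 4) (nat_lit 381) (nat_lit 319) (nat_lit 200)))) (XT.nd (nat_lit 156) (nat_lit 0) (nat_lit 0) (XT.nd (nat_lit 78) (nat_lit 0) (nat_lit 0) (XT.lf (nat_lit 0) (nat_lit 132314073706) (nat_lit 152) (nat_lit 334940757763) (nat_lit 0) (nat_lit 79346476317) (nat_lit 4) (nat_lit 5) (nat_lit 6) (nat_lit 4) (nat_lit 4) (nat_lit 4) (nat_lit 382) (nat_lit 319) (nat_lit 199)) (XT.lf (nat_lit 0) (nat_lit 188525443162) (nat_lit 152) (nat_lit 262249666463) (nat_lit 0) (nat_lit 135557463064) (nat_lit 4) (nat_lit 5) (nat_lit 6) (nat_lit 4) (nat_lit 4) (nat_lit 4) (nat_lit 383) (nat_lit 319) (nat_lit 198))) (XT.nd (nat_lit 78) (nat_lit 0) (nat_lit 0) (XT.lf (nat_lit 0) (nat_lit 249233028491) (nat_lit 152) (nat_lit 183744671862) (nat_lit 0) (nat_lit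 196264694033) (nat_lit 4) (nat_lit 5) (nat_lit 6) (nat_lit 4) (nat_lit 4) (nat_lit 4) (nat_lit 384) (nat_lit 319) (nat_lit 197)) (XT.nd (nat_lit 78) (nat_lit 0) (nat_lit 0) (XT.lf (nat_lit 0) (nat_lit 314796578347) (nat_lit 152) (nat_lit 98960559177) (nat_lit 0) (nat_lit 261827915778) (nat_lit 4) (nat_lit 5) (nat_lit 6) (nat_lit 4) (nat_lit 4) (nat_lit 4) (nat_lit 385) (nat_lit 319) (nat_lit 196)) (XT.lf (nat_lit 0) (nat_lit 385604617469) (nat_lit 152) (nat_lit 7394904037) (nat_lit 0) (nat_lit 332635651094) (nat_lit 4) (nat_lit 5) (nat_lit 6) (nat_lit 4) (nat_lit 4) (nat_lit 4) (nat_lit 386) (nat_lit 319) (nat_lit 195))))))) (XT.nd (nat_lit 702) (nat_lit 152) (nat_lit 0) (XT.nd (nat_lit 312) (nat_lit 0) (nat_lit 0) (XT.nd (nat_lit 156) (nat_lit 0) (nat_lit 0) (XT.nd (nat_lit 78) (nat_lit 0) (nat_lit 0) (XT.lf (nat_lit 0) (nat_lit 96312864392) (nat_lit 76) (nat_lit 368080211365) (nat_lit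 76) (nat_lit 315110963688) (nat_lit 3) (nat_lit 4) (nat_lit 4) (nat_lit 5) (nat_lit 4) (nat_lit 4) (nat_lit 387) (nat_lit 319) (nat_lit 194)) (XT.lf (nat_lit 0) (nat_lit 208736738191) (nat_lit 76) (nat_lit 340949526669) (nat_lit 76) (nat_lit 287980018526) (nat_lit 3) (nat_lit 4) (nat_lit 4) (nat_lit 5) (nat_lit 4) (nat_lit 4) (nat_lit 388) (nat_lit 319) (nat_lit 193))) (XT.nd (nat_lit 78) (nat_lit 0) (nat_lit 0) (XT.lf (nat_lit 0) (nat_lit 330153530363) (nat_lit 76) (nat_lit 311648882770) (nat_lit 76) (nat_lit 258679133456) (nat_lit 3) (nat_lit 4) (nat_lit 4) (nat_lit 5) (nat_lit 4) (nat_lit 4) (nat_lit 389) (nat_lit 319) (nat_lit 192)) (XT.lf (nat_lit 0) (nat_lit 461282747827) (nat_lit 76) (nat_lit 280004646225) (nat_lit 76) (nat_lit 227034673604) (nat_lit 3) (nat_lit 4) (nat_lit 4) (nat_lit 5) (nat_lit 4) (nat_lit 4) (nat_lit 390) (nat_lit 319) (nat_lit 191)))) (XT.nd (nat_lit 156)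 (nat_lit 0) (nat_lit 0) (XT.nd (nat_lit 78) (nat_lit 0) (nat_lit 0) (XT.lf (nat_lit 0) (nat_lit 602901452611) (nat_lit 76) (nat_lit 245829295631) (nat_lit 76) (nat_lit 192859116244) (nat_lit 3) (nat_lit 4) (nat_lit 4) (nat_lit 5) (nat_lit 4) (nat_lit 4) (nat_lit 391) (nat_lit 319) (nat_lit 190)) (XT.lf (nat_lit 0) (nat_lit 755848866669) (nat_lit 76) (nat_lit 208920310392) (nat_lit 76) (nat_lit 155949939556) (nat_lit 3) (nat_lit 4) (nat_lit 4) (nat_lit 5) (nat_lit 4) (nat_lit 4) (nat_lit 392) (nat_lit 319) (nat_lit 189))) (XT.nd (nat_lit 78) (nat_lit 0) (nat_lit 0) (XT.lf (nat_lit 0) (nat_lit 921031345048) (nat_lit 76) (nat_lit 169058970595) (nat_lit 76) (nat_lit 116088422492) (nat_lit 3) (nat_lit 4) (nat_lit 4) (nat_lit 5) (nat_lit 4) (nat_lit 4) (nat_lit 393) (nat_lit 319) (nat_lit 188)) (XT.nd (nat_lit 78) (nat_lit 0) (nat_lit 0) (XT.lf (nat_lit 0) (nat_lit 1099427746878) (nat_lit 76)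 (nat_lit 126009060895) (nat_lit 76) (nat_lit 73038348654) (nat_lit 3) (nat_lit 4) (nat_lit 4) (nat_lit 5) (nat_lit 4) (nat_lit 4) (nat_lit 394) (nat_lit 319) (nat_lit 187)) (XT.lf (nat_lit 0) (nat_lit 1292095236024) (nat_lit 76) (nat_lit 79515470714) (nat_lit 76) (nat_lit 26544606494) (nat_lit 3) (nat_lit 4) (nat_lit 4) (nat_lit 5) (nat_lit 4) (nat_lit 4) (nat_lit 395) (nat_lit 319) (nat_lit 186)))))) (XT.nd (nat_lit 312) (nat_lit 0) (nat_lit 0) (XT.nd (nat_lit 156) (nat_lit 0) (nat_lit 0) (XT.nd (nat_lit 78) (nat_lit 76) (nat_lit 0) (XT.lf (nat_lit 0) (nat_lit 22484337112) (nat_lit 152) (nat_lit 6203583746) (nat_lit 76) (nat_lit 1477076447018) (nat_lit 2) (nat_lit 5) (nat_lit 4) (nat_lit 5) (nat_lit 3) (nat_lit 4) (nat_lit 396) (nat_lit 319) (nat_lit 185)) (XT.lf (nat_lit 0) (nat_lit 77271490164) (nat_lit 152) (nat_lit 1516169757046) (nat_lit 0) (nat_lit 28224142721) (nat_lit 1) (nat_lit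 5) (nat_lit 3) (nat_lit 4) (nat_lit 1) (nat_lit 4) (nat_lit 397) (nat_lit 319) (nat_lit 184))) (XT.nd (nat_lit 78) (nat_lit 0) (nat_lit 0) (XT.lf (nat_lit 0) (nat_lit 137360504929) (nat_lit 152) (nat_lit 1521091431920) (nat_lit 0) (nat_lit 88313045777) (nat_lit 1) (nat_lit 5) (nat_lit 3) (nat_lit 4) (nat_lit 1) (nat_lit 4) (nat_lit 398) (nat_lit 319) (nat_lit 183)) (XT.lf (nat_lit 0) (nat_lit 202256387225) (nat_lit 152) (nat_lit 1526407351198) (nat_lit 0) (nat_lit 153208824639) (nat_lit 1) (nat_lit 5) (nat_lit 3) (nat_lit 4) (nat_lit 1) (nat_lit 4) (nat_lit 399) (nat_lit 319) (nat_lit 182)))) (XT.nd (nat_lit 156) (nat_lit 0) (nat_lit 0) (XT.nd (nat_lit 78) (nat_lit 0) (nat_lit 0) (XT.lf (nat_lit 0) (nat_lit 272343705243) (nat_lit 152) (nat_lit 1532149016621) (nat_lit 0) (nat_lit 223296046884) (nat_lit 1) (nat_lit 5) (nat_lit 3) (nat_lit 4) (nat_lit 1) (nat_lit 4) (nat_lit 400) (nat_lit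 319) (nat_lit 181)) (XT.lf (nat_lit 0) (nat_lit 348037791238) (nat_lit 152) (nat_lit 1538350452875) (nat_lit 0) (nat_lit 298990044201) (nat_lit 1) (nat_lit 5) (nat_lit 3) (nat_lit 4) (nat_lit 1) (nat_lit 4) (nat_lit 401) (nat_lit 319) (nat_lit 180))) (XT.nd (nat_lit 78) (nat_lit 0) (nat_lit 0) (XT.lf (nat_lit 0) (nat_lit 429787202757) (nat_lit 152) (nat_lit 1545048409211) (nat_lit 0) (nat_lit 380739373611) (nat_lit 1) (nat_lit 5) (nat_lit 3) (nat_lit 4) (nat_lit 1) (nat_lit 4) (nat_lit 402) (nat_lit 319) (nat_lit 179)) (XT.nd (nat_lit 78) (nat_lit 0) (nat_lit 0) (XT.lf (nat_lit 0) (nat_lit 518076380757) (nat_lit 152) (nat_lit 1552282577223) (nat_lit 0) (nat_lit 469028475584) (nat_lit 1) (nat_lit 5) (nat_lit 3) (nat_lit 4) (nat_lit 1) (nat_lit 4) (nat_lit 403) (nat_lit 319) (nat_lit 178)) (XT.lf (nat_lit 0) (nat_lit 613428520367) (nat_lit 152) (nat_lit 1560095826053) (nat_lit 0) (nat_lit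 564380544798) (nat_lit 1) (nat_lit 5) (nat_lit 3) (nat_lit 4) (nat_lit 1) (nat_lit 4) (nat_lit 404) (nat_lit 319) (nat_lit 177))))))))
noncomputable def xc154 : XT := (XT.nd (nat_lit 40872) (nat_lit 0) (nat_lit 1976) (XT.nd (nat_lit 702) (nat_lit 0) (nat_lit 0) (XT.nd (nat_lit 312) (nat_lit 0) (nat_lit 0) (XT.nd (nat_lit 156) (nat_lit 0) (nat_lit 0) (XT.nd (nat_lit 78) (nat_lit 0) (nat_lit 0) (XT.lf (nat_lit 0) (nat_lit 716408671303) (nat_lit 152) (nat_lit 1568534456436) (nat_lit 0) (nat_lit 667360630553) (nat_lit 1) (nat_lit 5) (nat_lit 3) (nat_lit 4) (nat_lit 1) (nat_lit 4) (nat_lit 405) (nat_lit 319) (nat_lit 176)) (XT.lf (nat_lit 0) (nat_lit 827627086312) (nat_lit 152) (nat_lit 1577648475071) (nat_lit 0) (nat_lit 778578985208) (nat_lit 1) (nat_lit 5) (nat_lit 3) (nat_lit 4) (nat_lit 1) (nat_lit 4) (nat_lit 406) (nat_lit 319) (nat_lit 175))) (XT.nd (nat_lit 78) (nat_lit 0) (nat_lit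 0) (XT.lf (nat_lit 0) (nat_lit 947742837481) (nat_lit 152) (nat_lit 1587491890956) (nat_lit 0) (nat_lit 898694680496) (nat_lit 1) (nat_lit 5) (nat_lit 3) (nat_lit 4) (nat_lit 1) (nat_lit 4) (nat_lit 407) (nat_lit 319) (nat_lit 174)) (XT.lf (nat_lit 0) (nat_lit 1077467721856) (nat_lit 152) (nat_lit 1598123035446) (nat_lit 0) (nat_lit 1028419513128) (nat_lit 1) (nat_lit 5) (nat_lit 3) (nat_lit 4) (nat_lit 1) (nat_lit 4) (nat_lit 408) (nat_lit 319) (nat_lit 173)))) (XT.nd (nat_lit 156) (nat_lit 0) (nat_lit 0) (XT.nd (nat_lit 78) (nat_lit 0) (nat_lit 0) (XT.lf (nat_lit 0) (nat_lit 1217570479492) (nat_lit 152) (nat_lit 1609604907914) (nat_lit 0) (nat_lit 1168522222854) (nat_lit 1) (nat_lit 5) (nat_lit 3) (nat_lit 4) (nat_lit 1) (nat_lit 4) (nat_lit 409) (nat_lit 319) (nat_lit 172)) (XT.lf (nat_lit 0) (nat_lit 1368881348953) (nat_lit 152) (nat_lit 1622005549087) (nat_lit 0) (nat_lit 1319833047953)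 (nat_lit 1) (nat_lit 5) (nat_lit 3) (nat_lit 4) (nat_lit 1) (nat_lit 4) (nat_lit 410) (nat_lit 319) (nat_lit 171))) (XT.nd (nat_lit 78) (nat_lit 0) (nat_lit 0) (XT.lf (nat_lit 0) (nat_lit 1532296987242) (nat_lit 152) (nat_lit 1635398444245) (nat_lit 0) (nat_lit 1483248645167) (nat_lit 1) (nat_lit 5) (nat_lit 3) (nat_lit 4) (nat_lit 1) (nat_lit 4) (nat_lit 411) (nat_lit 319) (nat_lit 170)) (XT.nd (nat_lit 78) (nat_lit 0) (nat_lit 0) (XT.lf (nat_lit 0) (nat_lit 1708785783328) (nat_lit 152) (nat_lit 1649862958694) (nat_lit 0) (nat_lit 1659737403221) (nat_lit 1) (nat_lit 5) (nat_lit 3) (nat_lit 4) (nat_lit 1) (nat_lit 4) (nat_lit 412) (nat_lit 319) (nat_lit 169)) (XT.lf (nat_lit 0) (nat_lit 1899393596743) (nat_lit 152) (nat_lit 1665484808075) (nat_lit 0) (nat_lit 1850345181420) (nat_lit 1) (nat_lit 5) (nat_lit 3) (nat_lit 4) (nat_lit 1) (nat_lit 4) (nat_lit 413) (nat_lit 319) (nat_lit 168))))))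 (XT.nd (nat_lit 39780) (nat_lit 0) (nat_lit 4028) (XT.nd (nat_lit 39624) (nat_lit 0) (nat_lit 4332) (XT.nd (nat_lit 39546) (nat_lit 0) (nat_lit 4332) (XT.lf (nat_lit 0) (nat_lit 2105249955269) (nat_lit 152) (nat_lit 1682356566309) (nat_lit 0) (nat_lit 2056201507340) (nat_lit 1) (nat_lit 5) (nat_lit 3) (nat_lit 4) (nat_lit 1) (nat_lit 4) (nat_lit 414) (nat_lit 319) (nat_lit 167)) (XT.lf (nat_lit 0) (nat_lit 6966052885) (nat_lit 532) (nat_lit 1291821950) (nat_lit 532) (nat_lit 1291821950) (nat_lit 58) (nat_lit 3) (nat_lit 65) (nat_lit 3) (nat_lit 65) (nat_lit 5) (nat_lit 320) (nat_lit 320) (nat_lit 260))) (XT.nd (nat_lit 78) (nat_lit 0) (nat_lit 76) (XT.lf (nat_lit 76) (nat_lit 6893787442) (nat_lit 0) (nat_lit 7930307131) (nat_lit 532) (nat_lit 5012245117) (nat_lit 59) (nat_lit 5) (nat_lit 58) (nat_lit 3) (nat_lit 65) (nat_lit 5) (nat_lit 321) (nat_lit 320) (nat_lit 259)) (XT.lf (nat_lit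 0) (nat_lit 15875243443) (nat_lit 456) (nat_lit 3395547786) (nat_lit 532) (nat_lit 1354451530) (nat_lit 59) (nat_lit 5) (nat_lit 65) (nat_lit 5) (nat_lit 66) (nat_lit 5) (nat_lit 322) (nat_lit 320) (nat_lit 258)))) (XT.nd (nat_lit 156) (nat_lit 380) (nat_lit 0) (XT.nd (nat_lit 78) (nat_lit 0) (nat_lit 0) (XT.lf (nat_lit 76) (nat_lit 7051619155) (nat_lit 0) (nat_lit 10318744504) (nat_lit 532) (nat_lit 4078127523) (nat_lit 60) (nat_lit 5) (nat_lit 59) (nat_lit 5) (nat_lit 66) (nat_lit 5) (nat_lit 323) (nat_lit 320) (nat_lit 257)) (XT.lf (nat_lit 76) (nat_lit 18517563283) (nat_lit 0) (nat_lit 545595858) (nat_lit 532) (nat_lit 3268216808) (nat_lit 60) (nat_lit 5) (nat_lit 59) (nat_lit 5) (nat_lit 66) (nat_lit 5) (nat_lit 324) (nat_lit 320) (nat_lit 256))) (XT.nd (nat_lit 78) (nat_lit 456) (nat_lit 0) (XT.lf (nat_lit 76) (nat_lit 7752397246) (nat_lit 0) (nat_lit 13552576559) (nat_lit 532)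 (nat_lit 1946850163) (nat_lit 61) (nat_lit 5) (nat_lit 60) (nat_lit 5) (nat_lit 67) (nat_lit 5) (nat_lit 325) (nat_lit 320) (nat_lit 255)) (XT.nd (nat_lit 78) (nat_lit 456) (nat_lit 0) (XT.lf (nat_lit 76) (nat_lit 20435574919) (nat_lit 0) (nat_lit 3395829231) (nat_lit 532) (nat_lit 406100662) (nat_lit 61) (nat_lit 5) (nat_lit 60) (nat_lit 5) (nat_lit 67) (nat_lit 5) (nat_lit 326) (nat_lit 320) (nat_lit 254)) (XT.lf (nat_lit 0) (nat_lit 1594100465) (nat_lit 532) (nat_lit 16217736339) (nat_lit 76) (nat_lit 7455869680) (nat_lit 54) (nat_lit 5) (nat_lit 61) (nat_lit 5) (nat_lit 55) (nat_lit 5) (nat_lit 327) (nat_lit 320) (nat_lit 253))))))) (XT.nd (nat_lit 702) (nat_lit 760) (nat_lit 0) (XT.nd (nat_lit 312) (nat_lit 684) (nat_lit 0) (XT.nd (nat_lit 156) (nat_lit 228) (nat_lit 0) (XT.nd (nat_lit 78) (nat_lit 380) (nat_lit 0) (XT.lf (nat_lit 0) (nat_lit 3915741269) (nat_lit 532) (nat_lit 3338136381)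 (nat_lit 76) (nat_lit 19110948492) (nat_lit 54) (nat_lit 5) (nat_lit 61) (nat_lit 5) (nat_lit 55) (nat_lit 5) (nat_lit 328) (nat_lit 320) (nat_lit 252)) (XT.lf (nat_lit 0) (nat_lit 6786593207) (nat_lit 456) (nat_lit 16518040218) (nat_lit 76) (nat_lit 4216017247) (nat_lit 49) (nat_lit 5) (nat_lit 55) (nat_lit 5) (nat_lit 50) (nat_lit 5) (nat_lit 329) (nat_lit 320) (nat_lit 251))) (XT.nd (nat_lit 78) (nat_lit 228) (nat_lit 0) (XT.lf (nat_lit 0) (nat_lit 10159083665) (nat_lit 456) (nat_lit 2282641614) (nat_lit 76) (nat_lit 16305470932) (nat_lit 49) (nat_lit 5) (nat_lit 55) (nat_lit 5) (nat_lit 50) (nat_lit 5) (nat_lit 330) (nat_lit 320) (nat_lit 250)) (XT.lf (nat_lit 0) (nat_lit 13770560262) (nat_lit 228) (nat_lit 352659042) (nat_lit 304) (nat_lit 15922910149) (nat_lit 46) (nat_lit 5) (nat_lit 49) (nat_lit 5) (nat_lit 50) (nat_lit 5) (nat_lit 331) (nat_lit 320) (nat_lit 249)))) (XT.nd (nat_lit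 156) (nat_lit 456) (nat_lit 0) (XT.nd (nat_lit 78) (nat_lit 228) (nat_lit 0) (XT.lf (nat_lit 0) (nat_lit 18765143741) (nat_lit 304) (nat_lit 523631815) (nat_lit 76) (nat_lit 12131360031) (nat_lit 46) (nat_lit 5) (nat_lit 50) (nat_lit 5) (nat_lit 47) (nat_lit 5) (nat_lit 332) (nat_lit 320) (nat_lit 248)) (XT.lf (nat_lit 0) (nat_lit 17336992940) (nat_lit 228) (nat_lit 6859308283) (nat_lit 304) (nat_lit 8674340723) (nat_lit 43) (nat_lit 5) (nat_lit 46) (nat_lit 5) (nat_lit 47) (nat_lit 5) (nat_lit 333) (nat_lit 320) (nat_lit 247))) (XT.nd (nat_lit 78) (nat_lit 304) (nat_lit 0) (XT.lf (nat_lit 0) (nat_lit 2160077225) (nat_lit 152) (nat_lit 28118503686) (nat_lit 228) (nat_lit 4141286851) (nat_lit 41) (nat_lit 5) (nat_lit 43) (nat_lit 5) (nat_lit 44) (nat_lit 5) (nat_lit 334) (nat_lit 320) (nat_lit 246)) (XT.nd (nat_lit 78) (nat_lit 228) (nat_lit 0) (XT.lf (nat_lit 0) (nat_lit 1322847006) (nat_lit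 228) (nat_lit 14123776962) (nat_lit 76) (nat_lit 20596470223) (nat_lit 40) (nat_lit 5) (nat_lit 43) (nat_lit 5) (nat_lit 41) (nat_lit 5) (nat_lit 335) (nat_lit 320) (nat_lit 245)) (XT.lf (nat_lit 0) (nat_lit 5627723738) (nat_lit 228) (nat_lit 1500832317) (nat_lit 304) (nat_lit 30648770280) (nat_lit 37) (nat_lit 5) (nat_lit 40) (nat_lit 5) (nat_lit 41) (nat_lit 5) (nat_lit 336) (nat_lit 320) (nat_lit 244)))))) (XT.nd (nat_lit 312) (nat_lit 456) (nat_lit 0) (XT.nd (nat_lit 156) (nat_lit 152) (nat_lit 0) (XT.nd (nat_lit 78) (nat_lit 152) (nat_lit 0) (XT.lf (nat_lit 0) (nat_lit 14114146505) (nat_lit 304) (nat_lit 12202604706) (nat_lit 76) (nat_lit 13276318715) (nat_lit 37) (nat_lit 5) (nat_lit 41) (nat_lit 5) (nat_lit 38) (nat_lit 5) (nat_lit 337) (nat_lit 320) (nat_lit 243)) (XT.lf (nat_lit 0) (nat_lit 9781583173) (nat_lit 152) (nat_lit 12144834611) (nat_lit 228) (nat_lit 19606234872) (nat_lit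 35) (nat_lit 5) (nat_lit 37) (nat_lit 5) (nat_lit 38) (nat_lit 5) (nat_lit 338) (nat_lit 320) (nat_lit 242))) (XT.nd (nat_lit 78) (nat_lit 152) (nat_lit 0) (XT.lf (nat_lit 0) (nat_lit 30775803326) (nat_lit 228) (nat_lit 9476027273) (nat_lit 76) (nat_lit 3342606673) (nat_lit 35) (nat_lit 5) (nat_lit 38) (nat_lit 5) (nat_lit 36) (nat_lit 5) (nat_lit 339) (nat_lit 320) (nat_lit 241)) (XT.lf (nat_lit 0) (nat_lit 15007886868) (nat_lit 152) (nat_lit 25995909391) (nat_lit 228) (nat_lit 4763721309) (nat_lit 33) (nat_lit 5) (nat_lit 35) (nat_lit 5) (nat_lit 36) (nat_lit 5) (nat_lit 340) (nat_lit 320) (nat_lit 240)))) (XT.nd (nat_lit 156) (nat_lit 228) (nat_lit 0) (XT.nd (nat_lit 78) (nat_lit 152) (nat_lit 0) (XT.lf (nat_lit 0) (nat_lit 3998876901) (nat_lit 228) (nat_lit 6214198633) (nat_lit 76) (nat_lit 37872988029) (nat_lit 32) (nat_lit 5) (nat_lit 35) (nat_lit 5) (nat_lit 33) (nat_lit 5) (nat_lit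 341) (nat_lit 320) (nat_lit 239)) (XT.lf (nat_lit 0) (nat_lit 13891072042) (nat_lit 228) (nat_lit 29495506806) (nat_lit 76) (nat_lit 7138743763) (nat_lit 30) (nat_lit 5) (nat_lit 33) (nat_lit 5) (nat_lit 31) (nat_lit 5) (nat_lit 342) (nat_lit 320) (nat_lit 238))) (XT.nd (nat_lit 78) (nat_lit 228) (nat_lit 0) (XT.lf (nat_lit 0) (nat_lit 25009140919) (nat_lit 228) (nat_lit 2617095891) (nat_lit 76) (nat_lit 25498729718) (nat_lit 30) (nat_lit 5) (nat_lit 33) (nat_lit 5) (nat_lit 31) (nat_lit 5) (nat_lit 343) (nat_lit 320) (nat_lit 237)) (XT.nd (nat_lit 78) (nat_lit 76) (nat_lit 0) (XT.lf (nat_lit 0) (nat_lit 27794542163) (nat_lit 152) (nat_lit 9885853160) (nat_lit 228) (nat_lit 18199091134) (nat_lit 28) (nat_lit 5) (nat_lit 30) (nat_lit 5) (nat_lit 31) (nat_lit 5) (nat_lit 344) (nat_lit 320) (nat_lit 236)) (XT.lf (nat_lit 0) (nat_lit 1796736869) (nat_lit 76) (nat_lit 49903664212) (nat_lit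 152) (nat_lit 7127166246) (nat_lit 27) (nat_lit 5) (nat_lit 28) (nat_lit 5) (nat_lit 29) (nat_lit 4) (nat_lit 345) (nat_lit 320) (nat_lit 235))))))))
noncomputable def xc155 : XT := (XT.nd (nat_lit 1404) (nat_lit 684) (nat_lit 0) (XT.nd (nat_lit 702) (nat_lit 456) (nat_lit 0) (XT.nd (nat_lit 312) (nat_lit 304) (nat_lit 0) (XT.nd (nat_lit 156) (nat_lit 76) (nat_lit 0) (XT.nd (nat_lit 78) (nat_lit 152) (nat_lit 0) (XT.lf (nat_lit 0) (nat_lit 5628920125) (nat_lit 152) (nat_lit 26684396420) (nat_lit 76) (nat_lit 29605683198) (nat_lit 26) (nat_lit 5) (nat_lit 28) (nat_lit 5) (nat_lit 27) (nat_lit 5) (nat_lit 346) (nat_lit 320) (nat_lit 234)) (XT.lf (nat_lit 0) (nat_lit 6208144408) (nat_lit 152) (nat_lit 12957377453) (nat_lit 228) (nat_lit 46065811471) (nat_lit 24) (nat_lit 5) (nat_lit 26) (nat_lit 5) (nat_lit 27) (nat_lit 5) (nat_lit 347) (nat_lit 320) (nat_lit 233))) (XT.nd (nat_lit 78) (nat_lit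 76) (nat_lit 0) (XT.lf (nat_lit 0) (nat_lit 34720582855) (nat_lit 228) (nat_lit 25717835616) (nat_lit 76) (nat_lit 8295395166) (nat_lit 24) (nat_lit 5) (nat_lit 27) (nat_lit 5) (nat_lit 25) (nat_lit 4) (nat_lit 348) (nat_lit 320) (nat_lit 232)) (XT.lf (nat_lit 0) (nat_lit 10430571387) (nat_lit 76) (nat_lit 41673050488) (nat_lit 152) (nat_lit 20366186969) (nat_lit 23) (nat_lit 5) (nat_lit 24) (nat_lit 5) (nat_lit 25) (nat_lit 4) (nat_lit 349) (nat_lit 320) (nat_lit 231)))) (XT.nd (nat_lit 156) (nat_lit 76) (nat_lit 0) (XT.nd (nat_lit 78) (nat_lit 228) (nat_lit 0) (XT.lf (nat_lit 0) (nat_lit 50927015372) (nat_lit 76) (nat_lit 20649751832) (nat_lit 152) (nat_lit 4871961570) (nat_lit 23) (nat_lit 5) (nat_lit 24) (nat_lit 5) (nat_lit 25) (nat_lit 4) (nat_lit 350) (nat_lit 320) (nat_lit 230)) (XT.lf (nat_lit 0) (nat_lit 11675598261) (nat_lit 228) (nat_lit 66418263454) (nat_lit 76) (nat_lit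 2596706562) (nat_lit 20) (nat_lit 5) (nat_lit 23) (nat_lit 5) (nat_lit 21) (nat_lit 4) (nat_lit 351) (nat_lit 320) (nat_lit 229))) (XT.nd (nat_lit 78) (nat_lit 76) (nat_lit 0) (XT.lf (nat_lit 0) (nat_lit 30532571986) (nat_lit 228) (nat_lit 27201869263) (nat_lit 76) (nat_lit 27427286122) (nat_lit 20) (nat_lit 5) (nat_lit 23) (nat_lit 5) (nat_lit 21) (nat_lit 4) (nat_lit 352) (nat_lit 320) (nat_lit 228)) (XT.nd (nat_lit 78) (nat_lit 0) (nat_lit 0) (XT.lf (nat_lit 0) (nat_lit 15943662822) (nat_lit 76) (nat_lit 35334673858) (nat_lit 152) (nat_lit 38681825454) (nat_lit 19) (nat_lit 5) (nat_lit 20) (nat_lit 5) (nat_lit 21) (nat_lit 4) (nat_lit 353) (nat_lit 320) (nat_lit 227)) (XT.lf (nat_lit 0) (nat_lit 64082236979) (nat_lit 76) (nat_lit 10342163878) (nat_lit 152) (nat_lit 20658821225) (nat_lit 19) (nat_lit 5) (nat_lit 20) (nat_lit 5) (nat_lit 21) (nat_lit 4) (nat_lit 354) (nat_lit 320) (nat_lit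 226)))))) (XT.nd (nat_lit 312) (nat_lit 228) (nat_lit 0) (XT.nd (nat_lit 156) (nat_lit 76) (nat_lit 0) (XT.nd (nat_lit 78) (nat_lit 76) (nat_lit 0) (XT.lf (nat_lit 0) (nat_lit 15842492287) (nat_lit 76) (nat_lit 84358162950) (nat_lit 76) (nat_lit 353192544) (nat_lit 18) (nat_lit 4) (nat_lit 19) (nat_lit 5) (nat_lit 19) (nat_lit 4) (nat_lit 355) (nat_lit 320) (nat_lit 225)) (XT.lf (nat_lit 0) (nat_lit 21632871522) (nat_lit 152) (nat_lit 39012756788) (nat_lit 76) (nat_lit 45684154555) (nat_lit 17) (nat_lit 5) (nat_lit 19) (nat_lit 5) (nat_lit 18) (nat_lit 4) (nat_lit 356) (nat_lit 320) (nat_lit 224))) (XT.nd (nat_lit 78) (nat_lit 0) (nat_lit 0) (XT.lf (nat_lit 0) (nat_lit 10871410230) (nat_lit 76) (nat_lit 34746085371) (nat_lit 152) (nat_lit 66928863811) (nat_lit 16) (nat_lit 5) (nat_lit 17) (nat_lit 5) (nat_lit 18) (nat_lit 4) (nat_lit 357) (nat_lit 320) (nat_lit 223)) (XT.lf (nat_lit 0)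 (nat_lit 66960148955) (nat_lit 76) (nat_lit 5624800745) (nat_lit 152) (nat_lit 46590188576) (nat_lit 16) (nat_lit 5) (nat_lit 17) (nat_lit 5) (nat_lit 18) (nat_lit 4) (nat_lit 358) (nat_lit 320) (nat_lit 222)))) (XT.nd (nat_lit 156) (nat_lit 76) (nat_lit 0) (XT.nd (nat_lit 78) (nat_lit 76) (nat_lit 0) (XT.lf (nat_lit 0) (nat_lit 606341147) (nat_lit 76) (nat_lit 101736688262) (nat_lit 76) (nat_lit 23940532623) (nat_lit 15) (nat_lit 4) (nat_lit 16) (nat_lit 5) (nat_lit 16) (nat_lit 4) (nat_lit 359) (nat_lit 320) (nat_lit 221)) (XT.lf (nat_lit 0) (nat_lit 2103397122) (nat_lit 152) (nat_lit 73423920271) (nat_lit 76) (nat_lit 58303671007) (nat_lit 14) (nat_lit 5) (nat_lit 16) (nat_lit 5) (nat_lit 15) (nat_lit 4) (nat_lit 360) (nat_lit 320) (nat_lit 220))) (XT.nd (nat_lit 78) (nat_lit 76) (nat_lit 0) (XT.lf (nat_lit 0) (nat_lit 28935150794) (nat_lit 152) (nat_lit 17616493604) (nat_lit 76) (nat_lit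 95381001044) (nat_lit 14) (nat_lit 5) (nat_lit 16) (nat_lit 5) (nat_lit 15) (nat_lit 4) (nat_lit 361) (nat_lit 320) (nat_lit 219)) (XT.nd (nat_lit 78) (nat_lit 0) (nat_lit 0) (XT.lf (nat_lit 0) (nat_lit 44897494696) (nat_lit 76) (nat_lit 14093624908) (nat_lit 152) (nat_lit 91605102136) (nat_lit 13) (nat_lit 5) (nat_lit 14) (nat_lit 5) (nat_lit 15) (nat_lit 4) (nat_lit 362) (nat_lit 320) (nat_lit 218)) (XT.lf (nat_lit 0) (nat_lit 92447764029) (nat_lit 152) (nat_lit 47020513774) (nat_lit 0) (nat_lit 20404911120) (nat_lit 13) (nat_lit 5) (nat_lit 15) (nat_lit 4) (nat_lit 13) (nat_lit 4) (nat_lit 363) (nat_lit 320) (nat_lit 217))))))) (XT.nd (nat_lit 702) (nat_lit 304) (nat_lit 0) (XT.nd (nat_lit 312) (nat_lit 152) (nat_lit 0) (XT.nd (nat_lit 156) (nat_lit 152) (nat_lit 0) (XT.nd (nat_lit 78) (nat_lit 0) (nat_lit 0) (XT.lf (nat_lit 0) (nat_lit 16823772004) (nat_lit 76) (nat_lit 112525911009)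 (nat_lit 76) (nat_lit 40481131610) (nat_lit 12) (nat_lit 4) (nat_lit 13) (nat_lit 5) (nat_lit 13) (nat_lit 4) (nat_lit 364) (nat_lit 320) (nat_lit 216)) (XT.lf (nat_lit 0) (nat_lit 88446083254) (nat_lit 76) (nat_lit 82041415690) (nat_lit 76) (nat_lit 9994852502) (nat_lit 12) (nat_lit 4) (nat_lit 13) (nat_lit 5) (nat_lit 13) (nat_lit 4) (nat_lit 365) (nat_lit 320) (nat_lit 215))) (XT.nd (nat_lit 78) (nat_lit 76) (nat_lit 0) (XT.lf (nat_lit 0) (nat_lit 21781473872) (nat_lit 152) (nat_lit 26742749190) (nat_lit 76) (nat_lit 143417813590) (nat_lit 11) (nat_lit 5) (nat_lit 13) (nat_lit 5) (nat_lit 12) (nat_lit 4) (nat_lit 366) (nat_lit 320) (nat_lit 214)) (XT.lf (nat_lit 0) (nat_lit 45802693587) (nat_lit 76) (nat_lit 10857132250) (nat_lit 152) (nat_lit 147549910652) (nat_lit 10) (nat_lit 5) (nat_lit 11) (nat_lit 5) (nat_lit 12) (nat_lit 4) (nat_lit 367) (nat_lit 320) (nat_lit 213)))) (XT.nd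 (nat_lit 156) (nat_lit 152) (nat_lit 0) (XT.nd (nat_lit 78) (nat_lit 0) (nat_lit 0) (XT.lf (nat_lit 0) (nat_lit 95794240902) (nat_lit 152) (nat_lit 92467144517) (nat_lit 0) (nat_lit 29080203695) (nat_lit 10) (nat_lit 5) (nat_lit 12) (nat_lit 4) (nat_lit 10) (nat_lit 4) (nat_lit 368) (nat_lit 320) (nat_lit 212)) (XT.lf (nat_lit 0) (nat_lit 138339891335) (nat_lit 152) (nat_lit 21537020296) (nat_lit 0) (nat_lit 71624640112) (nat_lit 10) (nat_lit 5) (nat_lit 12) (nat_lit 4) (nat_lit 10) (nat_lit 4) (nat_lit 369) (nat_lit 320) (nat_lit 211))) (XT.nd (nat_lit 78) (nat_lit 76) (nat_lit 0) (XT.lf (nat_lit 0) (nat_lit 57964383958) (nat_lit 76) (nat_lit 127717446089) (nat_lit 76) (nat_lit 61001070777) (nat_lit 9) (nat_lit 4) (nat_lit 10) (nat_lit 5) (nat_lit 10) (nat_lit 4) (nat_lit 370) (nat_lit 320) (nat_lit 210)) (XT.nd (nat_lit 78) (nat_lit 76) (nat_lit 0) (XT.lf (nat_lit 0) (nat_lit 145048056281)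 (nat_lit 76) (nat_lit 92350559331) (nat_lit 76) (nat_lit 25633143195) (nat_lit 9) (nat_lit 4) (nat_lit 10) (nat_lit 5) (nat_lit 10) (nat_lit 4) (nat_lit 371) (nat_lit 320) (nat_lit 209)) (XT.lf (nat_lit 0) (nat_lit 11934405129) (nat_lit 152) (nat_lit 41894817191) (nat_lit 76) (nat_lit 226835233826) (nat_lit 8) (nat_lit 5) (nat_lit 10) (nat_lit 5) (nat_lit 9) (nat_lit 4) (nat_lit 372) (nat_lit 320) (nat_lit 208)))))) (XT.nd (nat_lit 312) (nat_lit 228) (nat_lit 0) (XT.nd (nat_lit 156) (nat_lit 0) (nat_lit 0) (XT.nd (nat_lit 78) (nat_lit 0) (nat_lit 0) (XT.lf (nat_lit 0) (nat_lit 41698978931) (nat_lit 76) (nat_lit 10425180266) (nat_lit 152) (nat_lit 247450214061) (nat_lit 7) (nat_lit 5) (nat_lit 8) (nat_lit 5) (nat_lit 9) (nat_lit 4) (nat_lit 373) (nat_lit 320) (nat_lit 207)) (XT.lf (nat_lit 0) (nat_lit 97579779542) (nat_lit 152) (nat_lit 186451338933) (nat_lit 0) (nat_lit 35801910617) (nat_lit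 7) (nat_lit 5) (nat_lit 9) (nat_lit 4) (nat_lit 7) (nat_lit 4) (nat_lit 374) (nat_lit 320) (nat_lit 206))) (XT.nd (nat_lit 78) (nat_lit 0) (nat_lit 0) (XT.lf (nat_lit 0) (nat_lit 146941524933) (nat_lit 152) (nat_lit 109586331000) (nat_lit 0) (nat_lit 85162947641) (nat_lit 7) (nat_lit 5) (nat_lit 9) (nat_lit 4) (nat_lit 7) (nat_lit 4) (nat_lit 375) (nat_lit 320) (nat_lit 205)) (XT.lf (nat_lit 0) (nat_lit 200251183581) (nat_lit 152) (nat_lit 26574148350) (nat_lit 0) (nat_lit 138471950394) (nat_lit 7) (nat_lit 5) (nat_lit 9) (nat_lit 4) (nat_lit 7) (nat_lit 4) (nat_lit 376) (nat_lit 320) (nat_lit 204)))) (XT.nd (nat_lit 156) (nat_lit 152) (nat_lit 0) (XT.nd (nat_lit 78) (nat_lit 0) (nat_lit 0) (XT.lf (nat_lit 0) (nat_lit 66398663108) (nat_lit 76) (nat_lit 193022890910) (nat_lit 76) (nat_lit 131243050413) (nat_lit 6) (nat_lit 4) (nat_lit 7) (nat_lit 5) (nat_lit 7) (nat_lit 4) (nat_lit 377)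 (nat_lit 320) (nat_lit 203)) (XT.lf (nat_lit 0) (nat_lit 168318766488) (nat_lit 76) (nat_lit 155732447990) (nat_lit 76) (nat_lit 93952045168) (nat_lit 6) (nat_lit 4) (nat_lit 7) (nat_lit 5) (nat_lit 7) (nat_lit 4) (nat_lit 378) (nat_lit 320) (nat_lit 202))) (XT.nd (nat_lit 78) (nat_lit 152) (nat_lit 0) (XT.lf (nat_lit 0) (nat_lit 278390785213) (nat_lit 76) (nat_lit 115459607076) (nat_lit 76) (nat_lit 53678683584) (nat_lit 6) (nat_lit 4) (nat_lit 7) (nat_lit 5) (nat_lit 7) (nat_lit 4) (nat_lit 379) (nat_lit 320) (nat_lit 201)) (XT.nd (nat_lit 78) (nat_lit 152) (nat_lit 0) (XT.lf (nat_lit 0) (nat_lit 397266997913) (nat_lit 76) (nat_lit 71965714298) (nat_lit 76) (nat_lit 10184308703) (nat_lit 6) (nat_lit 4) (nat_lit 7) (nat_lit 5) (nat_lit 7) (nat_lit 4) (nat_lit 380) (nat_lit 320) (nat_lit 200)) (XT.lf (nat_lit 0) (nat_lit 11485578924) (nat_lit 76) (nat_lit 23739147474) (nat_lit 152) (nat_lit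 478538453925) (nat_lit 4) (nat_lit 5) (nat_lit 5) (nat_lit 5) (nat_lit 6) (nat_lit 4) (nat_lit 381) (nat_lit 320) (nat_lit 199))))))))
noncomputable def xc156 : XT := (XT.nd (nat_lit 1404) (nat_lit 0) (nat_lit 0) (XT.nd (nat_lit 702) (nat_lit 152) (nat_lit 0) (XT.nd (nat_lit 312) (nat_lit 76) (nat_lit 0) (XT.nd (nat_lit 156) (nat_lit 0) (nat_lit 0) (XT.nd (nat_lit 78) (nat_lit 0) (nat_lit 0) (XT.lf (nat_lit 0) (nat_lit 86701697144) (nat_lit 152) (nat_lit 434399442928) (nat_lit 0) (nat_lit 29495895929) (nat_lit 4) (nat_lit 5) (nat_lit 6) (nat_lit 4) (nat_lit 4) (nat_lit 4) (nat_lit 382) (nat_lit 320) (nat_lit 198)) (XT.lf (nat_lit 0) (nat_lit 142912733098) (nat_lit 152) (nat_lit 361709017014) (nat_lit 0) (nat_lit 85706577524) (nat_lit 4) (nat_lit 5) (nat_lit 6) (nat_lit 4) (nat_lit 4) (nat_lit 4) (nat_lit 383) (nat_lit 320) (nat_lit 197))) (XT.nd (nat_lit 78) (nat_lit 0) (nat_lit 0) (XT.lf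 (nat_lit 0) (nat_lit 203620009629) (nat_lit 152) (nat_lit 283204638511) (nat_lit 0) (nat_lit 146413525944) (nat_lit 4) (nat_lit 5) (nat_lit 6) (nat_lit 4) (nat_lit 4) (nat_lit 4) (nat_lit 384) (nat_lit 320) (nat_lit 196)) (XT.lf (nat_lit 0) (nat_lit 269183273561) (nat_lit 152) (nat_lit 198421096288) (nat_lit 0) (nat_lit 211976486069) (nat_lit 4) (nat_lit 5) (nat_lit 6) (nat_lit 4) (nat_lit 4) (nat_lit 4) (nat_lit 385) (nat_lit 320) (nat_lit 195)))) (XT.nd (nat_lit 156) (nat_lit 76) (nat_lit 0) (XT.nd (nat_lit 78) (nat_lit 0) (nat_lit 0) (XT.lf (nat_lit 0) (nat_lit 339991047939) (nat_lit 152) (nat_lit 106855969353) (nat_lit 0) (nat_lit 282783979145) (nat_lit 4) (nat_lit 5) (nat_lit 6) (nat_lit 4) (nat_lit 4) (nat_lit 4) (nat_lit 386) (nat_lit 320) (nat_lit 194)) (XT.lf (nat_lit 0) (nat_lit 416462934390) (nat_lit 152) (nat_lit 7966649548) (nat_lit 0) (nat_lit 359255605131) (nat_lit 4) (nat_lit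 5) (nat_lit 6) (nat_lit 4) (nat_lit 4) (nat_lit 4) (nat_lit 387) (nat_lit 320) (nat_lit 193))) (XT.nd (nat_lit 78) (nat_lit 0) (nat_lit 0) (XT.lf (nat_lit 0) (nat_lit 104037237906) (nat_lit 76) (nat_lit 397516959814) (nat_lit 76) (nat_lit 340309389384) (nat_lit 3) (nat_lit 4) (nat_lit 4) (nat_lit 5) (nat_lit 4) (nat_lit 4) (nat_lit 388) (nat_lit 320) (nat_lit 192)) (XT.nd (nat_lit 78) (nat_lit 0) (nat_lit 0) (XT.lf (nat_lit 0) (nat_lit 225453588692) (nat_lit 76) (nat_lit 368216536524) (nat_lit 76) (nat_lit 311008742787) (nat_lit 3) (nat_lit 4) (nat_lit 4) (nat_lit 5) (nat_lit 4) (nat_lit 4) (nat_lit 389) (nat_lit 320) (nat_lit 191)) (XT.lf (nat_lit 0) (nat_lit 356582397465) (nat_lit 76) (nat_lit 336572504246) (nat_lit 76) (nat_lit 279364503743) (nat_lit 3) (nat_lit 4) (nat_lit 4) (nat_lit 5) (nat_lit 4) (nat_lit 4) (nat_lit 390) (nat_lit 320) (nat_lit 190)))))) (XT.nd (nat_lit 312) (nat_lit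 152) (nat_lit 0) (XT.nd (nat_lit 156) (nat_lit 0) (nat_lit 0) (XT.nd (nat_lit 78) (nat_lit 0) (nat_lit 0) (XT.lf (nat_lit 0) (nat_lit 498200723831) (nat_lit 76) (nat_lit 302397342787) (nat_lit 76) (nat_lit 245189150835) (nat_lit 3) (nat_lit 4) (nat_lit 4) (nat_lit 5) (nat_lit 4) (nat_lit 4) (nat_lit 391) (nat_lit 320) (nat_lit 189)) (XT.lf (nat_lit 0) (nat_lit 651147787503) (nat_lit 76) (nat_lit 265488532674) (nat_lit 76) (nat_lit 208280163454) (nat_lit 3) (nat_lit 4) (nat_lit 4) (nat_lit 5) (nat_lit 4) (nat_lit 4) (nat_lit 392) (nat_lit 320) (nat_lit 188))) (XT.nd (nat_lit 78) (nat_lit 0) (nat_lit 0) (XT.lf (nat_lit 0) (nat_lit 816329941450) (nat_lit 76) (nat_lit 225627355032) (nat_lit 76) (nat_lit 168418821674) (nat_lit 3) (nat_lit 4) (nat_lit 4) (nat_lit 5) (nat_lit 4) (nat_lit 4) (nat_lit 393) (nat_lit 320) (nat_lit 187)) (XT.lf (nat_lit 0) (nat_lit 994726042881) (nat_lit 76) (nat_lit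 182577595473) (nat_lit 76) (nat_lit 125368910137) (nat_lit 3) (nat_lit 4) (nat_lit 4) (nat_lit 5) (nat_lit 4) (nat_lit 4) (nat_lit 394) (nat_lit 320) (nat_lit 186)))) (XT.nd (nat_lit 156) (nat_lit 152) (nat_lit 0) (XT.nd (nat_lit 78) (nat_lit 0) (nat_lit 0) (XT.lf (nat_lit 0) (nat_lit 1187393253878) (nat_lit 76) (nat_lit 136084144313) (nat_lit 76) (nat_lit 78875318255) (nat_lit 3) (nat_lit 4) (nat_lit 4) (nat_lit 5) (nat_lit 4) (nat_lit 4) (nat_lit 395) (nat_lit 320) (nat_lit 185)) (XT.lf (nat_lit 0) (nat_lit 1395473306063) (nat_lit 76) (nat_lit 85871484803) (nat_lit 76) (nat_lit 28662528448) (nat_lit 3) (nat_lit 4) (nat_lit 4) (nat_lit 5) (nat_lit 4) (nat_lit 4) (nat_lit 396) (nat_lit 320) (nat_lit 184))) (XT.nd (nat_lit 78) (nat_lit 76) (nat_lit 0) (XT.lf (nat_lit 0) (nat_lit 24288050842) (nat_lit 152) (nat_lit 6689931248) (nat_lit 76) (nat_lit 1595247137216) (nat_lit 2) (nat_lit 5)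 (nat_lit 4) (nat_lit 5) (nat_lit 3) (nat_lit 4) (nat_lit 397) (nat_lit 320) (nat_lit 183)) (XT.nd (nat_lit 78) (nat_lit 0) (nat_lit 0) (XT.lf (nat_lit 0) (nat_lit 83458157997) (nat_lit 152) (nat_lit 1637453379659) (nat_lit 0) (nat_lit 30486686970) (nat_lit 1) (nat_lit 5) (nat_lit 3) (nat_lit 4) (nat_lit 1) (nat_lit 4) (nat_lit 398) (nat_lit 320) (nat_lit 182)) (XT.lf (nat_lit 0) (nat_lit 148353927378) (nat_lit 152) (nat_lit 1642769526150) (nat_lit 0) (nat_lit 95382360579) (nat_lit 1) (nat_lit 5) (nat_lit 3) (nat_lit 4) (nat_lit 1) (nat_lit 4) (nat_lit 399) (nat_lit 320) (nat_lit 181))))))) (XT.nd (nat_lit 702) (nat_lit 0) (nat_lit 0) (XT.nd (nat_lit 312) (nat_lit 0) (nat_lit 0) (XT.nd (nat_lit 156) (nat_lit 0) (nat_lit 0) (XT.nd (nat_lit 78) (nat_lit 0) (nat_lit 0) (XT.lf (nat_lit 0) (nat_lit 218441140846) (nat_lit 152) (nat_lit 1648511401956) (nat_lit 0) (nat_lit 165469485368) (nat_lit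 1) (nat_lit 5) (nat_lit 3) (nat_lit 4) (nat_lit 1) (nat_lit 4) (nat_lit 400) (nat_lit 320) (nat_lit 180)) (XT.lf (nat_lit 0) (nat_lit 294135130036) (nat_lit 152) (nat_lit 1654713033009) (nat_lit 0) (nat_lit 241163392448) (nat_lit 1) (nat_lit 5) (nat_lit 3) (nat_lit 4) (nat_lit 1) (nat_lit 4) (nat_lit 401) (nat_lit 320) (nat_lit 179))) (XT.nd (nat_lit 78) (nat_lit 0) (nat_lit 0) (XT.lf (nat_lit 0) (nat_lit 375884451920) (nat_lit 152) (nat_lit 1661411169714) (nat_lit 0) (nat_lit 322912638305) (nat_lit 1) (nat_lit 5) (nat_lit 3) (nat_lit 4) (nat_lit 1) (nat_lit 4) (nat_lit 402) (nat_lit 320) (nat_lit 178)) (XT.lf (nat_lit 0) (nat_lit 464173546925) (nat_lit 152) (nat_lit 1668645504734) (nat_lit 0) (nat_lit 411201662915) (nat_lit 1) (nat_lit 5) (nat_lit 3) (nat_lit 4) (nat_lit 1) (nat_lit 4) (nat_lit 403) (nat_lit 320) (nat_lit 177)))) (XT.nd (nat_lit 156) (nat_lit 0) (nat_lit 0) (XT.nd (nat_lit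 78) (nat_lit 0) (nat_lit 0) (XT.lf (nat_lit 0) (nat_lit 559525609687) (nat_lit 152) (nat_lit 1676458908203) (nat_lit 0) (nat_lit 506553660496) (nat_lit 1) (nat_lit 5) (nat_lit 3) (nat_lit 4) (nat_lit 1) (nat_lit 4) (nat_lit 404) (nat_lit 320) (nat_lit 176)) (XT.lf (nat_lit 0) (nat_lit 662505689468) (nat_lit 152) (nat_lit 1684897681769) (nat_lit 0) (nat_lit 609533679924) (nat_lit 1) (nat_lit 5) (nat_lit 3) (nat_lit 4) (nat_lit 1) (nat_lit 4) (nat_lit 405) (nat_lit 320) (nat_lit 175))) (XT.nd (nat_lit 78) (nat_lit 0) (nat_lit 0) (XT.lf (nat_lit 0) (nat_lit 773724038593) (nat_lit 152) (nat_lit 1694011832980) (nat_lit 0) (nat_lit 720751973166) (nat_lit 1) (nat_lit 5) (nat_lit 3) (nat_lit 4) (nat_lit 1) (nat_lit 4) (nat_lit 406) (nat_lit 320) (nat_lit 174)) (XT.nd (nat_lit 78) (nat_lit 0) (nat_lit 0) (XT.lf (nat_lit 0) (nat_lit 893839728758) (nat_lit 152) (nat_lit 1703855371622) (nat_lit 0)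 (nat_lit 840867611589) (nat_lit 1) (nat_lit 5) (nat_lit 3) (nat_lit 4) (nat_lit 1) (nat_lit 4) (nat_lit 407) (nat_lit 320) (nat_lit 173)) (XT.lf (nat_lit 0) (nat_lit 1023564556648) (nat_lit 152) (nat_lit 1714486629775) (nat_lit 0) (nat_lit 970592391569) (nat_lit 1) (nat_lit 5) (nat_lit 3) (nat_lit 4) (nat_lit 1) (nat_lit 4) (nat_lit 408) (nat_lit 320) (nat_lit 172)))))) (XT.nd (nat_lit 312) (nat_lit 0) (nat_lit 0) (XT.nd (nat_lit 156) (nat_lit 0) (nat_lit 0) (XT.nd (nat_lit 78) (nat_lit 0) (nat_lit 0) (XT.lf (nat_lit 0) (nat_lit 1163667261983) (nat_lit 152) (nat_lit 1725968607487) (nat_lit 0) (nat_lit 1110695052542) (nat_lit 1) (nat_lit 5) (nat_lit 3) (nat_lit 4) (nat_lit 1) (nat_lit 4) (nat_lit 409) (nat_lit 320) (nat_lit 171)) (XT.lf (nat_lit 0) (nat_lit 1314978083017) (nat_lit 152) (nat_lit 1738369346108) (nat_lit 0) (nat_lit 1262005832501) (nat_lit 1) (nat_lit 5) (nat_lit 3) (nat_lit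 4) (nat_lit 1) (nat_lit 4) (nat_lit 410) (nat_lit 320) (nat_lit 170))) (XT.nd (nat_lit 78) (nat_lit 0) (nat_lit 0) (XT.lf (nat_lit 0) (nat_lit 1478393676466) (nat_lit 152) (nat_lit 1751762331496) (nat_lit 0) (nat_lit 1425421387918) (nat_lit 1) (nat_lit 5) (nat_lit 3) (nat_lit 4) (nat_lit 1) (nat_lit 4) (nat_lit 411) (nat_lit 320) (nat_lit 169)) (XT.lf (nat_lit 0) (nat_lit 1654882431034) (nat_lit 152) (nat_lit 1766226929491) (nat_lit 0) (nat_lit 1601910107270) (nat_lit 1) (nat_lit 5) (nat_lit 3) (nat_lit 4) (nat_lit 1) (nat_lit 4) (nat_lit 412) (nat_lit 320) (nat_lit 168)))) (XT.nd (nat_lit 39702) (nat_lit 0) (nat_lit 4332) (XT.nd (nat_lit 78) (nat_lit 0) (nat_lit 0) (XT.lf (nat_lit 0) (nat_lit 1845490206005) (nat_lit 152) (nat_lit 1781848856229) (nat_lit 0) (nat_lit 1792517849635) (nat_lit 1) (nat_lit 5) (nat_lit 3) (nat_lit 4) (nat_lit 1) (nat_lit 4) (nat_lit 413) (nat_lit 320) (nat_lit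 167)) (XT.lf (nat_lit 0) (nat_lit 2051346528937) (nat_lit 152) (nat_lit 1798720686090) (nat_lit 0) (nat_lit 1998374142375) (nat_lit 1) (nat_lit 5) (nat_lit 3) (nat_lit 4) (nat_lit 1) (nat_lit 4) (nat_lit 414) (nat_lit 320) (nat_lit 166))) (XT.nd (nat_lit 78) (nat_lit 0) (nat_lit 0) (XT.lf (nat_lit 0) (nat_lit 7688183673) (nat_lit 532) (nat_lit 1306026982) (nat_lit 532) (nat_lit 1306026982) (nat_lit 58) (nat_lit 3) (nat_lit 65) (nat_lit 3) (nat_lit 65) (nat_lit 5) (nat_lit 321) (nat_lit 321) (nat_lit 258)) (XT.nd (nat_lit 78) (nat_lit 0) (nat_lit 76) (XT.lf (nat_lit 76) (nat_lit 7619058430) (nat_lit 0) (nat_lit 8700414234) (nat_lit 532) (nat_lit 5078560443) (nat_lit 59) (nat_lit 5) (nat_lit 58) (nat_lit 3) (nat_lit 65) (nat_lit 5) (nat_lit 322) (nat_lit 321) (nat_lit 257)) (XT.lf (nat_lit 0) (nat_lit 17428769731) (nat_lit 456) (nat_lit 3479927795) (nat_lit 532) (nat_lit 1343460298) (nat_lit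 59) (nat_lit 5) (nat_lit 65) (nat_lit 5) (nat_lit 66) (nat_lit 5) (nat_lit 323) (nat_lit 321) (nat_lit 256))))))))
noncomputable def xc157 : XT := (XT.nd (nat_lit 1404) (nat_lit 1292) (nat_lit 0) (XT.nd (nat_lit 702) (nat_lit 988) (nat_lit 0) (XT.nd (nat_lit 312) (nat_lit 988) (nat_lit 0) (XT.nd (nat_lit 156) (nat_lit 0) (nat_lit 76) (XT.nd (nat_lit 78) (nat_lit 0) (nat_lit 0) (XT.lf (nat_lit 76) (nat_lit 7798271645) (nat_lit 0) (nat_lit 11228617096) (nat_lit 532) (nat_lit 4115737639) (nat_lit 60) (nat_lit 5) (nat_lit 59) (nat_lit 5) (nat_lit 66) (nat_lit 5) (nat_lit 324) (nat_lit 321) (nat_lit 255)) (XT.lf (nat_lit 76) (nat_lit 20167971084) (nat_lit 0) (nat_lit 667366704) (nat_lit 532) (nat_lit 3262414814) (nat_lit 60) (nat_lit 5) (nat_lit 59) (nat_lit 5) (nat_lit 66) (nat_lit 5) (nat_lit 325) (nat_lit 321) (nat_lit 254))) (XT.nd (nat_lit 78) (nat_lit 0) (nat_lit 0) (XT.lf (nat_lit 76)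 (nat_lit 8558768227) (nat_lit 0) (nat_lit 14682161700) (nat_lit 532) (nat_lit 1852178867) (nat_lit 61) (nat_lit 5) (nat_lit 60) (nat_lit 5) (nat_lit 67) (nat_lit 5) (nat_lit 326) (nat_lit 321) (nat_lit 253)) (XT.lf (nat_lit 76) (nat_lit 22242809063) (nat_lit 0) (nat_lit 3709513177) (nat_lit 532) (nat_lit 206718983) (nat_lit 61) (nat_lit 5) (nat_lit 60) (nat_lit 5) (nat_lit 67) (nat_lit 5) (nat_lit 327) (nat_lit 321) (nat_lit 252)))) (XT.nd (nat_lit 156) (nat_lit 608) (nat_lit 0) (XT.nd (nat_lit 78) (nat_lit 0) (nat_lit 0) (XT.lf (nat_lit 0) (nat_lit 1929213102) (nat_lit 532) (nat_lit 17317926453) (nat_lit 76) (nat_lit 8025109606) (nat_lit 54) (nat_lit 5) (nat_lit 61) (nat_lit 5) (nat_lit 55) (nat_lit 5) (nat_lit 328) (nat_lit 321) (nat_lit 251)) (XT.lf (nat_lit 0) (nat_lit 4421208533) (nat_lit 532) (nat_lit 3422568039) (nat_lit 76) (nat_lit 20614611734) (nat_lit 54) (nat_lit 5) (nat_lit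 61) (nat_lit 5) (nat_lit 55) (nat_lit 5) (nat_lit 329) (nat_lit 321) (nat_lit 250))) (XT.nd (nat_lit 78) (nat_lit 228) (nat_lit 0) (XT.lf (nat_lit 0) (nat_lit 7511669470) (nat_lit 456) (nat_lit 17646576055) (nat_lit 76) (nat_lit 4549256324) (nat_lit 49) (nat_lit 5) (nat_lit 55) (nat_lit 5) (nat_lit 50) (nat_lit 5) (nat_lit 330) (nat_lit 321) (nat_lit 249)) (XT.nd (nat_lit 78) (nat_lit 228) (nat_lit 0) (XT.lf (nat_lit 0) (nat_lit 11140466661) (nat_lit 456) (nat_lit 2286634998) (nat_lit 76) (nat_lit 17606165733) (nat_lit 49) (nat_lit 5) (nat_lit 55) (nat_lit 5) (nat_lit 50) (nat_lit 5) (nat_lit 331) (nat_lit 321) (nat_lit 248)) (XT.lf (nat_lit 0) (nat_lit 15046301054) (nat_lit 228) (nat_lit 367126050) (nat_lit 304) (nat_lit 17023368379) (nat_lit 46) (nat_lit 5) (nat_lit 49) (nat_lit 5) (nat_lit 50) (nat_lit 5) (nat_lit 332) (nat_lit 321) (nat_lit 247)))))) (XT.nd (nat_lit 312) (nat_lit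 532) (nat_lit 0) (XT.nd (nat_lit 156) (nat_lit 228) (nat_lit 0) (XT.nd (nat_lit 78) (nat_lit 228) (nat_lit 0) (XT.lf (nat_lit 0) (nat_lit 20415133797) (nat_lit 304) (nat_lit 392568922) (nat_lit 76) (nat_lit 13113959666) (nat_lit 46) (nat_lit 5) (nat_lit 50) (nat_lit 5) (nat_lit 47) (nat_lit 5) (nat_lit 333) (nat_lit 321) (nat_lit 246)) (XT.lf (nat_lit 0) (nat_lit 18892527245) (nat_lit 228) (nat_lit 7381290228) (nat_lit 304) (nat_lit 9214962556) (nat_lit 43) (nat_lit 5) (nat_lit 46) (nat_lit 5) (nat_lit 47) (nat_lit 5) (nat_lit 334) (nat_lit 321) (nat_lit 245))) (XT.nd (nat_lit 78) (nat_lit 76) (nat_lit 0) (XT.lf (nat_lit 0) (nat_lit 2507785003) (nat_lit 152) (nat_lit 30329192282) (nat_lit 228) (nat_lit 4325435271) (nat_lit 41) (nat_lit 5) (nat_lit 43) (nat_lit 5) (nat_lit 44) (nat_lit 5) (nat_lit 335) (nat_lit 321) (nat_lit 244)) (XT.lf (nat_lit 0) (nat_lit 1558112973) (nat_lit 228) (nat_lit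 15084783603) (nat_lit 76) (nat_lit 22273156491) (nat_lit 40) (nat_lit 5) (nat_lit 43) (nat_lit 5) (nat_lit 41) (nat_lit 5) (nat_lit 336) (nat_lit 321) (nat_lit 243)))) (XT.nd (nat_lit 156) (nat_lit 304) (nat_lit 0) (XT.nd (nat_lit 78) (nat_lit 0) (nat_lit 0) (XT.lf (nat_lit 0) (nat_lit 6242561317) (nat_lit 228) (nat_lit 1580088521) (nat_lit 304) (nat_lit 32966834154) (nat_lit 37) (nat_lit 5) (nat_lit 40) (nat_lit 5) (nat_lit 41) (nat_lit 5) (nat_lit 337) (nat_lit 321) (nat_lit 242)) (XT.lf (nat_lit 0) (nat_lit 15358825252) (nat_lit 304) (nat_lit 13018010638) (nat_lit 76) (nat_lit 14374321324) (nat_lit 37) (nat_lit 5) (nat_lit 41) (nat_lit 5) (nat_lit 38) (nat_lit 5) (nat_lit 338) (nat_lit 321) (nat_lit 241))) (XT.nd (nat_lit 78) (nat_lit 152) (nat_lit 0) (XT.lf (nat_lit 0) (nat_lit 10720841322) (nat_lit 152) (nat_lit 13070447268) (nat_lit 228) (nat_lit 21055009629) (nat_lit 35) (nat_lit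 5) (nat_lit 37) (nat_lit 5) (nat_lit 38) (nat_lit 5) (nat_lit 339) (nat_lit 321) (nat_lit 240)) (XT.nd (nat_lit 78) (nat_lit 152) (nat_lit 0) (XT.lf (nat_lit 0) (nat_lit 33341444502) (nat_lit 228) (nat_lit 10081709023) (nat_lit 76) (nat_lit 3650454374) (nat_lit 35) (nat_lit 5) (nat_lit 38) (nat_lit 5) (nat_lit 36) (nat_lit 5) (nat_lit 340) (nat_lit 321) (nat_lit 239)) (XT.lf (nat_lit 0) (nat_lit 16357060011) (nat_lit 152) (nat_lit 28026516939) (nat_lit 228) (nat_lit 5037292937) (nat_lit 33) (nat_lit 5) (nat_lit 35) (nat_lit 5) (nat_lit 36) (nat_lit 5) (nat_lit 341) (nat_lit 321) (nat_lit 238))))))) (XT.nd (nat_lit 702) (nat_lit 532) (nat_lit 0) (XT.nd (nat_lit 312) (nat_lit 380) (nat_lit 0) (XT.nd (nat_lit 156) (nat_lit 152) (nat_lit 0) (XT.nd (nat_lit 78) (nat_lit 152) (nat_lit 0) (XT.lf (nat_lit 0) (nat_lit 4413367782) (nat_lit 228) (nat_lit 6568737047) (nat_lit 76) (nat_lit 40943199405)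 (nat_lit 32) (nat_lit 5) (nat_lit 35) (nat_lit 5) (nat_lit 33) (nat_lit 5) (nat_lit 342) (nat_lit 321) (nat_lit 237)) (XT.lf (nat_lit 0) (nat_lit 15094431290) (nat_lit 228) (nat_lit 31709970448) (nat_lit 76) (nat_lit 7755508622) (nat_lit 30) (nat_lit 5) (nat_lit 33) (nat_lit 5) (nat_lit 31) (nat_lit 5) (nat_lit 343) (nat_lit 321) (nat_lit 236))) (XT.nd (nat_lit 78) (nat_lit 152) (nat_lit 0) (XT.lf (nat_lit 0) (nat_lit 27095125419) (nat_lit 228) (nat_lit 2692040505) (nat_lit 76) (nat_lit 27580910835) (nat_lit 30) (nat_lit 5) (nat_lit 33) (nat_lit 5) (nat_lit 31) (nat_lit 5) (nat_lit 344) (nat_lit 321) (nat_lit 235)) (XT.lf (nat_lit 0) (nat_lit 30149125479) (nat_lit 152) (nat_lit 10627790676) (nat_lit 228) (nat_lit 19566300199) (nat_lit 28) (nat_lit 5) (nat_lit 30) (nat_lit 5) (nat_lit 31) (nat_lit 5) (nat_lit 345) (nat_lit 321) (nat_lit 234)))) (XT.nd (nat_lit 156) (nat_lit 228) (nat_lit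 0) (XT.nd (nat_lit 78) (nat_lit 76) (nat_lit 0) (XT.lf (nat_lit 0) (nat_lit 2073493004) (nat_lit 76) (nat_lit 53843237369) (nat_lit 152) (nat_lit 7610561263) (nat_lit 27) (nat_lit 5) (nat_lit 28) (nat_lit 5) (nat_lit 29) (nat_lit 4) (nat_lit 346) (nat_lit 321) (nat_lit 233)) (XT.lf (nat_lit 0) (nat_lit 6155564551) (nat_lit 152) (nat_lit 28691915502) (nat_lit 76) (nat_lit 32018884079) (nat_lit 26) (nat_lit 5) (nat_lit 28) (nat_lit 5) (nat_lit 27) (nat_lit 5) (nat_lit 347) (nat_lit 321) (nat_lit 232))) (XT.nd (nat_lit 78) (nat_lit 76) (nat_lit 0) (XT.lf (nat_lit 0) (nat_lit 6828807514) (nat_lit 152) (nat_lit 13943615259) (nat_lit 228) (nat_lit 49671479007) (nat_lit 24) (nat_lit 5) (nat_lit 26) (nat_lit 5) (nat_lit 27) (nat_lit 5) (nat_lit 348) (nat_lit 321) (nat_lit 231)) (XT.nd (nat_lit 78) (nat_lit 76) (nat_lit 0) (XT.lf (nat_lit 0) (nat_lit 37567553685) (nat_lit 228) (nat_lit 27656059876)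 (nat_lit 76) (nat_lit 9003317113) (nat_lit 24) (nat_lit 5) (nat_lit 27) (nat_lit 5) (nat_lit 25) (nat_lit 4) (nat_lit 349) (nat_lit 321) (nat_lit 230)) (XT.lf (nat_lit 0) (nat_lit 11381201900) (nat_lit 76) (nat_lit 44957693049) (nat_lit 152) (nat_lit 21923100940) (nat_lit 23) (nat_lit 5) (nat_lit 24) (nat_lit 5) (nat_lit 25) (nat_lit 4) (nat_lit 350) (nat_lit 321) (nat_lit 229)))))) (XT.nd (nat_lit 312) (nat_lit 228) (nat_lit 0) (XT.nd (nat_lit 156) (nat_lit 76) (nat_lit 0) (XT.nd (nat_lit 78) (nat_lit 228) (nat_lit 0) (XT.lf (nat_lit 0) (nat_lit 55108755122) (nat_lit 76) (nat_lit 22256175054) (nat_lit 152) (nat_lit 5194699064) (nat_lit 23) (nat_lit 5) (nat_lit 24) (nat_lit 5) (nat_lit 25) (nat_lit 4) (nat_lit 351) (nat_lit 321) (nat_lit 228)) (XT.lf (nat_lit 0) (nat_lit 12672318858) (nat_lit 228) (nat_lit 71619734922) (nat_lit 76) (nat_lit 2848715182) (nat_lit 20) (nat_lit 5) (nat_lit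 23) (nat_lit 5) (nat_lit 21) (nat_lit 4) (nat_lit 352) (nat_lit 321) (nat_lit 227))) (XT.nd (nat_lit 78) (nat_lit 76) (nat_lit 0) (XT.lf (nat_lit 0) (nat_lit 33033208056) (nat_lit 228) (nat_lit 29274324723) (nat_lit 76) (nat_lit 29662461693) (nat_lit 20) (nat_lit 5) (nat_lit 23) (nat_lit 5) (nat_lit 21) (nat_lit 4) (nat_lit 353) (nat_lit 321) (nat_lit 226)) (XT.lf (nat_lit 0) (nat_lit 17320224763) (nat_lit 76) (nat_lit 38116541331) (nat_lit 152) (nat_lit 41715689472) (nat_lit 19) (nat_lit 5) (nat_lit 20) (nat_lit 5) (nat_lit 21) (nat_lit 4) (nat_lit 354) (nat_lit 321) (nat_lit 225)))) (XT.nd (nat_lit 156) (nat_lit 152) (nat_lit 0) (XT.nd (nat_lit 78) (nat_lit 76) (nat_lit 0) (XT.lf (nat_lit 0) (nat_lit 69302398266) (nat_lit 76) (nat_lit 11127956956) (nat_lit 152) (nat_lit 22255339869) (nat_lit 19) (nat_lit 5) (nat_lit 20) (nat_lit 5) (nat_lit 21) (nat_lit 4) (nat_lit 355) (nat_lit 321)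 (nat_lit 224)) (XT.lf (nat_lit 0) (nat_lit 17204208957) (nat_lit 76) (nat_lit 91063843233) (nat_lit 76) (nat_lit 325973097) (nat_lit 18) (nat_lit 4) (nat_lit 19) (nat_lit 5) (nat_lit 19) (nat_lit 4) (nat_lit 356) (nat_lit 321) (nat_lit 223))) (XT.nd (nat_lit 78) (nat_lit 76) (nat_lit 0) (XT.lf (nat_lit 0) (nat_lit 23412297331) (nat_lit 152) (nat_lit 42043857486) (nat_lit 76) (nat_lit 49376087482) (nat_lit 17) (nat_lit 5) (nat_lit 19) (nat_lit 5) (nat_lit 18) (nat_lit 4) (nat_lit 357) (nat_lit 321) (nat_lit 222)) (XT.nd (nat_lit 78) (nat_lit 0) (nat_lit 0) (XT.lf (nat_lit 0) (nat_lit 11828766442) (nat_lit 76) (nat_lit 37485418195) (nat_lit 152) (nat_lit 72232082314) (nat_lit 16) (nat_lit 5) (nat_lit 17) (nat_lit 5) (nat_lit 18) (nat_lit 4) (nat_lit 358) (nat_lit 321) (nat_lit 221)) (XT.lf (nat_lit 0) (nat_lit 72398112161) (nat_lit 76) (nat_lit 6037419985) (nat_lit 152) (nat_lit 50270097549)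 (nat_lit 16) (nat_lit 5) (nat_lit 17) (nat_lit 5) (nat_lit 18) (nat_lit 4) (nat_lit 359) (nat_lit 321) (nat_lit 220))))))))
noncomputable def xc158 : XT := (XT.nd (nat_lit 1404) (nat_lit 304) (nat_lit 0) (XT.nd (nat_lit 702) (nat_lit 228) (nat_lit 0) (XT.nd (nat_lit 312) (nat_lit 228) (nat_lit 0) (XT.nd (nat_lit 156) (nat_lit 76) (nat_lit 0) (XT.nd (nat_lit 78) (nat_lit 76) (nat_lit 0) (XT.lf (nat_lit 0) (nat_lit 736499929) (nat_lit 76) (nat_lit 109837310641) (nat_lit 76) (nat_lit 25808953833) (nat_lit 15) (nat_lit 4) (nat_lit 16) (nat_lit 5) (nat_lit 16) (nat_lit 4) (nat_lit 360) (nat_lit 321) (nat_lit 219)) (XT.lf (nat_lit 0) (nat_lit 2312853340) (nat_lit 152) (nat_lit 79220048684) (nat_lit 76) (nat_lit 63001257416) (nat_lit 14) (nat_lit 5) (nat_lit 16) (nat_lit 5) (nat_lit 15) (nat_lit 4) (nat_lit 361) (nat_lit 321) (nat_lit 218))) (XT.nd (nat_lit 78) (nat_lit 76) (nat_lit 0) (XT.lf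 (nat_lit 0) (nat_lit 31288096605) (nat_lit 152) (nat_lit 18953789752) (nat_lit 76) (nat_lit 103042307727) (nat_lit 14) (nat_lit 5) (nat_lit 16) (nat_lit 5) (nat_lit 15) (nat_lit 4) (nat_lit 362) (nat_lit 321) (nat_lit 217)) (XT.lf (nat_lit 0) (nat_lit 48559494237) (nat_lit 76) (nat_lit 15187912272) (nat_lit 152) (nat_lit 98893541801) (nat_lit 13) (nat_lit 5) (nat_lit 14) (nat_lit 5) (nat_lit 15) (nat_lit 4) (nat_lit 363) (nat_lit 321) (nat_lit 216)))) (XT.nd (nat_lit 156) (nat_lit 152) (nat_lit 0) (XT.nd (nat_lit 78) (nat_lit 76) (nat_lit 0) (XT.lf (nat_lit 0) (nat_lit 99878581318) (nat_lit 152) (nat_lit 50715143198) (nat_lit 0) (nat_lit 22066509287) (nat_lit 13) (nat_lit 5) (nat_lit 15) (nat_lit 4) (nat_lit 13) (nat_lit 4) (nat_lit 364) (nat_lit 321) (nat_lit 215)) (XT.lf (nat_lit 0) (nat_lit 18234988943) (nat_lit 76) (nat_lit 121496643401) (nat_lit 76) (nat_lit 43682919714) (nat_lit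 12) (nat_lit 4) (nat_lit 13) (nat_lit 5) (nat_lit 13) (nat_lit 4) (nat_lit 365) (nat_lit 321) (nat_lit 214))) (XT.nd (nat_lit 78) (nat_lit 152) (nat_lit 0) (XT.lf (nat_lit 0) (nat_lit 95582246932) (nat_lit 76) (nat_lit 88575709974) (nat_lit 76) (nat_lit 10760456976) (nat_lit 12) (nat_lit 4) (nat_lit 13) (nat_lit 5) (nat_lit 13) (nat_lit 4) (nat_lit 366) (nat_lit 321) (nat_lit 213)) (XT.nd (nat_lit 78) (nat_lit 76) (nat_lit 0) (XT.lf (nat_lit 0) (nat_lit 23553884117) (nat_lit 152) (nat_lit 28824590062) (nat_lit 76) (nat_lit 154916526271) (nat_lit 11) (nat_lit 5) (nat_lit 13) (nat_lit 5) (nat_lit 12) (nat_lit 4) (nat_lit 367) (nat_lit 321) (nat_lit 212)) (XT.lf (nat_lit 0) (nat_lit 49523030439) (nat_lit 76) (nat_lit 11698609274) (nat_lit 152) (nat_lit 159322546297) (nat_lit 10) (nat_lit 5) (nat_lit 11) (nat_lit 5) (nat_lit 12) (nat_lit 4) (nat_lit 368) (nat_lit 321) (nat_lit 211)))))) (XT.nd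 (nat_lit 312) (nat_lit 152) (nat_lit 0) (XT.nd (nat_lit 156) (nat_lit 76) (nat_lit 0) (XT.nd (nat_lit 78) (nat_lit 0) (nat_lit 0) (XT.lf (nat_lit 0) (nat_lit 103485261108) (nat_lit 152) (nat_lit 99810998336) (nat_lit 0) (nat_lit 31430451682) (nat_lit 10) (nat_lit 5) (nat_lit 12) (nat_lit 4) (nat_lit 10) (nat_lit 4) (nat_lit 369) (nat_lit 321) (nat_lit 210)) (XT.lf (nat_lit 0) (nat_lit 149432527952) (nat_lit 152) (nat_lit 23210428454) (nat_lit 0) (nat_lit 77376677702) (nat_lit 10) (nat_lit 5) (nat_lit 12) (nat_lit 4) (nat_lit 10) (nat_lit 4) (nat_lit 370) (nat_lit 321) (nat_lit 209))) (XT.nd (nat_lit 78) (nat_lit 0) (nat_lit 0) (XT.lf (nat_lit 0) (nat_lit 62649833623) (nat_lit 76) (nat_lit 137911264892) (nat_lit 76) (nat_lit 65854450916) (nat_lit 9) (nat_lit 4) (nat_lit 10) (nat_lit 5) (nat_lit 10) (nat_lit 4) (nat_lit 371) (nat_lit 321) (nat_lit 208)) (XT.lf (nat_lit 0) (nat_lit 156696622032)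 (nat_lit 76) (nat_lit 99716773629) (nat_lit 76) (nat_lit 27659067315) (nat_lit 9) (nat_lit 4) (nat_lit 10) (nat_lit 5) (nat_lit 10) (nat_lit 4) (nat_lit 372) (nat_lit 321) (nat_lit 207)))) (XT.nd (nat_lit 156) (nat_lit 0) (nat_lit 0) (XT.nd (nat_lit 78) (nat_lit 76) (nat_lit 0) (XT.lf (nat_lit 0) (nat_lit 12910907886) (nat_lit 152) (nat_lit 45203844149) (nat_lit 76) (nat_lit 245001116056) (nat_lit 8) (nat_lit 5) (nat_lit 10) (nat_lit 5) (nat_lit 9) (nat_lit 4) (nat_lit 373) (nat_lit 321) (nat_lit 206)) (XT.lf (nat_lit 0) (nat_lit 45076378234) (nat_lit 76) (nat_lit 11238850526) (nat_lit 152) (nat_lit 267223399225) (nat_lit 7) (nat_lit 5) (nat_lit 8) (nat_lit 5) (nat_lit 9) (nat_lit 4) (nat_lit 374) (nat_lit 321) (nat_lit 205))) (XT.nd (nat_lit 78) (nat_lit 0) (nat_lit 0) (XT.lf (nat_lit 0) (nat_lit 105406186077) (nat_lit 152) (nat_lit 201327921192) (nat_lit 0) (nat_lit 38683958340) (nat_lit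 7) (nat_lit 5) (nat_lit 9) (nat_lit 4) (nat_lit 7) (nat_lit 4) (nat_lit 375) (nat_lit 321) (nat_lit 204)) (XT.nd (nat_lit 78) (nat_lit 0) (nat_lit 0) (XT.lf (nat_lit 0) (nat_lit 158715387828) (nat_lit 152) (nat_lit 118316640392) (nat_lit 0) (nat_lit 91992552780) (nat_lit 7) (nat_lit 5) (nat_lit 9) (nat_lit 4) (nat_lit 7) (nat_lit 4) (nat_lit 376) (nat_lit 321) (nat_lit 203)) (XT.lf (nat_lit 0) (nat_lit 216288445768) (nat_lit 152) (nat_lit 28666194025) (nat_lit 0) (nat_lit 149565048396) (nat_lit 7) (nat_lit 5) (nat_lit 9) (nat_lit 4) (nat_lit 7) (nat_lit 4) (nat_lit 377) (nat_lit 321) (nat_lit 202))))))) (XT.nd (nat_lit 702) (nat_lit 76) (nat_lit 0) (XT.nd (nat_lit 312) (nat_lit 152) (nat_lit 0) (XT.nd (nat_lit 156) (nat_lit 0) (nat_lit 0) (XT.nd (nat_lit 78) (nat_lit 0) (nat_lit 0) (XT.lf (nat_lit 0) (nat_lit 71743584471) (nat_lit 76) (nat_lit 208448384034) (nat_lit 76) (nat_lit 141724465991)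 (nat_lit 6) (nat_lit 4) (nat_lit 7) (nat_lit 5) (nat_lit 7) (nat_lit 4) (nat_lit 378) (nat_lit 321) (nat_lit 201)) (XT.lf (nat_lit 0) (nat_lit 181814849579) (nat_lit 76) (nat_lit 168175915913) (nat_lit 76) (nat_lit 101451515767) (nat_lit 6) (nat_lit 4) (nat_lit 7) (nat_lit 5) (nat_lit 7) (nat_lit 4) (nat_lit 379) (nat_lit 321) (nat_lit 200))) (XT.nd (nat_lit 78) (nat_lit 0) (nat_lit 0) (XT.lf (nat_lit 0) (nat_lit 300690364486) (nat_lit 76) (nat_lit 124682368313) (nat_lit 76) (nat_lit 57957521776) (nat_lit 6) (nat_lit 4) (nat_lit 7) (nat_lit 5) (nat_lit 7) (nat_lit 4) (nat_lit 380) (nat_lit 321) (nat_lit 199)) (XT.lf (nat_lit 0) (nat_lit 429074576687) (nat_lit 76) (nat_lit 77710001692) (nat_lit 76) (nat_lit 10984741830) (nat_lit 6) (nat_lit 4) (nat_lit 7) (nat_lit 5) (nat_lit 7) (nat_lit 4) (nat_lit 381) (nat_lit 321) (nat_lit 198)))) (XT.nd (nat_lit 156) (nat_lit 0) (nat_lit 0) (XT.nd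 (nat_lit 78) (nat_lit 0) (nat_lit 0) (XT.lf (nat_lit 0) (nat_lit 12430680410) (nat_lit 76) (nat_lit 25625244099) (nat_lit 152) (nat_lit 516807250547) (nat_lit 4) (nat_lit 5) (nat_lit 5) (nat_lit 5) (nat_lit 6) (nat_lit 4) (nat_lit 382) (nat_lit 321) (nat_lit 197)) (XT.lf (nat_lit 0) (nat_lit 93650363929) (nat_lit 152) (nat_lit 469126397094) (nat_lit 0) (nat_lit 31867033438) (nat_lit 4) (nat_lit 5) (nat_lit 6) (nat_lit 4) (nat_lit 4) (nat_lit 4) (nat_lit 383) (nat_lit 321) (nat_lit 196))) (XT.nd (nat_lit 78) (nat_lit 0) (nat_lit 0) (XT.lf (nat_lit 0) (nat_lit 154357354536) (nat_lit 152) (nat_lit 390622589053) (nat_lit 0) (nat_lit 92573720239) (nat_lit 4) (nat_lit 5) (nat_lit 6) (nat_lit 4) (nat_lit 4) (nat_lit 4) (nat_lit 384) (nat_lit 321) (nat_lit 195)) (XT.nd (nat_lit 78) (nat_lit 0) (nat_lit 0) (XT.lf (nat_lit 0) (nat_lit 219920353724) (nat_lit 152) (nat_lit 305839575034) (nat_lit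 0) (nat_lit 158136438124) (nat_lit 4) (nat_lit 5) (nat_lit 6) (nat_lit 4) (nat_lit 4) (nat_lit 4) (nat_lit 385) (nat_lit 321) (nat_lit 194)) (XT.lf (nat_lit 0) (nat_lit 290727882969) (nat_lit 152) (nat_lit 214274937178) (nat_lit 0) (nat_lit 228943706904) (nat_lit 4) (nat_lit 5) (nat_lit 6) (nat_lit 4) (nat_lit 4) (nat_lit 4) (nat_lit 386) (nat_lit 321) (nat_lit 193)))))) (XT.nd (nat_lit 312) (nat_lit 0) (nat_lit 0) (XT.nd (nat_lit 156) (nat_lit 76) (nat_lit 0) (XT.nd (nat_lit 78) (nat_lit 0) (nat_lit 0) (XT.lf (nat_lit 0) (nat_lit 367199542444) (nat_lit 152) (nat_lit 115386070223) (nat_lit 0) (nat_lit 305415125207) (nat_lit 4) (nat_lit 5) (nat_lit 6) (nat_lit 4) (nat_lit 4) (nat_lit 4) (nat_lit 387) (nat_lit 321) (nat_lit 192)) (XT.lf (nat_lit 0) (nat_lit 449788497538) (nat_lit 152) (nat_lit 8586966068) (nat_lit 0) (nat_lit 388003856995) (nat_lit 4) (nat_lit 5) (nat_lit 6) (nat_lit 4)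 (nat_lit 4) (nat_lit 4) (nat_lit 388) (nat_lit 321) (nat_lit 191))) (XT.nd (nat_lit 78) (nat_lit 0) (nat_lit 0) (XT.lf (nat_lit 0) (nat_lit 112376801611) (nat_lit 76) (nat_lit 429310027453) (nat_lit 76) (nat_lit 367525180145) (nat_lit 3) (nat_lit 4) (nat_lit 4) (nat_lit 5) (nat_lit 4) (nat_lit 4) (nat_lit 389) (nat_lit 321) (nat_lit 190)) (XT.lf (nat_lit 0) (nat_lit 243505231966) (nat_lit 76) (nat_lit 397666184311) (nat_lit 76) (nat_lit 335881145553) (nat_lit 3) (nat_lit 4) (nat_lit 4) (nat_lit 5) (nat_lit 4) (nat_lit 4) (nat_lit 390) (nat_lit 321) (nat_lit 189)))) (XT.nd (nat_lit 156) (nat_lit 0) (nat_lit 0) (XT.nd (nat_lit 78) (nat_lit 0) (nat_lit 0) (XT.lf (nat_lit 0) (nat_lit 385123207946) (nat_lit 76) (nat_lit 363491197978) (nat_lit 76) (nat_lit 301705981952) (nat_lit 3) (nat_lit 4) (nat_lit 4) (nat_lit 5) (nat_lit 4) (nat_lit 4) (nat_lit 391) (nat_lit 321) (nat_lit 188)) (XT.lf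 (nat_lit 0) (nat_lit 538069947185) (nat_lit 76) (nat_lit 326582550019) (nat_lit 76) (nat_lit 264797169856) (nat_lit 3) (nat_lit 4) (nat_lit 4) (nat_lit 5) (nat_lit 4) (nat_lit 4) (nat_lit 392) (nat_lit 321) (nat_lit 187))) (XT.nd (nat_lit 78) (nat_lit 0) (nat_lit 0) (XT.lf (nat_lit 0) (nat_lit 703251800732) (nat_lit 76) (nat_lit 286721522518) (nat_lit 76) (nat_lit 224935990376) (nat_lit 3) (nat_lit 4) (nat_lit 4) (nat_lit 5) (nat_lit 4) (nat_lit 4) (nat_lit 393) (nat_lit 321) (nat_lit 186)) (XT.nd (nat_lit 78) (nat_lit 0) (nat_lit 0) (XT.lf (nat_lit 0) (nat_lit 881647624015) (nat_lit 76) (nat_lit 243671901980) (nat_lit 76) (nat_lit 181886229117) (nat_lit 3) (nat_lit 4) (nat_lit 4) (nat_lit 5) (nat_lit 4) (nat_lit 4) (nat_lit 394) (nat_lit 321) (nat_lit 185)) (XT.lf (nat_lit 0) (nat_lit 1074314577468) (nat_lit 76) (nat_lit 197178579543) (nat_lit 76) (nat_lit 135392776382) (nat_lit 3) (nat_lit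 4) (nat_lit 4) (nat_lit 5) (nat_lit 4) (nat_lit 4) (nat_lit 395) (nat_lit 321) (nat_lit 184))))))))
noncomputable def xc159 : XT := (XT.nd (nat_lit 1404) (nat_lit 0) (nat_lit 0) (XT.nd (nat_lit 702) (nat_lit 0) (nat_lit 0) (XT.nd (nat_lit 312) (nat_lit 0) (nat_lit 0) (XT.nd (nat_lit 156) (nat_lit 152) (nat_lit 0) (XT.nd (nat_lit 78) (nat_lit 0) (nat_lit 0) (XT.lf (nat_lit 0) (nat_lit 1282394391185) (nat_lit 76) (nat_lit 146966039221) (nat_lit 76) (nat_lit 85180115414) (nat_lit 3) (nat_lit 4) (nat_lit 4) (nat_lit 5) (nat_lit 4) (nat_lit 4) (nat_lit 396) (nat_lit 321) (nat_lit 183)) (XT.lf (nat_lit 0) (nat_lit 1507120130730) (nat_lit 76) (nat_lit 92736725219) (nat_lit 76) (nat_lit 30950689704) (nat_lit 3) (nat_lit 4) (nat_lit 4) (nat_lit 5) (nat_lit 4) (nat_lit 4) (nat_lit 397) (nat_lit 321) (nat_lit 182))) (XT.nd (nat_lit 78) (nat_lit 76) (nat_lit 0) (XT.lf (nat_lit 0) (nat_lit 26235353106)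 (nat_lit 152) (nat_lit 7216604488) (nat_lit 76) (nat_lit 1722870830035) (nat_lit 2) (nat_lit 5) (nat_lit 4) (nat_lit 5) (nat_lit 3) (nat_lit 4) (nat_lit 398) (nat_lit 321) (nat_lit 181)) (XT.lf (nat_lit 0) (nat_lit 90139053280) (nat_lit 152) (nat_lit 1768441112694) (nat_lit 0) (nat_lit 32929576686) (nat_lit 1) (nat_lit 5) (nat_lit 3) (nat_lit 4) (nat_lit 1) (nat_lit 4) (nat_lit 399) (nat_lit 321) (nat_lit 180)))) (XT.nd (nat_lit 156) (nat_lit 0) (nat_lit 0) (XT.nd (nat_lit 78) (nat_lit 0) (nat_lit 0) (XT.lf (nat_lit 0) (nat_lit 160226169942) (nat_lit 152) (nat_lit 1774183183300) (nat_lit 0) (nat_lit 103016611238) (nat_lit 1) (nat_lit 5) (nat_lit 3) (nat_lit 4) (nat_lit 1) (nat_lit 4) (nat_lit 400) (nat_lit 321) (nat_lit 179)) (XT.lf (nat_lit 0) (nat_lit 235920069497) (nat_lit 152) (nat_lit 1780384994722) (nat_lit 0) (nat_lit 178710434766) (nat_lit 1) (nat_lit 5) (nat_lit 3) (nat_lit 4)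 (nat_lit 1) (nat_lit 4) (nat_lit 401) (nat_lit 321) (nat_lit 178))) (XT.nd (nat_lit 78) (nat_lit 0) (nat_lit 0) (XT.lf (nat_lit 0) (nat_lit 317669308386) (nat_lit 152) (nat_lit 1787083298436) (nat_lit 0) (nat_lit 260459603259) (nat_lit 1) (nat_lit 5) (nat_lit 3) (nat_lit 4) (nat_lit 1) (nat_lit 4) (nat_lit 402) (nat_lit 321) (nat_lit 177)) (XT.nd (nat_lit 78) (nat_lit 0) (nat_lit 0) (XT.lf (nat_lit 0) (nat_lit 405958326543) (nat_lit 152) (nat_lit 1794317788094) (nat_lit 0) (nat_lit 348748556235) (nat_lit 1) (nat_lit 5) (nat_lit 3) (nat_lit 4) (nat_lit 1) (nat_lit 4) (nat_lit 403) (nat_lit 321) (nat_lit 176)) (XT.lf (nat_lit 0) (nat_lit 501310318151) (nat_lit 152) (nat_lit 1802131334745) (nat_lit 0) (nat_lit 444100487490) (nat_lit 1) (nat_lit 5) (nat_lit 3) (nat_lit 4) (nat_lit 1) (nat_lit 4) (nat_lit 404) (nat_lit 321) (nat_lit 175)))))) (XT.nd (nat_lit 312) (nat_lit 0) (nat_lit 0) (XT.nd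 (nat_lit 156) (nat_lit 0) (nat_lit 0) (XT.nd (nat_lit 78) (nat_lit 0) (nat_lit 0) (XT.lf (nat_lit 0) (nat_lit 604290332047) (nat_lit 152) (nat_lit 1810570240888) (nat_lit 0) (nat_lit 547080445504) (nat_lit 1) (nat_lit 5) (nat_lit 3) (nat_lit 4) (nat_lit 1) (nat_lit 4) (nat_lit 405) (nat_lit 321) (nat_lit 174)) (XT.lf (nat_lit 0) (nat_lit 715508620168) (nat_lit 152) (nat_lit 1819684514856) (nat_lit 0) (nat_lit 658298681882) (nat_lit 1) (nat_lit 5) (nat_lit 3) (nat_lit 4) (nat_lit 1) (nat_lit 4) (nat_lit 406) (nat_lit 321) (nat_lit 173))) (XT.nd (nat_lit 78) (nat_lit 0) (nat_lit 0) (XT.lf (nat_lit 0) (nat_lit 835624253848) (nat_lit 152) (nat_lit 1829528167161) (nat_lit 0) (nat_lit 778414267652) (nat_lit 1) (nat_lit 5) (nat_lit 3) (nat_lit 4) (nat_lit 1) (nat_lit 4) (nat_lit 407) (nat_lit 321) (nat_lit 172)) (XT.lf (nat_lit 0) (nat_lit 965349029437) (nat_lit 152) (nat_lit 1840159530558)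 (nat_lit 0) (nat_lit 908138998880) (nat_lit 1) (nat_lit 5) (nat_lit 3) (nat_lit 4) (nat_lit 1) (nat_lit 4) (nat_lit 408) (nat_lit 321) (nat_lit 171)))) (XT.nd (nat_lit 156) (nat_lit 0) (nat_lit 0) (XT.nd (nat_lit 78) (nat_lit 0) (nat_lit 0) (XT.lf (nat_lit 0) (nat_lit 1105451686345) (nat_lit 152) (nat_lit 1851641605718) (nat_lit 0) (nat_lit 1048241614712) (nat_lit 1) (nat_lit 5) (nat_lit 3) (nat_lit 4) (nat_lit 1) (nat_lit 4) (nat_lit 409) (nat_lit 321) (nat_lit 170)) (XT.lf (nat_lit 0) (nat_lit 1256762462539) (nat_lit 152) (nat_lit 1864042434568) (nat_lit 0) (nat_lit 1199552352874) (nat_lit 1) (nat_lit 5) (nat_lit 3) (nat_lit 4) (nat_lit 1) (nat_lit 4) (nat_lit 410) (nat_lit 321) (nat_lit 169))) (XT.nd (nat_lit 78) (nat_lit 0) (nat_lit 0) (XT.lf (nat_lit 0) (nat_lit 1420178014470) (nat_lit 152) (nat_lit 1877435503502) (nat_lit 0) (nat_lit 1362967869590) (nat_lit 1) (nat_lit 5) (nat_lit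 3) (nat_lit 4) (nat_lit 1) (nat_lit 4) (nat_lit 411) (nat_lit 321) (nat_lit 168)) (XT.nd (nat_lit 78) (nat_lit 0) (nat_lit 0) (XT.lf (nat_lit 0) (nat_lit 1596666730595) (nat_lit 152) (nat_lit 1891900178855) (nat_lit 0) (nat_lit 1539456553108) (nat_lit 1) (nat_lit 5) (nat_lit 3) (nat_lit 4) (nat_lit 1) (nat_lit 4) (nat_lit 412) (nat_lit 321) (nat_lit 167)) (XT.lf (nat_lit 0) (nat_lit 1787274469971) (nat_lit 152) (nat_lit 1907522177219) (nat_lit 0) (nat_lit 1730064262293) (nat_lit 1) (nat_lit 5) (nat_lit 3) (nat_lit 4) (nat_lit 1) (nat_lit 4) (nat_lit 413) (nat_lit 321) (nat_lit 166))))))) (XT.nd (nat_lit 40326) (nat_lit 0) (nat_lit 2736) (XT.nd (nat_lit 39936) (nat_lit 0) (nat_lit 4028) (XT.nd (nat_lit 39780) (nat_lit 0) (nat_lit 4332) (XT.nd (nat_lit 39702) (nat_lit 0) (nat_lit 4332) (XT.lf (nat_lit 0) (nat_lit 1993130759944) (nat_lit 152) (nat_lit 1924394073402) (nat_lit 0) (nat_lit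 1935920524310) (nat_lit 1) (nat_lit 5) (nat_lit 3) (nat_lit 4) (nat_lit 1) (nat_lit 4) (nat_lit 414) (nat_lit 321) (nat_lit 165)) (XT.lf (nat_lit 0) (nat_lit 8444567719) (nat_lit 532) (nat_lit 1334085337) (nat_lit 532) (nat_lit 1334085337) (nat_lit 58) (nat_lit 3) (nat_lit 65) (nat_lit 3) (nat_lit 65) (nat_lit 5) (nat_lit 322) (nat_lit 322) (nat_lit 256))) (XT.nd (nat_lit 78) (nat_lit 0) (nat_lit 76) (XT.lf (nat_lit 76) (nat_lit 8377561151) (nat_lit 0) (nat_lit 9512773275) (nat_lit 532) (nat_lit 5197924597) (nat_lit 59) (nat_lit 5) (nat_lit 58) (nat_lit 3) (nat_lit 65) (nat_lit 5) (nat_lit 323) (nat_lit 322) (nat_lit 255)) (XT.lf (nat_lit 0) (nat_lit 19066132706) (nat_lit 456) (nat_lit 3597773482) (nat_lit 532) (nat_lit 1348616002) (nat_lit 59) (nat_lit 5) (nat_lit 65) (nat_lit 5) (nat_lit 66) (nat_lit 5) (nat_lit 324) (nat_lit 322) (nat_lit 254)))) (XT.nd (nat_lit 156) (nat_lit 380)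 (nat_lit 0) (XT.nd (nat_lit 78) (nat_lit 0) (nat_lit 0) (XT.lf (nat_lit 76) (nat_lit 8578617394) (nat_lit 0) (nat_lit 12199242740) (nat_lit 532) (nat_lit 4197534299) (nat_lit 60) (nat_lit 5) (nat_lit 59) (nat_lit 5) (nat_lit 66) (nat_lit 5) (nat_lit 325) (nat_lit 322) (nat_lit 253)) (XT.lf (nat_lit 76) (nat_lit 21926301379) (nat_lit 0) (nat_lit 787734074) (nat_lit 532) (nat_lit 3294276193) (nat_lit 60) (nat_lit 5) (nat_lit 59) (nat_lit 5) (nat_lit 66) (nat_lit 5) (nat_lit 326) (nat_lit 322) (nat_lit 252))) (XT.nd (nat_lit 78) (nat_lit 456) (nat_lit 0) (XT.lf (nat_lit 76) (nat_lit 9403088343) (nat_lit 0) (nat_lit 15895639828) (nat_lit 532) (nat_lit 1785658980) (nat_lit 61) (nat_lit 5) (nat_lit 60) (nat_lit 5) (nat_lit 67) (nat_lit 5) (nat_lit 327) (nat_lit 322) (nat_lit 251)) (XT.nd (nat_lit 78) (nat_lit 456) (nat_lit 0) (XT.lf (nat_lit 76) (nat_lit 24170028841) (nat_lit 0) (nat_lit 4042297557)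 (nat_lit 532) (nat_lit 24465580) (nat_lit 61) (nat_lit 5) (nat_lit 60) (nat_lit 5) (nat_lit 67) (nat_lit 5) (nat_lit 328) (nat_lit 322) (nat_lit 250)) (XT.lf (nat_lit 0) (nat_lit 2261520486) (nat_lit 532) (nat_lit 18534268669) (nat_lit 76) (nat_lit 8643773340) (nat_lit 54) (nat_lit 5) (nat_lit 61) (nat_lit 5) (nat_lit 55) (nat_lit 5) (nat_lit 329) (nat_lit 322) (nat_lit 249)))))) (XT.nd (nat_lit 390) (nat_lit 684) (nat_lit 0) (XT.nd (nat_lit 156) (nat_lit 228) (nat_lit 0) (XT.nd (nat_lit 78) (nat_lit 380) (nat_lit 0) (XT.lf (nat_lit 0) (nat_lit 4939692564) (nat_lit 532) (nat_lit 3539806908) (nat_lit 76) (nat_lit 22242164901) (nat_lit 54) (nat_lit 5) (nat_lit 61) (nat_lit 5) (nat_lit 55) (nat_lit 5) (nat_lit 330) (nat_lit 322) (nat_lit 248)) (XT.lf (nat_lit 0) (nat_lit 8268766271) (nat_lit 456) (nat_lit 18892915154) (nat_lit 76) (nat_lit 4909731207) (nat_lit 49) (nat_lit 5) (nat_lit 55)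 (nat_lit 5) (nat_lit 50) (nat_lit 5) (nat_lit 331) (nat_lit 322) (nat_lit 247))) (XT.nd (nat_lit 78) (nat_lit 228) (nat_lit 0) (XT.lf (nat_lit 0) (nat_lit 12176299589) (nat_lit 456) (nat_lit 2316429701) (nat_lit 76) (nat_lit 19011450082) (nat_lit 49) (nat_lit 5) (nat_lit 55) (nat_lit 5) (nat_lit 50) (nat_lit 5) (nat_lit 332) (nat_lit 322) (nat_lit 246)) (XT.nd (nat_lit 78) (nat_lit 0) (nat_lit 0) (XT.lf (nat_lit 0) (nat_lit 16399264373) (nat_lit 228) (nat_lit 384711398) (nat_lit 304) (nat_lit 18236597089) (nat_lit 46) (nat_lit 5) (nat_lit 49) (nat_lit 5) (nat_lit 50) (nat_lit 5) (nat_lit 333) (nat_lit 322) (nat_lit 245)) (XT.lf (nat_lit 0) (nat_lit 22175898132) (nat_lit 304) (nat_lit 275694739) (nat_lit 76) (nat_lit 14173442380) (nat_lit 46) (nat_lit 5) (nat_lit 50) (nat_lit 5) (nat_lit 47) (nat_lit 5) (nat_lit 334) (nat_lit 322) (nat_lit 244))))) (XT.nd (nat_lit 156) (nat_lit 304) (nat_lit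 0) (XT.nd (nat_lit 78) (nat_lit 152) (nat_lit 0) (XT.lf (nat_lit 0) (nat_lit 20548455205) (nat_lit 228) (nat_lit 7948848728) (nat_lit 304) (nat_lit 9820707722) (nat_lit 43) (nat_lit 5) (nat_lit 46) (nat_lit 5) (nat_lit 47) (nat_lit 5) (nat_lit 335) (nat_lit 322) (nat_lit 243)) (XT.lf (nat_lit 0) (nat_lit 2858357735) (nat_lit 152) (nat_lit 32722270036) (nat_lit 228) (nat_lit 4545308802) (nat_lit 41) (nat_lit 5) (nat_lit 43) (nat_lit 5) (nat_lit 44) (nat_lit 5) (nat_lit 336) (nat_lit 322) (nat_lit 242))) (XT.nd (nat_lit 78) (nat_lit 228) (nat_lit 0) (XT.lf (nat_lit 0) (nat_lit 1793734410) (nat_lit 228) (nat_lit 16146765609) (nat_lit 76) (nat_lit 24079844959) (nat_lit 40) (nat_lit 5) (nat_lit 43) (nat_lit 5) (nat_lit 41) (nat_lit 5) (nat_lit 337) (nat_lit 322) (nat_lit 241)) (XT.nd (nat_lit 78) (nat_lit 0) (nat_lit 0) (XT.lf (nat_lit 0) (nat_lit 6883101065) (nat_lit 228) (nat_lit 1671507278)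 (nat_lit 304) (nat_lit 35489436589) (nat_lit 37) (nat_lit 5) (nat_lit 40) (nat_lit 5) (nat_lit 41) (nat_lit 5) (nat_lit 338) (nat_lit 322) (nat_lit 240)) (XT.lf (nat_lit 0) (nat_lit 16686594224) (nat_lit 304) (nat_lit 13921589312) (nat_lit 76) (nat_lit 15555043018) (nat_lit 37) (nat_lit 5) (nat_lit 41) (nat_lit 5) (nat_lit 38) (nat_lit 5) (nat_lit 339) (nat_lit 322) (nat_lit 239))))))))
noncomputable def xc160 : XT := (XT.nd (nat_lit 1404) (nat_lit 836) (nat_lit 0) (XT.nd (nat_lit 702) (nat_lit 608) (nat_lit 0) (XT.nd (nat_lit 312) (nat_lit 456) (nat_lit 0) (XT.nd (nat_lit 156) (nat_lit 228) (nat_lit 0) (XT.nd (nat_lit 78) (nat_lit 0) (nat_lit 0) (XT.lf (nat_lit 0) (nat_lit 11712880624) (nat_lit 152) (nat_lit 14076667659) (nat_lit 228) (nat_lit 22636766338) (nat_lit 35) (nat_lit 5) (nat_lit 37) (nat_lit 5) (nat_lit 38) (nat_lit 5) (nat_lit 340) (nat_lit 322) (nat_lit 238)) (XT.lf (nat_lit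 0) (nat_lit 36097560568) (nat_lit 228) (nat_lit 10757586939) (nat_lit 76) (nat_lit 3977160791) (nat_lit 35) (nat_lit 5) (nat_lit 38) (nat_lit 5) (nat_lit 36) (nat_lit 5) (nat_lit 341) (nat_lit 322) (nat_lit 237))) (XT.nd (nat_lit 78) (nat_lit 76) (nat_lit 0) (XT.lf (nat_lit 0) (nat_lit 17792975800) (nat_lit 152) (nat_lit 30226572791) (nat_lit 228) (nat_lit 5348090092) (nat_lit 33) (nat_lit 5) (nat_lit 35) (nat_lit 5) (nat_lit 36) (nat_lit 5) (nat_lit 342) (nat_lit 322) (nat_lit 236)) (XT.lf (nat_lit 0) (nat_lit 4847524935) (nat_lit 228) (nat_lit 6971981658) (nat_lit 76) (nat_lit 44253268128) (nat_lit 32) (nat_lit 5) (nat_lit 35) (nat_lit 5) (nat_lit 33) (nat_lit 5) (nat_lit 343) (nat_lit 322) (nat_lit 235)))) (XT.nd (nat_lit 156) (nat_lit 304) (nat_lit 0) (XT.nd (nat_lit 78) (nat_lit 0) (nat_lit 0) (XT.lf (nat_lit 0) (nat_lit 16380923965) (nat_lit 228) (nat_lit 34122302289) (nat_lit 76)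 (nat_lit 8415099997) (nat_lit 30) (nat_lit 5) (nat_lit 33) (nat_lit 5) (nat_lit 31) (nat_lit 5) (nat_lit 344) (nat_lit 322) (nat_lit 234)) (XT.lf (nat_lit 0) (nat_lit 29335826353) (nat_lit 228) (nat_lit 2792157639) (nat_lit 76) (nat_lit 29823634335) (nat_lit 30) (nat_lit 5) (nat_lit 33) (nat_lit 5) (nat_lit 31) (nat_lit 5) (nat_lit 345) (nat_lit 322) (nat_lit 233))) (XT.nd (nat_lit 78) (nat_lit 152) (nat_lit 0) (XT.lf (nat_lit 0) (nat_lit 32673384000) (nat_lit 152) (nat_lit 11436063709) (nat_lit 228) (nat_lit 21055542637) (nat_lit 28) (nat_lit 5) (nat_lit 30) (nat_lit 5) (nat_lit 31) (nat_lit 5) (nat_lit 346) (nat_lit 322) (nat_lit 232)) (XT.nd (nat_lit 78) (nat_lit 76) (nat_lit 0) (XT.lf (nat_lit 0) (nat_lit 2353413242) (nat_lit 76) (nat_lit 58105497474) (nat_lit 152) (nat_lit 8145007774) (nat_lit 27) (nat_lit 5) (nat_lit 28) (nat_lit 5) (nat_lit 29) (nat_lit 4) (nat_lit 347) (nat_lit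 322) (nat_lit 231)) (XT.lf (nat_lit 0) (nat_lit 6713451087) (nat_lit 152) (nat_lit 30878187268) (nat_lit 76) (nat_lit 34618757481) (nat_lit 26) (nat_lit 5) (nat_lit 28) (nat_lit 5) (nat_lit 27) (nat_lit 5) (nat_lit 348) (nat_lit 322) (nat_lit 230)))))) (XT.nd (nat_lit 312) (nat_lit 380) (nat_lit 0) (XT.nd (nat_lit 156) (nat_lit 76) (nat_lit 0) (XT.nd (nat_lit 78) (nat_lit 0) (nat_lit 0) (XT.lf (nat_lit 0) (nat_lit 7481432033) (nat_lit 152) (nat_lit 15015935421) (nat_lit 228) (nat_lit 53576955402) (nat_lit 24) (nat_lit 5) (nat_lit 26) (nat_lit 5) (nat_lit 27) (nat_lit 5) (nat_lit 349) (nat_lit 322) (nat_lit 229)) (XT.lf (nat_lit 0) (nat_lit 40632392310) (nat_lit 228) (nat_lit 29766347659) (nat_lit 76) (nat_lit 9761554304) (nat_lit 24) (nat_lit 5) (nat_lit 27) (nat_lit 5) (nat_lit 25) (nat_lit 4) (nat_lit 350) (nat_lit 322) (nat_lit 228))) (XT.nd (nat_lit 78) (nat_lit 0) (nat_lit 0) (XT.lf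 (nat_lit 0) (nat_lit 12391307793) (nat_lit 76) (nat_lit 48512126156) (nat_lit 152) (nat_lit 23614893986) (nat_lit 23) (nat_lit 5) (nat_lit 24) (nat_lit 5) (nat_lit 25) (nat_lit 4) (nat_lit 351) (nat_lit 322) (nat_lit 227)) (XT.lf (nat_lit 0) (nat_lit 59609686773) (nat_lit 76) (nat_lit 23997611338) (nat_lit 152) (nat_lit 5552816628) (nat_lit 23) (nat_lit 5) (nat_lit 24) (nat_lit 5) (nat_lit 25) (nat_lit 4) (nat_lit 352) (nat_lit 322) (nat_lit 226)))) (XT.nd (nat_lit 156) (nat_lit 152) (nat_lit 0) (XT.nd (nat_lit 78) (nat_lit 0) (nat_lit 0) (XT.lf (nat_lit 0) (nat_lit 13739836137) (nat_lit 228) (nat_lit 77253300678) (nat_lit 76) (nat_lit 3114568582) (nat_lit 20) (nat_lit 5) (nat_lit 23) (nat_lit 5) (nat_lit 21) (nat_lit 4) (nat_lit 353) (nat_lit 322) (nat_lit 225)) (XT.lf (nat_lit 0) (nat_lit 35725616339) (nat_lit 228) (nat_lit 31527369740) (nat_lit 76) (nat_lit 32070603245) (nat_lit 20)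 (nat_lit 5) (nat_lit 23) (nat_lit 5) (nat_lit 21) (nat_lit 4) (nat_lit 354) (nat_lit 322) (nat_lit 224))) (XT.nd (nat_lit 78) (nat_lit 76) (nat_lit 0) (XT.lf (nat_lit 0) (nat_lit 18792493047) (nat_lit 76) (nat_lit 41127364608) (nat_lit 152) (nat_lit 45000919579) (nat_lit 19) (nat_lit 5) (nat_lit 20) (nat_lit 5) (nat_lit 21) (nat_lit 4) (nat_lit 355) (nat_lit 322) (nat_lit 223)) (XT.nd (nat_lit 78) (nat_lit 76) (nat_lit 0) (XT.lf (nat_lit 0) (nat_lit 74926821890) (nat_lit 76) (nat_lit 11982545336) (nat_lit 152) (nat_lit 23987595716) (nat_lit 19) (nat_lit 5) (nat_lit 20) (nat_lit 5) (nat_lit 21) (nat_lit 4) (nat_lit 356) (nat_lit 322) (nat_lit 222)) (XT.lf (nat_lit 0) (nat_lit 18661407544) (nat_lit 76) (nat_lit 98312108483) (nat_lit 76) (nat_lit 304490202) (nat_lit 18) (nat_lit 4) (nat_lit 19) (nat_lit 5) (nat_lit 19) (nat_lit 4) (nat_lit 357) (nat_lit 322) (nat_lit 221))))))) (XT.nd (nat_lit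 702) (nat_lit 380) (nat_lit 0) (XT.nd (nat_lit 312) (nat_lit 228) (nat_lit 0) (XT.nd (nat_lit 156) (nat_lit 76) (nat_lit 0) (XT.nd (nat_lit 78) (nat_lit 76) (nat_lit 0) (XT.lf (nat_lit 0) (nat_lit 25327115898) (nat_lit 152) (nat_lit 45330274312) (nat_lit 76) (nat_lit 53358067966) (nat_lit 17) (nat_lit 5) (nat_lit 19) (nat_lit 5) (nat_lit 18) (nat_lit 4) (nat_lit 358) (nat_lit 322) (nat_lit 220)) (XT.lf (nat_lit 0) (nat_lit 12850207840) (nat_lit 76) (nat_lit 40449654596) (nat_lit 152) (nat_lit 77966846943) (nat_lit 16) (nat_lit 5) (nat_lit 17) (nat_lit 5) (nat_lit 18) (nat_lit 4) (nat_lit 359) (nat_lit 322) (nat_lit 219))) (XT.nd (nat_lit 78) (nat_lit 76) (nat_lit 0) (XT.lf (nat_lit 0) (nat_lit 78259535284) (nat_lit 76) (nat_lit 6488379274) (nat_lit 152) (nat_lit 54251147986) (nat_lit 16) (nat_lit 5) (nat_lit 17) (nat_lit 5) (nat_lit 18) (nat_lit 4) (nat_lit 360) (nat_lit 322) (nat_lit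 218)) (XT.lf (nat_lit 0) (nat_lit 865422915) (nat_lit 76) (nat_lit 118591448543) (nat_lit 76) (nat_lit 27833528337) (nat_lit 15) (nat_lit 4) (nat_lit 16) (nat_lit 5) (nat_lit 16) (nat_lit 4) (nat_lit 361) (nat_lit 322) (nat_lit 217)))) (XT.nd (nat_lit 156) (nat_lit 152) (nat_lit 0) (XT.nd (nat_lit 78) (nat_lit 0) (nat_lit 0) (XT.lf (nat_lit 0) (nat_lit 2533190633) (nat_lit 152) (nat_lit 85490964300) (nat_lit 76) (nat_lit 68069901158) (nat_lit 14) (nat_lit 5) (nat_lit 16) (nat_lit 5) (nat_lit 15) (nat_lit 4) (nat_lit 362) (nat_lit 322) (nat_lit 216)) (XT.lf (nat_lit 0) (nat_lit 33823837876) (nat_lit 152) (nat_lit 20408344526) (nat_lit 76) (nat_lit 111312121186) (nat_lit 14) (nat_lit 5) (nat_lit 16) (nat_lit 5) (nat_lit 15) (nat_lit 4) (nat_lit 363) (nat_lit 322) (nat_lit 215))) (XT.nd (nat_lit 78) (nat_lit 76) (nat_lit 0) (XT.lf (nat_lit 0) (nat_lit 52504438931) (nat_lit 76) (nat_lit 16374479351)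 (nat_lit 152) (nat_lit 106770758592) (nat_lit 13) (nat_lit 5) (nat_lit 14) (nat_lit 5) (nat_lit 15) (nat_lit 4) (nat_lit 364) (nat_lit 322) (nat_lit 214)) (XT.nd (nat_lit 78) (nat_lit 76) (nat_lit 0) (XT.lf (nat_lit 0) (nat_lit 107898871396) (nat_lit 152) (nat_lit 54714902942) (nat_lit 0) (nat_lit 23856868847) (nat_lit 13) (nat_lit 5) (nat_lit 15) (nat_lit 4) (nat_lit 13) (nat_lit 4) (nat_lit 365) (nat_lit 322) (nat_lit 213)) (XT.lf (nat_lit 0) (nat_lit 19749785297) (nat_lit 76) (nat_lit 131189505456) (nat_lit 76) (nat_lit 47146086878) (nat_lit 12) (nat_lit 4) (nat_lit 13) (nat_lit 5) (nat_lit 13) (nat_lit 4) (nat_lit 366) (nat_lit 322) (nat_lit 212)))))) (XT.nd (nat_lit 312) (nat_lit 228) (nat_lit 0) (XT.nd (nat_lit 156) (nat_lit 76) (nat_lit 0) (XT.nd (nat_lit 78) (nat_lit 76) (nat_lit 0) (XT.lf (nat_lit 0) (nat_lit 103280675981) (nat_lit 76) (nat_lit 95636887682) (nat_lit 76) (nat_lit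 11592157966) (nat_lit 12) (nat_lit 4) (nat_lit 13) (nat_lit 5) (nat_lit 13) (nat_lit 4) (nat_lit 367) (nat_lit 322) (nat_lit 211)) (XT.lf (nat_lit 0) (nat_lit 25463822706) (nat_lit 152) (nat_lit 31081192501) (nat_lit 76) (nat_lit 167331528408) (nat_lit 11) (nat_lit 5) (nat_lit 13) (nat_lit 5) (nat_lit 12) (nat_lit 4) (nat_lit 368) (nat_lit 322) (nat_lit 210))) (XT.nd (nat_lit 78) (nat_lit 0) (nat_lit 0) (XT.lf (nat_lit 0) (nat_lit 53532987899) (nat_lit 76) (nat_lit 12611269658) (nat_lit 152) (nat_lit 172041466250) (nat_lit 10) (nat_lit 5) (nat_lit 11) (nat_lit 5) (nat_lit 12) (nat_lit 4) (nat_lit 369) (nat_lit 322) (nat_lit 209)) (XT.lf (nat_lit 0) (nat_lit 111787642469) (nat_lit 152) (nat_lit 107749995364) (nat_lit 0) (nat_lit 33965319651) (nat_lit 10) (nat_lit 5) (nat_lit 12) (nat_lit 4) (nat_lit 10) (nat_lit 4) (nat_lit 370) (nat_lit 322) (nat_lit 208)))) (XT.nd (nat_lit 156) (nat_lit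 152) (nat_lit 0) (XT.nd (nat_lit 78) (nat_lit 76) (nat_lit 0) (XT.lf (nat_lit 0) (nat_lit 161408945441) (nat_lit 152) (nat_lit 25024778620) (nat_lit 0) (nat_lit 83585730283) (nat_lit 10) (nat_lit 5) (nat_lit 12) (nat_lit 4) (nat_lit 10) (nat_lit 4) (nat_lit 371) (nat_lit 322) (nat_lit 207)) (XT.lf (nat_lit 0) (nat_lit 67703228875) (nat_lit 76) (nat_lit 148923952705) (nat_lit 76) (nat_lit 71099911309) (nat_lit 9) (nat_lit 4) (nat_lit 10) (nat_lit 5) (nat_lit 10) (nat_lit 4) (nat_lit 372) (nat_lit 322) (nat_lit 206))) (XT.nd (nat_lit 78) (nat_lit 152) (nat_lit 0) (XT.lf (nat_lit 0) (nat_lit 169270693056) (nat_lit 76) (nat_lit 107675399428) (nat_lit 76) (nat_lit 29850592995) (nat_lit 9) (nat_lit 4) (nat_lit 10) (nat_lit 5) (nat_lit 10) (nat_lit 4) (nat_lit 373) (nat_lit 322) (nat_lit 205)) (XT.nd (nat_lit 78) (nat_lit 76) (nat_lit 0) (XT.lf (nat_lit 0) (nat_lit 13962427933) (nat_lit 152)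 (nat_lit 48783664697) (nat_lit 76) (nat_lit 264617549239) (nat_lit 8) (nat_lit 5) (nat_lit 10) (nat_lit 5) (nat_lit 9) (nat_lit 4) (nat_lit 374) (nat_lit 322) (nat_lit 204)) (XT.lf (nat_lit 0) (nat_lit 48718051756) (nat_lit 76) (nat_lit 12120516729) (nat_lit 152) (nat_lit 288581696438) (nat_lit 7) (nat_lit 5) (nat_lit 8) (nat_lit 5) (nat_lit 9) (nat_lit 4) (nat_lit 375) (nat_lit 322) (nat_lit 203))))))))
noncomputable def xc161 : XT := (XT.nd (nat_lit 1404) (nat_lit 152) (nat_lit 0) (XT.nd (nat_lit 702) (nat_lit 76) (nat_lit 0) (XT.nd (nat_lit 312) (nat_lit 152) (nat_lit 0) (XT.nd (nat_lit 156) (nat_lit 76) (nat_lit 0) (XT.nd (nat_lit 78) (nat_lit 0) (nat_lit 0) (XT.lf (nat_lit 0) (nat_lit 113855848464) (nat_lit 152) (nat_lit 217400268695) (nat_lit 0) (nat_lit 41794016978) (nat_lit 7) (nat_lit 5) (nat_lit 9) (nat_lit 4) (nat_lit 7) (nat_lit 4) (nat_lit 376) (nat_lit 322) (nat_lit 202))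 (XT.lf (nat_lit 0) (nat_lit 171428514688) (nat_lit 152) (nat_lit 127750595519) (nat_lit 0) (nat_lit 99366162531) (nat_lit 7) (nat_lit 5) (nat_lit 9) (nat_lit 4) (nat_lit 7) (nat_lit 4) (nat_lit 377) (nat_lit 322) (nat_lit 201))) (XT.nd (nat_lit 78) (nat_lit 76) (nat_lit 0) (XT.lf (nat_lit 0) (nat_lit 233606239793) (nat_lit 152) (nat_lit 30930437599) (nat_lit 0) (nat_lit 161543405534) (nat_lit 7) (nat_lit 5) (nat_lit 9) (nat_lit 4) (nat_lit 7) (nat_lit 4) (nat_lit 378) (nat_lit 322) (nat_lit 200)) (XT.lf (nat_lit 0) (nat_lit 77511387685) (nat_lit 76) (nat_lit 225110247427) (nat_lit 76) (nat_lit 153046966776) (nat_lit 6) (nat_lit 4) (nat_lit 7) (nat_lit 5) (nat_lit 7) (nat_lit 4) (nat_lit 379) (nat_lit 322) (nat_lit 199)))) (XT.nd (nat_lit 156) (nat_lit 152) (nat_lit 0) (XT.nd (nat_lit 78) (nat_lit 0) (nat_lit 0) (XT.lf (nat_lit 0) (nat_lit 196386256487) (nat_lit 76) (nat_lit 181617019436)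 (nat_lit 76) (nat_lit 109553325460) (nat_lit 6) (nat_lit 4) (nat_lit 7) (nat_lit 5) (nat_lit 7) (nat_lit 4) (nat_lit 380) (nat_lit 322) (nat_lit 198)) (XT.lf (nat_lit 0) (nat_lit 324769870442) (nat_lit 76) (nat_lit 134644948750) (nat_lit 76) (nat_lit 62580872066) (nat_lit 6) (nat_lit 4) (nat_lit 7) (nat_lit 5) (nat_lit 7) (nat_lit 4) (nat_lit 381) (nat_lit 322) (nat_lit 197))) (XT.nd (nat_lit 78) (nat_lit 152) (nat_lit 0) (XT.lf (nat_lit 0) (nat_lit 463423021338) (nat_lit 76) (nat_lit 83915682358) (nat_lit 76) (nat_lit 11851251313) (nat_lit 6) (nat_lit 4) (nat_lit 7) (nat_lit 5) (nat_lit 7) (nat_lit 4) (nat_lit 382) (nat_lit 322) (nat_lit 196)) (XT.nd (nat_lit 78) (nat_lit 0) (nat_lit 0) (XT.lf (nat_lit 0) (nat_lit 13447644422) (nat_lit 76) (nat_lit 27664088067) (nat_lit 152) (nat_lit 558139588056) (nat_lit 4) (nat_lit 5) (nat_lit 5) (nat_lit 5) (nat_lit 6) (nat_lit 4) (nat_lit 383) (nat_lit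 322) (nat_lit 195)) (XT.lf (nat_lit 0) (nat_lit 101153136368) (nat_lit 152) (nat_lit 506635074304) (nat_lit 0) (nat_lit 34426226218) (nat_lit 4) (nat_lit 5) (nat_lit 6) (nat_lit 4) (nat_lit 4) (nat_lit 4) (nat_lit 384) (nat_lit 322) (nat_lit 194)))))) (XT.nd (nat_lit 312) (nat_lit 76) (nat_lit 0) (XT.nd (nat_lit 156) (nat_lit 0) (nat_lit 0) (XT.nd (nat_lit 78) (nat_lit 0) (nat_lit 0) (XT.lf (nat_lit 0) (nat_lit 166715890422) (nat_lit 152) (nat_lit 421852549364) (nat_lit 0) (nat_lit 99988719807) (nat_lit 4) (nat_lit 5) (nat_lit 6) (nat_lit 4) (nat_lit 4) (nat_lit 4) (nat_lit 385) (nat_lit 322) (nat_lit 193)) (XT.lf (nat_lit 0) (nat_lit 237523192691) (nat_lit 152) (nat_lit 330288364359) (nat_lit 0) (nat_lit 170795780905) (nat_lit 4) (nat_lit 5) (nat_lit 6) (nat_lit 4) (nat_lit 4) (nat_lit 4) (nat_lit 386) (nat_lit 322) (nat_lit 192))) (XT.nd (nat_lit 78) (nat_lit 0) (nat_lit 0) (XT.lf (nat_lit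 0) (nat_lit 313994642004) (nat_lit 152) (nat_lit 231399916710) (nat_lit 0) (nat_lit 247267006911) (nat_lit 4) (nat_lit 5) (nat_lit 6) (nat_lit 4) (nat_lit 4) (nat_lit 4) (nat_lit 387) (nat_lit 322) (nat_lit 191)) (XT.lf (nat_lit 0) (nat_lit 396583402503) (nat_lit 152) (nat_lit 124601200801) (nat_lit 0) (nat_lit 329855560645) (nat_lit 4) (nat_lit 5) (nat_lit 6) (nat_lit 4) (nat_lit 4) (nat_lit 4) (nat_lit 388) (nat_lit 322) (nat_lit 190)))) (XT.nd (nat_lit 156) (nat_lit 0) (nat_lit 0) (XT.nd (nat_lit 78) (nat_lit 76) (nat_lit 0) (XT.lf (nat_lit 0) (nat_lit 485778889068) (nat_lit 152) (nat_lit 9259335354) (nat_lit 0) (nat_lit 419050855759) (nat_lit 4) (nat_lit 5) (nat_lit 6) (nat_lit 4) (nat_lit 4) (nat_lit 4) (nat_lit 389) (nat_lit 322) (nat_lit 189)) (XT.lf (nat_lit 0) (nat_lit 121381164423) (nat_lit 76) (nat_lit 463647723043) (nat_lit 76) (nat_lit 396919512467) (nat_lit 3) (nat_lit 4)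 (nat_lit 4) (nat_lit 5) (nat_lit 4) (nat_lit 4) (nat_lit 390) (nat_lit 322) (nat_lit 188))) (XT.nd (nat_lit 78) (nat_lit 0) (nat_lit 0) (XT.lf (nat_lit 0) (nat_lit 262998815971) (nat_lit 76) (nat_lit 429472898864) (nat_lit 76) (nat_lit 362744524151) (nat_lit 3) (nat_lit 4) (nat_lit 4) (nat_lit 5) (nat_lit 4) (nat_lit 4) (nat_lit 391) (nat_lit 322) (nat_lit 187)) (XT.nd (nat_lit 78) (nat_lit 0) (nat_lit 0) (XT.lf (nat_lit 0) (nat_lit 415945254811) (nat_lit 76) (nat_lit 392564401047) (nat_lit 76) (nat_lit 325835874354) (nat_lit 3) (nat_lit 4) (nat_lit 4) (nat_lit 5) (nat_lit 4) (nat_lit 4) (nat_lit 392) (nat_lit 322) (nat_lit 186)) (XT.lf (nat_lit 0) (nat_lit 581126830210) (nat_lit 76) (nat_lit 352703512567) (nat_lit 76) (nat_lit 285974845153) (nat_lit 3) (nat_lit 4) (nat_lit 4) (nat_lit 5) (nat_lit 4) (nat_lit 4) (nat_lit 393) (nat_lit 322) (nat_lit 185))))))) (XT.nd (nat_lit 702) (nat_lit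 0) (nat_lit 0) (XT.nd (nat_lit 312) (nat_lit 152) (nat_lit 0) (XT.nd (nat_lit 156) (nat_lit 0) (nat_lit 0) (XT.nd (nat_lit 78) (nat_lit 0) (nat_lit 0) (XT.lf (nat_lit 0) (nat_lit 759522395948) (nat_lit 76) (nat_lit 309654020752) (nat_lit 76) (nat_lit 242925223041) (nat_lit 3) (nat_lit 4) (nat_lit 4) (nat_lit 5) (nat_lit 4) (nat_lit 4) (nat_lit 394) (nat_lit 322) (nat_lit 184)) (XT.lf (nat_lit 0) (nat_lit 952189110934) (nat_lit 76) (nat_lit 263160817502) (nat_lit 76) (nat_lit 196431899145) (nat_lit 3) (nat_lit 4) (nat_lit 4) (nat_lit 5) (nat_lit 4) (nat_lit 4) (nat_lit 395) (nat_lit 322) (nat_lit 183))) (XT.nd (nat_lit 78) (nat_lit 0) (nat_lit 0) (XT.lf (nat_lit 0) (nat_lit 1160268703848) (nat_lit 76) (nat_lit 212948387538) (nat_lit 76) (nat_lit 146219357473) (nat_lit 3) (nat_lit 4) (nat_lit 4) (nat_lit 5) (nat_lit 4) (nat_lit 4) (nat_lit 396) (nat_lit 322) (nat_lit 182)) (XT.lf (nat_lit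 0) (nat_lit 1384994238946) (nat_lit 76) (nat_lit 158719175721) (nat_lit 76) (nat_lit 91990042222) (nat_lit 3) (nat_lit 4) (nat_lit 4) (nat_lit 5) (nat_lit 4) (nat_lit 4) (nat_lit 397) (nat_lit 322) (nat_lit 181)))) (XT.nd (nat_lit 156) (nat_lit 76) (nat_lit 0) (XT.nd (nat_lit 78) (nat_lit 76) (nat_lit 0) (XT.lf (nat_lit 0) (nat_lit 1627697423101) (nat_lit 76) (nat_lit 100151823758) (nat_lit 76) (nat_lit 33422594486) (nat_lit 3) (nat_lit 4) (nat_lit 4) (nat_lit 5) (nat_lit 4) (nat_lit 4) (nat_lit 398) (nat_lit 322) (nat_lit 180)) (XT.lf (nat_lit 0) (nat_lit 28337832072) (nat_lit 152) (nat_lit 7786627240) (nat_lit 76) (nat_lit 1860703858785) (nat_lit 2) (nat_lit 5) (nat_lit 4) (nat_lit 5) (nat_lit 3) (nat_lit 4) (nat_lit 399) (nat_lit 322) (nat_lit 179))) (XT.nd (nat_lit 78) (nat_lit 0) (nat_lit 0) (XT.lf (nat_lit 0) (nat_lit 97353814926) (nat_lit 152) (nat_lit 1909909082319) (nat_lit 0)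 (nat_lit 35567333389) (nat_lit 1) (nat_lit 5) (nat_lit 3) (nat_lit 4) (nat_lit 1) (nat_lit 4) (nat_lit 400) (nat_lit 322) (nat_lit 178)) (XT.nd (nat_lit 78) (nat_lit 0) (nat_lit 0) (XT.lf (nat_lit 0) (nat_lit 173047631485) (nat_lit 152) (nat_lit 1916111060750) (nat_lit 0) (nat_lit 111261079552) (nat_lit 1) (nat_lit 5) (nat_lit 3) (nat_lit 4) (nat_lit 1) (nat_lit 4) (nat_lit 401) (nat_lit 322) (nat_lit 177)) (XT.lf (nat_lit 0) (nat_lit 254796793526) (nat_lit 152) (nat_lit 1922809519102) (nat_lit 0) (nat_lit 193010176413) (nat_lit 1) (nat_lit 5) (nat_lit 3) (nat_lit 4) (nat_lit 1) (nat_lit 4) (nat_lit 402) (nat_lit 322) (nat_lit 176)))))) (XT.nd (nat_lit 312) (nat_lit 0) (nat_lit 0) (XT.nd (nat_lit 156) (nat_lit 0) (nat_lit 0) (XT.nd (nat_lit 78) (nat_lit 0) (nat_lit 0) (XT.lf (nat_lit 0) (nat_lit 343085740529) (nat_lit 152) (nat_lit 1930044151943) (nat_lit 0) (nat_lit 281299063062) (nat_lit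 1) (nat_lit 5) (nat_lit 3) (nat_lit 4) (nat_lit 1) (nat_lit 4) (nat_lit 403) (nat_lit 322) (nat_lit 175)) (XT.lf (nat_lit 0) (nat_lit 438437666252) (nat_lit 152) (nat_lit 1937857831171) (nat_lit 0) (nat_lit 376650932903) (nat_lit 1) (nat_lit 5) (nat_lit 3) (nat_lit 4) (nat_lit 1) (nat_lit 4) (nat_lit 404) (nat_lit 322) (nat_lit 174))) (XT.nd (nat_lit 78) (nat_lit 0) (nat_lit 0) (XT.lf (nat_lit 0) (nat_lit 541417619145) (nat_lit 152) (nat_lit 1946296860070) (nat_lit 0) (nat_lit 479630834053) (nat_lit 1) (nat_lit 5) (nat_lit 3) (nat_lit 4) (nat_lit 1) (nat_lit 4) (nat_lit 405) (nat_lit 322) (nat_lit 173)) (XT.lf (nat_lit 0) (nat_lit 652635850780) (nat_lit 152) (nat_lit 1955411247701) (nat_lit 0) (nat_lit 590849017778) (nat_lit 1) (nat_lit 5) (nat_lit 3) (nat_lit 4) (nat_lit 1) (nat_lit 4) (nat_lit 406) (nat_lit 322) (nat_lit 172)))) (XT.nd (nat_lit 156) (nat_lit 0) (nat_lit 0) (XT.nd (nat_lit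 78) (nat_lit 0) (nat_lit 0) (XT.lf (nat_lit 0) (nat_lit 772751432159) (nat_lit 152) (nat_lit 1965255005250) (nat_lit 0) (nat_lit 710964554796) (nat_lit 1) (nat_lit 5) (nat_lit 3) (nat_lit 4) (nat_lit 1) (nat_lit 4) (nat_lit 407) (nat_lit 322) (nat_lit 171)) (XT.lf (nat_lit 0) (nat_lit 902476159321) (nat_lit 152) (nat_lit 1975886466095) (nat_lit 0) (nat_lit 840689240883) (nat_lit 1) (nat_lit 5) (nat_lit 3) (nat_lit 4) (nat_lit 1) (nat_lit 4) (nat_lit 408) (nat_lit 322) (nat_lit 170))) (XT.nd (nat_lit 78) (nat_lit 0) (nat_lit 0) (XT.lf (nat_lit 0) (nat_lit 1042578771389) (nat_lit 152) (nat_lit 1987368631485) (nat_lit 0) (nat_lit 980791814918) (nat_lit 1) (nat_lit 5) (nat_lit 3) (nat_lit 4) (nat_lit 1) (nat_lit 4) (nat_lit 409) (nat_lit 322) (nat_lit 169)) (XT.nd (nat_lit 78) (nat_lit 0) (nat_lit 0) (XT.lf (nat_lit 0) (nat_lit 1193889506065) (nat_lit 152) (nat_lit 1999769543881) (nat_lit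 0) (nat_lit 1132102514379) (nat_lit 1) (nat_lit 5) (nat_lit 3) (nat_lit 4) (nat_lit 1) (nat_lit 4) (nat_lit 410) (nat_lit 322) (nat_lit 168)) (XT.lf (nat_lit 0) (nat_lit 1357305019553) (nat_lit 152) (nat_lit 2013162690173) (nat_lit 0) (nat_lit 1295517995260) (nat_lit 1) (nat_lit 5) (nat_lit 3) (nat_lit 4) (nat_lit 1) (nat_lit 4) (nat_lit 411) (nat_lit 322) (nat_lit 167))))))))
noncomputable def xc162 : XT := (XT.nd (nat_lit 41184) (nat_lit 0) (nat_lit 1368) (XT.nd (nat_lit 40482) (nat_lit 0) (nat_lit 2964) (XT.nd (nat_lit 40092) (nat_lit 0) (nat_lit 3952) (XT.nd (nat_lit 39936) (nat_lit 0) (nat_lit 4332) (XT.nd (nat_lit 78) (nat_lit 0) (nat_lit 0) (XT.lf (nat_lit 0) (nat_lit 1533793700082) (nat_lit 152) (nat_lit 2027627437152) (nat_lit 0) (nat_lit 1472006645598) (nat_lit 1) (nat_lit 5) (nat_lit 3) (nat_lit 4) (nat_lit 1) (nat_lit 4) (nat_lit 412) (nat_lit 322) (nat_lit 166)) (XT.lf (nat_lit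 0) (nat_lit 1724401406500) (nat_lit 152) (nat_lit 2043249501838) (nat_lit 0) (nat_lit 1662614324061) (nat_lit 1) (nat_lit 5) (nat_lit 3) (nat_lit 4) (nat_lit 1) (nat_lit 4) (nat_lit 413) (nat_lit 322) (nat_lit 165))) (XT.nd (nat_lit 78) (nat_lit 0) (nat_lit 0) (XT.lf (nat_lit 0) (nat_lit 9241300277) (nat_lit 532) (nat_lit 1375291071) (nat_lit 532) (nat_lit 1375291071) (nat_lit 58) (nat_lit 3) (nat_lit 65) (nat_lit 3) (nat_lit 65) (nat_lit 5) (nat_lit 323) (nat_lit 323) (nat_lit 254)) (XT.lf (nat_lit 76) (nat_lit 9175490706) (nat_lit 0) (nat_lit 10373525849) (nat_lit 532) (nat_lit 5367770326) (nat_lit 59) (nat_lit 5) (nat_lit 58) (nat_lit 3) (nat_lit 65) (nat_lit 5) (nat_lit 324) (nat_lit 323) (nat_lit 253)))) (XT.nd (nat_lit 156) (nat_lit 456) (nat_lit 0) (XT.nd (nat_lit 78) (nat_lit 0) (nat_lit 0) (XT.lf (nat_lit 0) (nat_lit 20799809293) (nat_lit 456) (nat_lit 3747950867) (nat_lit 532)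 (nat_lit 1368781414) (nat_lit 59) (nat_lit 5) (nat_lit 65) (nat_lit 5) (nat_lit 66) (nat_lit 5) (nat_lit 325) (nat_lit 323) (nat_lit 252)) (XT.lf (nat_lit 76) (nat_lit 9399066609) (nat_lit 0) (nat_lit 13237198856) (nat_lit 532) (nat_lit 4321177963) (nat_lit 60) (nat_lit 5) (nat_lit 59) (nat_lit 5) (nat_lit 66) (nat_lit 5) (nat_lit 326) (nat_lit 323) (nat_lit 251))) (XT.nd (nat_lit 78) (nat_lit 456) (nat_lit 0) (XT.lf (nat_lit 76) (nat_lit 23804627548) (nat_lit 0) (nat_lit 908175667) (nat_lit 532) (nat_lit 3361374696) (nat_lit 60) (nat_lit 5) (nat_lit 59) (nat_lit 5) (nat_lit 66) (nat_lit 5) (nat_lit 327) (nat_lit 323) (nat_lit 250)) (XT.nd (nat_lit 78) (nat_lit 532) (nat_lit 0) (XT.lf (nat_lit 76) (nat_lit 10292182682) (nat_lit 0) (nat_lit 17200645945) (nat_lit 532) (nat_lit 1744446030) (nat_lit 61) (nat_lit 5) (nat_lit 60) (nat_lit 5) (nat_lit 67) (nat_lit 5) (nat_lit 328) (nat_lit 323)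 (nat_lit 249)) (XT.lf (nat_lit 0) (nat_lit 136804466) (nat_lit 532) (nat_lit 4256020614) (nat_lit 608) (nat_lit 26089796642) (nat_lit 53) (nat_lit 5) (nat_lit 60) (nat_lit 5) (nat_lit 61) (nat_lit 5) (nat_lit 329) (nat_lit 323) (nat_lit 248)))))) (XT.nd (nat_lit 312) (nat_lit 684) (nat_lit 0) (XT.nd (nat_lit 156) (nat_lit 380) (nat_lit 0) (XT.nd (nat_lit 78) (nat_lit 0) (nat_lit 0) (XT.lf (nat_lit 0) (nat_lit 2595023003) (nat_lit 532) (nat_lit 19872041113) (nat_lit 76) (nat_lit 9315260604) (nat_lit 54) (nat_lit 5) (nat_lit 61) (nat_lit 5) (nat_lit 55) (nat_lit 5) (nat_lit 330) (nat_lit 323) (nat_lit 247)) (XT.lf (nat_lit 0) (nat_lit 5476146559) (nat_lit 532) (nat_lit 3688760858) (nat_lit 76) (nat_lit 24003006052) (nat_lit 54) (nat_lit 5) (nat_lit 61) (nat_lit 5) (nat_lit 55) (nat_lit 5) (nat_lit 331) (nat_lit 323) (nat_lit 246))) (XT.nd (nat_lit 78) (nat_lit 0) (nat_lit 0) (XT.lf (nat_lit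 0) (nat_lit 9064152383) (nat_lit 456) (nat_lit 20262555683) (nat_lit 76) (nat_lit 5299538490) (nat_lit 49) (nat_lit 5) (nat_lit 55) (nat_lit 5) (nat_lit 50) (nat_lit 5) (nat_lit 332) (nat_lit 323) (nat_lit 245)) (XT.lf (nat_lit 0) (nat_lit 13274370974) (nat_lit 456) (nat_lit 2370454555) (nat_lit 76) (nat_lit 20529614965) (nat_lit 49) (nat_lit 5) (nat_lit 55) (nat_lit 5) (nat_lit 50) (nat_lit 5) (nat_lit 333) (nat_lit 323) (nat_lit 244)))) (XT.nd (nat_lit 156) (nat_lit 456) (nat_lit 0) (XT.nd (nat_lit 78) (nat_lit 0) (nat_lit 0) (XT.lf (nat_lit 0) (nat_lit 17839171260) (nat_lit 228) (nat_lit 405384798) (nat_lit 304) (nat_lit 19568089363) (nat_lit 46) (nat_lit 5) (nat_lit 49) (nat_lit 5) (nat_lit 50) (nat_lit 5) (nat_lit 334) (nat_lit 323) (nat_lit 243)) (XT.lf (nat_lit 0) (nat_lit 24059326662) (nat_lit 304) (nat_lit 170624378) (nat_lit 76) (nat_lit 15316204893) (nat_lit 46) (nat_lit 5)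 (nat_lit 50) (nat_lit 5) (nat_lit 47) (nat_lit 5) (nat_lit 335) (nat_lit 323) (nat_lit 242))) (XT.nd (nat_lit 78) (nat_lit 228) (nat_lit 0) (XT.lf (nat_lit 0) (nat_lit 22316239183) (nat_lit 228) (nat_lit 8565085230) (nat_lit 304) (nat_lit 10493665575) (nat_lit 43) (nat_lit 5) (nat_lit 46) (nat_lit 5) (nat_lit 47) (nat_lit 5) (nat_lit 336) (nat_lit 323) (nat_lit 241)) (XT.nd (nat_lit 78) (nat_lit 76) (nat_lit 0) (XT.lf (nat_lit 0) (nat_lit 3215584252) (nat_lit 152) (nat_lit 35311538583) (nat_lit 228) (nat_lit 4800770535) (nat_lit 41) (nat_lit 5) (nat_lit 43) (nat_lit 5) (nat_lit 44) (nat_lit 5) (nat_lit 337) (nat_lit 323) (nat_lit 240)) (XT.lf (nat_lit 0) (nat_lit 2032374109) (nat_lit 228) (nat_lit 17314363612) (nat_lit 76) (nat_lit 26027525378) (nat_lit 40) (nat_lit 5) (nat_lit 43) (nat_lit 5) (nat_lit 41) (nat_lit 5) (nat_lit 338) (nat_lit 323) (nat_lit 239))))))) (XT.nd (nat_lit 702)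 (nat_lit 684) (nat_lit 0) (XT.nd (nat_lit 312) (nat_lit 532) (nat_lit 0) (XT.nd (nat_lit 156) (nat_lit 152) (nat_lit 0) (XT.nd (nat_lit 78) (nat_lit 0) (nat_lit 0) (XT.lf (nat_lit 0) (nat_lit 7554749529) (nat_lit 228) (nat_lit 1775231012) (nat_lit 304) (nat_lit 38230216775) (nat_lit 37) (nat_lit 5) (nat_lit 40) (nat_lit 5) (nat_lit 41) (nat_lit 5) (nat_lit 339) (nat_lit 323) (nat_lit 238)) (XT.lf (nat_lit 0) (nat_lit 18106452276) (nat_lit 304) (nat_lit 14917121860) (nat_lit 76) (nat_lit 16825831908) (nat_lit 37) (nat_lit 5) (nat_lit 41) (nat_lit 5) (nat_lit 38) (nat_lit 5) (nat_lit 340) (nat_lit 323) (nat_lit 237))) (XT.nd (nat_lit 78) (nat_lit 0) (nat_lit 0) (XT.lf (nat_lit 0) (nat_lit 12765113402) (nat_lit 152) (nat_lit 15169008728) (nat_lit 228) (nat_lit 24359706907) (nat_lit 35) (nat_lit 5) (nat_lit 37) (nat_lit 5) (nat_lit 38) (nat_lit 5) (nat_lit 341) (nat_lit 323) (nat_lit 236))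 (XT.lf (nat_lit 0) (nat_lit 39061497534) (nat_lit 228) (nat_lit 11506175027) (nat_lit 76) (nat_lit 4325057650) (nat_lit 35) (nat_lit 5) (nat_lit 38) (nat_lit 5) (nat_lit 36) (nat_lit 5) (nat_lit 342) (nat_lit 323) (nat_lit 235)))) (XT.nd (nat_lit 156) (nat_lit 304) (nat_lit 0) (XT.nd (nat_lit 78) (nat_lit 76) (nat_lit 0) (XT.lf (nat_lit 0) (nat_lit 19325596810) (nat_lit 152) (nat_lit 32608634225) (nat_lit 228) (nat_lit 5696902424) (nat_lit 33) (nat_lit 5) (nat_lit 35) (nat_lit 5) (nat_lit 36) (nat_lit 5) (nat_lit 343) (nat_lit 323) (nat_lit 234)) (XT.lf (nat_lit 0) (nat_lit 5304846589) (nat_lit 228) (nat_lit 7424926788) (nat_lit 76) (nat_lit 47823204449) (nat_lit 32) (nat_lit 5) (nat_lit 35) (nat_lit 5) (nat_lit 33) (nat_lit 5) (nat_lit 344) (nat_lit 323) (nat_lit 233))) (XT.nd (nat_lit 78) (nat_lit 152) (nat_lit 0) (XT.lf (nat_lit 0) (nat_lit 17759074642) (nat_lit 228) (nat_lit 36745377115)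 (nat_lit 76) (nat_lit 9121873398) (nat_lit 30) (nat_lit 5) (nat_lit 33) (nat_lit 5) (nat_lit 31) (nat_lit 5) (nat_lit 345) (nat_lit 323) (nat_lit 232)) (XT.nd (nat_lit 78) (nat_lit 152) (nat_lit 0) (XT.lf (nat_lit 0) (nat_lit 31745356127) (nat_lit 228) (nat_lit 2916725289) (nat_lit 76) (nat_lit 32240604158) (nat_lit 30) (nat_lit 5) (nat_lit 33) (nat_lit 5) (nat_lit 31) (nat_lit 5) (nat_lit 346) (nat_lit 323) (nat_lit 231)) (XT.lf (nat_lit 0) (nat_lit 35383558290) (nat_lit 152) (nat_lit 12314983253) (nat_lit 228) (nat_lit 22674775503) (nat_lit 28) (nat_lit 5) (nat_lit 30) (nat_lit 5) (nat_lit 31) (nat_lit 5) (nat_lit 347) (nat_lit 323) (nat_lit 230)))))) (XT.nd (nat_lit 312) (nat_lit 380) (nat_lit 0) (XT.nd (nat_lit 156) (nat_lit 152) (nat_lit 0) (XT.nd (nat_lit 78) (nat_lit 76) (nat_lit 0) (XT.lf (nat_lit 0) (nat_lit 2639457904) (nat_lit 76) (nat_lit 62715186513) (nat_lit 152) (nat_lit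 8732823768) (nat_lit 27) (nat_lit 5) (nat_lit 28) (nat_lit 5) (nat_lit 29) (nat_lit 4) (nat_lit 348) (nat_lit 323) (nat_lit 229)) (XT.lf (nat_lit 0) (nat_lit 7306632603) (nat_lit 152) (nat_lit 33254922466) (nat_lit 76) (nat_lit 37421147891) (nat_lit 26) (nat_lit 5) (nat_lit 28) (nat_lit 5) (nat_lit 27) (nat_lit 5) (nat_lit 349) (nat_lit 323) (nat_lit 228))) (XT.nd (nat_lit 78) (nat_lit 0) (nat_lit 0) (XT.lf (nat_lit 0) (nat_lit 8171098789) (nat_lit 152) (nat_lit 16180199744) (nat_lit 228) (nat_lit 57804605382) (nat_lit 24) (nat_lit 5) (nat_lit 26) (nat_lit 5) (nat_lit 27) (nat_lit 5) (nat_lit 350) (nat_lit 323) (nat_lit 227)) (XT.lf (nat_lit 0) (nat_lit 43933939053) (nat_lit 228) (nat_lit 32060038011) (nat_lit 76) (nat_lit 10575033365) (nat_lit 24) (nat_lit 5) (nat_lit 27) (nat_lit 5) (nat_lit 25) (nat_lit 4) (nat_lit 351) (nat_lit 323) (nat_lit 226)))) (XT.nd (nat_lit 156) (nat_lit 304)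 (nat_lit 0) (XT.nd (nat_lit 78) (nat_lit 0) (nat_lit 0) (XT.lf (nat_lit 0) (nat_lit 13468011714) (nat_lit 76) (nat_lit 52356931693) (nat_lit 152) (nat_lit 25450883318) (nat_lit 23) (nat_lit 5) (nat_lit 24) (nat_lit 5) (nat_lit 25) (nat_lit 4) (nat_lit 352) (nat_lit 323) (nat_lit 225)) (XT.lf (nat_lit 0) (nat_lit 64457535139) (nat_lit 76) (nat_lit 25883934546) (nat_lit 152) (nat_lit 5947780675) (nat_lit 23) (nat_lit 5) (nat_lit 24) (nat_lit 5) (nat_lit 25) (nat_lit 4) (nat_lit 353) (nat_lit 323) (nat_lit 224))) (XT.nd (nat_lit 78) (nat_lit 76) (nat_lit 0) (XT.lf (nat_lit 0) (nat_lit 14885089360) (nat_lit 228) (nat_lit 83351249028) (nat_lit 76) (nat_lit 3396275380) (nat_lit 20) (nat_lit 5) (nat_lit 23) (nat_lit 5) (nat_lit 21) (nat_lit 4) (nat_lit 354) (nat_lit 323) (nat_lit 223)) (XT.nd (nat_lit 78) (nat_lit 76) (nat_lit 0) (XT.lf (nat_lit 0) (nat_lit 38626319658) (nat_lit 228) (nat_lit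 33973341074) (nat_lit 76) (nat_lit 34666382348) (nat_lit 20) (nat_lit 5) (nat_lit 23) (nat_lit 5) (nat_lit 21) (nat_lit 4) (nat_lit 355) (nat_lit 323) (nat_lit 222)) (XT.lf (nat_lit 0) (nat_lit 20370181161) (nat_lit 76) (nat_lit 44384546206) (nat_lit 152) (nat_lit 48556390050) (nat_lit 19) (nat_lit 5) (nat_lit 20) (nat_lit 5) (nat_lit 21) (nat_lit 4) (nat_lit 356) (nat_lit 323) (nat_lit 221))))))))
noncomputable def xc163 : XT := (XT.nd (nat_lit 1404) (nat_lit 456) (nat_lit 0) (XT.nd (nat_lit 702) (nat_lit 304) (nat_lit 0) (XT.nd (nat_lit 312) (nat_lit 228) (nat_lit 0) (XT.nd (nat_lit 156) (nat_lit 152) (nat_lit 0) (XT.nd (nat_lit 78) (nat_lit 76) (nat_lit 0) (XT.lf (nat_lit 0) (nat_lit 80989753446) (nat_lit 76) (nat_lit 12910586398) (nat_lit 152) (nat_lit 25865304211) (nat_lit 19) (nat_lit 5) (nat_lit 20) (nat_lit 5) (nat_lit 21) (nat_lit 4) (nat_lit 357) (nat_lit 323) (nat_lit 220))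 (XT.lf (nat_lit 0) (nat_lit 20223646169) (nat_lit 76) (nat_lit 106145490906) (nat_lit 76) (nat_lit 288073747) (nat_lit 18) (nat_lit 4) (nat_lit 19) (nat_lit 5) (nat_lit 19) (nat_lit 4) (nat_lit 358) (nat_lit 323) (nat_lit 219))) (XT.nd (nat_lit 78) (nat_lit 76) (nat_lit 0) (XT.lf (nat_lit 0) (nat_lit 27389151750) (nat_lit 152) (nat_lit 48890602487) (nat_lit 76) (nat_lit 57654056927) (nat_lit 17) (nat_lit 5) (nat_lit 19) (nat_lit 5) (nat_lit 18) (nat_lit 4) (nat_lit 359) (nat_lit 323) (nat_lit 218)) (XT.lf (nat_lit 0) (nat_lit 13942644977) (nat_lit 76) (nat_lit 43655965566) (nat_lit 152) (nat_lit 84166641580) (nat_lit 16) (nat_lit 5) (nat_lit 17) (nat_lit 5) (nat_lit 18) (nat_lit 4) (nat_lit 360) (nat_lit 323) (nat_lit 217)))) (XT.nd (nat_lit 156) (nat_lit 152) (nat_lit 0) (XT.nd (nat_lit 78) (nat_lit 76) (nat_lit 0) (XT.lf (nat_lit 0) (nat_lit 84579946728) (nat_lit 76) (nat_lit 6979985358)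 (nat_lit 152) (nat_lit 58556468419) (nat_lit 16) (nat_lit 5) (nat_lit 17) (nat_lit 5) (nat_lit 18) (nat_lit 4) (nat_lit 361) (nat_lit 323) (nat_lit 216)) (XT.lf (nat_lit 0) (nat_lit 994673031) (nat_lit 76) (nat_lit 128050603462) (nat_lit 76) (nat_lit 30025795477) (nat_lit 15) (nat_lit 4) (nat_lit 16) (nat_lit 5) (nat_lit 16) (nat_lit 4) (nat_lit 362) (nat_lit 323) (nat_lit 215))) (XT.nd (nat_lit 78) (nat_lit 76) (nat_lit 0) (XT.lf (nat_lit 0) (nat_lit 2766117682) (nat_lit 152) (nat_lit 92273066994) (nat_lit 76) (nat_lit 73539964399) (nat_lit 14) (nat_lit 5) (nat_lit 16) (nat_lit 5) (nat_lit 15) (nat_lit 4) (nat_lit 363) (nat_lit 323) (nat_lit 214)) (XT.nd (nat_lit 78) (nat_lit 76) (nat_lit 0) (XT.lf (nat_lit 0) (nat_lit 36557774349) (nat_lit 152) (nat_lit 21988072782) (nat_lit 76) (nat_lit 120239749353) (nat_lit 14) (nat_lit 5) (nat_lit 16) (nat_lit 5) (nat_lit 15) (nat_lit 4) (nat_lit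 364) (nat_lit 323) (nat_lit 213)) (XT.lf (nat_lit 0) (nat_lit 56756393116) (nat_lit 76) (nat_lit 17660032775) (nat_lit 152) (nat_lit 115283041235) (nat_lit 13) (nat_lit 5) (nat_lit 14) (nat_lit 5) (nat_lit 15) (nat_lit 4) (nat_lit 365) (nat_lit 323) (nat_lit 212)))))) (XT.nd (nat_lit 312) (nat_lit 152) (nat_lit 0) (XT.nd (nat_lit 156) (nat_lit 76) (nat_lit 0) (XT.nd (nat_lit 78) (nat_lit 76) (nat_lit 0) (XT.lf (nat_lit 0) (nat_lit 116556504336) (nat_lit 152) (nat_lit 59042839594) (nat_lit 0) (nat_lit 25786885105) (nat_lit 13) (nat_lit 5) (nat_lit 15) (nat_lit 4) (nat_lit 13) (nat_lit 4) (nat_lit 366) (nat_lit 323) (nat_lit 211)) (XT.lf (nat_lit 0) (nat_lit 21377776728) (nat_lit 76) (nat_lit 141661629697) (nat_lit 76) (nat_lit 50890796451) (nat_lit 12) (nat_lit 4) (nat_lit 13) (nat_lit 5) (nat_lit 13) (nat_lit 4) (nat_lit 367) (nat_lit 323) (nat_lit 210))) (XT.nd (nat_lit 78) (nat_lit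 76) (nat_lit 0) (XT.lf (nat_lit 0) (nat_lit 111587582473) (nat_lit 76) (nat_lit 103266508886) (nat_lit 76) (nat_lit 12494551550) (nat_lit 12) (nat_lit 4) (nat_lit 13) (nat_lit 5) (nat_lit 13) (nat_lit 4) (nat_lit 368) (nat_lit 323) (nat_lit 209)) (XT.lf (nat_lit 0) (nat_lit 27522900282) (nat_lit 152) (nat_lit 33525365571) (nat_lit 76) (nat_lit 180736637817) (nat_lit 11) (nat_lit 5) (nat_lit 13) (nat_lit 5) (nat_lit 12) (nat_lit 4) (nat_lit 369) (nat_lit 323) (nat_lit 208)))) (XT.nd (nat_lit 156) (nat_lit 76) (nat_lit 0) (XT.nd (nat_lit 78) (nat_lit 0) (nat_lit 0) (XT.lf (nat_lit 0) (nat_lit 57856877810) (nat_lit 76) (nat_lit 13600256658) (nat_lit 152) (nat_lit 185781735067) (nat_lit 10) (nat_lit 5) (nat_lit 11) (nat_lit 5) (nat_lit 12) (nat_lit 4) (nat_lit 370) (nat_lit 323) (nat_lit 207)) (XT.lf (nat_lit 0) (nat_lit 120750853174) (nat_lit 152) (nat_lit 116330657855) (nat_lit 0) (nat_lit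 36700062227) (nat_lit 10) (nat_lit 5) (nat_lit 12) (nat_lit 4) (nat_lit 10) (nat_lit 4) (nat_lit 371) (nat_lit 323) (nat_lit 206))) (XT.nd (nat_lit 78) (nat_lit 76) (nat_lit 0) (XT.lf (nat_lit 0) (nat_lit 174340364138) (nat_lit 152) (nat_lit 26990337633) (nat_lit 0) (nat_lit 90288808155) (nat_lit 10) (nat_lit 5) (nat_lit 12) (nat_lit 4) (nat_lit 10) (nat_lit 4) (nat_lit 372) (nat_lit 323) (nat_lit 205)) (XT.nd (nat_lit 78) (nat_lit 0) (nat_lit 0) (XT.lf (nat_lit 0) (nat_lit 73154988354) (nat_lit 76) (nat_lit 160820539207) (nat_lit 76) (nat_lit 76768274857) (nat_lit 9) (nat_lit 4) (nat_lit 10) (nat_lit 5) (nat_lit 10) (nat_lit 4) (nat_lit 373) (nat_lit 323) (nat_lit 204)) (XT.lf (nat_lit 0) (nat_lit 182845219953) (nat_lit 76) (nat_lit 116273385351) (nat_lit 76) (nat_lit 32220465105) (nat_lit 9) (nat_lit 4) (nat_lit 10) (nat_lit 5) (nat_lit 10) (nat_lit 4) (nat_lit 374) (nat_lit 323) (nat_lit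 203))))))) (XT.nd (nat_lit 702) (nat_lit 228) (nat_lit 0) (XT.nd (nat_lit 312) (nat_lit 76) (nat_lit 0) (XT.nd (nat_lit 156) (nat_lit 0) (nat_lit 0) (XT.nd (nat_lit 78) (nat_lit 76) (nat_lit 0) (XT.lf (nat_lit 0) (nat_lit 15095409322) (nat_lit 152) (nat_lit 52655076165) (nat_lit 76) (nat_lit 285800965437) (nat_lit 8) (nat_lit 5) (nat_lit 10) (nat_lit 5) (nat_lit 9) (nat_lit 4) (nat_lit 375) (nat_lit 323) (nat_lit 202)) (XT.lf (nat_lit 0) (nat_lit 52645985662) (nat_lit 76) (nat_lit 13075204502) (nat_lit 152) (nat_lit 311651449980) (nat_lit 7) (nat_lit 5) (nat_lit 8) (nat_lit 5) (nat_lit 9) (nat_lit 4) (nat_lit 376) (nat_lit 323) (nat_lit 201))) (XT.nd (nat_lit 78) (nat_lit 0) (nat_lit 0) (XT.lf (nat_lit 0) (nat_lit 122979034705) (nat_lit 152) (nat_lit 234763238242) (nat_lit 0) (nat_lit 45150691602) (nat_lit 7) (nat_lit 5) (nat_lit 9) (nat_lit 4) (nat_lit 7) (nat_lit 4) (nat_lit 377) (nat_lit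 323) (nat_lit 200)) (XT.lf (nat_lit 0) (nat_lit 185156423978) (nat_lit 152) (nat_lit 137943743209) (nat_lit 0) (nat_lit 107327634484) (nat_lit 7) (nat_lit 5) (nat_lit 9) (nat_lit 4) (nat_lit 7) (nat_lit 4) (nat_lit 378) (nat_lit 323) (nat_lit 199)))) (XT.nd (nat_lit 156) (nat_lit 0) (nat_lit 0) (XT.nd (nat_lit 78) (nat_lit 76) (nat_lit 0) (XT.lf (nat_lit 0) (nat_lit 252307357602) (nat_lit 152) (nat_lit 33379965243) (nat_lit 0) (nat_lit 174478154782) (nat_lit 7) (nat_lit 5) (nat_lit 9) (nat_lit 4) (nat_lit 7) (nat_lit 4) (nat_lit 379) (nat_lit 323) (nat_lit 198)) (XT.lf (nat_lit 0) (nat_lit 83736575497) (nat_lit 76) (nat_lit 243107058194) (nat_lit 76) (nat_lit 165277472666) (nat_lit 6) (nat_lit 4) (nat_lit 7) (nat_lit 5) (nat_lit 7) (nat_lit 4) (nat_lit 380) (nat_lit 323) (nat_lit 197))) (XT.nd (nat_lit 78) (nat_lit 0) (nat_lit 0) (XT.lf (nat_lit 0) (nat_lit 212119635521) (nat_lit 76)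 (nat_lit 196135261521) (nat_lit 76) (nat_lit 118305321633) (nat_lit 6) (nat_lit 4) (nat_lit 7) (nat_lit 5) (nat_lit 7) (nat_lit 4) (nat_lit 381) (nat_lit 323) (nat_lit 196)) (XT.nd (nat_lit 78) (nat_lit 0) (nat_lit 0) (XT.lf (nat_lit 0) (nat_lit 350772273518) (nat_lit 76) (nat_lit 145406248845) (nat_lit 76) (nat_lit 67575980846) (nat_lit 6) (nat_lit 4) (nat_lit 7) (nat_lit 5) (nat_lit 7) (nat_lit 4) (nat_lit 382) (nat_lit 323) (nat_lit 195)) (XT.lf (nat_lit 0) (nat_lit 500516134749) (nat_lit 76) (nat_lit 90619403793) (nat_lit 76) (nat_lit 12788831988) (nat_lit 6) (nat_lit 4) (nat_lit 7) (nat_lit 5) (nat_lit 7) (nat_lit 4) (nat_lit 383) (nat_lit 323) (nat_lit 194)))))) (XT.nd (nat_lit 312) (nat_lit 76) (nat_lit 0) (XT.nd (nat_lit 156) (nat_lit 0) (nat_lit 0) (XT.nd (nat_lit 78) (nat_lit 0) (nat_lit 0) (XT.lf (nat_lit 0) (nat_lit 14542754311) (nat_lit 76) (nat_lit 29867633870) (nat_lit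 152) (nat_lit 602780259100) (nat_lit 4) (nat_lit 5) (nat_lit 5) (nat_lit 5) (nat_lit 6) (nat_lit 4) (nat_lit 384) (nat_lit 323) (nat_lit 193)) (XT.lf (nat_lit 0) (nat_lit 109254597947) (nat_lit 152) (nat_lit 547147503569) (nat_lit 0) (nat_lit 37188752047) (nat_lit 4) (nat_lit 5) (nat_lit 6) (nat_lit 4) (nat_lit 4) (nat_lit 4) (nat_lit 385) (nat_lit 323) (nat_lit 192))) (XT.nd (nat_lit 78) (nat_lit 0) (nat_lit 0) (XT.lf (nat_lit 0) (nat_lit 180061690054) (nat_lit 152) (nat_lit 455583737870) (nat_lit 0) (nat_lit 107995620846) (nat_lit 4) (nat_lit 5) (nat_lit 6) (nat_lit 4) (nat_lit 4) (nat_lit 4) (nat_lit 386) (nat_lit 323) (nat_lit 191)) (XT.lf (nat_lit 0) (nat_lit 256532944771) (nat_lit 152) (nat_lit 356695678468) (nat_lit 0) (nat_lit 184466668798) (nat_lit 4) (nat_lit 5) (nat_lit 6) (nat_lit 4) (nat_lit 4) (nat_lit 4) (nat_lit 387) (nat_lit 323) (nat_lit 190)))) (XT.nd (nat_lit 156)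 (nat_lit 76) (nat_lit 0) (XT.nd (nat_lit 78) (nat_lit 0) (nat_lit 0) (XT.lf (nat_lit 0) (nat_lit 339121525090) (nat_lit 152) (nat_lit 249897322047) (nat_lit 0) (nat_lit 267055057668) (nat_lit 4) (nat_lit 5) (nat_lit 6) (nat_lit 4) (nat_lit 4) (nat_lit 4) (nat_lit 388) (nat_lit 323) (nat_lit 189)) (XT.lf (nat_lit 0) (nat_lit 428316844821) (nat_lit 152) (nat_lit 134555789458) (nat_lit 0) (nat_lit 356250200130) (nat_lit 4) (nat_lit 5) (nat_lit 6) (nat_lit 4) (nat_lit 4) (nat_lit 4) (nat_lit 389) (nat_lit 323) (nat_lit 188))) (XT.nd (nat_lit 78) (nat_lit 76) (nat_lit 0) (XT.lf (nat_lit 0) (nat_lit 524647468820) (nat_lit 152) (nat_lit 9987575324) (nat_lit 0) (nat_lit 452580659992) (nat_lit 4) (nat_lit 5) (nat_lit 6) (nat_lit 4) (nat_lit 4) (nat_lit 4) (nat_lit 390) (nat_lit 323) (nat_lit 187)) (XT.nd (nat_lit 78) (nat_lit 0) (nat_lit 0) (XT.lf (nat_lit 0) (nat_lit 131103847806) (nat_lit 76)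 (nat_lit 500733448116) (nat_lit 76) (nat_lit 428666487310) (nat_lit 3) (nat_lit 4) (nat_lit 4) (nat_lit 5) (nat_lit 4) (nat_lit 4) (nat_lit 391) (nat_lit 323) (nat_lit 186)) (XT.lf (nat_lit 0) (nat_lit 284050008498) (nat_lit 76) (nat_lit 463825089320) (nat_lit 76) (nat_lit 391757987792) (nat_lit 3) (nat_lit 4) (nat_lit 4) (nat_lit 5) (nat_lit 4) (nat_lit 4) (nat_lit 392) (nat_lit 323) (nat_lit 185))))))))
noncomputable def xc164 : XT := (XT.nd (nat_lit 1404) (nat_lit 0) (nat_lit 0) (XT.nd (nat_lit 702) (nat_lit 0) (nat_lit 0) (XT.nd (nat_lit 312) (nat_lit 152) (nat_lit 0) (XT.nd (nat_lit 156) (nat_lit 0) (nat_lit 0) (XT.nd (nat_lit 78) (nat_lit 0) (nat_lit 0) (XT.lf (nat_lit 0) (nat_lit 449231326352) (nat_lit 76) (nat_lit 423964329562) (nat_lit 76) (nat_lit 351897097737) (nat_lit 3) (nat_lit 4) (nat_lit 4) (nat_lit 5) (nat_lit 4) (nat_lit 4) (nat_lit 393) (nat_lit 323) (nat_lit 184))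 (XT.lf (nat_lit 0) (nat_lit 627626653623) (nat_lit 76) (nat_lit 380914956935) (nat_lit 76) (nat_lit 308847604464) (nat_lit 3) (nat_lit 4) (nat_lit 4) (nat_lit 5) (nat_lit 4) (nat_lit 4) (nat_lit 394) (nat_lit 323) (nat_lit 183))) (XT.nd (nat_lit 78) (nat_lit 0) (nat_lit 0) (XT.lf (nat_lit 0) (nat_lit 820293147806) (nat_lit 76) (nat_lit 334421864044) (nat_lit 76) (nat_lit 262354399864) (nat_lit 3) (nat_lit 4) (nat_lit 4) (nat_lit 5) (nat_lit 4) (nat_lit 4) (nat_lit 395) (nat_lit 323) (nat_lit 182)) (XT.lf (nat_lit 0) (nat_lit 1028372536274) (nat_lit 76) (nat_lit 284209536265) (nat_lit 76) (nat_lit 212141968651) (nat_lit 3) (nat_lit 4) (nat_lit 4) (nat_lit 5) (nat_lit 4) (nat_lit 4) (nat_lit 396) (nat_lit 323) (nat_lit 181)))) (XT.nd (nat_lit 156) (nat_lit 152) (nat_lit 0) (XT.nd (nat_lit 78) (nat_lit 0) (nat_lit 0) (XT.lf (nat_lit 0) (nat_lit 1253097882068) (nat_lit 76) (nat_lit 229980419063)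 (nat_lit 76) (nat_lit 157912755677) (nat_lit 3) (nat_lit 4) (nat_lit 4) (nat_lit 5) (nat_lit 4) (nat_lit 4) (nat_lit 397) (nat_lit 323) (nat_lit 180)) (XT.lf (nat_lit 0) (nat_lit 1495800890943) (nat_lit 76) (nat_lit 171413154706) (nat_lit 76) (nat_lit 99345402642) (nat_lit 3) (nat_lit 4) (nat_lit 4) (nat_lit 5) (nat_lit 4) (nat_lit 4) (nat_lit 398) (nat_lit 323) (nat_lit 179))) (XT.nd (nat_lit 78) (nat_lit 152) (nat_lit 0) (XT.lf (nat_lit 0) (nat_lit 1757919802951) (nat_lit 76) (nat_lit 108160677925) (nat_lit 76) (nat_lit 36092843751) (nat_lit 3) (nat_lit 4) (nat_lit 4) (nat_lit 5) (nat_lit 4) (nat_lit 4) (nat_lit 399) (nat_lit 323) (nat_lit 178)) (XT.nd (nat_lit 78) (nat_lit 76) (nat_lit 0) (XT.lf (nat_lit 0) (nat_lit 30607988539) (nat_lit 152) (nat_lit 8403294039) (nat_lit 76) (nat_lit 2009563050159) (nat_lit 2) (nat_lit 5) (nat_lit 4) (nat_lit 5) (nat_lit 3) (nat_lit 4) (nat_lit 400)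 (nat_lit 323) (nat_lit 177)) (XT.lf (nat_lit 0) (nat_lit 105145238589) (nat_lit 152) (nat_lit 2062695533707) (nat_lit 0) (nat_lit 38415626925) (nat_lit 1) (nat_lit 5) (nat_lit 3) (nat_lit 4) (nat_lit 1) (nat_lit 4) (nat_lit 401) (nat_lit 323) (nat_lit 176)))))) (XT.nd (nat_lit 312) (nat_lit 0) (nat_lit 0) (XT.nd (nat_lit 156) (nat_lit 0) (nat_lit 0) (XT.nd (nat_lit 78) (nat_lit 0) (nat_lit 0) (XT.lf (nat_lit 0) (nat_lit 186894329476) (nat_lit 152) (nat_lit 2069394135242) (nat_lit 0) (nat_lit 120164657459) (nat_lit 1) (nat_lit 5) (nat_lit 3) (nat_lit 4) (nat_lit 1) (nat_lit 4) (nat_lit 402) (nat_lit 323) (nat_lit 175)) (XT.lf (nat_lit 0) (nat_lit 275183210594) (nat_lit 152) (nat_lit 2076628900659) (nat_lit 0) (nat_lit 208453482695) (nat_lit 1) (nat_lit 5) (nat_lit 3) (nat_lit 4) (nat_lit 1) (nat_lit 4) (nat_lit 403) (nat_lit 323) (nat_lit 174))) (XT.nd (nat_lit 78) (nat_lit 0) (nat_lit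 0) (XT.lf (nat_lit 0) (nat_lit 370535075313) (nat_lit 152) (nat_lit 2084442702644) (nat_lit 0) (nat_lit 303805295671) (nat_lit 1) (nat_lit 5) (nat_lit 3) (nat_lit 4) (nat_lit 1) (nat_lit 4) (nat_lit 404) (nat_lit 323) (nat_lit 173)) (XT.lf (nat_lit 0) (nat_lit 473514971720) (nat_lit 152) (nat_lit 2092881845206) (nat_lit 0) (nat_lit 406785144168) (nat_lit 1) (nat_lit 5) (nat_lit 3) (nat_lit 4) (nat_lit 1) (nat_lit 4) (nat_lit 405) (nat_lit 323) (nat_lit 172)))) (XT.nd (nat_lit 156) (nat_lit 0) (nat_lit 0) (XT.nd (nat_lit 78) (nat_lit 0) (nat_lit 0) (XT.lf (nat_lit 0) (nat_lit 584733151054) (nat_lit 152) (nat_lit 2101996338082) (nat_lit 0) (nat_lit 518003279141) (nat_lit 1) (nat_lit 5) (nat_lit 3) (nat_lit 4) (nat_lit 1) (nat_lit 4) (nat_lit 406) (nat_lit 323) (nat_lit 171)) (XT.lf (nat_lit 0) (nat_lit 704848684007) (nat_lit 152) (nat_lit 2111840193078) (nat_lit 0) (nat_lit 638118771018)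 (nat_lit 1) (nat_lit 5) (nat_lit 3) (nat_lit 4) (nat_lit 1) (nat_lit 4) (nat_lit 407) (nat_lit 323) (nat_lit 170))) (XT.nd (nat_lit 78) (nat_lit 0) (nat_lit 0) (XT.lf (nat_lit 0) (nat_lit 834573366329) (nat_lit 152) (nat_lit 2122471744153) (nat_lit 0) (nat_lit 767843415308) (nat_lit 1) (nat_lit 5) (nat_lit 3) (nat_lit 4) (nat_lit 1) (nat_lit 4) (nat_lit 408) (nat_lit 323) (nat_lit 169)) (XT.nd (nat_lit 78) (nat_lit 0) (nat_lit 0) (XT.lf (nat_lit 0) (nat_lit 974675936879) (nat_lit 152) (nat_lit 2133953993088) (nat_lit 0) (nat_lit 907945950642) (nat_lit 1) (nat_lit 5) (nat_lit 3) (nat_lit 4) (nat_lit 1) (nat_lit 4) (nat_lit 409) (nat_lit 323) (nat_lit 168)) (XT.lf (nat_lit 0) (nat_lit 1125986633111) (nat_lit 152) (nat_lit 2146354982842) (nat_lit 0) (nat_lit 1059256614268) (nat_lit 1) (nat_lit 5) (nat_lit 3) (nat_lit 4) (nat_lit 1) (nat_lit 4) (nat_lit 410) (nat_lit 323) (nat_lit 167)))))))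 (XT.nd (nat_lit 40560) (nat_lit 0) (nat_lit 3040) (XT.nd (nat_lit 40170) (nat_lit 0) (nat_lit 4332) (XT.nd (nat_lit 156) (nat_lit 0) (nat_lit 0) (XT.nd (nat_lit 78) (nat_lit 0) (nat_lit 0) (XT.lf (nat_lit 0) (nat_lit 1289402111005) (nat_lit 152) (nat_lit 2159748200761) (nat_lit 0) (nat_lit 1222672061970) (nat_lit 1) (nat_lit 5) (nat_lit 3) (nat_lit 4) (nat_lit 1) (nat_lit 4) (nat_lit 411) (nat_lit 323) (nat_lit 166)) (XT.lf (nat_lit 0) (nat_lit 1465890758575) (nat_lit 152) (nat_lit 2174213014062) (nat_lit 0) (nat_lit 1399160681586) (nat_lit 1) (nat_lit 5) (nat_lit 3) (nat_lit 4) (nat_lit 1) (nat_lit 4) (nat_lit 412) (nat_lit 323) (nat_lit 165))) (XT.nd (nat_lit 39936) (nat_lit 0) (nat_lit 4332) (XT.lf (nat_lit 0) (nat_lit 1656498434476) (nat_lit 152) (nat_lit 2189835140157) (nat_lit 0) (nat_lit 1589768331602) (nat_lit 1) (nat_lit 5) (nat_lit 3) (nat_lit 4) (nat_lit 1) (nat_lit 4) (nat_lit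 413) (nat_lit 323) (nat_lit 164)) (XT.lf (nat_lit 0) (nat_lit 10084485592) (nat_lit 532) (nat_lit 1429140580) (nat_lit 532) (nat_lit 1429140580) (nat_lit 58) (nat_lit 3) (nat_lit 65) (nat_lit 3) (nat_lit 65) (nat_lit 5) (nat_lit 324) (nat_lit 324) (nat_lit 252)))) (XT.nd (nat_lit 156) (nat_lit 0) (nat_lit 76) (XT.nd (nat_lit 78) (nat_lit 0) (nat_lit 76) (XT.lf (nat_lit 76) (nat_lit 10019033274) (nat_lit 0) (nat_lit 11288910928) (nat_lit 532) (nat_lit 5586296685) (nat_lit 59) (nat_lit 5) (nat_lit 58) (nat_lit 3) (nat_lit 65) (nat_lit 5) (nat_lit 325) (nat_lit 324) (nat_lit 251)) (XT.lf (nat_lit 0) (nat_lit 22642451419) (nat_lit 456) (nat_lit 3929778969) (nat_lit 532) (nat_lit 1403074850) (nat_lit 59) (nat_lit 5) (nat_lit 65) (nat_lit 5) (nat_lit 66) (nat_lit 5) (nat_lit 326) (nat_lit 324) (nat_lit 250))) (XT.nd (nat_lit 78) (nat_lit 0) (nat_lit 0) (XT.lf (nat_lit 76) (nat_lit 10266012362)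 (nat_lit 0) (nat_lit 14349344086) (nat_lit 532) (nat_lit 4484979985) (nat_lit 60) (nat_lit 5) (nat_lit 59) (nat_lit 5) (nat_lit 66) (nat_lit 5) (nat_lit 327) (nat_lit 324) (nat_lit 249)) (XT.nd (nat_lit 78) (nat_lit 0) (nat_lit 76) (XT.lf (nat_lit 76) (nat_lit 25815498144) (nat_lit 0) (nat_lit 1030060574) (nat_lit 532) (nat_lit 3461865954) (nat_lit 60) (nat_lit 5) (nat_lit 59) (nat_lit 5) (nat_lit 66) (nat_lit 5) (nat_lit 328) (nat_lit 324) (nat_lit 248)) (XT.lf (nat_lit 76) (nat_lit 11232881775) (nat_lit 0) (nat_lit 18605294098) (nat_lit 532) (nat_lit 1726195070) (nat_lit 61) (nat_lit 5) (nat_lit 60) (nat_lit 5) (nat_lit 67) (nat_lit 5) (nat_lit 329) (nat_lit 324) (nat_lit 247)))))) (XT.nd (nat_lit 312) (nat_lit 608) (nat_lit 0) (XT.nd (nat_lit 156) (nat_lit 304) (nat_lit 0) (XT.nd (nat_lit 78) (nat_lit 0) (nat_lit 76) (XT.lf (nat_lit 0) (nat_lit 286556708) (nat_lit 532) (nat_lit 4480377345)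 (nat_lit 608) (nat_lit 28143011011) (nat_lit 53) (nat_lit 5) (nat_lit 60) (nat_lit 5) (nat_lit 61) (nat_lit 5) (nat_lit 330) (nat_lit 324) (nat_lit 246)) (XT.lf (nat_lit 0) (nat_lit 2933438353) (nat_lit 532) (nat_lit 21337516807) (nat_lit 76) (nat_lit 10043322155) (nat_lit 54) (nat_lit 5) (nat_lit 61) (nat_lit 5) (nat_lit 55) (nat_lit 5) (nat_lit 331) (nat_lit 324) (nat_lit 245))) (XT.nd (nat_lit 78) (nat_lit 380) (nat_lit 0) (XT.lf (nat_lit 0) (nat_lit 6035361904) (nat_lit 532) (nat_lit 3868780621) (nat_lit 76) (nat_lit 25907358298) (nat_lit 54) (nat_lit 5) (nat_lit 61) (nat_lit 5) (nat_lit 55) (nat_lit 5) (nat_lit 332) (nat_lit 324) (nat_lit 244)) (XT.lf (nat_lit 0) (nat_lit 9904069219) (nat_lit 456) (nat_lit 21761995766) (nat_lit 76) (nat_lit 5720954233) (nat_lit 49) (nat_lit 5) (nat_lit 55) (nat_lit 5) (nat_lit 50) (nat_lit 5) (nat_lit 333) (nat_lit 324) (nat_lit 243)))) (XT.nd (nat_lit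 156) (nat_lit 380) (nat_lit 0) (XT.nd (nat_lit 78) (nat_lit 228) (nat_lit 0) (XT.lf (nat_lit 0) (nat_lit 14442602731) (nat_lit 456) (nat_lit 2447531316) (nat_lit 76) (nat_lit 22169625517) (nat_lit 49) (nat_lit 5) (nat_lit 55) (nat_lit 5) (nat_lit 50) (nat_lit 5) (nat_lit 334) (nat_lit 324) (nat_lit 242)) (XT.lf (nat_lit 0) (nat_lit 19376014954) (nat_lit 228) (nat_lit 429153450) (nat_lit 304) (nat_lit 21024281116) (nat_lit 46) (nat_lit 5) (nat_lit 49) (nat_lit 5) (nat_lit 50) (nat_lit 5) (nat_lit 335) (nat_lit 324) (nat_lit 241))) (XT.nd (nat_lit 78) (nat_lit 380) (nat_lit 0) (XT.lf (nat_lit 0) (nat_lit 26077828522) (nat_lit 304) (nat_lit 75284325) (nat_lit 76) (nat_lit 16549120560) (nat_lit 46) (nat_lit 5) (nat_lit 50) (nat_lit 5) (nat_lit 47) (nat_lit 5) (nat_lit 336) (nat_lit 324) (nat_lit 240)) (XT.nd (nat_lit 78) (nat_lit 152) (nat_lit 0) (XT.lf (nat_lit 0) (nat_lit 24207769081) (nat_lit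 228) (nat_lit 9233426996) (nat_lit 304) (nat_lit 11236537796) (nat_lit 43) (nat_lit 5) (nat_lit 46) (nat_lit 5) (nat_lit 47) (nat_lit 5) (nat_lit 337) (nat_lit 324) (nat_lit 239)) (XT.lf (nat_lit 0) (nat_lit 3583048668) (nat_lit 152) (nat_lit 38112016320) (nat_lit 228) (nat_lit 5092099863) (nat_lit 41) (nat_lit 5) (nat_lit 43) (nat_lit 5) (nat_lit 44) (nat_lit 5) (nat_lit 338) (nat_lit 324) (nat_lit 238))))))))
noncomputable def xc165 : XT := (XT.nd (nat_lit 1404) (nat_lit 836) (nat_lit 0) (XT.nd (nat_lit 702) (nat_lit 760) (nat_lit 0) (XT.nd (nat_lit 312) (nat_lit 380) (nat_lit 0) (XT.nd (nat_lit 156) (nat_lit 152) (nat_lit 0) (XT.nd (nat_lit 78) (nat_lit 228) (nat_lit 0) (XT.lf (nat_lit 0) (nat_lit 2276532064) (nat_lit 228) (nat_lit 18593079876) (nat_lit 76) (nat_lit 28127982571) (nat_lit 40) (nat_lit 5) (nat_lit 43) (nat_lit 5) (nat_lit 41) (nat_lit 5) (nat_lit 339) (nat_lit 324) (nat_lit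 237)) (XT.lf (nat_lit 0) (nat_lit 8262867814) (nat_lit 228) (nat_lit 1891532030) (nat_lit 304) (nat_lit 41204293633) (nat_lit 37) (nat_lit 5) (nat_lit 40) (nat_lit 5) (nat_lit 41) (nat_lit 5) (nat_lit 340) (nat_lit 324) (nat_lit 236))) (XT.nd (nat_lit 78) (nat_lit 152) (nat_lit 0) (XT.lf (nat_lit 0) (nat_lit 19627782685) (nat_lit 304) (nat_lit 16009158793) (nat_lit 76) (nat_lit 18194519730) (nat_lit 37) (nat_lit 5) (nat_lit 41) (nat_lit 5) (nat_lit 38) (nat_lit 5) (nat_lit 341) (nat_lit 324) (nat_lit 235)) (XT.lf (nat_lit 0) (nat_lit 13885089903) (nat_lit 152) (nat_lit 16353557937) (nat_lit 228) (nat_lit 26233037010) (nat_lit 35) (nat_lit 5) (nat_lit 37) (nat_lit 5) (nat_lit 38) (nat_lit 5) (nat_lit 342) (nat_lit 324) (nat_lit 234)))) (XT.nd (nat_lit 156) (nat_lit 228) (nat_lit 0) (XT.nd (nat_lit 78) (nat_lit 152) (nat_lit 0) (XT.lf (nat_lit 0) (nat_lit 42251688359) (nat_lit 228) (nat_lit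 12330630906) (nat_lit 76) (nat_lit 4696545796) (nat_lit 35) (nat_lit 5) (nat_lit 38) (nat_lit 5) (nat_lit 36) (nat_lit 5) (nat_lit 343) (nat_lit 324) (nat_lit 233)) (XT.lf (nat_lit 0) (nat_lit 20965251334) (nat_lit 152) (nat_lit 35186405562) (nat_lit 228) (nat_lit 6084894950) (nat_lit 33) (nat_lit 5) (nat_lit 35) (nat_lit 5) (nat_lit 36) (nat_lit 5) (nat_lit 344) (nat_lit 324) (nat_lit 232))) (XT.nd (nat_lit 78) (nat_lit 152) (nat_lit 0) (XT.lf (nat_lit 0) (nat_lit 5788836218) (nat_lit 228) (nat_lit 7929060332) (nat_lit 76) (nat_lit 51674502224) (nat_lit 32) (nat_lit 5) (nat_lit 35) (nat_lit 5) (nat_lit 33) (nat_lit 5) (nat_lit 345) (nat_lit 324) (nat_lit 231)) (XT.nd (nat_lit 78) (nat_lit 0) (nat_lit 0) (XT.lf (nat_lit 0) (nat_lit 19237822527) (nat_lit 228) (nat_lit 39593521209) (nat_lit 76) (nat_lit 9880400192) (nat_lit 30) (nat_lit 5) (nat_lit 33) (nat_lit 5) (nat_lit 31) (nat_lit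 5) (nat_lit 346) (nat_lit 324) (nat_lit 230)) (XT.lf (nat_lit 0) (nat_lit 34338708611) (nat_lit 228) (nat_lit 3065353984) (nat_lit 76) (nat_lit 34846497788) (nat_lit 30) (nat_lit 5) (nat_lit 33) (nat_lit 5) (nat_lit 31) (nat_lit 5) (nat_lit 347) (nat_lit 324) (nat_lit 229)))))) (XT.nd (nat_lit 312) (nat_lit 304) (nat_lit 0) (XT.nd (nat_lit 156) (nat_lit 228) (nat_lit 0) (XT.nd (nat_lit 78) (nat_lit 76) (nat_lit 0) (XT.lf (nat_lit 0) (nat_lit 38296807741) (nat_lit 152) (nat_lit 13269347249) (nat_lit 228) (nat_lit 24432850013) (nat_lit 28) (nat_lit 5) (nat_lit 30) (nat_lit 5) (nat_lit 31) (nat_lit 5) (nat_lit 348) (nat_lit 324) (nat_lit 228)) (XT.lf (nat_lit 0) (nat_lit 2934437926) (nat_lit 76) (nat_lit 67699178904) (nat_lit 152) (nat_lit 9376764632) (nat_lit 27) (nat_lit 5) (nat_lit 28) (nat_lit 5) (nat_lit 29) (nat_lit 4) (nat_lit 349) (nat_lit 324) (nat_lit 227))) (XT.nd (nat_lit 78)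 (nat_lit 152) (nat_lit 0) (XT.lf (nat_lit 0) (nat_lit 7939264573) (nat_lit 152) (nat_lit 35835138123) (nat_lit 76) (nat_lit 40443037434) (nat_lit 26) (nat_lit 5) (nat_lit 28) (nat_lit 5) (nat_lit 27) (nat_lit 5) (nat_lit 350) (nat_lit 324) (nat_lit 226)) (XT.lf (nat_lit 0) (nat_lit 8902935006) (nat_lit 152) (nat_lit 17442885177) (nat_lit 228) (nat_lit 62378813960) (nat_lit 24) (nat_lit 5) (nat_lit 26) (nat_lit 5) (nat_lit 27) (nat_lit 5) (nat_lit 351) (nat_lit 324) (nat_lit 225)))) (XT.nd (nat_lit 156) (nat_lit 228) (nat_lit 0) (XT.nd (nat_lit 78) (nat_lit 76) (nat_lit 0) (XT.lf (nat_lit 0) (nat_lit 47492340184) (nat_lit 228) (nat_lit 34549723201) (nat_lit 76) (nat_lit 11448946457) (nat_lit 24) (nat_lit 5) (nat_lit 27) (nat_lit 5) (nat_lit 25) (nat_lit 4) (nat_lit 352) (nat_lit 324) (nat_lit 224)) (XT.lf (nat_lit 0) (nat_lit 14618668784) (nat_lit 76) (nat_lit 56514480951) (nat_lit 152)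 (nat_lit 27441341685) (nat_lit 23) (nat_lit 5) (nat_lit 24) (nat_lit 5) (nat_lit 25) (nat_lit 4) (nat_lit 353) (nat_lit 324) (nat_lit 223))) (XT.nd (nat_lit 78) (nat_lit 228) (nat_lit 0) (XT.lf (nat_lit 0) (nat_lit 69681930666) (nat_lit 76) (nat_lit 27925940720) (nat_lit 152) (nat_lit 6381369519) (nat_lit 23) (nat_lit 5) (nat_lit 24) (nat_lit 5) (nat_lit 25) (nat_lit 4) (nat_lit 354) (nat_lit 324) (nat_lit 222)) (XT.nd (nat_lit 78) (nat_lit 0) (nat_lit 0) (XT.lf (nat_lit 0) (nat_lit 16115390963) (nat_lit 228) (nat_lit 89948776501) (nat_lit 76) (nat_lit 3695876340) (nat_lit 20) (nat_lit 5) (nat_lit 23) (nat_lit 5) (nat_lit 21) (nat_lit 4) (nat_lit 355) (nat_lit 324) (nat_lit 221)) (XT.lf (nat_lit 0) (nat_lit 41752994170) (nat_lit 228) (nat_lit 36625863500) (nat_lit 76) (nat_lit 37465525278) (nat_lit 20) (nat_lit 5) (nat_lit 23) (nat_lit 5) (nat_lit 21) (nat_lit 4) (nat_lit 356) (nat_lit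 324) (nat_lit 220))))))) (XT.nd (nat_lit 702) (nat_lit 380) (nat_lit 0) (XT.nd (nat_lit 312) (nat_lit 228) (nat_lit 0) (XT.nd (nat_lit 156) (nat_lit 152) (nat_lit 0) (XT.nd (nat_lit 78) (nat_lit 0) (nat_lit 0) (XT.lf (nat_lit 0) (nat_lit 22063486213) (nat_lit 76) (nat_lit 47907011232) (nat_lit 152) (nat_lit 52402661289) (nat_lit 19) (nat_lit 5) (nat_lit 20) (nat_lit 5) (nat_lit 21) (nat_lit 4) (nat_lit 357) (nat_lit 324) (nat_lit 219)) (XT.lf (nat_lit 0) (nat_lit 87527906463) (nat_lit 76) (nat_lit 13917230837) (nat_lit 152) (nat_lit 27899121172) (nat_lit 19) (nat_lit 5) (nat_lit 20) (nat_lit 5) (nat_lit 21) (nat_lit 4) (nat_lit 358) (nat_lit 324) (nat_lit 218))) (XT.nd (nat_lit 78) (nat_lit 76) (nat_lit 0) (XT.lf (nat_lit 0) (nat_lit 21900973751) (nat_lit 76) (nat_lit 114610050054) (nat_lit 76) (nat_lit 276161080) (nat_lit 18) (nat_lit 4) (nat_lit 19) (nat_lit 5) (nat_lit 19) (nat_lit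 4) (nat_lit 359) (nat_lit 324) (nat_lit 217)) (XT.lf (nat_lit 0) (nat_lit 29611033703) (nat_lit 152) (nat_lit 52745185931) (nat_lit 76) (nat_lit 62289824146) (nat_lit 17) (nat_lit 5) (nat_lit 19) (nat_lit 5) (nat_lit 18) (nat_lit 4) (nat_lit 360) (nat_lit 324) (nat_lit 216)))) (XT.nd (nat_lit 156) (nat_lit 152) (nat_lit 0) (XT.nd (nat_lit 78) (nat_lit 0) (nat_lit 0) (XT.lf (nat_lit 0) (nat_lit 15113286780) (nat_lit 76) (nat_lit 47123012943) (nat_lit 152) (nat_lit 90867777161) (nat_lit 16) (nat_lit 5) (nat_lit 17) (nat_lit 5) (nat_lit 18) (nat_lit 4) (nat_lit 361) (nat_lit 324) (nat_lit 215)) (XT.lf (nat_lit 0) (nat_lit 91397481544) (nat_lit 76) (nat_lit 7514838013) (nat_lit 152) (nat_lit 63211175017) (nat_lit 16) (nat_lit 5) (nat_lit 17) (nat_lit 5) (nat_lit 18) (nat_lit 4) (nat_lit 362) (nat_lit 324) (nat_lit 214))) (XT.nd (nat_lit 78) (nat_lit 76) (nat_lit 0) (XT.lf (nat_lit 0) (nat_lit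 1125701162) (nat_lit 76) (nat_lit 138270508251) (nat_lit 76) (nat_lit 32398353692) (nat_lit 15) (nat_lit 4) (nat_lit 16) (nat_lit 5) (nat_lit 16) (nat_lit 4) (nat_lit 363) (nat_lit 324) (nat_lit 213)) (XT.nd (nat_lit 78) (nat_lit 0) (nat_lit 0) (XT.lf (nat_lit 0) (nat_lit 3013360284) (nat_lit 152) (nat_lit 99605894478) (nat_lit 76) (nat_lit 79444141617) (nat_lit 14) (nat_lit 5) (nat_lit 16) (nat_lit 5) (nat_lit 15) (nat_lit 4) (nat_lit 364) (nat_lit 324) (nat_lit 212)) (XT.lf (nat_lit 0) (nat_lit 39506427026) (nat_lit 152) (nat_lit 23701731682) (nat_lit 76) (nat_lit 129878355288) (nat_lit 14) (nat_lit 5) (nat_lit 16) (nat_lit 5) (nat_lit 15) (nat_lit 4) (nat_lit 365) (nat_lit 324) (nat_lit 211)))))) (XT.nd (nat_lit 312) (nat_lit 228) (nat_lit 0) (XT.nd (nat_lit 156) (nat_lit 76) (nat_lit 0) (XT.nd (nat_lit 78) (nat_lit 0) (nat_lit 0) (XT.lf (nat_lit 0) (nat_lit 61341142452) (nat_lit 76)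 (nat_lit 19051912109) (nat_lit 152) (nat_lit 124480497595) (nat_lit 13) (nat_lit 5) (nat_lit 14) (nat_lit 5) (nat_lit 15) (nat_lit 4) (nat_lit 366) (nat_lit 324) (nat_lit 210)) (XT.lf (nat_lit 0) (nat_lit 125903078204) (nat_lit 152) (nat_lit 63724038038) (nat_lit 0) (nat_lit 27868240192) (nat_lit 13) (nat_lit 5) (nat_lit 15) (nat_lit 4) (nat_lit 13) (nat_lit 4) (nat_lit 367) (nat_lit 324) (nat_lit 209))) (XT.nd (nat_lit 78) (nat_lit 0) (nat_lit 0) (XT.lf (nat_lit 0) (nat_lit 23129158508) (nat_lit 76) (nat_lit 152974810249) (nat_lit 76) (nat_lit 54938931414) (nat_lit 12) (nat_lit 4) (nat_lit 13) (nat_lit 5) (nat_lit 13) (nat_lit 4) (nat_lit 368) (nat_lit 324) (nat_lit 208)) (XT.lf (nat_lit 0) (nat_lit 120552699851) (nat_lit 76) (nat_lit 111509542723) (nat_lit 76) (nat_lit 13472700162) (nat_lit 12) (nat_lit 4) (nat_lit 13) (nat_lit 5) (nat_lit 13) (nat_lit 4) (nat_lit 369) (nat_lit 324)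 (nat_lit 207)))) (XT.nd (nat_lit 156) (nat_lit 76) (nat_lit 0) (XT.nd (nat_lit 78) (nat_lit 76) (nat_lit 0) (XT.lf (nat_lit 0) (nat_lit 29743569547) (nat_lit 152) (nat_lit 36171110240) (nat_lit 76) (nat_lit 195211504315) (nat_lit 11) (nat_lit 5) (nat_lit 13) (nat_lit 5) (nat_lit 12) (nat_lit 4) (nat_lit 370) (nat_lit 324) (nat_lit 206)) (XT.lf (nat_lit 0) (nat_lit 62520794014) (nat_lit 76) (nat_lit 14671203655) (nat_lit 152) (nat_lit 200624513513) (nat_lit 10) (nat_lit 5) (nat_lit 11) (nat_lit 5) (nat_lit 12) (nat_lit 4) (nat_lit 371) (nat_lit 324) (nat_lit 205))) (XT.nd (nat_lit 78) (nat_lit 76) (nat_lit 0) (XT.lf (nat_lit 0) (nat_lit 130428239079) (nat_lit 152) (nat_lit 125603385227) (nat_lit 0) (nat_lit 39651085214) (nat_lit 10) (nat_lit 5) (nat_lit 12) (nat_lit 4) (nat_lit 10) (nat_lit 4) (nat_lit 372) (nat_lit 324) (nat_lit 204)) (XT.nd (nat_lit 78) (nat_lit 76) (nat_lit 0) (XT.lf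 (nat_lit 0) (nat_lit 188303628131) (nat_lit 152) (nat_lit 29118337555) (nat_lit 0) (nat_lit 97525818370) (nat_lit 10) (nat_lit 5) (nat_lit 12) (nat_lit 4) (nat_lit 10) (nat_lit 4) (nat_lit 373) (nat_lit 324) (nat_lit 203)) (XT.lf (nat_lit 0) (nat_lit 79037823952) (nat_lit 76) (nat_lit 173671324908) (nat_lit 76) (nat_lit 82892907837) (nat_lit 9) (nat_lit 4) (nat_lit 10) (nat_lit 5) (nat_lit 10) (nat_lit 4) (nat_lit 374) (nat_lit 324) (nat_lit 202))))))))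
noncomputable def xc166 : XT := (XT.nd (nat_lit 1404) (nat_lit 152) (nat_lit 0) (XT.nd (nat_lit 702) (nat_lit 228) (nat_lit 0) (XT.nd (nat_lit 312) (nat_lit 76) (nat_lit 0) (XT.nd (nat_lit 156) (nat_lit 76) (nat_lit 0) (XT.nd (nat_lit 78) (nat_lit 76) (nat_lit 0) (XT.lf (nat_lit 0) (nat_lit 197501019521) (nat_lit 76) (nat_lit 125561499293) (nat_lit 76) (nat_lit 34782519898) (nat_lit 9) (nat_lit 4) (nat_lit 10) (nat_lit 5) (nat_lit 10) (nat_lit 4) (nat_lit 375) (nat_lit 324) (nat_lit 201)) (XT.lf (nat_lit 0) (nat_lit 16316748475) (nat_lit 152) (nat_lit 56840663236) (nat_lit 76) (nat_lit 308677055925) (nat_lit 8) (nat_lit 5) (nat_lit 10) (nat_lit 5) (nat_lit 9) (nat_lit 4) (nat_lit 376) (nat_lit 324) (nat_lit 200))) (XT.nd (nat_lit 78) (nat_lit 0) (nat_lit 0) (XT.lf (nat_lit 0) (nat_lit 56883804575) (nat_lit 76) (nat_lit 14108400590) (nat_lit 152) (nat_lit 336569177971) (nat_lit 7) (nat_lit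 5) (nat_lit 8) (nat_lit 5) (nat_lit 9) (nat_lit 4) (nat_lit 377) (nat_lit 324) (nat_lit 199)) (XT.lf (nat_lit 0) (nat_lit 132829976107) (nat_lit 152) (nat_lit 253519389938) (nat_lit 0) (nat_lit 48774023737) (nat_lit 7) (nat_lit 5) (nat_lit 9) (nat_lit 4) (nat_lit 7) (nat_lit 4) (nat_lit 378) (nat_lit 324) (nat_lit 198)))) (XT.nd (nat_lit 156) (nat_lit 76) (nat_lit 0) (XT.nd (nat_lit 78) (nat_lit 0) (nat_lit 0) (XT.lf (nat_lit 0) (nat_lit 199980621808) (nat_lit 152) (nat_lit 148956180292) (nat_lit 0) (nat_lit 115924286729) (nat_lit 7) (nat_lit 5) (nat_lit 9) (nat_lit 4) (nat_lit 7) (nat_lit 4) (nat_lit 379) (nat_lit 324) (nat_lit 197)) (XT.lf (nat_lit 0) (nat_lit 272502764647) (nat_lit 152) (nat_lit 36029008413) (nat_lit 0) (nat_lit 188446075209) (nat_lit 7) (nat_lit 5) (nat_lit 9) (nat_lit 4) (nat_lit 7) (nat_lit 4) (nat_lit 380) (nat_lit 324) (nat_lit 196))) (XT.nd (nat_lit 78) (nat_lit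 0) (nat_lit 0) (XT.lf (nat_lit 0) (nat_lit 90456314977) (nat_lit 76) (nat_lit 262545327044) (nat_lit 76) (nat_lit 178488309494) (nat_lit 6) (nat_lit 4) (nat_lit 7) (nat_lit 5) (nat_lit 7) (nat_lit 4) (nat_lit 381) (nat_lit 324) (nat_lit 195)) (XT.nd (nat_lit 78) (nat_lit 0) (nat_lit 0) (XT.lf (nat_lit 0) (nat_lit 229108478067) (nat_lit 76) (nat_lit 211816549290) (nat_lit 76) (nat_lit 127759227934) (nat_lit 6) (nat_lit 4) (nat_lit 7) (nat_lit 5) (nat_lit 7) (nat_lit 4) (nat_lit 382) (nat_lit 324) (nat_lit 194)) (XT.lf (nat_lit 0) (nat_lit 378851899570) (nat_lit 76) (nat_lit 157029921759) (nat_lit 76) (nat_lit 72972319101) (nat_lit 6) (nat_lit 4) (nat_lit 7) (nat_lit 5) (nat_lit 7) (nat_lit 4) (nat_lit 383) (nat_lit 324) (nat_lit 193)))))) (XT.nd (nat_lit 312) (nat_lit 76) (nat_lit 0) (XT.nd (nat_lit 156) (nat_lit 0) (nat_lit 0) (XT.nd (nat_lit 78) (nat_lit 152) (nat_lit 0) (XT.lf (nat_lit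 0) (nat_lit 540573947909) (nat_lit 76) (nat_lit 97860782954) (nat_lit 76) (nat_lit 13802919831) (nat_lit 6) (nat_lit 4) (nat_lit 7) (nat_lit 5) (nat_lit 7) (nat_lit 4) (nat_lit 384) (nat_lit 324) (nat_lit 192)) (XT.lf (nat_lit 0) (nat_lit 15722719868) (nat_lit 76) (nat_lit 32248830210) (nat_lit 152) (nat_lit 650993681200) (nat_lit 4) (nat_lit 5) (nat_lit 5) (nat_lit 5) (nat_lit 6) (nat_lit 4) (nat_lit 385) (nat_lit 324) (nat_lit 191))) (XT.nd (nat_lit 78) (nat_lit 0) (nat_lit 0) (XT.lf (nat_lit 0) (nat_lit 118002862447) (nat_lit 152) (nat_lit 590903548815) (nat_lit 0) (nat_lit 40171077631) (nat_lit 4) (nat_lit 5) (nat_lit 6) (nat_lit 4) (nat_lit 4) (nat_lit 4) (nat_lit 386) (nat_lit 324) (nat_lit 190)) (XT.lf (nat_lit 0) (nat_lit 194473936984) (nat_lit 152) (nat_lit 492015848900) (nat_lit 0) (nat_lit 116641960718) (nat_lit 4) (nat_lit 5) (nat_lit 6) (nat_lit 4) (nat_lit 4) (nat_lit 4)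 (nat_lit 387) (nat_lit 324) (nat_lit 189)))) (XT.nd (nat_lit 156) (nat_lit 76) (nat_lit 0) (XT.nd (nat_lit 78) (nat_lit 0) (nat_lit 0) (XT.lf (nat_lit 0) (nat_lit 277062350470) (nat_lit 152) (nat_lit 385217825338) (nat_lit 0) (nat_lit 199230196936) (nat_lit 4) (nat_lit 5) (nat_lit 6) (nat_lit 4) (nat_lit 4) (nat_lit 4) (nat_lit 388) (nat_lit 324) (nat_lit 188)) (XT.lf (nat_lit 0) (nat_lit 366257515724) (nat_lit 152) (nat_lit 269876600952) (nat_lit 0) (nat_lit 288425198053) (nat_lit 4) (nat_lit 5) (nat_lit 6) (nat_lit 4) (nat_lit 4) (nat_lit 4) (nat_lit 389) (nat_lit 324) (nat_lit 187))) (XT.nd (nat_lit 78) (nat_lit 76) (nat_lit 0) (XT.lf (nat_lit 0) (nat_lit 462587996690) (nat_lit 152) (nat_lit 145308672190) (nat_lit 0) (nat_lit 384755527040) (nat_lit 4) (nat_lit 5) (nat_lit 6) (nat_lit 4) (nat_lit 4) (nat_lit 4) (nat_lit 390) (nat_lit 324) (nat_lit 186)) (XT.nd (nat_lit 78) (nat_lit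 76) (nat_lit 0) (XT.lf (nat_lit 0) (nat_lit 566624640663) (nat_lit 152) (nat_lit 10775858734) (nat_lit 0) (nat_lit 488792030292) (nat_lit 4) (nat_lit 5) (nat_lit 6) (nat_lit 4) (nat_lit 4) (nat_lit 4) (nat_lit 391) (nat_lit 324) (nat_lit 185)) (XT.lf (nat_lit 0) (nat_lit 141602606787) (nat_lit 76) (nat_lit 540786900397) (nat_lit 76) (nat_lit 462954159729) (nat_lit 3) (nat_lit 4) (nat_lit 4) (nat_lit 5) (nat_lit 4) (nat_lit 4) (nat_lit 392) (nat_lit 324) (nat_lit 184))))))) (XT.nd (nat_lit 702) (nat_lit 76) (nat_lit 0) (XT.nd (nat_lit 312) (nat_lit 76) (nat_lit 0) (XT.nd (nat_lit 156) (nat_lit 0) (nat_lit 0) (XT.nd (nat_lit 78) (nat_lit 0) (nat_lit 0) (XT.lf (nat_lit 0) (nat_lit 306783686175) (nat_lit 76) (nat_lit 500926259828) (nat_lit 76) (nat_lit 423093398514) (nat_lit 3) (nat_lit 4) (nat_lit 4) (nat_lit 5) (nat_lit 4) (nat_lit 4) (nat_lit 393) (nat_lit 324) (nat_lit 183)) (XT.lf (nat_lit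 0) (nat_lit 485178792643) (nat_lit 76) (nat_lit 457876997559) (nat_lit 76) (nat_lit 380044024536) (nat_lit 3) (nat_lit 4) (nat_lit 4) (nat_lit 5) (nat_lit 4) (nat_lit 4) (nat_lit 394) (nat_lit 324) (nat_lit 182))) (XT.nd (nat_lit 78) (nat_lit 0) (nat_lit 0) (XT.lf (nat_lit 0) (nat_lit 677845082379) (nat_lit 76) (nat_lit 411384006853) (nat_lit 76) (nat_lit 333550930395) (nat_lit 3) (nat_lit 4) (nat_lit 4) (nat_lit 5) (nat_lit 4) (nat_lit 4) (nat_lit 395) (nat_lit 324) (nat_lit 181)) (XT.lf (nat_lit 0) (nat_lit 885924281543) (nat_lit 76) (nat_lit 361171773689) (nat_lit 76) (nat_lit 283338601459) (nat_lit 3) (nat_lit 4) (nat_lit 4) (nat_lit 5) (nat_lit 4) (nat_lit 4) (nat_lit 396) (nat_lit 324) (nat_lit 180)))) (XT.nd (nat_lit 156) (nat_lit 76) (nat_lit 0) (XT.nd (nat_lit 78) (nat_lit 0) (nat_lit 0) (XT.lf (nat_lit 0) (nat_lit 1110649452057) (nat_lit 76) (nat_lit 306942744093) (nat_lit 76)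 (nat_lit 229109483185) (nat_lit 3) (nat_lit 4) (nat_lit 4) (nat_lit 5) (nat_lit 4) (nat_lit 4) (nat_lit 397) (nat_lit 324) (nat_lit 179)) (XT.lf (nat_lit 0) (nat_lit 1353352298635) (nat_lit 76) (nat_lit 248375560854) (nat_lit 76) (nat_lit 170542217837) (nat_lit 3) (nat_lit 4) (nat_lit 4) (nat_lit 5) (nat_lit 4) (nat_lit 4) (nat_lit 398) (nat_lit 324) (nat_lit 178))) (XT.nd (nat_lit 78) (nat_lit 76) (nat_lit 0) (XT.lf (nat_lit 0) (nat_lit 1615471060368) (nat_lit 76) (nat_lit 185123159181) (nat_lit 76) (nat_lit 107289740136) (nat_lit 3) (nat_lit 4) (nat_lit 4) (nat_lit 5) (nat_lit 4) (nat_lit 4) (nat_lit 399) (nat_lit 324) (nat_lit 177)) (XT.nd (nat_lit 78) (nat_lit 76) (nat_lit 0) (XT.lf (nat_lit 0) (nat_lit 1898559033622) (nat_lit 76) (nat_lit 116810710028) (nat_lit 76) (nat_lit 38977220587) (nat_lit 3) (nat_lit 4) (nat_lit 4) (nat_lit 5) (nat_lit 4) (nat_lit 4) (nat_lit 400) (nat_lit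 324) (nat_lit 176)) (XT.lf (nat_lit 0) (nat_lit 33059311008) (nat_lit 152) (nat_lit 9070187722) (nat_lit 76) (nat_lit 2170330565597) (nat_lit 2) (nat_lit 5) (nat_lit 4) (nat_lit 5) (nat_lit 3) (nat_lit 4) (nat_lit 401) (nat_lit 324) (nat_lit 175)))))) (XT.nd (nat_lit 312) (nat_lit 0) (nat_lit 0) (XT.nd (nat_lit 156) (nat_lit 0) (nat_lit 0) (XT.nd (nat_lit 78) (nat_lit 0) (nat_lit 0) (XT.lf (nat_lit 0) (nat_lit 113559531261) (nat_lit 152) (nat_lit 2227705796432) (nat_lit 0) (nat_lit 41491369248) (nat_lit 1) (nat_lit 5) (nat_lit 3) (nat_lit 4) (nat_lit 1) (nat_lit 4) (nat_lit 402) (nat_lit 324) (nat_lit 174)) (XT.lf (nat_lit 0) (nat_lit 201848351375) (nat_lit 152) (nat_lit 2234940684606) (nat_lit 0) (nat_lit 129780137619) (nat_lit 1) (nat_lit 5) (nat_lit 3) (nat_lit 4) (nat_lit 1) (nat_lit 4) (nat_lit 403) (nat_lit 324) (nat_lit 173))) (XT.nd (nat_lit 78) (nat_lit 0) (nat_lit 0) (XT.lf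 (nat_lit 0) (nat_lit 297200159609) (nat_lit 152) (nat_lit 2242754600254) (nat_lit 0) (nat_lit 225131897943) (nat_lit 1) (nat_lit 5) (nat_lit 3) (nat_lit 4) (nat_lit 1) (nat_lit 4) (nat_lit 404) (nat_lit 324) (nat_lit 172)) (XT.lf (nat_lit 0) (nat_lit 400180003716) (nat_lit 152) (nat_lit 2251193848061) (nat_lit 0) (nat_lit 328111697688) (nat_lit 1) (nat_lit 5) (nat_lit 3) (nat_lit 4) (nat_lit 1) (nat_lit 4) (nat_lit 405) (nat_lit 324) (nat_lit 171)))) (XT.nd (nat_lit 156) (nat_lit 0) (nat_lit 0) (XT.nd (nat_lit 78) (nat_lit 0) (nat_lit 0) (XT.lf (nat_lit 0) (nat_lit 511398134623) (nat_lit 152) (nat_lit 2260308438384) (nat_lit 0) (nat_lit 439329787520) (nat_lit 1) (nat_lit 5) (nat_lit 3) (nat_lit 4) (nat_lit 1) (nat_lit 4) (nat_lit 406) (nat_lit 324) (nat_lit 170)) (XT.lf (nat_lit 0) (nat_lit 631513622736) (nat_lit 152) (nat_lit 2270152383610) (nat_lit 0) (nat_lit 559445237601) (nat_lit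 1) (nat_lit 5) (nat_lit 3) (nat_lit 4) (nat_lit 1) (nat_lit 4) (nat_lit 407) (nat_lit 324) (nat_lit 169))) (XT.nd (nat_lit 78) (nat_lit 0) (nat_lit 0) (XT.lf (nat_lit 0) (nat_lit 761238263539) (nat_lit 152) (nat_lit 2280784018231) (nat_lit 0) (nat_lit 689169843189) (nat_lit 1) (nat_lit 5) (nat_lit 3) (nat_lit 4) (nat_lit 1) (nat_lit 4) (nat_lit 408) (nat_lit 324) (nat_lit 168)) (XT.nd (nat_lit 78) (nat_lit 0) (nat_lit 0) (XT.lf (nat_lit 0) (nat_lit 901340795646) (nat_lit 152) (nat_lit 2292266344524) (nat_lit 0) (nat_lit 829272342689) (nat_lit 1) (nat_lit 5) (nat_lit 3) (nat_lit 4) (nat_lit 1) (nat_lit 4) (nat_lit 409) (nat_lit 324) (nat_lit 167)) (XT.lf (nat_lit 0) (nat_lit 1052651456284) (nat_lit 152) (nat_lit 2304667405905) (nat_lit 0) (nat_lit 980582973135) (nat_lit 1) (nat_lit 5) (nat_lit 3) (nat_lit 4) (nat_lit 1) (nat_lit 4) (nat_lit 410) (nat_lit 324) (nat_lit 166))))))))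
noncomputable def xc167 : XT := (XT.nd (nat_lit 41340) (nat_lit 0) (nat_lit 1444) (XT.nd (nat_lit 40638) (nat_lit 0) (nat_lit 3040) (XT.nd (nat_lit 40248) (nat_lit 0) (nat_lit 4332) (XT.nd (nat_lit 156) (nat_lit 0) (nat_lit 0) (XT.nd (nat_lit 78) (nat_lit 0) (nat_lit 0) (XT.lf (nat_lit 0) (nat_lit 1216066901218) (nat_lit 152) (nat_lit 2318060690145) (nat_lit 0) (nat_lit 1143998390115) (nat_lit 1) (nat_lit 5) (nat_lit 3) (nat_lit 4) (nat_lit 1) (nat_lit 4) (nat_lit 411) (nat_lit 324) (nat_lit 165)) (XT.lf (nat_lit 0) (nat_lit 1392555518272) (nat_lit 152) (nat_lit 2332525564854) (nat_lit 0) (nat_lit 1320486981284) (nat_lit 1) (nat_lit 5) (nat_lit 3) (nat_lit 4) (nat_lit 1) (nat_lit 4) (nat_lit 412) (nat_lit 324) (nat_lit 164))) (XT.nd (nat_lit 40014) (nat_lit 0) (nat_lit 4332) (XT.lf (nat_lit 0) (nat_lit 1583163165916) (nat_lit 152) (nat_lit 2348147747809) (nat_lit 0) (nat_lit 1511094604961)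 (nat_lit 1) (nat_lit 5) (nat_lit 3) (nat_lit 4) (nat_lit 1) (nat_lit 4) (nat_lit 413) (nat_lit 324) (nat_lit 163)) (XT.lf (nat_lit 0) (nat_lit 10980305905) (nat_lit 532) (nat_lit 1495311867) (nat_lit 532) (nat_lit 1495311867) (nat_lit 58) (nat_lit 3) (nat_lit 65) (nat_lit 3) (nat_lit 65) (nat_lit 5) (nat_lit 325) (nat_lit 325) (nat_lit 250)))) (XT.nd (nat_lit 156) (nat_lit 0) (nat_lit 76) (XT.nd (nat_lit 78) (nat_lit 0) (nat_lit 76) (XT.lf (nat_lit 76) (nat_lit 10914437376) (nat_lit 0) (nat_lit 12265328852) (nat_lit 532) (nat_lit 5852391721) (nat_lit 59) (nat_lit 5) (nat_lit 58) (nat_lit 3) (nat_lit 65) (nat_lit 5) (nat_lit 326) (nat_lit 325) (nat_lit 249)) (XT.lf (nat_lit 0) (nat_lit 24607017442) (nat_lit 456) (nat_lit 4142988474) (nat_lit 532) (nat_lit 1450841176) (nat_lit 59) (nat_lit 5) (nat_lit 65) (nat_lit 5) (nat_lit 66) (nat_lit 5) (nat_lit 327) (nat_lit 325) (nat_lit 248))) (XT.nd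 (nat_lit 78) (nat_lit 0) (nat_lit 0) (XT.lf (nat_lit 76) (nat_lit 11185904825) (nat_lit 0) (nat_lit 15542875737) (nat_lit 532) (nat_lit 4687835127) (nat_lit 60) (nat_lit 5) (nat_lit 59) (nat_lit 5) (nat_lit 66) (nat_lit 5) (nat_lit 328) (nat_lit 325) (nat_lit 247)) (XT.nd (nat_lit 78) (nat_lit 0) (nat_lit 76) (XT.lf (nat_lit 76) (nat_lit 27972044917) (nat_lit 0) (nat_lit 1154672942) (nat_lit 532) (nat_lit 3594423326) (nat_lit 60) (nat_lit 5) (nat_lit 59) (nat_lit 5) (nat_lit 66) (nat_lit 5) (nat_lit 329) (nat_lit 325) (nat_lit 246)) (XT.lf (nat_lit 76) (nat_lit 12232099147) (nat_lit 0) (nat_lit 20118234496) (nat_lit 532) (nat_lit 1728996914) (nat_lit 61) (nat_lit 5) (nat_lit 60) (nat_lit 5) (nat_lit 67) (nat_lit 5) (nat_lit 330) (nat_lit 325) (nat_lit 245)))))) (XT.nd (nat_lit 312) (nat_lit 608) (nat_lit 0) (XT.nd (nat_lit 156) (nat_lit 304) (nat_lit 0) (XT.nd (nat_lit 78) (nat_lit 0)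 (nat_lit 76) (XT.lf (nat_lit 0) (nat_lit 428486633) (nat_lit 532) (nat_lit 4739249132) (nat_lit 608) (nat_lit 30365328639) (nat_lit 53) (nat_lit 5) (nat_lit 60) (nat_lit 5) (nat_lit 61) (nat_lit 5) (nat_lit 331) (nat_lit 325) (nat_lit 244)) (XT.lf (nat_lit 0) (nat_lit 3280264921) (nat_lit 532) (nat_lit 22937961572) (nat_lit 76) (nat_lit 10832076596) (nat_lit 54) (nat_lit 5) (nat_lit 61) (nat_lit 5) (nat_lit 55) (nat_lit 5) (nat_lit 332) (nat_lit 325) (nat_lit 243))) (XT.nd (nat_lit 78) (nat_lit 380) (nat_lit 0) (XT.lf (nat_lit 0) (nat_lit 6622034839) (nat_lit 532) (nat_lit 4079619571) (nat_lit 76) (nat_lit 27966325359) (nat_lit 54) (nat_lit 5) (nat_lit 61) (nat_lit 5) (nat_lit 55) (nat_lit 5) (nat_lit 333) (nat_lit 325) (nat_lit 242)) (XT.lf (nat_lit 0) (nat_lit 10794804090) (nat_lit 456) (nat_lit 23398733572) (nat_lit 76) (nat_lit 6176446641) (nat_lit 49) (nat_lit 5) (nat_lit 55) (nat_lit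 5) (nat_lit 50) (nat_lit 5) (nat_lit 334) (nat_lit 325) (nat_lit 241)))) (XT.nd (nat_lit 156) (nat_lit 380) (nat_lit 0) (XT.nd (nat_lit 78) (nat_lit 228) (nat_lit 0) (XT.lf (nat_lit 0) (nat_lit 15689130702) (nat_lit 456) (nat_lit 2546832104) (nat_lit 76) (nat_lit 23941173401) (nat_lit 49) (nat_lit 5) (nat_lit 55) (nat_lit 5) (nat_lit 50) (nat_lit 5) (nat_lit 335) (nat_lit 325) (nat_lit 240)) (XT.lf (nat_lit 0) (nat_lit 21020154786) (nat_lit 228) (nat_lit 456059343) (nat_lit 304) (nat_lit 22612554714) (nat_lit 46) (nat_lit 5) (nat_lit 49) (nat_lit 5) (nat_lit 50) (nat_lit 5) (nat_lit 336) (nat_lit 325) (nat_lit 239))) (XT.nd (nat_lit 78) (nat_lit 152) (nat_lit 0) (XT.lf (nat_lit 0) (nat_lit 12773259) (nat_lit 228) (nat_lit 28231969166) (nat_lit 304) (nat_lit 17867116443) (nat_lit 43) (nat_lit 5) (nat_lit 46) (nat_lit 5) (nat_lit 47) (nat_lit 5) (nat_lit 337) (nat_lit 325) (nat_lit 238))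 (XT.nd (nat_lit 78) (nat_lit 152) (nat_lit 0) (XT.lf (nat_lit 0) (nat_lit 26235466364) (nat_lit 228) (nat_lit 9957642092) (nat_lit 304) (nat_lit 12052623863) (nat_lit 43) (nat_lit 5) (nat_lit 46) (nat_lit 5) (nat_lit 47) (nat_lit 5) (nat_lit 338) (nat_lit 325) (nat_lit 237)) (XT.lf (nat_lit 0) (nat_lit 3964186454) (nat_lit 152) (nat_lit 41140019678) (nat_lit 228) (nat_lit 5419964840) (nat_lit 41) (nat_lit 5) (nat_lit 43) (nat_lit 5) (nat_lit 44) (nat_lit 5) (nat_lit 339) (nat_lit 325) (nat_lit 236))))))) (XT.nd (nat_lit 702) (nat_lit 760) (nat_lit 0) (XT.nd (nat_lit 312) (nat_lit 380) (nat_lit 0) (XT.nd (nat_lit 156) (nat_lit 152) (nat_lit 0) (XT.nd (nat_lit 78) (nat_lit 228) (nat_lit 0) (XT.lf (nat_lit 0) (nat_lit 2528586065) (nat_lit 228) (nat_lit 19989277275) (nat_lit 76) (nat_lit 30393872037) (nat_lit 40) (nat_lit 5) (nat_lit 43) (nat_lit 5) (nat_lit 41) (nat_lit 5) (nat_lit 340)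 (nat_lit 325) (nat_lit 235)) (XT.lf (nat_lit 0) (nat_lit 9012836130) (nat_lit 228) (nat_lit 2020806014) (nat_lit 304) (nat_lit 44428328752) (nat_lit 37) (nat_lit 5) (nat_lit 40) (nat_lit 5) (nat_lit 41) (nat_lit 5) (nat_lit 341) (nat_lit 325) (nat_lit 234))) (XT.nd (nat_lit 78) (nat_lit 152) (nat_lit 0) (XT.lf (nat_lit 0) (nat_lit 21260431764) (nat_lit 304) (nat_lit 17203014940) (nat_lit 76) (nat_lit 19669475401) (nat_lit 37) (nat_lit 5) (nat_lit 41) (nat_lit 5) (nat_lit 38) (nat_lit 5) (nat_lit 342) (nat_lit 325) (nat_lit 233)) (XT.lf (nat_lit 0) (nat_lit 15080574246) (nat_lit 152) (nat_lit 17637004190) (nat_lit 228) (nat_lit 28266996801) (nat_lit 35) (nat_lit 5) (nat_lit 37) (nat_lit 5) (nat_lit 38) (nat_lit 5) (nat_lit 343) (nat_lit 325) (nat_lit 232)))) (XT.nd (nat_lit 156) (nat_lit 228) (nat_lit 0) (XT.nd (nat_lit 78) (nat_lit 152) (nat_lit 0) (XT.lf (nat_lit 0) (nat_lit 45687782810)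 (nat_lit 228) (nat_lit 13234744167) (nat_lit 76) (nat_lit 5094117484) (nat_lit 35) (nat_lit 5) (nat_lit 38) (nat_lit 5) (nat_lit 36) (nat_lit 5) (nat_lit 344) (nat_lit 325) (nat_lit 231)) (XT.lf (nat_lit 0) (nat_lit 22722724165) (nat_lit 152) (nat_lit 37974809604) (nat_lit 228) (nat_lit 6513593552) (nat_lit 33) (nat_lit 5) (nat_lit 35) (nat_lit 5) (nat_lit 36) (nat_lit 5) (nat_lit 345) (nat_lit 325) (nat_lit 230))) (XT.nd (nat_lit 78) (nat_lit 152) (nat_lit 0) (XT.lf (nat_lit 0) (nat_lit 6303042140) (nat_lit 228) (nat_lit 8486344179) (nat_lit 76) (nat_lit 55830274318) (nat_lit 32) (nat_lit 5) (nat_lit 35) (nat_lit 5) (nat_lit 33) (nat_lit 5) (nat_lit 346) (nat_lit 325) (nat_lit 229)) (XT.nd (nat_lit 78) (nat_lit 0) (nat_lit 0) (XT.lf (nat_lit 0) (nat_lit 20826592768) (nat_lit 228) (nat_lit 42682568343) (nat_lit 76) (nat_lit 10695503779) (nat_lit 30) (nat_lit 5) (nat_lit 33) (nat_lit 5)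 (nat_lit 31) (nat_lit 5) (nat_lit 347) (nat_lit 325) (nat_lit 228)) (XT.lf (nat_lit 0) (nat_lit 37131864966) (nat_lit 228) (nat_lit 3237957707) (nat_lit 76) (nat_lit 37657061660) (nat_lit 30) (nat_lit 5) (nat_lit 33) (nat_lit 5) (nat_lit 31) (nat_lit 5) (nat_lit 348) (nat_lit 325) (nat_lit 227)))))) (XT.nd (nat_lit 312) (nat_lit 304) (nat_lit 0) (XT.nd (nat_lit 156) (nat_lit 228) (nat_lit 0) (XT.nd (nat_lit 78) (nat_lit 76) (nat_lit 0) (XT.lf (nat_lit 0) (nat_lit 41431338359) (nat_lit 152) (nat_lit 14304459274) (nat_lit 228) (nat_lit 26339546317) (nat_lit 28) (nat_lit 5) (nat_lit 30) (nat_lit 5) (nat_lit 31) (nat_lit 5) (nat_lit 349) (nat_lit 325) (nat_lit 226)) (XT.lf (nat_lit 0) (nat_lit 3241058007) (nat_lit 76) (nat_lit 73086630251) (nat_lit 152) (nat_lit 10080022196) (nat_lit 27) (nat_lit 5) (nat_lit 28) (nat_lit 5) (nat_lit 29) (nat_lit 4) (nat_lit 350) (nat_lit 325) (nat_lit 225)))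 (XT.nd (nat_lit 78) (nat_lit 152) (nat_lit 0) (XT.lf (nat_lit 0) (nat_lit 8615644903) (nat_lit 152) (nat_lit 38633209341) (nat_lit 76) (nat_lit 43702655422) (nat_lit 26) (nat_lit 5) (nat_lit 28) (nat_lit 5) (nat_lit 27) (nat_lit 5) (nat_lit 351) (nat_lit 325) (nat_lit 224)) (XT.lf (nat_lit 0) (nat_lit 9682169390) (nat_lit 152) (nat_lit 18811112161) (nat_lit 228) (nat_lit 67326115089) (nat_lit 24) (nat_lit 5) (nat_lit 26) (nat_lit 5) (nat_lit 27) (nat_lit 5) (nat_lit 352) (nat_lit 325) (nat_lit 223)))) (XT.nd (nat_lit 156) (nat_lit 228) (nat_lit 0) (XT.nd (nat_lit 78) (nat_lit 76) (nat_lit 0) (XT.lf (nat_lit 0) (nat_lit 51329181108) (nat_lit 228) (nat_lit 37249299607) (nat_lit 76) (nat_lit 12388790863) (nat_lit 24) (nat_lit 5) (nat_lit 27) (nat_lit 5) (nat_lit 25) (nat_lit 4) (nat_lit 353) (nat_lit 325) (nat_lit 222)) (XT.lf (nat_lit 0) (nat_lit 15850933320) (nat_lit 76) (nat_lit 61009057400)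 (nat_lit 152) (nat_lit 29597543824) (nat_lit 23) (nat_lit 5) (nat_lit 24) (nat_lit 5) (nat_lit 25) (nat_lit 4) (nat_lit 354) (nat_lit 325) (nat_lit 221))) (XT.nd (nat_lit 78) (nat_lit 228) (nat_lit 0) (XT.lf (nat_lit 0) (nat_lit 75314606446) (nat_lit 76) (nat_lit 30135402989) (nat_lit 152) (nat_lit 6855670567) (nat_lit 23) (nat_lit 5) (nat_lit 24) (nat_lit 5) (nat_lit 25) (nat_lit 4) (nat_lit 355) (nat_lit 325) (nat_lit 220)) (XT.nd (nat_lit 78) (nat_lit 0) (nat_lit 0) (XT.lf (nat_lit 0) (nat_lit 17438482370) (nat_lit 228) (nat_lit 97084174121) (nat_lit 76) (nat_lit 4015465283) (nat_lit 20) (nat_lit 5) (nat_lit 23) (nat_lit 5) (nat_lit 21) (nat_lit 4) (nat_lit 356) (nat_lit 325) (nat_lit 219)) (XT.lf (nat_lit 0) (nat_lit 45124585675) (nat_lit 228) (nat_lit 39499909894) (nat_lit 76) (nat_lit 40484914370) (nat_lit 20) (nat_lit 5) (nat_lit 23) (nat_lit 5) (nat_lit 21) (nat_lit 4) (nat_lit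 357) (nat_lit 325) (nat_lit 218))))))))
noncomputable def xc168 : XT := (XT.nd (nat_lit 1404) (nat_lit 456) (nat_lit 0) (XT.nd (nat_lit 702) (nat_lit 380) (nat_lit 0) (XT.nd (nat_lit 312) (nat_lit 228) (nat_lit 0) (XT.nd (nat_lit 156) (nat_lit 152) (nat_lit 0) (XT.nd (nat_lit 78) (nat_lit 0) (nat_lit 0) (XT.lf (nat_lit 0) (nat_lit 23883169500) (nat_lit 76) (nat_lit 51715310581) (nat_lit 152) (nat_lit 56562089585) (nat_lit 19) (nat_lit 5) (nat_lit 20) (nat_lit 5) (nat_lit 21) (nat_lit 4) (nat_lit 358) (nat_lit 325) (nat_lit 217)) (XT.lf (nat_lit 0) (nat_lit 94580698600) (nat_lit 76) (nat_lit 15008144906) (nat_lit 152) (nat_lit 30100694749) (nat_lit 19) (nat_lit 5) (nat_lit 20) (nat_lit 5) (nat_lit 21) (nat_lit 4) (nat_lit 359) (nat_lit 325) (nat_lit 216))) (XT.nd (nat_lit 78) (nat_lit 76) (nat_lit 0) (XT.lf (nat_lit 0) (nat_lit 23704008347) (nat_lit 76) (nat_lit 123755637218) (nat_lit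 76) (nat_lit 268282631) (nat_lit 18) (nat_lit 4) (nat_lit 19) (nat_lit 5) (nat_lit 19) (nat_lit 4) (nat_lit 360) (nat_lit 325) (nat_lit 215)) (XT.lf (nat_lit 0) (nat_lit 32006279406) (nat_lit 152) (nat_lit 56916219911) (nat_lit 76) (nat_lit 67293108383) (nat_lit 17) (nat_lit 5) (nat_lit 19) (nat_lit 5) (nat_lit 18) (nat_lit 4) (nat_lit 361) (nat_lit 325) (nat_lit 214)))) (XT.nd (nat_lit 156) (nat_lit 152) (nat_lit 0) (XT.nd (nat_lit 78) (nat_lit 0) (nat_lit 0) (XT.lf (nat_lit 0) (nat_lit 16369700720) (nat_lit 76) (nat_lit 50871051965) (nat_lit 152) (nat_lit 98109596671) (nat_lit 16) (nat_lit 5) (nat_lit 17) (nat_lit 5) (nat_lit 18) (nat_lit 4) (nat_lit 362) (nat_lit 325) (nat_lit 213)) (XT.lf (nat_lit 0) (nat_lit 98753123584) (nat_lit 76) (nat_lit 8095838005) (nat_lit 152) (nat_lit 68242510997) (nat_lit 16) (nat_lit 5) (nat_lit 17) (nat_lit 5) (nat_lit 18) (nat_lit 4) (nat_lit 363) (nat_lit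 325) (nat_lit 212))) (XT.nd (nat_lit 78) (nat_lit 76) (nat_lit 0) (XT.lf (nat_lit 0) (nat_lit 1259871014) (nat_lit 76) (nat_lit 149311449761) (nat_lit 76) (nat_lit 34964925842) (nat_lit 15) (nat_lit 4) (nat_lit 16) (nat_lit 5) (nat_lit 16) (nat_lit 4) (nat_lit 364) (nat_lit 325) (nat_lit 211)) (XT.nd (nat_lit 78) (nat_lit 0) (nat_lit 0) (XT.lf (nat_lit 0) (nat_lit 3276679783) (nat_lit 152) (nat_lit 107532341108) (nat_lit 76) (nat_lit 85817659971) (nat_lit 14) (nat_lit 5) (nat_lit 16) (nat_lit 5) (nat_lit 15) (nat_lit 4) (nat_lit 365) (nat_lit 325) (nat_lit 210)) (XT.lf (nat_lit 0) (nat_lit 42687543666) (nat_lit 152) (nat_lit 25558958247) (nat_lit 76) (nat_lit 140285278364) (nat_lit 14) (nat_lit 5) (nat_lit 16) (nat_lit 5) (nat_lit 15) (nat_lit 4) (nat_lit 366) (nat_lit 325) (nat_lit 209)))))) (XT.nd (nat_lit 312) (nat_lit 228) (nat_lit 0) (XT.nd (nat_lit 156) (nat_lit 76) (nat_lit 0)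 (XT.nd (nat_lit 78) (nat_lit 0) (nat_lit 0) (XT.lf (nat_lit 0) (nat_lit 66286360705) (nat_lit 76) (nat_lit 20558126731) (nat_lit 152) (nat_lit 134417343662) (nat_lit 13) (nat_lit 5) (nat_lit 14) (nat_lit 5) (nat_lit 15) (nat_lit 4) (nat_lit 367) (nat_lit 325) (nat_lit 208)) (XT.lf (nat_lit 0) (nat_lit 135994231801) (nat_lit 152) (nat_lit 68785756757) (nat_lit 0) (nat_lit 30113478110) (nat_lit 13) (nat_lit 5) (nat_lit 15) (nat_lit 4) (nat_lit 13) (nat_lit 4) (nat_lit 368) (nat_lit 325) (nat_lit 207))) (XT.nd (nat_lit 78) (nat_lit 0) (nat_lit 0) (XT.lf (nat_lit 0) (nat_lit 25014778947) (nat_lit 76) (nat_lit 165195862778) (nat_lit 76) (nat_lit 59314216749) (nat_lit 12) (nat_lit 4) (nat_lit 13) (nat_lit 5) (nat_lit 13) (nat_lit 4) (nat_lit 369) (nat_lit 325) (nat_lit 206)) (XT.lf (nat_lit 0) (nat_lit 130229589689) (nat_lit 76) (nat_lit 120414628093) (nat_lit 76) (nat_lit 14532155825) (nat_lit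 12) (nat_lit 4) (nat_lit 13) (nat_lit 5) (nat_lit 13) (nat_lit 4) (nat_lit 370) (nat_lit 325) (nat_lit 205)))) (XT.nd (nat_lit 156) (nat_lit 76) (nat_lit 0) (XT.nd (nat_lit 78) (nat_lit 76) (nat_lit 0) (XT.lf (nat_lit 0) (nat_lit 32139205010) (nat_lit 152) (nat_lit 39033690883) (nat_lit 76) (nat_lit 210842086760) (nat_lit 11) (nat_lit 5) (nat_lit 13) (nat_lit 5) (nat_lit 12) (nat_lit 4) (nat_lit 371) (nat_lit 325) (nat_lit 204)) (XT.lf (nat_lit 0) (nat_lit 67552778163) (nat_lit 76) (nat_lit 15830262141) (nat_lit 152) (nat_lit 216657533271) (nat_lit 10) (nat_lit 5) (nat_lit 11) (nat_lit 5) (nat_lit 12) (nat_lit 4) (nat_lit 372) (nat_lit 325) (nat_lit 203))) (XT.nd (nat_lit 78) (nat_lit 76) (nat_lit 0) (XT.lf (nat_lit 0) (nat_lit 140877345299) (nat_lit 152) (nat_lit 135622742074) (nat_lit 0) (nat_lit 42836047552) (nat_lit 10) (nat_lit 5) (nat_lit 12) (nat_lit 4) (nat_lit 10) (nat_lit 4)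 (nat_lit 373) (nat_lit 325) (nat_lit 202)) (XT.nd (nat_lit 78) (nat_lit 76) (nat_lit 0) (XT.lf (nat_lit 0) (nat_lit 203381665691) (nat_lit 152) (nat_lit 31421032364) (nat_lit 0) (nat_lit 105339805619) (nat_lit 10) (nat_lit 5) (nat_lit 12) (nat_lit 4) (nat_lit 10) (nat_lit 4) (nat_lit 374) (nat_lit 325) (nat_lit 201)) (XT.lf (nat_lit 0) (nat_lit 85386944286) (nat_lit 76) (nat_lit 187552293043) (nat_lit 76) (nat_lit 89509912301) (nat_lit 9) (nat_lit 4) (nat_lit 10) (nat_lit 5) (nat_lit 10) (nat_lit 4) (nat_lit 375) (nat_lit 325) (nat_lit 200))))))) (XT.nd (nat_lit 702) (nat_lit 228) (nat_lit 0) (XT.nd (nat_lit 312) (nat_lit 76) (nat_lit 0) (XT.nd (nat_lit 156) (nat_lit 76) (nat_lit 0) (XT.nd (nat_lit 78) (nat_lit 76) (nat_lit 0) (XT.lf (nat_lit 0) (nat_lit 213325262581) (nat_lit 76) (nat_lit 135594624924) (nat_lit 76) (nat_lit 37551762080) (nat_lit 9) (nat_lit 4) (nat_lit 10) (nat_lit 5)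 (nat_lit 10) (nat_lit 4) (nat_lit 376) (nat_lit 325) (nat_lit 199)) (XT.lf (nat_lit 0) (nat_lit 17633839389) (nat_lit 152) (nat_lit 61364923306) (nat_lit 76) (nat_lit 333381519828) (nat_lit 8) (nat_lit 5) (nat_lit 10) (nat_lit 5) (nat_lit 9) (nat_lit 4) (nat_lit 377) (nat_lit 325) (nat_lit 198))) (XT.nd (nat_lit 78) (nat_lit 0) (nat_lit 0) (XT.lf (nat_lit 0) (nat_lit 61456919828) (nat_lit 76) (nat_lit 15226081320) (nat_lit 152) (nat_lit 363482376811) (nat_lit 7) (nat_lit 5) (nat_lit 8) (nat_lit 5) (nat_lit 9) (nat_lit 4) (nat_lit 378) (nat_lit 325) (nat_lit 197)) (XT.lf (nat_lit 0) (nat_lit 143467192633) (nat_lit 152) (nat_lit 273779587084) (nat_lit 0) (nat_lit 52685613679) (nat_lit 7) (nat_lit 5) (nat_lit 9) (nat_lit 4) (nat_lit 7) (nat_lit 4) (nat_lit 379) (nat_lit 325) (nat_lit 196)))) (XT.nd (nat_lit 156) (nat_lit 76) (nat_lit 0) (XT.nd (nat_lit 78) (nat_lit 0) (nat_lit 0) (XT.lf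 (nat_lit 0) (nat_lit 215989088624) (nat_lit 152) (nat_lit 160852902447) (nat_lit 0) (nat_lit 125207181560) (nat_lit 7) (nat_lit 5) (nat_lit 9) (nat_lit 4) (nat_lit 7) (nat_lit 4) (nat_lit 380) (nat_lit 325) (nat_lit 195)) (XT.lf (nat_lit 0) (nat_lit 294312260885) (nat_lit 152) (nat_lit 38893021431) (nat_lit 0) (nat_lit 203530050014) (nat_lit 7) (nat_lit 5) (nat_lit 9) (nat_lit 4) (nat_lit 7) (nat_lit 4) (nat_lit 381) (nat_lit 325) (nat_lit 194))) (XT.nd (nat_lit 78) (nat_lit 0) (nat_lit 0) (XT.lf (nat_lit 0) (nat_lit 97710664346) (nat_lit 76) (nat_lit 283540126214) (nat_lit 76) (nat_lit 192757634041) (nat_lit 6) (nat_lit 4) (nat_lit 7) (nat_lit 5) (nat_lit 7) (nat_lit 4) (nat_lit 382) (nat_lit 325) (nat_lit 193)) (XT.nd (nat_lit 78) (nat_lit 0) (nat_lit 0) (XT.lf (nat_lit 0) (nat_lit 247453678693) (nat_lit 76) (nat_lit 228753700091) (nat_lit 76) (nat_lit 137970947453) (nat_lit 6) (nat_lit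 4) (nat_lit 7) (nat_lit 5) (nat_lit 7) (nat_lit 4) (nat_lit 383) (nat_lit 325) (nat_lit 192)) (XT.lf (nat_lit 0) (nat_lit 409175350036) (nat_lit 76) (nat_lit 169584747775) (nat_lit 76) (nat_lit 78801753966) (nat_lit 6) (nat_lit 4) (nat_lit 7) (nat_lit 5) (nat_lit 7) (nat_lit 4) (nat_lit 384) (nat_lit 325) (nat_lit 191)))))) (XT.nd (nat_lit 312) (nat_lit 76) (nat_lit 0) (XT.nd (nat_lit 156) (nat_lit 0) (nat_lit 0) (XT.nd (nat_lit 78) (nat_lit 152) (nat_lit 0) (XT.lf (nat_lit 0) (nat_lit 583834029020) (nat_lit 76) (nat_lit 105682638439) (nat_lit 76) (nat_lit 14899421322) (nat_lit 6) (nat_lit 4) (nat_lit 7) (nat_lit 5) (nat_lit 7) (nat_lit 4) (nat_lit 385) (nat_lit 325) (nat_lit 190)) (XT.lf (nat_lit 0) (nat_lit 16994722310) (nat_lit 76) (nat_lit 34821694128) (nat_lit 152) (nat_lit 703065460823) (nat_lit 4) (nat_lit 5) (nat_lit 5) (nat_lit 5) (nat_lit 6) (nat_lit 4) (nat_lit 386) (nat_lit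 325) (nat_lit 189))) (XT.nd (nat_lit 78) (nat_lit 0) (nat_lit 0) (XT.lf (nat_lit 0) (nat_lit 127449861560) (nat_lit 152) (nat_lit 638162325313) (nat_lit 0) (nat_lit 43390958475) (nat_lit 4) (nat_lit 5) (nat_lit 6) (nat_lit 4) (nat_lit 4) (nat_lit 4) (nat_lit 387) (nat_lit 325) (nat_lit 188)) (XT.lf (nat_lit 0) (nat_lit 210038120570) (nat_lit 152) (nat_lit 531364609953) (nat_lit 0) (nat_lit 125979053348) (nat_lit 4) (nat_lit 5) (nat_lit 6) (nat_lit 4) (nat_lit 4) (nat_lit 4) (nat_lit 388) (nat_lit 325) (nat_lit 187)))) (XT.nd (nat_lit 156) (nat_lit 76) (nat_lit 0) (XT.nd (nat_lit 78) (nat_lit 0) (nat_lit 0) (XT.lf (nat_lit 0) (nat_lit 299233142791) (nat_lit 152) (nat_lit 416023670940) (nat_lit 0) (nat_lit 215173923590) (nat_lit 4) (nat_lit 5) (nat_lit 6) (nat_lit 4) (nat_lit 4) (nat_lit 4) (nat_lit 389) (nat_lit 325) (nat_lit 186)) (XT.lf (nat_lit 0) (nat_lit 395563491319) (nat_lit 152)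 (nat_lit 291456006412) (nat_lit 0) (nat_lit 311504131397) (nat_lit 4) (nat_lit 5) (nat_lit 6) (nat_lit 4) (nat_lit 4) (nat_lit 4) (nat_lit 390) (nat_lit 325) (nat_lit 185))) (XT.nd (nat_lit 78) (nat_lit 76) (nat_lit 0) (XT.lf (nat_lit 0) (nat_lit 499600012664) (nat_lit 152) (nat_lit 156923437618) (nat_lit 0) (nat_lit 415540522444) (nat_lit 4) (nat_lit 5) (nat_lit 6) (nat_lit 4) (nat_lit 4) (nat_lit 4) (nat_lit 391) (nat_lit 325) (nat_lit 184)) (XT.nd (nat_lit 78) (nat_lit 76) (nat_lit 0) (XT.lf (nat_lit 0) (nat_lit 611959219543) (nat_lit 152) (nat_lit 11628734519) (nat_lit 0) (nat_lit 527899608678) (nat_lit 4) (nat_lit 5) (nat_lit 6) (nat_lit 4) (nat_lit 4) (nat_lit 4) (nat_lit 392) (nat_lit 325) (nat_lit 183)) (XT.lf (nat_lit 0) (nat_lit 152939775513) (nat_lit 76) (nat_lit 584045374062) (nat_lit 76) (nat_lit 499985651488) (nat_lit 3) (nat_lit 4) (nat_lit 4) (nat_lit 5) (nat_lit 4) (nat_lit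 4) (nat_lit 393) (nat_lit 325) (nat_lit 182))))))))
noncomputable def xc169 : XT := (XT.nd (nat_lit 1404) (nat_lit 0) (nat_lit 0) (XT.nd (nat_lit 702) (nat_lit 76) (nat_lit 0) (XT.nd (nat_lit 312) (nat_lit 76) (nat_lit 0) (XT.nd (nat_lit 156) (nat_lit 0) (nat_lit 0) (XT.nd (nat_lit 78) (nat_lit 0) (nat_lit 0) (XT.lf (nat_lit 0) (nat_lit 331334677534) (nat_lit 76) (nat_lit 540996213977) (nat_lit 76) (nat_lit 456936387969) (nat_lit 3) (nat_lit 4) (nat_lit 4) (nat_lit 5) (nat_lit 4) (nat_lit 4) (nat_lit 394) (nat_lit 325) (nat_lit 181)) (XT.lf (nat_lit 0) (nat_lit 524000777967) (nat_lit 76) (nat_lit 494503317886) (nat_lit 76) (nat_lit 410443396105) (nat_lit 3) (nat_lit 4) (nat_lit 4) (nat_lit 5) (nat_lit 4) (nat_lit 4) (nat_lit 395) (nat_lit 325) (nat_lit 180))) (XT.nd (nat_lit 78) (nat_lit 0) (nat_lit 0) (XT.lf (nat_lit 0) (nat_lit 732079801851) (nat_lit 76) (nat_lit 444291172328) (nat_lit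 76) (nat_lit 360231161869) (nat_lit 3) (nat_lit 4) (nat_lit 4) (nat_lit 5) (nat_lit 4) (nat_lit 4) (nat_lit 396) (nat_lit 325) (nat_lit 179)) (XT.lf (nat_lit 0) (nat_lit 956804810068) (nat_lit 76) (nat_lit 390062223850) (nat_lit 76) (nat_lit 306002131282) (nat_lit 3) (nat_lit 4) (nat_lit 4) (nat_lit 5) (nat_lit 4) (nat_lit 4) (nat_lit 397) (nat_lit 325) (nat_lit 178)))) (XT.nd (nat_lit 156) (nat_lit 76) (nat_lit 0) (XT.nd (nat_lit 78) (nat_lit 0) (nat_lit 0) (XT.lf (nat_lit 0) (nat_lit 1199507506371) (nat_lit 76) (nat_lit 331495115719) (nat_lit 76) (nat_lit 247434947124) (nat_lit 3) (nat_lit 4) (nat_lit 4) (nat_lit 5) (nat_lit 4) (nat_lit 4) (nat_lit 398) (nat_lit 325) (nat_lit 177)) (XT.lf (nat_lit 0) (nat_lit 1461626128961) (nat_lit 76) (nat_lit 268242783591) (nat_lit 76) (nat_lit 184182544600) (nat_lit 3) (nat_lit 4) (nat_lit 4) (nat_lit 5) (nat_lit 4) (nat_lit 4) (nat_lit 399) (nat_lit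 325) (nat_lit 176))) (XT.nd (nat_lit 78) (nat_lit 76) (nat_lit 0) (XT.lf (nat_lit 0) (nat_lit 1744713973378) (nat_lit 76) (nat_lit 199930398831) (nat_lit 76) (nat_lit 115870094659) (nat_lit 3) (nat_lit 4) (nat_lit 4) (nat_lit 5) (nat_lit 4) (nat_lit 4) (nat_lit 400) (nat_lit 325) (nat_lit 175)) (XT.nd (nat_lit 78) (nat_lit 76) (nat_lit 0) (XT.lf (nat_lit 0) (nat_lit 2050448597219) (nat_lit 76) (nat_lit 126153147307) (nat_lit 76) (nat_lit 42092782782) (nat_lit 3) (nat_lit 4) (nat_lit 4) (nat_lit 5) (nat_lit 4) (nat_lit 4) (nat_lit 401) (nat_lit 325) (nat_lit 174)) (XT.lf (nat_lit 0) (nat_lit 35706356460) (nat_lit 152) (nat_lit 9791198968) (nat_lit 76) (nat_lit 2343959129694) (nat_lit 2) (nat_lit 5) (nat_lit 4) (nat_lit 5) (nat_lit 3) (nat_lit 4) (nat_lit 402) (nat_lit 325) (nat_lit 173)))))) (XT.nd (nat_lit 312) (nat_lit 0) (nat_lit 0) (XT.nd (nat_lit 156) (nat_lit 0) (nat_lit 0) (XT.nd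 (nat_lit 78) (nat_lit 0) (nat_lit 0) (XT.lf (nat_lit 0) (nat_lit 122646585931) (nat_lit 152) (nat_lit 2405917647689) (nat_lit 0) (nat_lit 44812815421) (nat_lit 1) (nat_lit 5) (nat_lit 3) (nat_lit 4) (nat_lit 1) (nat_lit 4) (nat_lit 403) (nat_lit 325) (nat_lit 172)) (XT.lf (nat_lit 0) (nat_lit 217998341863) (nat_lit 152) (nat_lit 2413731668581) (nat_lit 0) (nat_lit 140164526993) (nat_lit 1) (nat_lit 5) (nat_lit 3) (nat_lit 4) (nat_lit 1) (nat_lit 4) (nat_lit 404) (nat_lit 325) (nat_lit 171))) (XT.nd (nat_lit 78) (nat_lit 0) (nat_lit 0) (XT.lf (nat_lit 0) (nat_lit 320978137543) (nat_lit 152) (nat_lit 2422171013835) (nat_lit 0) (nat_lit 243144281597) (nat_lit 1) (nat_lit 5) (nat_lit 3) (nat_lit 4) (nat_lit 1) (nat_lit 4) (nat_lit 405) (nat_lit 325) (nat_lit 170)) (XT.lf (nat_lit 0) (nat_lit 432196223610) (nat_lit 152) (nat_lit 2431285694388) (nat_lit 0) (nat_lit 354362329632) (nat_lit 1)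 (nat_lit 5) (nat_lit 3) (nat_lit 4) (nat_lit 1) (nat_lit 4) (nat_lit 406) (nat_lit 325) (nat_lit 169)))) (XT.nd (nat_lit 156) (nat_lit 0) (nat_lit 0) (XT.nd (nat_lit 78) (nat_lit 0) (nat_lit 0) (XT.lf (nat_lit 0) (nat_lit 552311670205) (nat_lit 152) (nat_lit 2441129723161) (nat_lit 0) (nat_lit 474477741011) (nat_lit 1) (nat_lit 5) (nat_lit 3) (nat_lit 4) (nat_lit 1) (nat_lit 4) (nat_lit 407) (nat_lit 325) (nat_lit 168)) (XT.lf (nat_lit 0) (nat_lit 682036272566) (nat_lit 152) (nat_lit 2451761435138) (nat_lit 0) (nat_lit 604202310765) (nat_lit 1) (nat_lit 5) (nat_lit 3) (nat_lit 4) (nat_lit 1) (nat_lit 4) (nat_lit 408) (nat_lit 325) (nat_lit 167))) (XT.nd (nat_lit 78) (nat_lit 0) (nat_lit 0) (XT.lf (nat_lit 0) (nat_lit 822138769077) (nat_lit 152) (nat_lit 2463243833058) (nat_lit 0) (nat_lit 744304777085) (nat_lit 1) (nat_lit 5) (nat_lit 3) (nat_lit 4) (nat_lit 1) (nat_lit 4) (nat_lit 409)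 (nat_lit 325) (nat_lit 166)) (XT.nd (nat_lit 78) (nat_lit 0) (nat_lit 0) (XT.lf (nat_lit 0) (nat_lit 973449396756) (nat_lit 152) (nat_lit 2475644960761) (nat_lit 0) (nat_lit 895615376809) (nat_lit 1) (nat_lit 5) (nat_lit 3) (nat_lit 4) (nat_lit 1) (nat_lit 4) (nat_lit 410) (nat_lit 325) (nat_lit 165)) (XT.lf (nat_lit 0) (nat_lit 1136864811174) (nat_lit 152) (nat_lit 2489038306410) (nat_lit 0) (nat_lit 1059030765342) (nat_lit 1) (nat_lit 5) (nat_lit 3) (nat_lit 4) (nat_lit 1) (nat_lit 4) (nat_lit 411) (nat_lit 325) (nat_lit 164))))))) (XT.nd (nat_lit 40716) (nat_lit 0) (nat_lit 2964) (XT.nd (nat_lit 40326) (nat_lit 0) (nat_lit 3952) (XT.nd (nat_lit 40170) (nat_lit 0) (nat_lit 4332) (XT.nd (nat_lit 78) (nat_lit 0) (nat_lit 0) (XT.lf (nat_lit 0) (nat_lit 1313353399971) (nat_lit 152) (nat_lit 2503503237979) (nat_lit 0) (nat_lit 1235519330172) (nat_lit 1) (nat_lit 5) (nat_lit 3) (nat_lit 4)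 (nat_lit 1) (nat_lit 4) (nat_lit 412) (nat_lit 325) (nat_lit 163)) (XT.lf (nat_lit 0) (nat_lit 1503961021451) (nat_lit 152) (nat_lit 2519125473582) (nat_lit 0) (nat_lit 1426126929461) (nat_lit 1) (nat_lit 5) (nat_lit 3) (nat_lit 4) (nat_lit 1) (nat_lit 4) (nat_lit 413) (nat_lit 325) (nat_lit 162))) (XT.nd (nat_lit 78) (nat_lit 0) (nat_lit 0) (XT.lf (nat_lit 0) (nat_lit 11935086229) (nat_lit 532) (nat_lit 1573647414) (nat_lit 532) (nat_lit 1573647414) (nat_lit 58) (nat_lit 3) (nat_lit 65) (nat_lit 3) (nat_lit 65) (nat_lit 5) (nat_lit 326) (nat_lit 326) (nat_lit 248)) (XT.lf (nat_lit 76) (nat_lit 11868080569) (nat_lit 0) (nat_lit 13309402426) (nat_lit 532) (nat_lit 6165568742) (nat_lit 59) (nat_lit 5) (nat_lit 58) (nat_lit 3) (nat_lit 65) (nat_lit 5) (nat_lit 327) (nat_lit 326) (nat_lit 247)))) (XT.nd (nat_lit 156) (nat_lit 456) (nat_lit 0) (XT.nd (nat_lit 78) (nat_lit 0) (nat_lit 0) (XT.lf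 (nat_lit 0) (nat_lit 26706897347) (nat_lit 456) (nat_lit 4387688173) (nat_lit 532) (nat_lit 1511627552) (nat_lit 59) (nat_lit 5) (nat_lit 65) (nat_lit 5) (nat_lit 66) (nat_lit 5) (nat_lit 328) (nat_lit 326) (nat_lit 246)) (XT.lf (nat_lit 76) (nat_lit 12165320657) (nat_lit 0) (nat_lit 16825386835) (nat_lit 532) (nat_lit 4929165729) (nat_lit 60) (nat_lit 5) (nat_lit 59) (nat_lit 5) (nat_lit 66) (nat_lit 5) (nat_lit 329) (nat_lit 326) (nat_lit 245))) (XT.nd (nat_lit 78) (nat_lit 456) (nat_lit 0) (XT.lf (nat_lit 76) (nat_lit 30288089478) (nat_lit 0) (nat_lit 1283232925) (nat_lit 532) (nat_lit 3758184407) (nat_lit 60) (nat_lit 5) (nat_lit 59) (nat_lit 5) (nat_lit 66) (nat_lit 5) (nat_lit 330) (nat_lit 326) (nat_lit 244)) (XT.nd (nat_lit 78) (nat_lit 532) (nat_lit 0) (XT.lf (nat_lit 76) (nat_lit 13296904073) (nat_lit 0) (nat_lit 21748712521) (nat_lit 532) (nat_lit 1751324074) (nat_lit 61) (nat_lit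 5) (nat_lit 60) (nat_lit 5) (nat_lit 67) (nat_lit 5) (nat_lit 331) (nat_lit 326) (nat_lit 243)) (XT.lf (nat_lit 0) (nat_lit 564793503) (nat_lit 532) (nat_lit 5033033780) (nat_lit 608) (nat_lit 32769586435) (nat_lit 53) (nat_lit 5) (nat_lit 60) (nat_lit 5) (nat_lit 61) (nat_lit 5) (nat_lit 332) (nat_lit 326) (nat_lit 242)))))) (XT.nd (nat_lit 312) (nat_lit 684) (nat_lit 0) (XT.nd (nat_lit 156) (nat_lit 380) (nat_lit 0) (XT.nd (nat_lit 78) (nat_lit 0) (nat_lit 0) (XT.lf (nat_lit 0) (nat_lit 3638837950) (nat_lit 532) (nat_lit 24681643405) (nat_lit 76) (nat_lit 11686030128) (nat_lit 54) (nat_lit 5) (nat_lit 61) (nat_lit 5) (nat_lit 55) (nat_lit 5) (nat_lit 333) (nat_lit 326) (nat_lit 241)) (XT.lf (nat_lit 0) (nat_lit 7240827102) (nat_lit 532) (nat_lit 4321401088) (nat_lit 76) (nat_lit 30191953058) (nat_lit 54) (nat_lit 5) (nat_lit 61) (nat_lit 5) (nat_lit 55) (nat_lit 5) (nat_lit 334) (nat_lit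 326) (nat_lit 240))) (XT.nd (nat_lit 78) (nat_lit 0) (nat_lit 0) (XT.lf (nat_lit 0) (nat_lit 11742758558) (nat_lit 456) (nat_lit 25181278816) (nat_lit 76) (nat_lit 6668690004) (nat_lit 49) (nat_lit 5) (nat_lit 55) (nat_lit 5) (nat_lit 50) (nat_lit 5) (nat_lit 335) (nat_lit 326) (nat_lit 239)) (XT.lf (nat_lit 0) (nat_lit 17022381659) (nat_lit 456) (nat_lit 2667844003) (nat_lit 76) (nat_lit 25854733598) (nat_lit 49) (nat_lit 5) (nat_lit 55) (nat_lit 5) (nat_lit 50) (nat_lit 5) (nat_lit 336) (nat_lit 326) (nat_lit 238)))) (XT.nd (nat_lit 156) (nat_lit 228) (nat_lit 0) (XT.nd (nat_lit 78) (nat_lit 228) (nat_lit 0) (XT.lf (nat_lit 0) (nat_lit 22782407289) (nat_lit 228) (nat_lit 486177165) (nat_lit 304) (nat_lit 24341253113) (nat_lit 46) (nat_lit 5) (nat_lit 49) (nat_lit 5) (nat_lit 50) (nat_lit 5) (nat_lit 337) (nat_lit 326) (nat_lit 237)) (XT.lf (nat_lit 0) (nat_lit 98124525) (nat_lit 228)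 (nat_lit 30477138677) (nat_lit 304) (nat_lit 19219784873) (nat_lit 43) (nat_lit 5) (nat_lit 46) (nat_lit 5) (nat_lit 47) (nat_lit 5) (nat_lit 338) (nat_lit 326) (nat_lit 236))) (XT.nd (nat_lit 78) (nat_lit 228) (nat_lit 0) (XT.lf (nat_lit 0) (nat_lit 28412386455) (nat_lit 228) (nat_lit 10741857142) (nat_lit 304) (nat_lit 12945814434) (nat_lit 43) (nat_lit 5) (nat_lit 46) (nat_lit 5) (nat_lit 47) (nat_lit 5) (nat_lit 339) (nat_lit 326) (nat_lit 235)) (XT.nd (nat_lit 78) (nat_lit 76) (nat_lit 0) (XT.lf (nat_lit 0) (nat_lit 4362334653) (nat_lit 152) (nat_lit 44413253190) (nat_lit 228) (nat_lit 5785401007) (nat_lit 41) (nat_lit 5) (nat_lit 43) (nat_lit 5) (nat_lit 44) (nat_lit 5) (nat_lit 340) (nat_lit 326) (nat_lit 234)) (XT.lf (nat_lit 0) (nat_lit 2790827884) (nat_lit 228) (nat_lit 21510188154) (nat_lit 76) (nat_lit 32838799890) (nat_lit 40) (nat_lit 5) (nat_lit 43) (nat_lit 5) (nat_lit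 41) (nat_lit 5) (nat_lit 341) (nat_lit 326) (nat_lit 233))))))))
noncomputable def xc170 : XT := (XT.nd (nat_lit 1404) (nat_lit 760) (nat_lit 0) (XT.nd (nat_lit 702) (nat_lit 684) (nat_lit 0) (XT.nd (nat_lit 312) (nat_lit 532) (nat_lit 0) (XT.nd (nat_lit 156) (nat_lit 152) (nat_lit 0) (XT.nd (nat_lit 78) (nat_lit 0) (nat_lit 0) (XT.lf (nat_lit 0) (nat_lit 9810113784) (nat_lit 228) (nat_lit 2163567392) (nat_lit 304) (nat_lit 47920602279) (nat_lit 37) (nat_lit 5) (nat_lit 40) (nat_lit 5) (nat_lit 41) (nat_lit 5) (nat_lit 342) (nat_lit 326) (nat_lit 232)) (XT.lf (nat_lit 0) (nat_lit 23014786935) (nat_lit 304) (nat_lit 18504773490) (nat_lit 76) (nat_lit 21259660741) (nat_lit 37) (nat_lit 5) (nat_lit 41) (nat_lit 5) (nat_lit 38) (nat_lit 5) (nat_lit 343) (nat_lit 326) (nat_lit 231))) (XT.nd (nat_lit 78) (nat_lit 0) (nat_lit 0) (XT.lf (nat_lit 0) (nat_lit 16359617193) (nat_lit 152) (nat_lit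 19026669616) (nat_lit 228) (nat_lit 30472901152) (nat_lit 35) (nat_lit 5) (nat_lit 37) (nat_lit 5) (nat_lit 38) (nat_lit 5) (nat_lit 344) (nat_lit 326) (nat_lit 230)) (XT.lf (nat_lit 0) (nat_lit 49390781585) (nat_lit 228) (nat_lit 14222932813) (nat_lit 76) (nat_lit 5520378041) (nat_lit 35) (nat_lit 5) (nat_lit 38) (nat_lit 5) (nat_lit 36) (nat_lit 5) (nat_lit 345) (nat_lit 326) (nat_lit 229)))) (XT.nd (nat_lit 156) (nat_lit 304) (nat_lit 0) (XT.nd (nat_lit 78) (nat_lit 76) (nat_lit 0) (XT.lf (nat_lit 0) (nat_lit 24609345875) (nat_lit 152) (nat_lit 40990067690) (nat_lit 228) (nat_lit 6984875658) (nat_lit 33) (nat_lit 5) (nat_lit 35) (nat_lit 5) (nat_lit 36) (nat_lit 5) (nat_lit 346) (nat_lit 326) (nat_lit 228)) (XT.lf (nat_lit 0) (nat_lit 6851094689) (nat_lit 228) (nat_lit 9099201490) (nat_lit 76) (nat_lit 60315396466) (nat_lit 32) (nat_lit 5) (nat_lit 35) (nat_lit 5) (nat_lit 33) (nat_lit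 5) (nat_lit 347) (nat_lit 326) (nat_lit 227))) (XT.nd (nat_lit 78) (nat_lit 152) (nat_lit 0) (XT.lf (nat_lit 0) (nat_lit 22535368027) (nat_lit 228) (nat_lit 46029928814) (nat_lit 76) (nat_lit 11572295978) (nat_lit 30) (nat_lit 5) (nat_lit 33) (nat_lit 5) (nat_lit 31) (nat_lit 5) (nat_lit 348) (nat_lit 326) (nat_lit 226)) (XT.nd (nat_lit 78) (nat_lit 152) (nat_lit 0) (XT.lf (nat_lit 0) (nat_lit 40141902902) (nat_lit 228) (nat_lit 3434730439) (nat_lit 76) (nat_lit 40689211682) (nat_lit 30) (nat_lit 5) (nat_lit 33) (nat_lit 5) (nat_lit 31) (nat_lit 5) (nat_lit 349) (nat_lit 326) (nat_lit 225)) (XT.lf (nat_lit 0) (nat_lit 44806533012) (nat_lit 152) (nat_lit 15426151617) (nat_lit 228) (nat_lit 28405616318) (nat_lit 28) (nat_lit 5) (nat_lit 30) (nat_lit 5) (nat_lit 31) (nat_lit 5) (nat_lit 350) (nat_lit 326) (nat_lit 224)))))) (XT.nd (nat_lit 312) (nat_lit 380) (nat_lit 0) (XT.nd (nat_lit 156)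 (nat_lit 152) (nat_lit 0) (XT.nd (nat_lit 78) (nat_lit 76) (nat_lit 0) (XT.lf (nat_lit 0) (nat_lit 3561955342) (nat_lit 76) (nat_lit 78909141120) (nat_lit 152) (nat_lit 10846228837) (nat_lit 27) (nat_lit 5) (nat_lit 28) (nat_lit 5) (nat_lit 29) (nat_lit 4) (nat_lit 351) (nat_lit 326) (nat_lit 223)) (XT.lf (nat_lit 0) (nat_lit 9340252432) (nat_lit 152) (nat_lit 41664932762) (nat_lit 76) (nat_lit 47219594016) (nat_lit 26) (nat_lit 5) (nat_lit 28) (nat_lit 5) (nat_lit 27) (nat_lit 5) (nat_lit 352) (nat_lit 326) (nat_lit 222))) (XT.nd (nat_lit 78) (nat_lit 0) (nat_lit 0) (XT.lf (nat_lit 0) (nat_lit 10514184284) (nat_lit 152) (nat_lit 20292678235) (nat_lit 228) (nat_lit 72675335307) (nat_lit 24) (nat_lit 5) (nat_lit 26) (nat_lit 5) (nat_lit 27) (nat_lit 5) (nat_lit 353) (nat_lit 326) (nat_lit 221)) (XT.lf (nat_lit 0) (nat_lit 55467626116) (nat_lit 228) (nat_lit 40174029713) (nat_lit 76) (nat_lit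 13400409126) (nat_lit 24) (nat_lit 5) (nat_lit 27) (nat_lit 5) (nat_lit 25) (nat_lit 4) (nat_lit 354) (nat_lit 326) (nat_lit 220)))) (XT.nd (nat_lit 156) (nat_lit 304) (nat_lit 0) (XT.nd (nat_lit 78) (nat_lit 0) (nat_lit 0) (XT.lf (nat_lit 0) (nat_lit 17172824030) (nat_lit 76) (nat_lit 65866992187) (nat_lit 152) (nat_lit 31931820929) (nat_lit 23) (nat_lit 5) (nat_lit 24) (nat_lit 5) (nat_lit 25) (nat_lit 4) (nat_lit 355) (nat_lit 326) (nat_lit 219)) (XT.lf (nat_lit 0) (nat_lit 81389604632) (nat_lit 76) (nat_lit 32525133557) (nat_lit 152) (nat_lit 7373081247) (nat_lit 23) (nat_lit 5) (nat_lit 24) (nat_lit 5) (nat_lit 25) (nat_lit 4) (nat_lit 356) (nat_lit 326) (nat_lit 218))) (XT.nd (nat_lit 78) (nat_lit 76) (nat_lit 0) (XT.lf (nat_lit 0) (nat_lit 18862590563) (nat_lit 228) (nat_lit 104799035194) (nat_lit 76) (nat_lit 4357209052) (nat_lit 20) (nat_lit 5) (nat_lit 23) (nat_lit 5) (nat_lit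 21) (nat_lit 4) (nat_lit 357) (nat_lit 326) (nat_lit 217)) (XT.nd (nat_lit 78) (nat_lit 76) (nat_lit 0) (XT.lf (nat_lit 0) (nat_lit 48761431791) (nat_lit 228) (nat_lit 42611872263) (nat_lit 76) (nat_lit 43742695063) (nat_lit 20) (nat_lit 5) (nat_lit 23) (nat_lit 5) (nat_lit 21) (nat_lit 4) (nat_lit 358) (nat_lit 326) (nat_lit 216)) (XT.lf (nat_lit 0) (nat_lit 25840637523) (nat_lit 76) (nat_lit 55831735059) (nat_lit 152) (nat_lit 61058949236) (nat_lit 19) (nat_lit 5) (nat_lit 20) (nat_lit 5) (nat_lit 21) (nat_lit 4) (nat_lit 359) (nat_lit 326) (nat_lit 215))))))) (XT.nd (nat_lit 702) (nat_lit 304) (nat_lit 0) (XT.nd (nat_lit 312) (nat_lit 228) (nat_lit 0) (XT.nd (nat_lit 156) (nat_lit 152) (nat_lit 0) (XT.nd (nat_lit 78) (nat_lit 76) (nat_lit 0) (XT.lf (nat_lit 0) (nat_lit 102190501213) (nat_lit 76) (nat_lit 16189536898) (nat_lit 152) (nat_lit 32482724851) (nat_lit 19) (nat_lit 5) (nat_lit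 20) (nat_lit 5) (nat_lit 21) (nat_lit 4) (nat_lit 360) (nat_lit 326) (nat_lit 214)) (XT.lf (nat_lit 0) (nat_lit 25644016167) (nat_lit 76) (nat_lit 133636183496) (nat_lit 76) (nat_lit 264049652) (nat_lit 18) (nat_lit 4) (nat_lit 19) (nat_lit 5) (nat_lit 19) (nat_lit 4) (nat_lit 361) (nat_lit 326) (nat_lit 213))) (XT.nd (nat_lit 78) (nat_lit 76) (nat_lit 0) (XT.lf (nat_lit 0) (nat_lit 34589383789) (nat_lit 152) (nat_lit 61427867218) (nat_lit 76) (nat_lit 72693788112) (nat_lit 17) (nat_lit 5) (nat_lit 19) (nat_lit 5) (nat_lit 18) (nat_lit 4) (nat_lit 362) (nat_lit 326) (nat_lit 212)) (XT.lf (nat_lit 0) (nat_lit 17719872627) (nat_lit 76) (nat_lit 54922044410) (nat_lit 152) (nat_lit 105934699571) (nat_lit 16) (nat_lit 5) (nat_lit 17) (nat_lit 5) (nat_lit 18) (nat_lit 4) (nat_lit 363) (nat_lit 326) (nat_lit 211)))) (XT.nd (nat_lit 156) (nat_lit 152) (nat_lit 0) (XT.nd (nat_lit 78) (nat_lit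 76) (nat_lit 0) (XT.lf (nat_lit 0) (nat_lit 106690962220) (nat_lit 76) (nat_lit 8726197904) (nat_lit 152) (nat_lit 73679999993) (nat_lit 16) (nat_lit 5) (nat_lit 17) (nat_lit 5) (nat_lit 18) (nat_lit 4) (nat_lit 364) (nat_lit 326) (nat_lit 210)) (XT.lf (nat_lit 0) (nat_lit 1398481134) (nat_lit 76) (nat_lit 161238619558) (nat_lit 76) (nat_lit 37740432542) (nat_lit 15) (nat_lit 4) (nat_lit 16) (nat_lit 5) (nat_lit 16) (nat_lit 4) (nat_lit 365) (nat_lit 326) (nat_lit 209))) (XT.nd (nat_lit 78) (nat_lit 76) (nat_lit 0) (XT.lf (nat_lit 0) (nat_lit 3557890533) (nat_lit 152) (nat_lit 116098898795) (nat_lit 76) (nat_lit 92698493744) (nat_lit 14) (nat_lit 5) (nat_lit 16) (nat_lit 5) (nat_lit 15) (nat_lit 4) (nat_lit 366) (nat_lit 326) (nat_lit 208)) (XT.nd (nat_lit 78) (nat_lit 76) (nat_lit 0) (XT.lf (nat_lit 0) (nat_lit 46120210463) (nat_lit 152) (nat_lit 27570314164) (nat_lit 76) (nat_lit 151522379313)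 (nat_lit 14) (nat_lit 5) (nat_lit 16) (nat_lit 5) (nat_lit 15) (nat_lit 4) (nat_lit 367) (nat_lit 326) (nat_lit 207)) (XT.lf (nat_lit 0) (nat_lit 71621785728) (nat_lit 76) (nat_lit 22187397628) (nat_lit 152) (nat_lit 145152218003) (nat_lit 13) (nat_lit 5) (nat_lit 14) (nat_lit 5) (nat_lit 15) (nat_lit 4) (nat_lit 368) (nat_lit 326) (nat_lit 206)))))) (XT.nd (nat_lit 312) (nat_lit 152) (nat_lit 0) (XT.nd (nat_lit 156) (nat_lit 76) (nat_lit 0) (XT.nd (nat_lit 78) (nat_lit 76) (nat_lit 0) (XT.lf (nat_lit 0) (nat_lit 146889980342) (nat_lit 152) (nat_lit 74257577926) (nat_lit 0) (nat_lit 32536084053) (nat_lit 13) (nat_lit 5) (nat_lit 15) (nat_lit 4) (nat_lit 13) (nat_lit 4) (nat_lit 369) (nat_lit 326) (nat_lit 205)) (XT.lf (nat_lit 0) (nat_lit 27046214829) (nat_lit 76) (nat_lit 178397015090) (nat_lit 76) (nat_lit 64042353765) (nat_lit 12) (nat_lit 4) (nat_lit 13) (nat_lit 5) (nat_lit 13) (nat_lit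 4) (nat_lit 370) (nat_lit 326) (nat_lit 204))) (XT.nd (nat_lit 78) (nat_lit 76) (nat_lit 0) (XT.lf (nat_lit 0) (nat_lit 140675969425) (nat_lit 76) (nat_lit 130034356942) (nat_lit 76) (nat_lit 15678987250) (nat_lit 12) (nat_lit 4) (nat_lit 13) (nat_lit 5) (nat_lit 13) (nat_lit 4) (nat_lit 371) (nat_lit 326) (nat_lit 203)) (XT.lf (nat_lit 0) (nat_lit 34724187346) (nat_lit 152) (nat_lit 42129715907) (nat_lit 76) (nat_lit 227721166749) (nat_lit 11) (nat_lit 5) (nat_lit 13) (nat_lit 5) (nat_lit 12) (nat_lit 4) (nat_lit 372) (nat_lit 326) (nat_lit 202)))) (XT.nd (nat_lit 156) (nat_lit 76) (nat_lit 0) (XT.nd (nat_lit 78) (nat_lit 0) (nat_lit 0) (XT.lf (nat_lit 0) (nat_lit 72982995466) (nat_lit 76) (nat_lit 17084133554) (nat_lit 152) (nat_lit 233975611479) (nat_lit 10) (nat_lit 5) (nat_lit 11) (nat_lit 5) (nat_lit 12) (nat_lit 4) (nat_lit 373) (nat_lit 326) (nat_lit 201)) (XT.lf (nat_lit 0) (nat_lit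 152160261913) (nat_lit 152) (nat_lit 146447772370) (nat_lit 0) (nat_lit 46273970041) (nat_lit 10) (nat_lit 5) (nat_lit 12) (nat_lit 4) (nat_lit 10) (nat_lit 4) (nat_lit 374) (nat_lit 326) (nat_lit 200))) (XT.nd (nat_lit 78) (nat_lit 76) (nat_lit 0) (XT.lf (nat_lit 0) (nat_lit 219663985048) (nat_lit 152) (nat_lit 33911762110) (nat_lit 0) (nat_lit 113777211073) (nat_lit 10) (nat_lit 5) (nat_lit 12) (nat_lit 4) (nat_lit 10) (nat_lit 4) (nat_lit 375) (nat_lit 326) (nat_lit 199)) (XT.nd (nat_lit 78) (nat_lit 0) (nat_lit 0) (XT.lf (nat_lit 0) (nat_lit 92240271587) (nat_lit 76) (nat_lit 202545555827) (nat_lit 76) (nat_lit 96658335461) (nat_lit 9) (nat_lit 4) (nat_lit 10) (nat_lit 5) (nat_lit 10) (nat_lit 4) (nat_lit 376) (nat_lit 326) (nat_lit 198)) (XT.lf (nat_lit 0) (nat_lit 230411998179) (nat_lit 76) (nat_lit 146432083197) (nat_lit 76) (nat_lit 40544449505) (nat_lit 9) (nat_lit 4) (nat_lit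 10) (nat_lit 5) (nat_lit 10) (nat_lit 4) (nat_lit 377) (nat_lit 326) (nat_lit 197))))))))
noncomputable def xc171 : XT := (XT.nd (nat_lit 1404) (nat_lit 152) (nat_lit 0) (XT.nd (nat_lit 702) (nat_lit 228) (nat_lit 0) (XT.nd (nat_lit 312) (nat_lit 76) (nat_lit 0) (XT.nd (nat_lit 156) (nat_lit 0) (nat_lit 0) (XT.nd (nat_lit 78) (nat_lit 76) (nat_lit 0) (XT.lf (nat_lit 0) (nat_lit 19054621159) (nat_lit 152) (nat_lit 66254404389) (nat_lit 76) (nat_lit 360060871514) (nat_lit 8) (nat_lit 5) (nat_lit 10) (nat_lit 5) (nat_lit 9) (nat_lit 4) (nat_lit 378) (nat_lit 326) (nat_lit 196)) (XT.lf (nat_lit 0) (nat_lit 66392687139) (nat_lit 76) (nat_lit 16434744542) (nat_lit 152) (nat_lit 392550391341) (nat_lit 7) (nat_lit 5) (nat_lit 8) (nat_lit 5) (nat_lit 9) (nat_lit 4) (nat_lit 379) (nat_lit 326) (nat_lit 195))) (XT.nd (nat_lit 78) (nat_lit 0) (nat_lit 0) (XT.lf (nat_lit 0) (nat_lit 154953843110)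 (nat_lit 152) (nat_lit 295663646395) (nat_lit 0) (nat_lit 56908751562) (nat_lit 7) (nat_lit 5) (nat_lit 9) (nat_lit 4) (nat_lit 7) (nat_lit 4) (nat_lit 380) (nat_lit 326) (nat_lit 194)) (XT.lf (nat_lit 0) (nat_lit 233276803739) (nat_lit 152) (nat_lit 173704183110) (nat_lit 0) (nat_lit 135231430889) (nat_lit 7) (nat_lit 5) (nat_lit 9) (nat_lit 4) (nat_lit 7) (nat_lit 4) (nat_lit 381) (nat_lit 326) (nat_lit 193)))) (XT.nd (nat_lit 156) (nat_lit 0) (nat_lit 0) (XT.nd (nat_lit 78) (nat_lit 76) (nat_lit 0) (XT.lf (nat_lit 0) (nat_lit 317865193631) (nat_lit 152) (nat_lit 41988767282) (nat_lit 0) (nat_lit 219819560316) (nat_lit 7) (nat_lit 5) (nat_lit 9) (nat_lit 4) (nat_lit 7) (nat_lit 4) (nat_lit 382) (nat_lit 326) (nat_lit 192)) (XT.lf (nat_lit 0) (nat_lit 105542815994) (nat_lit 76) (nat_lit 306215768587) (nat_lit 76) (nat_lit 208169894101) (nat_lit 6) (nat_lit 4) (nat_lit 7) (nat_lit 5)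 (nat_lit 7) (nat_lit 4) (nat_lit 383) (nat_lit 326) (nat_lit 191))) (XT.nd (nat_lit 78) (nat_lit 0) (nat_lit 0) (XT.lf (nat_lit 0) (nat_lit 267264138266) (nat_lit 76) (nat_lit 247046988946) (nat_lit 76) (nat_lit 149000891154) (nat_lit 6) (nat_lit 4) (nat_lit 7) (nat_lit 5) (nat_lit 7) (nat_lit 4) (nat_lit 384) (nat_lit 326) (nat_lit 190)) (XT.nd (nat_lit 78) (nat_lit 0) (nat_lit 0) (XT.lf (nat_lit 0) (nat_lit 441922494037) (nat_lit 76) (nat_lit 183145039494) (nat_lit 76) (nat_lit 85098734936) (nat_lit 6) (nat_lit 4) (nat_lit 7) (nat_lit 5) (nat_lit 7) (nat_lit 4) (nat_lit 385) (nat_lit 326) (nat_lit 189)) (XT.lf (nat_lit 0) (nat_lit 630552895784) (nat_lit 76) (nat_lit 114131242010) (nat_lit 76) (nat_lit 16084746003) (nat_lit 6) (nat_lit 4) (nat_lit 7) (nat_lit 5) (nat_lit 7) (nat_lit 4) (nat_lit 386) (nat_lit 326) (nat_lit 188)))))) (XT.nd (nat_lit 312) (nat_lit 76) (nat_lit 0) (XT.nd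 (nat_lit 156) (nat_lit 0) (nat_lit 0) (XT.nd (nat_lit 78) (nat_lit 0) (nat_lit 0) (XT.lf (nat_lit 0) (nat_lit 18366461320) (nat_lit 76) (nat_lit 37601391850) (nat_lit 152) (nat_lit 759304083428) (nat_lit 4) (nat_lit 5) (nat_lit 5) (nat_lit 5) (nat_lit 6) (nat_lit 4) (nat_lit 387) (nat_lit 326) (nat_lit 187)) (XT.lf (nat_lit 0) (nat_lit 137651654769) (nat_lit 152) (nat_lit 689203730913) (nat_lit 0) (nat_lit 46867546053) (nat_lit 4) (nat_lit 5) (nat_lit 6) (nat_lit 4) (nat_lit 4) (nat_lit 4) (nat_lit 388) (nat_lit 326) (nat_lit 186))) (XT.nd (nat_lit 78) (nat_lit 0) (nat_lit 0) (XT.lf (nat_lit 0) (nat_lit 226846544552) (nat_lit 152) (nat_lit 573863056134) (nat_lit 0) (nat_lit 136062295116) (nat_lit 4) (nat_lit 5) (nat_lit 6) (nat_lit 4) (nat_lit 4) (nat_lit 4) (nat_lit 389) (nat_lit 326) (nat_lit 185)) (XT.lf (nat_lit 0) (nat_lit 323176770453) (nat_lit 152) (nat_lit 449295636268) (nat_lit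 0) (nat_lit 232392390718) (nat_lit 4) (nat_lit 5) (nat_lit 6) (nat_lit 4) (nat_lit 4) (nat_lit 4) (nat_lit 390) (nat_lit 326) (nat_lit 184)))) (XT.nd (nat_lit 156) (nat_lit 76) (nat_lit 0) (XT.nd (nat_lit 78) (nat_lit 0) (nat_lit 0) (XT.lf (nat_lit 0) (nat_lit 427213178253) (nat_lit 152) (nat_lit 314763294011) (nat_lit 0) (nat_lit 336428677873) (nat_lit 4) (nat_lit 5) (nat_lit 6) (nat_lit 4) (nat_lit 4) (nat_lit 4) (nat_lit 391) (nat_lit 326) (nat_lit 183)) (XT.lf (nat_lit 0) (nat_lit 539572279999) (nat_lit 152) (nat_lit 169468800669) (nat_lit 0) (nat_lit 448787667910) (nat_lit 4) (nat_lit 5) (nat_lit 6) (nat_lit 4) (nat_lit 4) (nat_lit 4) (nat_lit 392) (nat_lit 326) (nat_lit 182))) (XT.nd (nat_lit 78) (nat_lit 76) (nat_lit 0) (XT.lf (nat_lit 0) (nat_lit 660919907405) (nat_lit 152) (nat_lit 12551151838) (nat_lit 0) (nat_lit 570135191882) (nat_lit 4) (nat_lit 5) (nat_lit 6) (nat_lit 4)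 (nat_lit 4) (nat_lit 4) (nat_lit 393) (nat_lit 326) (nat_lit 181)) (XT.nd (nat_lit 78) (nat_lit 0) (nat_lit 0) (XT.lf (nat_lit 0) (nat_lit 165182639466) (nat_lit 76) (nat_lit 630765164508) (nat_lit 76) (nat_lit 539980353212) (nat_lit 3) (nat_lit 4) (nat_lit 4) (nat_lit 5) (nat_lit 4) (nat_lit 4) (nat_lit 394) (nat_lit 326) (nat_lit 180)) (XT.lf (nat_lit 0) (nat_lit 357848564619) (nat_lit 76) (nat_lit 584272356023) (nat_lit 76) (nat_lit 493487456049) (nat_lit 3) (nat_lit 4) (nat_lit 4) (nat_lit 5) (nat_lit 4) (nat_lit 4) (nat_lit 395) (nat_lit 326) (nat_lit 179))))))) (XT.nd (nat_lit 702) (nat_lit 0) (nat_lit 0) (XT.nd (nat_lit 312) (nat_lit 152) (nat_lit 0) (XT.nd (nat_lit 156) (nat_lit 0) (nat_lit 0) (XT.nd (nat_lit 78) (nat_lit 0) (nat_lit 0) (XT.lf (nat_lit 0) (nat_lit 565927426206) (nat_lit 76) (nat_lit 534060291583) (nat_lit 76) (nat_lit 443275309499) (nat_lit 3) (nat_lit 4) (nat_lit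 4) (nat_lit 5) (nat_lit 4) (nat_lit 4) (nat_lit 396) (nat_lit 326) (nat_lit 178)) (XT.lf (nat_lit 0) (nat_lit 790652284148) (nat_lit 76) (nat_lit 479831418213) (nat_lit 76) (nat_lit 389046360102) (nat_lit 3) (nat_lit 4) (nat_lit 4) (nat_lit 5) (nat_lit 4) (nat_lit 4) (nat_lit 397) (nat_lit 326) (nat_lit 177))) (XT.nd (nat_lit 78) (nat_lit 0) (nat_lit 0) (XT.lf (nat_lit 0) (nat_lit 1033354841308) (nat_lit 76) (nat_lit 421264379627) (nat_lit 76) (nat_lit 330479251121) (nat_lit 3) (nat_lit 4) (nat_lit 4) (nat_lit 5) (nat_lit 4) (nat_lit 4) (nat_lit 398) (nat_lit 326) (nat_lit 176)) (XT.lf (nat_lit 0) (nat_lit 1295473335062) (nat_lit 76) (nat_lit 358012111892) (nat_lit 76) (nat_lit 267226918205) (nat_lit 3) (nat_lit 4) (nat_lit 4) (nat_lit 5) (nat_lit 4) (nat_lit 4) (nat_lit 399) (nat_lit 326) (nat_lit 175)))) (XT.nd (nat_lit 156) (nat_lit 152) (nat_lit 0) (XT.nd (nat_lit 78) (nat_lit 0)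 (nat_lit 0) (XT.lf (nat_lit 0) (nat_lit 1578561060186) (nat_lit 76) (nat_lit 289699786756) (nat_lit 76) (nat_lit 198914532716) (nat_lit 3) (nat_lit 4) (nat_lit 4) (nat_lit 5) (nat_lit 4) (nat_lit 4) (nat_lit 400) (nat_lit 326) (nat_lit 174)) (XT.lf (nat_lit 0) (nat_lit 1884295573570) (nat_lit 76) (nat_lit 215922590439) (nat_lit 76) (nat_lit 125137280516) (nat_lit 3) (nat_lit 4) (nat_lit 4) (nat_lit 5) (nat_lit 4) (nat_lit 4) (nat_lit 401) (nat_lit 326) (nat_lit 173))) (XT.nd (nat_lit 78) (nat_lit 152) (nat_lit 0) (XT.lf (nat_lit 0) (nat_lit 2214488635295) (nat_lit 76) (nat_lit 136243324741) (nat_lit 76) (nat_lit 45457963076) (nat_lit 3) (nat_lit 4) (nat_lit 4) (nat_lit 5) (nat_lit 4) (nat_lit 4) (nat_lit 402) (nat_lit 326) (nat_lit 172)) (XT.nd (nat_lit 78) (nat_lit 76) (nat_lit 0) (XT.lf (nat_lit 0) (nat_lit 38564837346) (nat_lit 152) (nat_lit 10570547894) (nat_lit 76) (nat_lit 2531477676642)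 (nat_lit 2) (nat_lit 5) (nat_lit 4) (nat_lit 5) (nat_lit 3) (nat_lit 4) (nat_lit 403) (nat_lit 326) (nat_lit 171)) (XT.lf (nat_lit 0) (nat_lit 132460277970) (nat_lit 152) (nat_lit 2598387105065) (nat_lit 0) (nat_lit 48399672473) (nat_lit 1) (nat_lit 5) (nat_lit 3) (nat_lit 4) (nat_lit 1) (nat_lit 4) (nat_lit 404) (nat_lit 326) (nat_lit 170)))))) (XT.nd (nat_lit 312) (nat_lit 0) (nat_lit 0) (XT.nd (nat_lit 156) (nat_lit 0) (nat_lit 0) (XT.nd (nat_lit 78) (nat_lit 0) (nat_lit 0) (XT.lf (nat_lit 0) (nat_lit 235440028810) (nat_lit 152) (nat_lit 2606826540550) (nat_lit 0) (nat_lit 151379385280) (nat_lit 1) (nat_lit 5) (nat_lit 3) (nat_lit 4) (nat_lit 1) (nat_lit 4) (nat_lit 405) (nat_lit 326) (nat_lit 169)) (XT.lf (nat_lit 0) (nat_lit 346658073359) (nat_lit 152) (nat_lit 2615941304648) (nat_lit 0) (nat_lit 262597394614) (nat_lit 1) (nat_lit 5) (nat_lit 3) (nat_lit 4) (nat_lit 1) (nat_lit 4)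 (nat_lit 406) (nat_lit 326) (nat_lit 168))) (XT.nd (nat_lit 78) (nat_lit 0) (nat_lit 0) (XT.lf (nat_lit 0) (nat_lit 466773481510) (nat_lit 152) (nat_lit 2625785410778) (nat_lit 0) (nat_lit 382712770159) (nat_lit 1) (nat_lit 5) (nat_lit 3) (nat_lit 4) (nat_lit 1) (nat_lit 4) (nat_lit 407) (nat_lit 326) (nat_lit 167)) (XT.lf (nat_lit 0) (nat_lit 596498048276) (nat_lit 152) (nat_lit 2636417194383) (nat_lit 0) (nat_lit 512437306733) (nat_lit 1) (nat_lit 5) (nat_lit 3) (nat_lit 4) (nat_lit 1) (nat_lit 4) (nat_lit 408) (nat_lit 326) (nat_lit 166)))) (XT.nd (nat_lit 156) (nat_lit 0) (nat_lit 0) (XT.nd (nat_lit 78) (nat_lit 0) (nat_lit 0) (XT.lf (nat_lit 0) (nat_lit 736600511829) (nat_lit 152) (nat_lit 2647899658624) (nat_lit 0) (nat_lit 652539742331) (nat_lit 1) (nat_lit 5) (nat_lit 3) (nat_lit 4) (nat_lit 1) (nat_lit 4) (nat_lit 409) (nat_lit 326) (nat_lit 165)) (XT.lf (nat_lit 0) (nat_lit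 887911108991) (nat_lit 152) (nat_lit 2660300847736) (nat_lit 0) (nat_lit 803850313609) (nat_lit 1) (nat_lit 5) (nat_lit 3) (nat_lit 4) (nat_lit 1) (nat_lit 4) (nat_lit 410) (nat_lit 326) (nat_lit 164))) (XT.nd (nat_lit 78) (nat_lit 0) (nat_lit 0) (XT.lf (nat_lit 0) (nat_lit 1051326495152) (nat_lit 152) (nat_lit 2673694250244) (nat_lit 0) (nat_lit 967265675802) (nat_lit 1) (nat_lit 5) (nat_lit 3) (nat_lit 4) (nat_lit 1) (nat_lit 4) (nat_lit 411) (nat_lit 326) (nat_lit 163)) (XT.nd (nat_lit 78) (nat_lit 0) (nat_lit 0) (XT.lf (nat_lit 0) (nat_lit 1227815057785) (nat_lit 152) (nat_lit 2688159234462) (nat_lit 0) (nat_lit 1143754216244) (nat_lit 1) (nat_lit 5) (nat_lit 3) (nat_lit 4) (nat_lit 1) (nat_lit 4) (nat_lit 412) (nat_lit 326) (nat_lit 162)) (XT.lf (nat_lit 0) (nat_lit 1418422655040) (nat_lit 152) (nat_lit 2703781518813) (nat_lit 0) (nat_lit 1334361792951) (nat_lit 1) (nat_lit 5) (nat_lit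 3) (nat_lit 4) (nat_lit 1) (nat_lit 4) (nat_lit 413) (nat_lit 326) (nat_lit 161))))))))
noncomputable def xc172 : XT := (XT.nd (nat_lit 1404) (nat_lit 1444) (nat_lit 0) (XT.nd (nat_lit 702) (nat_lit 1216) (nat_lit 0) (XT.nd (nat_lit 312) (nat_lit 380) (nat_lit 0) (XT.nd (nat_lit 156) (nat_lit 0) (nat_lit 76) (XT.nd (nat_lit 78) (nat_lit 0) (nat_lit 0) (XT.lf (nat_lit 0) (nat_lit 12955355963) (nat_lit 532) (nat_lit 1664140199) (nat_lit 532) (nat_lit 1664140199) (nat_lit 58) (nat_lit 3) (nat_lit 65) (nat_lit 3) (nat_lit 65) (nat_lit 5) (nat_lit 327) (nat_lit 327) (nat_lit 246)) (XT.lf (nat_lit 76) (nat_lit 12886532675) (nat_lit 0) (nat_lit 14428036021) (nat_lit 532) (nat_lit 6525914450) (nat_lit 59) (nat_lit 5) (nat_lit 58) (nat_lit 3) (nat_lit 65) (nat_lit 5) (nat_lit 328) (nat_lit 327) (nat_lit 245))) (XT.nd (nat_lit 78) (nat_lit 0) (nat_lit 0) (XT.lf (nat_lit 0) (nat_lit 28956033591)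 (nat_lit 456) (nat_lit 4664338190) (nat_lit 532) (nat_lit 1585163280) (nat_lit 59) (nat_lit 5) (nat_lit 65) (nat_lit 5) (nat_lit 66) (nat_lit 5) (nat_lit 329) (nat_lit 327) (nat_lit 244)) (XT.lf (nat_lit 76) (nat_lit 13211028687) (nat_lit 0) (nat_lit 18204923473) (nat_lit 532) (nat_lit 5208876037) (nat_lit 60) (nat_lit 5) (nat_lit 59) (nat_lit 5) (nat_lit 66) (nat_lit 5) (nat_lit 330) (nat_lit 327) (nat_lit 243)))) (XT.nd (nat_lit 156) (nat_lit 456) (nat_lit 0) (XT.nd (nat_lit 78) (nat_lit 0) (nat_lit 76) (XT.lf (nat_lit 76) (nat_lit 32778249950) (nat_lit 0) (nat_lit 1416915348) (nat_lit 532) (nat_lit 3952706799) (nat_lit 60) (nat_lit 5) (nat_lit 59) (nat_lit 5) (nat_lit 66) (nat_lit 5) (nat_lit 331) (nat_lit 327) (nat_lit 242)) (XT.lf (nat_lit 76) (nat_lit 14434590722) (nat_lit 0) (nat_lit 23506630154) (nat_lit 532) (nat_lit 1791985046) (nat_lit 61) (nat_lit 5) (nat_lit 60) (nat_lit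 5) (nat_lit 67) (nat_lit 5) (nat_lit 332) (nat_lit 327) (nat_lit 241))) (XT.nd (nat_lit 78) (nat_lit 0) (nat_lit 76) (XT.lf (nat_lit 0) (nat_lit 697449496) (nat_lit 532) (nat_lit 5362498086) (nat_lit 608) (nat_lit 35369746890) (nat_lit 53) (nat_lit 5) (nat_lit 60) (nat_lit 5) (nat_lit 61) (nat_lit 5) (nat_lit 333) (nat_lit 327) (nat_lit 240)) (XT.nd (nat_lit 78) (nat_lit 0) (nat_lit 0) (XT.lf (nat_lit 0) (nat_lit 4012379687) (nat_lit 532) (nat_lit 26577852611) (nat_lit 76) (nat_lit 12610099271) (nat_lit 54) (nat_lit 5) (nat_lit 61) (nat_lit 5) (nat_lit 55) (nat_lit 5) (nat_lit 334) (nat_lit 327) (nat_lit 239)) (XT.lf (nat_lit 0) (nat_lit 7896421697) (nat_lit 532) (nat_lit 4594592558) (nat_lit 76) (nat_lit 32597297018) (nat_lit 54) (nat_lit 5) (nat_lit 61) (nat_lit 5) (nat_lit 55) (nat_lit 5) (nat_lit 335) (nat_lit 327) (nat_lit 238)))))) (XT.nd (nat_lit 312) (nat_lit 456) (nat_lit 0)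 (XT.nd (nat_lit 156) (nat_lit 456) (nat_lit 0) (XT.nd (nat_lit 78) (nat_lit 0) (nat_lit 0) (XT.lf (nat_lit 0) (nat_lit 12754513040) (nat_lit 456) (nat_lit 27119174946) (nat_lit 76) (nat_lit 7200579951) (nat_lit 49) (nat_lit 5) (nat_lit 55) (nat_lit 5) (nat_lit 50) (nat_lit 5) (nat_lit 336) (nat_lit 327) (nat_lit 237)) (XT.lf (nat_lit 0) (nat_lit 18451147930) (nat_lit 456) (nat_lit 2810339881) (nat_lit 76) (nat_lit 27921625940) (nat_lit 49) (nat_lit 5) (nat_lit 55) (nat_lit 5) (nat_lit 50) (nat_lit 5) (nat_lit 337) (nat_lit 327) (nat_lit 236))) (XT.nd (nat_lit 78) (nat_lit 228) (nat_lit 0) (XT.lf (nat_lit 0) (nat_lit 24674135778) (nat_lit 228) (nat_lit 519612725) (nat_lit 304) (nat_lit 26219703930) (nat_lit 46) (nat_lit 5) (nat_lit 49) (nat_lit 5) (nat_lit 50) (nat_lit 5) (nat_lit 338) (nat_lit 327) (nat_lit 235)) (XT.lf (nat_lit 0) (nat_lit 178273359) (nat_lit 228) (nat_lit 32903831700)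 (nat_lit 304) (nat_lit 20691609016) (nat_lit 43) (nat_lit 5) (nat_lit 46) (nat_lit 5) (nat_lit 47) (nat_lit 5) (nat_lit 339) (nat_lit 327) (nat_lit 234)))) (XT.nd (nat_lit 156) (nat_lit 304) (nat_lit 0) (XT.nd (nat_lit 78) (nat_lit 152) (nat_lit 0) (XT.lf (nat_lit 0) (nat_lit 30752320772) (nat_lit 228) (nat_lit 11590577870) (nat_lit 304) (nat_lit 13920591953) (nat_lit 43) (nat_lit 5) (nat_lit 46) (nat_lit 5) (nat_lit 47) (nat_lit 5) (nat_lit 340) (nat_lit 327) (nat_lit 233)) (XT.lf (nat_lit 0) (nat_lit 4780777257) (nat_lit 152) (nat_lit 47950908728) (nat_lit 228) (nat_lit 6189796000) (nat_lit 41) (nat_lit 5) (nat_lit 43) (nat_lit 5) (nat_lit 44) (nat_lit 5) (nat_lit 341) (nat_lit 327) (nat_lit 232))) (XT.nd (nat_lit 78) (nat_lit 228) (nat_lit 0) (XT.lf (nat_lit 0) (nat_lit 3065495808) (nat_lit 228) (nat_lit 23163932473) (nat_lit 76) (nat_lit 35477407730) (nat_lit 40) (nat_lit 5) (nat_lit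 43) (nat_lit 5) (nat_lit 41) (nat_lit 5) (nat_lit 342) (nat_lit 327) (nat_lit 231)) (XT.nd (nat_lit 78) (nat_lit 0) (nat_lit 0) (XT.lf (nat_lit 0) (nat_lit 10660295626) (nat_lit 228) (nat_lit 2320446419) (nat_lit 304) (nat_lit 51701101650) (nat_lit 37) (nat_lit 5) (nat_lit 40) (nat_lit 5) (nat_lit 41) (nat_lit 5) (nat_lit 343) (nat_lit 327) (nat_lit 230)) (XT.lf (nat_lit 0) (nat_lit 24901855205) (nat_lit 304) (nat_lit 19921298506) (nat_lit 76) (nat_lit 22974688838) (nat_lit 37) (nat_lit 5) (nat_lit 41) (nat_lit 5) (nat_lit 38) (nat_lit 5) (nat_lit 344) (nat_lit 327) (nat_lit 229))))))) (XT.nd (nat_lit 702) (nat_lit 608) (nat_lit 0) (XT.nd (nat_lit 312) (nat_lit 456) (nat_lit 0) (XT.nd (nat_lit 156) (nat_lit 228) (nat_lit 0) (XT.nd (nat_lit 78) (nat_lit 0) (nat_lit 0) (XT.lf (nat_lit 0) (nat_lit 17730626802) (nat_lit 152) (nat_lit 20530546233) (nat_lit 228) (nat_lit 32863189184) (nat_lit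 35) (nat_lit 5) (nat_lit 37) (nat_lit 5) (nat_lit 38) (nat_lit 5) (nat_lit 345) (nat_lit 327) (nat_lit 228)) (XT.lf (nat_lit 0) (nat_lit 53383175928) (nat_lit 228) (nat_lit 15300247130) (nat_lit 76) (nat_lit 5978067234) (nat_lit 35) (nat_lit 5) (nat_lit 38) (nat_lit 5) (nat_lit 36) (nat_lit 5) (nat_lit 346) (nat_lit 327) (nat_lit 227))) (XT.nd (nat_lit 78) (nat_lit 76) (nat_lit 0) (XT.lf (nat_lit 0) (nat_lit 26637081694) (nat_lit 152) (nat_lit 44249788638) (nat_lit 228) (nat_lit 7500965627) (nat_lit 33) (nat_lit 5) (nat_lit 35) (nat_lit 5) (nat_lit 36) (nat_lit 5) (nat_lit 347) (nat_lit 327) (nat_lit 226)) (XT.lf (nat_lit 0) (nat_lit 7436741573) (nat_lit 228) (nat_lit 9770510189) (nat_lit 76) (nat_lit 65156660592) (nat_lit 32) (nat_lit 5) (nat_lit 35) (nat_lit 5) (nat_lit 33) (nat_lit 5) (nat_lit 348) (nat_lit 327) (nat_lit 225)))) (XT.nd (nat_lit 156) (nat_lit 304) (nat_lit 0) (XT.nd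 (nat_lit 78) (nat_lit 0) (nat_lit 0) (XT.lf (nat_lit 0) (nat_lit 24374761117) (nat_lit 228) (nat_lit 49654671374) (nat_lit 76) (nat_lit 12516213999) (nat_lit 30) (nat_lit 5) (nat_lit 33) (nat_lit 5) (nat_lit 31) (nat_lit 5) (nat_lit 349) (nat_lit 327) (nat_lit 224)) (XT.lf (nat_lit 0) (nat_lit 43387110363) (nat_lit 228) (nat_lit 3656127628) (nat_lit 76) (nat_lit 43961139674) (nat_lit 30) (nat_lit 5) (nat_lit 33) (nat_lit 5) (nat_lit 31) (nat_lit 5) (nat_lit 350) (nat_lit 327) (nat_lit 223))) (XT.nd (nat_lit 78) (nat_lit 152) (nat_lit 0) (XT.lf (nat_lit 0) (nat_lit 48443085475) (nat_lit 152) (nat_lit 16640812677) (nat_lit 228) (nat_lit 30642834396) (nat_lit 28) (nat_lit 5) (nat_lit 30) (nat_lit 5) (nat_lit 31) (nat_lit 5) (nat_lit 351) (nat_lit 327) (nat_lit 222)) (XT.nd (nat_lit 78) (nat_lit 76) (nat_lit 0) (XT.lf (nat_lit 0) (nat_lit 3899734724) (nat_lit 76) (nat_lit 85200936580) (nat_lit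 152) (nat_lit 11679466294) (nat_lit 27) (nat_lit 5) (nat_lit 28) (nat_lit 5) (nat_lit 29) (nat_lit 4) (nat_lit 352) (nat_lit 327) (nat_lit 221)) (XT.lf (nat_lit 0) (nat_lit 10117784644) (nat_lit 152) (nat_lit 44947601554) (nat_lit 76) (nat_lit 51014930879) (nat_lit 26) (nat_lit 5) (nat_lit 28) (nat_lit 5) (nat_lit 27) (nat_lit 5) (nat_lit 353) (nat_lit 327) (nat_lit 220)))))) (XT.nd (nat_lit 312) (nat_lit 380) (nat_lit 0) (XT.nd (nat_lit 156) (nat_lit 76) (nat_lit 0) (XT.nd (nat_lit 78) (nat_lit 0) (nat_lit 0) (XT.lf (nat_lit 0) (nat_lit 11404565721) (nat_lit 152) (nat_lit 21896096867) (nat_lit 228) (nat_lit 78457752916) (nat_lit 24) (nat_lit 5) (nat_lit 26) (nat_lit 5) (nat_lit 27) (nat_lit 5) (nat_lit 354) (nat_lit 327) (nat_lit 219)) (XT.lf (nat_lit 0) (nat_lit 59932565800) (nat_lit 228) (nat_lit 43340615102) (nat_lit 76) (nat_lit 14490030157) (nat_lit 24) (nat_lit 5) (nat_lit 27)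 (nat_lit 5) (nat_lit 25) (nat_lit 4) (nat_lit 355) (nat_lit 327) (nat_lit 218))) (XT.nd (nat_lit 78) (nat_lit 0) (nat_lit 0) (XT.lf (nat_lit 0) (nat_lit 18592788535) (nat_lit 76) (nat_lit 71116812978) (nat_lit 152) (nat_lit 34457623117) (nat_lit 23) (nat_lit 5) (nat_lit 24) (nat_lit 5) (nat_lit 25) (nat_lit 4) (nat_lit 356) (nat_lit 327) (nat_lit 217)) (XT.lf (nat_lit 0) (nat_lit 87943493913) (nat_lit 76) (nat_lit 35109052960) (nat_lit 152) (nat_lit 7936313409) (nat_lit 23) (nat_lit 5) (nat_lit 24) (nat_lit 5) (nat_lit 25) (nat_lit 4) (nat_lit 357) (nat_lit 327) (nat_lit 216)))) (XT.nd (nat_lit 156) (nat_lit 152) (nat_lit 0) (XT.nd (nat_lit 78) (nat_lit 0) (nat_lit 0) (XT.lf (nat_lit 0) (nat_lit 20396486013) (nat_lit 228) (nat_lit 113138485395) (nat_lit 76) (nat_lit 4723366834) (nat_lit 20) (nat_lit 5) (nat_lit 23) (nat_lit 5) (nat_lit 21) (nat_lit 4) (nat_lit 358) (nat_lit 327) (nat_lit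 215)) (XT.lf (nat_lit 0) (nat_lit 52685390970) (nat_lit 228) (nat_lit 45979643697) (nat_lit 76) (nat_lit 47258389425) (nat_lit 20) (nat_lit 5) (nat_lit 23) (nat_lit 5) (nat_lit 21) (nat_lit 4) (nat_lit 359) (nat_lit 327) (nat_lit 214))) (XT.nd (nat_lit 78) (nat_lit 76) (nat_lit 0) (XT.lf (nat_lit 0) (nat_lit 27948024382) (nat_lit 76) (nat_lit 60280440901) (nat_lit 152) (nat_lit 65919567511) (nat_lit 19) (nat_lit 5) (nat_lit 20) (nat_lit 5) (nat_lit 21) (nat_lit 4) (nat_lit 360) (nat_lit 327) (nat_lit 213)) (XT.nd (nat_lit 78) (nat_lit 76) (nat_lit 0) (XT.lf (nat_lit 0) (nat_lit 110402904140) (nat_lit 76) (nat_lit 17468187848) (nat_lit 152) (nat_lit 35059030187) (nat_lit 19) (nat_lit 5) (nat_lit 20) (nat_lit 5) (nat_lit 21) (nat_lit 4) (nat_lit 361) (nat_lit 327) (nat_lit 212)) (XT.lf (nat_lit 0) (nat_lit 27732992153) (nat_lit 76) (nat_lit 144310013104) (nat_lit 76) (nat_lit 263143798)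 (nat_lit 18) (nat_lit 4) (nat_lit 19) (nat_lit 5) (nat_lit 19) (nat_lit 4) (nat_lit 362) (nat_lit 327) (nat_lit 211))))))))
noncomputable def xc173 : XT := (XT.nd (nat_lit 1404) (nat_lit 304) (nat_lit 0) (XT.nd (nat_lit 702) (nat_lit 380) (nat_lit 0) (XT.nd (nat_lit 312) (nat_lit 228) (nat_lit 0) (XT.nd (nat_lit 156) (nat_lit 76) (nat_lit 0) (XT.nd (nat_lit 78) (nat_lit 76) (nat_lit 0) (XT.lf (nat_lit 0) (nat_lit 37375912089) (nat_lit 152) (nat_lit 66306388188) (nat_lit 76) (nat_lit 78524064016) (nat_lit 17) (nat_lit 5) (nat_lit 19) (nat_lit 5) (nat_lit 18) (nat_lit 4) (nat_lit 363) (nat_lit 327) (nat_lit 210)) (XT.lf (nat_lit 0) (nat_lit 19172266834) (nat_lit 76) (nat_lit 59299782832) (nat_lit 152) (nat_lit 114389186755) (nat_lit 16) (nat_lit 5) (nat_lit 17) (nat_lit 5) (nat_lit 18) (nat_lit 4) (nat_lit 364) (nat_lit 327) (nat_lit 209))) (XT.nd (nat_lit 78) (nat_lit 76) (nat_lit 0) (XT.lf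 (nat_lit 0) (nat_lit 115258465491) (nat_lit 76) (nat_lit 9409455653) (nat_lit 152) (nat_lit 79555614085) (nat_lit 16) (nat_lit 5) (nat_lit 17) (nat_lit 5) (nat_lit 18) (nat_lit 4) (nat_lit 365) (nat_lit 327) (nat_lit 208)) (XT.lf (nat_lit 0) (nat_lit 1542784555) (nat_lit 76) (nat_lit 174122494629) (nat_lit 76) (nat_lit 40741073723) (nat_lit 15) (nat_lit 4) (nat_lit 16) (nat_lit 5) (nat_lit 16) (nat_lit 4) (nat_lit 366) (nat_lit 327) (nat_lit 207)))) (XT.nd (nat_lit 156) (nat_lit 152) (nat_lit 0) (XT.nd (nat_lit 78) (nat_lit 0) (nat_lit 0) (XT.lf (nat_lit 0) (nat_lit 3858876687) (nat_lit 152) (nat_lit 125355921122) (nat_lit 76) (nat_lit 100127594244) (nat_lit 14) (nat_lit 5) (nat_lit 16) (nat_lit 5) (nat_lit 15) (nat_lit 4) (nat_lit 367) (nat_lit 327) (nat_lit 206)) (XT.lf (nat_lit 0) (nat_lit 49824970736) (nat_lit 152) (nat_lit 29747337837) (nat_lit 76) (nat_lit 163656411325) (nat_lit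 14) (nat_lit 5) (nat_lit 16) (nat_lit 5) (nat_lit 15) (nat_lit 4) (nat_lit 368) (nat_lit 327) (nat_lit 205))) (XT.nd (nat_lit 78) (nat_lit 76) (nat_lit 0) (XT.lf (nat_lit 0) (nat_lit 77379405958) (nat_lit 76) (nat_lit 23949204217) (nat_lit 152) (nat_lit 156748523399) (nat_lit 13) (nat_lit 5) (nat_lit 14) (nat_lit 5) (nat_lit 15) (nat_lit 4) (nat_lit 369) (nat_lit 327) (nat_lit 204)) (XT.nd (nat_lit 78) (nat_lit 76) (nat_lit 0) (XT.lf (nat_lit 0) (nat_lit 158655076229) (nat_lit 152) (nat_lit 80171572901) (nat_lit 0) (nat_lit 35150568594) (nat_lit 13) (nat_lit 5) (nat_lit 15) (nat_lit 4) (nat_lit 13) (nat_lit 4) (nat_lit 370) (nat_lit 327) (nat_lit 203)) (XT.lf (nat_lit 0) (nat_lit 29235849571) (nat_lit 76) (nat_lit 192656330558) (nat_lit 76) (nat_lit 69151167028) (nat_lit 12) (nat_lit 4) (nat_lit 13) (nat_lit 5) (nat_lit 13) (nat_lit 4) (nat_lit 371) (nat_lit 327) (nat_lit 202)))))) (XT.nd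 (nat_lit 312) (nat_lit 228) (nat_lit 0) (XT.nd (nat_lit 156) (nat_lit 76) (nat_lit 0) (XT.nd (nat_lit 78) (nat_lit 76) (nat_lit 0) (XT.lf (nat_lit 0) (nat_lit 151954063235) (nat_lit 76) (nat_lit 140425581665) (nat_lit 76) (nat_lit 16919810825) (nat_lit 12) (nat_lit 4) (nat_lit 13) (nat_lit 5) (nat_lit 13) (nat_lit 4) (nat_lit 372) (nat_lit 327) (nat_lit 201)) (XT.lf (nat_lit 0) (nat_lit 37513992991) (nat_lit 152) (nat_lit 45477227741) (nat_lit 76) (nat_lit 245948902141) (nat_lit 11) (nat_lit 5) (nat_lit 13) (nat_lit 5) (nat_lit 12) (nat_lit 4) (nat_lit 373) (nat_lit 327) (nat_lit 200))) (XT.nd (nat_lit 78) (nat_lit 0) (nat_lit 0) (XT.lf (nat_lit 0) (nat_lit 78843921670) (nat_lit 76) (nat_lit 18440105014) (nat_lit 152) (nat_lit 252681208019) (nat_lit 10) (nat_lit 5) (nat_lit 11) (nat_lit 5) (nat_lit 12) (nat_lit 4) (nat_lit 374) (nat_lit 327) (nat_lit 199)) (XT.lf (nat_lit 0) (nat_lit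 164343995924) (nat_lit 152) (nat_lit 158142341527) (nat_lit 0) (nat_lit 49985351537) (nat_lit 10) (nat_lit 5) (nat_lit 12) (nat_lit 4) (nat_lit 10) (nat_lit 4) (nat_lit 375) (nat_lit 327) (nat_lit 198)))) (XT.nd (nat_lit 156) (nat_lit 152) (nat_lit 0) (XT.nd (nat_lit 78) (nat_lit 76) (nat_lit 0) (XT.lf (nat_lit 0) (nat_lit 237247208534) (nat_lit 152) (nat_lit 36605024716) (nat_lit 0) (nat_lit 122888150822) (nat_lit 10) (nat_lit 5) (nat_lit 12) (nat_lit 4) (nat_lit 10) (nat_lit 4) (nat_lit 376) (nat_lit 327) (nat_lit 197)) (XT.lf (nat_lit 0) (nat_lit 99638673491) (nat_lit 76) (nat_lit 218739837588) (nat_lit 76) (nat_lit 104380397168) (nat_lit 9) (nat_lit 4) (nat_lit 10) (nat_lit 5) (nat_lit 10) (nat_lit 4) (nat_lit 377) (nat_lit 327) (nat_lit 196))) (XT.nd (nat_lit 78) (nat_lit 152) (nat_lit 0) (XT.lf (nat_lit 0) (nat_lit 248862717456) (nat_lit 76) (nat_lit 158137980681) (nat_lit 76) (nat_lit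 43778185901) (nat_lit 9) (nat_lit 4) (nat_lit 10) (nat_lit 5) (nat_lit 10) (nat_lit 4) (nat_lit 378) (nat_lit 327) (nat_lit 195)) (XT.nd (nat_lit 78) (nat_lit 76) (nat_lit 0) (XT.lf (nat_lit 0) (nat_lit 20587628213) (nat_lit 152) (nat_lit 71537856207) (nat_lit 76) (nat_lit 388873311622) (nat_lit 8) (nat_lit 5) (nat_lit 10) (nat_lit 5) (nat_lit 9) (nat_lit 4) (nat_lit 379) (nat_lit 327) (nat_lit 194)) (XT.lf (nat_lit 0) (nat_lit 71720574782) (nat_lit 76) (nat_lit 17741445160) (nat_lit 152) (nat_lit 423945355763) (nat_lit 7) (nat_lit 5) (nat_lit 8) (nat_lit 5) (nat_lit 9) (nat_lit 4) (nat_lit 380) (nat_lit 327) (nat_lit 193))))))) (XT.nd (nat_lit 702) (nat_lit 76) (nat_lit 0) (XT.nd (nat_lit 312) (nat_lit 152) (nat_lit 0) (XT.nd (nat_lit 156) (nat_lit 76) (nat_lit 0) (XT.nd (nat_lit 78) (nat_lit 0) (nat_lit 0) (XT.lf (nat_lit 0) (nat_lit 167358102433) (nat_lit 152) (nat_lit 319301042243)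 (nat_lit 0) (nat_lit 61468557988) (nat_lit 7) (nat_lit 5) (nat_lit 9) (nat_lit 4) (nat_lit 7) (nat_lit 4) (nat_lit 381) (nat_lit 327) (nat_lit 192)) (XT.lf (nat_lit 0) (nat_lit 251946310884) (nat_lit 152) (nat_lit 187585984552) (nat_lit 0) (nat_lit 146056525268) (nat_lit 7) (nat_lit 5) (nat_lit 9) (nat_lit 4) (nat_lit 7) (nat_lit 4) (nat_lit 382) (nat_lit 327) (nat_lit 191))) (XT.nd (nat_lit 78) (nat_lit 76) (nat_lit 0) (XT.lf (nat_lit 0) (nat_lit 343301226572) (nat_lit 152) (nat_lit 45334411991) (nat_lit 0) (nat_lit 237411217649) (nat_lit 7) (nat_lit 5) (nat_lit 9) (nat_lit 4) (nat_lit 7) (nat_lit 4) (nat_lit 383) (nat_lit 327) (nat_lit 190)) (XT.lf (nat_lit 0) (nat_lit 113999357271) (nat_lit 76) (nat_lit 330706541970) (nat_lit 76) (nat_lit 224816326282) (nat_lit 6) (nat_lit 4) (nat_lit 7) (nat_lit 5) (nat_lit 7) (nat_lit 4) (nat_lit 384) (nat_lit 327) (nat_lit 189)))) (XT.nd (nat_lit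 156) (nat_lit 152) (nat_lit 0) (XT.nd (nat_lit 78) (nat_lit 0) (nat_lit 0) (XT.lf (nat_lit 0) (nat_lit 288657413770) (nat_lit 76) (nat_lit 266804740558) (nat_lit 76) (nat_lit 160914333420) (nat_lit 6) (nat_lit 4) (nat_lit 7) (nat_lit 5) (nat_lit 7) (nat_lit 4) (nat_lit 385) (nat_lit 327) (nat_lit 188)) (XT.lf (nat_lit 0) (nat_lit 477287538414) (nat_lit 76) (nat_lit 197791080150) (nat_lit 76) (nat_lit 91900495744) (nat_lit 6) (nat_lit 4) (nat_lit 7) (nat_lit 5) (nat_lit 7) (nat_lit 4) (nat_lit 386) (nat_lit 327) (nat_lit 187))) (XT.nd (nat_lit 78) (nat_lit 152) (nat_lit 0) (XT.lf (nat_lit 0) (nat_lit 681007539349) (nat_lit 76) (nat_lit 123256590905) (nat_lit 76) (nat_lit 17365842362) (nat_lit 6) (nat_lit 4) (nat_lit 7) (nat_lit 5) (nat_lit 7) (nat_lit 4) (nat_lit 387) (nat_lit 327) (nat_lit 186)) (XT.nd (nat_lit 78) (nat_lit 0) (nat_lit 0) (XT.lf (nat_lit 0) (nat_lit 19846204515) (nat_lit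 76) (nat_lit 40604326752) (nat_lit 152) (nat_lit 820042739440) (nat_lit 4) (nat_lit 5) (nat_lit 5) (nat_lit 5) (nat_lit 6) (nat_lit 4) (nat_lit 388) (nat_lit 327) (nat_lit 185)) (XT.lf (nat_lit 0) (nat_lit 148668763388) (nat_lit 152) (nat_lit 744330101039) (nat_lit 0) (nat_lit 50621502978) (nat_lit 4) (nat_lit 5) (nat_lit 6) (nat_lit 4) (nat_lit 4) (nat_lit 4) (nat_lit 389) (nat_lit 327) (nat_lit 184)))))) (XT.nd (nat_lit 312) (nat_lit 76) (nat_lit 0) (XT.nd (nat_lit 156) (nat_lit 0) (nat_lit 0) (XT.nd (nat_lit 78) (nat_lit 0) (nat_lit 0) (XT.lf (nat_lit 0) (nat_lit 244998875744) (nat_lit 152) (nat_lit 619762907710) (nat_lit 0) (nat_lit 146951494688) (nat_lit 4) (nat_lit 5) (nat_lit 6) (nat_lit 4) (nat_lit 4) (nat_lit 4) (nat_lit 390) (nat_lit 327) (nat_lit 183)) (XT.lf (nat_lit 0) (nat_lit 349035178411) (nat_lit 152) (nat_lit 485230775211) (nat_lit 0) (nat_lit 250987685646) (nat_lit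 4) (nat_lit 5) (nat_lit 6) (nat_lit 4) (nat_lit 4) (nat_lit 4) (nat_lit 391) (nat_lit 327) (nat_lit 182))) (XT.nd (nat_lit 78) (nat_lit 0) (nat_lit 0) (XT.lf (nat_lit 0) (nat_lit 461394182811) (nat_lit 152) (nat_lit 339936476089) (nat_lit 0) (nat_lit 363346586612) (nat_lit 4) (nat_lit 5) (nat_lit 6) (nat_lit 4) (nat_lit 4) (nat_lit 4) (nat_lit 392) (nat_lit 327) (nat_lit 181)) (XT.lf (nat_lit 0) (nat_lit 582741720082) (nat_lit 152) (nat_lit 183019007091) (nat_lit 0) (nat_lit 484694028111) (nat_lit 4) (nat_lit 5) (nat_lit 6) (nat_lit 4) (nat_lit 4) (nat_lit 4) (nat_lit 393) (nat_lit 327) (nat_lit 180)))) (XT.nd (nat_lit 156) (nat_lit 0) (nat_lit 0) (XT.nd (nat_lit 78) (nat_lit 76) (nat_lit 0) (XT.lf (nat_lit 0) (nat_lit 713796886742) (nat_lit 152) (nat_lit 13548486918) (nat_lit 0) (nat_lit 615749106092) (nat_lit 4) (nat_lit 5) (nat_lit 6) (nat_lit 4) (nat_lit 4) (nat_lit 4) (nat_lit 394)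 (nat_lit 327) (nat_lit 179)) (XT.lf (nat_lit 0) (nat_lit 178403836625) (nat_lit 76) (nat_lit 681223085935) (nat_lit 76) (nat_lit 583175223175) (nat_lit 3) (nat_lit 4) (nat_lit 4) (nat_lit 5) (nat_lit 4) (nat_lit 4) (nat_lit 395) (nat_lit 327) (nat_lit 178))) (XT.nd (nat_lit 78) (nat_lit 0) (nat_lit 0) (XT.lf (nat_lit 0) (nat_lit 386482547938) (nat_lit 76) (nat_lit 631011096603) (nat_lit 76) (nat_lit 532963157816) (nat_lit 3) (nat_lit 4) (nat_lit 4) (nat_lit 5) (nat_lit 4) (nat_lit 4) (nat_lit 396) (nat_lit 327) (nat_lit 177)) (XT.nd (nat_lit 78) (nat_lit 0) (nat_lit 0) (XT.lf (nat_lit 0) (nat_lit 611207266737) (nat_lit 76) (nat_lit 576782292778) (nat_lit 76) (nat_lit 478734283596) (nat_lit 3) (nat_lit 4) (nat_lit 4) (nat_lit 5) (nat_lit 4) (nat_lit 4) (nat_lit 397) (nat_lit 327) (nat_lit 176)) (XT.lf (nat_lit 0) (nat_lit 853909695061) (nat_lit 76) (nat_lit 518215318585) (nat_lit 76) (nat_lit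 420167244222) (nat_lit 3) (nat_lit 4) (nat_lit 4) (nat_lit 5) (nat_lit 4) (nat_lit 4) (nat_lit 398) (nat_lit 327) (nat_lit 175))))))))
noncomputable def xc174 : XT := (XT.nd (nat_lit 41652) (nat_lit 0) (nat_lit 2356) (XT.nd (nat_lit 702) (nat_lit 0) (nat_lit 0) (XT.nd (nat_lit 312) (nat_lit 152) (nat_lit 0) (XT.nd (nat_lit 156) (nat_lit 0) (nat_lit 0) (XT.nd (nat_lit 78) (nat_lit 0) (nat_lit 0) (XT.lf (nat_lit 0) (nat_lit 1116028069521) (nat_lit 76) (nat_lit 454963110474) (nat_lit 76) (nat_lit 356914975758) (nat_lit 3) (nat_lit 4) (nat_lit 4) (nat_lit 5) (nat_lit 4) (nat_lit 4) (nat_lit 399) (nat_lit 327) (nat_lit 174)) (XT.lf (nat_lit 0) (nat_lit 1399115684189) (nat_lit 76) (nat_lit 386650840545) (nat_lit 76) (nat_lit 288602649946) (nat_lit 3) (nat_lit 4) (nat_lit 4) (nat_lit 5) (nat_lit 4) (nat_lit 4) (nat_lit 400) (nat_lit 327) (nat_lit 173))) (XT.nd (nat_lit 78) (nat_lit 0) (nat_lit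 0) (XT.lf (nat_lit 0) (nat_lit 1704850095299) (nat_lit 76) (nat_lit 312873695345) (nat_lit 76) (nat_lit 214825453004) (nat_lit 3) (nat_lit 4) (nat_lit 4) (nat_lit 5) (nat_lit 4) (nat_lit 4) (nat_lit 401) (nat_lit 327) (nat_lit 172)) (XT.lf (nat_lit 0) (nat_lit 2035043062325) (nat_lit 76) (nat_lit 233194476979) (nat_lit 76) (nat_lit 135146186727) (nat_lit 3) (nat_lit 4) (nat_lit 4) (nat_lit 5) (nat_lit 4) (nat_lit 4) (nat_lit 402) (nat_lit 327) (nat_lit 171)))) (XT.nd (nat_lit 156) (nat_lit 76) (nat_lit 0) (XT.nd (nat_lit 78) (nat_lit 76) (nat_lit 0) (XT.lf (nat_lit 0) (nat_lit 2391651284330) (nat_lit 76) (nat_lit 147141012299) (nat_lit 76) (nat_lit 49092677686) (nat_lit 3) (nat_lit 4) (nat_lit 4) (nat_lit 5) (nat_lit 4) (nat_lit 4) (nat_lit 403) (nat_lit 327) (nat_lit 170)) (XT.lf (nat_lit 0) (nat_lit 41651715322) (nat_lit 152) (nat_lit 11412807815) (nat_lit 76) (nat_lit 2733997448190)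 (nat_lit 2) (nat_lit 5) (nat_lit 4) (nat_lit 5) (nat_lit 3) (nat_lit 4) (nat_lit 404) (nat_lit 327) (nat_lit 169))) (XT.nd (nat_lit 78) (nat_lit 0) (nat_lit 0) (XT.lf (nat_lit 0) (nat_lit 143058785020) (nat_lit 152) (nat_lit 2806254683176) (nat_lit 0) (nat_lit 52273216760) (nat_lit 1) (nat_lit 5) (nat_lit 3) (nat_lit 4) (nat_lit 1) (nat_lit 4) (nat_lit 405) (nat_lit 327) (nat_lit 168)) (XT.nd (nat_lit 78) (nat_lit 0) (nat_lit 0) (XT.lf (nat_lit 0) (nat_lit 254276791126) (nat_lit 152) (nat_lit 2815369524632) (nat_lit 0) (nat_lit 163491190259) (nat_lit 1) (nat_lit 5) (nat_lit 3) (nat_lit 4) (nat_lit 1) (nat_lit 4) (nat_lit 406) (nat_lit 327) (nat_lit 167)) (XT.lf (nat_lit 0) (nat_lit 374392163682) (nat_lit 152) (nat_lit 2825213702389) (nat_lit 0) (nat_lit 283606532624) (nat_lit 1) (nat_lit 5) (nat_lit 3) (nat_lit 4) (nat_lit 1) (nat_lit 4) (nat_lit 407) (nat_lit 327) (nat_lit 166))))))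 (XT.nd (nat_lit 312) (nat_lit 0) (nat_lit 0) (XT.nd (nat_lit 156) (nat_lit 0) (nat_lit 0) (XT.nd (nat_lit 78) (nat_lit 0) (nat_lit 0) (XT.lf (nat_lit 0) (nat_lit 504116697489) (nat_lit 152) (nat_lit 2835845552315) (nat_lit 0) (nat_lit 413331038476) (nat_lit 1) (nat_lit 5) (nat_lit 3) (nat_lit 4) (nat_lit 1) (nat_lit 4) (nat_lit 408) (nat_lit 327) (nat_lit 165)) (XT.lf (nat_lit 0) (nat_lit 644219130525) (nat_lit 152) (nat_lit 2847328077966) (nat_lit 0) (nat_lit 553433445628) (nat_lit 1) (nat_lit 5) (nat_lit 3) (nat_lit 4) (nat_lit 1) (nat_lit 4) (nat_lit 409) (nat_lit 327) (nat_lit 164))) (XT.nd (nat_lit 78) (nat_lit 0) (nat_lit 0) (XT.lf (nat_lit 0) (nat_lit 795529699430) (nat_lit 152) (nat_lit 2859729323937) (nat_lit 0) (nat_lit 704743990566) (nat_lit 1) (nat_lit 5) (nat_lit 3) (nat_lit 4) (nat_lit 1) (nat_lit 4) (nat_lit 410) (nat_lit 327) (nat_lit 163)) (XT.lf (nat_lit 0) (nat_lit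 958945059428) (nat_lit 152) (nat_lit 2873122779094) (nat_lit 0) (nat_lit 868159328372) (nat_lit 1) (nat_lit 5) (nat_lit 3) (nat_lit 4) (nat_lit 1) (nat_lit 4) (nat_lit 411) (nat_lit 327) (nat_lit 162)))) (XT.nd (nat_lit 40404) (nat_lit 0) (nat_lit 4332) (XT.nd (nat_lit 40326) (nat_lit 0) (nat_lit 4332) (XT.lf (nat_lit 0) (nat_lit 1135433597836) (nat_lit 152) (nat_lit 2887587812060) (nat_lit 0) (nat_lit 1044647846232) (nat_lit 1) (nat_lit 5) (nat_lit 3) (nat_lit 4) (nat_lit 1) (nat_lit 4) (nat_lit 412) (nat_lit 327) (nat_lit 161)) (XT.lf (nat_lit 0) (nat_lit 14047908270) (nat_lit 532) (nat_lit 1766922472) (nat_lit 532) (nat_lit 1766922472) (nat_lit 58) (nat_lit 3) (nat_lit 65) (nat_lit 3) (nat_lit 65) (nat_lit 5) (nat_lit 328) (nat_lit 328) (nat_lit 244))) (XT.nd (nat_lit 78) (nat_lit 0) (nat_lit 76) (XT.lf (nat_lit 76) (nat_lit 13976616521) (nat_lit 0) (nat_lit 15628473519) (nat_lit 532)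 (nat_lit 6934047456) (nat_lit 59) (nat_lit 5) (nat_lit 58) (nat_lit 3) (nat_lit 65) (nat_lit 5) (nat_lit 329) (nat_lit 328) (nat_lit 243)) (XT.nd (nat_lit 78) (nat_lit 0) (nat_lit 0) (XT.lf (nat_lit 0) (nat_lit 31369039303) (nat_lit 456) (nat_lit 4973729212) (nat_lit 532) (nat_lit 1671343218) (nat_lit 59) (nat_lit 5) (nat_lit 65) (nat_lit 5) (nat_lit 66) (nat_lit 5) (nat_lit 330) (nat_lit 328) (nat_lit 242)) (XT.lf (nat_lit 76) (nat_lit 14330052939) (nat_lit 0) (nat_lit 19690043082) (nat_lit 532) (nat_lit 5527315416) (nat_lit 60) (nat_lit 5) (nat_lit 59) (nat_lit 5) (nat_lit 66) (nat_lit 5) (nat_lit 331) (nat_lit 328) (nat_lit 241))))))) (XT.nd (nat_lit 702) (nat_lit 836) (nat_lit 0) (XT.nd (nat_lit 312) (nat_lit 760) (nat_lit 0) (XT.nd (nat_lit 156) (nat_lit 456) (nat_lit 0) (XT.nd (nat_lit 78) (nat_lit 0) (nat_lit 76) (XT.lf (nat_lit 76) (nat_lit 35458048794) (nat_lit 0) (nat_lit 1556866474)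 (nat_lit 532) (nat_lit 4177931950) (nat_lit 60) (nat_lit 5) (nat_lit 59) (nat_lit 5) (nat_lit 66) (nat_lit 5) (nat_lit 332) (nat_lit 328) (nat_lit 240)) (XT.lf (nat_lit 76) (nat_lit 15652744744) (nat_lit 0) (nat_lit 25402610353) (nat_lit 532) (nat_lit 1850085831) (nat_lit 61) (nat_lit 5) (nat_lit 60) (nat_lit 5) (nat_lit 67) (nat_lit 5) (nat_lit 333) (nat_lit 328) (nat_lit 239))) (XT.nd (nat_lit 78) (nat_lit 0) (nat_lit 76) (XT.lf (nat_lit 0) (nat_lit 828239037) (nat_lit 532) (nat_lit 5728759253) (nat_lit 608) (nat_lit 38180974051) (nat_lit 53) (nat_lit 5) (nat_lit 60) (nat_lit 5) (nat_lit 61) (nat_lit 5) (nat_lit 334) (nat_lit 328) (nat_lit 238)) (XT.lf (nat_lit 0) (nat_lit 4404044531) (nat_lit 532) (nat_lit 28636932100) (nat_lit 76) (nat_lit 13609636578) (nat_lit 54) (nat_lit 5) (nat_lit 61) (nat_lit 5) (nat_lit 55) (nat_lit 5) (nat_lit 335) (nat_lit 328) (nat_lit 237)))) (XT.nd (nat_lit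 156) (nat_lit 456) (nat_lit 0) (XT.nd (nat_lit 78) (nat_lit 380) (nat_lit 0) (XT.lf (nat_lit 0) (nat_lit 8593574756) (nat_lit 532) (nat_lit 4899985222) (nat_lit 76) (nat_lit 35196496859) (nat_lit 54) (nat_lit 5) (nat_lit 61) (nat_lit 5) (nat_lit 55) (nat_lit 5) (nat_lit 336) (nat_lit 328) (nat_lit 236)) (XT.lf (nat_lit 0) (nat_lit 13836888656) (nat_lit 456) (nat_lit 29223031495) (nat_lit 76) (nat_lit 7775250100) (nat_lit 49) (nat_lit 5) (nat_lit 55) (nat_lit 5) (nat_lit 50) (nat_lit 5) (nat_lit 337) (nat_lit 328) (nat_lit 235))) (XT.nd (nat_lit 78) (nat_lit 456) (nat_lit 0) (XT.lf (nat_lit 0) (nat_lit 19984660665) (nat_lit 456) (nat_lit 2974354620) (nat_lit 76) (nat_lit 30154081712) (nat_lit 49) (nat_lit 5) (nat_lit 55) (nat_lit 5) (nat_lit 50) (nat_lit 5) (nat_lit 338) (nat_lit 328) (nat_lit 234)) (XT.nd (nat_lit 78) (nat_lit 228) (nat_lit 0) (XT.lf (nat_lit 0) (nat_lit 26707339536)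 (nat_lit 228) (nat_lit 556501862) (nat_lit 304) (nat_lit 28258252954) (nat_lit 46) (nat_lit 5) (nat_lit 49) (nat_lit 5) (nat_lit 50) (nat_lit 5) (nat_lit 339) (nat_lit 328) (nat_lit 233)) (XT.lf (nat_lit 0) (nat_lit 254519858) (nat_lit 228) (nat_lit 35526297640) (nat_lit 304) (nat_lit 22290560297) (nat_lit 43) (nat_lit 5) (nat_lit 46) (nat_lit 5) (nat_lit 47) (nat_lit 5) (nat_lit 340) (nat_lit 328) (nat_lit 232)))))) (XT.nd (nat_lit 312) (nat_lit 380) (nat_lit 0) (XT.nd (nat_lit 156) (nat_lit 304) (nat_lit 0) (XT.nd (nat_lit 78) (nat_lit 152) (nat_lit 0) (XT.lf (nat_lit 0) (nat_lit 33269899610) (nat_lit 228) (nat_lit 12508712436) (nat_lit 304) (nat_lit 14982037975) (nat_lit 43) (nat_lit 5) (nat_lit 46) (nat_lit 5) (nat_lit 47) (nat_lit 5) (nat_lit 341) (nat_lit 328) (nat_lit 231)) (XT.lf (nat_lit 0) (nat_lit 5222786619) (nat_lit 152) (nat_lit 51773774364) (nat_lit 228) (nat_lit 6634879296)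 (nat_lit 41) (nat_lit 5) (nat_lit 43) (nat_lit 5) (nat_lit 44) (nat_lit 5) (nat_lit 342) (nat_lit 328) (nat_lit 230))) (XT.nd (nat_lit 78) (nat_lit 228) (nat_lit 0) (XT.lf (nat_lit 0) (nat_lit 3354804139) (nat_lit 228) (nat_lit 24959544728) (nat_lit 76) (nat_lit 38325463046) (nat_lit 40) (nat_lit 5) (nat_lit 43) (nat_lit 5) (nat_lit 41) (nat_lit 5) (nat_lit 343) (nat_lit 328) (nat_lit 229)) (XT.lf (nat_lit 0) (nat_lit 11569165864) (nat_lit 228) (nat_lit 2492187788) (nat_lit 304) (nat_lit 55791623243) (nat_lit 37) (nat_lit 5) (nat_lit 40) (nat_lit 5) (nat_lit 41) (nat_lit 5) (nat_lit 344) (nat_lit 328) (nat_lit 228)))) (XT.nd (nat_lit 156) (nat_lit 228) (nat_lit 0) (XT.nd (nat_lit 78) (nat_lit 152) (nat_lit 0) (XT.lf (nat_lit 0) (nat_lit 26933342882) (nat_lit 304) (nat_lit 21460255419) (nat_lit 76) (nat_lit 24824885513) (nat_lit 37) (nat_lit 5) (nat_lit 41) (nat_lit 5) (nat_lit 38) (nat_lit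 5) (nat_lit 345) (nat_lit 328) (nat_lit 227)) (XT.lf (nat_lit 0) (nat_lit 19202437915) (nat_lit 152) (nat_lit 22157337538) (nat_lit 228) (nat_lit 35451482949) (nat_lit 35) (nat_lit 5) (nat_lit 37) (nat_lit 5) (nat_lit 38) (nat_lit 5) (nat_lit 346) (nat_lit 328) (nat_lit 226))) (XT.nd (nat_lit 78) (nat_lit 228) (nat_lit 0) (XT.lf (nat_lit 0) (nat_lit 57689093905) (nat_lit 228) (nat_lit 16472380490) (nat_lit 76) (nat_lit 6470080574) (nat_lit 35) (nat_lit 5) (nat_lit 38) (nat_lit 5) (nat_lit 36) (nat_lit 5) (nat_lit 347) (nat_lit 328) (nat_lit 225)) (XT.nd (nat_lit 78) (nat_lit 76) (nat_lit 0) (XT.lf (nat_lit 0) (nat_lit 28818621059) (nat_lit 152) (nat_lit 47773066939) (nat_lit 228) (nat_lit 8064434437) (nat_lit 33) (nat_lit 5) (nat_lit 35) (nat_lit 5) (nat_lit 36) (nat_lit 5) (nat_lit 348) (nat_lit 328) (nat_lit 224)) (XT.lf (nat_lit 0) (nat_lit 8063881952) (nat_lit 228) (nat_lit 10503602119)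 (nat_lit 76) (nat_lit 70382938647) (nat_lit 32) (nat_lit 5) (nat_lit 35) (nat_lit 5) (nat_lit 33) (nat_lit 5) (nat_lit 349) (nat_lit 328) (nat_lit 223))))))))
noncomputable def xc175 : XT := (XT.nd (nat_lit 1404) (nat_lit 684) (nat_lit 0) (XT.nd (nat_lit 702) (nat_lit 608) (nat_lit 0) (XT.nd (nat_lit 312) (nat_lit 304) (nat_lit 0) (XT.nd (nat_lit 156) (nat_lit 228) (nat_lit 0) (XT.nd (nat_lit 78) (nat_lit 0) (nat_lit 0) (XT.lf (nat_lit 0) (nat_lit 26356089441) (nat_lit 228) (nat_lit 53577618004) (nat_lit 76) (nat_lit 13533058394) (nat_lit 30) (nat_lit 5) (nat_lit 33) (nat_lit 5) (nat_lit 31) (nat_lit 5) (nat_lit 350) (nat_lit 328) (nat_lit 222)) (XT.lf (nat_lit 0) (nat_lit 46887104595) (nat_lit 228) (nat_lit 3902852024) (nat_lit 76) (nat_lit 47492426474) (nat_lit 30) (nat_lit 5) (nat_lit 33) (nat_lit 5) (nat_lit 31) (nat_lit 5) (nat_lit 351) (nat_lit 328) (nat_lit 221))) (XT.nd (nat_lit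 78) (nat_lit 76) (nat_lit 0) (XT.lf (nat_lit 0) (nat_lit 52363139499) (nat_lit 152) (nat_lit 17955418681) (nat_lit 228) (nat_lit 33064056048) (nat_lit 28) (nat_lit 5) (nat_lit 30) (nat_lit 5) (nat_lit 31) (nat_lit 5) (nat_lit 352) (nat_lit 328) (nat_lit 220)) (XT.lf (nat_lit 0) (nat_lit 4257000672) (nat_lit 76) (nat_lit 91999062407) (nat_lit 152) (nat_lit 12584278973) (nat_lit 27) (nat_lit 5) (nat_lit 28) (nat_lit 5) (nat_lit 29) (nat_lit 4) (nat_lit 353) (nat_lit 328) (nat_lit 219)))) (XT.nd (nat_lit 156) (nat_lit 76) (nat_lit 0) (XT.nd (nat_lit 78) (nat_lit 152) (nat_lit 0) (XT.lf (nat_lit 0) (nat_lit 10953195085) (nat_lit 152) (nat_lit 48500091924) (nat_lit 76) (nat_lit 55111359696) (nat_lit 26) (nat_lit 5) (nat_lit 28) (nat_lit 5) (nat_lit 27) (nat_lit 5) (nat_lit 354) (nat_lit 328) (nat_lit 218)) (XT.lf (nat_lit 0) (nat_lit 12359152081) (nat_lit 152) (nat_lit 23630641589) (nat_lit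 228) (nat_lit 84707273342) (nat_lit 24) (nat_lit 5) (nat_lit 26) (nat_lit 5) (nat_lit 27) (nat_lit 5) (nat_lit 355) (nat_lit 328) (nat_lit 217))) (XT.nd (nat_lit 78) (nat_lit 76) (nat_lit 0) (XT.lf (nat_lit 0) (nat_lit 64750773254) (nat_lit 228) (nat_lit 46767280473) (nat_lit 76) (nat_lit 15664311702) (nat_lit 24) (nat_lit 5) (nat_lit 27) (nat_lit 5) (nat_lit 25) (nat_lit 4) (nat_lit 356) (nat_lit 328) (nat_lit 216)) (XT.nd (nat_lit 78) (nat_lit 0) (nat_lit 0) (XT.lf (nat_lit 0) (nat_lit 20119768017) (nat_lit 76) (nat_lit 76789406830) (nat_lit 152) (nat_lit 37189590061) (nat_lit 23) (nat_lit 5) (nat_lit 24) (nat_lit 5) (nat_lit 25) (nat_lit 4) (nat_lit 357) (nat_lit 328) (nat_lit 215)) (XT.lf (nat_lit 0) (nat_lit 95015599721) (nat_lit 76) (nat_lit 37902266839) (nat_lit 152) (nat_lit 8548400976) (nat_lit 23) (nat_lit 5) (nat_lit 24) (nat_lit 5) (nat_lit 25) (nat_lit 4) (nat_lit 358) (nat_lit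 328) (nat_lit 214)))))) (XT.nd (nat_lit 312) (nat_lit 304) (nat_lit 0) (XT.nd (nat_lit 156) (nat_lit 76) (nat_lit 0) (XT.nd (nat_lit 78) (nat_lit 0) (nat_lit 0) (XT.lf (nat_lit 0) (nat_lit 22049542520) (nat_lit 228) (nat_lit 122151436129) (nat_lit 76) (nat_lit 5116309105) (nat_lit 20) (nat_lit 5) (nat_lit 23) (nat_lit 5) (nat_lit 21) (nat_lit 4) (nat_lit 359) (nat_lit 328) (nat_lit 213)) (XT.lf (nat_lit 0) (nat_lit 56919979307) (nat_lit 228) (nat_lit 49622711398) (nat_lit 76) (nat_lit 51053016990) (nat_lit 20) (nat_lit 5) (nat_lit 23) (nat_lit 5) (nat_lit 21) (nat_lit 4) (nat_lit 360) (nat_lit 328) (nat_lit 212))) (XT.nd (nat_lit 78) (nat_lit 0) (nat_lit 0) (XT.lf (nat_lit 0) (nat_lit 30218276360) (nat_lit 76) (nat_lit 65087587281) (nat_lit 152) (nat_lit 71172473048) (nat_lit 19) (nat_lit 5) (nat_lit 20) (nat_lit 5) (nat_lit 21) (nat_lit 4) (nat_lit 361) (nat_lit 328) (nat_lit 211)) (XT.lf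 (nat_lit 0) (nat_lit 119266997608) (nat_lit 76) (nat_lit 18851486494) (nat_lit 152) (nat_lit 37844623099) (nat_lit 19) (nat_lit 5) (nat_lit 20) (nat_lit 5) (nat_lit 21) (nat_lit 4) (nat_lit 362) (nat_lit 328) (nat_lit 210)))) (XT.nd (nat_lit 156) (nat_lit 152) (nat_lit 0) (XT.nd (nat_lit 78) (nat_lit 76) (nat_lit 0) (XT.lf (nat_lit 0) (nat_lit 29983742887) (nat_lit 76) (nat_lit 155840183604) (nat_lit 76) (nat_lit 265308276) (nat_lit 18) (nat_lit 4) (nat_lit 19) (nat_lit 5) (nat_lit 19) (nat_lit 4) (nat_lit 363) (nat_lit 328) (nat_lit 209)) (XT.lf (nat_lit 0) (nat_lit 40382598223) (nat_lit 152) (nat_lit 71580285039) (nat_lit 76) (nat_lit 84818654480) (nat_lit 17) (nat_lit 5) (nat_lit 19) (nat_lit 5) (nat_lit 18) (nat_lit 4) (nat_lit 364) (nat_lit 328) (nat_lit 208))) (XT.nd (nat_lit 78) (nat_lit 76) (nat_lit 0) (XT.lf (nat_lit 0) (nat_lit 20735887341) (nat_lit 76) (nat_lit 64030026492)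 (nat_lit 152) (nat_lit 123522927336) (nat_lit 16) (nat_lit 5) (nat_lit 17) (nat_lit 5) (nat_lit 18) (nat_lit 4) (nat_lit 365) (nat_lit 328) (nat_lit 207)) (XT.nd (nat_lit 78) (nat_lit 76) (nat_lit 0) (XT.lf (nat_lit 0) (nat_lit 124506771583) (nat_lit 76) (nat_lit 10149490840) (nat_lit 152) (nat_lit 85903957323) (nat_lit 16) (nat_lit 5) (nat_lit 17) (nat_lit 5) (nat_lit 18) (nat_lit 4) (nat_lit 366) (nat_lit 328) (nat_lit 206)) (XT.lf (nat_lit 0) (nat_lit 1694006470) (nat_lit 76) (nat_lit 188039250224) (nat_lit 76) (nat_lit 43984418759) (nat_lit 15) (nat_lit 4) (nat_lit 16) (nat_lit 5) (nat_lit 16) (nat_lit 4) (nat_lit 367) (nat_lit 328) (nat_lit 205))))))) (XT.nd (nat_lit 702) (nat_lit 304) (nat_lit 0) (XT.nd (nat_lit 312) (nat_lit 228) (nat_lit 0) (XT.nd (nat_lit 156) (nat_lit 76) (nat_lit 0) (XT.nd (nat_lit 78) (nat_lit 0) (nat_lit 0) (XT.lf (nat_lit 0) (nat_lit 4181608521) (nat_lit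 152) (nat_lit 135357911979) (nat_lit 76) (nat_lit 108149136660) (nat_lit 14) (nat_lit 5) (nat_lit 16) (nat_lit 5) (nat_lit 15) (nat_lit 4) (nat_lit 368) (nat_lit 328) (nat_lit 204)) (XT.lf (nat_lit 0) (nat_lit 53823951450) (nat_lit 152) (nat_lit 32102603723) (nat_lit 76) (nat_lit 176759419488) (nat_lit 14) (nat_lit 5) (nat_lit 16) (nat_lit 5) (nat_lit 15) (nat_lit 4) (nat_lit 369) (nat_lit 328) (nat_lit 203))) (XT.nd (nat_lit 78) (nat_lit 0) (nat_lit 0) (XT.lf (nat_lit 0) (nat_lit 83593658789) (nat_lit 76) (nat_lit 25853836353) (nat_lit 152) (nat_lit 169274797552) (nat_lit 13) (nat_lit 5) (nat_lit 14) (nat_lit 5) (nat_lit 15) (nat_lit 4) (nat_lit 370) (nat_lit 328) (nat_lit 202)) (XT.lf (nat_lit 0) (nat_lit 171359397158) (nat_lit 152) (nat_lit 86562483868) (nat_lit 0) (nat_lit 37972557341) (nat_lit 13) (nat_lit 5) (nat_lit 15) (nat_lit 4) (nat_lit 13) (nat_lit 4) (nat_lit 371) (nat_lit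 328) (nat_lit 201)))) (XT.nd (nat_lit 156) (nat_lit 152) (nat_lit 0) (XT.nd (nat_lit 78) (nat_lit 0) (nat_lit 0) (XT.lf (nat_lit 0) (nat_lit 31596954811) (nat_lit 76) (nat_lit 208058166787) (nat_lit 76) (nat_lit 74670764645) (nat_lit 12) (nat_lit 4) (nat_lit 13) (nat_lit 5) (nat_lit 13) (nat_lit 4) (nat_lit 372) (nat_lit 328) (nat_lit 200)) (XT.lf (nat_lit 0) (nat_lit 164130978362) (nat_lit 76) (nat_lit 151649748369) (nat_lit 76) (nat_lit 18261825556) (nat_lit 12) (nat_lit 4) (nat_lit 13) (nat_lit 5) (nat_lit 13) (nat_lit 4) (nat_lit 373) (nat_lit 328) (nat_lit 199))) (XT.nd (nat_lit 78) (nat_lit 76) (nat_lit 0) (XT.lf (nat_lit 0) (nat_lit 40525289606) (nat_lit 152) (nat_lit 49095802533) (nat_lit 76) (nat_lit 265633423752) (nat_lit 11) (nat_lit 5) (nat_lit 13) (nat_lit 5) (nat_lit 12) (nat_lit 4) (nat_lit 374) (nat_lit 328) (nat_lit 198)) (XT.nd (nat_lit 78) (nat_lit 0) (nat_lit 0) (XT.lf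 (nat_lit 0) (nat_lit 85170542542) (nat_lit 76) (nat_lit 19906089115) (nat_lit 152) (nat_lit 272885028753) (nat_lit 10) (nat_lit 5) (nat_lit 11) (nat_lit 5) (nat_lit 12) (nat_lit 4) (nat_lit 375) (nat_lit 328) (nat_lit 197)) (XT.lf (nat_lit 0) (nat_lit 177500871785) (nat_lit 152) (nat_lit 170775508143) (nat_lit 0) (nat_lit 53992293422) (nat_lit 10) (nat_lit 5) (nat_lit 12) (nat_lit 4) (nat_lit 10) (nat_lit 4) (nat_lit 376) (nat_lit 328) (nat_lit 196)))))) (XT.nd (nat_lit 390) (nat_lit 76) (nat_lit 0) (XT.nd (nat_lit 156) (nat_lit 152) (nat_lit 0) (XT.nd (nat_lit 78) (nat_lit 76) (nat_lit 0) (XT.lf (nat_lit 0) (nat_lit 256235648354) (nat_lit 152) (nat_lit 39516555669) (nat_lit 0) (nat_lit 132726715631) (nat_lit 10) (nat_lit 5) (nat_lit 12) (nat_lit 4) (nat_lit 10) (nat_lit 4) (nat_lit 377) (nat_lit 328) (nat_lit 195)) (XT.lf (nat_lit 0) (nat_lit 107626211280) (nat_lit 76) (nat_lit 236230997585)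 (nat_lit 76) (nat_lit 112721736751) (nat_lit 9) (nat_lit 4) (nat_lit 10) (nat_lit 5) (nat_lit 10) (nat_lit 4) (nat_lit 378) (nat_lit 328) (nat_lit 194))) (XT.nd (nat_lit 78) (nat_lit 152) (nat_lit 0) (XT.lf (nat_lit 0) (nat_lit 268786960695) (nat_lit 76) (nat_lit 170781586718) (nat_lit 76) (nat_lit 47272022078) (nat_lit 9) (nat_lit 4) (nat_lit 10) (nat_lit 5) (nat_lit 10) (nat_lit 4) (nat_lit 379) (nat_lit 328) (nat_lit 193)) (XT.nd (nat_lit 78) (nat_lit 76) (nat_lit 0) (XT.lf (nat_lit 0) (nat_lit 22242043616) (nat_lit 152) (nat_lit 77246395220) (nat_lit 76) (nat_lit 419989666939) (nat_lit 8) (nat_lit 5) (nat_lit 10) (nat_lit 5) (nat_lit 9) (nat_lit 4) (nat_lit 380) (nat_lit 328) (nat_lit 192)) (XT.lf (nat_lit 0) (nat_lit 77472343425) (nat_lit 76) (nat_lit 19153834378) (nat_lit 152) (nat_lit 457853210831) (nat_lit 7) (nat_lit 5) (nat_lit 8) (nat_lit 5) (nat_lit 9) (nat_lit 4) (nat_lit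 381) (nat_lit 328) (nat_lit 191))))) (XT.nd (nat_lit 156) (nat_lit 76) (nat_lit 0) (XT.nd (nat_lit 78) (nat_lit 0) (nat_lit 0) (XT.lf (nat_lit 0) (nat_lit 180753568078) (nat_lit 152) (nat_lit 344831668949) (nat_lit 0) (nat_lit 66392135135) (nat_lit 7) (nat_lit 5) (nat_lit 9) (nat_lit 4) (nat_lit 7) (nat_lit 4) (nat_lit 382) (nat_lit 328) (nat_lit 190)) (XT.lf (nat_lit 0) (nat_lit 272108328209) (nat_lit 152) (nat_lit 202580403433) (nat_lit 0) (nat_lit 157746688500) (nat_lit 7) (nat_lit 5) (nat_lit 9) (nat_lit 4) (nat_lit 7) (nat_lit 4) (nat_lit 383) (nat_lit 328) (nat_lit 189))) (XT.nd (nat_lit 78) (nat_lit 76) (nat_lit 0) (XT.lf (nat_lit 0) (nat_lit 370771169562) (nat_lit 152) (nat_lit 48949628022) (nat_lit 0) (nat_lit 256409338404) (nat_lit 7) (nat_lit 5) (nat_lit 9) (nat_lit 4) (nat_lit 7) (nat_lit 4) (nat_lit 384) (nat_lit 328) (nat_lit 188)) (XT.nd (nat_lit 78) (nat_lit 0) (nat_lit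 0) (XT.lf (nat_lit 0) (nat_lit 123130550708) (nat_lit 76) (nat_lit 357157502824) (nat_lit 76) (nat_lit 242795494398) (nat_lit 6) (nat_lit 4) (nat_lit 7) (nat_lit 5) (nat_lit 7) (nat_lit 4) (nat_lit 385) (nat_lit 328) (nat_lit 187)) (XT.lf (nat_lit 0) (nat_lit 311760418774) (nat_lit 76) (nat_lit 288143969337) (nat_lit 76) (nat_lit 173781796773) (nat_lit 6) (nat_lit 4) (nat_lit 7) (nat_lit 5) (nat_lit 7) (nat_lit 4) (nat_lit 386) (nat_lit 328) (nat_lit 186))))))))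
noncomputable def xc176 : XT := (XT.nd (nat_lit 1404) (nat_lit 152) (nat_lit 0) (XT.nd (nat_lit 702) (nat_lit 76) (nat_lit 0) (XT.nd (nat_lit 312) (nat_lit 0) (nat_lit 0) (XT.nd (nat_lit 156) (nat_lit 152) (nat_lit 0) (XT.nd (nat_lit 78) (nat_lit 0) (nat_lit 0) (XT.lf (nat_lit 0) (nat_lit 515480182138) (nat_lit 76) (nat_lit 213609597612) (nat_lit 76) (nat_lit 99247273069) (nat_lit 6) (nat_lit 4) (nat_lit 7) (nat_lit 5) (nat_lit 7) (nat_lit 4) (nat_lit 387) (nat_lit 328) (nat_lit 185)) (XT.lf (nat_lit 0) (nat_lit 735497069025) (nat_lit 76) (nat_lit 133112702483) (nat_lit 76) (nat_lit 18750237219) (nat_lit 6) (nat_lit 4) (nat_lit 7) (nat_lit 5) (nat_lit 7) (nat_lit 4) (nat_lit 388) (nat_lit 328) (nat_lit 184))) (XT.nd (nat_lit 78) (nat_lit 0) (nat_lit 0) (XT.lf (nat_lit 0) (nat_lit 21442839740) (nat_lit 76) (nat_lit 43848234923) (nat_lit 152) (nat_lit 885641296916) (nat_lit 4) (nat_lit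 5) (nat_lit 5) (nat_lit 5) (nat_lit 6) (nat_lit 4) (nat_lit 389) (nat_lit 328) (nat_lit 183)) (XT.lf (nat_lit 0) (nat_lit 160566530782) (nat_lit 152) (nat_lit 803867997164) (nat_lit 0) (nat_lit 54675126886) (nat_lit 4) (nat_lit 5) (nat_lit 6) (nat_lit 4) (nat_lit 4) (nat_lit 4) (nat_lit 390) (nat_lit 328) (nat_lit 182)))) (XT.nd (nat_lit 156) (nat_lit 0) (nat_lit 0) (XT.nd (nat_lit 78) (nat_lit 0) (nat_lit 0) (XT.lf (nat_lit 0) (nat_lit 264602736102) (nat_lit 152) (nat_lit 669336058885) (nat_lit 0) (nat_lit 158711228773) (nat_lit 4) (nat_lit 5) (nat_lit 6) (nat_lit 4) (nat_lit 4) (nat_lit 4) (nat_lit 391) (nat_lit 328) (nat_lit 181)) (XT.lf (nat_lit 0) (nat_lit 376961650367) (nat_lit 152) (nat_lit 524041939596) (nat_lit 0) (nat_lit 271070047265) (nat_lit 4) (nat_lit 5) (nat_lit 6) (nat_lit 4) (nat_lit 4) (nat_lit 4) (nat_lit 392) (nat_lit 328) (nat_lit 180))) (XT.nd (nat_lit 78) (nat_lit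 0) (nat_lit 0) (XT.lf (nat_lit 0) (nat_lit 498309104180) (nat_lit 152) (nat_lit 367124637110) (nat_lit 0) (nat_lit 392417412400) (nat_lit 4) (nat_lit 5) (nat_lit 6) (nat_lit 4) (nat_lit 4) (nat_lit 4) (nat_lit 393) (nat_lit 328) (nat_lit 179)) (XT.nd (nat_lit 78) (nat_lit 0) (nat_lit 0) (XT.lf (nat_lit 0) (nat_lit 629364193563) (nat_lit 152) (nat_lit 197654271115) (nat_lit 0) (nat_lit 523472419673) (nat_lit 4) (nat_lit 5) (nat_lit 6) (nat_lit 4) (nat_lit 4) (nat_lit 4) (nat_lit 394) (nat_lit 328) (nat_lit 178)) (XT.lf (nat_lit 0) (nat_lit 770903541268) (nat_lit 152) (nat_lit 14626572776) (nat_lit 0) (nat_lit 665011691351) (nat_lit 4) (nat_lit 5) (nat_lit 6) (nat_lit 4) (nat_lit 4) (nat_lit 4) (nat_lit 395) (nat_lit 328) (nat_lit 177)))))) (XT.nd (nat_lit 312) (nat_lit 0) (nat_lit 0) (XT.nd (nat_lit 156) (nat_lit 0) (nat_lit 0) (XT.nd (nat_lit 78) (nat_lit 0) (nat_lit 0) (XT.lf (nat_lit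 0) (nat_lit 192681789990) (nat_lit 76) (nat_lit 735718110678) (nat_lit 76) (nat_lit 629826190366) (nat_lit 3) (nat_lit 4) (nat_lit 4) (nat_lit 5) (nat_lit 4) (nat_lit 4) (nat_lit 396) (nat_lit 328) (nat_lit 176)) (XT.lf (nat_lit 0) (nat_lit 417406379953) (nat_lit 76) (nat_lit 681489371246) (nat_lit 76) (nat_lit 575597385753) (nat_lit 3) (nat_lit 4) (nat_lit 4) (nat_lit 5) (nat_lit 4) (nat_lit 4) (nat_lit 397) (nat_lit 328) (nat_lit 175))) (XT.nd (nat_lit 78) (nat_lit 0) (nat_lit 0) (XT.lf (nat_lit 0) (nat_lit 660108688984) (nat_lit 76) (nat_lit 622922456677) (nat_lit 76) (nat_lit 517030410831) (nat_lit 3) (nat_lit 4) (nat_lit 4) (nat_lit 5) (nat_lit 4) (nat_lit 4) (nat_lit 398) (nat_lit 328) (nat_lit 174)) (XT.lf (nat_lit 0) (nat_lit 922226952988) (nat_lit 76) (nat_lit 559670303773) (nat_lit 76) (nat_lit 453778202045) (nat_lit 3) (nat_lit 4) (nat_lit 4) (nat_lit 5) (nat_lit 4) (nat_lit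 4) (nat_lit 399) (nat_lit 328) (nat_lit 173)))) (XT.nd (nat_lit 156) (nat_lit 0) (nat_lit 0) (XT.nd (nat_lit 78) (nat_lit 0) (nat_lit 0) (XT.lf (nat_lit 0) (nat_lit 1205314465381) (nat_lit 76) (nat_lit 491358084961) (nat_lit 76) (nat_lit 385465931490) (nat_lit 3) (nat_lit 4) (nat_lit 4) (nat_lit 5) (nat_lit 4) (nat_lit 4) (nat_lit 400) (nat_lit 328) (nat_lit 172)) (XT.lf (nat_lit 0) (nat_lit 1511048781792) (nat_lit 76) (nat_lit 417580987093) (nat_lit 76) (nat_lit 311688785711) (nat_lit 3) (nat_lit 4) (nat_lit 4) (nat_lit 5) (nat_lit 4) (nat_lit 4) (nat_lit 401) (nat_lit 328) (nat_lit 171))) (XT.nd (nat_lit 78) (nat_lit 0) (nat_lit 0) (XT.lf (nat_lit 0) (nat_lit 1841241661134) (nat_lit 76) (nat_lit 337901812551) (nat_lit 76) (nat_lit 232009566809) (nat_lit 3) (nat_lit 4) (nat_lit 4) (nat_lit 5) (nat_lit 4) (nat_lit 4) (nat_lit 402) (nat_lit 328) (nat_lit 170)) (XT.nd (nat_lit 78) (nat_lit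 0) (nat_lit 0) (XT.lf (nat_lit 0) (nat_lit 2197849801951) (nat_lit 76) (nat_lit 251848388450) (nat_lit 76) (nat_lit 145956101633) (nat_lit 3) (nat_lit 4) (nat_lit 4) (nat_lit 5) (nat_lit 4) (nat_lit 4) (nat_lit 403) (nat_lit 328) (nat_lit 169)) (XT.lf (nat_lit 0) (nat_lit 2582986437670) (nat_lit 76) (nat_lit 158910768573) (nat_lit 76) (nat_lit 53018443723) (nat_lit 3) (nat_lit 4) (nat_lit 4) (nat_lit 5) (nat_lit 4) (nat_lit 4) (nat_lit 404) (nat_lit 328) (nat_lit 168))))))) (XT.nd (nat_lit 41028) (nat_lit 0) (nat_lit 3648) (XT.nd (nat_lit 312) (nat_lit 0) (nat_lit 0) (XT.nd (nat_lit 156) (nat_lit 0) (nat_lit 0) (XT.nd (nat_lit 78) (nat_lit 76) (nat_lit 0) (XT.lf (nat_lit 0) (nat_lit 44985302298) (nat_lit 152) (nat_lit 12322931284) (nat_lit 76) (nat_lit 2952718579280) (nat_lit 2) (nat_lit 5) (nat_lit 4) (nat_lit 5) (nat_lit 3) (nat_lit 4) (nat_lit 405) (nat_lit 328) (nat_lit 167)) (XT.lf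 (nat_lit 0) (nat_lit 154504932276) (nat_lit 152) (nat_lit 3030752151200) (nat_lit 0) (nat_lit 56456420542) (nat_lit 1) (nat_lit 5) (nat_lit 3) (nat_lit 4) (nat_lit 1) (nat_lit 4) (nat_lit 406) (nat_lit 328) (nat_lit 166))) (XT.nd (nat_lit 78) (nat_lit 0) (nat_lit 0) (XT.lf (nat_lit 0) (nat_lit 274620271874) (nat_lit 152) (nat_lit 3040596395278) (nat_lit 0) (nat_lit 176571732185) (nat_lit 1) (nat_lit 5) (nat_lit 3) (nat_lit 4) (nat_lit 1) (nat_lit 4) (nat_lit 407) (nat_lit 328) (nat_lit 165)) (XT.lf (nat_lit 0) (nat_lit 404344775164) (nat_lit 152) (nat_lit 3051228306613) (nat_lit 0) (nat_lit 306296209591) (nat_lit 1) (nat_lit 5) (nat_lit 3) (nat_lit 4) (nat_lit 1) (nat_lit 4) (nat_lit 408) (nat_lit 328) (nat_lit 164)))) (XT.nd (nat_lit 156) (nat_lit 0) (nat_lit 0) (XT.nd (nat_lit 78) (nat_lit 0) (nat_lit 0) (XT.lf (nat_lit 0) (nat_lit 544447179943) (nat_lit 152) (nat_lit 3062710889123)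 (nat_lit 0) (nat_lit 446398590403) (nat_lit 1) (nat_lit 5) (nat_lit 3) (nat_lit 4) (nat_lit 1) (nat_lit 4) (nat_lit 409) (nat_lit 328) (nat_lit 163)) (XT.lf (nat_lit 0) (nat_lit 695757722685) (nat_lit 152) (nat_lit 3075112187743) (nat_lit 0) (nat_lit 597709110953) (nat_lit 1) (nat_lit 5) (nat_lit 3) (nat_lit 4) (nat_lit 1) (nat_lit 4) (nat_lit 410) (nat_lit 328) (nat_lit 162))) (XT.nd (nat_lit 78) (nat_lit 0) (nat_lit 0) (XT.lf (nat_lit 0) (nat_lit 859173058456) (nat_lit 152) (nat_lit 3088505691648) (nat_lit 0) (nat_lit 761124426177) (nat_lit 1) (nat_lit 5) (nat_lit 3) (nat_lit 4) (nat_lit 1) (nat_lit 4) (nat_lit 411) (nat_lit 328) (nat_lit 161)) (XT.nd (nat_lit 40404) (nat_lit 0) (nat_lit 4332) (XT.lf (nat_lit 0) (nat_lit 1035661574433) (nat_lit 152) (nat_lit 3102970769751) (nat_lit 0) (nat_lit 937612923128) (nat_lit 1) (nat_lit 5) (nat_lit 3) (nat_lit 4) (nat_lit 1) (nat_lit 4) (nat_lit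 412) (nat_lit 328) (nat_lit 160)) (XT.lf (nat_lit 0) (nat_lit 15219858071) (nat_lit 532) (nat_lit 1882256942) (nat_lit 532) (nat_lit 1882256942) (nat_lit 58) (nat_lit 3) (nat_lit 65) (nat_lit 3) (nat_lit 65) (nat_lit 5) (nat_lit 329) (nat_lit 329) (nat_lit 242)))))) (XT.nd (nat_lit 312) (nat_lit 684) (nat_lit 0) (XT.nd (nat_lit 156) (nat_lit 0) (nat_lit 76) (XT.nd (nat_lit 78) (nat_lit 0) (nat_lit 76) (XT.lf (nat_lit 76) (nat_lit 15145467064) (nat_lit 0) (nat_lit 16918355838) (nat_lit 532) (nat_lit 7391085938) (nat_lit 59) (nat_lit 5) (nat_lit 58) (nat_lit 3) (nat_lit 65) (nat_lit 5) (nat_lit 330) (nat_lit 329) (nat_lit 241)) (XT.lf (nat_lit 0) (nat_lit 33961315383) (nat_lit 456) (nat_lit 5316967027) (nat_lit 532) (nat_lit 1770214320) (nat_lit 59) (nat_lit 5) (nat_lit 65) (nat_lit 5) (nat_lit 66) (nat_lit 5) (nat_lit 331) (nat_lit 329) (nat_lit 240))) (XT.nd (nat_lit 78) (nat_lit 0) (nat_lit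 0) (XT.lf (nat_lit 76) (nat_lit 15529733885) (nat_lit 0) (nat_lit 21289874212) (nat_lit 532) (nat_lit 5885249360) (nat_lit 60) (nat_lit 5) (nat_lit 59) (nat_lit 5) (nat_lit 66) (nat_lit 5) (nat_lit 332) (nat_lit 329) (nat_lit 239)) (XT.lf (nat_lit 76) (nat_lit 38344022986) (nat_lit 0) (nat_lit 1704219203) (nat_lit 532) (nat_lit 4434156052) (nat_lit 60) (nat_lit 5) (nat_lit 59) (nat_lit 5) (nat_lit 66) (nat_lit 5) (nat_lit 333) (nat_lit 329) (nat_lit 238)))) (XT.nd (nat_lit 156) (nat_lit 304) (nat_lit 0) (XT.nd (nat_lit 78) (nat_lit 532) (nat_lit 0) (XT.lf (nat_lit 76) (nat_lit 16959308258) (nat_lit 0) (nat_lit 27448064884) (nat_lit 532) (nat_lit 1924997688) (nat_lit 61) (nat_lit 5) (nat_lit 60) (nat_lit 5) (nat_lit 67) (nat_lit 5) (nat_lit 334) (nat_lit 329) (nat_lit 237)) (XT.lf (nat_lit 0) (nat_lit 958793069) (nat_lit 532) (nat_lit 6133271687) (nat_lit 608) (nat_lit 41219717588) (nat_lit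 53) (nat_lit 5) (nat_lit 60) (nat_lit 5) (nat_lit 61) (nat_lit 5) (nat_lit 335) (nat_lit 329) (nat_lit 236))) (XT.nd (nat_lit 78) (nat_lit 380) (nat_lit 0) (XT.lf (nat_lit 0) (nat_lit 4816960059) (nat_lit 532) (nat_lit 30870317463) (nat_lit 76) (nat_lit 14690459430) (nat_lit 54) (nat_lit 5) (nat_lit 61) (nat_lit 5) (nat_lit 55) (nat_lit 5) (nat_lit 336) (nat_lit 329) (nat_lit 235)) (XT.nd (nat_lit 78) (nat_lit 380) (nat_lit 0) (XT.lf (nat_lit 0) (nat_lit 9337164409) (nat_lit 532) (nat_lit 5238679220) (nat_lit 76) (nat_lit 38004857279) (nat_lit 54) (nat_lit 5) (nat_lit 61) (nat_lit 5) (nat_lit 55) (nat_lit 5) (nat_lit 337) (nat_lit 329) (nat_lit 234)) (XT.lf (nat_lit 0) (nat_lit 14997007248) (nat_lit 456) (nat_lit 31504566189) (nat_lit 76) (nat_lit 8396090198) (nat_lit 49) (nat_lit 5) (nat_lit 55) (nat_lit 5) (nat_lit 50) (nat_lit 5) (nat_lit 338) (nat_lit 329) (nat_lit 233))))))))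
noncomputable def xc177 : XT := (XT.nd (nat_lit 1404) (nat_lit 912) (nat_lit 0) (XT.nd (nat_lit 702) (nat_lit 836) (nat_lit 0) (XT.nd (nat_lit 312) (nat_lit 608) (nat_lit 0) (XT.nd (nat_lit 156) (nat_lit 228) (nat_lit 0) (XT.nd (nat_lit 78) (nat_lit 228) (nat_lit 0) (XT.lf (nat_lit 0) (nat_lit 21632662685) (nat_lit 456) (nat_lit 3160166114) (nat_lit 76) (nat_lit 32565315740) (nat_lit 49) (nat_lit 5) (nat_lit 55) (nat_lit 5) (nat_lit 50) (nat_lit 5) (nat_lit 339) (nat_lit 329) (nat_lit 232)) (XT.lf (nat_lit 0) (nat_lit 28894743653) (nat_lit 228) (nat_lit 597009768) (nat_lit 304) (nat_lit 30468306802) (nat_lit 46) (nat_lit 5) (nat_lit 49) (nat_lit 5) (nat_lit 50) (nat_lit 5) (nat_lit 340) (nat_lit 329) (nat_lit 231))) (XT.nd (nat_lit 78) (nat_lit 0) (nat_lit 0) (XT.lf (nat_lit 0) (nat_lit 328023276) (nat_lit 228) (nat_lit 38359964726) (nat_lit 304) (nat_lit 24025470553) (nat_lit 43) (nat_lit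 5) (nat_lit 46) (nat_lit 5) (nat_lit 47) (nat_lit 5) (nat_lit 341) (nat_lit 329) (nat_lit 230)) (XT.lf (nat_lit 0) (nat_lit 35980696976) (nat_lit 228) (nat_lit 13501597649) (nat_lit 304) (nat_lit 16135846783) (nat_lit 43) (nat_lit 5) (nat_lit 46) (nat_lit 5) (nat_lit 47) (nat_lit 5) (nat_lit 342) (nat_lit 329) (nat_lit 229)))) (XT.nd (nat_lit 156) (nat_lit 380) (nat_lit 0) (XT.nd (nat_lit 78) (nat_lit 76) (nat_lit 0) (XT.lf (nat_lit 0) (nat_lit 5691661659) (nat_lit 152) (nat_lit 55904353387) (nat_lit 228) (nat_lit 7122716635) (nat_lit 41) (nat_lit 5) (nat_lit 43) (nat_lit 5) (nat_lit 44) (nat_lit 5) (nat_lit 343) (nat_lit 329) (nat_lit 228)) (XT.lf (nat_lit 0) (nat_lit 3660970249) (nat_lit 228) (nat_lit 26907009315) (nat_lit 76) (nat_lit 41399955762) (nat_lit 40) (nat_lit 5) (nat_lit 43) (nat_lit 5) (nat_lit 41) (nat_lit 5) (nat_lit 344) (nat_lit 329) (nat_lit 227))) (XT.nd (nat_lit 78)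 (nat_lit 152) (nat_lit 0) (XT.lf (nat_lit 0) (nat_lit 12542750049) (nat_lit 228) (nat_lit 2679650650) (nat_lit 304) (nat_lit 60215887139) (nat_lit 37) (nat_lit 5) (nat_lit 40) (nat_lit 5) (nat_lit 41) (nat_lit 5) (nat_lit 345) (nat_lit 329) (nat_lit 226)) (XT.nd (nat_lit 78) (nat_lit 152) (nat_lit 0) (XT.lf (nat_lit 0) (nat_lit 29121737388) (nat_lit 304) (nat_lit 23130139152) (nat_lit 76) (nat_lit 26821354379) (nat_lit 37) (nat_lit 5) (nat_lit 41) (nat_lit 5) (nat_lit 38) (nat_lit 5) (nat_lit 346) (nat_lit 329) (nat_lit 225)) (XT.lf (nat_lit 0) (nat_lit 20784381378) (nat_lit 152) (nat_lit 23916505136) (nat_lit 228) (nat_lit 38252655281) (nat_lit 35) (nat_lit 5) (nat_lit 37) (nat_lit 5) (nat_lit 38) (nat_lit 5) (nat_lit 347) (nat_lit 329) (nat_lit 224)))))) (XT.nd (nat_lit 312) (nat_lit 456) (nat_lit 0) (XT.nd (nat_lit 156) (nat_lit 228) (nat_lit 0) (XT.nd (nat_lit 78) (nat_lit 152) (nat_lit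 0) (XT.lf (nat_lit 0) (nat_lit 62334454530) (nat_lit 228) (nat_lit 17745686696) (nat_lit 76) (nat_lit 6999490827) (nat_lit 35) (nat_lit 5) (nat_lit 38) (nat_lit 5) (nat_lit 36) (nat_lit 5) (nat_lit 348) (nat_lit 329) (nat_lit 223)) (XT.lf (nat_lit 0) (nat_lit 31167468794) (nat_lit 152) (nat_lit 51580590628) (nat_lit 228) (nat_lit 8678203355) (nat_lit 33) (nat_lit 5) (nat_lit 35) (nat_lit 5) (nat_lit 36) (nat_lit 5) (nat_lit 349) (nat_lit 329) (nat_lit 222))) (XT.nd (nat_lit 78) (nat_lit 152) (nat_lit 0) (XT.lf (nat_lit 0) (nat_lit 8736599721) (nat_lit 228) (nat_lit 11302267444) (nat_lit 76) (nat_lit 76025358038) (nat_lit 32) (nat_lit 5) (nat_lit 35) (nat_lit 5) (nat_lit 33) (nat_lit 5) (nat_lit 350) (nat_lit 329) (nat_lit 221)) (XT.lf (nat_lit 0) (nat_lit 28491451968) (nat_lit 228) (nat_lit 57821451691) (nat_lit 76) (nat_lit 14629032349) (nat_lit 30) (nat_lit 5) (nat_lit 33) (nat_lit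 5) (nat_lit 31) (nat_lit 5) (nat_lit 351) (nat_lit 329) (nat_lit 220)))) (XT.nd (nat_lit 156) (nat_lit 304) (nat_lit 0) (XT.nd (nat_lit 78) (nat_lit 152) (nat_lit 0) (XT.lf (nat_lit 0) (nat_lit 50662957566) (nat_lit 228) (nat_lit 4175843377) (nat_lit 76) (nat_lit 51304162520) (nat_lit 30) (nat_lit 5) (nat_lit 33) (nat_lit 5) (nat_lit 31) (nat_lit 5) (nat_lit 352) (nat_lit 329) (nat_lit 219)) (XT.lf (nat_lit 0) (nat_lit 56590434131) (nat_lit 152) (nat_lit 19377569760) (nat_lit 228) (nat_lit 35683284527) (nat_lit 28) (nat_lit 5) (nat_lit 30) (nat_lit 5) (nat_lit 31) (nat_lit 5) (nat_lit 353) (nat_lit 329) (nat_lit 218))) (XT.nd (nat_lit 78) (nat_lit 228) (nat_lit 0) (XT.lf (nat_lit 0) (nat_lit 4636387174) (nat_lit 76) (nat_lit 99343598940) (nat_lit 152) (nat_lit 13565691538) (nat_lit 27) (nat_lit 5) (nat_lit 28) (nat_lit 5) (nat_lit 29) (nat_lit 4) (nat_lit 354) (nat_lit 329) (nat_lit 217))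 (XT.nd (nat_lit 78) (nat_lit 152) (nat_lit 0) (XT.lf (nat_lit 0) (nat_lit 11851730929) (nat_lit 152) (nat_lit 52342961286) (nat_lit 76) (nat_lit 59533329469) (nat_lit 26) (nat_lit 5) (nat_lit 28) (nat_lit 5) (nat_lit 27) (nat_lit 5) (nat_lit 355) (nat_lit 329) (nat_lit 216)) (XT.lf (nat_lit 0) (nat_lit 13384082038) (nat_lit 152) (nat_lit 25506395533) (nat_lit 228) (nat_lit 91460621492) (nat_lit 24) (nat_lit 5) (nat_lit 26) (nat_lit 5) (nat_lit 27) (nat_lit 5) (nat_lit 356) (nat_lit 329) (nat_lit 215))))))) (XT.nd (nat_lit 702) (nat_lit 380) (nat_lit 0) (XT.nd (nat_lit 312) (nat_lit 228) (nat_lit 0) (XT.nd (nat_lit 156) (nat_lit 228) (nat_lit 0) (XT.nd (nat_lit 78) (nat_lit 76) (nat_lit 0) (XT.lf (nat_lit 0) (nat_lit 69951070188) (nat_lit 228) (nat_lit 50473868811) (nat_lit 76) (nat_lit 16930384564) (nat_lit 24) (nat_lit 5) (nat_lit 27) (nat_lit 5) (nat_lit 25) (nat_lit 4) (nat_lit 357)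 (nat_lit 329) (nat_lit 214)) (XT.lf (nat_lit 0) (nat_lit 21763262694) (nat_lit 76) (nat_lit 82918197934) (nat_lit 152) (nat_lit 40143629946) (nat_lit 23) (nat_lit 5) (nat_lit 24) (nat_lit 5) (nat_lit 25) (nat_lit 4) (nat_lit 358) (nat_lit 329) (nat_lit 213))) (XT.nd (nat_lit 78) (nat_lit 228) (nat_lit 0) (XT.lf (nat_lit 0) (nat_lit 102648248843) (nat_lit 76) (nat_lit 40921150555) (nat_lit 152) (nat_lit 9212710720) (nat_lit 23) (nat_lit 5) (nat_lit 24) (nat_lit 5) (nat_lit 25) (nat_lit 4) (nat_lit 359) (nat_lit 329) (nat_lit 212)) (XT.lf (nat_lit 0) (nat_lit 23831799495) (nat_lit 228) (nat_lit 131890862320) (nat_lit 76) (nat_lit 5538536435) (nat_lit 20) (nat_lit 5) (nat_lit 23) (nat_lit 5) (nat_lit 21) (nat_lit 4) (nat_lit 360) (nat_lit 329) (nat_lit 211)))) (XT.nd (nat_lit 156) (nat_lit 152) (nat_lit 0) (XT.nd (nat_lit 78) (nat_lit 76) (nat_lit 0) (XT.lf (nat_lit 0) (nat_lit 61490516147)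 (nat_lit 228) (nat_lit 53562260997) (nat_lit 76) (nat_lit 55149223722) (nat_lit 20) (nat_lit 5) (nat_lit 23) (nat_lit 5) (nat_lit 21) (nat_lit 4) (nat_lit 361) (nat_lit 329) (nat_lit 210)) (XT.lf (nat_lit 0) (nat_lit 32665239522) (nat_lit 76) (nat_lit 70281486503) (nat_lit 152) (nat_lit 76848558389) (nat_lit 19) (nat_lit 5) (nat_lit 20) (nat_lit 5) (nat_lit 21) (nat_lit 4) (nat_lit 362) (nat_lit 329) (nat_lit 209))) (XT.nd (nat_lit 78) (nat_lit 152) (nat_lit 0) (XT.lf (nat_lit 0) (nat_lit 128835673206) (nat_lit 76) (nat_lit 20347468599) (nat_lit 152) (nat_lit 40855792481) (nat_lit 19) (nat_lit 5) (nat_lit 20) (nat_lit 5) (nat_lit 21) (nat_lit 4) (nat_lit 363) (nat_lit 329) (nat_lit 208)) (XT.nd (nat_lit 78) (nat_lit 76) (nat_lit 0) (XT.lf (nat_lit 0) (nat_lit 32409972634) (nat_lit 76) (nat_lit 168294854956) (nat_lit 76) (nat_lit 270340358) (nat_lit 18) (nat_lit 4) (nat_lit 19) (nat_lit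 5) (nat_lit 19) (nat_lit 4) (nat_lit 364) (nat_lit 329) (nat_lit 207)) (XT.lf (nat_lit 0) (nat_lit 43627449194) (nat_lit 152) (nat_lit 77280461097) (nat_lit 76) (nat_lit 91615005327) (nat_lit 17) (nat_lit 5) (nat_lit 19) (nat_lit 5) (nat_lit 18) (nat_lit 4) (nat_lit 365) (nat_lit 329) (nat_lit 206)))))) (XT.nd (nat_lit 312) (nat_lit 152) (nat_lit 0) (XT.nd (nat_lit 156) (nat_lit 152) (nat_lit 0) (XT.nd (nat_lit 78) (nat_lit 0) (nat_lit 0) (XT.lf (nat_lit 0) (nat_lit 22420340600) (nat_lit 76) (nat_lit 69140649662) (nat_lit 152) (nat_lit 133389848663) (nat_lit 16) (nat_lit 5) (nat_lit 17) (nat_lit 5) (nat_lit 18) (nat_lit 4) (nat_lit 366) (nat_lit 329) (nat_lit 205)) (XT.lf (nat_lit 0) (nat_lit 134491000598) (nat_lit 76) (nat_lit 10950543672) (nat_lit 152) (nat_lit 92762465705) (nat_lit 16) (nat_lit 5) (nat_lit 17) (nat_lit 5) (nat_lit 18) (nat_lit 4) (nat_lit 367) (nat_lit 329) (nat_lit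 204))) (XT.nd (nat_lit 78) (nat_lit 76) (nat_lit 0) (XT.lf (nat_lit 0) (nat_lit 1853360279) (nat_lit 76) (nat_lit 203071207136) (nat_lit 76) (nat_lit 47489505540) (nat_lit 15) (nat_lit 4) (nat_lit 16) (nat_lit 5) (nat_lit 16) (nat_lit 4) (nat_lit 368) (nat_lit 329) (nat_lit 203)) (XT.lf (nat_lit 0) (nat_lit 4528158551) (nat_lit 152) (nat_lit 146163840176) (nat_lit 76) (nat_lit 116810785423) (nat_lit 14) (nat_lit 5) (nat_lit 16) (nat_lit 5) (nat_lit 15) (nat_lit 4) (nat_lit 369) (nat_lit 329) (nat_lit 202)))) (XT.nd (nat_lit 156) (nat_lit 76) (nat_lit 0) (XT.nd (nat_lit 78) (nat_lit 76) (nat_lit 0) (XT.lf (nat_lit 0) (nat_lit 58140998444) (nat_lit 152) (nat_lit 34649789094) (nat_lit 76) (nat_lit 190909171038) (nat_lit 14) (nat_lit 5) (nat_lit 16) (nat_lit 5) (nat_lit 15) (nat_lit 4) (nat_lit 370) (nat_lit 329) (nat_lit 201)) (XT.lf (nat_lit 0) (nat_lit 90301642192) (nat_lit 76) (nat_lit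 27912451731) (nat_lit 152) (nat_lit 182805114930) (nat_lit 13) (nat_lit 5) (nat_lit 14) (nat_lit 5) (nat_lit 15) (nat_lit 4) (nat_lit 371) (nat_lit 329) (nat_lit 200))) (XT.nd (nat_lit 78) (nat_lit 76) (nat_lit 0) (XT.lf (nat_lit 0) (nat_lit 185078363979) (nat_lit 152) (nat_lit 93467922507) (nat_lit 0) (nat_lit 41018886670) (nat_lit 13) (nat_lit 5) (nat_lit 15) (nat_lit 4) (nat_lit 13) (nat_lit 4) (nat_lit 372) (nat_lit 329) (nat_lit 199)) (XT.nd (nat_lit 78) (nat_lit 0) (nat_lit 0) (XT.lf (nat_lit 0) (nat_lit 34143776074) (nat_lit 76) (nat_lit 224693672140) (nat_lit 76) (nat_lit 80633712729) (nat_lit 12) (nat_lit 4) (nat_lit 13) (nat_lit 5) (nat_lit 13) (nat_lit 4) (nat_lit 373) (nat_lit 329) (nat_lit 198)) (XT.lf (nat_lit 0) (nat_lit 177279109296) (nat_lit 76) (nat_lit 163773257878) (nat_lit 76) (nat_lit 19712852075) (nat_lit 12) (nat_lit 4) (nat_lit 13) (nat_lit 5) (nat_lit 13) (nat_lit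 4) (nat_lit 374) (nat_lit 329) (nat_lit 197))))))))
noncomputable def xc178 : XT := (XT.nd (nat_lit 1404) (nat_lit 228) (nat_lit 0) (XT.nd (nat_lit 702) (nat_lit 228) (nat_lit 0) (XT.nd (nat_lit 312) (nat_lit 228) (nat_lit 0) (XT.nd (nat_lit 156) (nat_lit 0) (nat_lit 0) (XT.nd (nat_lit 78) (nat_lit 76) (nat_lit 0) (XT.lf (nat_lit 0) (nat_lit 43776038063) (nat_lit 152) (nat_lit 53006659956) (nat_lit 76) (nat_lit 286891478860) (nat_lit 11) (nat_lit 5) (nat_lit 13) (nat_lit 5) (nat_lit 12) (nat_lit 4) (nat_lit 375) (nat_lit 329) (nat_lit 196)) (XT.lf (nat_lit 0) (nat_lit 92000567237) (nat_lit 76) (nat_lit 21490667894) (nat_lit 152) (nat_lit 294706678184) (nat_lit 10) (nat_lit 5) (nat_lit 11) (nat_lit 5) (nat_lit 12) (nat_lit 4) (nat_lit 376) (nat_lit 329) (nat_lit 195))) (XT.nd (nat_lit 78) (nat_lit 0) (nat_lit 0) (XT.lf (nat_lit 0) (nat_lit 191708962951) (nat_lit 152) (nat_lit 184421927475)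 (nat_lit 0) (nat_lit 58318633140) (nat_lit 10) (nat_lit 5) (nat_lit 12) (nat_lit 4) (nat_lit 10) (nat_lit 4) (nat_lit 377) (nat_lit 329) (nat_lit 194)) (XT.lf (nat_lit 0) (nat_lit 276741927466) (nat_lit 152) (nat_lit 42663415938) (nat_lit 0) (nat_lit 143351293848) (nat_lit 10) (nat_lit 5) (nat_lit 12) (nat_lit 4) (nat_lit 10) (nat_lit 4) (nat_lit 378) (nat_lit 329) (nat_lit 193)))) (XT.nd (nat_lit 156) (nat_lit 152) (nat_lit 0) (XT.nd (nat_lit 78) (nat_lit 0) (nat_lit 0) (XT.lf (nat_lit 0) (nat_lit 116250406185) (nat_lit 76) (nat_lit 255122595524) (nat_lit 76) (nat_lit 121731680604) (nat_lit 9) (nat_lit 4) (nat_lit 10) (nat_lit 5) (nat_lit 10) (nat_lit 4) (nat_lit 379) (nat_lit 329) (nat_lit 192)) (XT.lf (nat_lit 0) (nat_lit 290302971256) (nat_lit 76) (nat_lit 184437741556) (nat_lit 76) (nat_lit 51046566171) (nat_lit 9) (nat_lit 4) (nat_lit 10) (nat_lit 5) (nat_lit 10) (nat_lit 4) (nat_lit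 380) (nat_lit 329) (nat_lit 191))) (XT.nd (nat_lit 78) (nat_lit 76) (nat_lit 0) (XT.lf (nat_lit 0) (nat_lit 24027755824) (nat_lit 152) (nat_lit 83413684441) (nat_lit 76) (nat_lit 453594404755) (nat_lit 8) (nat_lit 5) (nat_lit 10) (nat_lit 5) (nat_lit 9) (nat_lit 4) (nat_lit 381) (nat_lit 329) (nat_lit 190)) (XT.nd (nat_lit 78) (nat_lit 0) (nat_lit 0) (XT.lf (nat_lit 0) (nat_lit 83682238805) (nat_lit 76) (nat_lit 20680202862) (nat_lit 152) (nat_lit 494474803266) (nat_lit 7) (nat_lit 5) (nat_lit 8) (nat_lit 5) (nat_lit 9) (nat_lit 4) (nat_lit 382) (nat_lit 329) (nat_lit 189)) (XT.lf (nat_lit 0) (nat_lit 195219698389) (nat_lit 152) (nat_lit 372406665537) (nat_lit 0) (nat_lit 71708729288) (nat_lit 7) (nat_lit 5) (nat_lit 9) (nat_lit 4) (nat_lit 7) (nat_lit 4) (nat_lit 383) (nat_lit 329) (nat_lit 188)))))) (XT.nd (nat_lit 312) (nat_lit 152) (nat_lit 0) (XT.nd (nat_lit 156) (nat_lit 76) (nat_lit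 0) (XT.nd (nat_lit 78) (nat_lit 0) (nat_lit 0) (XT.lf (nat_lit 0) (nat_lit 293882406378) (nat_lit 152) (nat_lit 218776153367) (nat_lit 0) (nat_lit 170371260009) (nat_lit 7) (nat_lit 5) (nat_lit 9) (nat_lit 4) (nat_lit 7) (nat_lit 4) (nat_lit 384) (nat_lit 329) (nat_lit 187)) (XT.lf (nat_lit 0) (nat_lit 400437874157) (nat_lit 152) (nat_lit 52855707207) (nat_lit 0) (nat_lit 276926563651) (nat_lit 7) (nat_lit 5) (nat_lit 9) (nat_lit 4) (nat_lit 7) (nat_lit 4) (nat_lit 385) (nat_lit 329) (nat_lit 186))) (XT.nd (nat_lit 78) (nat_lit 0) (nat_lit 0) (XT.lf (nat_lit 0) (nat_lit 132990635414) (nat_lit 76) (nat_lit 385725334100) (nat_lit 76) (nat_lit 262213871615) (nat_lit 6) (nat_lit 4) (nat_lit 7) (nat_lit 5) (nat_lit 7) (nat_lit 4) (nat_lit 386) (nat_lit 329) (nat_lit 185)) (XT.lf (nat_lit 0) (nat_lit 336710178804) (nat_lit 76) (nat_lit 311191071190) (nat_lit 76) (nat_lit 187679467984) (nat_lit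 6) (nat_lit 4) (nat_lit 7) (nat_lit 5) (nat_lit 7) (nat_lit 4) (nat_lit 387) (nat_lit 329) (nat_lit 184)))) (XT.nd (nat_lit 156) (nat_lit 152) (nat_lit 0) (XT.nd (nat_lit 78) (nat_lit 0) (nat_lit 0) (XT.lf (nat_lit 0) (nat_lit 556726862012) (nat_lit 76) (nat_lit 230694276815) (nat_lit 76) (nat_lit 107182543312) (nat_lit 6) (nat_lit 4) (nat_lit 7) (nat_lit 5) (nat_lit 7) (nat_lit 4) (nat_lit 388) (nat_lit 329) (nat_lit 183)) (XT.lf (nat_lit 0) (nat_lit 794344487606) (nat_lit 76) (nat_lit 143757932935) (nat_lit 76) (nat_lit 20246078786) (nat_lit 6) (nat_lit 4) (nat_lit 7) (nat_lit 5) (nat_lit 7) (nat_lit 4) (nat_lit 389) (nat_lit 329) (nat_lit 182))) (XT.nd (nat_lit 78) (nat_lit 0) (nat_lit 0) (XT.lf (nat_lit 0) (nat_lit 23165930554) (nat_lit 76) (nat_lit 47352288874) (nat_lit 152) (nat_lit 956488432563) (nat_lit 4) (nat_lit 5) (nat_lit 5) (nat_lit 5) (nat_lit 6) (nat_lit 4) (nat_lit 390)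 (nat_lit 329) (nat_lit 181)) (XT.nd (nat_lit 78) (nat_lit 0) (nat_lit 0) (XT.lf (nat_lit 0) (nat_lit 173415510928) (nat_lit 152) (nat_lit 868170139306) (nat_lit 0) (nat_lit 59052483805) (nat_lit 4) (nat_lit 5) (nat_lit 6) (nat_lit 4) (nat_lit 4) (nat_lit 4) (nat_lit 391) (nat_lit 329) (nat_lit 180)) (XT.lf (nat_lit 0) (nat_lit 285774341734) (nat_lit 152) (nat_lit 722876186529) (nat_lit 0) (nat_lit 171411225934) (nat_lit 4) (nat_lit 5) (nat_lit 6) (nat_lit 4) (nat_lit 4) (nat_lit 4) (nat_lit 392) (nat_lit 329) (nat_lit 179))))))) (XT.nd (nat_lit 702) (nat_lit 152) (nat_lit 0) (XT.nd (nat_lit 312) (nat_lit 76) (nat_lit 0) (XT.nd (nat_lit 156) (nat_lit 0) (nat_lit 0) (XT.nd (nat_lit 78) (nat_lit 0) (nat_lit 0) (XT.lf (nat_lit 0) (nat_lit 407121718271) (nat_lit 152) (nat_lit 565959038221) (nat_lit 0) (nat_lit 292758520361) (nat_lit 4) (nat_lit 5) (nat_lit 6) (nat_lit 4) (nat_lit 4) (nat_lit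 4) (nat_lit 393) (nat_lit 329) (nat_lit 178)) (XT.lf (nat_lit 0) (nat_lit 538176736101) (nat_lit 152) (nat_lit 396488814983) (nat_lit 0) (nat_lit 423813462164) (nat_lit 4) (nat_lit 5) (nat_lit 6) (nat_lit 4) (nat_lit 4) (nat_lit 4) (nat_lit 394) (nat_lit 329) (nat_lit 177))) (XT.nd (nat_lit 78) (nat_lit 0) (nat_lit 0) (XT.lf (nat_lit 0) (nat_lit 679716017555) (nat_lit 152) (nat_lit 213461248827) (nat_lit 0) (nat_lit 565352673222) (nat_lit 4) (nat_lit 5) (nat_lit 6) (nat_lit 4) (nat_lit 4) (nat_lit 4) (nat_lit 395) (nat_lit 329) (nat_lit 176)) (XT.lf (nat_lit 0) (nat_lit 832578313927) (nat_lit 152) (nat_lit 15791731953) (nat_lit 0) (nat_lit 718214904413) (nat_lit 4) (nat_lit 5) (nat_lit 6) (nat_lit 4) (nat_lit 4) (nat_lit 4) (nat_lit 396) (nat_lit 329) (nat_lit 175)))) (XT.nd (nat_lit 156) (nat_lit 0) (nat_lit 0) (XT.nd (nat_lit 78) (nat_lit 0) (nat_lit 0) (XT.lf (nat_lit 0) (nat_lit 208101174097)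 (nat_lit 76) (nat_lit 794573140009) (nat_lit 76) (nat_lit 680209670143) (nat_lit 3) (nat_lit 4) (nat_lit 4) (nat_lit 5) (nat_lit 4) (nat_lit 4) (nat_lit 397) (nat_lit 329) (nat_lit 174)) (XT.lf (nat_lit 0) (nat_lit 450803372671) (nat_lit 76) (nat_lit 736006280647) (nat_lit 76) (nat_lit 621642754898) (nat_lit 3) (nat_lit 4) (nat_lit 4) (nat_lit 5) (nat_lit 4) (nat_lit 4) (nat_lit 398) (nat_lit 329) (nat_lit 173))) (XT.nd (nat_lit 78) (nat_lit 0) (nat_lit 0) (XT.lf (nat_lit 0) (nat_lit 712921534401) (nat_lit 76) (nat_lit 672754178861) (nat_lit 76) (nat_lit 558390601369) (nat_lit 3) (nat_lit 4) (nat_lit 4) (nat_lit 5) (nat_lit 4) (nat_lit 4) (nat_lit 399) (nat_lit 329) (nat_lit 172)) (XT.nd (nat_lit 78) (nat_lit 0) (nat_lit 0) (XT.lf (nat_lit 0) (nat_lit 996008952095) (nat_lit 76) (nat_lit 604442007380) (nat_lit 76) (nat_lit 490078381978) (nat_lit 3) (nat_lit 4) (nat_lit 4) (nat_lit 5) (nat_lit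 4) (nat_lit 4) (nat_lit 400) (nat_lit 329) (nat_lit 171)) (XT.lf (nat_lit 0) (nat_lit 1301743180823) (nat_lit 76) (nat_lit 530664953337) (nat_lit 76) (nat_lit 416301283573) (nat_lit 3) (nat_lit 4) (nat_lit 4) (nat_lit 5) (nat_lit 4) (nat_lit 4) (nat_lit 401) (nat_lit 329) (nat_lit 170)))))) (XT.nd (nat_lit 312) (nat_lit 152) (nat_lit 0) (XT.nd (nat_lit 156) (nat_lit 0) (nat_lit 0) (XT.nd (nat_lit 78) (nat_lit 0) (nat_lit 0) (XT.lf (nat_lit 0) (nat_lit 1631935978976) (nat_lit 76) (nat_lit 450985819374) (nat_lit 76) (nat_lit 336622108535) (nat_lit 3) (nat_lit 4) (nat_lit 4) (nat_lit 5) (nat_lit 4) (nat_lit 4) (nat_lit 402) (nat_lit 329) (nat_lit 169)) (XT.lf (nat_lit 0) (nat_lit 1988544044618) (nat_lit 76) (nat_lit 364932432846) (nat_lit 76) (nat_lit 250568683975) (nat_lit 3) (nat_lit 4) (nat_lit 4) (nat_lit 5) (nat_lit 4) (nat_lit 4) (nat_lit 403) (nat_lit 329) (nat_lit 168))) (XT.nd (nat_lit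 78) (nat_lit 0) (nat_lit 0) (XT.lf (nat_lit 0) (nat_lit 2373680610730) (nat_lit 76) (nat_lit 271994847758) (nat_lit 76) (nat_lit 157631063672) (nat_lit 3) (nat_lit 4) (nat_lit 4) (nat_lit 5) (nat_lit 4) (nat_lit 4) (nat_lit 404) (nat_lit 329) (nat_lit 167)) (XT.lf (nat_lit 0) (nat_lit 2789627968075) (nat_lit 76) (nat_lit 171622322866) (nat_lit 76) (nat_lit 57258506173) (nat_lit 3) (nat_lit 4) (nat_lit 4) (nat_lit 5) (nat_lit 4) (nat_lit 4) (nat_lit 405) (nat_lit 329) (nat_lit 166)))) (XT.nd (nat_lit 156) (nat_lit 0) (nat_lit 0) (XT.nd (nat_lit 78) (nat_lit 76) (nat_lit 0) (XT.lf (nat_lit 0) (nat_lit 48585369409) (nat_lit 152) (nat_lit 13306278512) (nat_lit 76) (nat_lit 3188937210371) (nat_lit 2) (nat_lit 5) (nat_lit 4) (nat_lit 5) (nat_lit 3) (nat_lit 4) (nat_lit 406) (nat_lit 329) (nat_lit 165)) (XT.lf (nat_lit 0) (nat_lit 166866565245) (nat_lit 152) (nat_lit 3273209831328) (nat_lit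 0) (nat_lit 60974088542) (nat_lit 1) (nat_lit 5) (nat_lit 3) (nat_lit 4) (nat_lit 1) (nat_lit 4) (nat_lit 407) (nat_lit 329) (nat_lit 164))) (XT.nd (nat_lit 78) (nat_lit 0) (nat_lit 0) (XT.lf (nat_lit 0) (nat_lit 296591040279) (nat_lit 152) (nat_lit 3283841799523) (nat_lit 0) (nat_lit 190698539608) (nat_lit 1) (nat_lit 5) (nat_lit 3) (nat_lit 4) (nat_lit 1) (nat_lit 4) (nat_lit 408) (nat_lit 329) (nat_lit 163)) (XT.nd (nat_lit 78) (nat_lit 0) (nat_lit 0) (XT.lf (nat_lit 0) (nat_lit 436693418894) (nat_lit 152) (nat_lit 3295324434682) (nat_lit 0) (nat_lit 330800896032) (nat_lit 1) (nat_lit 5) (nat_lit 3) (nat_lit 4) (nat_lit 1) (nat_lit 4) (nat_lit 409) (nat_lit 329) (nat_lit 162)) (XT.lf (nat_lit 0) (nat_lit 588003937410) (nat_lit 152) (nat_lit 3307725782049) (nat_lit 0) (nat_lit 482111394001) (nat_lit 1) (nat_lit 5) (nat_lit 3) (nat_lit 4) (nat_lit 1) (nat_lit 4) (nat_lit 410) (nat_lit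 329) (nat_lit 161))))))))
noncomputable def xc179 : XT := (XT.nd (nat_lit 41808) (nat_lit 0) (nat_lit 1368) (XT.nd (nat_lit 41106) (nat_lit 0) (nat_lit 2964) (XT.nd (nat_lit 40716) (nat_lit 0) (nat_lit 3952) (XT.nd (nat_lit 40560) (nat_lit 0) (nat_lit 4332) (XT.nd (nat_lit 78) (nat_lit 0) (nat_lit 0) (XT.lf (nat_lit 0) (nat_lit 751419250751) (nat_lit 152) (nat_lit 3321119331092) (nat_lit 0) (nat_lit 645526688315) (nat_lit 1) (nat_lit 5) (nat_lit 3) (nat_lit 4) (nat_lit 1) (nat_lit 4) (nat_lit 411) (nat_lit 329) (nat_lit 160)) (XT.lf (nat_lit 0) (nat_lit 927907745959) (nat_lit 152) (nat_lit 3335584450989) (nat_lit 0) (nat_lit 822015165906) (nat_lit 1) (nat_lit 5) (nat_lit 3) (nat_lit 4) (nat_lit 1) (nat_lit 4) (nat_lit 412) (nat_lit 329) (nat_lit 159))) (XT.nd (nat_lit 78) (nat_lit 0) (nat_lit 0) (XT.lf (nat_lit 0) (nat_lit 16478699407) (nat_lit 532) (nat_lit 2010530118) (nat_lit 532)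 (nat_lit 2010530118) (nat_lit 58) (nat_lit 3) (nat_lit 65) (nat_lit 3) (nat_lit 65) (nat_lit 5) (nat_lit 330) (nat_lit 330) (nat_lit 240)) (XT.lf (nat_lit 76) (nat_lit 16400589701) (nat_lit 0) (nat_lit 18305778727) (nat_lit 532) (nat_lit 7898623401) (nat_lit 59) (nat_lit 5) (nat_lit 58) (nat_lit 3) (nat_lit 65) (nat_lit 5) (nat_lit 331) (nat_lit 330) (nat_lit 239)))) (XT.nd (nat_lit 156) (nat_lit 456) (nat_lit 0) (XT.nd (nat_lit 78) (nat_lit 0) (nat_lit 0) (XT.lf (nat_lit 0) (nat_lit 36749167919) (nat_lit 456) (nat_lit 5695461802) (nat_lit 532) (nat_lit 1881964906) (nat_lit 59) (nat_lit 5) (nat_lit 65) (nat_lit 5) (nat_lit 66) (nat_lit 5) (nat_lit 332) (nat_lit 330) (nat_lit 238)) (XT.lf (nat_lit 76) (nat_lit 16817788789) (nat_lit 0) (nat_lit 23014178418) (nat_lit 532) (nat_lit 6283837408) (nat_lit 60) (nat_lit 5) (nat_lit 59) (nat_lit 5) (nat_lit 66) (nat_lit 5) (nat_lit 333) (nat_lit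 330) (nat_lit 237))) (XT.nd (nat_lit 78) (nat_lit 456) (nat_lit 0) (XT.lf (nat_lit 76) (nat_lit 41453837596) (nat_lit 0) (nat_lit 1860106988) (nat_lit 532) (nat_lit 4722007147) (nat_lit 60) (nat_lit 5) (nat_lit 59) (nat_lit 5) (nat_lit 66) (nat_lit 5) (nat_lit 334) (nat_lit 330) (nat_lit 236)) (XT.nd (nat_lit 78) (nat_lit 532) (nat_lit 0) (XT.lf (nat_lit 76) (nat_lit 18362644084) (nat_lit 0) (nat_lit 29655266129) (nat_lit 532) (nat_lit 2016330314) (nat_lit 61) (nat_lit 5) (nat_lit 60) (nat_lit 5) (nat_lit 67) (nat_lit 5) (nat_lit 335) (nat_lit 330) (nat_lit 235)) (XT.lf (nat_lit 0) (nat_lit 1090619035) (nat_lit 532) (nat_lit 6577818619) (nat_lit 608) (nat_lit 44503805294) (nat_lit 53) (nat_lit 5) (nat_lit 60) (nat_lit 5) (nat_lit 61) (nat_lit 5) (nat_lit 336) (nat_lit 330) (nat_lit 234)))))) (XT.nd (nat_lit 312) (nat_lit 684) (nat_lit 0) (XT.nd (nat_lit 156) (nat_lit 380) (nat_lit 0)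 (XT.nd (nat_lit 78) (nat_lit 0) (nat_lit 0) (XT.lf (nat_lit 0) (nat_lit 5254264709) (nat_lit 532) (nat_lit 33290586546) (nat_lit 76) (nat_lit 15858881991) (nat_lit 54) (nat_lit 5) (nat_lit 61) (nat_lit 5) (nat_lit 55) (nat_lit 5) (nat_lit 337) (nat_lit 330) (nat_lit 233)) (XT.lf (nat_lit 0) (nat_lit 10132237418) (nat_lit 532) (nat_lit 5612073267) (nat_lit 76) (nat_lit 41038936424) (nat_lit 54) (nat_lit 5) (nat_lit 61) (nat_lit 5) (nat_lit 55) (nat_lit 5) (nat_lit 338) (nat_lit 330) (nat_lit 232))) (XT.nd (nat_lit 78) (nat_lit 0) (nat_lit 0) (XT.lf (nat_lit 0) (nat_lit 16242350390) (nat_lit 456) (nat_lit 33976656599) (nat_lit 76) (nat_lit 9066765832) (nat_lit 49) (nat_lit 5) (nat_lit 55) (nat_lit 5) (nat_lit 50) (nat_lit 5) (nat_lit 339) (nat_lit 330) (nat_lit 231)) (XT.lf (nat_lit 0) (nat_lit 23405481776) (nat_lit 456) (nat_lit 3368280436) (nat_lit 76) (nat_lit 35169604349) (nat_lit 49)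 (nat_lit 5) (nat_lit 55) (nat_lit 5) (nat_lit 50) (nat_lit 5) (nat_lit 340) (nat_lit 330) (nat_lit 230)))) (XT.nd (nat_lit 156) (nat_lit 228) (nat_lit 0) (XT.nd (nat_lit 78) (nat_lit 228) (nat_lit 0) (XT.lf (nat_lit 0) (nat_lit 31249890493) (nat_lit 228) (nat_lit 641330697) (nat_lit 304) (nat_lit 32862384526) (nat_lit 46) (nat_lit 5) (nat_lit 49) (nat_lit 5) (nat_lit 50) (nat_lit 5) (nat_lit 341) (nat_lit 330) (nat_lit 229)) (XT.lf (nat_lit 0) (nat_lit 399825691) (nat_lit 228) (nat_lit 41421528772) (nat_lit 304) (nat_lit 25906069095) (nat_lit 43) (nat_lit 5) (nat_lit 46) (nat_lit 5) (nat_lit 47) (nat_lit 5) (nat_lit 342) (nat_lit 330) (nat_lit 228))) (XT.nd (nat_lit 78) (nat_lit 228) (nat_lit 0) (XT.lf (nat_lit 0) (nat_lit 38901338432) (nat_lit 228) (nat_lit 14575028117) (nat_lit 304) (nat_lit 17388344987) (nat_lit 43) (nat_lit 5) (nat_lit 46) (nat_lit 5) (nat_lit 47) (nat_lit 5) (nat_lit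 343) (nat_lit 330) (nat_lit 227)) (XT.nd (nat_lit 78) (nat_lit 76) (nat_lit 0) (XT.lf (nat_lit 0) (nat_lit 6190763547) (nat_lit 152) (nat_lit 60366994073) (nat_lit 228) (nat_lit 7655708688) (nat_lit 41) (nat_lit 5) (nat_lit 43) (nat_lit 5) (nat_lit 44) (nat_lit 5) (nat_lit 344) (nat_lit 330) (nat_lit 226)) (XT.lf (nat_lit 0) (nat_lit 3986239654) (nat_lit 228) (nat_lit 29017304121) (nat_lit 76) (nat_lit 44719201599) (nat_lit 40) (nat_lit 5) (nat_lit 43) (nat_lit 5) (nat_lit 41) (nat_lit 5) (nat_lit 345) (nat_lit 330) (nat_lit 225))))))) (XT.nd (nat_lit 702) (nat_lit 684) (nat_lit 0) (XT.nd (nat_lit 312) (nat_lit 532) (nat_lit 0) (XT.nd (nat_lit 156) (nat_lit 152) (nat_lit 0) (XT.nd (nat_lit 78) (nat_lit 0) (nat_lit 0) (XT.lf (nat_lit 0) (nat_lit 13587365968) (nat_lit 228) (nat_lit 2883809944) (nat_lit 304) (nat_lit 64999665343) (nat_lit 37) (nat_lit 5) (nat_lit 40) (nat_lit 5) (nat_lit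 41) (nat_lit 5) (nat_lit 346) (nat_lit 330) (nat_lit 224)) (XT.lf (nat_lit 0) (nat_lit 31480391911) (nat_lit 304) (nat_lit 24940309629) (nat_lit 76) (nat_lit 28976045946) (nat_lit 37) (nat_lit 5) (nat_lit 41) (nat_lit 5) (nat_lit 38) (nat_lit 5) (nat_lit 347) (nat_lit 330) (nat_lit 223))) (XT.nd (nat_lit 78) (nat_lit 0) (nat_lit 0) (XT.lf (nat_lit 0) (nat_lit 22486353793) (nat_lit 152) (nat_lit 25818320570) (nat_lit 228) (nat_lit 41282906881) (nat_lit 35) (nat_lit 5) (nat_lit 37) (nat_lit 5) (nat_lit 38) (nat_lit 5) (nat_lit 348) (nat_lit 330) (nat_lit 222)) (XT.lf (nat_lit 0) (nat_lit 67347130913) (nat_lit 228) (nat_lit 19127203572) (nat_lit 76) (nat_lit 7569569956) (nat_lit 35) (nat_lit 5) (nat_lit 38) (nat_lit 5) (nat_lit 36) (nat_lit 5) (nat_lit 349) (nat_lit 330) (nat_lit 221)))) (XT.nd (nat_lit 156) (nat_lit 304) (nat_lit 0) (XT.nd (nat_lit 78) (nat_lit 76) (nat_lit 0) (XT.lf (nat_lit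 0) (nat_lit 33698038837) (nat_lit 152) (nat_lit 55694759359) (nat_lit 228) (nat_lit 9345551327) (nat_lit 33) (nat_lit 5) (nat_lit 35) (nat_lit 5) (nat_lit 36) (nat_lit 5) (nat_lit 350) (nat_lit 330) (nat_lit 220)) (XT.lf (nat_lit 0) (nat_lit 9459196434) (nat_lit 228) (nat_lit 12170763959) (nat_lit 76) (nat_lit 82117489819) (nat_lit 32) (nat_lit 5) (nat_lit 35) (nat_lit 5) (nat_lit 33) (nat_lit 5) (nat_lit 351) (nat_lit 330) (nat_lit 219))) (XT.nd (nat_lit 78) (nat_lit 152) (nat_lit 0) (XT.lf (nat_lit 0) (nat_lit 30793809426) (nat_lit 228) (nat_lit 62410837447) (nat_lit 76) (nat_lit 15810782648) (nat_lit 30) (nat_lit 5) (nat_lit 33) (nat_lit 5) (nat_lit 31) (nat_lit 5) (nat_lit 352) (nat_lit 330) (nat_lit 218)) (XT.nd (nat_lit 78) (nat_lit 152) (nat_lit 0) (XT.lf (nat_lit 0) (nat_lit 54737328709) (nat_lit 228) (nat_lit 4476271607) (nat_lit 76) (nat_lit 55419076736) (nat_lit 30) (nat_lit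 5) (nat_lit 33) (nat_lit 5) (nat_lit 31) (nat_lit 5) (nat_lit 353) (nat_lit 330) (nat_lit 217)) (XT.lf (nat_lit 0) (nat_lit 61150456475) (nat_lit 152) (nat_lit 20915530471) (nat_lit 228) (nat_lit 38515745640) (nat_lit 28) (nat_lit 5) (nat_lit 30) (nat_lit 5) (nat_lit 31) (nat_lit 5) (nat_lit 354) (nat_lit 330) (nat_lit 216)))))) (XT.nd (nat_lit 312) (nat_lit 380) (nat_lit 0) (XT.nd (nat_lit 156) (nat_lit 152) (nat_lit 0) (XT.nd (nat_lit 78) (nat_lit 76) (nat_lit 0) (XT.lf (nat_lit 0) (nat_lit 5040585569) (nat_lit 76) (nat_lit 107277893732) (nat_lit 152) (nat_lit 14629230680) (nat_lit 27) (nat_lit 5) (nat_lit 28) (nat_lit 5) (nat_lit 29) (nat_lit 4) (nat_lit 355) (nat_lit 330) (nat_lit 215)) (XT.lf (nat_lit 0) (nat_lit 12818971116) (nat_lit 152) (nat_lit 56498558346) (nat_lit 76) (nat_lit 64307193526) (nat_lit 26) (nat_lit 5) (nat_lit 28) (nat_lit 5) (nat_lit 27) (nat_lit 5) (nat_lit 356)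 (nat_lit 330) (nat_lit 214))) (XT.nd (nat_lit 78) (nat_lit 0) (nat_lit 0) (XT.lf (nat_lit 0) (nat_lit 14485842371) (nat_lit 152) (nat_lit 27534306539) (nat_lit 228) (nat_lit 98757552044) (nat_lit 24) (nat_lit 5) (nat_lit 26) (nat_lit 5) (nat_lit 27) (nat_lit 5) (nat_lit 357) (nat_lit 330) (nat_lit 213)) (XT.lf (nat_lit 0) (nat_lit 75564504117) (nat_lit 228) (nat_lit 54481947984) (nat_lit 76) (nat_lit 18295898942) (nat_lit 24) (nat_lit 5) (nat_lit 27) (nat_lit 5) (nat_lit 25) (nat_lit 4) (nat_lit 358) (nat_lit 330) (nat_lit 212)))) (XT.nd (nat_lit 156) (nat_lit 304) (nat_lit 0) (XT.nd (nat_lit 78) (nat_lit 0) (nat_lit 0) (XT.lf (nat_lit 0) (nat_lit 23533398844) (nat_lit 76) (nat_lit 89539341147) (nat_lit 152) (nat_lit 43337007070) (nat_lit 23) (nat_lit 5) (nat_lit 24) (nat_lit 5) (nat_lit 25) (nat_lit 4) (nat_lit 359) (nat_lit 330) (nat_lit 211)) (XT.lf (nat_lit 0) (nat_lit 110887030171)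 (nat_lit 76) (nat_lit 44183442023) (nat_lit 152) (nat_lit 9932956030) (nat_lit 23) (nat_lit 5) (nat_lit 24) (nat_lit 5) (nat_lit 25) (nat_lit 4) (nat_lit 360) (nat_lit 330) (nat_lit 210))) (XT.nd (nat_lit 78) (nat_lit 76) (nat_lit 0) (XT.lf (nat_lit 0) (nat_lit 25754027247) (nat_lit 228) (nat_lit 142414106015) (nat_lit 76) (nat_lit 5992698399) (nat_lit 20) (nat_lit 5) (nat_lit 23) (nat_lit 5) (nat_lit 21) (nat_lit 4) (nat_lit 361) (nat_lit 330) (nat_lit 209)) (XT.nd (nat_lit 78) (nat_lit 76) (nat_lit 0) (XT.lf (nat_lit 0) (nat_lit 66424279467) (nat_lit 228) (nat_lit 57821292533) (nat_lit 76) (nat_lit 59571419998) (nat_lit 20) (nat_lit 5) (nat_lit 23) (nat_lit 5) (nat_lit 21) (nat_lit 4) (nat_lit 362) (nat_lit 330) (nat_lit 208)) (XT.lf (nat_lit 0) (nat_lit 35303751081) (nat_lit 76) (nat_lit 75892767632) (nat_lit 152) (nat_lit 82981257444) (nat_lit 19) (nat_lit 5) (nat_lit 20) (nat_lit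 5) (nat_lit 21) (nat_lit 4) (nat_lit 363) (nat_lit 330) (nat_lit 207))))))))
noncomputable def xc180 : XT := (XT.nd (nat_lit 1404) (nat_lit 456) (nat_lit 0) (XT.nd (nat_lit 702) (nat_lit 304) (nat_lit 0) (XT.nd (nat_lit 312) (nat_lit 228) (nat_lit 0) (XT.nd (nat_lit 156) (nat_lit 152) (nat_lit 0) (XT.nd (nat_lit 78) (nat_lit 76) (nat_lit 0) (XT.lf (nat_lit 0) (nat_lit 139165945949) (nat_lit 76) (nat_lit 21964860724) (nat_lit 152) (nat_lit 44110195124) (nat_lit 19) (nat_lit 5) (nat_lit 20) (nat_lit 5) (nat_lit 21) (nat_lit 4) (nat_lit 364) (nat_lit 330) (nat_lit 206)) (XT.lf (nat_lit 0) (nat_lit 35026373255) (nat_lit 76) (nat_lit 181747689463) (nat_lit 76) (nat_lit 278085059) (nat_lit 18) (nat_lit 4) (nat_lit 19) (nat_lit 5) (nat_lit 19) (nat_lit 4) (nat_lit 365) (nat_lit 330) (nat_lit 205))) (XT.nd (nat_lit 78) (nat_lit 76) (nat_lit 0) (XT.lf (nat_lit 0) (nat_lit 47129856303) (nat_lit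 152) (nat_lit 83440395631) (nat_lit 76) (nat_lit 98953515158) (nat_lit 17) (nat_lit 5) (nat_lit 19) (nat_lit 5) (nat_lit 18) (nat_lit 4) (nat_lit 366) (nat_lit 330) (nat_lit 204)) (XT.lf (nat_lit 0) (nat_lit 24235900522) (nat_lit 76) (nat_lit 74661803085) (nat_lit 152) (nat_lit 144048251183) (nat_lit 16) (nat_lit 5) (nat_lit 17) (nat_lit 5) (nat_lit 18) (nat_lit 4) (nat_lit 367) (nat_lit 330) (nat_lit 203)))) (XT.nd (nat_lit 156) (nat_lit 152) (nat_lit 0) (XT.nd (nat_lit 78) (nat_lit 76) (nat_lit 0) (XT.lf (nat_lit 0) (nat_lit 145270588677) (nat_lit 76) (nat_lit 11817236656) (nat_lit 152) (nat_lit 100171624653) (nat_lit 16) (nat_lit 5) (nat_lit 17) (nat_lit 5) (nat_lit 18) (nat_lit 4) (nat_lit 368) (nat_lit 330) (nat_lit 202)) (XT.lf (nat_lit 0) (nat_lit 2022062308) (nat_lit 76) (nat_lit 219307315995) (nat_lit 76) (nat_lit 51276948973) (nat_lit 15) (nat_lit 4) (nat_lit 16) (nat_lit 5)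 (nat_lit 16) (nat_lit 4) (nat_lit 369) (nat_lit 330) (nat_lit 201))) (XT.nd (nat_lit 78) (nat_lit 76) (nat_lit 0) (XT.lf (nat_lit 0) (nat_lit 4900717603) (nat_lit 152) (nat_lit 157837481717) (nat_lit 76) (nat_lit 126163979730) (nat_lit 14) (nat_lit 5) (nat_lit 16) (nat_lit 5) (nat_lit 15) (nat_lit 4) (nat_lit 370) (nat_lit 330) (nat_lit 200)) (XT.nd (nat_lit 78) (nat_lit 76) (nat_lit 0) (XT.lf (nat_lit 0) (nat_lit 62801821253) (nat_lit 152) (nat_lit 37403748450) (nat_lit 76) (nat_lit 206189619047) (nat_lit 14) (nat_lit 5) (nat_lit 16) (nat_lit 5) (nat_lit 15) (nat_lit 4) (nat_lit 371) (nat_lit 330) (nat_lit 199)) (XT.lf (nat_lit 0) (nat_lit 97543341041) (nat_lit 76) (nat_lit 30137138943) (nat_lit 152) (nat_lit 197419522045) (nat_lit 13) (nat_lit 5) (nat_lit 14) (nat_lit 5) (nat_lit 15) (nat_lit 4) (nat_lit 372) (nat_lit 330) (nat_lit 198)))))) (XT.nd (nat_lit 312) (nat_lit 152) (nat_lit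 0) (XT.nd (nat_lit 156) (nat_lit 76) (nat_lit 0) (XT.nd (nat_lit 78) (nat_lit 76) (nat_lit 0) (XT.lf (nat_lit 0) (nat_lit 199893390854) (nat_lit 152) (nat_lit 100928586701) (nat_lit 0) (nat_lit 44307706196) (nat_lit 13) (nat_lit 5) (nat_lit 15) (nat_lit 4) (nat_lit 13) (nat_lit 4) (nat_lit 373) (nat_lit 330) (nat_lit 197)) (XT.lf (nat_lit 0) (nat_lit 36891623220) (nat_lit 76) (nat_lit 242661322985) (nat_lit 76) (nat_lit 87075225001) (nat_lit 12) (nat_lit 4) (nat_lit 13) (nat_lit 5) (nat_lit 13) (nat_lit 4) (nat_lit 374) (nat_lit 330) (nat_lit 196))) (XT.nd (nat_lit 78) (nat_lit 76) (nat_lit 0) (XT.lf (nat_lit 0) (nat_lit 191476572355) (nat_lit 76) (nat_lit 176867856539) (nat_lit 76) (nat_lit 21281375847) (nat_lit 12) (nat_lit 4) (nat_lit 13) (nat_lit 5) (nat_lit 13) (nat_lit 4) (nat_lit 375) (nat_lit 330) (nat_lit 195)) (XT.lf (nat_lit 0) (nat_lit 47285601636) (nat_lit 152) (nat_lit 57232783648)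 (nat_lit 76) (nat_lit 309849125364) (nat_lit 11) (nat_lit 5) (nat_lit 13) (nat_lit 5) (nat_lit 12) (nat_lit 4) (nat_lit 376) (nat_lit 330) (nat_lit 194)))) (XT.nd (nat_lit 156) (nat_lit 76) (nat_lit 0) (XT.nd (nat_lit 78) (nat_lit 0) (nat_lit 0) (XT.lf (nat_lit 0) (nat_lit 99374656933) (nat_lit 76) (nat_lit 23203141189) (nat_lit 152) (nat_lit 318275365328) (nat_lit 10) (nat_lit 5) (nat_lit 11) (nat_lit 5) (nat_lit 12) (nat_lit 4) (nat_lit 377) (nat_lit 330) (nat_lit 193)) (XT.lf (nat_lit 0) (nat_lit 207052557064) (nat_lit 152) (nat_lit 199162288910) (nat_lit 0) (nat_lit 62990087648) (nat_lit 10) (nat_lit 5) (nat_lit 12) (nat_lit 4) (nat_lit 10) (nat_lit 4) (nat_lit 378) (nat_lit 330) (nat_lit 192))) (XT.nd (nat_lit 78) (nat_lit 76) (nat_lit 0) (XT.lf (nat_lit 0) (nat_lit 298887649327) (nat_lit 152) (nat_lit 46064088507) (nat_lit 0) (nat_lit 154824919446) (nat_lit 10) (nat_lit 5) (nat_lit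 12) (nat_lit 4) (nat_lit 10) (nat_lit 4) (nat_lit 379) (nat_lit 330) (nat_lit 191)) (XT.nd (nat_lit 78) (nat_lit 0) (nat_lit 0) (XT.lf (nat_lit 0) (nat_lit 125562525445) (nat_lit 76) (nat_lit 275526503073) (nat_lit 76) (nat_lit 131463532021) (nat_lit 9) (nat_lit 4) (nat_lit 10) (nat_lit 5) (nat_lit 10) (nat_lit 4) (nat_lit 380) (nat_lit 330) (nat_lit 190)) (XT.lf (nat_lit 0) (nat_lit 313538400406) (nat_lit 76) (nat_lit 199187297832) (nat_lit 76) (nat_lit 55124103473) (nat_lit 9) (nat_lit 4) (nat_lit 10) (nat_lit 5) (nat_lit 10) (nat_lit 4) (nat_lit 381) (nat_lit 330) (nat_lit 189))))))) (XT.nd (nat_lit 702) (nat_lit 228) (nat_lit 0) (XT.nd (nat_lit 312) (nat_lit 76) (nat_lit 0) (XT.nd (nat_lit 156) (nat_lit 0) (nat_lit 0) (XT.nd (nat_lit 78) (nat_lit 76) (nat_lit 0) (XT.lf (nat_lit 0) (nat_lit 25955419293) (nat_lit 152) (nat_lit 90076128994) (nat_lit 76) (nat_lit 489886727764) (nat_lit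 8) (nat_lit 5) (nat_lit 10) (nat_lit 5) (nat_lit 9) (nat_lit 4) (nat_lit 382) (nat_lit 330) (nat_lit 188)) (XT.lf (nat_lit 0) (nat_lit 90387198486) (nat_lit 76) (nat_lit 22329527984) (nat_lit 152) (nat_lit 534027073851) (nat_lit 7) (nat_lit 5) (nat_lit 8) (nat_lit 5) (nat_lit 9) (nat_lit 4) (nat_lit 383) (nat_lit 330) (nat_lit 187))) (XT.nd (nat_lit 78) (nat_lit 0) (nat_lit 0) (XT.lf (nat_lit 0) (nat_lit 210842285290) (nat_lit 152) (nat_lit 402189307723) (nat_lit 0) (nat_lit 77449905806) (nat_lit 7) (nat_lit 5) (nat_lit 9) (nat_lit 4) (nat_lit 7) (nat_lit 4) (nat_lit 384) (nat_lit 330) (nat_lit 186)) (XT.lf (nat_lit 0) (nat_lit 317397638731) (nat_lit 152) (nat_lit 236269087250) (nat_lit 0) (nat_lit 184005107268) (nat_lit 7) (nat_lit 5) (nat_lit 9) (nat_lit 4) (nat_lit 7) (nat_lit 4) (nat_lit 385) (nat_lit 330) (nat_lit 185)))) (XT.nd (nat_lit 156) (nat_lit 0) (nat_lit 0) (XT.nd (nat_lit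 78) (nat_lit 76) (nat_lit 0) (XT.lf (nat_lit 0) (nat_lit 432477200240) (nat_lit 152) (nat_lit 57075683796) (nat_lit 0) (nat_lit 299084528056) (nat_lit 7) (nat_lit 5) (nat_lit 9) (nat_lit 4) (nat_lit 7) (nat_lit 4) (nat_lit 386) (nat_lit 330) (nat_lit 184)) (XT.lf (nat_lit 0) (nat_lit 143638151551) (nat_lit 76) (nat_lit 416579272222) (nat_lit 76) (nat_lit 283186469741) (nat_lit 6) (nat_lit 4) (nat_lit 7) (nat_lit 5) (nat_lit 7) (nat_lit 4) (nat_lit 387) (nat_lit 330) (nat_lit 183))) (XT.nd (nat_lit 78) (nat_lit 0) (nat_lit 0) (XT.lf (nat_lit 0) (nat_lit 363654646167) (nat_lit 76) (nat_lit 336082571138) (nat_lit 76) (nat_lit 202689648012) (nat_lit 6) (nat_lit 4) (nat_lit 7) (nat_lit 5) (nat_lit 7) (nat_lit 4) (nat_lit 388) (nat_lit 330) (nat_lit 182)) (XT.nd (nat_lit 78) (nat_lit 0) (nat_lit 0) (XT.lf (nat_lit 0) (nat_lit 601272097139) (nat_lit 76) (nat_lit 249146313639) (nat_lit 76) (nat_lit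 115753278804) (nat_lit 6) (nat_lit 4) (nat_lit 7) (nat_lit 5) (nat_lit 7) (nat_lit 4) (nat_lit 389) (nat_lit 330) (nat_lit 181)) (XT.lf (nat_lit 0) (nat_lit 857898607879) (nat_lit 76) (nat_lit 155255321903) (nat_lit 76) (nat_lit 21862183633) (nat_lit 6) (nat_lit 4) (nat_lit 7) (nat_lit 5) (nat_lit 7) (nat_lit 4) (nat_lit 390) (nat_lit 330) (nat_lit 180)))))) (XT.nd (nat_lit 312) (nat_lit 76) (nat_lit 0) (XT.nd (nat_lit 156) (nat_lit 0) (nat_lit 0) (XT.nd (nat_lit 78) (nat_lit 0) (nat_lit 0) (XT.lf (nat_lit 0) (nat_lit 25025775330) (nat_lit 76) (nat_lit 51137209945) (nat_lit 152) (nat_lit 1033003933689) (nat_lit 4) (nat_lit 5) (nat_lit 5) (nat_lit 5) (nat_lit 6) (nat_lit 4) (nat_lit 391) (nat_lit 330) (nat_lit 179)) (XT.lf (nat_lit 0) (nat_lit 187291887676) (nat_lit 152) (nat_lit 937617493907) (nat_lit 0) (nat_lit 63779551824) (nat_lit 4) (nat_lit 5) (nat_lit 6) (nat_lit 4) (nat_lit 4)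 (nat_lit 4) (nat_lit 392) (nat_lit 330) (nat_lit 178))) (XT.nd (nat_lit 78) (nat_lit 0) (nat_lit 0) (XT.lf (nat_lit 0) (nat_lit 308639192660) (nat_lit 152) (nat_lit 780700488356) (nat_lit 0) (nat_lit 185126780781) (nat_lit 4) (nat_lit 5) (nat_lit 6) (nat_lit 4) (nat_lit 4) (nat_lit 4) (nat_lit 393) (nat_lit 330) (nat_lit 177)) (XT.lf (nat_lit 0) (nat_lit 439694144239) (nat_lit 152) (nat_lit 611230397301) (nat_lit 0) (nat_lit 316181661964) (nat_lit 4) (nat_lit 5) (nat_lit 6) (nat_lit 4) (nat_lit 4) (nat_lit 4) (nat_lit 394) (nat_lit 330) (nat_lit 176)))) (XT.nd (nat_lit 156) (nat_lit 76) (nat_lit 0) (XT.nd (nat_lit 78) (nat_lit 0) (nat_lit 0) (XT.lf (nat_lit 0) (nat_lit 581233364348) (nat_lit 152) (nat_lit 428202953537) (nat_lit 0) (nat_lit 457720816891) (nat_lit 4) (nat_lit 5) (nat_lit 6) (nat_lit 4) (nat_lit 4) (nat_lit 4) (nat_lit 395) (nat_lit 330) (nat_lit 175)) (XT.lf (nat_lit 0)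 (nat_lit 734095603920) (nat_lit 152) (nat_lit 230533549987) (nat_lit 0) (nat_lit 610582996111) (nat_lit 4) (nat_lit 5) (nat_lit 6) (nat_lit 4) (nat_lit 4) (nat_lit 4) (nat_lit 396) (nat_lit 330) (nat_lit 174))) (XT.nd (nat_lit 78) (nat_lit 76) (nat_lit 0) (XT.lf (nat_lit 0) (nat_lit 899186713265) (nat_lit 152) (nat_lit 17050812411) (nat_lit 0) (nat_lit 775674049573) (nat_lit 4) (nat_lit 5) (nat_lit 6) (nat_lit 4) (nat_lit 4) (nat_lit 4) (nat_lit 397) (nat_lit 330) (nat_lit 173)) (XT.nd (nat_lit 78) (nat_lit 0) (nat_lit 0) (XT.lf (nat_lit 0) (nat_lit 224753418323) (nat_lit 76) (nat_lit 858136916859) (nat_lit 76) (nat_lit 734624201425) (nat_lit 3) (nat_lit 4) (nat_lit 4) (nat_lit 5) (nat_lit 4) (nat_lit 4) (nat_lit 398) (nat_lit 330) (nat_lit 172)) (XT.lf (nat_lit 0) (nat_lit 486871485354) (nat_lit 76) (nat_lit 794884862404) (nat_lit 76) (nat_lit 671372099060) (nat_lit 3) (nat_lit 4) (nat_lit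 4) (nat_lit 5) (nat_lit 4) (nat_lit 4) (nat_lit 399) (nat_lit 330) (nat_lit 171))))))))
noncomputable def xc181 : XT := (XT.nd (nat_lit 41886) (nat_lit 0) (nat_lit 2204) (XT.nd (nat_lit 702) (nat_lit 0) (nat_lit 0) (XT.nd (nat_lit 312) (nat_lit 152) (nat_lit 0) (XT.nd (nat_lit 156) (nat_lit 0) (nat_lit 0) (XT.nd (nat_lit 78) (nat_lit 0) (nat_lit 0) (XT.lf (nat_lit 0) (nat_lit 769958815365) (nat_lit 76) (nat_lit 726572734748) (nat_lit 76) (nat_lit 603059927043) (nat_lit 3) (nat_lit 4) (nat_lit 4) (nat_lit 5) (nat_lit 4) (nat_lit 4) (nat_lit 400) (nat_lit 330) (nat_lit 170)) (XT.lf (nat_lit 0) (nat_lit 1075692962903) (nat_lit 76) (nat_lit 652795721284) (nat_lit 76) (nat_lit 529282872503) (nat_lit 3) (nat_lit 4) (nat_lit 4) (nat_lit 5) (nat_lit 4) (nat_lit 4) (nat_lit 401) (nat_lit 330) (nat_lit 169))) (XT.nd (nat_lit 78) (nat_lit 0) (nat_lit 0) (XT.lf (nat_lit 0) (nat_lit 1405885685882)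 (nat_lit 76) (nat_lit 573116624894) (nat_lit 76) (nat_lit 449603738081) (nat_lit 3) (nat_lit 4) (nat_lit 4) (nat_lit 5) (nat_lit 4) (nat_lit 4) (nat_lit 402) (nat_lit 330) (nat_lit 168)) (XT.lf (nat_lit 0) (nat_lit 1762493681918) (nat_lit 76) (nat_lit 487063273156) (nat_lit 76) (nat_lit 363550351127) (nat_lit 3) (nat_lit 4) (nat_lit 4) (nat_lit 5) (nat_lit 4) (nat_lit 4) (nat_lit 403) (nat_lit 330) (nat_lit 167)))) (XT.nd (nat_lit 156) (nat_lit 152) (nat_lit 0) (XT.nd (nat_lit 78) (nat_lit 0) (nat_lit 0) (XT.lf (nat_lit 0) (nat_lit 2147630183580) (nat_lit 76) (nat_lit 394125720281) (nat_lit 76) (nat_lit 270612765645) (nat_lit 3) (nat_lit 4) (nat_lit 4) (nat_lit 5) (nat_lit 4) (nat_lit 4) (nat_lit 404) (nat_lit 330) (nat_lit 166)) (XT.lf (nat_lit 0) (nat_lit 2563577481248) (nat_lit 76) (nat_lit 293753225215) (nat_lit 76) (nat_lit 170240240388) (nat_lit 3) (nat_lit 4) (nat_lit 4) (nat_lit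 5) (nat_lit 4) (nat_lit 4) (nat_lit 405) (nat_lit 330) (nat_lit 165))) (XT.nd (nat_lit 78) (nat_lit 152) (nat_lit 0) (XT.lf (nat_lit 0) (nat_lit 3012800447798) (nat_lit 76) (nat_lit 185350987988) (nat_lit 76) (nat_lit 61837975206) (nat_lit 3) (nat_lit 4) (nat_lit 4) (nat_lit 5) (nat_lit 4) (nat_lit 4) (nat_lit 406) (nat_lit 330) (nat_lit 164)) (XT.nd (nat_lit 78) (nat_lit 76) (nat_lit 0) (XT.lf (nat_lit 0) (nat_lit 52473264572) (nat_lit 152) (nat_lit 14368648356) (nat_lit 76) (nat_lit 3444053168638) (nat_lit 2) (nat_lit 5) (nat_lit 4) (nat_lit 5) (nat_lit 3) (nat_lit 4) (nat_lit 407) (nat_lit 330) (nat_lit 163)) (XT.lf (nat_lit 0) (nat_lit 180216952182) (nat_lit 152) (nat_lit 3535064481374) (nat_lit 0) (nat_lit 65853005300) (nat_lit 1) (nat_lit 5) (nat_lit 3) (nat_lit 4) (nat_lit 1) (nat_lit 4) (nat_lit 408) (nat_lit 330) (nat_lit 162)))))) (XT.nd (nat_lit 40794) (nat_lit 0) (nat_lit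 4332) (XT.nd (nat_lit 156) (nat_lit 0) (nat_lit 0) (XT.nd (nat_lit 78) (nat_lit 0) (nat_lit 0) (XT.lf (nat_lit 0) (nat_lit 320319306573) (nat_lit 152) (nat_lit 3546547165281) (nat_lit 0) (nat_lit 205955339142) (nat_lit 1) (nat_lit 5) (nat_lit 3) (nat_lit 4) (nat_lit 1) (nat_lit 4) (nat_lit 409) (nat_lit 330) (nat_lit 161)) (XT.lf (nat_lit 0) (nat_lit 471629802658) (nat_lit 152) (nat_lit 3558948557786) (nat_lit 0) (nat_lit 357265816201) (nat_lit 1) (nat_lit 5) (nat_lit 3) (nat_lit 4) (nat_lit 1) (nat_lit 4) (nat_lit 410) (nat_lit 330) (nat_lit 160))) (XT.nd (nat_lit 78) (nat_lit 0) (nat_lit 0) (XT.lf (nat_lit 0) (nat_lit 635045095229) (nat_lit 152) (nat_lit 3572342148622) (nat_lit 0) (nat_lit 520681091156) (nat_lit 1) (nat_lit 5) (nat_lit 3) (nat_lit 4) (nat_lit 1) (nat_lit 4) (nat_lit 411) (nat_lit 330) (nat_lit 159)) (XT.lf (nat_lit 0) (nat_lit 811533571205) (nat_lit 152) (nat_lit 3586807307217)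 (nat_lit 0) (nat_lit 697169550821) (nat_lit 1) (nat_lit 5) (nat_lit 3) (nat_lit 4) (nat_lit 1) (nat_lit 4) (nat_lit 412) (nat_lit 330) (nat_lit 158)))) (XT.nd (nat_lit 156) (nat_lit 0) (nat_lit 76) (XT.nd (nat_lit 78) (nat_lit 0) (nat_lit 0) (XT.lf (nat_lit 0) (nat_lit 17832362893) (nat_lit 532) (nat_lit 2152247545) (nat_lit 532) (nat_lit 2152247545) (nat_lit 58) (nat_lit 3) (nat_lit 65) (nat_lit 3) (nat_lit 65) (nat_lit 5) (nat_lit 331) (nat_lit 331) (nat_lit 238)) (XT.lf (nat_lit 76) (nat_lit 17749918488) (nat_lit 0) (nat_lit 19799351470) (nat_lit 532) (nat_lit 8458711651) (nat_lit 59) (nat_lit 5) (nat_lit 58) (nat_lit 3) (nat_lit 65) (nat_lit 5) (nat_lit 332) (nat_lit 331) (nat_lit 237))) (XT.nd (nat_lit 78) (nat_lit 0) (nat_lit 0) (XT.lf (nat_lit 0) (nat_lit 39749927231) (nat_lit 456) (nat_lit 6110921630) (nat_lit 532) (nat_lit 2006916338) (nat_lit 59) (nat_lit 5) (nat_lit 65) (nat_lit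 5) (nat_lit 66) (nat_lit 5) (nat_lit 333) (nat_lit 331) (nat_lit 236)) (XT.nd (nat_lit 78) (nat_lit 0) (nat_lit 0) (XT.lf (nat_lit 76) (nat_lit 18202371865) (nat_lit 0) (nat_lit 24873414774) (nat_lit 532) (nat_lit 6724617187) (nat_lit 60) (nat_lit 5) (nat_lit 59) (nat_lit 5) (nat_lit 66) (nat_lit 5) (nat_lit 334) (nat_lit 331) (nat_lit 235)) (XT.lf (nat_lit 76) (nat_lit 44806403838) (nat_lit 0) (nat_lit 2025676735) (nat_lit 532) (nat_lit 5042427706) (nat_lit 60) (nat_lit 5) (nat_lit 59) (nat_lit 5) (nat_lit 66) (nat_lit 5) (nat_lit 335) (nat_lit 331) (nat_lit 234))))))) (XT.nd (nat_lit 702) (nat_lit 988) (nat_lit 0) (XT.nd (nat_lit 312) (nat_lit 760) (nat_lit 0) (XT.nd (nat_lit 156) (nat_lit 0) (nat_lit 76) (XT.nd (nat_lit 78) (nat_lit 532) (nat_lit 0) (XT.lf (nat_lit 76) (nat_lit 19871600024) (nat_lit 0) (nat_lit 32037423406) (nat_lit 532) (nat_lit 2123909725) (nat_lit 61) (nat_lit 5)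 (nat_lit 60) (nat_lit 5) (nat_lit 67) (nat_lit 5) (nat_lit 336) (nat_lit 331) (nat_lit 233)) (XT.lf (nat_lit 0) (nat_lit 1225127235) (nat_lit 532) (nat_lit 7064508098) (nat_lit 608) (nat_lit 48052544473) (nat_lit 53) (nat_lit 5) (nat_lit 60) (nat_lit 5) (nat_lit 61) (nat_lit 5) (nat_lit 337) (nat_lit 331) (nat_lit 232))) (XT.nd (nat_lit 78) (nat_lit 0) (nat_lit 0) (XT.lf (nat_lit 0) (nat_lit 5719142789) (nat_lit 532) (nat_lit 35911518386) (nat_lit 76) (nat_lit 17121750478) (nat_lit 54) (nat_lit 5) (nat_lit 61) (nat_lit 5) (nat_lit 55) (nat_lit 5) (nat_lit 338) (nat_lit 331) (nat_lit 231)) (XT.lf (nat_lit 0) (nat_lit 10984054285) (nat_lit 532) (nat_lit 6021858496) (nat_lit 76) (nat_lit 44316642012) (nat_lit 54) (nat_lit 5) (nat_lit 61) (nat_lit 5) (nat_lit 55) (nat_lit 5) (nat_lit 339) (nat_lit 331) (nat_lit 230)))) (XT.nd (nat_lit 156) (nat_lit 456) (nat_lit 0) (XT.nd (nat_lit 78) (nat_lit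 0) (nat_lit 0) (XT.lf (nat_lit 0) (nat_lit 17580818122) (nat_lit 456) (nat_lit 36653401195) (nat_lit 76) (nat_lit 9791239830) (nat_lit 49) (nat_lit 5) (nat_lit 55) (nat_lit 5) (nat_lit 50) (nat_lit 5) (nat_lit 340) (nat_lit 331) (nat_lit 229)) (XT.lf (nat_lit 0) (nat_lit 25314105226) (nat_lit 456) (nat_lit 3599420711) (nat_lit 76) (nat_lit 37982369671) (nat_lit 49) (nat_lit 5) (nat_lit 55) (nat_lit 5) (nat_lit 50) (nat_lit 5) (nat_lit 341) (nat_lit 331) (nat_lit 228))) (XT.nd (nat_lit 78) (nat_lit 228) (nat_lit 0) (XT.lf (nat_lit 0) (nat_lit 33787233711) (nat_lit 228) (nat_lit 689688035) (nat_lit 304) (nat_lit 35454178082) (nat_lit 46) (nat_lit 5) (nat_lit 49) (nat_lit 5) (nat_lit 50) (nat_lit 5) (nat_lit 342) (nat_lit 331) (nat_lit 227)) (XT.nd (nat_lit 78) (nat_lit 0) (nat_lit 0) (XT.lf (nat_lit 0) (nat_lit 470872578) (nat_lit 228) (nat_lit 44729049830) (nat_lit 304) (nat_lit 27943027272)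 (nat_lit 43) (nat_lit 5) (nat_lit 46) (nat_lit 5) (nat_lit 47) (nat_lit 5) (nat_lit 343) (nat_lit 331) (nat_lit 226)) (XT.lf (nat_lit 0) (nat_lit 42049612943) (nat_lit 228) (nat_lit 15735288473) (nat_lit 304) (nat_lit 18746516891) (nat_lit 43) (nat_lit 5) (nat_lit 46) (nat_lit 5) (nat_lit 47) (nat_lit 5) (nat_lit 344) (nat_lit 331) (nat_lit 225)))))) (XT.nd (nat_lit 312) (nat_lit 532) (nat_lit 0) (XT.nd (nat_lit 156) (nat_lit 228) (nat_lit 0) (XT.nd (nat_lit 78) (nat_lit 76) (nat_lit 0) (XT.lf (nat_lit 0) (nat_lit 6723549456) (nat_lit 152) (nat_lit 65188030909) (nat_lit 228) (nat_lit 8236593643) (nat_lit 41) (nat_lit 5) (nat_lit 43) (nat_lit 5) (nat_lit 44) (nat_lit 5) (nat_lit 345) (nat_lit 331) (nat_lit 224)) (XT.lf (nat_lit 0) (nat_lit 4332909562) (nat_lit 228) (nat_lit 31302452221) (nat_lit 76) (nat_lit 48302952899) (nat_lit 40) (nat_lit 5) (nat_lit 43) (nat_lit 5) (nat_lit 41) (nat_lit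 5) (nat_lit 346) (nat_lit 331) (nat_lit 223))) (XT.nd (nat_lit 78) (nat_lit 0) (nat_lit 0) (XT.lf (nat_lit 0) (nat_lit 14709674102) (nat_lit 228) (nat_lit 3105758945) (nat_lit 304) (nat_lit 70170923922) (nat_lit 37) (nat_lit 5) (nat_lit 40) (nat_lit 5) (nat_lit 41) (nat_lit 5) (nat_lit 347) (nat_lit 331) (nat_lit 222)) (XT.lf (nat_lit 0) (nat_lit 34023613671) (nat_lit 304) (nat_lit 26901034524) (nat_lit 76) (nat_lit 31301831283) (nat_lit 37) (nat_lit 5) (nat_lit 41) (nat_lit 5) (nat_lit 38) (nat_lit 5) (nat_lit 348) (nat_lit 331) (nat_lit 221)))) (XT.nd (nat_lit 156) (nat_lit 380) (nat_lit 0) (XT.nd (nat_lit 78) (nat_lit 0) (nat_lit 0) (XT.lf (nat_lit 0) (nat_lit 24318888558) (nat_lit 152) (nat_lit 27873922553) (nat_lit 228) (nat_lit 44559852855) (nat_lit 35) (nat_lit 5) (nat_lit 37) (nat_lit 5) (nat_lit 38) (nat_lit 5) (nat_lit 349) (nat_lit 331) (nat_lit 220)) (XT.lf (nat_lit 0) (nat_lit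 72757123627) (nat_lit 228) (nat_lit 20624682618) (nat_lit 76) (nat_lit 8183811703) (nat_lit 35) (nat_lit 5) (nat_lit 38) (nat_lit 5) (nat_lit 36) (nat_lit 5) (nat_lit 350) (nat_lit 331) (nat_lit 219))) (XT.nd (nat_lit 78) (nat_lit 228) (nat_lit 0) (XT.lf (nat_lit 0) (nat_lit 36425751405) (nat_lit 152) (nat_lit 60139813257) (nat_lit 228) (nat_lit 10070125906) (nat_lit 33) (nat_lit 5) (nat_lit 35) (nat_lit 5) (nat_lit 36) (nat_lit 5) (nat_lit 351) (nat_lit 331) (nat_lit 218)) (XT.nd (nat_lit 78) (nat_lit 152) (nat_lit 0) (XT.lf (nat_lit 0) (nat_lit 10236224275) (nat_lit 228) (nat_lit 13113831043) (nat_lit 76) (nat_lit 88695550816) (nat_lit 32) (nat_lit 5) (nat_lit 35) (nat_lit 5) (nat_lit 33) (nat_lit 5) (nat_lit 352) (nat_lit 331) (nat_lit 217)) (XT.lf (nat_lit 0) (nat_lit 33277068381) (nat_lit 228) (nat_lit 67372556999) (nat_lit 76) (nat_lit 17085442681) (nat_lit 30) (nat_lit 5) (nat_lit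 33) (nat_lit 5) (nat_lit 31) (nat_lit 5) (nat_lit 353) (nat_lit 331) (nat_lit 216))))))))
noncomputable def xc182 : XT := (XT.nd (nat_lit 1404) (nat_lit 608) (nat_lit 0) (XT.nd (nat_lit 702) (nat_lit 456) (nat_lit 0) (XT.nd (nat_lit 312) (nat_lit 456) (nat_lit 0) (XT.nd (nat_lit 156) (nat_lit 152) (nat_lit 0) (XT.nd (nat_lit 78) (nat_lit 152) (nat_lit 0) (XT.lf (nat_lit 0) (nat_lit 59134605932) (nat_lit 228) (nat_lit 4805533110) (nat_lit 76) (nat_lit 59861674561) (nat_lit 30) (nat_lit 5) (nat_lit 33) (nat_lit 5) (nat_lit 31) (nat_lit 5) (nat_lit 354) (nat_lit 331) (nat_lit 215)) (XT.lf (nat_lit 0) (nat_lit 66070603087) (nat_lit 152) (nat_lit 22578274907) (nat_lit 228) (nat_lit 41577970955) (nat_lit 28) (nat_lit 5) (nat_lit 30) (nat_lit 5) (nat_lit 31) (nat_lit 5) (nat_lit 355) (nat_lit 331) (nat_lit 214))) (XT.nd (nat_lit 78) (nat_lit 76) (nat_lit 0) (XT.lf (nat_lit 0) (nat_lit 5472371014)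 (nat_lit 76) (nat_lit 115848814253) (nat_lit 152) (nat_lit 15780951009) (nat_lit 27) (nat_lit 5) (nat_lit 28) (nat_lit 5) (nat_lit 29) (nat_lit 4) (nat_lit 356) (nat_lit 331) (nat_lit 213)) (XT.lf (nat_lit 0) (nat_lit 13860865445) (nat_lit 152) (nat_lit 60991145481) (nat_lit 76) (nat_lit 69461369230) (nat_lit 26) (nat_lit 5) (nat_lit 28) (nat_lit 5) (nat_lit 27) (nat_lit 5) (nat_lit 357) (nat_lit 331) (nat_lit 212)))) (XT.nd (nat_lit 156) (nat_lit 304) (nat_lit 0) (XT.nd (nat_lit 78) (nat_lit 0) (nat_lit 0) (XT.lf (nat_lit 0) (nat_lit 15671316217) (nat_lit 152) (nat_lit 29726248047) (nat_lit 228) (nat_lit 106641078732) (nat_lit 24) (nat_lit 5) (nat_lit 26) (nat_lit 5) (nat_lit 27) (nat_lit 5) (nat_lit 358) (nat_lit 331) (nat_lit 211)) (XT.lf (nat_lit 0) (nat_lit 81624537830) (nat_lit 228) (nat_lit 58814929121) (nat_lit 76) (nat_lit 19769073269) (nat_lit 24) (nat_lit 5) (nat_lit 27) (nat_lit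 5) (nat_lit 25) (nat_lit 4) (nat_lit 359) (nat_lit 331) (nat_lit 210))) (XT.nd (nat_lit 78) (nat_lit 228) (nat_lit 0) (XT.lf (nat_lit 0) (nat_lit 25440997992) (nat_lit 76) (nat_lit 96691932349) (nat_lit 152) (nat_lit 46788438424) (nat_lit 23) (nat_lit 5) (nat_lit 24) (nat_lit 5) (nat_lit 25) (nat_lit 4) (nat_lit 360) (nat_lit 331) (nat_lit 209)) (XT.nd (nat_lit 78) (nat_lit 228) (nat_lit 0) (XT.lf (nat_lit 0) (nat_lit 119781073363) (nat_lit 76) (nat_lit 47708343228) (nat_lit 152) (nat_lit 10713213614) (nat_lit 23) (nat_lit 5) (nat_lit 24) (nat_lit 5) (nat_lit 25) (nat_lit 4) (nat_lit 361) (nat_lit 331) (nat_lit 208)) (XT.lf (nat_lit 0) (nat_lit 27827795749) (nat_lit 228) (nat_lit 153783207327) (nat_lit 76) (nat_lit 6481612770) (nat_lit 20) (nat_lit 5) (nat_lit 23) (nat_lit 5) (nat_lit 21) (nat_lit 4) (nat_lit 362) (nat_lit 331) (nat_lit 207)))))) (XT.nd (nat_lit 312) (nat_lit 304) (nat_lit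 0) (XT.nd (nat_lit 156) (nat_lit 76) (nat_lit 0) (XT.nd (nat_lit 78) (nat_lit 76) (nat_lit 0) (XT.lf (nat_lit 0) (nat_lit 71750672124) (nat_lit 228) (nat_lit 62424748557) (nat_lit 76) (nat_lit 64345928504) (nat_lit 20) (nat_lit 5) (nat_lit 23) (nat_lit 5) (nat_lit 21) (nat_lit 4) (nat_lit 363) (nat_lit 331) (nat_lit 206)) (XT.lf (nat_lit 0) (nat_lit 38149735322) (nat_lit 76) (nat_lit 81954554447) (nat_lit 152) (nat_lit 89606738821) (nat_lit 19) (nat_lit 5) (nat_lit 20) (nat_lit 5) (nat_lit 21) (nat_lit 4) (nat_lit 364) (nat_lit 331) (nat_lit 205))) (XT.nd (nat_lit 78) (nat_lit 76) (nat_lit 0) (XT.lf (nat_lit 0) (nat_lit 150319299546) (nat_lit 76) (nat_lit 23713128661) (nat_lit 152) (nat_lit 47626955902) (nat_lit 19) (nat_lit 5) (nat_lit 20) (nat_lit 5) (nat_lit 21) (nat_lit 4) (nat_lit 365) (nat_lit 331) (nat_lit 204)) (XT.lf (nat_lit 0) (nat_lit 37848718720) (nat_lit 76) (nat_lit 196278284893)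 (nat_lit 76) (nat_lit 288429834) (nat_lit 18) (nat_lit 4) (nat_lit 19) (nat_lit 5) (nat_lit 19) (nat_lit 4) (nat_lit 366) (nat_lit 331) (nat_lit 203)))) (XT.nd (nat_lit 156) (nat_lit 152) (nat_lit 0) (XT.nd (nat_lit 78) (nat_lit 76) (nat_lit 0) (XT.lf (nat_lit 0) (nat_lit 50910713920) (nat_lit 152) (nat_lit 90096335140) (nat_lit 76) (nat_lit 106877777685) (nat_lit 17) (nat_lit 5) (nat_lit 19) (nat_lit 5) (nat_lit 18) (nat_lit 4) (nat_lit 367) (nat_lit 331) (nat_lit 202)) (XT.lf (nat_lit 0) (nat_lit 26193576296) (nat_lit 76) (nat_lit 80626089452) (nat_lit 152) (nat_lit 155561149880) (nat_lit 16) (nat_lit 5) (nat_lit 17) (nat_lit 5) (nat_lit 18) (nat_lit 4) (nat_lit 368) (nat_lit 331) (nat_lit 201))) (XT.nd (nat_lit 78) (nat_lit 152) (nat_lit 0) (XT.lf (nat_lit 0) (nat_lit 156909646635) (nat_lit 76) (nat_lit 12754599034) (nat_lit 152) (nat_lit 108175205183) (nat_lit 16) (nat_lit 5) (nat_lit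 17) (nat_lit 5) (nat_lit 18) (nat_lit 4) (nat_lit 369) (nat_lit 331) (nat_lit 200)) (XT.nd (nat_lit 78) (nat_lit 76) (nat_lit 0) (XT.lf (nat_lit 0) (nat_lit 2201345473) (nat_lit 76) (nat_lit 236843681358) (nat_lit 76) (nat_lit 55369059444) (nat_lit 15) (nat_lit 4) (nat_lit 16) (nat_lit 5) (nat_lit 16) (nat_lit 4) (nat_lit 370) (nat_lit 331) (nat_lit 199)) (XT.lf (nat_lit 0) (nat_lit 5301611061) (nat_lit 152) (nat_lit 170447791578) (nat_lit 76) (nat_lit 136264241003) (nat_lit 14) (nat_lit 5) (nat_lit 16) (nat_lit 5) (nat_lit 15) (nat_lit 4) (nat_lit 371) (nat_lit 331) (nat_lit 198))))))) (XT.nd (nat_lit 702) (nat_lit 304) (nat_lit 0) (XT.nd (nat_lit 312) (nat_lit 152) (nat_lit 0) (XT.nd (nat_lit 156) (nat_lit 76) (nat_lit 0) (XT.nd (nat_lit 78) (nat_lit 76) (nat_lit 0) (XT.lf (nat_lit 0) (nat_lit 67834148480) (nat_lit 152) (nat_lit 40380595848) (nat_lit 76) (nat_lit 222691402363) (nat_lit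 14) (nat_lit 5) (nat_lit 16) (nat_lit 5) (nat_lit 15) (nat_lit 4) (nat_lit 372) (nat_lit 331) (nat_lit 197)) (XT.lf (nat_lit 0) (nat_lit 105361869601) (nat_lit 76) (nat_lit 32540986494) (nat_lit 152) (nat_lit 213204508637) (nat_lit 13) (nat_lit 5) (nat_lit 14) (nat_lit 5) (nat_lit 15) (nat_lit 4) (nat_lit 373) (nat_lit 331) (nat_lit 196))) (XT.nd (nat_lit 78) (nat_lit 76) (nat_lit 0) (XT.lf (nat_lit 0) (nat_lit 215892370487) (nat_lit 152) (nat_lit 108988496402) (nat_lit 0) (nat_lit 47858588631) (nat_lit 13) (nat_lit 5) (nat_lit 15) (nat_lit 4) (nat_lit 13) (nat_lit 4) (nat_lit 374) (nat_lit 331) (nat_lit 195)) (XT.lf (nat_lit 0) (nat_lit 39856966332) (nat_lit 76) (nat_lit 262067504778) (nat_lit 76) (nat_lit 94033368562) (nat_lit 12) (nat_lit 4) (nat_lit 13) (nat_lit 5) (nat_lit 13) (nat_lit 4) (nat_lit 375) (nat_lit 331) (nat_lit 194)))) (XT.nd (nat_lit 156) (nat_lit 76) (nat_lit 0) (XT.nd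 (nat_lit 78) (nat_lit 76) (nat_lit 0) (XT.lf (nat_lit 0) (nat_lit 206807673379) (nat_lit 76) (nat_lit 191011059094) (nat_lit 76) (nat_lit 22976594767) (nat_lit 12) (nat_lit 4) (nat_lit 13) (nat_lit 5) (nat_lit 13) (nat_lit 4) (nat_lit 376) (nat_lit 331) (nat_lit 193)) (XT.lf (nat_lit 0) (nat_lit 51074863114) (nat_lit 152) (nat_lit 61799052855) (nat_lit 76) (nat_lit 334642480801) (nat_lit 11) (nat_lit 5) (nat_lit 13) (nat_lit 5) (nat_lit 12) (nat_lit 4) (nat_lit 377) (nat_lit 331) (nat_lit 192))) (XT.nd (nat_lit 78) (nat_lit 0) (nat_lit 0) (XT.lf (nat_lit 0) (nat_lit 107336670226) (nat_lit 76) (nat_lit 25053579610) (nat_lit 152) (nat_lit 343730666922) (nat_lit 10) (nat_lit 5) (nat_lit 11) (nat_lit 5) (nat_lit 12) (nat_lit 4) (nat_lit 378) (nat_lit 331) (nat_lit 191)) (XT.nd (nat_lit 78) (nat_lit 0) (nat_lit 0) (XT.lf (nat_lit 0) (nat_lit 223622657615) (nat_lit 152) (nat_lit 215083789887)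 (nat_lit 0) (nat_lit 68034407707) (nat_lit 10) (nat_lit 5) (nat_lit 12) (nat_lit 4) (nat_lit 10) (nat_lit 4) (nat_lit 379) (nat_lit 331) (nat_lit 190)) (XT.lf (nat_lit 0) (nat_lit 322804120519) (nat_lit 152) (nat_lit 49738583980) (nat_lit 0) (nat_lit 167215647304) (nat_lit 10) (nat_lit 5) (nat_lit 12) (nat_lit 4) (nat_lit 10) (nat_lit 4) (nat_lit 380) (nat_lit 331) (nat_lit 189)))))) (XT.nd (nat_lit 312) (nat_lit 76) (nat_lit 0) (XT.nd (nat_lit 156) (nat_lit 152) (nat_lit 0) (XT.nd (nat_lit 78) (nat_lit 0) (nat_lit 0) (XT.lf (nat_lit 0) (nat_lit 135617889933) (nat_lit 76) (nat_lit 297563564941) (nat_lit 76) (nat_lit 141974884961) (nat_lit 9) (nat_lit 4) (nat_lit 10) (nat_lit 5) (nat_lit 10) (nat_lit 4) (nat_lit 381) (nat_lit 331) (nat_lit 188)) (XT.lf (nat_lit 0) (nat_lit 338631067302) (nat_lit 76) (nat_lit 215117597975) (nat_lit 76) (nat_lit 59528726545) (nat_lit 9) (nat_lit 4) (nat_lit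 10) (nat_lit 5) (nat_lit 10) (nat_lit 4) (nat_lit 382) (nat_lit 331) (nat_lit 187))) (XT.nd (nat_lit 78) (nat_lit 76) (nat_lit 0) (XT.lf (nat_lit 0) (nat_lit 28036519334) (nat_lit 152) (nat_lit 97273088481) (nat_lit 76) (nat_lit 529081756030) (nat_lit 8) (nat_lit 5) (nat_lit 10) (nat_lit 5) (nat_lit 9) (nat_lit 4) (nat_lit 383) (nat_lit 331) (nat_lit 186)) (XT.lf (nat_lit 0) (nat_lit 97627074037) (nat_lit 76) (nat_lit 24111525420) (nat_lit 152) (nat_lit 576744341203) (nat_lit 7) (nat_lit 5) (nat_lit 8) (nat_lit 5) (nat_lit 9) (nat_lit 4) (nat_lit 384) (nat_lit 331) (nat_lit 185)))) (XT.nd (nat_lit 156) (nat_lit 76) (nat_lit 0) (XT.nd (nat_lit 78) (nat_lit 0) (nat_lit 0) (XT.lf (nat_lit 0) (nat_lit 227713964263) (nat_lit 152) (nat_lit 434355972354) (nat_lit 0) (nat_lit 83649737584) (nat_lit 7) (nat_lit 5) (nat_lit 9) (nat_lit 4) (nat_lit 7) (nat_lit 4) (nat_lit 385) (nat_lit 331) (nat_lit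 184)) (XT.lf (nat_lit 0) (nat_lit 342793427746) (nat_lit 152) (nat_lit 255162762391) (nat_lit 0) (nat_lit 198729070769) (nat_lit 7) (nat_lit 5) (nat_lit 9) (nat_lit 4) (nat_lit 7) (nat_lit 4) (nat_lit 386) (nat_lit 331) (nat_lit 183))) (XT.nd (nat_lit 78) (nat_lit 76) (nat_lit 0) (XT.lf (nat_lit 0) (nat_lit 467079059515) (nat_lit 152) (nat_lit 61634468278) (nat_lit 0) (nat_lit 323014581893) (nat_lit 7) (nat_lit 5) (nat_lit 9) (nat_lit 4) (nat_lit 7) (nat_lit 4) (nat_lit 387) (nat_lit 331) (nat_lit 182)) (XT.nd (nat_lit 78) (nat_lit 0) (nat_lit 0) (XT.lf (nat_lit 0) (nat_lit 155136289841) (nat_lit 76) (nat_lit 449902108679) (nat_lit 76) (nat_lit 305837519348) (nat_lit 6) (nat_lit 4) (nat_lit 7) (nat_lit 5) (nat_lit 7) (nat_lit 4) (nat_lit 388) (nat_lit 331) (nat_lit 181)) (XT.lf (nat_lit 0) (nat_lit 392753579125) (nat_lit 76) (nat_lit 362965931162) (nat_lit 76) (nat_lit 218901238397) (nat_lit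 6) (nat_lit 4) (nat_lit 7) (nat_lit 5) (nat_lit 7) (nat_lit 4) (nat_lit 389) (nat_lit 331) (nat_lit 180))))))))
noncomputable def xc183 : XT := (XT.nd (nat_lit 1404) (nat_lit 152) (nat_lit 0) (XT.nd (nat_lit 702) (nat_lit 76) (nat_lit 0) (XT.nd (nat_lit 312) (nat_lit 0) (nat_lit 0) (XT.nd (nat_lit 156) (nat_lit 152) (nat_lit 0) (XT.nd (nat_lit 78) (nat_lit 0) (nat_lit 0) (XT.lf (nat_lit 0) (nat_lit 649379940155) (nat_lit 76) (nat_lit 269075013483) (nat_lit 76) (nat_lit 125010224945) (nat_lit 6) (nat_lit 4) (nat_lit 7) (nat_lit 5) (nat_lit 7) (nat_lit 4) (nat_lit 390) (nat_lit 331) (nat_lit 179)) (XT.lf (nat_lit 0) (nat_lit 926536121736) (nat_lit 76) (nat_lit 167672965019) (nat_lit 76) (nat_lit 23608087802) (nat_lit 6) (nat_lit 4) (nat_lit 7) (nat_lit 5) (nat_lit 7) (nat_lit 4) (nat_lit 391) (nat_lit 331) (nat_lit 178))) (XT.nd (nat_lit 78) (nat_lit 0) (nat_lit 0) (XT.lf (nat_lit 0) (nat_lit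 27033470356) (nat_lit 76) (nat_lit 55225390067) (nat_lit 152) (nat_lit 1115641184702) (nat_lit 4) (nat_lit 5) (nat_lit 5) (nat_lit 5) (nat_lit 6) (nat_lit 4) (nat_lit 392) (nat_lit 331) (nat_lit 177)) (XT.lf (nat_lit 0) (nat_lit 202277927197) (nat_lit 152) (nat_lit 1012621529442) (nat_lit 0) (nat_lit 68884375944) (nat_lit 4) (nat_lit 5) (nat_lit 6) (nat_lit 4) (nat_lit 4) (nat_lit 4) (nat_lit 393) (nat_lit 331) (nat_lit 176)))) (XT.nd (nat_lit 156) (nat_lit 0) (nat_lit 0) (XT.nd (nat_lit 78) (nat_lit 0) (nat_lit 0) (XT.lf (nat_lit 0) (nat_lit 333332817431) (nat_lit 152) (nat_lit 843151560779) (nat_lit 0) (nat_lit 199939200997) (nat_lit 4) (nat_lit 5) (nat_lit 6) (nat_lit 4) (nat_lit 4) (nat_lit 4) (nat_lit 394) (nat_lit 331) (nat_lit 175)) (XT.lf (nat_lit 0) (nat_lit 474871980739) (nat_lit 152) (nat_lit 660124230340) (nat_lit 0) (nat_lit 341478303952) (nat_lit 4) (nat_lit 5) (nat_lit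 6) (nat_lit 4) (nat_lit 4) (nat_lit 4) (nat_lit 395) (nat_lit 331) (nat_lit 174))) (XT.nd (nat_lit 78) (nat_lit 0) (nat_lit 0) (XT.lf (nat_lit 0) (nat_lit 627734167719) (nat_lit 152) (nat_lit 462454931721) (nat_lit 0) (nat_lit 494340435049) (nat_lit 4) (nat_lit 5) (nat_lit 6) (nat_lit 4) (nat_lit 4) (nat_lit 4) (nat_lit 396) (nat_lit 331) (nat_lit 173)) (XT.nd (nat_lit 78) (nat_lit 0) (nat_lit 0) (XT.lf (nat_lit 0) (nat_lit 792825228366) (nat_lit 152) (nat_lit 248972291303) (nat_lit 0) (nat_lit 659431443954) (nat_lit 4) (nat_lit 5) (nat_lit 6) (nat_lit 4) (nat_lit 4) (nat_lit 4) (nat_lit 397) (nat_lit 331) (nat_lit 172)) (XT.lf (nat_lit 0) (nat_lit 971123480078) (nat_lit 152) (nat_lit 18411226771) (nat_lit 0) (nat_lit 837729647756) (nat_lit 4) (nat_lit 5) (nat_lit 6) (nat_lit 4) (nat_lit 4) (nat_lit 4) (nat_lit 398) (nat_lit 331) (nat_lit 171)))))) (XT.nd (nat_lit 312) (nat_lit 0) (nat_lit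 0) (XT.nd (nat_lit 156) (nat_lit 0) (nat_lit 0) (XT.nd (nat_lit 78) (nat_lit 0) (nat_lit 0) (XT.lf (nat_lit 0) (nat_lit 242737250001) (nat_lit 76) (nat_lit 926786091787) (nat_lit 76) (nat_lit 793392215104) (nat_lit 3) (nat_lit 4) (nat_lit 4) (nat_lit 5) (nat_lit 4) (nat_lit 4) (nat_lit 399) (nat_lit 331) (nat_lit 170)) (XT.lf (nat_lit 0) (nat_lit 525824498823) (nat_lit 76) (nat_lit 858474004710) (nat_lit 76) (nat_lit 725080086951) (nat_lit 3) (nat_lit 4) (nat_lit 4) (nat_lit 5) (nat_lit 4) (nat_lit 4) (nat_lit 400) (nat_lit 331) (nat_lit 169))) (XT.nd (nat_lit 78) (nat_lit 0) (nat_lit 0) (XT.lf (nat_lit 0) (nat_lit 831558571187) (nat_lit 76) (nat_lit 784697028818) (nat_lit 76) (nat_lit 651303073027) (nat_lit 3) (nat_lit 4) (nat_lit 4) (nat_lit 5) (nat_lit 4) (nat_lit 4) (nat_lit 401) (nat_lit 331) (nat_lit 168)) (XT.lf (nat_lit 0) (nat_lit 1161751224559) (nat_lit 76) (nat_lit 705017967218)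 (nat_lit 76) (nat_lit 571623976212) (nat_lit 3) (nat_lit 4) (nat_lit 4) (nat_lit 5) (nat_lit 4) (nat_lit 4) (nat_lit 402) (nat_lit 331) (nat_lit 167)))) (XT.nd (nat_lit 156) (nat_lit 0) (nat_lit 0) (XT.nd (nat_lit 78) (nat_lit 0) (nat_lit 0) (XT.lf (nat_lit 0) (nat_lit 1518359156144) (nat_lit 76) (nat_lit 618964647693) (nat_lit 76) (nat_lit 485570624080) (nat_lit 3) (nat_lit 4) (nat_lit 4) (nat_lit 5) (nat_lit 4) (nat_lit 4) (nat_lit 403) (nat_lit 331) (nat_lit 166)) (XT.lf (nat_lit 0) (nat_lit 1903495598130) (nat_lit 76) (nat_lit 526027124644) (nat_lit 76) (nat_lit 392633070840) (nat_lit 3) (nat_lit 4) (nat_lit 4) (nat_lit 5) (nat_lit 4) (nat_lit 4) (nat_lit 404) (nat_lit 331) (nat_lit 165))) (XT.nd (nat_lit 78) (nat_lit 0) (nat_lit 0) (XT.lf (nat_lit 0) (nat_lit 2319442840543) (nat_lit 76) (nat_lit 425654657196) (nat_lit 76) (nat_lit 292260575436) (nat_lit 3) (nat_lit 4) (nat_lit 4)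 (nat_lit 5) (nat_lit 4) (nat_lit 4) (nat_lit 405) (nat_lit 331) (nat_lit 164)) (XT.nd (nat_lit 78) (nat_lit 0) (nat_lit 0) (XT.lf (nat_lit 0) (nat_lit 2768665755930) (nat_lit 76) (nat_lit 317252445541) (nat_lit 76) (nat_lit 183858337897) (nat_lit 3) (nat_lit 4) (nat_lit 4) (nat_lit 5) (nat_lit 4) (nat_lit 4) (nat_lit 406) (nat_lit 331) (nat_lit 163)) (XT.lf (nat_lit 0) (nat_lit 3253826406013) (nat_lit 76) (nat_lit 200178106202) (nat_lit 76) (nat_lit 66783974591) (nat_lit 3) (nat_lit 4) (nat_lit 4) (nat_lit 5) (nat_lit 4) (nat_lit 4) (nat_lit 407) (nat_lit 331) (nat_lit 162))))))) (XT.nd (nat_lit 41262) (nat_lit 0) (nat_lit 3192) (XT.nd (nat_lit 312) (nat_lit 0) (nat_lit 0) (XT.nd (nat_lit 156) (nat_lit 0) (nat_lit 0) (XT.nd (nat_lit 78) (nat_lit 76) (nat_lit 0) (XT.lf (nat_lit 0) (nat_lit 56672039326) (nat_lit 152) (nat_lit 15516312003) (nat_lit 76) (nat_lit 3719578263553) (nat_lit 2)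 (nat_lit 5) (nat_lit 4) (nat_lit 5) (nat_lit 3) (nat_lit 4) (nat_lit 408) (nat_lit 331) (nat_lit 161)) (XT.lf (nat_lit 0) (nat_lit 194635218609) (nat_lit 152) (nat_lit 3817867808214) (nat_lit 0) (nat_lit 71122094210) (nat_lit 1) (nat_lit 5) (nat_lit 3) (nat_lit 4) (nat_lit 1) (nat_lit 4) (nat_lit 409) (nat_lit 331) (nat_lit 160))) (XT.nd (nat_lit 78) (nat_lit 0) (nat_lit 0) (XT.lf (nat_lit 0) (nat_lit 345945693924) (nat_lit 152) (nat_lit 3830269242512) (nat_lit 0) (nat_lit 222432551909) (nat_lit 1) (nat_lit 5) (nat_lit 3) (nat_lit 4) (nat_lit 1) (nat_lit 4) (nat_lit 410) (nat_lit 331) (nat_lit 159)) (XT.lf (nat_lit 0) (nat_lit 509360967264) (nat_lit 152) (nat_lit 3843662872047) (nat_lit 0) (nat_lit 385847808938) (nat_lit 1) (nat_lit 5) (nat_lit 3) (nat_lit 4) (nat_lit 1) (nat_lit 4) (nat_lit 411) (nat_lit 331) (nat_lit 158)))) (XT.nd (nat_lit 40716) (nat_lit 0) (nat_lit 4332) (XT.nd (nat_lit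 40638) (nat_lit 0) (nat_lit 4332) (XT.lf (nat_lit 0) (nat_lit 685849425434) (nat_lit 152) (nat_lit 3858128066473) (nat_lit 0) (nat_lit 562336252004) (nat_lit 1) (nat_lit 5) (nat_lit 3) (nat_lit 4) (nat_lit 1) (nat_lit 4) (nat_lit 412) (nat_lit 331) (nat_lit 157)) (XT.lf (nat_lit 0) (nat_lit 19289273884) (nat_lit 532) (nat_lit 2308030758) (nat_lit 532) (nat_lit 2308030758) (nat_lit 58) (nat_lit 3) (nat_lit 65) (nat_lit 3) (nat_lit 65) (nat_lit 5) (nat_lit 332) (nat_lit 332) (nat_lit 236))) (XT.nd (nat_lit 78) (nat_lit 0) (nat_lit 76) (XT.lf (nat_lit 76) (nat_lit 19201874940) (nat_lit 0) (nat_lit 21408257101) (nat_lit 532) (nat_lit 9073850265) (nat_lit 59) (nat_lit 5) (nat_lit 58) (nat_lit 3) (nat_lit 65) (nat_lit 5) (nat_lit 333) (nat_lit 332) (nat_lit 235)) (XT.nd (nat_lit 78) (nat_lit 0) (nat_lit 0) (XT.lf (nat_lit 0) (nat_lit 42982069796) (nat_lit 456) (nat_lit 6565349960) (nat_lit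 532) (nat_lit 2145516832) (nat_lit 59) (nat_lit 5) (nat_lit 65) (nat_lit 5) (nat_lit 66) (nat_lit 5) (nat_lit 334) (nat_lit 332) (nat_lit 234)) (XT.lf (nat_lit 76) (nat_lit 19692134980) (nat_lit 0) (nat_lit 26878807575) (nat_lit 532) (nat_lit 7209493959) (nat_lit 60) (nat_lit 5) (nat_lit 59) (nat_lit 5) (nat_lit 66) (nat_lit 5) (nat_lit 335) (nat_lit 332) (nat_lit 233)))))) (XT.nd (nat_lit 312) (nat_lit 760) (nat_lit 0) (XT.nd (nat_lit 156) (nat_lit 456) (nat_lit 0) (XT.nd (nat_lit 78) (nat_lit 0) (nat_lit 76) (XT.lf (nat_lit 76) (nat_lit 48422002595) (nat_lit 0) (nat_lit 2202100891) (nat_lit 532) (nat_lit 5396662105) (nat_lit 60) (nat_lit 5) (nat_lit 59) (nat_lit 5) (nat_lit 66) (nat_lit 5) (nat_lit 336) (nat_lit 332) (nat_lit 232)) (XT.lf (nat_lit 76) (nat_lit 21495573923) (nat_lit 0) (nat_lit 34608764318) (nat_lit 532) (nat_lit 2247760248) (nat_lit 61) (nat_lit 5) (nat_lit 60) (nat_lit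 5) (nat_lit 67) (nat_lit 5) (nat_lit 337) (nat_lit 332) (nat_lit 231))) (XT.nd (nat_lit 78) (nat_lit 0) (nat_lit 76) (XT.lf (nat_lit 0) (nat_lit 1363654112) (nat_lit 532) (nat_lit 7595772989) (nat_lit 608) (nat_lit 51886832698) (nat_lit 53) (nat_lit 5) (nat_lit 60) (nat_lit 5) (nat_lit 61) (nat_lit 5) (nat_lit 338) (nat_lit 332) (nat_lit 230)) (XT.lf (nat_lit 0) (nat_lit 6214857429) (nat_lit 532) (nat_lit 38748161493) (nat_lit 76) (nat_lit 18486481881) (nat_lit 54) (nat_lit 5) (nat_lit 61) (nat_lit 5) (nat_lit 55) (nat_lit 5) (nat_lit 339) (nat_lit 332) (nat_lit 229)))) (XT.nd (nat_lit 156) (nat_lit 456) (nat_lit 0) (XT.nd (nat_lit 78) (nat_lit 380) (nat_lit 0) (XT.lf (nat_lit 0) (nat_lit 11898133458) (nat_lit 532) (nat_lit 6470016097) (nat_lit 76) (nat_lit 47857335747) (nat_lit 54) (nat_lit 5) (nat_lit 61) (nat_lit 5) (nat_lit 55) (nat_lit 5) (nat_lit 340) (nat_lit 332) (nat_lit 228))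 (XT.lf (nat_lit 0) (nat_lit 19020788115) (nat_lit 456) (nat_lit 39550189809) (nat_lit 76) (nat_lit 10573795473) (nat_lit 49) (nat_lit 5) (nat_lit 55) (nat_lit 5) (nat_lit 50) (nat_lit 5) (nat_lit 341) (nat_lit 332) (nat_lit 227))) (XT.nd (nat_lit 78) (nat_lit 456) (nat_lit 0) (XT.lf (nat_lit 0) (nat_lit 27370256369) (nat_lit 456) (nat_lit 3854519293) (nat_lit 76) (nat_lit 41020270778) (nat_lit 49) (nat_lit 5) (nat_lit 55) (nat_lit 5) (nat_lit 50) (nat_lit 5) (nat_lit 342) (nat_lit 332) (nat_lit 226)) (XT.nd (nat_lit 78) (nat_lit 228) (nat_lit 0) (XT.lf (nat_lit 0) (nat_lit 36522235709) (nat_lit 228) (nat_lit 742334683) (nat_lit 304) (nat_lit 38258621720) (nat_lit 46) (nat_lit 5) (nat_lit 49) (nat_lit 5) (nat_lit 50) (nat_lit 5) (nat_lit 343) (nat_lit 332) (nat_lit 225)) (XT.lf (nat_lit 0) (nat_lit 542030751) (nat_lit 228) (nat_lit 48302057248) (nat_lit 304) (nat_lit 30148010477) (nat_lit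 43) (nat_lit 5) (nat_lit 46) (nat_lit 5) (nat_lit 47) (nat_lit 5) (nat_lit 344) (nat_lit 332) (nat_lit 224))))))))
noncomputable def xc184 : XT := (XT.nd (nat_lit 1404) (nat_lit 988) (nat_lit 0) (XT.nd (nat_lit 702) (nat_lit 684) (nat_lit 0) (XT.nd (nat_lit 312) (nat_lit 380) (nat_lit 0) (XT.nd (nat_lit 156) (nat_lit 304) (nat_lit 0) (XT.nd (nat_lit 78) (nat_lit 152) (nat_lit 0) (XT.lf (nat_lit 0) (nat_lit 45444589725) (nat_lit 228) (nat_lit 16989188803) (nat_lit 304) (nat_lit 20218035486) (nat_lit 43) (nat_lit 5) (nat_lit 46) (nat_lit 5) (nat_lit 47) (nat_lit 5) (nat_lit 345) (nat_lit 332) (nat_lit 223)) (XT.lf (nat_lit 0) (nat_lit 7293604901) (nat_lit 152) (nat_lit 70395938017) (nat_lit 228) (nat_lit 8868453456) (nat_lit 41) (nat_lit 5) (nat_lit 43) (nat_lit 5) (nat_lit 44) (nat_lit 5) (nat_lit 346) (nat_lit 332) (nat_lit 222))) (XT.nd (nat_lit 78) (nat_lit 228) (nat_lit 0) (XT.lf (nat_lit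 0) (nat_lit 4703351256) (nat_lit 228) (nat_lit 33775581672) (nat_lit 76) (nat_lit 52172517639) (nat_lit 40) (nat_lit 5) (nat_lit 43) (nat_lit 5) (nat_lit 41) (nat_lit 5) (nat_lit 347) (nat_lit 332) (nat_lit 221)) (XT.lf (nat_lit 0) (nat_lit 15916728258) (nat_lit 228) (nat_lit 3346712979) (nat_lit 304) (nat_lit 75759979652) (nat_lit 37) (nat_lit 5) (nat_lit 40) (nat_lit 5) (nat_lit 41) (nat_lit 5) (nat_lit 348) (nat_lit 332) (nat_lit 220)))) (XT.nd (nat_lit 156) (nat_lit 228) (nat_lit 0) (XT.nd (nat_lit 78) (nat_lit 152) (nat_lit 0) (XT.lf (nat_lit 0) (nat_lit 36766756544) (nat_lit 304) (nat_lit 29023539202) (nat_lit 76) (nat_lit 33812580719) (nat_lit 37) (nat_lit 5) (nat_lit 41) (nat_lit 5) (nat_lit 38) (nat_lit 5) (nat_lit 349) (nat_lit 332) (nat_lit 219)) (XT.lf (nat_lit 0) (nat_lit 26293228913) (nat_lit 152) (nat_lit 30095379855) (nat_lit 228) (nat_lit 48102618984) (nat_lit 35) (nat_lit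 5) (nat_lit 37) (nat_lit 5) (nat_lit 38) (nat_lit 5) (nat_lit 350) (nat_lit 332) (nat_lit 218))) (XT.nd (nat_lit 78) (nat_lit 228) (nat_lit 0) (XT.lf (nat_lit 0) (nat_lit 78596745506) (nat_lit 228) (nat_lit 22246624615) (nat_lit 76) (nat_lit 8845955040) (nat_lit 35) (nat_lit 5) (nat_lit 38) (nat_lit 5) (nat_lit 36) (nat_lit 5) (nat_lit 351) (nat_lit 332) (nat_lit 217)) (XT.nd (nat_lit 78) (nat_lit 76) (nat_lit 0) (XT.lf (nat_lit 0) (nat_lit 39367134444) (nat_lit 152) (nat_lit 64941973239) (nat_lit 228) (nat_lit 10855957578) (nat_lit 33) (nat_lit 5) (nat_lit 35) (nat_lit 5) (nat_lit 36) (nat_lit 5) (nat_lit 352) (nat_lit 332) (nat_lit 216)) (XT.lf (nat_lit 0) (nat_lit 11072519444) (nat_lit 228) (nat_lit 14136708074) (nat_lit 76) (nat_lit 95798620989) (nat_lit 32) (nat_lit 5) (nat_lit 35) (nat_lit 5) (nat_lit 33) (nat_lit 5) (nat_lit 353) (nat_lit 332) (nat_lit 215)))))) (XT.nd (nat_lit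 312) (nat_lit 304) (nat_lit 0) (XT.nd (nat_lit 156) (nat_lit 228) (nat_lit 0) (XT.nd (nat_lit 78) (nat_lit 0) (nat_lit 0) (XT.lf (nat_lit 0) (nat_lit 35956169895) (nat_lit 228) (nat_lit 72735657646) (nat_lit 76) (nat_lit 18460677805) (nat_lit 30) (nat_lit 5) (nat_lit 33) (nat_lit 5) (nat_lit 31) (nat_lit 5) (nat_lit 354) (nat_lit 332) (nat_lit 214)) (XT.lf (nat_lit 0) (nat_lit 63881055929) (nat_lit 228) (nat_lit 5165249913) (nat_lit 76) (nat_lit 64658386034) (nat_lit 30) (nat_lit 5) (nat_lit 33) (nat_lit 5) (nat_lit 31) (nat_lit 5) (nat_lit 355) (nat_lit 332) (nat_lit 213))) (XT.nd (nat_lit 78) (nat_lit 76) (nat_lit 0) (XT.lf (nat_lit 0) (nat_lit 71380351209) (nat_lit 152) (nat_lit 24375536555) (nat_lit 228) (nat_lit 44887889756) (nat_lit 28) (nat_lit 5) (nat_lit 30) (nat_lit 5) (nat_lit 31) (nat_lit 5) (nat_lit 356) (nat_lit 332) (nat_lit 212)) (XT.lf (nat_lit 0) (nat_lit 5934627943)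 (nat_lit 76) (nat_lit 125107022054) (nat_lit 152) (nat_lit 17027465049) (nat_lit 27) (nat_lit 5) (nat_lit 28) (nat_lit 5) (nat_lit 29) (nat_lit 4) (nat_lit 357) (nat_lit 332) (nat_lit 211)))) (XT.nd (nat_lit 156) (nat_lit 76) (nat_lit 0) (XT.nd (nat_lit 78) (nat_lit 152) (nat_lit 0) (XT.lf (nat_lit 0) (nat_lit 14983775010) (nat_lit 152) (nat_lit 65847033885) (nat_lit 76) (nat_lit 75026509412) (nat_lit 26) (nat_lit 5) (nat_lit 28) (nat_lit 5) (nat_lit 27) (nat_lit 5) (nat_lit 358) (nat_lit 332) (nat_lit 210)) (XT.lf (nat_lit 0) (nat_lit 16947832263) (nat_lit 152) (nat_lit 32095086047) (nat_lit 228) (nat_lit 115157723848) (nat_lit 24) (nat_lit 5) (nat_lit 26) (nat_lit 5) (nat_lit 27) (nat_lit 5) (nat_lit 359) (nat_lit 332) (nat_lit 209))) (XT.nd (nat_lit 78) (nat_lit 76) (nat_lit 0) (XT.lf (nat_lit 0) (nat_lit 88167252385) (nat_lit 228) (nat_lit 63498197266) (nat_lit 76) (nat_lit 21358745917)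 (nat_lit 24) (nat_lit 5) (nat_lit 27) (nat_lit 5) (nat_lit 25) (nat_lit 4) (nat_lit 360) (nat_lit 332) (nat_lit 208)) (XT.nd (nat_lit 78) (nat_lit 0) (nat_lit 0) (XT.lf (nat_lit 0) (nat_lit 27497648923) (nat_lit 76) (nat_lit 104418236792) (nat_lit 152) (nat_lit 50518199703) (nat_lit 23) (nat_lit 5) (nat_lit 24) (nat_lit 5) (nat_lit 25) (nat_lit 4) (nat_lit 361) (nat_lit 332) (nat_lit 207)) (XT.lf (nat_lit 0) (nat_lit 129383347280) (nat_lit 76) (nat_lit 51516630923) (nat_lit 152) (nat_lit 11557943115) (nat_lit 23) (nat_lit 5) (nat_lit 24) (nat_lit 5) (nat_lit 25) (nat_lit 4) (nat_lit 362) (nat_lit 332) (nat_lit 206))))))) (XT.nd (nat_lit 702) (nat_lit 380) (nat_lit 0) (XT.nd (nat_lit 312) (nat_lit 304) (nat_lit 0) (XT.nd (nat_lit 156) (nat_lit 76) (nat_lit 0) (XT.nd (nat_lit 78) (nat_lit 0) (nat_lit 0) (XT.lf (nat_lit 0) (nat_lit 30065547464) (nat_lit 228) (nat_lit 166065264488) (nat_lit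 76) (nat_lit 7008285223) (nat_lit 20) (nat_lit 5) (nat_lit 23) (nat_lit 5) (nat_lit 21) (nat_lit 4) (nat_lit 363) (nat_lit 332) (nat_lit 205)) (XT.lf (nat_lit 0) (nat_lit 77501400019) (nat_lit 228) (nat_lit 67399654900) (nat_lit 76) (nat_lit 69501142999) (nat_lit 20) (nat_lit 5) (nat_lit 23) (nat_lit 5) (nat_lit 21) (nat_lit 4) (nat_lit 364) (nat_lit 332) (nat_lit 204))) (XT.nd (nat_lit 78) (nat_lit 0) (nat_lit 0) (XT.lf (nat_lit 0) (nat_lit 41220304815) (nat_lit 76) (nat_lit 88502658691) (nat_lit 152) (nat_lit 96764116046) (nat_lit 19) (nat_lit 5) (nat_lit 20) (nat_lit 5) (nat_lit 21) (nat_lit 4) (nat_lit 365) (nat_lit 332) (nat_lit 203)) (XT.lf (nat_lit 0) (nat_lit 162362057091) (nat_lit 76) (nat_lit 25602530701) (nat_lit 152) (nat_lit 51426777299) (nat_lit 19) (nat_lit 5) (nat_lit 20) (nat_lit 5) (nat_lit 21) (nat_lit 4) (nat_lit 366) (nat_lit 332) (nat_lit 202)))) (XT.nd (nat_lit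 156) (nat_lit 152) (nat_lit 0) (XT.nd (nat_lit 78) (nat_lit 76) (nat_lit 0) (XT.lf (nat_lit 0) (nat_lit 40893964987) (nat_lit 76) (nat_lit 211972643254) (nat_lit 76) (nat_lit 301300149) (nat_lit 18) (nat_lit 4) (nat_lit 19) (nat_lit 5) (nat_lit 19) (nat_lit 4) (nat_lit 367) (nat_lit 332) (nat_lit 201)) (XT.lf (nat_lit 0) (nat_lit 54992546611) (nat_lit 152) (nat_lit 97287502049) (nat_lit 76) (nat_lit 115434842590) (nat_lit 17) (nat_lit 5) (nat_lit 19) (nat_lit 5) (nat_lit 18) (nat_lit 4) (nat_lit 368) (nat_lit 332) (nat_lit 200))) (XT.nd (nat_lit 78) (nat_lit 76) (nat_lit 0) (XT.lf (nat_lit 0) (nat_lit 28305183570) (nat_lit 76) (nat_lit 87068753872) (nat_lit 152) (nat_lit 167996644240) (nat_lit 16) (nat_lit 5) (nat_lit 17) (nat_lit 5) (nat_lit 18) (nat_lit 4) (nat_lit 369) (nat_lit 332) (nat_lit 199)) (XT.nd (nat_lit 78) (nat_lit 76) (nat_lit 0) (XT.lf (nat_lit 0) (nat_lit 169477345375)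 (nat_lit 76) (nat_lit 13768094053) (nat_lit 152) (nat_lit 116820520088) (nat_lit 16) (nat_lit 5) (nat_lit 17) (nat_lit 5) (nat_lit 18) (nat_lit 4) (nat_lit 370) (nat_lit 332) (nat_lit 198)) (XT.lf (nat_lit 0) (nat_lit 2392472128) (nat_lit 76) (nat_lit 255784128613) (nat_lit 76) (nat_lit 59789971847) (nat_lit 15) (nat_lit 4) (nat_lit 16) (nat_lit 5) (nat_lit 16) (nat_lit 4) (nat_lit 371) (nat_lit 332) (nat_lit 197)))))) (XT.nd (nat_lit 312) (nat_lit 228) (nat_lit 0) (XT.nd (nat_lit 156) (nat_lit 76) (nat_lit 0) (XT.nd (nat_lit 78) (nat_lit 0) (nat_lit 0) (XT.lf (nat_lit 0) (nat_lit 5733315434) (nat_lit 152) (nat_lit 184069307053) (nat_lit 76) (nat_lit 147171504165) (nat_lit 14) (nat_lit 5) (nat_lit 16) (nat_lit 5) (nat_lit 15) (nat_lit 4) (nat_lit 372) (nat_lit 332) (nat_lit 196)) (XT.lf (nat_lit 0) (nat_lit 73267894699) (nat_lit 152) (nat_lit 43597795506) (nat_lit 76) (nat_lit 240512384812)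 (nat_lit 14) (nat_lit 5) (nat_lit 16) (nat_lit 5) (nat_lit 15) (nat_lit 4) (nat_lit 373) (nat_lit 332) (nat_lit 195))) (XT.nd (nat_lit 78) (nat_lit 0) (nat_lit 0) (XT.lf (nat_lit 0) (nat_lit 113803731786) (nat_lit 76) (nat_lit 35138158106) (nat_lit 152) (nat_lit 230253517501) (nat_lit 13) (nat_lit 5) (nat_lit 14) (nat_lit 5) (nat_lit 15) (nat_lit 4) (nat_lit 374) (nat_lit 332) (nat_lit 194)) (XT.lf (nat_lit 0) (nat_lit 233170197339) (nat_lit 152) (nat_lit 117695249952) (nat_lit 0) (nat_lit 51692647755) (nat_lit 13) (nat_lit 5) (nat_lit 15) (nat_lit 4) (nat_lit 13) (nat_lit 4) (nat_lit 375) (nat_lit 332) (nat_lit 193)))) (XT.nd (nat_lit 156) (nat_lit 152) (nat_lit 0) (XT.nd (nat_lit 78) (nat_lit 0) (nat_lit 0) (XT.lf (nat_lit 0) (nat_lit 43057537746) (nat_lit 76) (nat_lit 283027140375) (nat_lit 76) (nat_lit 101549286985) (nat_lit 12) (nat_lit 4) (nat_lit 13) (nat_lit 5) (nat_lit 13) (nat_lit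 4) (nat_lit 376) (nat_lit 332) (nat_lit 192)) (XT.lf (nat_lit 0) (nat_lit 223363411423) (nat_lit 76) (nat_lit 206286606057) (nat_lit 76) (nat_lit 24808471365) (nat_lit 12) (nat_lit 4) (nat_lit 13) (nat_lit 5) (nat_lit 13) (nat_lit 4) (nat_lit 377) (nat_lit 332) (nat_lit 191))) (XT.nd (nat_lit 78) (nat_lit 76) (nat_lit 0) (XT.lf (nat_lit 0) (nat_lit 55166350574) (nat_lit 152) (nat_lit 66732385961) (nat_lit 76) (nat_lit 361418530678) (nat_lit 11) (nat_lit 5) (nat_lit 13) (nat_lit 5) (nat_lit 12) (nat_lit 4) (nat_lit 378) (nat_lit 332) (nat_lit 190)) (XT.nd (nat_lit 78) (nat_lit 0) (nat_lit 0) (XT.lf (nat_lit 0) (nat_lit 115933926837) (nat_lit 76) (nat_lit 27052882377) (nat_lit 152) (nat_lit 371223352415) (nat_lit 10) (nat_lit 5) (nat_lit 11) (nat_lit 5) (nat_lit 12) (nat_lit 4) (nat_lit 379) (nat_lit 332) (nat_lit 189)) (XT.lf (nat_lit 0) (nat_lit 241517525081) (nat_lit 152) (nat_lit 232280648998)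 (nat_lit 0) (nat_lit 73481543937) (nat_lit 10) (nat_lit 5) (nat_lit 12) (nat_lit 4) (nat_lit 10) (nat_lit 4) (nat_lit 380) (nat_lit 332) (nat_lit 188))))))))
noncomputable def xc185 : XT := (XT.nd (nat_lit 1404) (nat_lit 228) (nat_lit 0) (XT.nd (nat_lit 702) (nat_lit 152) (nat_lit 0) (XT.nd (nat_lit 312) (nat_lit 152) (nat_lit 0) (XT.nd (nat_lit 156) (nat_lit 76) (nat_lit 0) (XT.nd (nat_lit 78) (nat_lit 76) (nat_lit 0) (XT.lf (nat_lit 0) (nat_lit 348633130584) (nat_lit 152) (nat_lit 53708555809) (nat_lit 0) (nat_lit 180596957990) (nat_lit 10) (nat_lit 5) (nat_lit 12) (nat_lit 4) (nat_lit 10) (nat_lit 4) (nat_lit 381) (nat_lit 332) (nat_lit 187)) (XT.lf (nat_lit 0) (nat_lit 146476205261) (nat_lit 76) (nat_lit 321364313392) (nat_lit 76) (nat_lit 153327963530) (nat_lit 9) (nat_lit 4) (nat_lit 10) (nat_lit 5) (nat_lit 10) (nat_lit 4) (nat_lit 382) (nat_lit 332) (nat_lit 186))) (XT.nd (nat_lit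 78) (nat_lit 76) (nat_lit 0) (XT.lf (nat_lit 0) (nat_lit 365729778735) (nat_lit 76) (nat_lit 232322990309) (nat_lit 76) (nat_lit 64286476310) (nat_lit 9) (nat_lit 4) (nat_lit 10) (nat_lit 5) (nat_lit 10) (nat_lit 4) (nat_lit 383) (nat_lit 332) (nat_lit 185)) (XT.lf (nat_lit 0) (nat_lit 30283441651) (nat_lit 152) (nat_lit 105047107343) (nat_lit 76) (nat_lit 571411803066) (nat_lit 8) (nat_lit 5) (nat_lit 10) (nat_lit 5) (nat_lit 9) (nat_lit 4) (nat_lit 384) (nat_lit 332) (nat_lit 184)))) (XT.nd (nat_lit 156) (nat_lit 76) (nat_lit 0) (XT.nd (nat_lit 78) (nat_lit 0) (nat_lit 0) (XT.lf (nat_lit 0) (nat_lit 105444869995) (nat_lit 76) (nat_lit 26036705338) (nat_lit 152) (nat_lit 622879688777) (nat_lit 7) (nat_lit 5) (nat_lit 8) (nat_lit 5) (nat_lit 9) (nat_lit 4) (nat_lit 385) (nat_lit 332) (nat_lit 183)) (XT.lf (nat_lit 0) (nat_lit 245934764661) (nat_lit 152) (nat_lit 469097179920) (nat_lit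 0) (nat_lit 90345008183) (nat_lit 7) (nat_lit 5) (nat_lit 9) (nat_lit 4) (nat_lit 7) (nat_lit 4) (nat_lit 386) (nat_lit 332) (nat_lit 182))) (XT.nd (nat_lit 78) (nat_lit 76) (nat_lit 0) (XT.lf (nat_lit 0) (nat_lit 370220312388) (nat_lit 152) (nat_lit 275569051695) (nat_lit 0) (nat_lit 214630444201) (nat_lit 7) (nat_lit 5) (nat_lit 9) (nat_lit 4) (nat_lit 7) (nat_lit 4) (nat_lit 387) (nat_lit 332) (nat_lit 181)) (XT.nd (nat_lit 78) (nat_lit 76) (nat_lit 0) (XT.lf (nat_lit 0) (nat_lit 504448542075) (nat_lit 152) (nat_lit 66558992697) (nat_lit 0) (nat_lit 348858570454) (nat_lit 7) (nat_lit 5) (nat_lit 9) (nat_lit 4) (nat_lit 7) (nat_lit 4) (nat_lit 388) (nat_lit 332) (nat_lit 180)) (XT.lf (nat_lit 0) (nat_lit 167553268273) (nat_lit 76) (nat_lit 485891272126) (nat_lit 76) (nat_lit 330301204733) (nat_lit 6) (nat_lit 4) (nat_lit 7) (nat_lit 5) (nat_lit 7) (nat_lit 4) (nat_lit 389) (nat_lit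 332) (nat_lit 179)))))) (XT.nd (nat_lit 312) (nat_lit 0) (nat_lit 0) (XT.nd (nat_lit 156) (nat_lit 152) (nat_lit 0) (XT.nd (nat_lit 78) (nat_lit 0) (nat_lit 0) (XT.lf (nat_lit 0) (nat_lit 424179490682) (nat_lit 76) (nat_lit 392000423019) (nat_lit 76) (nat_lit 236410266947) (nat_lit 6) (nat_lit 4) (nat_lit 7) (nat_lit 5) (nat_lit 7) (nat_lit 4) (nat_lit 390) (nat_lit 332) (nat_lit 178)) (XT.lf (nat_lit 0) (nat_lit 701335543911) (nat_lit 76) (nat_lit 290598438047) (nat_lit 76) (nat_lit 135008199865) (nat_lit 6) (nat_lit 4) (nat_lit 7) (nat_lit 5) (nat_lit 7) (nat_lit 4) (nat_lit 391) (nat_lit 332) (nat_lit 177))) (XT.nd (nat_lit 78) (nat_lit 152) (nat_lit 0) (XT.lf (nat_lit 0) (nat_lit 1000663834201) (nat_lit 76) (nat_lit 181084416558) (nat_lit 76) (nat_lit 25494102349) (nat_lit 6) (nat_lit 4) (nat_lit 7) (nat_lit 5) (nat_lit 7) (nat_lit 4) (nat_lit 392) (nat_lit 332) (nat_lit 176)) (XT.lf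 (nat_lit 0) (nat_lit 29200977374) (nat_lit 76) (nat_lit 59641023576) (nat_lit 152) (nat_lit 1204889852864) (nat_lit 4) (nat_lit 5) (nat_lit 5) (nat_lit 5) (nat_lit 6) (nat_lit 4) (nat_lit 393) (nat_lit 332) (nat_lit 175)))) (XT.nd (nat_lit 156) (nat_lit 0) (nat_lit 0) (XT.nd (nat_lit 78) (nat_lit 0) (nat_lit 0) (XT.lf (nat_lit 0) (nat_lit 218462466333) (nat_lit 152) (nat_lit 1093626653052) (nat_lit 0) (nat_lit 74397235051) (nat_lit 4) (nat_lit 5) (nat_lit 6) (nat_lit 4) (nat_lit 4) (nat_lit 4) (nat_lit 394) (nat_lit 332) (nat_lit 174)) (XT.lf (nat_lit 0) (nat_lit 360001577049) (nat_lit 152) (nat_lit 910599427543) (nat_lit 0) (nat_lit 215936289884) (nat_lit 4) (nat_lit 5) (nat_lit 6) (nat_lit 4) (nat_lit 4) (nat_lit 4) (nat_lit 395) (nat_lit 332) (nat_lit 173))) (XT.nd (nat_lit 78) (nat_lit 0) (nat_lit 0) (XT.lf (nat_lit 0) (nat_lit 512863715331) (nat_lit 152) (nat_lit 712930226083) (nat_lit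 0) (nat_lit 368798376423) (nat_lit 4) (nat_lit 5) (nat_lit 6) (nat_lit 4) (nat_lit 4) (nat_lit 4) (nat_lit 396) (nat_lit 332) (nat_lit 172)) (XT.nd (nat_lit 78) (nat_lit 0) (nat_lit 0) (XT.lf (nat_lit 0) (nat_lit 677954730889) (nat_lit 152) (nat_lit 499447675626) (nat_lit 0) (nat_lit 533889344071) (nat_lit 4) (nat_lit 5) (nat_lit 6) (nat_lit 4) (nat_lit 4) (nat_lit 4) (nat_lit 397) (nat_lit 332) (nat_lit 171)) (XT.lf (nat_lit 0) (nat_lit 856252940851) (nat_lit 152) (nat_lit 268886694392) (nat_lit 0) (nat_lit 712187509672) (nat_lit 4) (nat_lit 5) (nat_lit 6) (nat_lit 4) (nat_lit 4) (nat_lit 4) (nat_lit 398) (nat_lit 332) (nat_lit 170))))))) (XT.nd (nat_lit 702) (nat_lit 152) (nat_lit 0) (XT.nd (nat_lit 312) (nat_lit 0) (nat_lit 0) (XT.nd (nat_lit 156) (nat_lit 0) (nat_lit 0) (XT.nd (nat_lit 78) (nat_lit 76) (nat_lit 0) (XT.lf (nat_lit 0) (nat_lit 1048814927203) (nat_lit 152) (nat_lit 19880995083)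 (nat_lit 0) (nat_lit 904749454948) (nat_lit 4) (nat_lit 5) (nat_lit 6) (nat_lit 4) (nat_lit 4) (nat_lit 4) (nat_lit 399) (nat_lit 332) (nat_lit 169)) (XT.lf (nat_lit 0) (nat_lit 262159280594) (nat_lit 76) (nat_lit 1000927454420) (nat_lit 76) (nat_lit 856861944133) (nat_lit 3) (nat_lit 4) (nat_lit 4) (nat_lit 5) (nat_lit 4) (nat_lit 4) (nat_lit 400) (nat_lit 332) (nat_lit 168))) (XT.nd (nat_lit 78) (nat_lit 0) (nat_lit 0) (XT.lf (nat_lit 0) (nat_lit 567893283352) (nat_lit 76) (nat_lit 927150513318) (nat_lit 76) (nat_lit 783084967816) (nat_lit 3) (nat_lit 4) (nat_lit 4) (nat_lit 5) (nat_lit 4) (nat_lit 4) (nat_lit 401) (nat_lit 332) (nat_lit 167)) (XT.lf (nat_lit 0) (nat_lit 898085872274) (nat_lit 76) (nat_lit 847471483931) (nat_lit 76) (nat_lit 703405905822) (nat_lit 3) (nat_lit 4) (nat_lit 4) (nat_lit 5) (nat_lit 4) (nat_lit 4) (nat_lit 402) (nat_lit 332) (nat_lit 166)))) (XT.nd (nat_lit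 156) (nat_lit 0) (nat_lit 0) (XT.nd (nat_lit 78) (nat_lit 0) (nat_lit 0) (XT.lf (nat_lit 0) (nat_lit 1254693744183) (nat_lit 76) (nat_lit 761418194232) (nat_lit 76) (nat_lit 617352585932) (nat_lit 3) (nat_lit 4) (nat_lit 4) (nat_lit 5) (nat_lit 4) (nat_lit 4) (nat_lit 403) (nat_lit 332) (nat_lit 165)) (XT.lf (nat_lit 0) (nat_lit 1639830130913) (nat_lit 76) (nat_lit 668480698801) (nat_lit 76) (nat_lit 524415062545) (nat_lit 3) (nat_lit 4) (nat_lit 4) (nat_lit 5) (nat_lit 4) (nat_lit 4) (nat_lit 404) (nat_lit 332) (nat_lit 164))) (XT.nd (nat_lit 78) (nat_lit 0) (nat_lit 0) (XT.lf (nat_lit 0) (nat_lit 2055777322163) (nat_lit 76) (nat_lit 568108256924) (nat_lit 76) (nat_lit 424042594784) (nat_lit 3) (nat_lit 4) (nat_lit 4) (nat_lit 5) (nat_lit 4) (nat_lit 4) (nat_lit 405) (nat_lit 332) (nat_lit 163)) (XT.nd (nat_lit 78) (nat_lit 0) (nat_lit 0) (XT.lf (nat_lit 0) (nat_lit 2505000190177) (nat_lit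 76) (nat_lit 459706068946) (nat_lit 76) (nat_lit 315640382839) (nat_lit 3) (nat_lit 4) (nat_lit 4) (nat_lit 5) (nat_lit 4) (nat_lit 4) (nat_lit 406) (nat_lit 332) (nat_lit 162)) (XT.lf (nat_lit 0) (nat_lit 2990160796396) (nat_lit 76) (nat_lit 342631751530) (nat_lit 76) (nat_lit 198566043232) (nat_lit 3) (nat_lit 4) (nat_lit 4) (nat_lit 5) (nat_lit 4) (nat_lit 4) (nat_lit 407) (nat_lit 332) (nat_lit 161)))))) (XT.nd (nat_lit 312) (nat_lit 0) (nat_lit 0) (XT.nd (nat_lit 156) (nat_lit 76) (nat_lit 0) (XT.nd (nat_lit 78) (nat_lit 76) (nat_lit 0) (XT.lf (nat_lit 0) (nat_lit 3514134166635) (nat_lit 76) (nat_lit 216191530944) (nat_lit 76) (nat_lit 72125802098) (nat_lit 3) (nat_lit 4) (nat_lit 4) (nat_lit 5) (nat_lit 4) (nat_lit 4) (nat_lit 408) (nat_lit 332) (nat_lit 160)) (XT.lf (nat_lit 0) (nat_lit 61206585727) (nat_lit 152) (nat_lit 16756049558) (nat_lit 76) (nat_lit 4017145246023) (nat_lit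 2) (nat_lit 5) (nat_lit 4) (nat_lit 5) (nat_lit 3) (nat_lit 4) (nat_lit 409) (nat_lit 332) (nat_lit 159))) (XT.nd (nat_lit 78) (nat_lit 0) (nat_lit 0) (XT.lf (nat_lit 0) (nat_lit 210206816491) (nat_lit 152) (nat_lit 4123295662509) (nat_lit 0) (nat_lit 76812589187) (nat_lit 1) (nat_lit 5) (nat_lit 3) (nat_lit 4) (nat_lit 1) (nat_lit 4) (nat_lit 410) (nat_lit 332) (nat_lit 158)) (XT.lf (nat_lit 0) (nat_lit 373622072025) (nat_lit 152) (nat_lit 4136689327874) (nat_lit 0) (nat_lit 240227829618) (nat_lit 1) (nat_lit 5) (nat_lit 3) (nat_lit 4) (nat_lit 1) (nat_lit 4) (nat_lit 411) (nat_lit 332) (nat_lit 157)))) (XT.nd (nat_lit 40794) (nat_lit 0) (nat_lit 4332) (XT.nd (nat_lit 40716) (nat_lit 0) (nat_lit 4332) (XT.lf (nat_lit 0) (nat_lit 550110513707) (nat_lit 152) (nat_lit 4151154555478) (nat_lit 0) (nat_lit 416716257316) (nat_lit 1) (nat_lit 5) (nat_lit 3) (nat_lit 4) (nat_lit 1) (nat_lit 4)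 (nat_lit 412) (nat_lit 332) (nat_lit 156)) (XT.lf (nat_lit 0) (nat_lit 20858411987) (nat_lit 532) (nat_lit 2478615786) (nat_lit 532) (nat_lit 2478615786) (nat_lit 58) (nat_lit 3) (nat_lit 65) (nat_lit 3) (nat_lit 65) (nat_lit 5) (nat_lit 333) (nat_lit 333) (nat_lit 234))) (XT.nd (nat_lit 78) (nat_lit 0) (nat_lit 76) (XT.lf (nat_lit 76) (nat_lit 20765428033) (nat_lit 0) (nat_lit 23142314715) (nat_lit 532) (nat_lit 9746981951) (nat_lit 59) (nat_lit 5) (nat_lit 58) (nat_lit 3) (nat_lit 65) (nat_lit 5) (nat_lit 334) (nat_lit 333) (nat_lit 233)) (XT.nd (nat_lit 78) (nat_lit 0) (nat_lit 0) (XT.lf (nat_lit 0) (nat_lit 46465344216) (nat_lit 456) (nat_lit 7061046577) (nat_lit 532) (nat_lit 2298337180) (nat_lit 59) (nat_lit 5) (nat_lit 65) (nat_lit 5) (nat_lit 66) (nat_lit 5) (nat_lit 335) (nat_lit 333) (nat_lit 232)) (XT.lf (nat_lit 76) (nat_lit 21296289528) (nat_lit 0) (nat_lit 29042417752) (nat_lit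 532) (nat_lit 7740735125) (nat_lit 60) (nat_lit 5) (nat_lit 59) (nat_lit 5) (nat_lit 66) (nat_lit 5) (nat_lit 336) (nat_lit 333) (nat_lit 231))))))))
noncomputable def xc186 : XT := (XT.nd (nat_lit 1404) (nat_lit 1292) (nat_lit 0) (XT.nd (nat_lit 702) (nat_lit 836) (nat_lit 0) (XT.nd (nat_lit 312) (nat_lit 760) (nat_lit 0) (XT.nd (nat_lit 156) (nat_lit 456) (nat_lit 0) (XT.nd (nat_lit 78) (nat_lit 0) (nat_lit 76) (XT.lf (nat_lit 76) (nat_lit 52322414423) (nat_lit 0) (nat_lit 2390588935) (nat_lit 532) (nat_lit 5786248452) (nat_lit 60) (nat_lit 5) (nat_lit 59) (nat_lit 5) (nat_lit 66) (nat_lit 5) (nat_lit 337) (nat_lit 333) (nat_lit 230)) (XT.lf (nat_lit 76) (nat_lit 23244580174) (nat_lit 0) (nat_lit 37384621704) (nat_lit 532) (nat_lit 2388090109) (nat_lit 61) (nat_lit 5) (nat_lit 60) (nat_lit 5) (nat_lit 67) (nat_lit 5) (nat_lit 338) (nat_lit 333) (nat_lit 229))) (XT.nd (nat_lit 78) (nat_lit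 0) (nat_lit 76) (XT.lf (nat_lit 0) (nat_lit 1507482980) (nat_lit 532) (nat_lit 8174374680) (nat_lit 608) (nat_lit 56029278514) (nat_lit 53) (nat_lit 5) (nat_lit 60) (nat_lit 5) (nat_lit 61) (nat_lit 5) (nat_lit 339) (nat_lit 333) (nat_lit 228)) (XT.lf (nat_lit 0) (nat_lit 6744781977) (nat_lit 532) (nat_lit 41816911563) (nat_lit 76) (nat_lit 19961106334) (nat_lit 54) (nat_lit 5) (nat_lit 61) (nat_lit 5) (nat_lit 55) (nat_lit 5) (nat_lit 340) (nat_lit 333) (nat_lit 227)))) (XT.nd (nat_lit 156) (nat_lit 456) (nat_lit 0) (XT.nd (nat_lit 78) (nat_lit 380) (nat_lit 0) (XT.lf (nat_lit 0) (nat_lit 12880295203) (nat_lit 532) (nat_lit 6958818450) (nat_lit 76) (nat_lit 51681946591) (nat_lit 54) (nat_lit 5) (nat_lit 61) (nat_lit 5) (nat_lit 55) (nat_lit 5) (nat_lit 341) (nat_lit 333) (nat_lit 226)) (XT.lf (nat_lit 0) (nat_lit 20571175911) (nat_lit 456) (nat_lit 42683783628) (nat_lit 76) (nat_lit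 11419061642) (nat_lit 49) (nat_lit 5) (nat_lit 55) (nat_lit 5) (nat_lit 50) (nat_lit 5) (nat_lit 342) (nat_lit 333) (nat_lit 225))) (XT.nd (nat_lit 78) (nat_lit 456) (nat_lit 0) (XT.lf (nat_lit 0) (nat_lit 29586473866) (nat_lit 456) (nat_lit 4134712905) (nat_lit 76) (nat_lit 44301302192) (nat_lit 49) (nat_lit 5) (nat_lit 55) (nat_lit 5) (nat_lit 50) (nat_lit 5) (nat_lit 343) (nat_lit 333) (nat_lit 224)) (XT.nd (nat_lit 78) (nat_lit 228) (nat_lit 0) (XT.lf (nat_lit 0) (nat_lit 39471469385) (nat_lit 228) (nat_lit 799553768) (nat_lit 304) (nat_lit 41291970401) (nat_lit 46) (nat_lit 5) (nat_lit 49) (nat_lit 5) (nat_lit 50) (nat_lit 5) (nat_lit 344) (nat_lit 333) (nat_lit 223)) (XT.lf (nat_lit 0) (nat_lit 614104088) (nat_lit 228) (nat_lit 52161663728) (nat_lit 304) (nat_lit 32533737652) (nat_lit 43) (nat_lit 5) (nat_lit 46) (nat_lit 5) (nat_lit 47) (nat_lit 5) (nat_lit 345) (nat_lit 333) (nat_lit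 222)))))) (XT.nd (nat_lit 312) (nat_lit 380) (nat_lit 0) (XT.nd (nat_lit 156) (nat_lit 304) (nat_lit 0) (XT.nd (nat_lit 78) (nat_lit 152) (nat_lit 0) (XT.lf (nat_lit 0) (nat_lit 49106741049) (nat_lit 228) (nat_lit 18344103444) (nat_lit 304) (nat_lit 21811299007) (nat_lit 43) (nat_lit 5) (nat_lit 46) (nat_lit 5) (nat_lit 47) (nat_lit 5) (nat_lit 346) (nat_lit 333) (nat_lit 221)) (XT.lf (nat_lit 0) (nat_lit 7904675160) (nat_lit 152) (nat_lit 76021495634) (nat_lit 228) (nat_lit 9554723561) (nat_lit 41) (nat_lit 5) (nat_lit 43) (nat_lit 5) (nat_lit 44) (nat_lit 5) (nat_lit 347) (nat_lit 333) (nat_lit 220))) (XT.nd (nat_lit 78) (nat_lit 228) (nat_lit 0) (XT.lf (nat_lit 0) (nat_lit 5100031676) (nat_lit 228) (nat_lit 36450993495) (nat_lit 76) (nat_lit 56350887388) (nat_lit 40) (nat_lit 5) (nat_lit 43) (nat_lit 5) (nat_lit 41) (nat_lit 5) (nat_lit 348) (nat_lit 333) (nat_lit 219)) (XT.lf (nat_lit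 0) (nat_lit 17216026933) (nat_lit 228) (nat_lit 3608014247) (nat_lit 304) (nat_lit 81799671900) (nat_lit 37) (nat_lit 5) (nat_lit 40) (nat_lit 5) (nat_lit 41) (nat_lit 5) (nat_lit 349) (nat_lit 333) (nat_lit 218)))) (XT.nd (nat_lit 156) (nat_lit 228) (nat_lit 0) (XT.nd (nat_lit 78) (nat_lit 152) (nat_lit 0) (XT.lf (nat_lit 0) (nat_lit 39726318757) (nat_lit 304) (nat_lit 31320063900) (nat_lit 76) (nat_lit 36523248127) (nat_lit 37) (nat_lit 5) (nat_lit 41) (nat_lit 5) (nat_lit 38) (nat_lit 5) (nat_lit 350) (nat_lit 333) (nat_lit 217)) (XT.lf (nat_lit 0) (nat_lit 28421403679) (nat_lit 152) (nat_lit 32495760157) (nat_lit 228) (nat_lit 51931948102) (nat_lit 35) (nat_lit 5) (nat_lit 37) (nat_lit 5) (nat_lit 38) (nat_lit 5) (nat_lit 351) (nat_lit 333) (nat_lit 216))) (XT.nd (nat_lit 78) (nat_lit 228) (nat_lit 0) (XT.lf (nat_lit 0) (nat_lit 84900819157) (nat_lit 228) (nat_lit 24002321137) (nat_lit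 76) (nat_lit 9560008674) (nat_lit 35) (nat_lit 5) (nat_lit 38) (nat_lit 5) (nat_lit 36) (nat_lit 5) (nat_lit 352) (nat_lit 333) (nat_lit 215)) (XT.nd (nat_lit 78) (nat_lit 76) (nat_lit 0) (XT.lf (nat_lit 0) (nat_lit 42539930205) (nat_lit 152) (nat_lit 70129593548) (nat_lit 228) (nat_lit 11707477393) (nat_lit 33) (nat_lit 5) (nat_lit 35) (nat_lit 5) (nat_lit 36) (nat_lit 5) (nat_lit 353) (nat_lit 333) (nat_lit 214)) (XT.lf (nat_lit 0) (nat_lit 11973236318) (nat_lit 228) (nat_lit 15245157193) (nat_lit 76) (nat_lit 103468877359) (nat_lit 32) (nat_lit 5) (nat_lit 35) (nat_lit 5) (nat_lit 33) (nat_lit 5) (nat_lit 354) (nat_lit 333) (nat_lit 213))))))) (XT.nd (nat_lit 702) (nat_lit 608) (nat_lit 0) (XT.nd (nat_lit 312) (nat_lit 304) (nat_lit 0) (XT.nd (nat_lit 156) (nat_lit 228) (nat_lit 0) (XT.nd (nat_lit 78) (nat_lit 0) (nat_lit 0) (XT.lf (nat_lit 0) (nat_lit 38847183414) (nat_lit 228) (nat_lit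 78531615956) (nat_lit 76) (nat_lit 19944733426) (nat_lit 30) (nat_lit 5) (nat_lit 33) (nat_lit 5) (nat_lit 31) (nat_lit 5) (nat_lit 355) (nat_lit 333) (nat_lit 212)) (XT.lf (nat_lit 0) (nat_lit 69004984780) (nat_lit 228) (nat_lit 5557271479) (nat_lit 76) (nat_lit 69837724877) (nat_lit 30) (nat_lit 5) (nat_lit 33) (nat_lit 5) (nat_lit 31) (nat_lit 5) (nat_lit 356) (nat_lit 333) (nat_lit 211))) (XT.nd (nat_lit 78) (nat_lit 76) (nat_lit 0) (XT.lf (nat_lit 0) (nat_lit 77111441064) (nat_lit 152) (nat_lit 26317863134) (nat_lit 228) (nat_lit 48464930131) (nat_lit 28) (nat_lit 5) (nat_lit 30) (nat_lit 5) (nat_lit 31) (nat_lit 5) (nat_lit 357) (nat_lit 333) (nat_lit 210)) (XT.lf (nat_lit 0) (nat_lit 6430374901) (nat_lit 76) (nat_lit 135107269912) (nat_lit 152) (nat_lit 18375977375) (nat_lit 27) (nat_lit 5) (nat_lit 28) (nat_lit 5) (nat_lit 29) (nat_lit 4) (nat_lit 358) (nat_lit 333) (nat_lit 209))))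 (XT.nd (nat_lit 156) (nat_lit 76) (nat_lit 0) (XT.nd (nat_lit 78) (nat_lit 152) (nat_lit 0) (XT.lf (nat_lit 0) (nat_lit 16194514330) (nat_lit 152) (nat_lit 71094732094) (nat_lit 76) (nat_lit 81035686615) (nat_lit 26) (nat_lit 5) (nat_lit 28) (nat_lit 5) (nat_lit 27) (nat_lit 5) (nat_lit 359) (nat_lit 333) (nat_lit 208)) (XT.lf (nat_lit 0) (nat_lit 18323215383) (nat_lit 152) (nat_lit 34654752392) (nat_lit 228) (nat_lit 124357789302) (nat_lit 24) (nat_lit 5) (nat_lit 26) (nat_lit 5) (nat_lit 27) (nat_lit 5) (nat_lit 360) (nat_lit 333) (nat_lit 207))) (XT.nd (nat_lit 78) (nat_lit 76) (nat_lit 0) (XT.lf (nat_lit 0) (nat_lit 95231564957) (nat_lit 228) (nat_lit 68559254878) (nat_lit 76) (nat_lit 23074430147) (nat_lit 24) (nat_lit 5) (nat_lit 27) (nat_lit 5) (nat_lit 25) (nat_lit 4) (nat_lit 361) (nat_lit 333) (nat_lit 206)) (XT.nd (nat_lit 78) (nat_lit 0) (nat_lit 0) (XT.lf (nat_lit 0) (nat_lit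 29715783103) (nat_lit 76) (nat_lit 112763936695) (nat_lit 152) (nat_lit 54548241246) (nat_lit 23) (nat_lit 5) (nat_lit 24) (nat_lit 5) (nat_lit 25) (nat_lit 4) (nat_lit 362) (nat_lit 333) (nat_lit 205)) (XT.lf (nat_lit 0) (nat_lit 139750980123) (nat_lit 76) (nat_lit 55630777100) (nat_lit 152) (nat_lit 12472009644) (nat_lit 23) (nat_lit 5) (nat_lit 24) (nat_lit 5) (nat_lit 25) (nat_lit 4) (nat_lit 363) (nat_lit 333) (nat_lit 204)))))) (XT.nd (nat_lit 312) (nat_lit 304) (nat_lit 0) (XT.nd (nat_lit 156) (nat_lit 76) (nat_lit 0) (XT.nd (nat_lit 78) (nat_lit 0) (nat_lit 0) (XT.lf (nat_lit 0) (nat_lit 32480674710) (nat_lit 228) (nat_lit 179332824960) (nat_lit 76) (nat_lit 7575929721) (nat_lit 20) (nat_lit 5) (nat_lit 23) (nat_lit 5) (nat_lit 21) (nat_lit 4) (nat_lit 364) (nat_lit 333) (nat_lit 203)) (XT.lf (nat_lit 0) (nat_lit 83710663362) (nat_lit 228) (nat_lit 72775274804) (nat_lit 76) (nat_lit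 75067698958) (nat_lit 20) (nat_lit 5) (nat_lit 23) (nat_lit 5) (nat_lit 21) (nat_lit 4) (nat_lit 365) (nat_lit 333) (nat_lit 202))) (XT.nd (nat_lit 78) (nat_lit 0) (nat_lit 0) (XT.lf (nat_lit 0) (nat_lit 44533867701) (nat_lit 76) (nat_lit 95575789671) (nat_lit 152) (nat_lit 104495675815) (nat_lit 19) (nat_lit 5) (nat_lit 20) (nat_lit 5) (nat_lit 21) (nat_lit 4) (nat_lit 366) (nat_lit 333) (nat_lit 201)) (XT.lf (nat_lit 0) (nat_lit 175365779529) (nat_lit 76) (nat_lit 27644176014) (nat_lit 152) (nat_lit 55532058822) (nat_lit 19) (nat_lit 5) (nat_lit 20) (nat_lit 5) (nat_lit 21) (nat_lit 4) (nat_lit 367) (nat_lit 333) (nat_lit 200)))) (XT.nd (nat_lit 156) (nat_lit 152) (nat_lit 0) (XT.nd (nat_lit 78) (nat_lit 76) (nat_lit 0) (XT.lf (nat_lit 0) (nat_lit 44180355959) (nat_lit 76) (nat_lit 228923677940) (nat_lit 76) (nat_lit 316655813) (nat_lit 18) (nat_lit 4) (nat_lit 19) (nat_lit 5) (nat_lit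 19) (nat_lit 4) (nat_lit 368) (nat_lit 333) (nat_lit 199)) (XT.lf (nat_lit 0) (nat_lit 59399645450) (nat_lit 152) (nat_lit 105056321913) (nat_lit 76) (nat_lit 124675496501) (nat_lit 17) (nat_lit 5) (nat_lit 19) (nat_lit 5) (nat_lit 18) (nat_lit 4) (nat_lit 369) (nat_lit 333) (nat_lit 198))) (XT.nd (nat_lit 78) (nat_lit 76) (nat_lit 0) (XT.lf (nat_lit 0) (nat_lit 30583419561) (nat_lit 76) (nat_lit 94027890382) (nat_lit 152) (nat_lit 181428318825) (nat_lit 16) (nat_lit 5) (nat_lit 17) (nat_lit 5) (nat_lit 18) (nat_lit 4) (nat_lit 370) (nat_lit 333) (nat_lit 197)) (XT.nd (nat_lit 78) (nat_lit 76) (nat_lit 0) (XT.lf (nat_lit 0) (nat_lit 183048330510) (nat_lit 76) (nat_lit 14863649170) (nat_lit 152) (nat_lit 126158701552) (nat_lit 16) (nat_lit 5) (nat_lit 17) (nat_lit 5) (nat_lit 18) (nat_lit 4) (nat_lit 371) (nat_lit 333) (nat_lit 196)) (XT.lf (nat_lit 0) (nat_lit 2596746284) (nat_lit 76)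 (nat_lit 276240817017) (nat_lit 76) (nat_lit 64565785891) (nat_lit 15) (nat_lit 4) (nat_lit 16) (nat_lit 5) (nat_lit 16) (nat_lit 4) (nat_lit 372) (nat_lit 333) (nat_lit 195))))))))
noncomputable def xc187 : XT := (XT.nd (nat_lit 1404) (nat_lit 228) (nat_lit 0) (XT.nd (nat_lit 702) (nat_lit 304) (nat_lit 0) (XT.nd (nat_lit 312) (nat_lit 228) (nat_lit 0) (XT.nd (nat_lit 156) (nat_lit 76) (nat_lit 0) (XT.nd (nat_lit 78) (nat_lit 0) (nat_lit 0) (XT.lf (nat_lit 0) (nat_lit 6198475428) (nat_lit 152) (nat_lit 198782584942) (nat_lit 76) (nat_lit 158950474739) (nat_lit 14) (nat_lit 5) (nat_lit 16) (nat_lit 5) (nat_lit 15) (nat_lit 4) (nat_lit 373) (nat_lit 333) (nat_lit 194)) (XT.lf (nat_lit 0) (nat_lit 79135339942) (nat_lit 152) (nat_lit 47074261113) (nat_lit 76) (nat_lit 259758236932) (nat_lit 14) (nat_lit 5) (nat_lit 16) (nat_lit 5) (nat_lit 15) (nat_lit 4) (nat_lit 374) (nat_lit 333) (nat_lit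 193))) (XT.nd (nat_lit 78) (nat_lit 0) (nat_lit 0) (XT.lf (nat_lit 0) (nat_lit 122919100817) (nat_lit 76) (nat_lit 37943974722) (nat_lit 152) (nat_lit 248667495894) (nat_lit 13) (nat_lit 5) (nat_lit 14) (nat_lit 5) (nat_lit 15) (nat_lit 4) (nat_lit 375) (nat_lit 333) (nat_lit 192)) (XT.lf (nat_lit 0) (nat_lit 251829331999) (nat_lit 152) (nat_lit 127100302251) (nat_lit 0) (nat_lit 55832665229) (nat_lit 13) (nat_lit 5) (nat_lit 15) (nat_lit 4) (nat_lit 13) (nat_lit 4) (nat_lit 376) (nat_lit 333) (nat_lit 191)))) (XT.nd (nat_lit 156) (nat_lit 152) (nat_lit 0) (XT.nd (nat_lit 78) (nat_lit 0) (nat_lit 0) (XT.lf (nat_lit 0) (nat_lit 46512440926) (nat_lit 76) (nat_lit 305664369230) (nat_lit 76) (nat_lit 109667441995) (nat_lit 12) (nat_lit 4) (nat_lit 13) (nat_lit 5) (nat_lit 13) (nat_lit 4) (nat_lit 377) (nat_lit 333) (nat_lit 190)) (XT.lf (nat_lit 0) (nat_lit 241242021522) (nat_lit 76) (nat_lit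 222784958269) (nat_lit 76) (nat_lit 26787789863) (nat_lit 12) (nat_lit 4) (nat_lit 13) (nat_lit 5) (nat_lit 13) (nat_lit 4) (nat_lit 378) (nat_lit 333) (nat_lit 189))) (XT.nd (nat_lit 78) (nat_lit 76) (nat_lit 0) (XT.lf (nat_lit 0) (nat_lit 59584372622) (nat_lit 152) (nat_lit 72061896658) (nat_lit 76) (nat_lit 390336000969) (nat_lit 11) (nat_lit 5) (nat_lit 13) (nat_lit 5) (nat_lit 12) (nat_lit 4) (nat_lit 379) (nat_lit 333) (nat_lit 188)) (XT.nd (nat_lit 78) (nat_lit 0) (nat_lit 0) (XT.lf (nat_lit 0) (nat_lit 125217491286) (nat_lit 76) (nat_lit 29212840331) (nat_lit 152) (nat_lit 400916275598) (nat_lit 10) (nat_lit 5) (nat_lit 11) (nat_lit 5) (nat_lit 12) (nat_lit 4) (nat_lit 380) (nat_lit 333) (nat_lit 187)) (XT.lf (nat_lit 0) (nat_lit 260843260813) (nat_lit 152) (nat_lit 250854661205) (nat_lit 0) (nat_lit 79363825694) (nat_lit 10) (nat_lit 5) (nat_lit 12) (nat_lit 4) (nat_lit 10) (nat_lit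 4) (nat_lit 381) (nat_lit 333) (nat_lit 186)))))) (XT.nd (nat_lit 312) (nat_lit 152) (nat_lit 0) (XT.nd (nat_lit 156) (nat_lit 76) (nat_lit 0) (XT.nd (nat_lit 78) (nat_lit 76) (nat_lit 0) (XT.lf (nat_lit 0) (nat_lit 376527793739) (nat_lit 152) (nat_lit 57997425725) (nat_lit 0) (nat_lit 195048194483) (nat_lit 10) (nat_lit 5) (nat_lit 12) (nat_lit 4) (nat_lit 10) (nat_lit 4) (nat_lit 382) (nat_lit 333) (nat_lit 185)) (XT.lf (nat_lit 0) (nat_lit 158201918394) (nat_lit 76) (nat_lit 347069740404) (nat_lit 76) (nat_lit 165589989170) (nat_lit 9) (nat_lit 4) (nat_lit 10) (nat_lit 5) (nat_lit 10) (nat_lit 4) (nat_lit 383) (nat_lit 333) (nat_lit 184))) (XT.nd (nat_lit 78) (nat_lit 76) (nat_lit 0) (XT.lf (nat_lit 0) (nat_lit 394995213545) (nat_lit 76) (nat_lit 250905386887) (nat_lit 76) (nat_lit 69425494931) (nat_lit 9) (nat_lit 4) (nat_lit 10) (nat_lit 5) (nat_lit 10) (nat_lit 4) (nat_lit 384)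 (nat_lit 333) (nat_lit 183)) (XT.lf (nat_lit 0) (nat_lit 32709546998) (nat_lit 152) (nat_lit 113444164496) (nat_lit 76) (nat_lit 617127753617) (nat_lit 8) (nat_lit 5) (nat_lit 10) (nat_lit 5) (nat_lit 9) (nat_lit 4) (nat_lit 385) (nat_lit 333) (nat_lit 182)))) (XT.nd (nat_lit 156) (nat_lit 76) (nat_lit 0) (XT.nd (nat_lit 78) (nat_lit 0) (nat_lit 0) (XT.lf (nat_lit 0) (nat_lit 113887001119) (nat_lit 76) (nat_lit 28116433504) (nat_lit 152) (nat_lit 672706463294) (nat_lit 7) (nat_lit 5) (nat_lit 8) (nat_lit 5) (nat_lit 9) (nat_lit 4) (nat_lit 386) (nat_lit 333) (nat_lit 181)) (XT.lf (nat_lit 0) (nat_lit 265612703632) (nat_lit 152) (nat_lit 506618721271) (nat_lit 0) (nat_lit 97575430847) (nat_lit 7) (nat_lit 5) (nat_lit 9) (nat_lit 4) (nat_lit 7) (nat_lit 4) (nat_lit 387) (nat_lit 333) (nat_lit 180))) (XT.nd (nat_lit 78) (nat_lit 76) (nat_lit 0) (XT.lf (nat_lit 0) (nat_lit 399840861267) (nat_lit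 152) (nat_lit 297608804494) (nat_lit 0) (nat_lit 231803492710) (nat_lit 7) (nat_lit 5) (nat_lit 9) (nat_lit 4) (nat_lit 7) (nat_lit 4) (nat_lit 388) (nat_lit 333) (nat_lit 179)) (XT.nd (nat_lit 78) (nat_lit 76) (nat_lit 0) (XT.lf (nat_lit 0) (nat_lit 544807132745) (nat_lit 152) (nat_lit 71878368283) (nat_lit 0) (nat_lit 376769675509) (nat_lit 7) (nat_lit 5) (nat_lit 9) (nat_lit 4) (nat_lit 7) (nat_lit 4) (nat_lit 389) (nat_lit 333) (nat_lit 178)) (XT.lf (nat_lit 0) (nat_lit 180962738278) (nat_lit 76) (nat_lit 524759997381) (nat_lit 76) (nat_lit 356722458036) (nat_lit 6) (nat_lit 4) (nat_lit 7) (nat_lit 5) (nat_lit 7) (nat_lit 4) (nat_lit 390) (nat_lit 333) (nat_lit 177))))))) (XT.nd (nat_lit 702) (nat_lit 76) (nat_lit 0) (XT.nd (nat_lit 312) (nat_lit 0) (nat_lit 0) (XT.nd (nat_lit 156) (nat_lit 152) (nat_lit 0) (XT.nd (nat_lit 78) (nat_lit 0) (nat_lit 0) (XT.lf (nat_lit 0) (nat_lit 458118672662)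 (nat_lit 76) (nat_lit 423358071198) (nat_lit 76) (nat_lit 255320455826) (nat_lit 6) (nat_lit 4) (nat_lit 7) (nat_lit 5) (nat_lit 7) (nat_lit 4) (nat_lit 391) (nat_lit 333) (nat_lit 176)) (XT.lf (nat_lit 0) (nat_lit 757446852910) (nat_lit 76) (nat_lit 313844104144) (nat_lit 76) (nat_lit 145806418376) (nat_lit 6) (nat_lit 4) (nat_lit 7) (nat_lit 5) (nat_lit 7) (nat_lit 4) (nat_lit 392) (nat_lit 333) (nat_lit 175))) (XT.nd (nat_lit 78) (nat_lit 152) (nat_lit 0) (XT.lf (nat_lit 0) (nat_lit 1080721075646) (nat_lit 76) (nat_lit 195569124562) (nat_lit 76) (nat_lit 27531373612) (nat_lit 6) (nat_lit 4) (nat_lit 7) (nat_lit 5) (nat_lit 7) (nat_lit 4) (nat_lit 393) (nat_lit 333) (nat_lit 174)) (XT.lf (nat_lit 0) (nat_lit 31541195988) (nat_lit 76) (nat_lit 64410249824) (nat_lit 152) (nat_lit 1301278789195) (nat_lit 4) (nat_lit 5) (nat_lit 5) (nat_lit 5) (nat_lit 6) (nat_lit 4) (nat_lit 394) (nat_lit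 333) (nat_lit 173)))) (XT.nd (nat_lit 156) (nat_lit 0) (nat_lit 0) (XT.nd (nat_lit 78) (nat_lit 0) (nat_lit 0) (XT.lf (nat_lit 0) (nat_lit 235941439773) (nat_lit 152) (nat_lit 1181112842612) (nat_lit 0) (nat_lit 80350822009) (nat_lit 4) (nat_lit 5) (nat_lit 6) (nat_lit 4) (nat_lit 4) (nat_lit 4) (nat_lit 395) (nat_lit 333) (nat_lit 172)) (XT.lf (nat_lit 0) (nat_lit 388803532965) (nat_lit 152) (nat_lit 983443731114) (nat_lit 0) (nat_lit 233212867292) (nat_lit 4) (nat_lit 5) (nat_lit 6) (nat_lit 4) (nat_lit 4) (nat_lit 4) (nat_lit 396) (nat_lit 333) (nat_lit 171))) (XT.nd (nat_lit 78) (nat_lit 0) (nat_lit 0) (XT.lf (nat_lit 0) (nat_lit 553894506773) (nat_lit 152) (nat_lit 769961263954) (nat_lit 0) (nat_lit 398303796738) (nat_lit 4) (nat_lit 5) (nat_lit 6) (nat_lit 4) (nat_lit 4) (nat_lit 4) (nat_lit 397) (nat_lit 333) (nat_lit 170)) (XT.nd (nat_lit 78) (nat_lit 0) (nat_lit 0) (XT.lf (nat_lit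 0) (nat_lit 732192678077) (nat_lit 152) (nat_lit 539400359847) (nat_lit 0) (nat_lit 576601926968) (nat_lit 4) (nat_lit 5) (nat_lit 6) (nat_lit 4) (nat_lit 4) (nat_lit 4) (nat_lit 398) (nat_lit 333) (nat_lit 169)) (XT.lf (nat_lit 0) (nat_lit 924754628635) (nat_lit 152) (nat_lit 290394731953) (nat_lit 0) (nat_lit 769163839493) (nat_lit 4) (nat_lit 5) (nat_lit 6) (nat_lit 4) (nat_lit 4) (nat_lit 4) (nat_lit 399) (nat_lit 333) (nat_lit 168)))))) (XT.nd (nat_lit 312) (nat_lit 0) (nat_lit 0) (XT.nd (nat_lit 156) (nat_lit 0) (nat_lit 0) (XT.nd (nat_lit 78) (nat_lit 76) (nat_lit 0) (XT.lf (nat_lit 0) (nat_lit 1132721466301) (nat_lit 152) (nat_lit 21468791366) (nat_lit 0) (nat_lit 977130641944) (nat_lit 4) (nat_lit 5) (nat_lit 6) (nat_lit 4) (nat_lit 4) (nat_lit 4) (nat_lit 400) (nat_lit 333) (nat_lit 167)) (XT.lf (nat_lit 0) (nat_lit 283134638433) (nat_lit 76) (nat_lit 1081000343581) (nat_lit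 76) (nat_lit 925409486616) (nat_lit 3) (nat_lit 4) (nat_lit 4) (nat_lit 5) (nat_lit 4) (nat_lit 4) (nat_lit 401) (nat_lit 333) (nat_lit 166))) (XT.nd (nat_lit 78) (nat_lit 0) (nat_lit 0) (XT.lf (nat_lit 0) (nat_lit 613327167679) (nat_lit 76) (nat_lit 1001321344020) (nat_lit 76) (nat_lit 845730456864) (nat_lit 3) (nat_lit 4) (nat_lit 4) (nat_lit 5) (nat_lit 4) (nat_lit 4) (nat_lit 402) (nat_lit 333) (nat_lit 165)) (XT.lf (nat_lit 0) (nat_lit 969934984333) (nat_lit 76) (nat_lit 915268081938) (nat_lit 76) (nat_lit 759677166827) (nat_lit 3) (nat_lit 4) (nat_lit 4) (nat_lit 5) (nat_lit 4) (nat_lit 4) (nat_lit 403) (nat_lit 333) (nat_lit 164)))) (XT.nd (nat_lit 156) (nat_lit 0) (nat_lit 0) (XT.nd (nat_lit 78) (nat_lit 0) (nat_lit 0) (XT.lf (nat_lit 0) (nat_lit 1355071319900) (nat_lit 76) (nat_lit 822330612079) (nat_lit 76) (nat_lit 666739671083) (nat_lit 3) (nat_lit 4) (nat_lit 4) (nat_lit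 5) (nat_lit 4) (nat_lit 4) (nat_lit 404) (nat_lit 333) (nat_lit 163)) (XT.lf (nat_lit 0) (nat_lit 1771018463777) (nat_lit 76) (nat_lit 721958193879) (nat_lit 76) (nat_lit 566367228917) (nat_lit 3) (nat_lit 4) (nat_lit 4) (nat_lit 5) (nat_lit 4) (nat_lit 4) (nat_lit 405) (nat_lit 333) (nat_lit 162))) (XT.nd (nat_lit 78) (nat_lit 0) (nat_lit 0) (XT.lf (nat_lit 0) (nat_lit 2220241287928) (nat_lit 76) (nat_lit 613556027825) (nat_lit 76) (nat_lit 457965040671) (nat_lit 3) (nat_lit 4) (nat_lit 4) (nat_lit 5) (nat_lit 4) (nat_lit 4) (nat_lit 406) (nat_lit 333) (nat_lit 161)) (XT.nd (nat_lit 78) (nat_lit 0) (nat_lit 0) (XT.lf (nat_lit 0) (nat_lit 2705401853532) (nat_lit 76) (nat_lit 496481730708) (nat_lit 76) (nat_lit 340890723007) (nat_lit 3) (nat_lit 4) (nat_lit 4) (nat_lit 5) (nat_lit 4) (nat_lit 4) (nat_lit 407) (nat_lit 333) (nat_lit 160)) (XT.lf (nat_lit 0) (nat_lit 3229375186164) (nat_lit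 76) (nat_lit 370041528918) (nat_lit 76) (nat_lit 214450502191) (nat_lit 3) (nat_lit 4) (nat_lit 4) (nat_lit 5) (nat_lit 4) (nat_lit 4) (nat_lit 408) (nat_lit 333) (nat_lit 159))))))))
noncomputable def xc188 : XT := (XT.nd (nat_lit 42198) (nat_lit 0) (nat_lit 1444) (XT.nd (nat_lit 41496) (nat_lit 0) (nat_lit 3040) (XT.nd (nat_lit 41106) (nat_lit 0) (nat_lit 4332) (XT.nd (nat_lit 156) (nat_lit 76) (nat_lit 0) (XT.nd (nat_lit 78) (nat_lit 76) (nat_lit 0) (XT.lf (nat_lit 0) (nat_lit 3795266312980) (nat_lit 76) (nat_lit 233486147184) (nat_lit 76) (nat_lit 77895102841) (nat_lit 3) (nat_lit 4) (nat_lit 4) (nat_lit 5) (nat_lit 4) (nat_lit 4) (nat_lit 409) (nat_lit 333) (nat_lit 158)) (XT.lf (nat_lit 0) (nat_lit 66103784100) (nat_lit 152) (nat_lit 18095189726) (nat_lit 76) (nat_lit 4338517484176) (nat_lit 2) (nat_lit 5) (nat_lit 4) (nat_lit 5) (nat_lit 3) (nat_lit 4) (nat_lit 410) (nat_lit 333)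 (nat_lit 157))) (XT.nd (nat_lit 40872) (nat_lit 0) (nat_lit 4332) (XT.lf (nat_lit 0) (nat_lit 227024030873) (nat_lit 152) (nat_lit 4453157969177) (nat_lit 0) (nat_lit 82958219985) (nat_lit 1) (nat_lit 5) (nat_lit 3) (nat_lit 4) (nat_lit 1) (nat_lit 4) (nat_lit 411) (nat_lit 333) (nat_lit 156)) (XT.lf (nat_lit 0) (nat_lit 22549372491) (nat_lit 532) (nat_lit 2664853066) (nat_lit 532) (nat_lit 2664853066) (nat_lit 58) (nat_lit 3) (nat_lit 65) (nat_lit 3) (nat_lit 65) (nat_lit 5) (nat_lit 334) (nat_lit 334) (nat_lit 232)))) (XT.nd (nat_lit 156) (nat_lit 0) (nat_lit 76) (XT.nd (nat_lit 78) (nat_lit 0) (nat_lit 76) (XT.lf (nat_lit 76) (nat_lit 22450156014) (nat_lit 0) (nat_lit 25012044410) (nat_lit 532) (nat_lit 10481493306) (nat_lit 59) (nat_lit 5) (nat_lit 58) (nat_lit 3) (nat_lit 65) (nat_lit 5) (nat_lit 335) (nat_lit 334) (nat_lit 231)) (XT.lf (nat_lit 0) (nat_lit 50220902375) (nat_lit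 456) (nat_lit 7600611906) (nat_lit 532) (nat_lit 2466068182) (nat_lit 59) (nat_lit 5) (nat_lit 65) (nat_lit 5) (nat_lit 66) (nat_lit 5) (nat_lit 336) (nat_lit 334) (nat_lit 230))) (XT.nd (nat_lit 78) (nat_lit 0) (nat_lit 0) (XT.lf (nat_lit 76) (nat_lit 23024670116) (nat_lit 0) (nat_lit 31377218555) (nat_lit 532) (nat_lit 8320969286) (nat_lit 60) (nat_lit 5) (nat_lit 59) (nat_lit 5) (nat_lit 66) (nat_lit 5) (nat_lit 337) (nat_lit 334) (nat_lit 229)) (XT.nd (nat_lit 78) (nat_lit 0) (nat_lit 76) (XT.lf (nat_lit 76) (nat_lit 56531057045) (nat_lit 0) (nat_lit 2592398442) (nat_lit 532) (nat_lit 6213014395) (nat_lit 60) (nat_lit 5) (nat_lit 59) (nat_lit 5) (nat_lit 66) (nat_lit 5) (nat_lit 338) (nat_lit 334) (nat_lit 228)) (XT.lf (nat_lit 76) (nat_lit 25129318344) (nat_lit 0) (nat_lit 40381526763) (nat_lit 532) (nat_lit 2545280185) (nat_lit 61) (nat_lit 5) (nat_lit 60) (nat_lit 5) (nat_lit 67)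 (nat_lit 5) (nat_lit 339) (nat_lit 334) (nat_lit 227)))))) (XT.nd (nat_lit 312) (nat_lit 608) (nat_lit 0) (XT.nd (nat_lit 156) (nat_lit 304) (nat_lit 0) (XT.nd (nat_lit 78) (nat_lit 0) (nat_lit 76) (XT.lf (nat_lit 0) (nat_lit 1657862601) (nat_lit 532) (nat_lit 8803410262) (nat_lit 608) (nat_lit 60504332730) (nat_lit 53) (nat_lit 5) (nat_lit 60) (nat_lit 5) (nat_lit 61) (nat_lit 5) (nat_lit 340) (nat_lit 334) (nat_lit 226)) (XT.lf (nat_lit 0) (nat_lit 7312430339) (nat_lit 532) (nat_lit 45135598807) (nat_lit 76) (nat_lit 21554313345) (nat_lit 54) (nat_lit 5) (nat_lit 61) (nat_lit 5) (nat_lit 55) (nat_lit 5) (nat_lit 341) (nat_lit 334) (nat_lit 225))) (XT.nd (nat_lit 78) (nat_lit 380) (nat_lit 0) (XT.lf (nat_lit 0) (nat_lit 13936705675) (nat_lit 532) (nat_lit 7490833481) (nat_lit 76) (nat_lit 55813093525) (nat_lit 54) (nat_lit 5) (nat_lit 61) (nat_lit 5) (nat_lit 55) (nat_lit 5) (nat_lit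 342) (nat_lit 334) (nat_lit 224)) (XT.lf (nat_lit 0) (nat_lit 22241496824) (nat_lit 456) (nat_lit 46072404900) (nat_lit 76) (nat_lit 12332040047) (nat_lit 49) (nat_lit 5) (nat_lit 55) (nat_lit 5) (nat_lit 50) (nat_lit 5) (nat_lit 343) (nat_lit 334) (nat_lit 223)))) (XT.nd (nat_lit 156) (nat_lit 380) (nat_lit 0) (XT.nd (nat_lit 78) (nat_lit 228) (nat_lit 0) (XT.lf (nat_lit 0) (nat_lit 31976194405) (nat_lit 456) (nat_lit 4441340476) (nat_lit 76) (nat_lit 47844900324) (nat_lit 49) (nat_lit 5) (nat_lit 55) (nat_lit 5) (nat_lit 50) (nat_lit 5) (nat_lit 344) (nat_lit 334) (nat_lit 222)) (XT.lf (nat_lit 0) (nat_lit 42652725019) (nat_lit 228) (nat_lit 861659624) (nat_lit 304) (nat_lit 44571887484) (nat_lit 46) (nat_lit 5) (nat_lit 49) (nat_lit 5) (nat_lit 50) (nat_lit 5) (nat_lit 345) (nat_lit 334) (nat_lit 221))) (XT.nd (nat_lit 78) (nat_lit 152) (nat_lit 0) (XT.lf (nat_lit 0) (nat_lit 687847364)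 (nat_lit 228) (nat_lit 56330688990) (nat_lit 304) (nat_lit 35114048407) (nat_lit 43) (nat_lit 5) (nat_lit 46) (nat_lit 5) (nat_lit 47) (nat_lit 5) (nat_lit 346) (nat_lit 334) (nat_lit 220)) (XT.nd (nat_lit 78) (nat_lit 152) (nat_lit 0) (XT.lf (nat_lit 0) (nat_lit 53058071952) (nat_lit 228) (nat_lit 19808013353) (nat_lit 304) (nat_lit 23535473060) (nat_lit 43) (nat_lit 5) (nat_lit 46) (nat_lit 5) (nat_lit 47) (nat_lit 5) (nat_lit 347) (nat_lit 334) (nat_lit 219)) (XT.lf (nat_lit 0) (nat_lit 8560696178) (nat_lit 152) (nat_lit 82097970579) (nat_lit 228) (nat_lit 10299205894) (nat_lit 41) (nat_lit 5) (nat_lit 43) (nat_lit 5) (nat_lit 44) (nat_lit 5) (nat_lit 348) (nat_lit 334) (nat_lit 218))))))) (XT.nd (nat_lit 702) (nat_lit 760) (nat_lit 0) (XT.nd (nat_lit 312) (nat_lit 380) (nat_lit 0) (XT.nd (nat_lit 156) (nat_lit 152) (nat_lit 0) (XT.nd (nat_lit 78) (nat_lit 228) (nat_lit 0) (XT.lf (nat_lit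 0) (nat_lit 5525534484) (nat_lit 228) (nat_lit 39344238003) (nat_lit 76) (nat_lit 60862874991) (nat_lit 40) (nat_lit 5) (nat_lit 43) (nat_lit 5) (nat_lit 41) (nat_lit 5) (nat_lit 349) (nat_lit 334) (nat_lit 217)) (XT.lf (nat_lit 0) (nat_lit 18615565959) (nat_lit 228) (nat_lit 3891137751) (nat_lit 304) (nat_lit 88325550553) (nat_lit 37) (nat_lit 5) (nat_lit 40) (nat_lit 5) (nat_lit 41) (nat_lit 5) (nat_lit 350) (nat_lit 334) (nat_lit 216))) (XT.nd (nat_lit 78) (nat_lit 152) (nat_lit 0) (XT.lf (nat_lit 0) (nat_lit 42920046420) (nat_lit 304) (nat_lit 33803928238) (nat_lit 76) (nat_lit 39449961330) (nat_lit 37) (nat_lit 5) (nat_lit 41) (nat_lit 5) (nat_lit 38) (nat_lit 5) (nat_lit 351) (nat_lit 334) (nat_lit 215)) (XT.lf (nat_lit 0) (nat_lit 30716306349) (nat_lit 152) (nat_lit 35089205189) (nat_lit 228) (nat_lit 56070317049) (nat_lit 35) (nat_lit 5) (nat_lit 37) (nat_lit 5) (nat_lit 38) (nat_lit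 5) (nat_lit 352) (nat_lit 334) (nat_lit 214)))) (XT.nd (nat_lit 156) (nat_lit 228) (nat_lit 0) (XT.nd (nat_lit 78) (nat_lit 152) (nat_lit 0) (XT.lf (nat_lit 0) (nat_lit 91706888470) (nat_lit 228) (nat_lit 25901902021) (nat_lit 76) (nat_lit 10330276814) (nat_lit 35) (nat_lit 5) (nat_lit 38) (nat_lit 5) (nat_lit 36) (nat_lit 5) (nat_lit 353) (nat_lit 334) (nat_lit 213)) (XT.lf (nat_lit 0) (nat_lit 45963207788) (nat_lit 152) (nat_lit 75733327330) (nat_lit 228) (nat_lit 12629537869) (nat_lit 33) (nat_lit 5) (nat_lit 35) (nat_lit 5) (nat_lit 36) (nat_lit 5) (nat_lit 354) (nat_lit 334) (nat_lit 212))) (XT.nd (nat_lit 78) (nat_lit 152) (nat_lit 0) (XT.lf (nat_lit 0) (nat_lit 12943882704) (nat_lit 228) (nat_lit 16445490338) (nat_lit 76) (nat_lit 111751845959) (nat_lit 32) (nat_lit 5) (nat_lit 35) (nat_lit 5) (nat_lit 33) (nat_lit 5) (nat_lit 355) (nat_lit 334) (nat_lit 211)) (XT.nd (nat_lit 78)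 (nat_lit 0) (nat_lit 0) (XT.lf (nat_lit 0) (nat_lit 41967406585) (nat_lit 228) (nat_lit 84794517059) (nat_lit 76) (nat_lit 21546486137) (nat_lit 30) (nat_lit 5) (nat_lit 33) (nat_lit 5) (nat_lit 31) (nat_lit 5) (nat_lit 356) (nat_lit 334) (nat_lit 210)) (XT.lf (nat_lit 0) (nat_lit 74536909949) (nat_lit 228) (nat_lit 5983678963) (nat_lit 76) (nat_lit 75430459568) (nat_lit 30) (nat_lit 5) (nat_lit 33) (nat_lit 5) (nat_lit 31) (nat_lit 5) (nat_lit 357) (nat_lit 334) (nat_lit 209)))))) (XT.nd (nat_lit 312) (nat_lit 304) (nat_lit 0) (XT.nd (nat_lit 156) (nat_lit 228) (nat_lit 0) (XT.nd (nat_lit 78) (nat_lit 76) (nat_lit 0) (XT.lf (nat_lit 0) (nat_lit 83298070476) (nat_lit 152) (nat_lit 28416676663) (nat_lit 228) (nat_lit 52330129681) (nat_lit 28) (nat_lit 5) (nat_lit 30) (nat_lit 5) (nat_lit 31) (nat_lit 5) (nat_lit 358) (nat_lit 334) (nat_lit 208)) (XT.lf (nat_lit 0) (nat_lit 6962789051)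 (nat_lit 76) (nat_lit 145908723671) (nat_lit 152) (nat_lit 19834322988) (nat_lit 27) (nat_lit 5) (nat_lit 28) (nat_lit 5) (nat_lit 29) (nat_lit 4) (nat_lit 359) (nat_lit 334) (nat_lit 207))) (XT.nd (nat_lit 78) (nat_lit 152) (nat_lit 0) (XT.lf (nat_lit 0) (nat_lit 17500395537) (nat_lit 152) (nat_lit 76765108585) (nat_lit 76) (nat_lit 87524591313) (nat_lit 26) (nat_lit 5) (nat_lit 28) (nat_lit 5) (nat_lit 27) (nat_lit 5) (nat_lit 360) (nat_lit 334) (nat_lit 206)) (XT.lf (nat_lit 0) (nat_lit 19805839195) (nat_lit 152) (nat_lit 37420324852) (nat_lit 228) (nat_lit 134295650739) (nat_lit 24) (nat_lit 5) (nat_lit 26) (nat_lit 5) (nat_lit 27) (nat_lit 5) (nat_lit 361) (nat_lit 334) (nat_lit 205)))) (XT.nd (nat_lit 156) (nat_lit 228) (nat_lit 0) (XT.nd (nat_lit 78) (nat_lit 76) (nat_lit 0) (XT.lf (nat_lit 0) (nat_lit 102859462908) (nat_lit 228) (nat_lit 74027878868) (nat_lit 76) (nat_lit 24926372690)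 (nat_lit 24) (nat_lit 5) (nat_lit 27) (nat_lit 5) (nat_lit 25) (nat_lit 4) (nat_lit 362) (nat_lit 334) (nat_lit 204)) (XT.lf (nat_lit 0) (nat_lit 32108754142) (nat_lit 76) (nat_lit 121778399504) (nat_lit 152) (nat_lit 58902314508) (nat_lit 23) (nat_lit 5) (nat_lit 24) (nat_lit 5) (nat_lit 25) (nat_lit 4) (nat_lit 363) (nat_lit 334) (nat_lit 203))) (XT.nd (nat_lit 78) (nat_lit 228) (nat_lit 0) (XT.lf (nat_lit 0) (nat_lit 150945603339) (nat_lit 76) (nat_lit 60075079891) (nat_lit 152) (nat_lit 13460709270) (nat_lit 23) (nat_lit 5) (nat_lit 24) (nat_lit 5) (nat_lit 25) (nat_lit 4) (nat_lit 364) (nat_lit 334) (nat_lit 202)) (XT.nd (nat_lit 78) (nat_lit 0) (nat_lit 0) (XT.lf (nat_lit 0) (nat_lit 35087602152) (nat_lit 228) (nat_lit 193664309764) (nat_lit 76) (nat_lit 8187989764) (nat_lit 20) (nat_lit 5) (nat_lit 23) (nat_lit 5) (nat_lit 21) (nat_lit 4) (nat_lit 365) (nat_lit 334) (nat_lit 201))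 (XT.lf (nat_lit 0) (nat_lit 90415362232) (nat_lit 228) (nat_lit 78583277165) (nat_lit 76) (nat_lit 81078657157) (nat_lit 20) (nat_lit 5) (nat_lit 23) (nat_lit 5) (nat_lit 21) (nat_lit 4) (nat_lit 366) (nat_lit 334) (nat_lit 200))))))))
noncomputable def xc189 : XT := (XT.nd (nat_lit 1404) (nat_lit 456) (nat_lit 0) (XT.nd (nat_lit 702) (nat_lit 380) (nat_lit 0) (XT.nd (nat_lit 312) (nat_lit 228) (nat_lit 0) (XT.nd (nat_lit 156) (nat_lit 152) (nat_lit 0) (XT.nd (nat_lit 78) (nat_lit 0) (nat_lit 0) (XT.lf (nat_lit 0) (nat_lit 48110241813) (nat_lit 76) (nat_lit 103215781416) (nat_lit 152) (nat_lit 112847125565) (nat_lit 19) (nat_lit 5) (nat_lit 20) (nat_lit 5) (nat_lit 21) (nat_lit 4) (nat_lit 367) (nat_lit 334) (nat_lit 199)) (XT.lf (nat_lit 0) (nat_lit 189407694387) (nat_lit 76) (nat_lit 29850088401) (nat_lit 152) (nat_lit 59967026938) (nat_lit 19) (nat_lit 5) (nat_lit 20) (nat_lit 5) (nat_lit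 21) (nat_lit 4) (nat_lit 368) (nat_lit 334) (nat_lit 198))) (XT.nd (nat_lit 78) (nat_lit 76) (nat_lit 0) (XT.lf (nat_lit 0) (nat_lit 47727536299) (nat_lit 76) (nat_lit 247231762183) (nat_lit 76) (nat_lit 334487981) (nat_lit 18) (nat_lit 4) (nat_lit 19) (nat_lit 5) (nat_lit 19) (nat_lit 4) (nat_lit 369) (nat_lit 334) (nat_lit 197)) (XT.lf (nat_lit 0) (nat_lit 64158214403) (nat_lit 152) (nat_lit 113448670345) (nat_lit 76) (nat_lit 134654565803) (nat_lit 17) (nat_lit 5) (nat_lit 19) (nat_lit 5) (nat_lit 18) (nat_lit 4) (nat_lit 370) (nat_lit 334) (nat_lit 196)))) (XT.nd (nat_lit 156) (nat_lit 152) (nat_lit 0) (XT.nd (nat_lit 78) (nat_lit 0) (nat_lit 0) (XT.lf (nat_lit 0) (nat_lit 33041942667) (nat_lit 76) (nat_lit 101544665680) (nat_lit 152) (nat_lit 195935676791) (nat_lit 16) (nat_lit 5) (nat_lit 17) (nat_lit 5) (nat_lit 18) (nat_lit 4) (nat_lit 371) (nat_lit 334) (nat_lit 195)) (XT.lf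 (nat_lit 0) (nat_lit 197703168748) (nat_lit 76) (nat_lit 16047689314) (nat_lit 152) (nat_lit 136245001806) (nat_lit 16) (nat_lit 5) (nat_lit 17) (nat_lit 5) (nat_lit 18) (nat_lit 4) (nat_lit 372) (nat_lit 334) (nat_lit 194))) (XT.nd (nat_lit 78) (nat_lit 76) (nat_lit 0) (XT.lf (nat_lit 0) (nat_lit 2815525412) (nat_lit 76) (nat_lit 298334902436) (nat_lit 76) (nat_lit 69724718427) (nat_lit 15) (nat_lit 4) (nat_lit 16) (nat_lit 5) (nat_lit 16) (nat_lit 4) (nat_lit 373) (nat_lit 334) (nat_lit 193)) (XT.nd (nat_lit 78) (nat_lit 0) (nat_lit 0) (XT.lf (nat_lit 0) (nat_lit 6699921673) (nat_lit 152) (nat_lit 214674675040) (nat_lit 76) (nat_lit 171671013954) (nat_lit 14) (nat_lit 5) (nat_lit 16) (nat_lit 5) (nat_lit 15) (nat_lit 4) (nat_lit 374) (nat_lit 334) (nat_lit 192)) (XT.lf (nat_lit 0) (nat_lit 85471322888) (nat_lit 152) (nat_lit 50830464319) (nat_lit 76) (nat_lit 280543063697) (nat_lit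 14) (nat_lit 5) (nat_lit 16) (nat_lit 5) (nat_lit 15) (nat_lit 4) (nat_lit 375) (nat_lit 334) (nat_lit 191)))))) (XT.nd (nat_lit 312) (nat_lit 228) (nat_lit 0) (XT.nd (nat_lit 156) (nat_lit 76) (nat_lit 0) (XT.nd (nat_lit 78) (nat_lit 0) (nat_lit 0) (XT.lf (nat_lit 0) (nat_lit 132762120042) (nat_lit 76) (nat_lit 40975003645) (nat_lit 152) (nat_lit 268555491753) (nat_lit 13) (nat_lit 5) (nat_lit 14) (nat_lit 5) (nat_lit 15) (nat_lit 4) (nat_lit 376) (nat_lit 334) (nat_lit 190)) (XT.lf (nat_lit 0) (nat_lit 271980410102) (nat_lit 152) (nat_lit 137259266334) (nat_lit 0) (nat_lit 60303227052) (nat_lit 13) (nat_lit 5) (nat_lit 15) (nat_lit 4) (nat_lit 13) (nat_lit 4) (nat_lit 377) (nat_lit 334) (nat_lit 189))) (XT.nd (nat_lit 78) (nat_lit 0) (nat_lit 0) (XT.lf (nat_lit 0) (nat_lit 50242266927) (nat_lit 76) (nat_lit 330113281479) (nat_lit 76) (nat_lit 118435875122) (nat_lit 12) (nat_lit 4) (nat_lit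 13) (nat_lit 5) (nat_lit 13) (nat_lit 4) (nat_lit 378) (nat_lit 334) (nat_lit 188)) (XT.lf (nat_lit 0) (nat_lit 260549559843) (nat_lit 76) (nat_lit 240603831514) (nat_lit 76) (nat_lit 28926218392) (nat_lit 12) (nat_lit 4) (nat_lit 13) (nat_lit 5) (nat_lit 13) (nat_lit 4) (nat_lit 379) (nat_lit 334) (nat_lit 187)))) (XT.nd (nat_lit 156) (nat_lit 76) (nat_lit 0) (XT.nd (nat_lit 78) (nat_lit 76) (nat_lit 0) (XT.lf (nat_lit 0) (nat_lit 64355163928) (nat_lit 152) (nat_lit 77819063600) (nat_lit 76) (nat_lit 421566299974) (nat_lit 11) (nat_lit 5) (nat_lit 13) (nat_lit 5) (nat_lit 12) (nat_lit 4) (nat_lit 380) (nat_lit 334) (nat_lit 186)) (XT.lf (nat_lit 0) (nat_lit 135242478296) (nat_lit 76) (nat_lit 31546204461) (nat_lit 152) (nat_lit 432985338096) (nat_lit 10) (nat_lit 5) (nat_lit 11) (nat_lit 5) (nat_lit 12) (nat_lit 4) (nat_lit 381) (nat_lit 334) (nat_lit 185))) (XT.nd (nat_lit 78) (nat_lit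 76) (nat_lit 0) (XT.lf (nat_lit 0) (nat_lit 281714437149) (nat_lit 152) (nat_lit 270915798408) (nat_lit 0) (nat_lit 85716153836) (nat_lit 10) (nat_lit 5) (nat_lit 12) (nat_lit 4) (nat_lit 10) (nat_lit 4) (nat_lit 382) (nat_lit 334) (nat_lit 184)) (XT.nd (nat_lit 78) (nat_lit 76) (nat_lit 0) (XT.lf (nat_lit 0) (nat_lit 406653457489) (nat_lit 152) (nat_lit 62630520067) (nat_lit 0) (nat_lit 210655033455) (nat_lit 10) (nat_lit 5) (nat_lit 12) (nat_lit 4) (nat_lit 10) (nat_lit 4) (nat_lit 383) (nat_lit 334) (nat_lit 183)) (XT.lf (nat_lit 0) (nat_lit 170864601968) (nat_lit 76) (nat_lit 374832132000) (nat_lit 76) (nat_lit 178833577669) (nat_lit 9) (nat_lit 4) (nat_lit 10) (nat_lit 5) (nat_lit 10) (nat_lit 4) (nat_lit 384) (nat_lit 334) (nat_lit 182))))))) (XT.nd (nat_lit 702) (nat_lit 228) (nat_lit 0) (XT.nd (nat_lit 312) (nat_lit 76) (nat_lit 0) (XT.nd (nat_lit 156) (nat_lit 76) (nat_lit 0)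 (XT.nd (nat_lit 78) (nat_lit 76) (nat_lit 0) (XT.lf (nat_lit 0) (nat_lit 426600877020) (nat_lit 76) (nat_lit 270974866323) (nat_lit 76) (nat_lit 74976191346) (nat_lit 9) (nat_lit 4) (nat_lit 10) (nat_lit 5) (nat_lit 10) (nat_lit 4) (nat_lit 385) (nat_lit 334) (nat_lit 181)) (XT.lf (nat_lit 0) (nat_lit 35329251443) (nat_lit 152) (nat_lit 122513943683) (nat_lit 76) (nat_lit 666500551328) (nat_lit 8) (nat_lit 5) (nat_lit 10) (nat_lit 5) (nat_lit 9) (nat_lit 4) (nat_lit 386) (nat_lit 334) (nat_lit 180))) (XT.nd (nat_lit 78) (nat_lit 0) (nat_lit 0) (XT.lf (nat_lit 0) (nat_lit 123003569511) (nat_lit 76) (nat_lit 30362997618) (nat_lit 152) (nat_lit 726519893437) (nat_lit 7) (nat_lit 5) (nat_lit 8) (nat_lit 5) (nat_lit 9) (nat_lit 4) (nat_lit 387) (nat_lit 334) (nat_lit 179)) (XT.lf (nat_lit 0) (nat_lit 286864427227) (nat_lit 152) (nat_lit 547142875142) (nat_lit 0) (nat_lit 105383884734) (nat_lit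 7) (nat_lit 5) (nat_lit 9) (nat_lit 4) (nat_lit 7) (nat_lit 4) (nat_lit 388) (nat_lit 334) (nat_lit 178)))) (XT.nd (nat_lit 156) (nat_lit 76) (nat_lit 0) (XT.nd (nat_lit 78) (nat_lit 0) (nat_lit 0) (XT.lf (nat_lit 0) (nat_lit 431830636931) (nat_lit 152) (nat_lit 321412560863) (nat_lit 0) (nat_lit 250350012329) (nat_lit 7) (nat_lit 5) (nat_lit 9) (nat_lit 4) (nat_lit 7) (nat_lit 4) (nat_lit 389) (nat_lit 334) (nat_lit 177)) (XT.lf (nat_lit 0) (nat_lit 588394024441) (nat_lit 152) (nat_lit 77624056272) (nat_lit 0) (nat_lit 406913323811) (nat_lit 7) (nat_lit 5) (nat_lit 9) (nat_lit 4) (nat_lit 7) (nat_lit 4) (nat_lit 390) (nat_lit 334) (nat_lit 176))) (XT.nd (nat_lit 78) (nat_lit 0) (nat_lit 0) (XT.lf (nat_lit 0) (nat_lit 195444222827) (nat_lit 76) (nat_lit 566738588225) (nat_lit 76) (nat_lit 385257817200) (nat_lit 6) (nat_lit 4) (nat_lit 7) (nat_lit 5) (nat_lit 7) (nat_lit 4) (nat_lit 391)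 (nat_lit 334) (nat_lit 175)) (XT.nd (nat_lit 78) (nat_lit 0) (nat_lit 0) (XT.lf (nat_lit 0) (nat_lit 494772301185) (nat_lit 76) (nat_lit 457224671573) (nat_lit 76) (nat_lit 275743835367) (nat_lit 6) (nat_lit 4) (nat_lit 7) (nat_lit 5) (nat_lit 7) (nat_lit 4) (nat_lit 392) (nat_lit 334) (nat_lit 174)) (XT.lf (nat_lit 0) (nat_lit 818046429578) (nat_lit 76) (nat_lit 338949738660) (nat_lit 76) (nat_lit 157468842100) (nat_lit 6) (nat_lit 4) (nat_lit 7) (nat_lit 5) (nat_lit 7) (nat_lit 4) (nat_lit 393) (nat_lit 334) (nat_lit 173)))))) (XT.nd (nat_lit 312) (nat_lit 76) (nat_lit 0) (XT.nd (nat_lit 156) (nat_lit 0) (nat_lit 0) (XT.nd (nat_lit 78) (nat_lit 152) (nat_lit 0) (XT.lf (nat_lit 0) (nat_lit 1167182306545) (nat_lit 76) (nat_lit 211212900994) (nat_lit 76) (nat_lit 29731948552) (nat_lit 6) (nat_lit 4) (nat_lit 7) (nat_lit 5) (nat_lit 7) (nat_lit 4) (nat_lit 394) (nat_lit 334) (nat_lit 172))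 (XT.lf (nat_lit 0) (nat_lit 34068041412) (nat_lit 76) (nat_lit 69561307432) (nat_lit 152) (nat_lit 1405379161691) (nat_lit 4) (nat_lit 5) (nat_lit 5) (nat_lit 5) (nat_lit 6) (nat_lit 4) (nat_lit 395) (nat_lit 334) (nat_lit 171))) (XT.nd (nat_lit 78) (nat_lit 0) (nat_lit 0) (XT.lf (nat_lit 0) (nat_lit 254818449170) (nat_lit 152) (nat_lit 1275598489806) (nat_lit 0) (nat_lit 86780437971) (nat_lit 4) (nat_lit 5) (nat_lit 6) (nat_lit 4) (nat_lit 4) (nat_lit 4) (nat_lit 396) (nat_lit 334) (nat_lit 170)) (XT.lf (nat_lit 0) (nat_lit 419909384320) (nat_lit 152) (nat_lit 1062116099774) (nat_lit 0) (nat_lit 251871332046) (nat_lit 4) (nat_lit 5) (nat_lit 6) (nat_lit 4) (nat_lit 4) (nat_lit 4) (nat_lit 397) (nat_lit 334) (nat_lit 169)))) (XT.nd (nat_lit 156) (nat_lit 76) (nat_lit 0) (XT.nd (nat_lit 78) (nat_lit 0) (nat_lit 0) (XT.lf (nat_lit 0) (nat_lit 598207519831) (nat_lit 152) (nat_lit 831555267081)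 (nat_lit 0) (nat_lit 430169429525) (nat_lit 4) (nat_lit 5) (nat_lit 6) (nat_lit 4) (nat_lit 4) (nat_lit 4) (nat_lit 398) (nat_lit 334) (nat_lit 168)) (XT.lf (nat_lit 0) (nat_lit 790769437246) (nat_lit 152) (nat_lit 582549705311) (nat_lit 0) (nat_lit 622731311725) (nat_lit 4) (nat_lit 5) (nat_lit 6) (nat_lit 4) (nat_lit 4) (nat_lit 4) (nat_lit 399) (nat_lit 334) (nat_lit 167))) (XT.nd (nat_lit 78) (nat_lit 76) (nat_lit 0) (XT.lf (nat_lit 0) (nat_lit 998736244225) (nat_lit 152) (nat_lit 313623825950) (nat_lit 0) (nat_lit 830698086097) (nat_lit 4) (nat_lit 5) (nat_lit 6) (nat_lit 4) (nat_lit 4) (nat_lit 4) (nat_lit 400) (nat_lit 334) (nat_lit 166)) (XT.nd (nat_lit 78) (nat_lit 76) (nat_lit 0) (XT.lf (nat_lit 0) (nat_lit 1223340336660) (nat_lit 152) (nat_lit 23183994157) (nat_lit 0) (nat_lit 1055302148340) (nat_lit 4) (nat_lit 5) (nat_lit 6) (nat_lit 4) (nat_lit 4) (nat_lit 4) (nat_lit 401)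 (nat_lit 334) (nat_lit 165)) (XT.lf (nat_lit 0) (nat_lit 305787651785) (nat_lit 76) (nat_lit 1167479250360) (nat_lit 76) (nat_lit 999441034085) (nat_lit 3) (nat_lit 4) (nat_lit 4) (nat_lit 5) (nat_lit 4) (nat_lit 4) (nat_lit 402) (nat_lit 334) (nat_lit 164))))))))
noncomputable def xc190 : XT := (XT.nd (nat_lit 42276) (nat_lit 0) (nat_lit 1824) (XT.nd (nat_lit 41574) (nat_lit 0) (nat_lit 3876) (XT.nd (nat_lit 312) (nat_lit 76) (nat_lit 0) (XT.nd (nat_lit 156) (nat_lit 0) (nat_lit 0) (XT.nd (nat_lit 78) (nat_lit 0) (nat_lit 0) (XT.lf (nat_lit 0) (nat_lit 662395417276) (nat_lit 76) (nat_lit 1081426013850) (nat_lit 76) (nat_lit 913387771691) (nat_lit 3) (nat_lit 4) (nat_lit 4) (nat_lit 5) (nat_lit 4) (nat_lit 4) (nat_lit 403) (nat_lit 334) (nat_lit 163)) (XT.lf (nat_lit 0) (nat_lit 1047531705470) (nat_lit 76) (nat_lit 988488567668) (nat_lit 76) (nat_lit 820450301541) (nat_lit 3) (nat_lit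 4) (nat_lit 4) (nat_lit 5) (nat_lit 4) (nat_lit 4) (nat_lit 404) (nat_lit 334) (nat_lit 162))) (XT.nd (nat_lit 78) (nat_lit 0) (nat_lit 0) (XT.lf (nat_lit 0) (nat_lit 1463478805484) (nat_lit 76) (nat_lit 888116171392) (nat_lit 76) (nat_lit 720077883074) (nat_lit 3) (nat_lit 4) (nat_lit 4) (nat_lit 5) (nat_lit 4) (nat_lit 4) (nat_lit 405) (nat_lit 334) (nat_lit 161)) (XT.lf (nat_lit 0) (nat_lit 1912701589020) (nat_lit 76) (nat_lit 779714025636) (nat_lit 76) (nat_lit 611675716771) (nat_lit 3) (nat_lit 4) (nat_lit 4) (nat_lit 5) (nat_lit 4) (nat_lit 4) (nat_lit 406) (nat_lit 334) (nat_lit 160)))) (XT.nd (nat_lit 156) (nat_lit 76) (nat_lit 0) (XT.nd (nat_lit 78) (nat_lit 0) (nat_lit 0) (XT.lf (nat_lit 0) (nat_lit 2397862117018) (nat_lit 76) (nat_lit 662639747316) (nat_lit 76) (nat_lit 494601419425) (nat_lit 3) (nat_lit 4) (nat_lit 4) (nat_lit 5) (nat_lit 4) (nat_lit 4) (nat_lit 407) (nat_lit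 334) (nat_lit 159)) (XT.lf (nat_lit 0) (nat_lit 2921835414830) (nat_lit 76) (nat_lit 536199562930) (nat_lit 76) (nat_lit 368161217422) (nat_lit 3) (nat_lit 4) (nat_lit 4) (nat_lit 5) (nat_lit 4) (nat_lit 4) (nat_lit 408) (nat_lit 334) (nat_lit 158))) (XT.nd (nat_lit 78) (nat_lit 76) (nat_lit 0) (XT.lf (nat_lit 0) (nat_lit 3487726509404) (nat_lit 76) (nat_lit 399644197310) (nat_lit 76) (nat_lit 231605835491) (nat_lit 3) (nat_lit 4) (nat_lit 4) (nat_lit 5) (nat_lit 4) (nat_lit 4) (nat_lit 409) (nat_lit 334) (nat_lit 157)) (XT.nd (nat_lit 78) (nat_lit 76) (nat_lit 0) (XT.lf (nat_lit 0) (nat_lit 4098888829451) (nat_lit 76) (nat_lit 252164433476) (nat_lit 76) (nat_lit 84126056553) (nat_lit 3) (nat_lit 4) (nat_lit 4) (nat_lit 5) (nat_lit 4) (nat_lit 4) (nat_lit 410) (nat_lit 334) (nat_lit 156)) (XT.lf (nat_lit 0) (nat_lit 71392662544) (nat_lit 152) (nat_lit 19541652815) (nat_lit 76) (nat_lit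 4685599413150) (nat_lit 2) (nat_lit 5) (nat_lit 4) (nat_lit 5) (nat_lit 3) (nat_lit 4) (nat_lit 411) (nat_lit 334) (nat_lit 155)))))) (XT.nd (nat_lit 312) (nat_lit 380) (nat_lit 0) (XT.nd (nat_lit 156) (nat_lit 0) (nat_lit 76) (XT.nd (nat_lit 78) (nat_lit 0) (nat_lit 0) (XT.lf (nat_lit 0) (nat_lit 24372430269) (nat_lit 532) (nat_lit 2867708678) (nat_lit 532) (nat_lit 2867708678) (nat_lit 58) (nat_lit 3) (nat_lit 65) (nat_lit 3) (nat_lit 65) (nat_lit 5) (nat_lit 335) (nat_lit 335) (nat_lit 230)) (XT.lf (nat_lit 76) (nat_lit 24266310590) (nat_lit 0) (nat_lit 27028735430) (nat_lit 532) (nat_lit 11281220588) (nat_lit 59) (nat_lit 5) (nat_lit 58) (nat_lit 3) (nat_lit 65) (nat_lit 5) (nat_lit 336) (nat_lit 335) (nat_lit 229))) (XT.nd (nat_lit 78) (nat_lit 0) (nat_lit 0) (XT.lf (nat_lit 0) (nat_lit 54271436894) (nat_lit 456) (nat_lit 8186954413) (nat_lit 532) (nat_lit 2649519641) (nat_lit 59)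 (nat_lit 5) (nat_lit 65) (nat_lit 5) (nat_lit 66) (nat_lit 5) (nat_lit 337) (nat_lit 335) (nat_lit 228)) (XT.lf (nat_lit 76) (nat_lit 24887800641) (nat_lit 0) (nat_lit 33897176031) (nat_lit 532) (nat_lit 8953189483) (nat_lit 60) (nat_lit 5) (nat_lit 59) (nat_lit 5) (nat_lit 66) (nat_lit 5) (nat_lit 338) (nat_lit 335) (nat_lit 227)))) (XT.nd (nat_lit 156) (nat_lit 456) (nat_lit 0) (XT.nd (nat_lit 78) (nat_lit 0) (nat_lit 76) (XT.lf (nat_lit 76) (nat_lit 61073131345) (nat_lit 0) (nat_lit 2808845865) (nat_lit 532) (nat_lit 6679076522) (nat_lit 60) (nat_lit 5) (nat_lit 59) (nat_lit 5) (nat_lit 66) (nat_lit 5) (nat_lit 339) (nat_lit 335) (nat_lit 226)) (XT.lf (nat_lit 76) (nat_lit 27161244536) (nat_lit 0) (nat_lit 43617308955) (nat_lit 532) (nat_lit 2719875566) (nat_lit 61) (nat_lit 5) (nat_lit 60) (nat_lit 5) (nat_lit 67) (nat_lit 5) (nat_lit 340) (nat_lit 335) (nat_lit 225))) (XT.nd (nat_lit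 78) (nat_lit 0) (nat_lit 76) (XT.lf (nat_lit 0) (nat_lit 1816024002) (nat_lit 532) (nat_lit 9486323006) (nat_lit 608) (nat_lit 65338431006) (nat_lit 53) (nat_lit 5) (nat_lit 60) (nat_lit 5) (nat_lit 61) (nat_lit 5) (nat_lit 341) (nat_lit 335) (nat_lit 224)) (XT.nd (nat_lit 78) (nat_lit 0) (nat_lit 0) (XT.lf (nat_lit 0) (nat_lit 7921486670) (nat_lit 532) (nat_lit 48723585189) (nat_lit 76) (nat_lit 23275502123) (nat_lit 54) (nat_lit 5) (nat_lit 61) (nat_lit 5) (nat_lit 55) (nat_lit 5) (nat_lit 342) (nat_lit 335) (nat_lit 223)) (XT.lf (nat_lit 0) (nat_lit 15073921669) (nat_lit 532) (nat_lit 8068932083) (nat_lit 76) (nat_lit 60275218517) (nat_lit 54) (nat_lit 5) (nat_lit 61) (nat_lit 5) (nat_lit 55) (nat_lit 5) (nat_lit 343) (nat_lit 335) (nat_lit 222))))))) (XT.nd (nat_lit 702) (nat_lit 836) (nat_lit 0) (XT.nd (nat_lit 312) (nat_lit 456) (nat_lit 0) (XT.nd (nat_lit 156) (nat_lit 456) (nat_lit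 0) (XT.nd (nat_lit 78) (nat_lit 0) (nat_lit 0) (XT.lf (nat_lit 0) (nat_lit 24041930115) (nat_lit 456) (nat_lit 49735836680) (nat_lit 76) (nat_lit 13318134693) (nat_lit 49) (nat_lit 5) (nat_lit 55) (nat_lit 5) (nat_lit 50) (nat_lit 5) (nat_lit 344) (nat_lit 335) (nat_lit 221)) (XT.lf (nat_lit 0) (nat_lit 34553839537) (nat_lit 456) (nat_lit 4775943443) (nat_lit 76) (nat_lit 51672058500) (nat_lit 49) (nat_lit 5) (nat_lit 55) (nat_lit 5) (nat_lit 50) (nat_lit 5) (nat_lit 345) (nat_lit 335) (nat_lit 220))) (XT.nd (nat_lit 78) (nat_lit 228) (nat_lit 0) (XT.lf (nat_lit 0) (nat_lit 46085123132) (nat_lit 228) (nat_lit 928999077) (nat_lit 304) (nat_lit 48117541990) (nat_lit 46) (nat_lit 5) (nat_lit 49) (nat_lit 5) (nat_lit 50) (nat_lit 5) (nat_lit 346) (nat_lit 335) (nat_lit 219)) (XT.lf (nat_lit 0) (nat_lit 763978505) (nat_lit 228) (nat_lit 60833793770) (nat_lit 304) (nat_lit 37903977957) (nat_lit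 43) (nat_lit 5) (nat_lit 46) (nat_lit 5) (nat_lit 47) (nat_lit 5) (nat_lit 347) (nat_lit 335) (nat_lit 218)))) (XT.nd (nat_lit 156) (nat_lit 304) (nat_lit 0) (XT.nd (nat_lit 78) (nat_lit 152) (nat_lit 0) (XT.lf (nat_lit 0) (nat_lit 57322257849) (nat_lit 228) (nat_lit 21389552255) (nat_lit 304) (nat_lit 25400538385) (nat_lit 43) (nat_lit 5) (nat_lit 46) (nat_lit 5) (nat_lit 47) (nat_lit 5) (nat_lit 348) (nat_lit 335) (nat_lit 217)) (XT.lf (nat_lit 0) (nat_lit 9265825367) (nat_lit 152) (nat_lit 88661311735) (nat_lit 228) (nat_lit 11106085137) (nat_lit 41) (nat_lit 5) (nat_lit 43) (nat_lit 5) (nat_lit 44) (nat_lit 5) (nat_lit 349) (nat_lit 335) (nat_lit 216))) (XT.nd (nat_lit 78) (nat_lit 228) (nat_lit 0) (XT.lf (nat_lit 0) (nat_lit 5982580907) (nat_lit 228) (nat_lit 42472199735) (nat_lit 76) (nat_lit 65735262854) (nat_lit 40) (nat_lit 5) (nat_lit 43) (nat_lit 5) (nat_lit 41) (nat_lit 5)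 (nat_lit 350) (nat_lit 335) (nat_lit 215)) (XT.nd (nat_lit 78) (nat_lit 0) (nat_lit 0) (XT.lf (nat_lit 0) (nat_lit 20123892915) (nat_lit 228) (nat_lit 4197698288) (nat_lit 304) (nat_lit 95376080965) (nat_lit 37) (nat_lit 5) (nat_lit 40) (nat_lit 5) (nat_lit 41) (nat_lit 5) (nat_lit 351) (nat_lit 335) (nat_lit 214)) (XT.lf (nat_lit 0) (nat_lit 46367043619) (nat_lit 304) (nat_lit 36489603287) (nat_lit 76) (nat_lit 42610119204) (nat_lit 37) (nat_lit 5) (nat_lit 41) (nat_lit 5) (nat_lit 38) (nat_lit 5) (nat_lit 352) (nat_lit 335) (nat_lit 213)))))) (XT.nd (nat_lit 312) (nat_lit 456) (nat_lit 0) (XT.nd (nat_lit 156) (nat_lit 228) (nat_lit 0) (XT.nd (nat_lit 78) (nat_lit 0) (nat_lit 0) (XT.lf (nat_lit 0) (nat_lit 33191778187) (nat_lit 152) (nat_lit 37891012573) (nat_lit 228) (nat_lit 60542064755) (nat_lit 35) (nat_lit 5) (nat_lit 37) (nat_lit 5) (nat_lit 38) (nat_lit 5) (nat_lit 353) (nat_lit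 335) (nat_lit 212)) (XT.lf (nat_lit 0) (nat_lit 99055445533) (nat_lit 228) (nat_lit 27956388882) (nat_lit 76) (nat_lit 11161386414) (nat_lit 35) (nat_lit 5) (nat_lit 38) (nat_lit 5) (nat_lit 36) (nat_lit 5) (nat_lit 354) (nat_lit 335) (nat_lit 211))) (XT.nd (nat_lit 78) (nat_lit 76) (nat_lit 0) (XT.lf (nat_lit 0) (nat_lit 49657482489) (nat_lit 152) (nat_lit 81786306186) (nat_lit 228) (nat_lit 13627437151) (nat_lit 33) (nat_lit 5) (nat_lit 35) (nat_lit 5) (nat_lit 36) (nat_lit 5) (nat_lit 355) (nat_lit 335) (nat_lit 210)) (XT.lf (nat_lit 0) (nat_lit 13990356525) (nat_lit 228) (nat_lit 17744600561) (nat_lit 76) (nat_lit 120696673343) (nat_lit 32) (nat_lit 5) (nat_lit 35) (nat_lit 5) (nat_lit 33) (nat_lit 5) (nat_lit 356) (nat_lit 335) (nat_lit 209)))) (XT.nd (nat_lit 156) (nat_lit 304) (nat_lit 0) (XT.nd (nat_lit 78) (nat_lit 0) (nat_lit 0) (XT.lf (nat_lit 0) (nat_lit 45335471692) (nat_lit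 228) (nat_lit 91561250429) (nat_lit 76) (nat_lit 23275498269) (nat_lit 30) (nat_lit 5) (nat_lit 33) (nat_lit 5) (nat_lit 31) (nat_lit 5) (nat_lit 357) (nat_lit 335) (nat_lit 208)) (XT.lf (nat_lit 0) (nat_lit 80509744764) (nat_lit 228) (nat_lit 6446791803) (nat_lit 76) (nat_lit 81469797483) (nat_lit 30) (nat_lit 5) (nat_lit 33) (nat_lit 5) (nat_lit 31) (nat_lit 5) (nat_lit 358) (nat_lit 335) (nat_lit 207))) (XT.nd (nat_lit 78) (nat_lit 152) (nat_lit 0) (XT.lf (nat_lit 0) (nat_lit 89977103123) (nat_lit 152) (nat_lit 30684339052) (nat_lit 228) (nat_lit 56506256396) (nat_lit 28) (nat_lit 5) (nat_lit 30) (nat_lit 5) (nat_lit 31) (nat_lit 5) (nat_lit 359) (nat_lit 335) (nat_lit 206)) (XT.nd (nat_lit 78) (nat_lit 76) (nat_lit 0) (XT.lf (nat_lit 0) (nat_lit 7535230692) (nat_lit 76) (nat_lit 157575310596) (nat_lit 152) (nat_lit 21411010034) (nat_lit 27) (nat_lit 5) (nat_lit 28) (nat_lit 5) (nat_lit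 29) (nat_lit 4) (nat_lit 360) (nat_lit 335) (nat_lit 205)) (XT.lf (nat_lit 0) (nat_lit 18909274969) (nat_lit 152) (nat_lit 82891569264) (nat_lit 76) (nat_lit 94531745319) (nat_lit 26) (nat_lit 5) (nat_lit 28) (nat_lit 5) (nat_lit 27) (nat_lit 5) (nat_lit 361) (nat_lit 335) (nat_lit 204))))))))
noncomputable def xc191 : XT := (XT.nd (nat_lit 1404) (nat_lit 608) (nat_lit 0) (XT.nd (nat_lit 702) (nat_lit 456) (nat_lit 0) (XT.nd (nat_lit 312) (nat_lit 380) (nat_lit 0) (XT.nd (nat_lit 156) (nat_lit 76) (nat_lit 0) (XT.nd (nat_lit 78) (nat_lit 0) (nat_lit 0) (XT.lf (nat_lit 0) (nat_lit 21404680971) (nat_lit 152) (nat_lit 40408114307) (nat_lit 228) (nat_lit 145030076370) (nat_lit 24) (nat_lit 5) (nat_lit 26) (nat_lit 5) (nat_lit 27) (nat_lit 5) (nat_lit 362) (nat_lit 335) (nat_lit 203)) (XT.lf (nat_lit 0) (nat_lit 111096255567) (nat_lit 228) (nat_lit 79936291962) (nat_lit 76) (nat_lit 26925616363)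 (nat_lit 24) (nat_lit 5) (nat_lit 27) (nat_lit 5) (nat_lit 25) (nat_lit 4) (nat_lit 363) (nat_lit 335) (nat_lit 202))) (XT.nd (nat_lit 78) (nat_lit 0) (nat_lit 0) (XT.lf (nat_lit 0) (nat_lit 34690921886) (nat_lit 76) (nat_lit 131514968338) (nat_lit 152) (nat_lit 63606109719) (nat_lit 23) (nat_lit 5) (nat_lit 24) (nat_lit 5) (nat_lit 25) (nat_lit 4) (nat_lit 364) (nat_lit 335) (nat_lit 201)) (XT.lf (nat_lit 0) (nat_lit 163033721433) (nat_lit 76) (nat_lit 64875805610) (nat_lit 152) (nat_lit 14529797540) (nat_lit 23) (nat_lit 5) (nat_lit 24) (nat_lit 5) (nat_lit 25) (nat_lit 4) (nat_lit 365) (nat_lit 335) (nat_lit 200)))) (XT.nd (nat_lit 156) (nat_lit 152) (nat_lit 0) (XT.nd (nat_lit 78) (nat_lit 0) (nat_lit 0) (XT.lf (nat_lit 0) (nat_lit 37901874954) (nat_lit 228) (nat_lit 209144473413) (nat_lit 76) (nat_lit 8848160688) (nat_lit 20) (nat_lit 5) (nat_lit 23) (nat_lit 5) (nat_lit 21) (nat_lit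 4) (nat_lit 366) (nat_lit 335) (nat_lit 199)) (XT.lf (nat_lit 0) (nat_lit 97655317719) (nat_lit 228) (nat_lit 84857919772) (nat_lit 76) (nat_lit 87569701344) (nat_lit 20) (nat_lit 5) (nat_lit 23) (nat_lit 5) (nat_lit 21) (nat_lit 4) (nat_lit 367) (nat_lit 335) (nat_lit 198))) (XT.nd (nat_lit 78) (nat_lit 76) (nat_lit 0) (XT.lf (nat_lit 0) (nat_lit 51970776432) (nat_lit 76) (nat_lit 111467838657) (nat_lit 152) (nat_lit 121867861731) (nat_lit 19) (nat_lit 5) (nat_lit 20) (nat_lit 5) (nat_lit 21) (nat_lit 4) (nat_lit 368) (nat_lit 335) (nat_lit 197)) (XT.nd (nat_lit 78) (nat_lit 76) (nat_lit 0) (XT.lf (nat_lit 0) (nat_lit 204571157414) (nat_lit 76) (nat_lit 32233275777) (nat_lit 152) (nat_lit 64757876243) (nat_lit 19) (nat_lit 5) (nat_lit 20) (nat_lit 5) (nat_lit 21) (nat_lit 4) (nat_lit 369) (nat_lit 335) (nat_lit 196)) (XT.lf (nat_lit 0) (nat_lit 51556671871) (nat_lit 76) (nat_lit 267005322026)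 (nat_lit 76) (nat_lit 354816723) (nat_lit 18) (nat_lit 4) (nat_lit 19) (nat_lit 5) (nat_lit 19) (nat_lit 4) (nat_lit 370) (nat_lit 335) (nat_lit 195)))))) (XT.nd (nat_lit 312) (nat_lit 228) (nat_lit 0) (XT.nd (nat_lit 156) (nat_lit 76) (nat_lit 0) (XT.nd (nat_lit 78) (nat_lit 76) (nat_lit 0) (XT.lf (nat_lit 0) (nat_lit 69296527692) (nat_lit 152) (nat_lit 122514141029) (nat_lit 76) (nat_lit 145431243123) (nat_lit 17) (nat_lit 5) (nat_lit 19) (nat_lit 5) (nat_lit 18) (nat_lit 4) (nat_lit 371) (nat_lit 335) (nat_lit 194)) (XT.lf (nat_lit 0) (nat_lit 35695457152) (nat_lit 76) (nat_lit 109663561352) (nat_lit 152) (nat_lit 211604608833) (nat_lit 16) (nat_lit 5) (nat_lit 17) (nat_lit 5) (nat_lit 18) (nat_lit 4) (nat_lit 372) (nat_lit 335) (nat_lit 193))) (XT.nd (nat_lit 78) (nat_lit 76) (nat_lit 0) (XT.lf (nat_lit 0) (nat_lit 213528828796) (nat_lit 76) (nat_lit 17327173364) (nat_lit 152) (nat_lit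 147139118523) (nat_lit 16) (nat_lit 5) (nat_lit 17) (nat_lit 5) (nat_lit 18) (nat_lit 4) (nat_lit 373) (nat_lit 335) (nat_lit 192)) (XT.lf (nat_lit 0) (nat_lit 3050231973) (nat_lit 76) (nat_lit 322197253666) (nat_lit 76) (nat_lit 75297268658) (nat_lit 15) (nat_lit 4) (nat_lit 16) (nat_lit 5) (nat_lit 16) (nat_lit 4) (nat_lit 374) (nat_lit 335) (nat_lit 191)))) (XT.nd (nat_lit 156) (nat_lit 152) (nat_lit 0) (XT.nd (nat_lit 78) (nat_lit 0) (nat_lit 0) (XT.lf (nat_lit 0) (nat_lit 7240689249) (nat_lit 152) (nat_lit 231839632670) (nat_lit 76) (nat_lit 185408554155) (nat_lit 14) (nat_lit 5) (nat_lit 16) (nat_lit 5) (nat_lit 15) (nat_lit 4) (nat_lit 375) (nat_lit 335) (nat_lit 190)) (XT.lf (nat_lit 0) (nat_lit 92313448943) (nat_lit 152) (nat_lit 54888552971) (nat_lit 76) (nat_lit 302990082019) (nat_lit 14) (nat_lit 5) (nat_lit 16) (nat_lit 5) (nat_lit 15) (nat_lit 4) (nat_lit 376) (nat_lit 335)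 (nat_lit 189))) (XT.nd (nat_lit 78) (nat_lit 76) (nat_lit 0) (XT.lf (nat_lit 0) (nat_lit 143391226785) (nat_lit 76) (nat_lit 44249155297) (nat_lit 152) (nat_lit 290035298195) (nat_lit 13) (nat_lit 5) (nat_lit 14) (nat_lit 5) (nat_lit 15) (nat_lit 4) (nat_lit 377) (nat_lit 335) (nat_lit 188)) (XT.nd (nat_lit 78) (nat_lit 76) (nat_lit 0) (XT.lf (nat_lit 0) (nat_lit 293742899446) (nat_lit 152) (nat_lit 148232240068) (nat_lit 0) (nat_lit 65130870508) (nat_lit 13) (nat_lit 5) (nat_lit 15) (nat_lit 4) (nat_lit 13) (nat_lit 4) (nat_lit 378) (nat_lit 335) (nat_lit 187)) (XT.lf (nat_lit 0) (nat_lit 54269219207) (nat_lit 76) (nat_lit 356518711205) (nat_lit 76) (nat_lit 127906490818) (nat_lit 12) (nat_lit 4) (nat_lit 13) (nat_lit 5) (nat_lit 13) (nat_lit 4) (nat_lit 379) (nat_lit 335) (nat_lit 186))))))) (XT.nd (nat_lit 702) (nat_lit 228) (nat_lit 0) (XT.nd (nat_lit 312) (nat_lit 228) (nat_lit 0)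 (XT.nd (nat_lit 156) (nat_lit 76) (nat_lit 0) (XT.nd (nat_lit 78) (nat_lit 76) (nat_lit 0) (XT.lf (nat_lit 0) (nat_lit 281400534747) (nat_lit 76) (nat_lit 259848774339) (nat_lit 76) (nat_lit 31236376683) (nat_lit 12) (nat_lit 4) (nat_lit 13) (nat_lit 5) (nat_lit 13) (nat_lit 4) (nat_lit 380) (nat_lit 335) (nat_lit 185)) (XT.lf (nat_lit 0) (nat_lit 69507041974) (nat_lit 152) (nat_lit 84037914485) (nat_lit 76) (nat_lit 455294535151) (nat_lit 11) (nat_lit 5) (nat_lit 13) (nat_lit 5) (nat_lit 12) (nat_lit 4) (nat_lit 381) (nat_lit 335) (nat_lit 184))) (XT.nd (nat_lit 78) (nat_lit 0) (nat_lit 0) (XT.lf (nat_lit 0) (nat_lit 146068381796) (nat_lit 76) (nat_lit 34066760303) (nat_lit 152) (nat_lit 467620530413) (nat_lit 10) (nat_lit 5) (nat_lit 11) (nat_lit 5) (nat_lit 12) (nat_lit 4) (nat_lit 382) (nat_lit 335) (nat_lit 183)) (XT.lf (nat_lit 0) (nat_lit 304254777538) (nat_lit 152) (nat_lit 292582858840)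 (nat_lit 0) (nat_lit 92576208563) (nat_lit 10) (nat_lit 5) (nat_lit 12) (nat_lit 4) (nat_lit 10) (nat_lit 4) (nat_lit 383) (nat_lit 335) (nat_lit 182)))) (XT.nd (nat_lit 156) (nat_lit 152) (nat_lit 0) (XT.nd (nat_lit 78) (nat_lit 76) (nat_lit 0) (XT.lf (nat_lit 0) (nat_lit 439188683549) (nat_lit 152) (nat_lit 67635217746) (nat_lit 0) (nat_lit 227509993928) (nat_lit 10) (nat_lit 5) (nat_lit 12) (nat_lit 4) (nat_lit 10) (nat_lit 4) (nat_lit 384) (nat_lit 335) (nat_lit 181)) (XT.lf (nat_lit 0) (nat_lit 184539368636) (nat_lit 76) (nat_lit 404815969676) (nat_lit 76) (nat_lit 193137168347) (nat_lit 9) (nat_lit 4) (nat_lit 10) (nat_lit 5) (nat_lit 10) (nat_lit 4) (nat_lit 385) (nat_lit 335) (nat_lit 180))) (XT.nd (nat_lit 78) (nat_lit 152) (nat_lit 0) (XT.lf (nat_lit 0) (nat_lit 460734130988) (nat_lit 76) (nat_lit 292650325180) (nat_lit 76) (nat_lit 80971420416) (nat_lit 9) (nat_lit 4) (nat_lit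 10) (nat_lit 5) (nat_lit 10) (nat_lit 4) (nat_lit 386) (nat_lit 335) (nat_lit 179)) (XT.nd (nat_lit 78) (nat_lit 76) (nat_lit 0) (XT.lf (nat_lit 0) (nat_lit 38158112722) (nat_lit 152) (nat_lit 132310126073) (nat_lit 76) (nat_lit 719822805158) (nat_lit 8) (nat_lit 5) (nat_lit 10) (nat_lit 5) (nat_lit 9) (nat_lit 4) (nat_lit 387) (nat_lit 335) (nat_lit 178)) (XT.lf (nat_lit 0) (nat_lit 132848663288) (nat_lit 76) (nat_lit 32789679260) (nat_lit 152) (nat_lit 784638838374) (nat_lit 7) (nat_lit 5) (nat_lit 8) (nat_lit 5) (nat_lit 9) (nat_lit 4) (nat_lit 388) (nat_lit 335) (nat_lit 177)))))) (XT.nd (nat_lit 390) (nat_lit 152) (nat_lit 0) (XT.nd (nat_lit 156) (nat_lit 76) (nat_lit 0) (XT.nd (nat_lit 78) (nat_lit 0) (nat_lit 0) (XT.lf (nat_lit 0) (nat_lit 309815902481) (nat_lit 152) (nat_lit 590909723681) (nat_lit 0) (nat_lit 113816669774) (nat_lit 7) (nat_lit 5) (nat_lit 9) (nat_lit 4) (nat_lit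 7) (nat_lit 4) (nat_lit 389) (nat_lit 335) (nat_lit 176)) (XT.lf (nat_lit 0) (nat_lit 466379237030) (nat_lit 152) (nat_lit 347121323627) (nat_lit 0) (nat_lit 270379933927) (nat_lit 7) (nat_lit 5) (nat_lit 9) (nat_lit 4) (nat_lit 7) (nat_lit 4) (nat_lit 390) (nat_lit 335) (nat_lit 175))) (XT.nd (nat_lit 78) (nat_lit 76) (nat_lit 0) (XT.lf (nat_lit 0) (nat_lit 635467536345) (nat_lit 152) (nat_lit 83830052900) (nat_lit 0) (nat_lit 439468168061) (nat_lit 7) (nat_lit 5) (nat_lit 9) (nat_lit 4) (nat_lit 7) (nat_lit 4) (nat_lit 391) (nat_lit 335) (nat_lit 174)) (XT.nd (nat_lit 78) (nat_lit 0) (nat_lit 0) (XT.lf (nat_lit 0) (nat_lit 211083589088) (nat_lit 76) (nat_lit 612075781468) (nat_lit 76) (nat_lit 416076352831) (nat_lit 6) (nat_lit 4) (nat_lit 7) (nat_lit 5) (nat_lit 7) (nat_lit 4) (nat_lit 392) (nat_lit 335) (nat_lit 173)) (XT.lf (nat_lit 0) (nat_lit 534357630127) (nat_lit 76) (nat_lit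 493800891766) (nat_lit 76) (nat_lit 297801407247) (nat_lit 6) (nat_lit 4) (nat_lit 7) (nat_lit 5) (nat_lit 7) (nat_lit 4) (nat_lit 393) (nat_lit 335) (nat_lit 172))))) (XT.nd (nat_lit 156) (nat_lit 152) (nat_lit 0) (XT.nd (nat_lit 78) (nat_lit 0) (nat_lit 0) (XT.lf (nat_lit 0) (nat_lit 883493426210) (nat_lit 76) (nat_lit 366064094111) (nat_lit 76) (nat_lit 170064557849) (nat_lit 6) (nat_lit 4) (nat_lit 7) (nat_lit 5) (nat_lit 7) (nat_lit 4) (nat_lit 394) (nat_lit 335) (nat_lit 171)) (XT.lf (nat_lit 0) (nat_lit 1260559930204) (nat_lit 76) (nat_lit 228108429701) (nat_lit 76) (nat_lit 32108845529) (nat_lit 6) (nat_lit 4) (nat_lit 7) (nat_lit 5) (nat_lit 7) (nat_lit 4) (nat_lit 395) (nat_lit 335) (nat_lit 170))) (XT.nd (nat_lit 78) (nat_lit 0) (nat_lit 0) (XT.lf (nat_lit 0) (nat_lit 36796528060) (nat_lit 76) (nat_lit 75124701071) (nat_lit 152) (nat_lit 1517807839414) (nat_lit 4) (nat_lit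 5) (nat_lit 5) (nat_lit 5) (nat_lit 6) (nat_lit 4) (nat_lit 396) (nat_lit 335) (nat_lit 169)) (XT.nd (nat_lit 78) (nat_lit 0) (nat_lit 0) (XT.lf (nat_lit 0) (nat_lit 275205377620) (nat_lit 152) (nat_lit 1377643471000) (nat_lit 0) (nat_lit 93724202057) (nat_lit 4) (nat_lit 5) (nat_lit 6) (nat_lit 4) (nat_lit 4) (nat_lit 4) (nat_lit 397) (nat_lit 335) (nat_lit 168)) (XT.lf (nat_lit 0) (nat_lit 453503479988) (nat_lit 152) (nat_lit 1147082704432) (nat_lit 0) (nat_lit 272022269210) (nat_lit 4) (nat_lit 5) (nat_lit 6) (nat_lit 4) (nat_lit 4) (nat_lit 4) (nat_lit 398) (nat_lit 335) (nat_lit 167))))))))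
noncomputable def xc192 : XT := (XT.nd (nat_lit 42354) (nat_lit 0) (nat_lit 2052) (XT.nd (nat_lit 702) (nat_lit 0) (nat_lit 0) (XT.nd (nat_lit 312) (nat_lit 76) (nat_lit 0) (XT.nd (nat_lit 156) (nat_lit 0) (nat_lit 0) (XT.nd (nat_lit 78) (nat_lit 0) (nat_lit 0) (XT.lf (nat_lit 0) (nat_lit 646065366716) (nat_lit 152) (nat_lit 898077203888) (nat_lit 0) (nat_lit 464584123331) (nat_lit 4) (nat_lit 5) (nat_lit 6) (nat_lit 4) (nat_lit 4) (nat_lit 4) (nat_lit 399) (nat_lit 335) (nat_lit 166)) (XT.lf (nat_lit 0) (nat_lit 854032145280) (nat_lit 152) (nat_lit 629151381218) (nat_lit 0) (nat_lit 672550871703) (nat_lit 4) (nat_lit 5) (nat_lit 6) (nat_lit 4) (nat_lit 4) (nat_lit 4) (nat_lit 400) (nat_lit 335) (nat_lit 165))) (XT.nd (nat_lit 78) (nat_lit 0) (nat_lit 0) (XT.lf (nat_lit 0) (nat_lit 1078636211406) (nat_lit 152) (nat_lit 338711601917) (nat_lit 0) (nat_lit 897154909874) (nat_lit 4) (nat_lit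 5) (nat_lit 6) (nat_lit 4) (nat_lit 4) (nat_lit 4) (nat_lit 401) (nat_lit 335) (nat_lit 164)) (XT.lf (nat_lit 0) (nat_lit 1321208552151) (nat_lit 152) (nat_lit 25036741367) (nat_lit 0) (nat_lit 1139727224735) (nat_lit 4) (nat_lit 5) (nat_lit 6) (nat_lit 4) (nat_lit 4) (nat_lit 4) (nat_lit 402) (nat_lit 335) (nat_lit 163)))) (XT.nd (nat_lit 156) (nat_lit 0) (nat_lit 0) (XT.nd (nat_lit 78) (nat_lit 0) (nat_lit 0) (XT.lf (nat_lit 0) (nat_lit 330252586319) (nat_lit 76) (nat_lit 1260876629563) (nat_lit 76) (nat_lit 1079395278180) (nat_lit 3) (nat_lit 4) (nat_lit 4) (nat_lit 5) (nat_lit 4) (nat_lit 4) (nat_lit 403) (nat_lit 335) (nat_lit 162)) (XT.lf (nat_lit 0) (nat_lit 715388830650) (nat_lit 76) (nat_lit 1167939205304) (nat_lit 76) (nat_lit 986457831729) (nat_lit 3) (nat_lit 4) (nat_lit 4) (nat_lit 5) (nat_lit 4) (nat_lit 4) (nat_lit 404) (nat_lit 335) (nat_lit 161))) (XT.nd (nat_lit 78)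 (nat_lit 0) (nat_lit 0) (XT.lf (nat_lit 0) (nat_lit 1131335890048) (nat_lit 76) (nat_lit 1067566829328) (nat_lit 76) (nat_lit 886085435205) (nat_lit 3) (nat_lit 4) (nat_lit 4) (nat_lit 5) (nat_lit 4) (nat_lit 4) (nat_lit 405) (nat_lit 335) (nat_lit 160)) (XT.nd (nat_lit 78) (nat_lit 0) (nat_lit 0) (XT.lf (nat_lit 0) (nat_lit 1580558635978) (nat_lit 76) (nat_lit 959164702368) (nat_lit 76) (nat_lit 777683289220) (nat_lit 3) (nat_lit 4) (nat_lit 4) (nat_lit 5) (nat_lit 4) (nat_lit 4) (nat_lit 406) (nat_lit 335) (nat_lit 159)) (XT.lf (nat_lit 0) (nat_lit 2065719129156) (nat_lit 76) (nat_lit 842090441452) (nat_lit 76) (nat_lit 660609010687) (nat_lit 3) (nat_lit 4) (nat_lit 4) (nat_lit 5) (nat_lit 4) (nat_lit 4) (nat_lit 407) (nat_lit 335) (nat_lit 158)))))) (XT.nd (nat_lit 41262) (nat_lit 0) (nat_lit 4180) (XT.nd (nat_lit 156) (nat_lit 0) (nat_lit 0) (XT.nd (nat_lit 78) (nat_lit 0) (nat_lit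 0) (XT.lf (nat_lit 0) (nat_lit 2589692394727) (nat_lit 76) (nat_lit 715650273180) (nat_lit 76) (nat_lit 534168826103) (nat_lit 3) (nat_lit 4) (nat_lit 4) (nat_lit 5) (nat_lit 4) (nat_lit 4) (nat_lit 408) (nat_lit 335) (nat_lit 157)) (XT.lf (nat_lit 0) (nat_lit 3155583459449) (nat_lit 76) (nat_lit 579094922481) (nat_lit 76) (nat_lit 397613460301) (nat_lit 3) (nat_lit 4) (nat_lit 4) (nat_lit 5) (nat_lit 4) (nat_lit 4) (nat_lit 409) (nat_lit 335) (nat_lit 156))) (XT.nd (nat_lit 78) (nat_lit 0) (nat_lit 0) (XT.lf (nat_lit 0) (nat_lit 3766745751854) (nat_lit 76) (nat_lit 431615172462) (nat_lit 76) (nat_lit 250133696298) (nat_lit 3) (nat_lit 4) (nat_lit 4) (nat_lit 5) (nat_lit 4) (nat_lit 4) (nat_lit 410) (nat_lit 335) (nat_lit 155)) (XT.lf (nat_lit 0) (nat_lit 4426800974415) (nat_lit 76) (nat_lit 272337069050) (nat_lit 76) (nat_lit 90855579937) (nat_lit 3) (nat_lit 4) (nat_lit 4) (nat_lit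 5) (nat_lit 4) (nat_lit 4) (nat_lit 411) (nat_lit 335) (nat_lit 154)))) (XT.nd (nat_lit 156) (nat_lit 0) (nat_lit 76) (XT.nd (nat_lit 78) (nat_lit 0) (nat_lit 0) (XT.lf (nat_lit 0) (nat_lit 26338606701) (nat_lit 532) (nat_lit 3088266805) (nat_lit 532) (nat_lit 3088266805) (nat_lit 58) (nat_lit 3) (nat_lit 65) (nat_lit 3) (nat_lit 65) (nat_lit 5) (nat_lit 336) (nat_lit 336) (nat_lit 228)) (XT.lf (nat_lit 76) (nat_lit 26224884037) (nat_lit 0) (nat_lit 29204518032) (nat_lit 532) (nat_lit 12150460191) (nat_lit 59) (nat_lit 5) (nat_lit 58) (nat_lit 3) (nat_lit 65) (nat_lit 5) (nat_lit 337) (nat_lit 336) (nat_lit 227))) (XT.nd (nat_lit 78) (nat_lit 0) (nat_lit 0) (XT.lf (nat_lit 0) (nat_lit 58641325996) (nat_lit 456) (nat_lit 8823300988) (nat_lit 532) (nat_lit 2849620790) (nat_lit 59) (nat_lit 5) (nat_lit 65) (nat_lit 5) (nat_lit 66) (nat_lit 5) (nat_lit 338) (nat_lit 336) (nat_lit 226)) (XT.nd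 (nat_lit 78) (nat_lit 0) (nat_lit 0) (XT.lf (nat_lit 76) (nat_lit 26896963337) (nat_lit 0) (nat_lit 36617334880) (nat_lit 532) (nat_lit 9640760360) (nat_lit 60) (nat_lit 5) (nat_lit 59) (nat_lit 5) (nat_lit 66) (nat_lit 5) (nat_lit 339) (nat_lit 336) (nat_lit 225)) (XT.lf (nat_lit 76) (nat_lit 65975776894) (nat_lit 0) (nat_lit 3041317207) (nat_lit 532) (nat_lit 7186843123) (nat_lit 60) (nat_lit 5) (nat_lit 59) (nat_lit 5) (nat_lit 66) (nat_lit 5) (nat_lit 340) (nat_lit 336) (nat_lit 224))))))) (XT.nd (nat_lit 702) (nat_lit 988) (nat_lit 0) (XT.nd (nat_lit 312) (nat_lit 760) (nat_lit 0) (XT.nd (nat_lit 156) (nat_lit 0) (nat_lit 76) (XT.nd (nat_lit 78) (nat_lit 532) (nat_lit 0) (XT.lf (nat_lit 76) (nat_lit 29352646091) (nat_lit 0) (nat_lit 47111203317) (nat_lit 532) (nat_lit 2912579608) (nat_lit 61) (nat_lit 5) (nat_lit 60) (nat_lit 5) (nat_lit 67) (nat_lit 5) (nat_lit 341) (nat_lit 336)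 (nat_lit 223)) (XT.lf (nat_lit 0) (nat_lit 1983195833) (nat_lit 532) (nat_lit 10226916024) (nat_lit 608) (nat_lit 70560148541) (nat_lit 53) (nat_lit 5) (nat_lit 60) (nat_lit 5) (nat_lit 61) (nat_lit 5) (nat_lit 342) (nat_lit 336) (nat_lit 222))) (XT.nd (nat_lit 78) (nat_lit 0) (nat_lit 0) (XT.lf (nat_lit 0) (nat_lit 8575834807) (nat_lit 532) (nat_lit 52601871933) (nat_lit 76) (nat_lit 25134836283) (nat_lit 54) (nat_lit 5) (nat_lit 61) (nat_lit 5) (nat_lit 55) (nat_lit 5) (nat_lit 343) (nat_lit 336) (nat_lit 221)) (XT.lf (nat_lit 0) (nat_lit 16298936517) (nat_lit 532) (nat_lit 8696298435) (nat_lit 76) (nat_lit 65094730434) (nat_lit 54) (nat_lit 5) (nat_lit 61) (nat_lit 5) (nat_lit 55) (nat_lit 5) (nat_lit 344) (nat_lit 336) (nat_lit 220)))) (XT.nd (nat_lit 156) (nat_lit 456) (nat_lit 0) (XT.nd (nat_lit 78) (nat_lit 0) (nat_lit 0) (XT.lf (nat_lit 0) (nat_lit 25983385987) (nat_lit 456) (nat_lit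 53695532994) (nat_lit 76) (nat_lit 14383183755) (nat_lit 49) (nat_lit 5) (nat_lit 55) (nat_lit 5) (nat_lit 50) (nat_lit 5) (nat_lit 345) (nat_lit 336) (nat_lit 219)) (XT.lf (nat_lit 0) (nat_lit 37334907314) (nat_lit 456) (nat_lit 5140268344) (nat_lit 76) (nat_lit 55805451223) (nat_lit 49) (nat_lit 5) (nat_lit 55) (nat_lit 5) (nat_lit 50) (nat_lit 5) (nat_lit 346) (nat_lit 336) (nat_lit 218))) (XT.nd (nat_lit 78) (nat_lit 228) (nat_lit 0) (XT.lf (nat_lit 0) (nat_lit 49789234176) (nat_lit 228) (nat_lit 1001952991) (nat_lit 304) (nat_lit 51949715846) (nat_lit 46) (nat_lit 5) (nat_lit 49) (nat_lit 5) (nat_lit 50) (nat_lit 5) (nat_lit 347) (nat_lit 336) (nat_lit 217)) (XT.nd (nat_lit 78) (nat_lit 0) (nat_lit 0) (XT.lf (nat_lit 0) (nat_lit 843189508) (nat_lit 228) (nat_lit 65697624895) (nat_lit 304) (nat_lit 40919840157) (nat_lit 43) (nat_lit 5) (nat_lit 46) (nat_lit 5) (nat_lit 47) (nat_lit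 5) (nat_lit 348) (nat_lit 336) (nat_lit 216)) (XT.lf (nat_lit 0) (nat_lit 61924790998) (nat_lit 228) (nat_lit 23098056828) (nat_lit 304) (nat_lit 27417344384) (nat_lit 43) (nat_lit 5) (nat_lit 46) (nat_lit 5) (nat_lit 47) (nat_lit 5) (nat_lit 349) (nat_lit 336) (nat_lit 215)))))) (XT.nd (nat_lit 312) (nat_lit 532) (nat_lit 0) (XT.nd (nat_lit 156) (nat_lit 228) (nat_lit 0) (XT.nd (nat_lit 78) (nat_lit 76) (nat_lit 0) (XT.lf (nat_lit 0) (nat_lit 10024472651) (nat_lit 152) (nat_lit 95750361658) (nat_lit 228) (nat_lit 11979948123) (nat_lit 41) (nat_lit 5) (nat_lit 43) (nat_lit 5) (nat_lit 44) (nat_lit 5) (nat_lit 350) (nat_lit 336) (nat_lit 214)) (XT.lf (nat_lit 0) (nat_lit 6474050604) (nat_lit 228) (nat_lit 45853191328) (nat_lit 76) (nat_lit 70996962710) (nat_lit 40) (nat_lit 5) (nat_lit 43) (nat_lit 5) (nat_lit 41) (nat_lit 5) (nat_lit 351) (nat_lit 336) (nat_lit 213))) (XT.nd (nat_lit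 78) (nat_lit 0) (nat_lit 0) (XT.lf (nat_lit 0) (nat_lit 21750163813) (nat_lit 228) (nat_lit 4529458524) (nat_lit 304) (nat_lit 102992867004) (nat_lit 37) (nat_lit 5) (nat_lit 40) (nat_lit 5) (nat_lit 41) (nat_lit 5) (nat_lit 352) (nat_lit 336) (nat_lit 212)) (XT.lf (nat_lit 0) (nat_lit 50087889864) (nat_lit 304) (nat_lit 39392791432) (nat_lit 76) (nat_lit 46022496100) (nat_lit 37) (nat_lit 5) (nat_lit 41) (nat_lit 5) (nat_lit 38) (nat_lit 5) (nat_lit 353) (nat_lit 336) (nat_lit 211)))) (XT.nd (nat_lit 156) (nat_lit 380) (nat_lit 0) (XT.nd (nat_lit 78) (nat_lit 0) (nat_lit 0) (XT.lf (nat_lit 0) (nat_lit 35862696000) (nat_lit 152) (nat_lit 40917724795) (nat_lit 228) (nat_lit 65373532081) (nat_lit 35) (nat_lit 5) (nat_lit 37) (nat_lit 5) (nat_lit 38) (nat_lit 5) (nat_lit 354) (nat_lit 336) (nat_lit 210)) (XT.lf (nat_lit 0) (nat_lit 106990174373) (nat_lit 228) (nat_lit 30177754844) (nat_lit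 76) (nat_lit 12058316063) (nat_lit 35) (nat_lit 5) (nat_lit 38) (nat_lit 5) (nat_lit 36) (nat_lit 5) (nat_lit 355) (nat_lit 336) (nat_lit 209))) (XT.nd (nat_lit 78) (nat_lit 228) (nat_lit 0) (XT.lf (nat_lit 0) (nat_lit 53644842815) (nat_lit 152) (nat_lit 88324334712) (nat_lit 228) (nat_lit 14706946469) (nat_lit 33) (nat_lit 5) (nat_lit 35) (nat_lit 5) (nat_lit 36) (nat_lit 5) (nat_lit 356) (nat_lit 336) (nat_lit 208)) (XT.nd (nat_lit 78) (nat_lit 152) (nat_lit 0) (XT.lf (nat_lit 0) (nat_lit 15118984227) (nat_lit 228) (nat_lit 19149997649) (nat_lit 76) (nat_lit 130356419305) (nat_lit 32) (nat_lit 5) (nat_lit 35) (nat_lit 5) (nat_lit 33) (nat_lit 5) (nat_lit 357) (nat_lit 336) (nat_lit 207)) (XT.lf (nat_lit 0) (nat_lit 48971459444) (nat_lit 228) (nat_lit 98871723170) (nat_lit 76) (nat_lit 25142076232) (nat_lit 30) (nat_lit 5) (nat_lit 33) (nat_lit 5) (nat_lit 31) (nat_lit 5) (nat_lit 358)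 (nat_lit 336) (nat_lit 206))))))))
noncomputable def xc193 : XT := (XT.nd (nat_lit 1404) (nat_lit 608) (nat_lit 0) (XT.nd (nat_lit 702) (nat_lit 456) (nat_lit 0) (XT.nd (nat_lit 312) (nat_lit 456) (nat_lit 0) (XT.nd (nat_lit 156) (nat_lit 152) (nat_lit 0) (XT.nd (nat_lit 78) (nat_lit 152) (nat_lit 0) (XT.lf (nat_lit 0) (nat_lit 86958996583) (nat_lit 228) (nat_lit 6949176542) (nat_lit 76) (nat_lit 87991583228) (nat_lit 30) (nat_lit 5) (nat_lit 33) (nat_lit 5) (nat_lit 31) (nat_lit 5) (nat_lit 359) (nat_lit 336) (nat_lit 205)) (XT.lf (nat_lit 0) (nat_lit 97188291786) (nat_lit 152) (nat_lit 33134223570) (nat_lit 228) (nat_lit 61017940327) (nat_lit 28) (nat_lit 5) (nat_lit 30) (nat_lit 5) (nat_lit 31) (nat_lit 5) (nat_lit 360) (nat_lit 336) (nat_lit 204))) (XT.nd (nat_lit 78) (nat_lit 76) (nat_lit 0) (XT.lf (nat_lit 0) (nat_lit 8151268041) (nat_lit 76) (nat_lit 170176096272) (nat_lit 152)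 (nat_lit 23115267042) (nat_lit 27) (nat_lit 5) (nat_lit 28) (nat_lit 5) (nat_lit 29) (nat_lit 4) (nat_lit 361) (nat_lit 336) (nat_lit 203)) (XT.lf (nat_lit 0) (nat_lit 20429602520) (nat_lit 152) (nat_lit 89510250766) (nat_lit 76) (nat_lit 102098731705) (nat_lit 26) (nat_lit 5) (nat_lit 28) (nat_lit 5) (nat_lit 27) (nat_lit 5) (nat_lit 362) (nat_lit 336) (nat_lit 202)))) (XT.nd (nat_lit 156) (nat_lit 304) (nat_lit 0) (XT.nd (nat_lit 78) (nat_lit 0) (nat_lit 0) (XT.lf (nat_lit 0) (nat_lit 23129379386) (nat_lit 152) (nat_lit 43635759565) (nat_lit 228) (nat_lit 156624572304) (nat_lit 24) (nat_lit 5) (nat_lit 26) (nat_lit 5) (nat_lit 27) (nat_lit 5) (nat_lit 363) (nat_lit 336) (nat_lit 201)) (XT.lf (nat_lit 0) (nat_lit 119990845267) (nat_lit 228) (nat_lit 86319349284) (nat_lit 76) (nat_lit 29084067127) (nat_lit 24) (nat_lit 5) (nat_lit 27) (nat_lit 5) (nat_lit 25) (nat_lit 4) (nat_lit 364)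 (nat_lit 336) (nat_lit 200))) (XT.nd (nat_lit 78) (nat_lit 228) (nat_lit 0) (XT.lf (nat_lit 0) (nat_lit 37477741772) (nat_lit 76) (nat_lit 142031276294) (nat_lit 152) (nat_lit 68687405468) (nat_lit 23) (nat_lit 5) (nat_lit 24) (nat_lit 5) (nat_lit 25) (nat_lit 4) (nat_lit 365) (nat_lit 336) (nat_lit 199)) (XT.nd (nat_lit 78) (nat_lit 228) (nat_lit 0) (XT.lf (nat_lit 0) (nat_lit 176087110014) (nat_lit 76) (nat_lit 70061342733) (nat_lit 152) (nat_lit 15685521131) (nat_lit 23) (nat_lit 5) (nat_lit 24) (nat_lit 5) (nat_lit 25) (nat_lit 4) (nat_lit 366) (nat_lit 336) (nat_lit 198)) (XT.lf (nat_lit 0) (nat_lit 40940253200) (nat_lit 228) (nat_lit 225864902058) (nat_lit 76) (nat_lit 9560413186) (nat_lit 20) (nat_lit 5) (nat_lit 23) (nat_lit 5) (nat_lit 21) (nat_lit 4) (nat_lit 367) (nat_lit 336) (nat_lit 197)))))) (XT.nd (nat_lit 312) (nat_lit 304) (nat_lit 0) (XT.nd (nat_lit 156) (nat_lit 76)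 (nat_lit 0) (XT.nd (nat_lit 78) (nat_lit 76) (nat_lit 0) (XT.lf (nat_lit 0) (nat_lit 105473510035) (nat_lit 228) (nat_lit 91636248513) (nat_lit 76) (nat_lit 94579351195) (nat_lit 20) (nat_lit 5) (nat_lit 23) (nat_lit 5) (nat_lit 21) (nat_lit 4) (nat_lit 368) (nat_lit 336) (nat_lit 196)) (XT.lf (nat_lit 0) (nat_lit 56138482505) (nat_lit 76) (nat_lit 120380803068) (nat_lit 152) (nat_lit 131611260253) (nat_lit 19) (nat_lit 5) (nat_lit 20) (nat_lit 5) (nat_lit 21) (nat_lit 4) (nat_lit 369) (nat_lit 336) (nat_lit 195))) (XT.nd (nat_lit 78) (nat_lit 76) (nat_lit 0) (XT.lf (nat_lit 0) (nat_lit 220946149969) (nat_lit 76) (nat_lit 34807805727) (nat_lit 152) (nat_lit 69932922623) (nat_lit 19) (nat_lit 5) (nat_lit 20) (nat_lit 5) (nat_lit 21) (nat_lit 4) (nat_lit 370) (nat_lit 336) (nat_lit 194)) (XT.lf (nat_lit 0) (nat_lit 55690578621) (nat_lit 76) (nat_lit 288361477271) (nat_lit 76) (nat_lit 377689118)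 (nat_lit 18) (nat_lit 4) (nat_lit 19) (nat_lit 5) (nat_lit 19) (nat_lit 4) (nat_lit 371) (nat_lit 336) (nat_lit 193)))) (XT.nd (nat_lit 156) (nat_lit 152) (nat_lit 0) (XT.nd (nat_lit 78) (nat_lit 76) (nat_lit 0) (XT.lf (nat_lit 0) (nat_lit 74845099132) (nat_lit 152) (nat_lit 132306336317) (nat_lit 76) (nat_lit 157069439465) (nat_lit 17) (nat_lit 5) (nat_lit 19) (nat_lit 5) (nat_lit 18) (nat_lit 4) (nat_lit 372) (nat_lit 336) (nat_lit 192)) (XT.lf (nat_lit 0) (nat_lit 38559803491) (nat_lit 76) (nat_lit 118432635987) (nat_lit 152) (nat_lit 228527900292) (nat_lit 16) (nat_lit 5) (nat_lit 17) (nat_lit 5) (nat_lit 18) (nat_lit 4) (nat_lit 373) (nat_lit 336) (nat_lit 191))) (XT.nd (nat_lit 78) (nat_lit 152) (nat_lit 0) (XT.lf (nat_lit 0) (nat_lit 230619199698) (nat_lit 76) (nat_lit 18709634017) (nat_lit 152) (nat_lit 158905546850) (nat_lit 16) (nat_lit 5) (nat_lit 17) (nat_lit 5) (nat_lit 18)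 (nat_lit 4) (nat_lit 374) (nat_lit 336) (nat_lit 190)) (XT.nd (nat_lit 78) (nat_lit 76) (nat_lit 0) (XT.lf (nat_lit 0) (nat_lit 3302364838) (nat_lit 76) (nat_lit 347969226547) (nat_lit 76) (nat_lit 81316397165) (nat_lit 15) (nat_lit 4) (nat_lit 16) (nat_lit 5) (nat_lit 16) (nat_lit 4) (nat_lit 375) (nat_lit 336) (nat_lit 189)) (XT.lf (nat_lit 0) (nat_lit 7824037190) (nat_lit 152) (nat_lit 250379073197) (nat_lit 76) (nat_lit 200244547029) (nat_lit 14) (nat_lit 5) (nat_lit 16) (nat_lit 5) (nat_lit 15) (nat_lit 4) (nat_lit 376) (nat_lit 336) (nat_lit 188))))))) (XT.nd (nat_lit 702) (nat_lit 304) (nat_lit 0) (XT.nd (nat_lit 312) (nat_lit 152) (nat_lit 0) (XT.nd (nat_lit 156) (nat_lit 76) (nat_lit 0) (XT.nd (nat_lit 78) (nat_lit 76) (nat_lit 0) (XT.lf (nat_lit 0) (nat_lit 99702314489) (nat_lit 152) (nat_lit 59272479722) (nat_lit 76) (nat_lit 327232352046) (nat_lit 14) (nat_lit 5) (nat_lit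 16) (nat_lit 5) (nat_lit 15) (nat_lit 4) (nat_lit 377) (nat_lit 336) (nat_lit 187)) (XT.lf (nat_lit 0) (nat_lit 154869501213) (nat_lit 76) (nat_lit 47785788132) (nat_lit 152) (nat_lit 313234150087) (nat_lit 13) (nat_lit 5) (nat_lit 14) (nat_lit 5) (nat_lit 15) (nat_lit 4) (nat_lit 378) (nat_lit 336) (nat_lit 186))) (XT.nd (nat_lit 78) (nat_lit 76) (nat_lit 0) (XT.lf (nat_lit 0) (nat_lit 317245809228) (nat_lit 152) (nat_lit 160084159832) (nat_lit 0) (nat_lit 70344242491) (nat_lit 13) (nat_lit 5) (nat_lit 15) (nat_lit 4) (nat_lit 13) (nat_lit 4) (nat_lit 379) (nat_lit 336) (nat_lit 185)) (XT.lf (nat_lit 0) (nat_lit 58617247592) (nat_lit 76) (nat_lit 385037093567) (nat_lit 76) (nat_lit 138135362694) (nat_lit 12) (nat_lit 4) (nat_lit 13) (nat_lit 5) (nat_lit 13) (nat_lit 4) (nat_lit 380) (nat_lit 336) (nat_lit 184)))) (XT.nd (nat_lit 156) (nat_lit 76) (nat_lit 0) (XT.nd (nat_lit 78) (nat_lit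 76) (nat_lit 0) (XT.lf (nat_lit 0) (nat_lit 303918587572) (nat_lit 76) (nat_lit 280633792458) (nat_lit 76) (nat_lit 33731909606) (nat_lit 12) (nat_lit 4) (nat_lit 13) (nat_lit 5) (nat_lit 13) (nat_lit 4) (nat_lit 381) (nat_lit 336) (nat_lit 183)) (XT.lf (nat_lit 0) (nat_lit 75070575953) (nat_lit 152) (nat_lit 90755225590) (nat_lit 76) (nat_lit 491720610977) (nat_lit 11) (nat_lit 5) (nat_lit 13) (nat_lit 5) (nat_lit 12) (nat_lit 4) (nat_lit 382) (nat_lit 336) (nat_lit 182))) (XT.nd (nat_lit 78) (nat_lit 0) (nat_lit 0) (XT.lf (nat_lit 0) (nat_lit 157759429532) (nat_lit 76) (nat_lit 36789408642) (nat_lit 152) (nat_lit 505027056650) (nat_lit 10) (nat_lit 5) (nat_lit 11) (nat_lit 5) (nat_lit 12) (nat_lit 4) (nat_lit 383) (nat_lit 336) (nat_lit 181)) (XT.nd (nat_lit 78) (nat_lit 0) (nat_lit 0) (XT.lf (nat_lit 0) (nat_lit 328597890723) (nat_lit 152) (nat_lit 315984169097) (nat_lit 0) (nat_lit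 99984673578) (nat_lit 10) (nat_lit 5) (nat_lit 12) (nat_lit 4) (nat_lit 10) (nat_lit 4) (nat_lit 384) (nat_lit 336) (nat_lit 180)) (XT.lf (nat_lit 0) (nat_lit 474326306920) (nat_lit 152) (nat_lit 73041110674) (nat_lit 0) (nat_lit 245712986341) (nat_lit 10) (nat_lit 5) (nat_lit 12) (nat_lit 4) (nat_lit 10) (nat_lit 4) (nat_lit 385) (nat_lit 336) (nat_lit 179)))))) (XT.nd (nat_lit 312) (nat_lit 76) (nat_lit 0) (XT.nd (nat_lit 156) (nat_lit 152) (nat_lit 0) (XT.nd (nat_lit 78) (nat_lit 0) (nat_lit 0) (XT.lf (nat_lit 0) (nat_lit 199307317948) (nat_lit 76) (nat_lit 437198904242) (nat_lit 76) (nat_lit 208585487891) (nat_lit 9) (nat_lit 4) (nat_lit 10) (nat_lit 5) (nat_lit 10) (nat_lit 4) (nat_lit 386) (nat_lit 336) (nat_lit 178)) (XT.lf (nat_lit 0) (nat_lit 497597305745) (nat_lit 76) (nat_lit 316060181742) (nat_lit 76) (nat_lit 87446676713) (nat_lit 9) (nat_lit 4) (nat_lit 10) (nat_lit 5) (nat_lit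 10) (nat_lit 4) (nat_lit 387) (nat_lit 336) (nat_lit 177))) (XT.nd (nat_lit 78) (nat_lit 76) (nat_lit 0) (XT.lf (nat_lit 0) (nat_lit 41212923231) (nat_lit 152) (nat_lit 142890706816) (nat_lit 76) (nat_lit 777410524053) (nat_lit 8) (nat_lit 5) (nat_lit 10) (nat_lit 5) (nat_lit 9) (nat_lit 4) (nat_lit 388) (nat_lit 336) (nat_lit 176)) (XT.lf (nat_lit 0) (nat_lit 143480678621) (nat_lit 76) (nat_lit 35410831853) (nat_lit 152) (nat_lit 847407676465) (nat_lit 7) (nat_lit 5) (nat_lit 8) (nat_lit 5) (nat_lit 9) (nat_lit 4) (nat_lit 389) (nat_lit 336) (nat_lit 175)))) (XT.nd (nat_lit 156) (nat_lit 76) (nat_lit 0) (XT.nd (nat_lit 78) (nat_lit 0) (nat_lit 0) (XT.lf (nat_lit 0) (nat_lit 334603164628) (nat_lit 152) (nat_lit 638178573700) (nat_lit 0) (nat_lit 122923781701) (nat_lit 7) (nat_lit 5) (nat_lit 9) (nat_lit 4) (nat_lit 7) (nat_lit 4) (nat_lit 390) (nat_lit 336) (nat_lit 174)) (XT.lf (nat_lit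 0) (nat_lit 503691418538) (nat_lit 152) (nat_lit 374887392596) (nat_lit 0) (nat_lit 292011975257) (nat_lit 7) (nat_lit 5) (nat_lit 9) (nat_lit 4) (nat_lit 7) (nat_lit 4) (nat_lit 391) (nat_lit 336) (nat_lit 173))) (XT.nd (nat_lit 78) (nat_lit 76) (nat_lit 0) (XT.lf (nat_lit 0) (nat_lit 686306645313) (nat_lit 152) (nat_lit 90533089612) (nat_lit 0) (nat_lit 474627146150) (nat_lit 7) (nat_lit 5) (nat_lit 9) (nat_lit 4) (nat_lit 7) (nat_lit 4) (nat_lit 392) (nat_lit 336) (nat_lit 172)) (XT.nd (nat_lit 78) (nat_lit 0) (nat_lit 0) (XT.lf (nat_lit 0) (nat_lit 227973558481) (nat_lit 76) (nat_lit 661040220343) (nat_lit 76) (nat_lit 449360669437) (nat_lit 6) (nat_lit 4) (nat_lit 7) (nat_lit 5) (nat_lit 7) (nat_lit 4) (nat_lit 393) (nat_lit 336) (nat_lit 171)) (XT.lf (nat_lit 0) (nat_lit 577109279672) (nat_lit 76) (nat_lit 533303459735) (nat_lit 76) (nat_lit 321623860919) (nat_lit 6) (nat_lit 4)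 (nat_lit 7) (nat_lit 5) (nat_lit 7) (nat_lit 4) (nat_lit 394) (nat_lit 336) (nat_lit 170))))))))
noncomputable def xc194 : XT := (XT.nd (nat_lit 42432) (nat_lit 0) (nat_lit 2432) (XT.nd (nat_lit 702) (nat_lit 76) (nat_lit 0) (XT.nd (nat_lit 312) (nat_lit 0) (nat_lit 0) (XT.nd (nat_lit 156) (nat_lit 152) (nat_lit 0) (XT.nd (nat_lit 78) (nat_lit 0) (nat_lit 0) (XT.lf (nat_lit 0) (nat_lit 954175714321) (nat_lit 76) (nat_lit 395347829629) (nat_lit 76) (nat_lit 183668186452) (nat_lit 6) (nat_lit 4) (nat_lit 7) (nat_lit 5) (nat_lit 7) (nat_lit 4) (nat_lit 395) (nat_lit 336) (nat_lit 169)) (XT.lf (nat_lit 0) (nat_lit 1361407330188) (nat_lit 76) (nat_lit 246355815178) (nat_lit 76) (nat_lit 34676130926) (nat_lit 6) (nat_lit 4) (nat_lit 7) (nat_lit 5) (nat_lit 7) (nat_lit 4) (nat_lit 396) (nat_lit 336) (nat_lit 168))) (XT.nd (nat_lit 78) (nat_lit 0) (nat_lit 0) (XT.lf (nat_lit 0) (nat_lit 39742859474)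 (nat_lit 76) (nat_lit 81133381756) (nat_lit 152) (nat_lit 1639231047490) (nat_lit 4) (nat_lit 5) (nat_lit 5) (nat_lit 5) (nat_lit 6) (nat_lit 4) (nat_lit 397) (nat_lit 336) (nat_lit 167)) (XT.lf (nat_lit 0) (nat_lit 297223053128) (nat_lit 152) (nat_lit 1487852464121) (nat_lit 0) (nat_lit 101223277665) (nat_lit 4) (nat_lit 5) (nat_lit 6) (nat_lit 4) (nat_lit 4) (nat_lit 4) (nat_lit 398) (nat_lit 336) (nat_lit 166)))) (XT.nd (nat_lit 156) (nat_lit 0) (nat_lit 0) (XT.nd (nat_lit 78) (nat_lit 0) (nat_lit 0) (XT.lf (nat_lit 0) (nat_lit 489784911442) (nat_lit 152) (nat_lit 1238847020268) (nat_lit 0) (nat_lit 293785105787) (nat_lit 4) (nat_lit 5) (nat_lit 6) (nat_lit 4) (nat_lit 4) (nat_lit 4) (nat_lit 399) (nat_lit 336) (nat_lit 165)) (XT.lf (nat_lit 0) (nat_lit 697751663696) (nat_lit 152) (nat_lit 969921250090) (nat_lit 0) (nat_lit 501751830087) (nat_lit 4) (nat_lit 5) (nat_lit 6) (nat_lit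 4) (nat_lit 4) (nat_lit 4) (nat_lit 400) (nat_lit 336) (nat_lit 164))) (XT.nd (nat_lit 78) (nat_lit 0) (nat_lit 0) (XT.lf (nat_lit 0) (nat_lit 922355705461) (nat_lit 152) (nat_lit 679481519392) (nat_lit 0) (nat_lit 726355845967) (nat_lit 4) (nat_lit 5) (nat_lit 6) (nat_lit 4) (nat_lit 4) (nat_lit 4) (nat_lit 401) (nat_lit 336) (nat_lit 163)) (XT.nd (nat_lit 78) (nat_lit 0) (nat_lit 0) (XT.lf (nat_lit 0) (nat_lit 1164928023650) (nat_lit 152) (nat_lit 365806703845) (nat_lit 0) (nat_lit 968928140189) (nat_lit 4) (nat_lit 5) (nat_lit 6) (nat_lit 4) (nat_lit 4) (nat_lit 4) (nat_lit 402) (nat_lit 336) (nat_lit 162)) (XT.lf (nat_lit 0) (nat_lit 1426906083853) (nat_lit 152) (nat_lit 27037989727) (nat_lit 0) (nat_lit 1230906178200) (nat_lit 4) (nat_lit 5) (nat_lit 6) (nat_lit 4) (nat_lit 4) (nat_lit 4) (nat_lit 403) (nat_lit 336) (nat_lit 161)))))) (XT.nd (nat_lit 312) (nat_lit 0) (nat_lit 0)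 (XT.nd (nat_lit 156) (nat_lit 0) (nat_lit 0) (XT.nd (nat_lit 78) (nat_lit 0) (nat_lit 0) (XT.lf (nat_lit 0) (nat_lit 356674441365) (nat_lit 76) (nat_lit 1361745936175) (nat_lit 76) (nat_lit 1165746009975) (nat_lit 3) (nat_lit 4) (nat_lit 4) (nat_lit 5) (nat_lit 4) (nat_lit 4) (nat_lit 404) (nat_lit 336) (nat_lit 160)) (XT.lf (nat_lit 0) (nat_lit 772621463158) (nat_lit 76) (nat_lit 1261373578994) (nat_lit 76) (nat_lit 1065373633768) (nat_lit 3) (nat_lit 4) (nat_lit 4) (nat_lit 5) (nat_lit 4) (nat_lit 4) (nat_lit 405) (nat_lit 336) (nat_lit 159))) (XT.nd (nat_lit 78) (nat_lit 0) (nat_lit 0) (XT.lf (nat_lit 0) (nat_lit 1221844174267) (nat_lit 76) (nat_lit 1152971469438) (nat_lit 76) (nat_lit 956971506596) (nat_lit 3) (nat_lit 4) (nat_lit 4) (nat_lit 5) (nat_lit 4) (nat_lit 4) (nat_lit 406) (nat_lit 336) (nat_lit 158)) (XT.lf (nat_lit 0) (nat_lit 1707004635204) (nat_lit 76) (nat_lit 1035897224636)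 (nat_lit 76) (nat_lit 839897245482) (nat_lit 3) (nat_lit 4) (nat_lit 4) (nat_lit 5) (nat_lit 4) (nat_lit 4) (nat_lit 407) (nat_lit 336) (nat_lit 157)))) (XT.nd (nat_lit 156) (nat_lit 0) (nat_lit 0) (XT.nd (nat_lit 78) (nat_lit 0) (nat_lit 0) (XT.lf (nat_lit 0) (nat_lit 2230977870921) (nat_lit 76) (nat_lit 909457071285) (nat_lit 76) (nat_lit 713457077027) (nat_lit 3) (nat_lit 4) (nat_lit 4) (nat_lit 5) (nat_lit 4) (nat_lit 4) (nat_lit 408) (nat_lit 336) (nat_lit 156)) (XT.lf (nat_lit 0) (nat_lit 2796868908002) (nat_lit 76) (nat_lit 772901734401) (nat_lit 76) (nat_lit 576901726160) (nat_lit 3) (nat_lit 4) (nat_lit 4) (nat_lit 5) (nat_lit 4) (nat_lit 4) (nat_lit 409) (nat_lit 336) (nat_lit 155))) (XT.nd (nat_lit 78) (nat_lit 0) (nat_lit 0) (XT.lf (nat_lit 0) (nat_lit 3408031174813) (nat_lit 76) (nat_lit 625421997175) (nat_lit 76) (nat_lit 429421975985) (nat_lit 3) (nat_lit 4) (nat_lit 4)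 (nat_lit 5) (nat_lit 4) (nat_lit 4) (nat_lit 410) (nat_lit 336) (nat_lit 154)) (XT.nd (nat_lit 41106) (nat_lit 0) (nat_lit 4180) (XT.lf (nat_lit 0) (nat_lit 4068086373676) (nat_lit 76) (nat_lit 466143905607) (nat_lit 76) (nat_lit 270143872427) (nat_lit 3) (nat_lit 4) (nat_lit 4) (nat_lit 5) (nat_lit 4) (nat_lit 4) (nat_lit 411) (nat_lit 336) (nat_lit 153)) (XT.lf (nat_lit 0) (nat_lit 28459740171) (nat_lit 532) (nat_lit 3327733356) (nat_lit 532) (nat_lit 3327733356) (nat_lit 58) (nat_lit 3) (nat_lit 65) (nat_lit 3) (nat_lit 65) (nat_lit 5) (nat_lit 337) (nat_lit 337) (nat_lit 226))))))) (XT.nd (nat_lit 702) (nat_lit 1064) (nat_lit 0) (XT.nd (nat_lit 312) (nat_lit 684) (nat_lit 0) (XT.nd (nat_lit 156) (nat_lit 0) (nat_lit 76) (XT.nd (nat_lit 78) (nat_lit 0) (nat_lit 76) (XT.lf (nat_lit 76) (nat_lit 28337679801) (nat_lit 0) (nat_lit 31552439633) (nat_lit 532) (nat_lit 13093983595) (nat_lit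 59) (nat_lit 5) (nat_lit 58) (nat_lit 3) (nat_lit 65) (nat_lit 5) (nat_lit 338) (nat_lit 337) (nat_lit 225)) (XT.lf (nat_lit 0) (nat_lit 63356786869) (nat_lit 456) (nat_lit 9513210181) (nat_lit 532) (nat_lit 3067422053) (nat_lit 59) (nat_lit 5) (nat_lit 65) (nat_lit 5) (nat_lit 66) (nat_lit 5) (nat_lit 339) (nat_lit 337) (nat_lit 224))) (XT.nd (nat_lit 78) (nat_lit 0) (nat_lit 0) (XT.lf (nat_lit 76) (nat_lit 29064271368) (nat_lit 0) (nat_lit 39553910257) (nat_lit 532) (nat_lit 10387429040) (nat_lit 60) (nat_lit 5) (nat_lit 59) (nat_lit 5) (nat_lit 66) (nat_lit 5) (nat_lit 340) (nat_lit 337) (nat_lit 223)) (XT.lf (nat_lit 76) (nat_lit 71268238086) (nat_lit 0) (nat_lit 3291278682) (nat_lit 532) (nat_lit 7739020066) (nat_lit 60) (nat_lit 5) (nat_lit 59) (nat_lit 5) (nat_lit 66) (nat_lit 5) (nat_lit 341) (nat_lit 337) (nat_lit 222)))) (XT.nd (nat_lit 156) (nat_lit 304) (nat_lit 0) (XT.nd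 (nat_lit 78) (nat_lit 532) (nat_lit 0) (XT.lf (nat_lit 76) (nat_lit 31716720255) (nat_lit 0) (nat_lit 50883965877) (nat_lit 532) (nat_lit 3124250241) (nat_lit 61) (nat_lit 5) (nat_lit 60) (nat_lit 5) (nat_lit 67) (nat_lit 5) (nat_lit 342) (nat_lit 337) (nat_lit 221)) (XT.lf (nat_lit 0) (nat_lit 2160618571) (nat_lit 532) (nat_lit 11029369012) (nat_lit 608) (nat_lit 76200367707) (nat_lit 53) (nat_lit 5) (nat_lit 60) (nat_lit 5) (nat_lit 61) (nat_lit 5) (nat_lit 343) (nat_lit 337) (nat_lit 220))) (XT.nd (nat_lit 78) (nat_lit 380) (nat_lit 0) (XT.lf (nat_lit 0) (nat_lit 9279587809) (nat_lit 532) (nat_lit 56793217785) (nat_lit 76) (nat_lit 27143303218) (nat_lit 54) (nat_lit 5) (nat_lit 61) (nat_lit 5) (nat_lit 55) (nat_lit 5) (nat_lit 344) (nat_lit 337) (nat_lit 219)) (XT.nd (nat_lit 78) (nat_lit 380) (nat_lit 0) (XT.lf (nat_lit 0) (nat_lit 17619227566) (nat_lit 532) (nat_lit 9376443142) (nat_lit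 76) (nat_lit 70300160751) (nat_lit 54) (nat_lit 5) (nat_lit 61) (nat_lit 5) (nat_lit 55) (nat_lit 5) (nat_lit 345) (nat_lit 337) (nat_lit 218)) (XT.lf (nat_lit 0) (nat_lit 28077575953) (nat_lit 456) (nat_lit 57974739916) (nat_lit 76) (nat_lit 15533494051) (nat_lit 49) (nat_lit 5) (nat_lit 55) (nat_lit 5) (nat_lit 50) (nat_lit 5) (nat_lit 346) (nat_lit 337) (nat_lit 217)))))) (XT.nd (nat_lit 312) (nat_lit 608) (nat_lit 0) (XT.nd (nat_lit 156) (nat_lit 228) (nat_lit 0) (XT.nd (nat_lit 78) (nat_lit 228) (nat_lit 0) (XT.lf (nat_lit 0) (nat_lit 40336069423) (nat_lit 456) (nat_lit 5536271555) (nat_lit 76) (nat_lit 60269568428) (nat_lit 49) (nat_lit 5) (nat_lit 55) (nat_lit 5) (nat_lit 50) (nat_lit 5) (nat_lit 347) (nat_lit 337) (nat_lit 216)) (XT.lf (nat_lit 0) (nat_lit 53787205894) (nat_lit 228) (nat_lit 1080938095) (nat_lit 304) (nat_lit 56090921591) (nat_lit 46) (nat_lit 5) (nat_lit 49)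 (nat_lit 5) (nat_lit 50) (nat_lit 5) (nat_lit 348) (nat_lit 337) (nat_lit 215))) (XT.nd (nat_lit 78) (nat_lit 0) (nat_lit 0) (XT.lf (nat_lit 0) (nat_lit 926156262) (nat_lit 228) (nat_lit 70950972287) (nat_lit 304) (nat_lit 44179318969) (nat_lit 43) (nat_lit 5) (nat_lit 46) (nat_lit 5) (nat_lit 47) (nat_lit 5) (nat_lit 349) (nat_lit 337) (nat_lit 214)) (XT.lf (nat_lit 0) (nat_lit 66893136864) (nat_lit 228) (nat_lit 24943621189) (nat_lit 304) (nat_lit 29597668601) (nat_lit 43) (nat_lit 5) (nat_lit 46) (nat_lit 5) (nat_lit 47) (nat_lit 5) (nat_lit 350) (nat_lit 337) (nat_lit 213)))) (XT.nd (nat_lit 156) (nat_lit 380) (nat_lit 0) (XT.nd (nat_lit 78) (nat_lit 76) (nat_lit 0) (XT.lf (nat_lit 0) (nat_lit 10841332087) (nat_lit 152) (nat_lit 103407085536) (nat_lit 228) (nat_lit 12925806400) (nat_lit 41) (nat_lit 5) (nat_lit 43) (nat_lit 5) (nat_lit 44) (nat_lit 5) (nat_lit 351) (nat_lit 337) (nat_lit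 212)) (XT.lf (nat_lit 0) (nat_lit 7003002793) (nat_lit 228) (nat_lit 49507056729) (nat_lit 76) (nat_lit 76679187857) (nat_lit 40) (nat_lit 5) (nat_lit 43) (nat_lit 5) (nat_lit 41) (nat_lit 5) (nat_lit 352) (nat_lit 337) (nat_lit 211))) (XT.nd (nat_lit 78) (nat_lit 152) (nat_lit 0) (XT.lf (nat_lit 0) (nat_lit 23504202522) (nat_lit 228) (nat_lit 4888338160) (nat_lit 304) (nat_lit 111220893382) (nat_lit 37) (nat_lit 5) (nat_lit 40) (nat_lit 5) (nat_lit 41) (nat_lit 5) (nat_lit 353) (nat_lit 337) (nat_lit 210)) (XT.nd (nat_lit 78) (nat_lit 152) (nat_lit 0) (XT.lf (nat_lit 0) (nat_lit 54104765665) (nat_lit 304) (nat_lit 42530514372) (nat_lit 76) (nat_lit 49707354224) (nat_lit 37) (nat_lit 5) (nat_lit 41) (nat_lit 5) (nat_lit 38) (nat_lit 5) (nat_lit 354) (nat_lit 337) (nat_lit 209)) (XT.lf (nat_lit 0) (nat_lit 38745065211) (nat_lit 152) (nat_lit 44187225782) (nat_lit 228) (nat_lit 70593214154)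 (nat_lit 35) (nat_lit 5) (nat_lit 37) (nat_lit 5) (nat_lit 38) (nat_lit 5) (nat_lit 355) (nat_lit 337) (nat_lit 208))))))))
noncomputable def xc195 : XT := (XT.nd (nat_lit 1404) (nat_lit 760) (nat_lit 0) (XT.nd (nat_lit 702) (nat_lit 532) (nat_lit 0) (XT.nd (nat_lit 312) (nat_lit 456) (nat_lit 0) (XT.nd (nat_lit 156) (nat_lit 228) (nat_lit 0) (XT.nd (nat_lit 78) (nat_lit 152) (nat_lit 0) (XT.lf (nat_lit 0) (nat_lit 115558213080) (nat_lit 228) (nat_lit 32578990708) (nat_lit 76) (nat_lit 13026426767) (nat_lit 35) (nat_lit 5) (nat_lit 38) (nat_lit 5) (nat_lit 36) (nat_lit 5) (nat_lit 356) (nat_lit 337) (nat_lit 207)) (XT.lf (nat_lit 0) (nat_lit 57949086042) (nat_lit 152) (nat_lit 95386101131) (nat_lit 228) (nat_lit 15874340960) (nat_lit 33) (nat_lit 5) (nat_lit 35) (nat_lit 5) (nat_lit 36) (nat_lit 5) (nat_lit 357) (nat_lit 337) (nat_lit 206))) (XT.nd (nat_lit 78) (nat_lit 152) (nat_lit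 0) (XT.lf (nat_lit 0) (nat_lit 16336561248) (nat_lit 228) (nat_lit 20669848149) (nat_lit 76) (nat_lit 140788372574) (nat_lit 32) (nat_lit 5) (nat_lit 35) (nat_lit 5) (nat_lit 33) (nat_lit 5) (nat_lit 358) (nat_lit 337) (nat_lit 205)) (XT.lf (nat_lit 0) (nat_lit 52897020865) (nat_lit 228) (nat_lit 106769091945) (nat_lit 76) (nat_lit 27157333022) (nat_lit 30) (nat_lit 5) (nat_lit 33) (nat_lit 5) (nat_lit 31) (nat_lit 5) (nat_lit 359) (nat_lit 337) (nat_lit 204)))) (XT.nd (nat_lit 156) (nat_lit 304) (nat_lit 0) (XT.nd (nat_lit 78) (nat_lit 152) (nat_lit 0) (XT.lf (nat_lit 0) (nat_lit 93922979889) (nat_lit 228) (nat_lit 7493657815) (nat_lit 76) (nat_lit 95034512377) (nat_lit 30) (nat_lit 5) (nat_lit 33) (nat_lit 5) (nat_lit 31) (nat_lit 5) (nat_lit 360) (nat_lit 337) (nat_lit 203)) (XT.lf (nat_lit 0) (nat_lit 104974518034) (nat_lit 152) (nat_lit 35780792555) (nat_lit 228) (nat_lit 65891816756)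 (nat_lit 28) (nat_lit 5) (nat_lit 30) (nat_lit 5) (nat_lit 31) (nat_lit 5) (nat_lit 361) (nat_lit 337) (nat_lit 202))) (XT.nd (nat_lit 78) (nat_lit 228) (nat_lit 0) (XT.lf (nat_lit 0) (nat_lit 8814702554) (nat_lit 76) (nat_lit 183785692230) (nat_lit 152) (nat_lit 24957094892) (nat_lit 27) (nat_lit 5) (nat_lit 28) (nat_lit 5) (nat_lit 29) (nat_lit 4) (nat_lit 362) (nat_lit 337) (nat_lit 201)) (XT.nd (nat_lit 78) (nat_lit 152) (nat_lit 0) (XT.lf (nat_lit 0) (nat_lit 22070474110) (nat_lit 152) (nat_lit 96660230601) (nat_lit 76) (nat_lit 110270442622) (nat_lit 26) (nat_lit 5) (nat_lit 28) (nat_lit 5) (nat_lit 27) (nat_lit 5) (nat_lit 363) (nat_lit 337) (nat_lit 200)) (XT.lf (nat_lit 0) (nat_lit 24990295526) (nat_lit 152) (nat_lit 47122330304) (nat_lit 228) (nat_lit 169147756388) (nat_lit 24) (nat_lit 5) (nat_lit 26) (nat_lit 5) (nat_lit 27) (nat_lit 5) (nat_lit 364) (nat_lit 337) (nat_lit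 199)))))) (XT.nd (nat_lit 312) (nat_lit 228) (nat_lit 0) (XT.nd (nat_lit 156) (nat_lit 228) (nat_lit 0) (XT.nd (nat_lit 78) (nat_lit 76) (nat_lit 0) (XT.lf (nat_lit 0) (nat_lit 129596019313) (nat_lit 228) (nat_lit 93214741161) (nat_lit 76) (nat_lit 31414566035) (nat_lit 24) (nat_lit 5) (nat_lit 27) (nat_lit 5) (nat_lit 25) (nat_lit 4) (nat_lit 365) (nat_lit 337) (nat_lit 198)) (XT.lf (nat_lit 0) (nat_lit 40485860064) (nat_lit 76) (nat_lit 153389586429) (nat_lit 152) (nat_lit 74176231042) (nat_lit 23) (nat_lit 5) (nat_lit 24) (nat_lit 5) (nat_lit 25) (nat_lit 4) (nat_lit 366) (nat_lit 337) (nat_lit 197))) (XT.nd (nat_lit 78) (nat_lit 228) (nat_lit 0) (XT.lf (nat_lit 0) (nat_lit 190183244510) (nat_lit 76) (nat_lit 75662368700) (nat_lit 152) (nat_lit 16934652762) (nat_lit 23) (nat_lit 5) (nat_lit 24) (nat_lit 5) (nat_lit 25) (nat_lit 4) (nat_lit 367) (nat_lit 337) (nat_lit 196)) (XT.lf (nat_lit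 0) (nat_lit 44220813176) (nat_lit 228) (nat_lit 243924552703) (nat_lit 76) (nat_lit 10329018226) (nat_lit 20) (nat_lit 5) (nat_lit 23) (nat_lit 5) (nat_lit 21) (nat_lit 4) (nat_lit 368) (nat_lit 337) (nat_lit 195)))) (XT.nd (nat_lit 156) (nat_lit 152) (nat_lit 0) (XT.nd (nat_lit 78) (nat_lit 76) (nat_lit 0) (XT.lf (nat_lit 0) (nat_lit 113916335023) (nat_lit 228) (nat_lit 98958313653) (nat_lit 76) (nat_lit 102149191869) (nat_lit 20) (nat_lit 5) (nat_lit 23) (nat_lit 5) (nat_lit 21) (nat_lit 4) (nat_lit 369) (nat_lit 337) (nat_lit 194)) (XT.lf (nat_lit 0) (nat_lit 60638172182) (nat_lit 76) (nat_lit 130007441283) (nat_lit 152) (nat_lit 142134990962) (nat_lit 19) (nat_lit 5) (nat_lit 20) (nat_lit 5) (nat_lit 21) (nat_lit 4) (nat_lit 370) (nat_lit 337) (nat_lit 193))) (XT.nd (nat_lit 78) (nat_lit 152) (nat_lit 0) (XT.lf (nat_lit 0) (nat_lit 238629815185) (nat_lit 76) (nat_lit 37588887564)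 (nat_lit 152) (nat_lit 75522769293) (nat_lit 19) (nat_lit 5) (nat_lit 20) (nat_lit 5) (nat_lit 21) (nat_lit 4) (nat_lit 371) (nat_lit 337) (nat_lit 192)) (XT.nd (nat_lit 78) (nat_lit 76) (nat_lit 0) (XT.lf (nat_lit 0) (nat_lit 60153860748) (nat_lit 76) (nat_lit 311426734172) (nat_lit 76) (nat_lit 403177788) (nat_lit 18) (nat_lit 4) (nat_lit 19) (nat_lit 5) (nat_lit 19) (nat_lit 4) (nat_lit 372) (nat_lit 337) (nat_lit 191)) (XT.lf (nat_lit 0) (nat_lit 80836864491) (nat_lit 152) (nat_lit 142883182047) (nat_lit 76) (nat_lit 169638164112) (nat_lit 17) (nat_lit 5) (nat_lit 19) (nat_lit 5) (nat_lit 18) (nat_lit 4) (nat_lit 373) (nat_lit 337) (nat_lit 190))))))) (XT.nd (nat_lit 702) (nat_lit 380) (nat_lit 0) (XT.nd (nat_lit 312) (nat_lit 152) (nat_lit 0) (XT.nd (nat_lit 156) (nat_lit 152) (nat_lit 0) (XT.nd (nat_lit 78) (nat_lit 0) (nat_lit 0) (XT.lf (nat_lit 0) (nat_lit 41652054991) (nat_lit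 76) (nat_lit 127903808703) (nat_lit 152) (nat_lit 246805779393) (nat_lit 16) (nat_lit 5) (nat_lit 17) (nat_lit 5) (nat_lit 18) (nat_lit 4) (nat_lit 374) (nat_lit 337) (nat_lit 189)) (XT.lf (nat_lit 0) (nat_lit 249075649767) (nat_lit 76) (nat_lit 20203221254) (nat_lit 152) (nat_lit 171613960115) (nat_lit 16) (nat_lit 5) (nat_lit 17) (nat_lit 5) (nat_lit 18) (nat_lit 4) (nat_lit 375) (nat_lit 337) (nat_lit 188))) (XT.nd (nat_lit 78) (nat_lit 76) (nat_lit 0) (XT.lf (nat_lit 0) (nat_lit 3573510736) (nat_lit 76) (nat_lit 375803500429) (nat_lit 76) (nat_lit 87817719753) (nat_lit 15) (nat_lit 4) (nat_lit 16) (nat_lit 5) (nat_lit 16) (nat_lit 4) (nat_lit 376) (nat_lit 337) (nat_lit 187)) (XT.lf (nat_lit 0) (nat_lit 8453469082) (nat_lit 152) (nat_lit 270402771750) (nat_lit 76) (nat_lit 216266947334) (nat_lit 14) (nat_lit 5) (nat_lit 16) (nat_lit 5) (nat_lit 15) (nat_lit 4) (nat_lit 377) (nat_lit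 337) (nat_lit 186)))) (XT.nd (nat_lit 156) (nat_lit 76) (nat_lit 0) (XT.nd (nat_lit 78) (nat_lit 76) (nat_lit 0) (XT.lf (nat_lit 0) (nat_lit 107681748645) (nat_lit 152) (nat_lit 64008141707) (nat_lit 76) (nat_lit 353413566637) (nat_lit 14) (nat_lit 5) (nat_lit 16) (nat_lit 5) (nat_lit 15) (nat_lit 4) (nat_lit 378) (nat_lit 337) (nat_lit 185)) (XT.lf (nat_lit 0) (nat_lit 167265042350) (nat_lit 76) (nat_lit 51605822317) (nat_lit 152) (nat_lit 338289476775) (nat_lit 13) (nat_lit 5) (nat_lit 14) (nat_lit 5) (nat_lit 15) (nat_lit 4) (nat_lit 379) (nat_lit 337) (nat_lit 184))) (XT.nd (nat_lit 78) (nat_lit 76) (nat_lit 0) (XT.lf (nat_lit 0) (nat_lit 342628455641) (nat_lit 152) (nat_lit 172885183221) (nat_lit 0) (nat_lit 75974270182) (nat_lit 13) (nat_lit 5) (nat_lit 15) (nat_lit 4) (nat_lit 13) (nat_lit 4) (nat_lit 380) (nat_lit 337) (nat_lit 183)) (XT.nd (nat_lit 78) (nat_lit 0) (nat_lit 0)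 (XT.lf (nat_lit 0) (nat_lit 63312192255) (nat_lit 76) (nat_lit 415837390842) (nat_lit 76) (nat_lit 149183064661) (nat_lit 12) (nat_lit 4) (nat_lit 13) (nat_lit 5) (nat_lit 13) (nat_lit 4) (nat_lit 381) (nat_lit 337) (nat_lit 182)) (XT.lf (nat_lit 0) (nat_lit 328237227222) (nat_lit 76) (nat_lit 303082023437) (nat_lit 76) (nat_lit 36427566959) (nat_lit 12) (nat_lit 4) (nat_lit 13) (nat_lit 5) (nat_lit 13) (nat_lit 4) (nat_lit 382) (nat_lit 337) (nat_lit 181)))))) (XT.nd (nat_lit 312) (nat_lit 228) (nat_lit 0) (XT.nd (nat_lit 156) (nat_lit 0) (nat_lit 0) (XT.nd (nat_lit 78) (nat_lit 76) (nat_lit 0) (XT.lf (nat_lit 0) (nat_lit 81078768857) (nat_lit 152) (nat_lit 98010737898) (nat_lit 76) (nat_lit 531060414359) (nat_lit 11) (nat_lit 5) (nat_lit 13) (nat_lit 5) (nat_lit 12) (nat_lit 4) (nat_lit 383) (nat_lit 337) (nat_lit 180)) (XT.lf (nat_lit 0) (nat_lit 170384965437) (nat_lit 76) (nat_lit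 39730252961) (nat_lit 152) (nat_lit 545426549547) (nat_lit 10) (nat_lit 5) (nat_lit 11) (nat_lit 5) (nat_lit 12) (nat_lit 4) (nat_lit 384) (nat_lit 337) (nat_lit 179))) (XT.nd (nat_lit 78) (nat_lit 0) (nat_lit 0) (XT.lf (nat_lit 0) (nat_lit 354888063358) (nat_lit 152) (nat_lit 341258342910) (nat_lit 0) (nat_lit 107985477926) (nat_lit 10) (nat_lit 5) (nat_lit 12) (nat_lit 4) (nat_lit 10) (nat_lit 4) (nat_lit 385) (nat_lit 337) (nat_lit 178)) (XT.lf (nat_lit 0) (nat_lit 512274579415) (nat_lit 152) (nat_lit 78880177571) (nat_lit 0) (nat_lit 265371905305) (nat_lit 10) (nat_lit 5) (nat_lit 12) (nat_lit 4) (nat_lit 10) (nat_lit 4) (nat_lit 386) (nat_lit 337) (nat_lit 177)))) (XT.nd (nat_lit 156) (nat_lit 152) (nat_lit 0) (XT.nd (nat_lit 78) (nat_lit 0) (nat_lit 0) (XT.lf (nat_lit 0) (nat_lit 215256018456) (nat_lit 76) (nat_lit 472172807830) (nat_lit 76) (nat_lit 225270051610) (nat_lit 9) (nat_lit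 4) (nat_lit 10) (nat_lit 5) (nat_lit 10) (nat_lit 4) (nat_lit 387) (nat_lit 337) (nat_lit 176)) (XT.lf (nat_lit 0) (nat_lit 537408900457) (nat_lit 76) (nat_lit 341343136327) (nat_lit 76) (nat_lit 94440304080) (nat_lit 9) (nat_lit 4) (nat_lit 10) (nat_lit 5) (nat_lit 10) (nat_lit 4) (nat_lit 388) (nat_lit 337) (nat_lit 175))) (XT.nd (nat_lit 78) (nat_lit 76) (nat_lit 0) (XT.lf (nat_lit 0) (nat_lit 44511810220) (nat_lit 152) (nat_lit 154318337383) (nat_lit 76) (nat_lit 839604990190) (nat_lit 8) (nat_lit 5) (nat_lit 10) (nat_lit 5) (nat_lit 9) (nat_lit 4) (nat_lit 389) (nat_lit 337) (nat_lit 174)) (XT.nd (nat_lit 78) (nat_lit 0) (nat_lit 0) (XT.lf (nat_lit 0) (nat_lit 154962667093) (nat_lit 76) (nat_lit 38241965078) (nat_lit 152) (nat_lit 915198345298) (nat_lit 7) (nat_lit 5) (nat_lit 8) (nat_lit 5) (nat_lit 9) (nat_lit 4) (nat_lit 390) (nat_lit 337) (nat_lit 173)) (XT.lf (nat_lit 0) (nat_lit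 361373123859) (nat_lit 152) (nat_lit 689229492077) (nat_lit 0) (nat_lit 132759208881) (nat_lit 7) (nat_lit 5) (nat_lit 9) (nat_lit 4) (nat_lit 7) (nat_lit 4) (nat_lit 391) (nat_lit 337) (nat_lit 172))))))))
noncomputable def xc196 : XT := (XT.nd (nat_lit 1404) (nat_lit 0) (nat_lit 0) (XT.nd (nat_lit 702) (nat_lit 76) (nat_lit 0) (XT.nd (nat_lit 312) (nat_lit 152) (nat_lit 0) (XT.nd (nat_lit 156) (nat_lit 76) (nat_lit 0) (XT.nd (nat_lit 78) (nat_lit 0) (nat_lit 0) (XT.lf (nat_lit 0) (nat_lit 543988311706) (nat_lit 152) (nat_lit 404875265930) (nat_lit 0) (nat_lit 315374344985) (nat_lit 7) (nat_lit 5) (nat_lit 9) (nat_lit 4) (nat_lit 7) (nat_lit 4) (nat_lit 392) (nat_lit 337) (nat_lit 171)) (XT.lf (nat_lit 0) (nat_lit 741212639610) (nat_lit 152) (nat_lit 97772849676) (nat_lit 0) (nat_lit 512598624979) (nat_lit 7) (nat_lit 5) (nat_lit 9) (nat_lit 4) (nat_lit 7) (nat_lit 4) (nat_lit 393) (nat_lit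 337) (nat_lit 170))) (XT.nd (nat_lit 78) (nat_lit 0) (nat_lit 0) (XT.lf (nat_lit 0) (nat_lit 246214257173) (nat_lit 76) (nat_lit 713922045960) (nat_lit 76) (nat_lit 485307986967) (nat_lit 6) (nat_lit 4) (nat_lit 7) (nat_lit 5) (nat_lit 7) (nat_lit 4) (nat_lit 394) (nat_lit 337) (nat_lit 169)) (XT.lf (nat_lit 0) (nat_lit 623280627614) (nat_lit 76) (nat_lit 575966447615) (nat_lit 76) (nat_lit 347352347547) (nat_lit 6) (nat_lit 4) (nat_lit 7) (nat_lit 5) (nat_lit 7) (nat_lit 4) (nat_lit 395) (nat_lit 337) (nat_lit 168)))) (XT.nd (nat_lit 156) (nat_lit 152) (nat_lit 0) (XT.nd (nat_lit 78) (nat_lit 0) (nat_lit 0) (XT.lf (nat_lit 0) (nat_lit 1030512184030) (nat_lit 76) (nat_lit 426974462574) (nat_lit 76) (nat_lit 198360324474) (nat_lit 6) (nat_lit 4) (nat_lit 7) (nat_lit 5) (nat_lit 7) (nat_lit 4) (nat_lit 396) (nat_lit 337) (nat_lit 167)) (XT.lf (nat_lit 0) (nat_lit 1470322150458) (nat_lit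 76) (nat_lit 266063175369) (nat_lit 76) (nat_lit 37449002054) (nat_lit 6) (nat_lit 4) (nat_lit 7) (nat_lit 5) (nat_lit 7) (nat_lit 4) (nat_lit 397) (nat_lit 337) (nat_lit 166))) (XT.nd (nat_lit 78) (nat_lit 0) (nat_lit 0) (XT.lf (nat_lit 0) (nat_lit 42924525174) (nat_lit 76) (nat_lit 87622941699) (nat_lit 152) (nat_lit 1770368314659) (nat_lit 4) (nat_lit 5) (nat_lit 5) (nat_lit 5) (nat_lit 6) (nat_lit 4) (nat_lit 398) (nat_lit 337) (nat_lit 165)) (XT.nd (nat_lit 78) (nat_lit 0) (nat_lit 0) (XT.lf (nat_lit 0) (nat_lit 321001965021) (nat_lit 152) (nat_lit 1606878531142) (nat_lit 0) (nat_lit 109322116768) (nat_lit 4) (nat_lit 5) (nat_lit 6) (nat_lit 4) (nat_lit 4) (nat_lit 4) (nat_lit 399) (nat_lit 337) (nat_lit 164)) (XT.lf (nat_lit 0) (nat_lit 528968692915) (nat_lit 152) (nat_lit 1337952809566) (nat_lit 0) (nat_lit 317288818778) (nat_lit 4) (nat_lit 5) (nat_lit 6) (nat_lit 4) (nat_lit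 4) (nat_lit 4) (nat_lit 400) (nat_lit 337) (nat_lit 163)))))) (XT.nd (nat_lit 312) (nat_lit 76) (nat_lit 0) (XT.nd (nat_lit 156) (nat_lit 0) (nat_lit 0) (XT.nd (nat_lit 78) (nat_lit 0) (nat_lit 0) (XT.lf (nat_lit 0) (nat_lit 753572712124) (nat_lit 152) (nat_lit 1047513123872) (nat_lit 0) (nat_lit 541892814019) (nat_lit 4) (nat_lit 5) (nat_lit 6) (nat_lit 4) (nat_lit 4) (nat_lit 4) (nat_lit 401) (nat_lit 337) (nat_lit 162)) (XT.lf (nat_lit 0) (nat_lit 996145009428) (nat_lit 152) (nat_lit 733838349994) (nat_lit 0) (nat_lit 784465089131) (nat_lit 4) (nat_lit 5) (nat_lit 6) (nat_lit 4) (nat_lit 4) (nat_lit 4) (nat_lit 402) (nat_lit 337) (nat_lit 161))) (XT.nd (nat_lit 78) (nat_lit 0) (nat_lit 0) (XT.lf (nat_lit 0) (nat_lit 1258123050292) (nat_lit 152) (nat_lit 395069674459) (nat_lit 0) (nat_lit 1046443109447) (nat_lit 4) (nat_lit 5) (nat_lit 6) (nat_lit 4) (nat_lit 4) (nat_lit 4) (nat_lit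 403) (nat_lit 337) (nat_lit 160)) (XT.lf (nat_lit 0) (nat_lit 1541059297181) (nat_lit 152) (nat_lit 29199579188) (nat_lit 0) (nat_lit 1329379337311) (nat_lit 4) (nat_lit 5) (nat_lit 6) (nat_lit 4) (nat_lit 4) (nat_lit 4) (nat_lit 404) (nat_lit 337) (nat_lit 159)))) (XT.nd (nat_lit 156) (nat_lit 0) (nat_lit 0) (XT.nd (nat_lit 78) (nat_lit 0) (nat_lit 0) (XT.lf (nat_lit 0) (nat_lit 385209809689) (nat_lit 76) (nat_lit 1470684904833) (nat_lit 76) (nat_lit 1259004927347) (nat_lit 3) (nat_lit 4) (nat_lit 4) (nat_lit 5) (nat_lit 4) (nat_lit 4) (nat_lit 405) (nat_lit 337) (nat_lit 158)) (XT.lf (nat_lit 0) (nat_lit 834432488557) (nat_lit 76) (nat_lit 1362282811392) (nat_lit 76) (nat_lit 1150602817594) (nat_lit 3) (nat_lit 4) (nat_lit 4) (nat_lit 5) (nat_lit 4) (nat_lit 4) (nat_lit 406) (nat_lit 337) (nat_lit 157))) (XT.nd (nat_lit 78) (nat_lit 0) (nat_lit 0) (XT.lf (nat_lit 0) (nat_lit 1319592919641)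 (nat_lit 76) (nat_lit 1245208581510) (nat_lit 76) (nat_lit 1033528572609) (nat_lit 3) (nat_lit 4) (nat_lit 4) (nat_lit 5) (nat_lit 4) (nat_lit 4) (nat_lit 407) (nat_lit 337) (nat_lit 156)) (XT.nd (nat_lit 78) (nat_lit 0) (nat_lit 0) (XT.lf (nat_lit 0) (nat_lit 1843566127717) (nat_lit 76) (nat_lit 1118768441974) (nat_lit 76) (nat_lit 907088419089) (nat_lit 3) (nat_lit 4) (nat_lit 4) (nat_lit 5) (nat_lit 4) (nat_lit 4) (nat_lit 408) (nat_lit 337) (nat_lit 155)) (XT.lf (nat_lit 0) (nat_lit 2409457139203) (nat_lit 76) (nat_lit 982213117883) (nat_lit 76) (nat_lit 770533082049) (nat_lit 3) (nat_lit 4) (nat_lit 4) (nat_lit 5) (nat_lit 4) (nat_lit 4) (nat_lit 409) (nat_lit 337) (nat_lit 154))))))) (XT.nd (nat_lit 41808) (nat_lit 0) (nat_lit 2812) (XT.nd (nat_lit 41418) (nat_lit 0) (nat_lit 3800) (XT.nd (nat_lit 41262) (nat_lit 0) (nat_lit 4180) (XT.nd (nat_lit 78) (nat_lit 0) (nat_lit 0) (XT.lf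 (nat_lit 0) (nat_lit 3020619382316) (nat_lit 76) (nat_lit 834733392501) (nat_lit 76) (nat_lit 623053344678) (nat_lit 3) (nat_lit 4) (nat_lit 4) (nat_lit 5) (nat_lit 4) (nat_lit 4) (nat_lit 410) (nat_lit 337) (nat_lit 153)) (XT.lf (nat_lit 0) (nat_lit 3680674559237) (nat_lit 76) (nat_lit 675455311901) (nat_lit 76) (nat_lit 463775252976) (nat_lit 3) (nat_lit 4) (nat_lit 4) (nat_lit 5) (nat_lit 4) (nat_lit 4) (nat_lit 411) (nat_lit 337) (nat_lit 152))) (XT.nd (nat_lit 78) (nat_lit 0) (nat_lit 0) (XT.lf (nat_lit 0) (nat_lit 30748560652) (nat_lit 532) (nat_lit 3587440713) (nat_lit 532) (nat_lit 3587440713) (nat_lit 58) (nat_lit 3) (nat_lit 65) (nat_lit 3) (nat_lit 65) (nat_lit 5) (nat_lit 338) (nat_lit 338) (nat_lit 224)) (XT.lf (nat_lit 76) (nat_lit 30617387121) (nat_lit 0) (nat_lit 34086545775) (nat_lit 532) (nat_lit 14117056627) (nat_lit 59) (nat_lit 5) (nat_lit 58) (nat_lit 3) (nat_lit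 65) (nat_lit 5) (nat_lit 339) (nat_lit 338) (nat_lit 223)))) (XT.nd (nat_lit 156) (nat_lit 456) (nat_lit 0) (XT.nd (nat_lit 78) (nat_lit 0) (nat_lit 0) (XT.lf (nat_lit 0) (nat_lit 68446038661) (nat_lit 456) (nat_lit 10260588253) (nat_lit 532) (nat_lit 3304098054) (nat_lit 59) (nat_lit 5) (nat_lit 65) (nat_lit 5) (nat_lit 66) (nat_lit 5) (nat_lit 340) (nat_lit 338) (nat_lit 222)) (XT.lf (nat_lit 76) (nat_lit 31402745523) (nat_lit 0) (nat_lit 42724386132) (nat_lit 532) (nat_lit 11197339560) (nat_lit 60) (nat_lit 5) (nat_lit 59) (nat_lit 5) (nat_lit 66) (nat_lit 5) (nat_lit 341) (nat_lit 338) (nat_lit 221))) (XT.nd (nat_lit 78) (nat_lit 456) (nat_lit 0) (XT.lf (nat_lit 76) (nat_lit 76982041990) (nat_lit 0) (nat_lit 3560287508) (nat_lit 532) (nat_lit 8338619631) (nat_lit 60) (nat_lit 5) (nat_lit 59) (nat_lit 5) (nat_lit 66) (nat_lit 5) (nat_lit 342) (nat_lit 338) (nat_lit 220)) (XT.nd (nat_lit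 78) (nat_lit 532) (nat_lit 0) (XT.lf (nat_lit 76) (nat_lit 34267657392) (nat_lit 0) (nat_lit 54957997871) (nat_lit 532) (nat_lit 3355898305) (nat_lit 61) (nat_lit 5) (nat_lit 60) (nat_lit 5) (nat_lit 67) (nat_lit 5) (nat_lit 343) (nat_lit 338) (nat_lit 219)) (XT.lf (nat_lit 0) (nat_lit 2349557795) (nat_lit 532) (nat_lit 11898258062) (nat_lit 608) (nat_lit 82292459608) (nat_lit 53) (nat_lit 5) (nat_lit 60) (nat_lit 5) (nat_lit 61) (nat_lit 5) (nat_lit 344) (nat_lit 338) (nat_lit 218)))))) (XT.nd (nat_lit 312) (nat_lit 684) (nat_lit 0) (XT.nd (nat_lit 156) (nat_lit 380) (nat_lit 0) (XT.nd (nat_lit 78) (nat_lit 0) (nat_lit 0) (XT.lf (nat_lit 0) (nat_lit 10037117915) (nat_lit 532) (nat_lit 61322268571) (nat_lit 76) (nat_lit 29312778478) (nat_lit 54) (nat_lit 5) (nat_lit 61) (nat_lit 5) (nat_lit 55) (nat_lit 5) (nat_lit 345) (nat_lit 338) (nat_lit 217)) (XT.lf (nat_lit 0) (nat_lit 19042805661)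 (nat_lit 532) (nat_lit 10113219114) (nat_lit 76) (nat_lit 75922331946) (nat_lit 54) (nat_lit 5) (nat_lit 61) (nat_lit 5) (nat_lit 55) (nat_lit 5) (nat_lit 346) (nat_lit 338) (nat_lit 216))) (XT.nd (nat_lit 78) (nat_lit 0) (nat_lit 0) (XT.lf (nat_lit 0) (nat_lit 30337087144) (nat_lit 456) (nat_lit 62598628130) (nat_lit 76) (nat_lit 16775878304) (nat_lit 49) (nat_lit 5) (nat_lit 55) (nat_lit 5) (nat_lit 50) (nat_lit 5) (nat_lit 347) (nat_lit 338) (nat_lit 215)) (XT.lf (nat_lit 0) (nat_lit 43575274528) (nat_lit 456) (nat_lit 5966126077) (nat_lit 76) (nat_lit 65090860503) (nat_lit 49) (nat_lit 5) (nat_lit 55) (nat_lit 5) (nat_lit 50) (nat_lit 5) (nat_lit 348) (nat_lit 338) (nat_lit 214)))) (XT.nd (nat_lit 156) (nat_lit 228) (nat_lit 0) (XT.nd (nat_lit 78) (nat_lit 228) (nat_lit 0) (XT.lf (nat_lit 0) (nat_lit 58102899260) (nat_lit 228) (nat_lit 1166409082) (nat_lit 304) (nat_lit 60565531119)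 (nat_lit 46) (nat_lit 5) (nat_lit 49) (nat_lit 5) (nat_lit 50) (nat_lit 5) (nat_lit 349) (nat_lit 338) (nat_lit 213)) (XT.lf (nat_lit 0) (nat_lit 1013547455) (nat_lit 228) (nat_lit 76624938788) (nat_lit 304) (nat_lit 47701568808) (nat_lit 43) (nat_lit 5) (nat_lit 46) (nat_lit 5) (nat_lit 47) (nat_lit 5) (nat_lit 350) (nat_lit 338) (nat_lit 212))) (XT.nd (nat_lit 78) (nat_lit 228) (nat_lit 0) (XT.lf (nat_lit 0) (nat_lit 72256901416) (nat_lit 228) (nat_lit 26937155993) (nat_lit 304) (nat_lit 31954282387) (nat_lit 43) (nat_lit 5) (nat_lit 46) (nat_lit 5) (nat_lit 47) (nat_lit 5) (nat_lit 351) (nat_lit 338) (nat_lit 211)) (XT.nd (nat_lit 78) (nat_lit 76) (nat_lit 0) (XT.lf (nat_lit 0) (nat_lit 11721414395) (nat_lit 152) (nat_lit 111676818828) (nat_lit 228) (nat_lit 13949121965) (nat_lit 41) (nat_lit 5) (nat_lit 43) (nat_lit 5) (nat_lit 44) (nat_lit 5) (nat_lit 352) (nat_lit 338) (nat_lit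 210)) (XT.lf (nat_lit 0) (nat_lit 7572697870) (nat_lit 228) (nat_lit 53455284243) (nat_lit 76) (nat_lit 82815638910) (nat_lit 40) (nat_lit 5) (nat_lit 43) (nat_lit 5) (nat_lit 41) (nat_lit 5) (nat_lit 353) (nat_lit 338) (nat_lit 209))))))))
noncomputable def xc197 : XT := (XT.nd (nat_lit 1404) (nat_lit 760) (nat_lit 0) (XT.nd (nat_lit 702) (nat_lit 684) (nat_lit 0) (XT.nd (nat_lit 312) (nat_lit 532) (nat_lit 0) (XT.nd (nat_lit 156) (nat_lit 152) (nat_lit 0) (XT.nd (nat_lit 78) (nat_lit 0) (nat_lit 0) (XT.lf (nat_lit 0) (nat_lit 25396563419) (nat_lit 228) (nat_lit 5276424206) (nat_lit 304) (nat_lit 120108788634) (nat_lit 37) (nat_lit 5) (nat_lit 40) (nat_lit 5) (nat_lit 41) (nat_lit 5) (nat_lit 354) (nat_lit 338) (nat_lit 208)) (XT.lf (nat_lit 0) (nat_lit 58441587086) (nat_lit 304) (nat_lit 45921209658) (nat_lit 76) (nat_lit 53686564677) (nat_lit 37) (nat_lit 5) (nat_lit 41) (nat_lit 5)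 (nat_lit 38) (nat_lit 5) (nat_lit 355) (nat_lit 338) (nat_lit 207))) (XT.nd (nat_lit 78) (nat_lit 0) (nat_lit 0) (XT.lf (nat_lit 0) (nat_lit 41856118928) (nat_lit 152) (nat_lit 47718845651) (nat_lit 228) (nat_lit 76231926008) (nat_lit 35) (nat_lit 5) (nat_lit 37) (nat_lit 5) (nat_lit 38) (nat_lit 5) (nat_lit 356) (nat_lit 338) (nat_lit 206)) (XT.lf (nat_lit 0) (nat_lit 124810435933) (nat_lit 228) (nat_lit 35174177828) (nat_lit 76) (nat_lit 14071494800) (nat_lit 35) (nat_lit 5) (nat_lit 38) (nat_lit 5) (nat_lit 36) (nat_lit 5) (nat_lit 357) (nat_lit 338) (nat_lit 205)))) (XT.nd (nat_lit 156) (nat_lit 304) (nat_lit 0) (XT.nd (nat_lit 78) (nat_lit 76) (nat_lit 0) (XT.lf (nat_lit 0) (nat_lit 62595863236) (nat_lit 152) (nat_lit 103013405239) (nat_lit 228) (nat_lit 17136433961) (nat_lit 33) (nat_lit 5) (nat_lit 35) (nat_lit 5) (nat_lit 36) (nat_lit 5) (nat_lit 358) (nat_lit 338) (nat_lit 204))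 (XT.lf (nat_lit 0) (nat_lit 17650394826) (nat_lit 228) (nat_lit 22313019925) (nat_lit 76) (nat_lit 152054391390) (nat_lit 32) (nat_lit 5) (nat_lit 35) (nat_lit 5) (nat_lit 33) (nat_lit 5) (nat_lit 359) (nat_lit 338) (nat_lit 203))) (XT.nd (nat_lit 78) (nat_lit 152) (nat_lit 0) (XT.lf (nat_lit 0) (nat_lit 57135508070) (nat_lit 228) (nat_lit 115300014809) (nat_lit 76) (nat_lit 29333255304) (nat_lit 30) (nat_lit 5) (nat_lit 33) (nat_lit 5) (nat_lit 31) (nat_lit 5) (nat_lit 360) (nat_lit 338) (nat_lit 202)) (XT.nd (nat_lit 78) (nat_lit 152) (nat_lit 0) (XT.lf (nat_lit 0) (nat_lit 101443045628) (nat_lit 228) (nat_lit 8083331467) (nat_lit 76) (nat_lit 102640361923) (nat_lit 30) (nat_lit 5) (nat_lit 33) (nat_lit 5) (nat_lit 31) (nat_lit 5) (nat_lit 361) (nat_lit 338) (nat_lit 201)) (XT.lf (nat_lit 0) (nat_lit 113382049868) (nat_lit 152) (nat_lit 38639681798) (nat_lit 228) (nat_lit 71156681647)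 (nat_lit 28) (nat_lit 5) (nat_lit 30) (nat_lit 5) (nat_lit 31) (nat_lit 5) (nat_lit 362) (nat_lit 338) (nat_lit 200)))))) (XT.nd (nat_lit 312) (nat_lit 380) (nat_lit 0) (XT.nd (nat_lit 156) (nat_lit 152) (nat_lit 0) (XT.nd (nat_lit 78) (nat_lit 76) (nat_lit 0) (XT.lf (nat_lit 0) (nat_lit 9529595040) (nat_lit 76) (nat_lit 198484696661) (nat_lit 152) (nat_lit 26947323738) (nat_lit 27) (nat_lit 5) (nat_lit 28) (nat_lit 5) (nat_lit 29) (nat_lit 4) (nat_lit 363) (nat_lit 338) (nat_lit 199)) (XT.lf (nat_lit 0) (nat_lit 23841687647) (nat_lit 152) (nat_lit 104383755303) (nat_lit 76) (nat_lit 119095346534) (nat_lit 26) (nat_lit 5) (nat_lit 28) (nat_lit 5) (nat_lit 27) (nat_lit 5) (nat_lit 364) (nat_lit 338) (nat_lit 198))) (XT.nd (nat_lit 78) (nat_lit 0) (nat_lit 0) (XT.lf (nat_lit 0) (nat_lit 26998577630) (nat_lit 152) (nat_lit 50888438723) (nat_lit 228) (nat_lit 182673762684) (nat_lit 24) (nat_lit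 5) (nat_lit 26) (nat_lit 5) (nat_lit 27) (nat_lit 5) (nat_lit 365) (nat_lit 338) (nat_lit 197)) (XT.lf (nat_lit 0) (nat_lit 139968764666) (nat_lit 228) (nat_lit 100663213264) (nat_lit 76) (nat_lit 33930966519) (nat_lit 24) (nat_lit 5) (nat_lit 27) (nat_lit 5) (nat_lit 25) (nat_lit 4) (nat_lit 366) (nat_lit 338) (nat_lit 196)))) (XT.nd (nat_lit 156) (nat_lit 304) (nat_lit 0) (XT.nd (nat_lit 78) (nat_lit 0) (nat_lit 0) (XT.lf (nat_lit 0) (nat_lit 43733215624) (nat_lit 76) (nat_lit 165657159407) (nat_lit 152) (nat_lit 80105042434) (nat_lit 23) (nat_lit 5) (nat_lit 24) (nat_lit 5) (nat_lit 25) (nat_lit 4) (nat_lit 367) (nat_lit 338) (nat_lit 195)) (XT.lf (nat_lit 0) (nat_lit 205405762176) (nat_lit 76) (nat_lit 81712030477) (nat_lit 152) (nat_lit 18284529529) (nat_lit 23) (nat_lit 5) (nat_lit 24) (nat_lit 5) (nat_lit 25) (nat_lit 4) (nat_lit 368) (nat_lit 338) (nat_lit 194))) (XT.nd (nat_lit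 78) (nat_lit 76) (nat_lit 0) (XT.lf (nat_lit 0) (nat_lit 47763056179) (nat_lit 228) (nat_lit 263430336604) (nat_lit 76) (nat_lit 11158573552) (nat_lit 20) (nat_lit 5) (nat_lit 23) (nat_lit 5) (nat_lit 21) (nat_lit 4) (nat_lit 369) (nat_lit 338) (nat_lit 193)) (XT.nd (nat_lit 78) (nat_lit 76) (nat_lit 0) (XT.lf (nat_lit 0) (nat_lit 123033880666) (nat_lit 228) (nat_lit 106867404380) (nat_lit 76) (nat_lit 110324121541) (nat_lit 20) (nat_lit 5) (nat_lit 23) (nat_lit 5) (nat_lit 21) (nat_lit 4) (nat_lit 370) (nat_lit 338) (nat_lit 192)) (XT.lf (nat_lit 0) (nat_lit 65496608566) (nat_lit 76) (nat_lit 140404756381) (nat_lit 152) (nat_lit 153501357703) (nat_lit 19) (nat_lit 5) (nat_lit 20) (nat_lit 5) (nat_lit 21) (nat_lit 4) (nat_lit 371) (nat_lit 338) (nat_lit 191))))))) (XT.nd (nat_lit 702) (nat_lit 304) (nat_lit 0) (XT.nd (nat_lit 312) (nat_lit 228) (nat_lit 0) (XT.nd (nat_lit 156) (nat_lit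 152) (nat_lit 0) (XT.nd (nat_lit 78) (nat_lit 76) (nat_lit 0) (XT.lf (nat_lit 0) (nat_lit 257727036150) (nat_lit 76) (nat_lit 40592961343) (nat_lit 152) (nat_lit 81560486636) (nat_lit 19) (nat_lit 5) (nat_lit 20) (nat_lit 5) (nat_lit 21) (nat_lit 4) (nat_lit 372) (nat_lit 338) (nat_lit 190)) (XT.lf (nat_lit 0) (nat_lit 64973059043) (nat_lit 76) (nat_lit 336337733948) (nat_lit 76) (nat_lit 431379833) (nat_lit 18) (nat_lit 4) (nat_lit 19) (nat_lit 5) (nat_lit 19) (nat_lit 4) (nat_lit 373) (nat_lit 338) (nat_lit 189))) (XT.nd (nat_lit 78) (nat_lit 76) (nat_lit 0) (XT.lf (nat_lit 0) (nat_lit 87307377976) (nat_lit 152) (nat_lit 154307268388) (nat_lit 76) (nat_lit 183211934567) (nat_lit 17) (nat_lit 5) (nat_lit 19) (nat_lit 5) (nat_lit 18) (nat_lit 4) (nat_lit 374) (nat_lit 338) (nat_lit 188)) (XT.lf (nat_lit 0) (nat_lit 44990621329) (nat_lit 76) (nat_lit 138133165728) (nat_lit 152) (nat_lit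 266546509816) (nat_lit 16) (nat_lit 5) (nat_lit 17) (nat_lit 5) (nat_lit 18) (nat_lit 4) (nat_lit 375) (nat_lit 338) (nat_lit 187)))) (XT.nd (nat_lit 156) (nat_lit 152) (nat_lit 0) (XT.nd (nat_lit 78) (nat_lit 76) (nat_lit 0) (XT.lf (nat_lit 0) (nat_lit 269007629470) (nat_lit 76) (nat_lit 21816749629) (nat_lit 152) (nat_lit 185339621434) (nat_lit 16) (nat_lit 5) (nat_lit 17) (nat_lit 5) (nat_lit 18) (nat_lit 4) (nat_lit 376) (nat_lit 338) (nat_lit 186)) (XT.lf (nat_lit 0) (nat_lit 3865355853) (nat_lit 76) (nat_lit 405864981902) (nat_lit 76) (nat_lit 94839717250) (nat_lit 15) (nat_lit 4) (nat_lit 16) (nat_lit 5) (nat_lit 16) (nat_lit 4) (nat_lit 377) (nat_lit 338) (nat_lit 185))) (XT.nd (nat_lit 78) (nat_lit 76) (nat_lit 0) (XT.lf (nat_lit 0) (nat_lit 9132754939) (nat_lit 152) (nat_lit 292029311645) (nat_lit 76) (nat_lit 233570734998) (nat_lit 14) (nat_lit 5) (nat_lit 16) (nat_lit 5) (nat_lit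 15) (nat_lit 4) (nat_lit 378) (nat_lit 338) (nat_lit 184)) (XT.nd (nat_lit 78) (nat_lit 76) (nat_lit 0) (XT.lf (nat_lit 0) (nat_lit 116299074028) (nat_lit 152) (nat_lit 69123532077) (nat_lit 76) (nat_lit 381688903706) (nat_lit 14) (nat_lit 5) (nat_lit 16) (nat_lit 5) (nat_lit 15) (nat_lit 4) (nat_lit 379) (nat_lit 338) (nat_lit 183)) (XT.lf (nat_lit 0) (nat_lit 180651373516) (nat_lit 76) (nat_lit 55731862806) (nat_lit 152) (nat_lit 365349715405) (nat_lit 13) (nat_lit 5) (nat_lit 14) (nat_lit 5) (nat_lit 15) (nat_lit 4) (nat_lit 380) (nat_lit 338) (nat_lit 182)))))) (XT.nd (nat_lit 312) (nat_lit 152) (nat_lit 0) (XT.nd (nat_lit 156) (nat_lit 76) (nat_lit 0) (XT.nd (nat_lit 78) (nat_lit 76) (nat_lit 0) (XT.lf (nat_lit 0) (nat_lit 370041288398) (nat_lit 152) (nat_lit 186711102990) (nat_lit 0) (nat_lit 82054345105) (nat_lit 13) (nat_lit 5) (nat_lit 15) (nat_lit 4) (nat_lit 13) (nat_lit 4)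 (nat_lit 381) (nat_lit 338) (nat_lit 181)) (XT.lf (nat_lit 0) (nat_lit 68381938603) (nat_lit 76) (nat_lit 449102092834) (nat_lit 76) (nat_lit 161115028895) (nat_lit 12) (nat_lit 4) (nat_lit 13) (nat_lit 5) (nat_lit 13) (nat_lit 4) (nat_lit 382) (nat_lit 338) (nat_lit 180))) (XT.nd (nat_lit 78) (nat_lit 76) (nat_lit 0) (XT.lf (nat_lit 0) (nat_lit 354500622962) (nat_lit 76) (nat_lit 327326465612) (nat_lit 76) (nat_lit 39339289964) (nat_lit 12) (nat_lit 4) (nat_lit 13) (nat_lit 5) (nat_lit 13) (nat_lit 4) (nat_lit 383) (nat_lit 338) (nat_lit 179)) (XT.lf (nat_lit 0) (nat_lit 87567253861) (nat_lit 152) (nat_lit 105847391050) (nat_lit 76) (nat_lit 573547094648) (nat_lit 11) (nat_lit 5) (nat_lit 13) (nat_lit 5) (nat_lit 12) (nat_lit 4) (nat_lit 384) (nat_lit 338) (nat_lit 178)))) (XT.nd (nat_lit 156) (nat_lit 76) (nat_lit 0) (XT.nd (nat_lit 78) (nat_lit 0) (nat_lit 0) (XT.lf (nat_lit 0) (nat_lit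 184019862074) (nat_lit 76) (nat_lit 42906694141) (nat_lit 152) (nat_lit 589058383014) (nat_lit 10) (nat_lit 5) (nat_lit 11) (nat_lit 5) (nat_lit 12) (nat_lit 4) (nat_lit 385) (nat_lit 338) (nat_lit 177)) (XT.lf (nat_lit 0) (nat_lit 383281115780) (nat_lit 152) (nat_lit 368555101123) (nat_lit 0) (nat_lit 116626056953) (nat_lit 10) (nat_lit 5) (nat_lit 12) (nat_lit 4) (nat_lit 10) (nat_lit 4) (nat_lit 386) (nat_lit 338) (nat_lit 176))) (XT.nd (nat_lit 78) (nat_lit 76) (nat_lit 0) (XT.lf (nat_lit 0) (nat_lit 553258404428) (nat_lit 152) (nat_lit 85186972129) (nat_lit 0) (nat_lit 286603269575) (nat_lit 10) (nat_lit 5) (nat_lit 12) (nat_lit 4) (nat_lit 10) (nat_lit 4) (nat_lit 387) (nat_lit 338) (nat_lit 175)) (XT.nd (nat_lit 78) (nat_lit 0) (nat_lit 0) (XT.lf (nat_lit 0) (nat_lit 232480027944) (nat_lit 76) (nat_lit 509944910276) (nat_lit 76) (nat_lit 243289705026) (nat_lit 9) (nat_lit 4) (nat_lit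 10) (nat_lit 5) (nat_lit 10) (nat_lit 4) (nat_lit 388) (nat_lit 338) (nat_lit 174)) (XT.lf (nat_lit 0) (nat_lit 580404879171) (nat_lit 76) (nat_lit 368648992621) (nat_lit 76) (nat_lit 101993722190) (nat_lit 9) (nat_lit 4) (nat_lit 10) (nat_lit 5) (nat_lit 10) (nat_lit 4) (nat_lit 389) (nat_lit 338) (nat_lit 173))))))))
noncomputable def xc198 : XT := (XT.nd (nat_lit 1404) (nat_lit 0) (nat_lit 0) (XT.nd (nat_lit 702) (nat_lit 228) (nat_lit 0) (XT.nd (nat_lit 312) (nat_lit 76) (nat_lit 0) (XT.nd (nat_lit 156) (nat_lit 0) (nat_lit 0) (XT.nd (nat_lit 78) (nat_lit 76) (nat_lit 0) (XT.lf (nat_lit 0) (nat_lit 48074343799) (nat_lit 152) (nat_lit 166660695681) (nat_lit 76) (nat_lit 906774781906) (nat_lit 8) (nat_lit 5) (nat_lit 10) (nat_lit 5) (nat_lit 9) (nat_lit 4) (nat_lit 390) (nat_lit 338) (nat_lit 172)) (XT.lf (nat_lit 0) (nat_lit 167362710452) (nat_lit 76) (nat_lit 41299836238) (nat_lit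 152) (nat_lit 988412545154) (nat_lit 7) (nat_lit 5) (nat_lit 8) (nat_lit 5) (nat_lit 9) (nat_lit 4) (nat_lit 391) (nat_lit 338) (nat_lit 171))) (XT.nd (nat_lit 78) (nat_lit 0) (nat_lit 0) (XT.lf (nat_lit 0) (nat_lit 390284436440) (nat_lit 152) (nat_lit 744364964338) (nat_lit 0) (nat_lit 143381252728) (nat_lit 7) (nat_lit 5) (nat_lit 9) (nat_lit 4) (nat_lit 7) (nat_lit 4) (nat_lit 392) (nat_lit 338) (nat_lit 170)) (XT.lf (nat_lit 0) (nat_lit 587508730969) (nat_lit 152) (nat_lit 437262613959) (nat_lit 0) (nat_lit 340605502896) (nat_lit 7) (nat_lit 5) (nat_lit 9) (nat_lit 4) (nat_lit 7) (nat_lit 4) (nat_lit 393) (nat_lit 338) (nat_lit 169)))) (XT.nd (nat_lit 156) (nat_lit 0) (nat_lit 0) (XT.nd (nat_lit 78) (nat_lit 76) (nat_lit 0) (XT.lf (nat_lit 0) (nat_lit 800510904784) (nat_lit 152) (nat_lit 105592202423) (nat_lit 0) (nat_lit 553607635636) (nat_lit 7) (nat_lit 5) (nat_lit 9) (nat_lit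 4) (nat_lit 7) (nat_lit 4) (nat_lit 394) (nat_lit 338) (nat_lit 168)) (XT.lf (nat_lit 0) (nat_lit 265913810311) (nat_lit 76) (nat_lit 771034616211) (nat_lit 76) (nat_lit 524131309031) (nat_lit 6) (nat_lit 4) (nat_lit 7) (nat_lit 5) (nat_lit 7) (nat_lit 4) (nat_lit 395) (nat_lit 338) (nat_lit 167))) (XT.nd (nat_lit 78) (nat_lit 0) (nat_lit 0) (XT.lf (nat_lit 0) (nat_lit 673145311678) (nat_lit 76) (nat_lit 622042658401) (nat_lit 76) (nat_lit 375139316005) (nat_lit 6) (nat_lit 4) (nat_lit 7) (nat_lit 5) (nat_lit 7) (nat_lit 4) (nat_lit 396) (nat_lit 338) (nat_lit 166)) (XT.nd (nat_lit 78) (nat_lit 0) (nat_lit 0) (XT.lf (nat_lit 0) (nat_lit 1112955227136) (nat_lit 76) (nat_lit 461131396410) (nat_lit 76) (nat_lit 214228021407) (nat_lit 6) (nat_lit 4) (nat_lit 7) (nat_lit 5) (nat_lit 7) (nat_lit 4) (nat_lit 397) (nat_lit 338) (nat_lit 165)) (XT.lf (nat_lit 0) (nat_lit 1587949837666) (nat_lit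 76) (nat_lit 287347282020) (nat_lit 76) (nat_lit 40443876825) (nat_lit 6) (nat_lit 4) (nat_lit 7) (nat_lit 5) (nat_lit 7) (nat_lit 4) (nat_lit 398) (nat_lit 338) (nat_lit 164)))))) (XT.nd (nat_lit 312) (nat_lit 76) (nat_lit 0) (XT.nd (nat_lit 156) (nat_lit 0) (nat_lit 0) (XT.nd (nat_lit 78) (nat_lit 0) (nat_lit 0) (XT.lf (nat_lit 0) (nat_lit 46360405005) (nat_lit 76) (nat_lit 94631824876) (nat_lit 152) (nat_lit 1911996736767) (nat_lit 4) (nat_lit 5) (nat_lit 5) (nat_lit 5) (nat_lit 6) (nat_lit 4) (nat_lit 399) (nat_lit 338) (nat_lit 163)) (XT.lf (nat_lit 0) (nat_lit 346683037555) (nat_lit 152) (nat_lit 1735426987408) (nat_lit 0) (nat_lit 118068723635) (nat_lit 4) (nat_lit 5) (nat_lit 6) (nat_lit 4) (nat_lit 4) (nat_lit 4) (nat_lit 400) (nat_lit 338) (nat_lit 162))) (XT.nd (nat_lit 78) (nat_lit 0) (nat_lit 0) (XT.lf (nat_lit 0) (nat_lit 571287035878) (nat_lit 152) (nat_lit 1444987343382)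 (nat_lit 0) (nat_lit 342672699766) (nat_lit 4) (nat_lit 5) (nat_lit 6) (nat_lit 4) (nat_lit 4) (nat_lit 4) (nat_lit 401) (nat_lit 338) (nat_lit 161)) (XT.lf (nat_lit 0) (nat_lit 813859313843) (nat_lit 152) (nat_lit 1131312608088) (nat_lit 0) (nat_lit 585244957184) (nat_lit 4) (nat_lit 5) (nat_lit 6) (nat_lit 4) (nat_lit 4) (nat_lit 4) (nat_lit 402) (nat_lit 338) (nat_lit 160)))) (XT.nd (nat_lit 156) (nat_lit 76) (nat_lit 0) (XT.nd (nat_lit 78) (nat_lit 0) (nat_lit 0) (XT.lf (nat_lit 0) (nat_lit 1075837336802) (nat_lit 152) (nat_lit 792543968277) (nat_lit 0) (nat_lit 847222961116) (nat_lit 4) (nat_lit 5) (nat_lit 6) (nat_lit 4) (nat_lit 4) (nat_lit 4) (nat_lit 403) (nat_lit 338) (nat_lit 159)) (XT.lf (nat_lit 0) (nat_lit 1358773567111) (nat_lit 152) (nat_lit 426673906085) (nat_lit 0) (nat_lit 1130159173809) (nat_lit 4) (nat_lit 5) (nat_lit 6) (nat_lit 4) (nat_lit 4) (nat_lit 4) (nat_lit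 404) (nat_lit 338) (nat_lit 158))) (XT.nd (nat_lit 78) (nat_lit 76) (nat_lit 0) (XT.lf (nat_lit 0) (nat_lit 1664344663915) (nat_lit 152) (nat_lit 31534302625) (nat_lit 0) (nat_lit 1435730254301) (nat_lit 4) (nat_lit 5) (nat_lit 6) (nat_lit 4) (nat_lit 4) (nat_lit 4) (nat_lit 405) (nat_lit 338) (nat_lit 157)) (XT.nd (nat_lit 78) (nat_lit 0) (nat_lit 0) (XT.lf (nat_lit 0) (nat_lit 416027805897) (nat_lit 76) (nat_lit 1588339091737) (nat_lit 76) (nat_lit 1359724667020) (nat_lit 3) (nat_lit 4) (nat_lit 4) (nat_lit 5) (nat_lit 4) (nat_lit 4) (nat_lit 406) (nat_lit 338) (nat_lit 156)) (XT.lf (nat_lit 0) (nat_lit 901188209339) (nat_lit 76) (nat_lit 1471264875671) (nat_lit 76) (nat_lit 1242650436970) (nat_lit 3) (nat_lit 4) (nat_lit 4) (nat_lit 5) (nat_lit 4) (nat_lit 4) (nat_lit 407) (nat_lit 338) (nat_lit 155))))))) (XT.nd (nat_lit 41886) (nat_lit 0) (nat_lit 3040) (XT.nd (nat_lit 41496) (nat_lit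 0) (nat_lit 4180) (XT.nd (nat_lit 156) (nat_lit 0) (nat_lit 0) (XT.nd (nat_lit 78) (nat_lit 0) (nat_lit 0) (XT.lf (nat_lit 0) (nat_lit 1425161391820) (nat_lit 76) (nat_lit 1344824748927) (nat_lit 76) (nat_lit 1116210297277) (nat_lit 3) (nat_lit 4) (nat_lit 4) (nat_lit 5) (nat_lit 4) (nat_lit 4) (nat_lit 408) (nat_lit 338) (nat_lit 154)) (XT.lf (nat_lit 0) (nat_lit 1991052379608) (nat_lit 76) (nat_lit 1208269436680) (nat_lit 76) (nat_lit 979654973041) (nat_lit 3) (nat_lit 4) (nat_lit 4) (nat_lit 5) (nat_lit 4) (nat_lit 4) (nat_lit 409) (nat_lit 338) (nat_lit 153))) (XT.nd (nat_lit 78) (nat_lit 0) (nat_lit 0) (XT.lf (nat_lit 0) (nat_lit 2602214600778) (nat_lit 76) (nat_lit 1060789722266) (nat_lit 76) (nat_lit 832175247525) (nat_lit 3) (nat_lit 4) (nat_lit 4) (nat_lit 5) (nat_lit 4) (nat_lit 4) (nat_lit 410) (nat_lit 338) (nat_lit 152)) (XT.lf (nat_lit 0) (nat_lit 3262269757382) (nat_lit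 76) (nat_lit 901511651820) (nat_lit 76) (nat_lit 672897166800) (nat_lit 3) (nat_lit 4) (nat_lit 4) (nat_lit 5) (nat_lit 4) (nat_lit 4) (nat_lit 411) (nat_lit 338) (nat_lit 151)))) (XT.nd (nat_lit 156) (nat_lit 0) (nat_lit 76) (XT.nd (nat_lit 78) (nat_lit 0) (nat_lit 0) (XT.lf (nat_lit 0) (nat_lit 33218768950) (nat_lit 532) (nat_lit 3868853570) (nat_lit 532) (nat_lit 3868853570) (nat_lit 58) (nat_lit 3) (nat_lit 65) (nat_lit 3) (nat_lit 65) (nat_lit 5) (nat_lit 339) (nat_lit 339) (nat_lit 222)) (XT.lf (nat_lit 76) (nat_lit 33077660238) (nat_lit 0) (nat_lit 36821966499) (nat_lit 532) (nat_lit 15225462948) (nat_lit 59) (nat_lit 5) (nat_lit 58) (nat_lit 3) (nat_lit 65) (nat_lit 5) (nat_lit 340) (nat_lit 339) (nat_lit 221))) (XT.nd (nat_lit 78) (nat_lit 0) (nat_lit 0) (XT.lf (nat_lit 0) (nat_lit 73939476248) (nat_lit 456) (nat_lit 11069707996) (nat_lit 532) (nat_lit 3560951820) (nat_lit 59)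 (nat_lit 5) (nat_lit 65) (nat_lit 5) (nat_lit 66) (nat_lit 5) (nat_lit 341) (nat_lit 339) (nat_lit 220)) (XT.nd (nat_lit 78) (nat_lit 0) (nat_lit 0) (XT.lf (nat_lit 76) (nat_lit 33926395587) (nat_lit 0) (nat_lit 46147620848) (nat_lit 532) (nat_lit 12075050762) (nat_lit 60) (nat_lit 5) (nat_lit 59) (nat_lit 5) (nat_lit 66) (nat_lit 5) (nat_lit 342) (nat_lit 339) (nat_lit 219)) (XT.lf (nat_lit 76) (nat_lit 83151189074) (nat_lit 0) (nat_lit 3850002940) (nat_lit 532) (nat_lit 8988972198) (nat_lit 60) (nat_lit 5) (nat_lit 59) (nat_lit 5) (nat_lit 66) (nat_lit 5) (nat_lit 343) (nat_lit 339) (nat_lit 218)))))) (XT.nd (nat_lit 312) (nat_lit 760) (nat_lit 0) (XT.nd (nat_lit 156) (nat_lit 0) (nat_lit 76) (XT.nd (nat_lit 78) (nat_lit 532) (nat_lit 0) (XT.lf (nat_lit 76) (nat_lit 37020729377) (nat_lit 0) (nat_lit 59357479542) (nat_lit 532) (nat_lit 3608687766) (nat_lit 61) (nat_lit 5) (nat_lit 60)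 (nat_lit 5) (nat_lit 67) (nat_lit 5) (nat_lit 344) (nat_lit 339) (nat_lit 217)) (XT.lf (nat_lit 0) (nat_lit 2551316776) (nat_lit 532) (nat_lit 12838578523) (nat_lit 608) (nat_lit 88872480592) (nat_lit 53) (nat_lit 5) (nat_lit 60) (nat_lit 5) (nat_lit 61) (nat_lit 5) (nat_lit 345) (nat_lit 339) (nat_lit 216))) (XT.nd (nat_lit 78) (nat_lit 0) (nat_lit 0) (XT.lf (nat_lit 0) (nat_lit 10853087245) (nat_lit 532) (nat_lit 66215698687) (nat_lit 76) (nat_lit 31656095511) (nat_lit 54) (nat_lit 5) (nat_lit 61) (nat_lit 5) (nat_lit 55) (nat_lit 5) (nat_lit 346) (nat_lit 339) (nat_lit 215)) (XT.lf (nat_lit 0) (nat_lit 20578267056) (nat_lit 532) (nat_lit 10910840190) (nat_lit 76) (nat_lit 81994539571) (nat_lit 54) (nat_lit 5) (nat_lit 61) (nat_lit 5) (nat_lit 55) (nat_lit 5) (nat_lit 347) (nat_lit 339) (nat_lit 214)))) (XT.nd (nat_lit 156) (nat_lit 456) (nat_lit 0) (XT.nd (nat_lit 78) (nat_lit 0) (nat_lit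 0) (XT.lf (nat_lit 0) (nat_lit 32775461108) (nat_lit 456) (nat_lit 67594437638) (nat_lit 76) (nat_lit 18117695421) (nat_lit 49) (nat_lit 5) (nat_lit 55) (nat_lit 5) (nat_lit 50) (nat_lit 5) (nat_lit 348) (nat_lit 339) (nat_lit 213)) (XT.lf (nat_lit 0) (nat_lit 47071858520) (nat_lit 456) (nat_lit 6432230290) (nat_lit 76) (nat_lit 70297894948) (nat_lit 49) (nat_lit 5) (nat_lit 55) (nat_lit 5) (nat_lit 50) (nat_lit 5) (nat_lit 349) (nat_lit 339) (nat_lit 212))) (XT.nd (nat_lit 78) (nat_lit 228) (nat_lit 0) (XT.lf (nat_lit 0) (nat_lit 62762033887) (nat_lit 228) (nat_lit 1258860989) (nat_lit 304) (nat_lit 65399916099) (nat_lit 46) (nat_lit 5) (nat_lit 49) (nat_lit 5) (nat_lit 50) (nat_lit 5) (nat_lit 350) (nat_lit 339) (nat_lit 211)) (XT.nd (nat_lit 78) (nat_lit 0) (nat_lit 0) (XT.lf (nat_lit 0) (nat_lit 1106032735) (nat_lit 228) (nat_lit 82753123807) (nat_lit 304) (nat_lit 51507324218) (nat_lit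 43) (nat_lit 5) (nat_lit 46) (nat_lit 5) (nat_lit 47) (nat_lit 5) (nat_lit 351) (nat_lit 339) (nat_lit 210)) (XT.lf (nat_lit 0) (nat_lit 78048010459) (nat_lit 228) (nat_lit 29090452469) (nat_lit 304) (nat_lit 34501023038) (nat_lit 43) (nat_lit 5) (nat_lit 46) (nat_lit 5) (nat_lit 47) (nat_lit 5) (nat_lit 352) (nat_lit 339) (nat_lit 209))))))))
noncomputable def xc199 : XT := (XT.nd (nat_lit 1404) (nat_lit 760) (nat_lit 0) (XT.nd (nat_lit 702) (nat_lit 760) (nat_lit 0) (XT.nd (nat_lit 312) (nat_lit 532) (nat_lit 0) (XT.nd (nat_lit 156) (nat_lit 228) (nat_lit 0) (XT.nd (nat_lit 78) (nat_lit 76) (nat_lit 0) (XT.lf (nat_lit 0) (nat_lit 12670080686) (nat_lit 152) (nat_lit 120608535020) (nat_lit 228) (nat_lit 15055836232) (nat_lit 41) (nat_lit 5) (nat_lit 43) (nat_lit 5) (nat_lit 44) (nat_lit 5) (nat_lit 353) (nat_lit 339) (nat_lit 208)) (XT.lf (nat_lit 0) (nat_lit 8186619712) (nat_lit 228)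 (nat_lit 57721129972) (nat_lit 76) (nat_lit 89442704172) (nat_lit 40) (nat_lit 5) (nat_lit 43) (nat_lit 5) (nat_lit 41) (nat_lit 5) (nat_lit 354) (nat_lit 339) (nat_lit 207))) (XT.nd (nat_lit 78) (nat_lit 0) (nat_lit 0) (XT.lf (nat_lit 0) (nat_lit 27438597730) (nat_lit 228) (nat_lit 5695982410) (nat_lit 304) (nat_lit 129709110192) (nat_lit 37) (nat_lit 5) (nat_lit 40) (nat_lit 5) (nat_lit 41) (nat_lit 5) (nat_lit 355) (nat_lit 339) (nat_lit 206)) (XT.lf (nat_lit 0) (nat_lit 63124150137) (nat_lit 304) (nat_lit 49584836245) (nat_lit 76) (nat_lit 57983737893) (nat_lit 37) (nat_lit 5) (nat_lit 41) (nat_lit 5) (nat_lit 38) (nat_lit 5) (nat_lit 356) (nat_lit 339) (nat_lit 205)))) (XT.nd (nat_lit 156) (nat_lit 380) (nat_lit 0) (XT.nd (nat_lit 78) (nat_lit 0) (nat_lit 0) (XT.lf (nat_lit 0) (nat_lit 45214423686) (nat_lit 152) (nat_lit 51533474194) (nat_lit 228) (nat_lit 82322982421) (nat_lit 35)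 (nat_lit 5) (nat_lit 37) (nat_lit 5) (nat_lit 38) (nat_lit 5) (nat_lit 357) (nat_lit 339) (nat_lit 204)) (XT.lf (nat_lit 0) (nat_lit 134801757268) (nat_lit 228) (nat_lit 37978568042) (nat_lit 76) (nat_lit 15199746870) (nat_lit 35) (nat_lit 5) (nat_lit 38) (nat_lit 5) (nat_lit 36) (nat_lit 5) (nat_lit 358) (nat_lit 339) (nat_lit 203))) (XT.nd (nat_lit 78) (nat_lit 228) (nat_lit 0) (XT.lf (nat_lit 0) (nat_lit 67612834687) (nat_lit 152) (nat_lit 111251404970) (nat_lit 228) (nat_lit 18500614903) (nat_lit 33) (nat_lit 5) (nat_lit 35) (nat_lit 5) (nat_lit 36) (nat_lit 5) (nat_lit 359) (nat_lit 339) (nat_lit 202)) (XT.nd (nat_lit 78) (nat_lit 152) (nat_lit 0) (XT.lf (nat_lit 0) (nat_lit 19068349490) (nat_lit 228) (nat_lit 24089131412) (nat_lit 76) (nat_lit 164221271001) (nat_lit 32) (nat_lit 5) (nat_lit 35) (nat_lit 5) (nat_lit 33) (nat_lit 5) (nat_lit 360) (nat_lit 339) (nat_lit 201)) (XT.lf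 (nat_lit 0) (nat_lit 61712114778) (nat_lit 228) (nat_lit 124514924352) (nat_lit 76) (nat_lit 31682775502) (nat_lit 30) (nat_lit 5) (nat_lit 33) (nat_lit 5) (nat_lit 31) (nat_lit 5) (nat_lit 361) (nat_lit 339) (nat_lit 200)))))) (XT.nd (nat_lit 312) (nat_lit 456) (nat_lit 0) (XT.nd (nat_lit 156) (nat_lit 152) (nat_lit 0) (XT.nd (nat_lit 78) (nat_lit 152) (nat_lit 0) (XT.lf (nat_lit 0) (nat_lit 109563828225) (nat_lit 228) (nat_lit 8721579797) (nat_lit 76) (nat_lit 110854238816) (nat_lit 30) (nat_lit 5) (nat_lit 33) (nat_lit 5) (nat_lit 31) (nat_lit 5) (nat_lit 362) (nat_lit 339) (nat_lit 199)) (XT.lf (nat_lit 0) (nat_lit 122460818926) (nat_lit 152) (nat_lit 41727792076) (nat_lit 228) (nat_lit 76843660237) (nat_lit 28) (nat_lit 5) (nat_lit 30) (nat_lit 5) (nat_lit 31) (nat_lit 5) (nat_lit 363) (nat_lit 339) (nat_lit 198))) (XT.nd (nat_lit 78) (nat_lit 76) (nat_lit 0) (XT.lf (nat_lit 0) (nat_lit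 10300292788) (nat_lit 76) (nat_lit 214360170827) (nat_lit 152) (nat_lit 29097675183) (nat_lit 27) (nat_lit 5) (nat_lit 28) (nat_lit 5) (nat_lit 29) (nat_lit 4) (nat_lit 364) (nat_lit 339) (nat_lit 197)) (XT.lf (nat_lit 0) (nat_lit 25753802844) (nat_lit 152) (nat_lit 112726487837) (nat_lit 76) (nat_lit 128625776470) (nat_lit 26) (nat_lit 5) (nat_lit 28) (nat_lit 5) (nat_lit 27) (nat_lit 5) (nat_lit 365) (nat_lit 339) (nat_lit 196)))) (XT.nd (nat_lit 156) (nat_lit 304) (nat_lit 0) (XT.nd (nat_lit 78) (nat_lit 0) (nat_lit 0) (XT.lf (nat_lit 0) (nat_lit 29166230012) (nat_lit 152) (nat_lit 54956360524) (nat_lit 228) (nat_lit 197282678946) (nat_lit 24) (nat_lit 5) (nat_lit 26) (nat_lit 5) (nat_lit 27) (nat_lit 5) (nat_lit 366) (nat_lit 339) (nat_lit 195)) (XT.lf (nat_lit 0) (nat_lit 151170607238) (nat_lit 228) (nat_lit 108708805314) (nat_lit 76) (nat_lit 36648217504) (nat_lit 24) (nat_lit 5)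 (nat_lit 27) (nat_lit 5) (nat_lit 25) (nat_lit 4) (nat_lit 367) (nat_lit 339) (nat_lit 194))) (XT.nd (nat_lit 78) (nat_lit 228) (nat_lit 0) (XT.lf (nat_lit 0) (nat_lit 47239148898) (nat_lit 76) (nat_lit 178906650937) (nat_lit 152) (nat_lit 86508913000) (nat_lit 23) (nat_lit 5) (nat_lit 24) (nat_lit 5) (nat_lit 25) (nat_lit 4) (nat_lit 368) (nat_lit 339) (nat_lit 193)) (XT.nd (nat_lit 78) (nat_lit 228) (nat_lit 0) (XT.lf (nat_lit 0) (nat_lit 221844960210) (nat_lit 76) (nat_lit 88246139932) (nat_lit 152) (nat_lit 19743094827) (nat_lit 23) (nat_lit 5) (nat_lit 24) (nat_lit 5) (nat_lit 25) (nat_lit 4) (nat_lit 369) (nat_lit 339) (nat_lit 192)) (XT.lf (nat_lit 0) (nat_lit 51588025527) (nat_lit 228) (nat_lit 284497750231) (nat_lit 76) (nat_lit 12054031958) (nat_lit 20) (nat_lit 5) (nat_lit 23) (nat_lit 5) (nat_lit 21) (nat_lit 4) (nat_lit 370) (nat_lit 339) (nat_lit 191))))))) (XT.nd (nat_lit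 702) (nat_lit 304) (nat_lit 0) (XT.nd (nat_lit 312) (nat_lit 304) (nat_lit 0) (XT.nd (nat_lit 156) (nat_lit 76) (nat_lit 0) (XT.nd (nat_lit 78) (nat_lit 76) (nat_lit 0) (XT.lf (nat_lit 0) (nat_lit 132880225243) (nat_lit 228) (nat_lit 115410302932) (nat_lit 76) (nat_lit 119152618414) (nat_lit 20) (nat_lit 5) (nat_lit 23) (nat_lit 5) (nat_lit 21) (nat_lit 4) (nat_lit 371) (nat_lit 339) (nat_lit 190)) (XT.lf (nat_lit 0) (nat_lit 70742666650) (nat_lit 76) (nat_lit 151634324646) (nat_lit 152) (nat_lit 165777666133) (nat_lit 19) (nat_lit 5) (nat_lit 20) (nat_lit 5) (nat_lit 21) (nat_lit 4) (nat_lit 372) (nat_lit 339) (nat_lit 189))) (XT.nd (nat_lit 78) (nat_lit 76) (nat_lit 0) (XT.lf (nat_lit 0) (nat_lit 278351059596) (nat_lit 76) (nat_lit 43837794319) (nat_lit 152) (nat_lit 88081806877) (nat_lit 19) (nat_lit 5) (nat_lit 20) (nat_lit 5) (nat_lit 21) (nat_lit 4) (nat_lit 373) (nat_lit 339) (nat_lit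 188)) (XT.lf (nat_lit 0) (nat_lit 70176810346) (nat_lit 76) (nat_lit 363242061514) (nat_lit 76) (nat_lit 462416131) (nat_lit 18) (nat_lit 4) (nat_lit 19) (nat_lit 5) (nat_lit 19) (nat_lit 4) (nat_lit 374) (nat_lit 339) (nat_lit 187)))) (XT.nd (nat_lit 156) (nat_lit 152) (nat_lit 0) (XT.nd (nat_lit 78) (nat_lit 76) (nat_lit 0) (XT.lf (nat_lit 0) (nat_lit 94295024048) (nat_lit 152) (nat_lit 166646218667) (nat_lit 76) (nat_lit 197871219002) (nat_lit 17) (nat_lit 5) (nat_lit 19) (nat_lit 5) (nat_lit 18) (nat_lit 4) (nat_lit 375) (nat_lit 339) (nat_lit 186)) (XT.lf (nat_lit 0) (nat_lit 48595359665) (nat_lit 76) (nat_lit 149181291834) (nat_lit 152) (nat_lit 287867031074) (nat_lit 16) (nat_lit 5) (nat_lit 17) (nat_lit 5) (nat_lit 18) (nat_lit 4) (nat_lit 376) (nat_lit 339) (nat_lit 185))) (XT.nd (nat_lit 78) (nat_lit 152) (nat_lit 0) (XT.lf (nat_lit 0) (nat_lit 290533321892) (nat_lit 76) (nat_lit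 23559749644) (nat_lit 152) (nat_lit 200163828624) (nat_lit 16) (nat_lit 5) (nat_lit 17) (nat_lit 5) (nat_lit 18) (nat_lit 4) (nat_lit 377) (nat_lit 339) (nat_lit 184)) (XT.nd (nat_lit 78) (nat_lit 76) (nat_lit 0) (XT.lf (nat_lit 0) (nat_lit 4179697711) (nat_lit 76) (nat_lit 438331781138) (nat_lit 76) (nat_lit 102423962460) (nat_lit 15) (nat_lit 4) (nat_lit 16) (nat_lit 5) (nat_lit 16) (nat_lit 4) (nat_lit 378) (nat_lit 339) (nat_lit 183)) (XT.lf (nat_lit 0) (nat_lit 9865954493) (nat_lit 152) (nat_lit 315386785311) (nat_lit 76) (nat_lit 252258478741) (nat_lit 14) (nat_lit 5) (nat_lit 16) (nat_lit 5) (nat_lit 15) (nat_lit 4) (nat_lit 379) (nat_lit 339) (nat_lit 182)))))) (XT.nd (nat_lit 312) (nat_lit 152) (nat_lit 0) (XT.nd (nat_lit 156) (nat_lit 76) (nat_lit 0) (XT.nd (nat_lit 78) (nat_lit 76) (nat_lit 0) (XT.lf (nat_lit 0) (nat_lit 125605388060) (nat_lit 152) (nat_lit 74648904212) (nat_lit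 76) (nat_lit 412225946506) (nat_lit 14) (nat_lit 5) (nat_lit 16) (nat_lit 5) (nat_lit 15) (nat_lit 4) (nat_lit 380) (nat_lit 339) (nat_lit 181)) (XT.lf (nat_lit 0) (nat_lit 195107879640) (nat_lit 76) (nat_lit 60188332530) (nat_lit 152) (nat_lit 394575189627) (nat_lit 13) (nat_lit 5) (nat_lit 14) (nat_lit 5) (nat_lit 15) (nat_lit 4) (nat_lit 381) (nat_lit 339) (nat_lit 180))) (XT.nd (nat_lit 78) (nat_lit 76) (nat_lit 0) (XT.lf (nat_lit 0) (nat_lit 399646783090) (nat_lit 152) (nat_lit 201643794651) (nat_lit 0) (nat_lit 88620521681) (nat_lit 13) (nat_lit 5) (nat_lit 15) (nat_lit 4) (nat_lit 13) (nat_lit 4) (nat_lit 382) (nat_lit 339) (nat_lit 179)) (XT.lf (nat_lit 0) (nat_lit 73856584027) (nat_lit 76) (nat_lit 485028297575) (nat_lit 76) (nat_lit 174001932732) (nat_lit 12) (nat_lit 4) (nat_lit 13) (nat_lit 5) (nat_lit 13) (nat_lit 4) (nat_lit 383) (nat_lit 339) (nat_lit 178)))) (XT.nd (nat_lit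 156) (nat_lit 76) (nat_lit 0) (XT.nd (nat_lit 78) (nat_lit 76) (nat_lit 0) (XT.lf (nat_lit 0) (nat_lit 382864460147) (nat_lit 76) (nat_lit 353510765561) (nat_lit 76) (nat_lit 42484304945) (nat_lit 12) (nat_lit 4) (nat_lit 13) (nat_lit 5) (nat_lit 13) (nat_lit 4) (nat_lit 384) (nat_lit 339) (nat_lit 177)) (XT.lf (nat_lit 0) (nat_lit 94574506165) (nat_lit 152) (nat_lit 114311576469) (nat_lit 76) (nat_lit 619432445844) (nat_lit 11) (nat_lit 5) (nat_lit 13) (nat_lit 5) (nat_lit 12) (nat_lit 4) (nat_lit 385) (nat_lit 339) (nat_lit 176))) (XT.nd (nat_lit 78) (nat_lit 0) (nat_lit 0) (XT.lf (nat_lit 0) (nat_lit 198744965617) (nat_lit 76) (nat_lit 46337532950) (nat_lit 152) (nat_lit 636181089923) (nat_lit 10) (nat_lit 5) (nat_lit 11) (nat_lit 5) (nat_lit 12) (nat_lit 4) (nat_lit 386) (nat_lit 339) (nat_lit 175)) (XT.nd (nat_lit 78) (nat_lit 0) (nat_lit 0) (XT.lf (nat_lit 0) (nat_lit 413945326024)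 (nat_lit 152) (nat_lit 398036157687) (nat_lit 0) (nat_lit 125957633959) (nat_lit 10) (nat_lit 5) (nat_lit 12) (nat_lit 4) (nat_lit 10) (nat_lit 4) (nat_lit 387) (nat_lit 339) (nat_lit 174)) (XT.lf (nat_lit 0) (nat_lit 597520670285) (nat_lit 152) (nat_lit 91998826634) (nat_lit 0) (nat_lit 309532913038) (nat_lit 10) (nat_lit 5) (nat_lit 12) (nat_lit 4) (nat_lit 10) (nat_lit 4) (nat_lit 388) (nat_lit 339) (nat_lit 173))))))))
noncomputable def xc200 : XT := (XT.nd (nat_lit 1404) (nat_lit 76) (nat_lit 0) (XT.nd (nat_lit 702) (nat_lit 152) (nat_lit 0) (XT.nd (nat_lit 312) (nat_lit 76) (nat_lit 0) (XT.nd (nat_lit 156) (nat_lit 152) (nat_lit 0) (XT.nd (nat_lit 78) (nat_lit 0) (nat_lit 0) (XT.lf (nat_lit 0) (nat_lit 251081454881) (nat_lit 76) (nat_lit 550739026605) (nat_lit 76) (nat_lit 262751209006) (nat_lit 9) (nat_lit 4) (nat_lit 10) (nat_lit 5) (nat_lit 10) (nat_lit 4) (nat_lit 389) (nat_lit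 339) (nat_lit 172)) (XT.lf (nat_lit 0) (nat_lit 626840070154) (nat_lit 76) (nat_lit 398139544908) (nat_lit 76) (nat_lit 110151671427) (nat_lit 9) (nat_lit 4) (nat_lit 10) (nat_lit 5) (nat_lit 10) (nat_lit 4) (nat_lit 390) (nat_lit 339) (nat_lit 171))) (XT.nd (nat_lit 78) (nat_lit 76) (nat_lit 0) (XT.lf (nat_lit 0) (nat_lit 51921653409) (nat_lit 152) (nat_lit 179990886132) (nat_lit 76) (nat_lit 979317958304) (nat_lit 8) (nat_lit 5) (nat_lit 10) (nat_lit 5) (nat_lit 9) (nat_lit 4) (nat_lit 391) (nat_lit 339) (nat_lit 170)) (XT.lf (nat_lit 0) (nat_lit 180754325018) (nat_lit 76) (nat_lit 44602549093) (nat_lit 152) (nat_lit 1067484118925) (nat_lit 7) (nat_lit 5) (nat_lit 8) (nat_lit 5) (nat_lit 9) (nat_lit 4) (nat_lit 392) (nat_lit 339) (nat_lit 169)))) (XT.nd (nat_lit 156) (nat_lit 76) (nat_lit 0) (XT.nd (nat_lit 78) (nat_lit 0) (nat_lit 0) (XT.lf (nat_lit 0) (nat_lit 421508445360) (nat_lit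 152) (nat_lit 803911686258) (nat_lit 0) (nat_lit 154852873605) (nat_lit 7) (nat_lit 5) (nat_lit 9) (nat_lit 4) (nat_lit 7) (nat_lit 4) (nat_lit 393) (nat_lit 339) (nat_lit 168)) (XT.lf (nat_lit 0) (nat_lit 634510590562) (nat_lit 152) (nat_lit 472241331199) (nat_lit 0) (nat_lit 367854980775) (nat_lit 7) (nat_lit 5) (nat_lit 9) (nat_lit 4) (nat_lit 7) (nat_lit 4) (nat_lit 394) (nat_lit 339) (nat_lit 167))) (XT.nd (nat_lit 78) (nat_lit 76) (nat_lit 0) (XT.lf (nat_lit 0) (nat_lit 864552852274) (nat_lit 152) (nat_lit 114037456508) (nat_lit 0) (nat_lit 597897207271) (nat_lit 7) (nat_lit 5) (nat_lit 9) (nat_lit 4) (nat_lit 7) (nat_lit 4) (nat_lit 395) (nat_lit 339) (nat_lit 166)) (XT.nd (nat_lit 78) (nat_lit 0) (nat_lit 0) (XT.lf (nat_lit 0) (nat_lit 287188983520) (nat_lit 76) (nat_lit 832716362339) (nat_lit 76) (nat_lit 566060684729) (nat_lit 6) (nat_lit 4) (nat_lit 7) (nat_lit 5) (nat_lit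 7) (nat_lit 4) (nat_lit 396) (nat_lit 339) (nat_lit 165)) (XT.lf (nat_lit 0) (nat_lit 726998851783) (nat_lit 76) (nat_lit 671805123694) (nat_lit 76) (nat_lit 405149415892) (nat_lit 6) (nat_lit 4) (nat_lit 7) (nat_lit 5) (nat_lit 7) (nat_lit 4) (nat_lit 397) (nat_lit 339) (nat_lit 164)))))) (XT.nd (nat_lit 312) (nat_lit 0) (nat_lit 0) (XT.nd (nat_lit 156) (nat_lit 152) (nat_lit 0) (XT.nd (nat_lit 78) (nat_lit 0) (nat_lit 0) (XT.lf (nat_lit 0) (nat_lit 1201993418613) (nat_lit 76) (nat_lit 498021030920) (nat_lit 76) (nat_lit 231365295163) (nat_lit 6) (nat_lit 4) (nat_lit 7) (nat_lit 5) (nat_lit 7) (nat_lit 4) (nat_lit 398) (nat_lit 339) (nat_lit 163)) (XT.lf (nat_lit 0) (nat_lit 1714987466629) (nat_lit 76) (nat_lit 310334252356) (nat_lit 76) (nat_lit 43678490715) (nat_lit 6) (nat_lit 4) (nat_lit 7) (nat_lit 5) (nat_lit 7) (nat_lit 4) (nat_lit 399) (nat_lit 339) (nat_lit 162))) (XT.nd (nat_lit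 78) (nat_lit 0) (nat_lit 0) (XT.lf (nat_lit 0) (nat_lit 50070881624) (nat_lit 76) (nat_lit 102201554544) (nat_lit 152) (nat_lit 2064955581449) (nat_lit 4) (nat_lit 5) (nat_lit 5) (nat_lit 5) (nat_lit 6) (nat_lit 4) (nat_lit 400) (nat_lit 339) (nat_lit 161)) (XT.lf (nat_lit 0) (nat_lit 374418465309) (nat_lit 152) (nat_lit 1874259580706) (nat_lit 0) (nat_lit 127514939569) (nat_lit 4) (nat_lit 5) (nat_lit 6) (nat_lit 4) (nat_lit 4) (nat_lit 4) (nat_lit 401) (nat_lit 339) (nat_lit 160)))) (XT.nd (nat_lit 156) (nat_lit 0) (nat_lit 0) (XT.nd (nat_lit 78) (nat_lit 0) (nat_lit 0) (XT.lf (nat_lit 0) (nat_lit 616990725368) (nat_lit 152) (nat_lit 1560584881137) (nat_lit 0) (nat_lit 370087180602) (nat_lit 4) (nat_lit 5) (nat_lit 6) (nat_lit 4) (nat_lit 4) (nat_lit 4) (nat_lit 402) (nat_lit 339) (nat_lit 159)) (XT.lf (nat_lit 0) (nat_lit 878968731747) (nat_lit 152) (nat_lit 1221816274405) (nat_lit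 0) (nat_lit 632065169365) (nat_lit 4) (nat_lit 5) (nat_lit 6) (nat_lit 4) (nat_lit 4) (nat_lit 4) (nat_lit 403) (nat_lit 339) (nat_lit 158))) (XT.nd (nat_lit 78) (nat_lit 0) (nat_lit 0) (XT.lf (nat_lit 0) (nat_lit 1161904946705) (nat_lit 152) (nat_lit 855946242841) (nat_lit 0) (nat_lit 915001368011) (nat_lit 4) (nat_lit 5) (nat_lit 6) (nat_lit 4) (nat_lit 4) (nat_lit 4) (nat_lit 404) (nat_lit 339) (nat_lit 157)) (XT.nd (nat_lit 78) (nat_lit 0) (nat_lit 0) (XT.lf (nat_lit 0) (nat_lit 1467476029294) (nat_lit 152) (nat_lit 460806667741) (nat_lit 0) (nat_lit 1220572435497) (nat_lit 4) (nat_lit 5) (nat_lit 6) (nat_lit 4) (nat_lit 4) (nat_lit 4) (nat_lit 405) (nat_lit 339) (nat_lit 156)) (XT.lf (nat_lit 0) (nat_lit 1797492771115) (nat_lit 152) (nat_lit 34055981250) (nat_lit 0) (nat_lit 1550589163334) (nat_lit 4) (nat_lit 5) (nat_lit 6) (nat_lit 4) (nat_lit 4) (nat_lit 4) (nat_lit 406) (nat_lit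 339) (nat_lit 155))))))) (XT.nd (nat_lit 42042) (nat_lit 0) (nat_lit 3040) (XT.nd (nat_lit 41652) (nat_lit 0) (nat_lit 4180) (XT.nd (nat_lit 156) (nat_lit 0) (nat_lit 0) (XT.nd (nat_lit 78) (nat_lit 0) (nat_lit 0) (XT.lf (nat_lit 0) (nat_lit 449311068976) (nat_lit 76) (nat_lit 1715405699972) (nat_lit 76) (nat_lit 1468502079241) (nat_lit 3) (nat_lit 4) (nat_lit 4) (nat_lit 5) (nat_lit 4) (nat_lit 4) (nat_lit 407) (nat_lit 339) (nat_lit 154)) (XT.lf (nat_lit 0) (nat_lit 973284227760) (nat_lit 76) (nat_lit 1588965585072) (nat_lit 76) (nat_lit 1342061952353) (nat_lit 3) (nat_lit 4) (nat_lit 4) (nat_lit 5) (nat_lit 4) (nat_lit 4) (nat_lit 408) (nat_lit 339) (nat_lit 153))) (XT.nd (nat_lit 78) (nat_lit 0) (nat_lit 0) (XT.lf (nat_lit 0) (nat_lit 1539175193605) (nat_lit 76) (nat_lit 1452410283793) (nat_lit 76) (nat_lit 1205506639972) (nat_lit 3) (nat_lit 4) (nat_lit 4) (nat_lit 5) (nat_lit 4)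 (nat_lit 4) (nat_lit 409) (nat_lit 339) (nat_lit 152)) (XT.lf (nat_lit 0) (nat_lit 2150337394458) (nat_lit 76) (nat_lit 1304930579533) (nat_lit 76) (nat_lit 1058026925433) (nat_lit 3) (nat_lit 4) (nat_lit 4) (nat_lit 5) (nat_lit 4) (nat_lit 4) (nat_lit 410) (nat_lit 339) (nat_lit 151)))) (XT.nd (nat_lit 156) (nat_lit 0) (nat_lit 76) (XT.nd (nat_lit 78) (nat_lit 0) (nat_lit 0) (XT.lf (nat_lit 0) (nat_lit 35885121157) (nat_lit 532) (nat_lit 4173575847) (nat_lit 532) (nat_lit 4173575847) (nat_lit 58) (nat_lit 3) (nat_lit 65) (nat_lit 3) (nat_lit 65) (nat_lit 5) (nat_lit 340) (nat_lit 340) (nat_lit 220)) (XT.lf (nat_lit 76) (nat_lit 35733202744) (nat_lit 0) (nat_lit 39775008679) (nat_lit 532) (nat_lit 16425531698) (nat_lit 59) (nat_lit 5) (nat_lit 58) (nat_lit 3) (nat_lit 65) (nat_lit 5) (nat_lit 341) (nat_lit 340) (nat_lit 219))) (XT.nd (nat_lit 78) (nat_lit 0) (nat_lit 0) (XT.lf (nat_lit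 0) (nat_lit 79869855965) (nat_lit 456) (nat_lit 11945230352) (nat_lit 532) (nat_lit 3839420149) (nat_lit 59) (nat_lit 5) (nat_lit 65) (nat_lit 5) (nat_lit 66) (nat_lit 5) (nat_lit 342) (nat_lit 340) (nat_lit 218)) (XT.nd (nat_lit 78) (nat_lit 0) (nat_lit 0) (XT.lf (nat_lit 76) (nat_lit 36650306980) (nat_lit 0) (nat_lit 49843960544) (nat_lit 532) (nat_lit 13025557598) (nat_lit 60) (nat_lit 5) (nat_lit 59) (nat_lit 5) (nat_lit 66) (nat_lit 5) (nat_lit 343) (nat_lit 340) (nat_lit 217)) (XT.lf (nat_lit 76) (nat_lit 89812358038) (nat_lit 0) (nat_lit 4162197646) (nat_lit 532) (nat_lit 9693740692) (nat_lit 60) (nat_lit 5) (nat_lit 59) (nat_lit 5) (nat_lit 66) (nat_lit 5) (nat_lit 344) (nat_lit 340) (nat_lit 216)))))) (XT.nd (nat_lit 312) (nat_lit 760) (nat_lit 0) (XT.nd (nat_lit 156) (nat_lit 0) (nat_lit 76) (XT.nd (nat_lit 78) (nat_lit 532) (nat_lit 0) (XT.lf (nat_lit 76) (nat_lit 39992383779)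 (nat_lit 0) (nat_lit 64108514327) (nat_lit 532) (nat_lit 3883937654) (nat_lit 61) (nat_lit 5) (nat_lit 60) (nat_lit 5) (nat_lit 67) (nat_lit 5) (nat_lit 345) (nat_lit 340) (nat_lit 215)) (XT.lf (nat_lit 0) (nat_lit 2767248556) (nat_lit 532) (nat_lit 13855770956) (nat_lit 608) (nat_lit 95979384849) (nat_lit 53) (nat_lit 5) (nat_lit 60) (nat_lit 5) (nat_lit 61) (nat_lit 5) (nat_lit 346) (nat_lit 340) (nat_lit 214))) (XT.nd (nat_lit 78) (nat_lit 0) (nat_lit 0) (XT.lf (nat_lit 0) (nat_lit 11732479542) (nat_lit 532) (nat_lit 71502365273) (nat_lit 76) (nat_lit 34187121179) (nat_lit 54) (nat_lit 5) (nat_lit 61) (nat_lit 5) (nat_lit 55) (nat_lit 5) (nat_lit 347) (nat_lit 340) (nat_lit 213)) (XT.lf (nat_lit 0) (nat_lit 22234848158) (nat_lit 532) (nat_lit 11773902489) (nat_lit 76) (nat_lit 88552749058) (nat_lit 54) (nat_lit 5) (nat_lit 61) (nat_lit 5) (nat_lit 55) (nat_lit 5) (nat_lit 348) (nat_lit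 340) (nat_lit 212)))) (XT.nd (nat_lit 156) (nat_lit 456) (nat_lit 0) (XT.nd (nat_lit 78) (nat_lit 0) (nat_lit 0) (XT.lf (nat_lit 0) (nat_lit 35407277654) (nat_lit 456) (nat_lit 72991635359) (nat_lit 76) (nat_lit 19566894021) (nat_lit 49) (nat_lit 5) (nat_lit 55) (nat_lit 5) (nat_lit 50) (nat_lit 5) (nat_lit 349) (nat_lit 340) (nat_lit 211)) (XT.lf (nat_lit 0) (nat_lit 50846662440) (nat_lit 456) (nat_lit 6937218630) (nat_lit 76) (nat_lit 75921525587) (nat_lit 49) (nat_lit 5) (nat_lit 55) (nat_lit 5) (nat_lit 50) (nat_lit 5) (nat_lit 350) (nat_lit 340) (nat_lit 210))) (XT.nd (nat_lit 78) (nat_lit 228) (nat_lit 0) (XT.lf (nat_lit 0) (nat_lit 67792343894) (nat_lit 228) (nat_lit 1358831854) (nat_lit 304) (nat_lit 70622600822) (nat_lit 46) (nat_lit 5) (nat_lit 49) (nat_lit 5) (nat_lit 50) (nat_lit 5) (nat_lit 351) (nat_lit 340) (nat_lit 209)) (XT.nd (nat_lit 78) (nat_lit 0) (nat_lit 0) (XT.lf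 (nat_lit 0) (nat_lit 1204290289) (nat_lit 228) (nat_lit 89371821856) (nat_lit 304) (nat_lit 55619019470) (nat_lit 43) (nat_lit 5) (nat_lit 46) (nat_lit 5) (nat_lit 47) (nat_lit 5) (nat_lit 352) (nat_lit 340) (nat_lit 208)) (XT.lf (nat_lit 0) (nat_lit 84300902162) (nat_lit 228) (nat_lit 31416251763) (nat_lit 304) (nat_lit 37252872765) (nat_lit 43) (nat_lit 5) (nat_lit 46) (nat_lit 5) (nat_lit 47) (nat_lit 5) (nat_lit 353) (nat_lit 340) (nat_lit 207))))))))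
noncomputable def xc201 : XT := (XT.nd (nat_lit 1404) (nat_lit 760) (nat_lit 0) (XT.nd (nat_lit 702) (nat_lit 760) (nat_lit 0) (XT.nd (nat_lit 312) (nat_lit 532) (nat_lit 0) (XT.nd (nat_lit 156) (nat_lit 228) (nat_lit 0) (XT.nd (nat_lit 78) (nat_lit 76) (nat_lit 0) (XT.lf (nat_lit 0) (nat_lit 13693077692) (nat_lit 152) (nat_lit 130255135077) (nat_lit 228) (nat_lit 16252402333) (nat_lit 41) (nat_lit 5) (nat_lit 43) (nat_lit 5) (nat_lit 44) (nat_lit 5) (nat_lit 354) (nat_lit 340) (nat_lit 206)) (XT.lf (nat_lit 0) (nat_lit 8848498889) (nat_lit 228) (nat_lit 62329752288) (nat_lit 76) (nat_lit 96599675846) (nat_lit 40) (nat_lit 5) (nat_lit 43) (nat_lit 5) (nat_lit 41) (nat_lit 5) (nat_lit 355) (nat_lit 340) (nat_lit 205))) (XT.nd (nat_lit 78) (nat_lit 0) (nat_lit 0) (XT.lf (nat_lit 0) (nat_lit 29642524058) (nat_lit 228) (nat_lit 6149469873) (nat_lit 304) (nat_lit 140078653195) (nat_lit 37)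 (nat_lit 5) (nat_lit 40) (nat_lit 5) (nat_lit 41) (nat_lit 5) (nat_lit 356) (nat_lit 340) (nat_lit 204)) (XT.lf (nat_lit 0) (nat_lit 68180285923) (nat_lit 304) (nat_lit 53542989584) (nat_lit 76) (nat_lit 62624364257) (nat_lit 37) (nat_lit 5) (nat_lit 41) (nat_lit 5) (nat_lit 38) (nat_lit 5) (nat_lit 357) (nat_lit 340) (nat_lit 203)))) (XT.nd (nat_lit 156) (nat_lit 380) (nat_lit 0) (XT.nd (nat_lit 78) (nat_lit 0) (nat_lit 0) (XT.lf (nat_lit 0) (nat_lit 48839992570) (nat_lit 152) (nat_lit 55653683758) (nat_lit 228) (nat_lit 88902392974) (nat_lit 35) (nat_lit 5) (nat_lit 37) (nat_lit 5) (nat_lit 38) (nat_lit 5) (nat_lit 358) (nat_lit 340) (nat_lit 202)) (XT.lf (nat_lit 0) (nat_lit 145591458944) (nat_lit 228) (nat_lit 41008671033) (nat_lit 76) (nat_lit 16417897818) (nat_lit 35) (nat_lit 5) (nat_lit 38) (nat_lit 5) (nat_lit 36) (nat_lit 5) (nat_lit 359) (nat_lit 340) (nat_lit 201))) (XT.nd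 (nat_lit 78) (nat_lit 228) (nat_lit 0) (XT.lf (nat_lit 0) (nat_lit 73029836763) (nat_lit 152) (nat_lit 120148883034) (nat_lit 228) (nat_lit 19974890969) (nat_lit 33) (nat_lit 5) (nat_lit 35) (nat_lit 5) (nat_lit 36) (nat_lit 5) (nat_lit 360) (nat_lit 340) (nat_lit 200)) (XT.nd (nat_lit 78) (nat_lit 152) (nat_lit 0) (XT.lf (nat_lit 0) (nat_lit 20598895534) (nat_lit 228) (nat_lit 26008605798) (nat_lit 76) (nat_lit 177361140292) (nat_lit 32) (nat_lit 5) (nat_lit 35) (nat_lit 5) (nat_lit 33) (nat_lit 5) (nat_lit 361) (nat_lit 340) (nat_lit 199)) (XT.lf (nat_lit 0) (nat_lit 66654027430) (nat_lit 228) (nat_lit 134468323683) (nat_lit 76) (nat_lit 34219849337) (nat_lit 30) (nat_lit 5) (nat_lit 33) (nat_lit 5) (nat_lit 31) (nat_lit 5) (nat_lit 362) (nat_lit 340) (nat_lit 198)))))) (XT.nd (nat_lit 312) (nat_lit 456) (nat_lit 0) (XT.nd (nat_lit 156) (nat_lit 152) (nat_lit 0) (XT.nd (nat_lit 78)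 (nat_lit 152) (nat_lit 0) (XT.lf (nat_lit 0) (nat_lit 118333511770) (nat_lit 228) (nat_lit 9412088942) (nat_lit 76) (nat_lit 119724848101) (nat_lit 30) (nat_lit 5) (nat_lit 33) (nat_lit 5) (nat_lit 31) (nat_lit 5) (nat_lit 363) (nat_lit 340) (nat_lit 197)) (XT.lf (nat_lit 0) (nat_lit 132264718964) (nat_lit 152) (nat_lit 45063388327) (nat_lit 228) (nat_lit 82986389732) (nat_lit 28) (nat_lit 5) (nat_lit 30) (nat_lit 5) (nat_lit 31) (nat_lit 5) (nat_lit 364) (nat_lit 340) (nat_lit 196))) (XT.nd (nat_lit 78) (nat_lit 76) (nat_lit 0) (XT.lf (nat_lit 0) (nat_lit 11131457968) (nat_lit 76) (nat_lit 231506153933) (nat_lit 152) (nat_lit 31420830030) (nat_lit 27) (nat_lit 5) (nat_lit 28) (nat_lit 5) (nat_lit 29) (nat_lit 4) (nat_lit 365) (nat_lit 340) (nat_lit 195)) (XT.lf (nat_lit 0) (nat_lit 27818205309) (nat_lit 152) (nat_lit 121737775683) (nat_lit 76) (nat_lit 138918241034) (nat_lit 26) (nat_lit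 5) (nat_lit 28) (nat_lit 5) (nat_lit 27) (nat_lit 5) (nat_lit 366) (nat_lit 340) (nat_lit 194)))) (XT.nd (nat_lit 156) (nat_lit 304) (nat_lit 0) (XT.nd (nat_lit 78) (nat_lit 0) (nat_lit 0) (XT.lf (nat_lit 0) (nat_lit 31506186653) (nat_lit 152) (nat_lit 59350165922) (nat_lit 228) (nat_lit 213061019640) (nat_lit 24) (nat_lit 5) (nat_lit 26) (nat_lit 5) (nat_lit 27) (nat_lit 5) (nat_lit 367) (nat_lit 340) (nat_lit 193)) (XT.lf (nat_lit 0) (nat_lit 163267977867) (nat_lit 228) (nat_lit 117399109694) (nat_lit 76) (nat_lit 39582452874) (nat_lit 24) (nat_lit 5) (nat_lit 27) (nat_lit 5) (nat_lit 25) (nat_lit 4) (nat_lit 368) (nat_lit 340) (nat_lit 192))) (XT.nd (nat_lit 78) (nat_lit 228) (nat_lit 0) (XT.lf (nat_lit 0) (nat_lit 51024518828) (nat_lit 76) (nat_lit 193216541361) (nat_lit 152) (nat_lit 93425739870) (nat_lit 23) (nat_lit 5) (nat_lit 24) (nat_lit 5) (nat_lit 25) (nat_lit 4) (nat_lit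 369) (nat_lit 340) (nat_lit 191)) (XT.nd (nat_lit 78) (nat_lit 228) (nat_lit 0) (XT.lf (nat_lit 0) (nat_lit 239598332969) (nat_lit 76) (nat_lit 95303385153) (nat_lit 152) (nat_lit 21318944108) (nat_lit 23) (nat_lit 5) (nat_lit 24) (nat_lit 5) (nat_lit 25) (nat_lit 4) (nat_lit 370) (nat_lit 340) (nat_lit 190)) (XT.lf (nat_lit 0) (nat_lit 55718432498) (nat_lit 228) (nat_lit 307251557474) (nat_lit 76) (nat_lit 13020731505) (nat_lit 20) (nat_lit 5) (nat_lit 23) (nat_lit 5) (nat_lit 21) (nat_lit 4) (nat_lit 371) (nat_lit 340) (nat_lit 189))))))) (XT.nd (nat_lit 702) (nat_lit 304) (nat_lit 0) (XT.nd (nat_lit 312) (nat_lit 304) (nat_lit 0) (XT.nd (nat_lit 156) (nat_lit 76) (nat_lit 0) (XT.nd (nat_lit 78) (nat_lit 76) (nat_lit 0) (XT.lf (nat_lit 0) (nat_lit 143513758938) (nat_lit 228) (nat_lit 124637559782) (nat_lit 76) (nat_lit 128687028803) (nat_lit 20) (nat_lit 5) (nat_lit 23) (nat_lit 5)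 (nat_lit 21) (nat_lit 4) (nat_lit 372) (nat_lit 340) (nat_lit 188)) (XT.lf (nat_lit 0) (nat_lit 76407506420) (nat_lit 76) (nat_lit 163762659569) (nat_lit 152) (nat_lit 179036621377) (nat_lit 19) (nat_lit 5) (nat_lit 20) (nat_lit 5) (nat_lit 21) (nat_lit 4) (nat_lit 373) (nat_lit 340) (nat_lit 187))) (XT.nd (nat_lit 78) (nat_lit 76) (nat_lit 0) (XT.lf (nat_lit 0) (nat_lit 300624168844) (nat_lit 76) (nat_lit 47342585412) (nat_lit 152) (nat_lit 95125334717) (nat_lit 19) (nat_lit 5) (nat_lit 20) (nat_lit 5) (nat_lit 21) (nat_lit 4) (nat_lit 374) (nat_lit 340) (nat_lit 186)) (XT.lf (nat_lit 0) (nat_lit 75796019115) (nat_lit 76) (nat_lit 392299119207) (nat_lit 76) (nat_lit 496430950) (nat_lit 18) (nat_lit 4) (nat_lit 19) (nat_lit 5) (nat_lit 19) (nat_lit 4) (nat_lit 375) (nat_lit 340) (nat_lit 185)))) (XT.nd (nat_lit 156) (nat_lit 152) (nat_lit 0) (XT.nd (nat_lit 78) (nat_lit 76) (nat_lit 0)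 (XT.lf (nat_lit 0) (nat_lit 101841245858) (nat_lit 152) (nat_lit 179973088321) (nat_lit 76) (nat_lit 213702913839) (nat_lit 17) (nat_lit 5) (nat_lit 19) (nat_lit 5) (nat_lit 18) (nat_lit 4) (nat_lit 376) (nat_lit 340) (nat_lit 184)) (XT.lf (nat_lit 0) (nat_lit 52487694055) (nat_lit 76) (nat_lit 161113628555) (nat_lit 152) (nat_lit 310893650481) (nat_lit 16) (nat_lit 5) (nat_lit 17) (nat_lit 5) (nat_lit 18) (nat_lit 4) (nat_lit 377) (nat_lit 340) (nat_lit 183))) (XT.nd (nat_lit 78) (nat_lit 152) (nat_lit 0) (XT.lf (nat_lit 0) (nat_lit 313780344696) (nat_lit 76) (nat_lit 25442523480) (nat_lit 152) (nat_lit 216174395026) (nat_lit 16) (nat_lit 5) (nat_lit 17) (nat_lit 5) (nat_lit 18) (nat_lit 4) (nat_lit 378) (nat_lit 340) (nat_lit 182)) (XT.nd (nat_lit 78) (nat_lit 76) (nat_lit 0) (XT.lf (nat_lit 0) (nat_lit 4518457436) (nat_lit 76) (nat_lit 473396266603) (nat_lit 76) (nat_lit 110615365593)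 (nat_lit 15) (nat_lit 4) (nat_lit 16) (nat_lit 5) (nat_lit 16) (nat_lit 4) (nat_lit 379) (nat_lit 340) (nat_lit 181)) (XT.lf (nat_lit 0) (nat_lit 10657442065) (nat_lit 152) (nat_lit 340613551811) (nat_lit 76) (nat_lit 272440944543) (nat_lit 14) (nat_lit 5) (nat_lit 16) (nat_lit 5) (nat_lit 15) (nat_lit 4) (nat_lit 380) (nat_lit 340) (nat_lit 180)))))) (XT.nd (nat_lit 312) (nat_lit 152) (nat_lit 0) (XT.nd (nat_lit 156) (nat_lit 76) (nat_lit 0) (XT.nd (nat_lit 78) (nat_lit 76) (nat_lit 0) (XT.lf (nat_lit 0) (nat_lit 135655866524) (nat_lit 152) (nat_lit 80616949581) (nat_lit 76) (nat_lit 445205677321) (nat_lit 14) (nat_lit 5) (nat_lit 16) (nat_lit 5) (nat_lit 15) (nat_lit 4) (nat_lit 381) (nat_lit 340) (nat_lit 179)) (XT.lf (nat_lit 0) (nat_lit 210720279081) (nat_lit 76) (nat_lit 65001616467) (nat_lit 152) (nat_lit 426139058869) (nat_lit 13) (nat_lit 5) (nat_lit 14) (nat_lit 5) (nat_lit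 15) (nat_lit 4) (nat_lit 382) (nat_lit 340) (nat_lit 178))) (XT.nd (nat_lit 78) (nat_lit 76) (nat_lit 0) (XT.lf (nat_lit 0) (nat_lit 431620404698) (nat_lit 152) (nat_lit 217771700334) (nat_lit 0) (nat_lit 95711731461) (nat_lit 13) (nat_lit 5) (nat_lit 15) (nat_lit 4) (nat_lit 13) (nat_lit 4) (nat_lit 383) (nat_lit 340) (nat_lit 177)) (XT.lf (nat_lit 0) (nat_lit 79768617552) (nat_lit 76) (nat_lit 523828878696) (nat_lit 76) (nat_lit 187920116780) (nat_lit 12) (nat_lit 4) (nat_lit 13) (nat_lit 5) (nat_lit 13) (nat_lit 4) (nat_lit 384) (nat_lit 340) (nat_lit 176)))) (XT.nd (nat_lit 156) (nat_lit 76) (nat_lit 0) (XT.nd (nat_lit 78) (nat_lit 76) (nat_lit 0) (XT.lf (nat_lit 0) (nat_lit 413496863999) (nat_lit 76) (nat_lit 381790068763) (nat_lit 76) (nat_lit 45881224738) (nat_lit 12) (nat_lit 4) (nat_lit 13) (nat_lit 5) (nat_lit 13) (nat_lit 4) (nat_lit 385) (nat_lit 340) (nat_lit 175)) (XT.lf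 (nat_lit 0) (nat_lit 102142071592) (nat_lit 152) (nat_lit 123453411139) (nat_lit 76) (nat_lit 668988399215) (nat_lit 11) (nat_lit 5) (nat_lit 13) (nat_lit 5) (nat_lit 12) (nat_lit 4) (nat_lit 386) (nat_lit 340) (nat_lit 174))) (XT.nd (nat_lit 78) (nat_lit 0) (nat_lit 0) (XT.lf (nat_lit 0) (nat_lit 214647576049) (nat_lit 76) (nat_lit 50043080920) (nat_lit 152) (nat_lit 687073893534) (nat_lit 10) (nat_lit 5) (nat_lit 11) (nat_lit 5) (nat_lit 12) (nat_lit 4) (nat_lit 387) (nat_lit 340) (nat_lit 173)) (XT.nd (nat_lit 78) (nat_lit 0) (nat_lit 0) (XT.lf (nat_lit 0) (nat_lit 447062427571) (nat_lit 152) (nat_lit 429876176909) (nat_lit 0) (nat_lit 136035524211) (nat_lit 10) (nat_lit 5) (nat_lit 12) (nat_lit 4) (nat_lit 10) (nat_lit 4) (nat_lit 388) (nat_lit 340) (nat_lit 172)) (XT.lf (nat_lit 0) (nat_lit 645323690078) (nat_lit 152) (nat_lit 99356072215) (nat_lit 0) (nat_lit 334296730836) (nat_lit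 10) (nat_lit 5) (nat_lit 12) (nat_lit 4) (nat_lit 10) (nat_lit 4) (nat_lit 389) (nat_lit 340) (nat_lit 171))))))))
noncomputable def xc202 : XT := (XT.nd (nat_lit 1404) (nat_lit 76) (nat_lit 0) (XT.nd (nat_lit 702) (nat_lit 152) (nat_lit 0) (XT.nd (nat_lit 312) (nat_lit 76) (nat_lit 0) (XT.nd (nat_lit 156) (nat_lit 152) (nat_lit 0) (XT.nd (nat_lit 78) (nat_lit 0) (nat_lit 0) (XT.lf (nat_lit 0) (nat_lit 271170564465) (nat_lit 76) (nat_lit 594796882880) (nat_lit 76) (nat_lit 283769871894) (nat_lit 9) (nat_lit 4) (nat_lit 10) (nat_lit 5) (nat_lit 10) (nat_lit 4) (nat_lit 390) (nat_lit 340) (nat_lit 170)) (XT.lf (nat_lit 0) (nat_lit 676989676872) (nat_lit 76) (nat_lit 429989536414) (nat_lit 76) (nat_lit 118962477518) (nat_lit 9) (nat_lit 4) (nat_lit 10) (nat_lit 5) (nat_lit 10) (nat_lit 4) (nat_lit 391) (nat_lit 340) (nat_lit 169))) (XT.nd (nat_lit 78) (nat_lit 76) (nat_lit 0) (XT.lf (nat_lit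 0) (nat_lit 56076553468) (nat_lit 152) (nat_lit 194387872041) (nat_lit 76) (nat_lit 1057664418498) (nat_lit 8) (nat_lit 5) (nat_lit 10) (nat_lit 5) (nat_lit 9) (nat_lit 4) (nat_lit 392) (nat_lit 340) (nat_lit 168)) (XT.lf (nat_lit 0) (nat_lit 195216898153) (nat_lit 76) (nat_lit 48169660733) (nat_lit 152) (nat_lit 1152881622580) (nat_lit 7) (nat_lit 5) (nat_lit 8) (nat_lit 5) (nat_lit 9) (nat_lit 4) (nat_lit 393) (nat_lit 340) (nat_lit 167)))) (XT.nd (nat_lit 156) (nat_lit 76) (nat_lit 0) (XT.nd (nat_lit 78) (nat_lit 0) (nat_lit 0) (XT.lf (nat_lit 0) (nat_lit 455230196096) (nat_lit 152) (nat_lit 868222499050) (nat_lit 0) (nat_lit 167242064278) (nat_lit 7) (nat_lit 5) (nat_lit 9) (nat_lit 4) (nat_lit 7) (nat_lit 4) (nat_lit 394) (nat_lit 340) (nat_lit 166)) (XT.lf (nat_lit 0) (nat_lit 685272433277) (nat_lit 152) (nat_lit 510018672780) (nat_lit 0) (nat_lit 397284268852) (nat_lit 7) (nat_lit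 5) (nat_lit 9) (nat_lit 4) (nat_lit 7) (nat_lit 4) (nat_lit 395) (nat_lit 340) (nat_lit 165))) (XT.nd (nat_lit 78) (nat_lit 76) (nat_lit 0) (XT.lf (nat_lit 0) (nat_lit 933718002187) (nat_lit 152) (nat_lit 123158633663) (nat_lit 0) (nat_lit 645729807571) (nat_lit 7) (nat_lit 5) (nat_lit 9) (nat_lit 4) (nat_lit 7) (nat_lit 4) (nat_lit 396) (nat_lit 340) (nat_lit 164)) (XT.nd (nat_lit 78) (nat_lit 0) (nat_lit 0) (XT.lf (nat_lit 0) (nat_lit 310165875507) (nat_lit 76) (nat_lit 899332794123) (nat_lit 76) (nat_lit 611344571551) (nat_lit 6) (nat_lit 4) (nat_lit 7) (nat_lit 5) (nat_lit 7) (nat_lit 4) (nat_lit 397) (nat_lit 340) (nat_lit 163)) (XT.lf (nat_lit 0) (nat_lit 785160401876) (nat_lit 76) (nat_lit 725548721364) (nat_lit 76) (nat_lit 437560472908) (nat_lit 6) (nat_lit 4) (nat_lit 7) (nat_lit 5) (nat_lit 7) (nat_lit 4) (nat_lit 398) (nat_lit 340) (nat_lit 162)))))) (XT.nd (nat_lit 312) (nat_lit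 0) (nat_lit 0) (XT.nd (nat_lit 156) (nat_lit 152) (nat_lit 0) (XT.nd (nat_lit 78) (nat_lit 0) (nat_lit 0) (XT.lf (nat_lit 0) (nat_lit 1298154412427) (nat_lit 76) (nat_lit 537861961333) (nat_lit 76) (nat_lit 249873688910) (nat_lit 6) (nat_lit 4) (nat_lit 7) (nat_lit 5) (nat_lit 7) (nat_lit 4) (nat_lit 399) (nat_lit 340) (nat_lit 161)) (XT.lf (nat_lit 0) (nat_lit 1852187871667) (nat_lit 76) (nat_lit 335160296192) (nat_lit 76) (nat_lit 47172001578) (nat_lit 6) (nat_lit 4) (nat_lit 7) (nat_lit 5) (nat_lit 7) (nat_lit 4) (nat_lit 400) (nat_lit 340) (nat_lit 160))) (XT.nd (nat_lit 78) (nat_lit 0) (nat_lit 0) (XT.lf (nat_lit 0) (nat_lit 54077961807) (nat_lit 76) (nat_lit 110376979043) (nat_lit 152) (nat_lit 2230151261281) (nat_lit 4) (nat_lit 5) (nat_lit 5) (nat_lit 5) (nat_lit 6) (nat_lit 4) (nat_lit 401) (nat_lit 340) (nat_lit 159)) (XT.lf (nat_lit 0) (nat_lit 404372615330) (nat_lit 152) (nat_lit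 2024199004833) (nat_lit 0) (nat_lit 137716750340) (nat_lit 4) (nat_lit 5) (nat_lit 6) (nat_lit 4) (nat_lit 4) (nat_lit 4) (nat_lit 402) (nat_lit 340) (nat_lit 158)))) (XT.nd (nat_lit 156) (nat_lit 0) (nat_lit 0) (XT.nd (nat_lit 78) (nat_lit 0) (nat_lit 0) (XT.lf (nat_lit 0) (nat_lit 666350606357) (nat_lit 152) (nat_lit 1685430428729) (nat_lit 0) (nat_lit 399694725056) (nat_lit 4) (nat_lit 5) (nat_lit 6) (nat_lit 4) (nat_lit 4) (nat_lit 4) (nat_lit 403) (nat_lit 340) (nat_lit 157)) (XT.lf (nat_lit 0) (nat_lit 949286807101) (nat_lit 152) (nat_lit 1319560425525) (nat_lit 0) (nat_lit 682630910697) (nat_lit 4) (nat_lit 5) (nat_lit 6) (nat_lit 4) (nat_lit 4) (nat_lit 4) (nat_lit 404) (nat_lit 340) (nat_lit 156))) (XT.nd (nat_lit 78) (nat_lit 0) (nat_lit 0) (XT.lf (nat_lit 0) (nat_lit 1254857876529) (nat_lit 152) (nat_lit 924420876684) (nat_lit 0) (nat_lit 988201966140) (nat_lit 4) (nat_lit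 5) (nat_lit 6) (nat_lit 4) (nat_lit 4) (nat_lit 4) (nat_lit 405) (nat_lit 340) (nat_lit 155)) (XT.nd (nat_lit 78) (nat_lit 0) (nat_lit 0) (XT.lf (nat_lit 0) (nat_lit 1584874606163) (nat_lit 152) (nat_lit 497670214507) (nat_lit 0) (nat_lit 1318218682826) (nat_lit 4) (nat_lit 5) (nat_lit 6) (nat_lit 4) (nat_lit 4) (nat_lit 4) (nat_lit 406) (nat_lit 340) (nat_lit 154)) (XT.lf (nat_lit 0) (nat_lit 1941292650698) (nat_lit 152) (nat_lit 36779546183) (nat_lit 0) (nat_lit 1674636715372) (nat_lit 4) (nat_lit 5) (nat_lit 6) (nat_lit 4) (nat_lit 4) (nat_lit 4) (nat_lit 407) (nat_lit 340) (nat_lit 153))))))) (XT.nd (nat_lit 42120) (nat_lit 0) (nat_lit 2888) (XT.nd (nat_lit 41730) (nat_lit 0) (nat_lit 4180) (XT.nd (nat_lit 156) (nat_lit 0) (nat_lit 0) (XT.nd (nat_lit 78) (nat_lit 0) (nat_lit 0) (XT.lf (nat_lit 0) (nat_lit 485256844934) (nat_lit 76) (nat_lit 1852637710921) (nat_lit 76) (nat_lit 1585981764493)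 (nat_lit 3) (nat_lit 4) (nat_lit 4) (nat_lit 5) (nat_lit 4) (nat_lit 4) (nat_lit 408) (nat_lit 340) (nat_lit 152)) (XT.lf (nat_lit 0) (nat_lit 1051147790461) (nat_lit 76) (nat_lit 1716082419796) (nat_lit 76) (nat_lit 1449426463089) (nat_lit 3) (nat_lit 4) (nat_lit 4) (nat_lit 5) (nat_lit 4) (nat_lit 4) (nat_lit 409) (nat_lit 340) (nat_lit 151))) (XT.nd (nat_lit 41496) (nat_lit 0) (nat_lit 4180) (XT.lf (nat_lit 0) (nat_lit 1662309972502) (nat_lit 76) (nat_lit 1568602724939) (nat_lit 76) (nat_lit 1301946758715) (nat_lit 3) (nat_lit 4) (nat_lit 4) (nat_lit 5) (nat_lit 4) (nat_lit 4) (nat_lit 410) (nat_lit 340) (nat_lit 150)) (XT.lf (nat_lit 0) (nat_lit 38763518891) (nat_lit 532) (nat_lit 4503358684) (nat_lit 532) (nat_lit 4503358684) (nat_lit 58) (nat_lit 3) (nat_lit 65) (nat_lit 3) (nat_lit 65) (nat_lit 5) (nat_lit 341) (nat_lit 341) (nat_lit 218)))) (XT.nd (nat_lit 156) (nat_lit 0) (nat_lit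 76) (XT.nd (nat_lit 78) (nat_lit 0) (nat_lit 76) (XT.lf (nat_lit 76) (nat_lit 38599857667) (nat_lit 0) (nat_lit 42963254967) (nat_lit 532) (nat_lit 17724169325) (nat_lit 59) (nat_lit 5) (nat_lit 58) (nat_lit 3) (nat_lit 65) (nat_lit 5) (nat_lit 342) (nat_lit 341) (nat_lit 217)) (XT.lf (nat_lit 0) (nat_lit 86272494525) (nat_lit 456) (nat_lit 12892228852) (nat_lit 532) (nat_lit 4141080091) (nat_lit 59) (nat_lit 5) (nat_lit 65) (nat_lit 5) (nat_lit 66) (nat_lit 5) (nat_lit 343) (nat_lit 341) (nat_lit 216))) (XT.nd (nat_lit 78) (nat_lit 0) (nat_lit 0) (XT.lf (nat_lit 76) (nat_lit 39590733240) (nat_lit 0) (nat_lit 53835361157) (nat_lit 532) (nat_lit 14054315833) (nat_lit 60) (nat_lit 5) (nat_lit 59) (nat_lit 5) (nat_lit 66) (nat_lit 5) (nat_lit 344) (nat_lit 341) (nat_lit 215)) (XT.nd (nat_lit 78) (nat_lit 0) (nat_lit 76) (XT.lf (nat_lit 76) (nat_lit 97005126035) (nat_lit 0) (nat_lit 4498769540)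 (nat_lit 532) (nat_lit 10456937750) (nat_lit 60) (nat_lit 5) (nat_lit 59) (nat_lit 5) (nat_lit 66) (nat_lit 5) (nat_lit 345) (nat_lit 341) (nat_lit 214)) (XT.lf (nat_lit 76) (nat_lit 43200344483) (nat_lit 0) (nat_lit 69239284311) (nat_lit 532) (nat_lit 4183125632) (nat_lit 61) (nat_lit 5) (nat_lit 60) (nat_lit 5) (nat_lit 67) (nat_lit 5) (nat_lit 346) (nat_lit 341) (nat_lit 213)))))) (XT.nd (nat_lit 312) (nat_lit 608) (nat_lit 0) (XT.nd (nat_lit 156) (nat_lit 304) (nat_lit 0) (XT.nd (nat_lit 78) (nat_lit 0) (nat_lit 76) (XT.lf (nat_lit 0) (nat_lit 2998767705) (nat_lit 532) (nat_lit 14955750252) (nat_lit 608) (nat_lit 103655254334) (nat_lit 53) (nat_lit 5) (nat_lit 60) (nat_lit 5) (nat_lit 61) (nat_lit 5) (nat_lit 347) (nat_lit 341) (nat_lit 212)) (XT.lf (nat_lit 0) (nat_lit 12680633218) (nat_lit 532) (nat_lit 77213475869) (nat_lit 76) (nat_lit 36920837467) (nat_lit 54) (nat_lit 5) (nat_lit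 61) (nat_lit 5) (nat_lit 55) (nat_lit 5) (nat_lit 348) (nat_lit 341) (nat_lit 211))) (XT.nd (nat_lit 78) (nat_lit 380) (nat_lit 0) (XT.lf (nat_lit 0) (nat_lit 24022483523) (nat_lit 532) (nat_lit 12707408554) (nat_lit 76) (nat_lit 95635808421) (nat_lit 54) (nat_lit 5) (nat_lit 61) (nat_lit 5) (nat_lit 55) (nat_lit 5) (nat_lit 349) (nat_lit 341) (nat_lit 210)) (XT.lf (nat_lit 0) (nat_lit 38248244345) (nat_lit 456) (nat_lit 78822086481) (nat_lit 76) (nat_lit 21132059472) (nat_lit 49) (nat_lit 5) (nat_lit 55) (nat_lit 5) (nat_lit 50) (nat_lit 5) (nat_lit 350) (nat_lit 341) (nat_lit 209)))) (XT.nd (nat_lit 156) (nat_lit 380) (nat_lit 0) (XT.nd (nat_lit 78) (nat_lit 228) (nat_lit 0) (XT.lf (nat_lit 0) (nat_lit 54922158842) (nat_lit 456) (nat_lit 7483974169) (nat_lit 76) (nat_lit 81995075346) (nat_lit 49) (nat_lit 5) (nat_lit 55) (nat_lit 5) (nat_lit 50) (nat_lit 5) (nat_lit 351) (nat_lit 341)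 (nat_lit 208)) (XT.lf (nat_lit 0) (nat_lit 73223745206) (nat_lit 228) (nat_lit 1466905675) (nat_lit 304) (nat_lit 76264428294) (nat_lit 46) (nat_lit 5) (nat_lit 49) (nat_lit 5) (nat_lit 50) (nat_lit 5) (nat_lit 352) (nat_lit 341) (nat_lit 207))) (XT.nd (nat_lit 78) (nat_lit 152) (nat_lit 0) (XT.lf (nat_lit 0) (nat_lit 1309013944) (nat_lit 228) (nat_lit 96520237139) (nat_lit 304) (nat_lit 60060918699) (nat_lit 43) (nat_lit 5) (nat_lit 46) (nat_lit 5) (nat_lit 47) (nat_lit 5) (nat_lit 353) (nat_lit 341) (nat_lit 206)) (XT.nd (nat_lit 78) (nat_lit 152) (nat_lit 0) (XT.lf (nat_lit 0) (nat_lit 91052733994) (nat_lit 228) (nat_lit 33928319991) (nat_lit 304) (nat_lit 40226044874) (nat_lit 43) (nat_lit 5) (nat_lit 46) (nat_lit 5) (nat_lit 47) (nat_lit 5) (nat_lit 354) (nat_lit 341) (nat_lit 205)) (XT.lf (nat_lit 0) (nat_lit 14796574791) (nat_lit 152) (nat_lit 140673760265) (nat_lit 228) (nat_lit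 17545820860) (nat_lit 41) (nat_lit 5) (nat_lit 43) (nat_lit 5) (nat_lit 44) (nat_lit 5) (nat_lit 355) (nat_lit 341) (nat_lit 204))))))))
noncomputable def xc203 : XT := (XT.nd (nat_lit 1404) (nat_lit 836) (nat_lit 0) (XT.nd (nat_lit 702) (nat_lit 760) (nat_lit 0) (XT.nd (nat_lit 312) (nat_lit 380) (nat_lit 0) (XT.nd (nat_lit 156) (nat_lit 152) (nat_lit 0) (XT.nd (nat_lit 78) (nat_lit 228) (nat_lit 0) (XT.lf (nat_lit 0) (nat_lit 9562336961) (nat_lit 228) (nat_lit 67308358053) (nat_lit 76) (nat_lit 104328983368) (nat_lit 40) (nat_lit 5) (nat_lit 43) (nat_lit 5) (nat_lit 41) (nat_lit 5) (nat_lit 356) (nat_lit 341) (nat_lit 203)) (XT.lf (nat_lit 0) (nat_lit 32021503580) (nat_lit 228) (nat_lit 6639548923) (nat_lit 304) (nat_lit 151278784774) (nat_lit 37) (nat_lit 5) (nat_lit 40) (nat_lit 5) (nat_lit 41) (nat_lit 5) (nat_lit 357) (nat_lit 341) (nat_lit 202))) (XT.nd (nat_lit 78) (nat_lit 152)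 (nat_lit 0) (XT.lf (nat_lit 0) (nat_lit 73640027534) (nat_lit 304) (nat_lit 57819026865) (nat_lit 76) (nat_lit 67635965776) (nat_lit 37) (nat_lit 5) (nat_lit 41) (nat_lit 5) (nat_lit 38) (nat_lit 5) (nat_lit 358) (nat_lit 341) (nat_lit 201)) (XT.lf (nat_lit 0) (nat_lit 52754406473) (nat_lit 152) (nat_lit 60103862227) (nat_lit 228) (nat_lit 96009073403) (nat_lit 35) (nat_lit 5) (nat_lit 37) (nat_lit 5) (nat_lit 38) (nat_lit 5) (nat_lit 359) (nat_lit 341) (nat_lit 200)))) (XT.nd (nat_lit 156) (nat_lit 228) (nat_lit 0) (XT.nd (nat_lit 78) (nat_lit 152) (nat_lit 0) (XT.lf (nat_lit 0) (nat_lit 157243543401) (nat_lit 228) (nat_lit 44282349581) (nat_lit 76) (nat_lit 17733191096) (nat_lit 35) (nat_lit 5) (nat_lit 38) (nat_lit 5) (nat_lit 36) (nat_lit 5) (nat_lit 360) (nat_lit 341) (nat_lit 199)) (XT.lf (nat_lit 0) (nat_lit 78879061240) (nat_lit 152) (nat_lit 129758535159) (nat_lit 228) (nat_lit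 21567932721) (nat_lit 33) (nat_lit 5) (nat_lit 35) (nat_lit 5) (nat_lit 36) (nat_lit 5) (nat_lit 361) (nat_lit 341) (nat_lit 198))) (XT.nd (nat_lit 78) (nat_lit 152) (nat_lit 0) (XT.lf (nat_lit 0) (nat_lit 22251160816) (nat_lit 228) (nat_lit 28082730367) (nat_lit 76) (nat_lit 191551889891) (nat_lit 32) (nat_lit 5) (nat_lit 35) (nat_lit 5) (nat_lit 33) (nat_lit 5) (nat_lit 362) (nat_lit 341) (nat_lit 197)) (XT.nd (nat_lit 78) (nat_lit 0) (nat_lit 0) (XT.lf (nat_lit 0) (nat_lit 71990587853) (nat_lit 228) (nat_lit 145219106949) (nat_lit 76) (nat_lit 36959539303) (nat_lit 30) (nat_lit 5) (nat_lit 33) (nat_lit 5) (nat_lit 31) (nat_lit 5) (nat_lit 363) (nat_lit 341) (nat_lit 196)) (XT.lf (nat_lit 0) (nat_lit 127804116997) (nat_lit 228) (nat_lit 10158868439) (nat_lit 76) (nat_lit 129304782264) (nat_lit 30) (nat_lit 5) (nat_lit 33) (nat_lit 5) (nat_lit 31) (nat_lit 5) (nat_lit 364) (nat_lit 341)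 (nat_lit 195)))))) (XT.nd (nat_lit 312) (nat_lit 304) (nat_lit 0) (XT.nd (nat_lit 156) (nat_lit 228) (nat_lit 0) (XT.nd (nat_lit 78) (nat_lit 76) (nat_lit 0) (XT.lf (nat_lit 0) (nat_lit 142851927451) (nat_lit 152) (nat_lit 48666207066) (nat_lit 228) (nat_lit 89621217128) (nat_lit 28) (nat_lit 5) (nat_lit 30) (nat_lit 5) (nat_lit 31) (nat_lit 5) (nat_lit 365) (nat_lit 341) (nat_lit 194)) (XT.lf (nat_lit 0) (nat_lit 12028097510) (nat_lit 76) (nat_lit 250024219497) (nat_lit 152) (nat_lit 33930501948) (nat_lit 27) (nat_lit 5) (nat_lit 28) (nat_lit 5) (nat_lit 29) (nat_lit 4) (nat_lit 366) (nat_lit 341) (nat_lit 193))) (XT.nd (nat_lit 78) (nat_lit 152) (nat_lit 0) (XT.lf (nat_lit 0) (nat_lit 30047175313) (nat_lit 152) (nat_lit 131470941101) (nat_lit 76) (nat_lit 150033760027) (nat_lit 26) (nat_lit 5) (nat_lit 28) (nat_lit 5) (nat_lit 27) (nat_lit 5) (nat_lit 367) (nat_lit 341) (nat_lit 192))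 (XT.lf (nat_lit 0) (nat_lit 34032389952) (nat_lit 152) (nat_lit 64095861428) (nat_lit 228) (nat_lit 230102237270) (nat_lit 24) (nat_lit 5) (nat_lit 26) (nat_lit 5) (nat_lit 27) (nat_lit 5) (nat_lit 368) (nat_lit 341) (nat_lit 191)))) (XT.nd (nat_lit 156) (nat_lit 228) (nat_lit 0) (XT.nd (nat_lit 78) (nat_lit 76) (nat_lit 0) (XT.lf (nat_lit 0) (nat_lit 176332607154) (nat_lit 228) (nat_lit 126785551464) (nat_lit 76) (nat_lit 42751087829) (nat_lit 24) (nat_lit 5) (nat_lit 27) (nat_lit 5) (nat_lit 25) (nat_lit 4) (nat_lit 369) (nat_lit 341) (nat_lit 190)) (XT.lf (nat_lit 0) (nat_lit 55111828429) (nat_lit 76) (nat_lit 208671599880) (nat_lit 152) (nat_lit 100896467295) (nat_lit 23) (nat_lit 5) (nat_lit 24) (nat_lit 5) (nat_lit 25) (nat_lit 4) (nat_lit 370) (nat_lit 341) (nat_lit 189))) (XT.nd (nat_lit 78) (nat_lit 228) (nat_lit 0) (XT.lf (nat_lit 0) (nat_lit 258771151546) (nat_lit 76) (nat_lit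 102925558938) (nat_lit 152) (nat_lit 23021374670) (nat_lit 23) (nat_lit 5) (nat_lit 24) (nat_lit 5) (nat_lit 25) (nat_lit 4) (nat_lit 371) (nat_lit 341) (nat_lit 188)) (XT.nd (nat_lit 78) (nat_lit 0) (nat_lit 0) (XT.lf (nat_lit 0) (nat_lit 60178791983) (nat_lit 228) (nat_lit 331826527086) (nat_lit 76) (nat_lit 14064427911) (nat_lit 20) (nat_lit 5) (nat_lit 23) (nat_lit 5) (nat_lit 21) (nat_lit 4) (nat_lit 372) (nat_lit 341) (nat_lit 187)) (XT.lf (nat_lit 0) (nat_lit 154997530843) (nat_lit 228) (nat_lit 134603791429) (nat_lit 76) (nat_lit 138983878039) (nat_lit 20) (nat_lit 5) (nat_lit 23) (nat_lit 5) (nat_lit 21) (nat_lit 4) (nat_lit 373) (nat_lit 341) (nat_lit 186))))))) (XT.nd (nat_lit 702) (nat_lit 380) (nat_lit 0) (XT.nd (nat_lit 312) (nat_lit 228) (nat_lit 0) (XT.nd (nat_lit 156) (nat_lit 152) (nat_lit 0) (XT.nd (nat_lit 78) (nat_lit 0) (nat_lit 0) (XT.lf (nat_lit 0) (nat_lit 82524759230)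 (nat_lit 76) (nat_lit 176861605250) (nat_lit 152) (nat_lit 193356757837) (nat_lit 19) (nat_lit 5) (nat_lit 20) (nat_lit 5) (nat_lit 21) (nat_lit 4) (nat_lit 374) (nat_lit 341) (nat_lit 185)) (XT.lf (nat_lit 0) (nat_lit 324678410033) (nat_lit 76) (nat_lit 51128078278) (nat_lit 152) (nat_lit 102732775152) (nat_lit 19) (nat_lit 5) (nat_lit 20) (nat_lit 5) (nat_lit 21) (nat_lit 4) (nat_lit 375) (nat_lit 341) (nat_lit 184))) (XT.nd (nat_lit 78) (nat_lit 76) (nat_lit 0) (XT.lf (nat_lit 0) (nat_lit 81864042156) (nat_lit 76) (nat_lit 423681070668) (nat_lit 76) (nat_lit 533591867) (nat_lit 18) (nat_lit 4) (nat_lit 19) (nat_lit 5) (nat_lit 19) (nat_lit 4) (nat_lit 376) (nat_lit 341) (nat_lit 183)) (XT.lf (nat_lit 0) (nat_lit 109990791656) (nat_lit 152) (nat_lit 194366796293) (nat_lit 76) (nat_lit 230800859322) (nat_lit 17) (nat_lit 5) (nat_lit 19) (nat_lit 5) (nat_lit 18) (nat_lit 4) (nat_lit 377)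 (nat_lit 341) (nat_lit 182)))) (XT.nd (nat_lit 156) (nat_lit 152) (nat_lit 0) (XT.nd (nat_lit 78) (nat_lit 0) (nat_lit 0) (XT.lf (nat_lit 0) (nat_lit 56690743886) (nat_lit 76) (nat_lit 174000861307) (nat_lit 152) (nat_lit 335762790772) (nat_lit 16) (nat_lit 5) (nat_lit 17) (nat_lit 5) (nat_lit 18) (nat_lit 4) (nat_lit 378) (nat_lit 341) (nat_lit 181)) (XT.lf (nat_lit 0) (nat_lit 338886507741) (nat_lit 76) (nat_lit 27476205421) (nat_lit 152) (nat_lit 233466169083) (nat_lit 16) (nat_lit 5) (nat_lit 17) (nat_lit 5) (nat_lit 18) (nat_lit 4) (nat_lit 379) (nat_lit 341) (nat_lit 180))) (XT.nd (nat_lit 78) (nat_lit 76) (nat_lit 0) (XT.lf (nat_lit 0) (nat_lit 4883692525) (nat_lit 76) (nat_lit 511266204363) (nat_lit 76) (nat_lit 119462439608) (nat_lit 15) (nat_lit 4) (nat_lit 16) (nat_lit 5) (nat_lit 16) (nat_lit 4) (nat_lit 380) (nat_lit 341) (nat_lit 179)) (XT.nd (nat_lit 78) (nat_lit 0) (nat_lit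 0) (XT.lf (nat_lit 0) (nat_lit 11511933189) (nat_lit 152) (nat_lit 367859055430) (nat_lit 76) (nat_lit 294237752602) (nat_lit 14) (nat_lit 5) (nat_lit 16) (nat_lit 5) (nat_lit 15) (nat_lit 4) (nat_lit 381) (nat_lit 341) (nat_lit 178)) (XT.lf (nat_lit 0) (nat_lit 146510091178) (nat_lit 152) (nat_lit 87062990246) (nat_lit 76) (nat_lit 480823550484) (nat_lit 14) (nat_lit 5) (nat_lit 16) (nat_lit 5) (nat_lit 15) (nat_lit 4) (nat_lit 382) (nat_lit 341) (nat_lit 177)))))) (XT.nd (nat_lit 312) (nat_lit 228) (nat_lit 0) (XT.nd (nat_lit 156) (nat_lit 76) (nat_lit 0) (XT.nd (nat_lit 78) (nat_lit 0) (nat_lit 0) (XT.lf (nat_lit 0) (nat_lit 227581132778) (nat_lit 76) (nat_lit 70200217437) (nat_lit 152) (nat_lit 460228343791) (nat_lit 13) (nat_lit 5) (nat_lit 14) (nat_lit 5) (nat_lit 15) (nat_lit 4) (nat_lit 383) (nat_lit 341) (nat_lit 176)) (XT.lf (nat_lit 0) (nat_lit 466151647980) (nat_lit 152) (nat_lit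 235190351751) (nat_lit 0) (nat_lit 103370014324) (nat_lit 13) (nat_lit 5) (nat_lit 15) (nat_lit 4) (nat_lit 13) (nat_lit 4) (nat_lit 384) (nat_lit 341) (nat_lit 175))) (XT.nd (nat_lit 78) (nat_lit 0) (nat_lit 0) (XT.lf (nat_lit 0) (nat_lit 86153113475) (nat_lit 76) (nat_lit 565733746359) (nat_lit 76) (nat_lit 202952036676) (nat_lit 12) (nat_lit 4) (nat_lit 13) (nat_lit 5) (nat_lit 13) (nat_lit 4) (nat_lit 385) (nat_lit 341) (nat_lit 174)) (XT.lf (nat_lit 0) (nat_lit 446579396932) (nat_lit 76) (nat_lit 412331938494) (nat_lit 76) (nat_lit 49550158415) (nat_lit 12) (nat_lit 4) (nat_lit 13) (nat_lit 5) (nat_lit 13) (nat_lit 4) (nat_lit 386) (nat_lit 341) (nat_lit 173)))) (XT.nd (nat_lit 156) (nat_lit 76) (nat_lit 0) (XT.nd (nat_lit 78) (nat_lit 76) (nat_lit 0) (XT.lf (nat_lit 0) (nat_lit 110314813291) (nat_lit 152) (nat_lit 133327033613) (nat_lit 76) (nat_lit 722508635164) (nat_lit 11) (nat_lit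 5) (nat_lit 13) (nat_lit 5) (nat_lit 12) (nat_lit 4) (nat_lit 387) (nat_lit 341) (nat_lit 172)) (XT.lf (nat_lit 0) (nat_lit 231821965452) (nat_lit 76) (nat_lit 54045280251) (nat_lit 152) (nat_lit 742038361615) (nat_lit 10) (nat_lit 5) (nat_lit 11) (nat_lit 5) (nat_lit 12) (nat_lit 4) (nat_lit 388) (nat_lit 341) (nat_lit 171))) (XT.nd (nat_lit 78) (nat_lit 76) (nat_lit 0) (XT.lf (nat_lit 0) (nat_lit 482828686750) (nat_lit 152) (nat_lit 464263807590) (nat_lit 0) (nat_lit 146919463143) (nat_lit 10) (nat_lit 5) (nat_lit 12) (nat_lit 4) (nat_lit 10) (nat_lit 4) (nat_lit 389) (nat_lit 341) (nat_lit 170)) (XT.nd (nat_lit 78) (nat_lit 76) (nat_lit 0) (XT.lf (nat_lit 0) (nat_lit 696950756556) (nat_lit 152) (nat_lit 107302277000) (nat_lit 0) (nat_lit 361041485039) (nat_lit 10) (nat_lit 5) (nat_lit 12) (nat_lit 4) (nat_lit 10) (nat_lit 4) (nat_lit 390) (nat_lit 341) (nat_lit 169)) (XT.lf (nat_lit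 0) (nat_lit 292866432868) (nat_lit 76) (nat_lit 642379548244) (nat_lit 76) (nat_lit 306470232366) (nat_lit 9) (nat_lit 4) (nat_lit 10) (nat_lit 5) (nat_lit 10) (nat_lit 4) (nat_lit 391) (nat_lit 341) (nat_lit 168))))))))
noncomputable def xc204 : XT := (XT.nd (nat_lit 1404) (nat_lit 0) (nat_lit 0) (XT.nd (nat_lit 702) (nat_lit 228) (nat_lit 0) (XT.nd (nat_lit 312) (nat_lit 76) (nat_lit 0) (XT.nd (nat_lit 156) (nat_lit 76) (nat_lit 0) (XT.nd (nat_lit 78) (nat_lit 76) (nat_lit 0) (XT.lf (nat_lit 0) (nat_lit 731150909582) (nat_lit 76) (nat_lit 464387694451) (nat_lit 76) (nat_lit 128478337498) (nat_lit 9) (nat_lit 4) (nat_lit 10) (nat_lit 5) (nat_lit 10) (nat_lit 4) (nat_lit 392) (nat_lit 341) (nat_lit 167)) (XT.lf (nat_lit 0) (nat_lit 60563678934) (nat_lit 152) (nat_lit 209936942801) (nat_lit 76) (nat_lit 1142278449490) (nat_lit 8) (nat_lit 5) (nat_lit 10) (nat_lit 5) (nat_lit 9) (nat_lit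 4) (nat_lit 393) (nat_lit 341) (nat_lit 166))) (XT.nd (nat_lit 78) (nat_lit 0) (nat_lit 0) (XT.lf (nat_lit 0) (nat_lit 210836159414) (nat_lit 76) (nat_lit 52022297131) (nat_lit 152) (nat_lit 1245111101410) (nat_lit 7) (nat_lit 5) (nat_lit 8) (nat_lit 5) (nat_lit 9) (nat_lit 4) (nat_lit 394) (nat_lit 341) (nat_lit 165)) (XT.lf (nat_lit 0) (nat_lit 491649533515) (nat_lit 152) (nat_lit 937678479608) (nat_lit 0) (nat_lit 180622253138) (nat_lit 7) (nat_lit 5) (nat_lit 9) (nat_lit 4) (nat_lit 7) (nat_lit 4) (nat_lit 395) (nat_lit 341) (nat_lit 164)))) (XT.nd (nat_lit 156) (nat_lit 76) (nat_lit 0) (XT.nd (nat_lit 78) (nat_lit 0) (nat_lit 0) (XT.lf (nat_lit 0) (nat_lit 740095081394) (nat_lit 152) (nat_lit 550818482004) (nat_lit 0) (nat_lit 429067773062) (nat_lit 7) (nat_lit 5) (nat_lit 9) (nat_lit 4) (nat_lit 7) (nat_lit 4) (nat_lit 396) (nat_lit 341) (nat_lit 163)) (XT.lf (nat_lit 0) (nat_lit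 1008416232599) (nat_lit 152) (nat_lit 133009764543) (nat_lit 0) (nat_lit 697388898381) (nat_lit 7) (nat_lit 5) (nat_lit 9) (nat_lit 4) (nat_lit 7) (nat_lit 4) (nat_lit 397) (nat_lit 341) (nat_lit 162))) (XT.nd (nat_lit 78) (nat_lit 0) (nat_lit 0) (XT.lf (nat_lit 0) (nat_lit 334980665872) (nat_lit 76) (nat_lit 971278665592) (nat_lit 76) (nat_lit 660251307408) (nat_lit 6) (nat_lit 4) (nat_lit 7) (nat_lit 5) (nat_lit 7) (nat_lit 4) (nat_lit 398) (nat_lit 341) (nat_lit 161)) (XT.nd (nat_lit 78) (nat_lit 0) (nat_lit 0) (XT.lf (nat_lit 0) (nat_lit 847974641733) (nat_lit 76) (nat_lit 783591922721) (nat_lit 76) (nat_lit 472564542346) (nat_lit 6) (nat_lit 4) (nat_lit 7) (nat_lit 5) (nat_lit 7) (nat_lit 4) (nat_lit 399) (nat_lit 341) (nat_lit 160)) (XT.lf (nat_lit 0) (nat_lit 1402008068854) (nat_lit 76) (nat_lit 580890273469) (nat_lit 76) (nat_lit 269862872546) (nat_lit 6) (nat_lit 4) (nat_lit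 7) (nat_lit 5) (nat_lit 7) (nat_lit 4) (nat_lit 400) (nat_lit 341) (nat_lit 159)))))) (XT.nd (nat_lit 312) (nat_lit 76) (nat_lit 0) (XT.nd (nat_lit 156) (nat_lit 0) (nat_lit 0) (XT.nd (nat_lit 78) (nat_lit 152) (nat_lit 0) (XT.lf (nat_lit 0) (nat_lit 2000364108283) (nat_lit 76) (nat_lit 361972522878) (nat_lit 76) (nat_lit 50945102929) (nat_lit 6) (nat_lit 4) (nat_lit 7) (nat_lit 5) (nat_lit 7) (nat_lit 4) (nat_lit 401) (nat_lit 341) (nat_lit 158)) (XT.lf (nat_lit 0) (nat_lit 58405407302) (nat_lit 76) (nat_lit 119206537345) (nat_lit 152) (nat_lit 2408562704876) (nat_lit 4) (nat_lit 5) (nat_lit 5) (nat_lit 5) (nat_lit 6) (nat_lit 4) (nat_lit 402) (nat_lit 341) (nat_lit 157))) (XT.nd (nat_lit 78) (nat_lit 0) (nat_lit 0) (XT.lf (nat_lit 0) (nat_lit 436723001370) (nat_lit 152) (nat_lit 2186133774388) (nat_lit 0) (nat_lit 148734618151) (nat_lit 4) (nat_lit 5) (nat_lit 6) (nat_lit 4) (nat_lit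 4) (nat_lit 4) (nat_lit 403) (nat_lit 341) (nat_lit 156)) (XT.lf (nat_lit 0) (nat_lit 719659188953) (nat_lit 152) (nat_lit 1820263797443) (nat_lit 0) (nat_lit 431670791749) (nat_lit 4) (nat_lit 5) (nat_lit 6) (nat_lit 4) (nat_lit 4) (nat_lit 4) (nat_lit 404) (nat_lit 341) (nat_lit 155)))) (XT.nd (nat_lit 156) (nat_lit 76) (nat_lit 0) (XT.nd (nat_lit 78) (nat_lit 0) (nat_lit 0) (XT.lf (nat_lit 0) (nat_lit 1025230246194) (nat_lit 152) (nat_lit 1425124272915) (nat_lit 0) (nat_lit 737241836042) (nat_lit 4) (nat_lit 5) (nat_lit 6) (nat_lit 4) (nat_lit 4) (nat_lit 4) (nat_lit 405) (nat_lit 341) (nat_lit 154)) (XT.lf (nat_lit 0) (nat_lit 1355246964545) (nat_lit 152) (nat_lit 998373633251) (nat_lit 0) (nat_lit 1067258542403) (nat_lit 4) (nat_lit 5) (nat_lit 6) (nat_lit 4) (nat_lit 4) (nat_lit 4) (nat_lit 406) (nat_lit 341) (nat_lit 153))) (XT.nd (nat_lit 78) (nat_lit 76) (nat_lit 0) (XT.lf (nat_lit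 0) (nat_lit 1711664998632) (nat_lit 152) (nat_lit 537482985772) (nat_lit 0) (nat_lit 1423676565389) (nat_lit 4) (nat_lit 5) (nat_lit 6) (nat_lit 4) (nat_lit 4) (nat_lit 4) (nat_lit 407) (nat_lit 341) (nat_lit 152)) (XT.nd (nat_lit 78) (nat_lit 76) (nat_lit 0) (XT.lf (nat_lit 0) (nat_lit 2096596455324) (nat_lit 152) (nat_lit 39721126641) (nat_lit 0) (nat_lit 1808608011802) (nat_lit 4) (nat_lit 5) (nat_lit 6) (nat_lit 4) (nat_lit 4) (nat_lit 4) (nat_lit 408) (nat_lit 341) (nat_lit 151)) (XT.lf (nat_lit 0) (nat_lit 524078155936) (nat_lit 76) (nat_lit 2000848346238) (nat_lit 76) (nat_lit 1712859893198) (nat_lit 3) (nat_lit 4) (nat_lit 4) (nat_lit 5) (nat_lit 4) (nat_lit 4) (nat_lit 409) (nat_lit 341) (nat_lit 150))))))) (XT.nd (nat_lit 42198) (nat_lit 0) (nat_lit 2584) (XT.nd (nat_lit 41808) (nat_lit 0) (nat_lit 3800) (XT.nd (nat_lit 41652) (nat_lit 0) (nat_lit 4180) (XT.nd (nat_lit 41574)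 (nat_lit 0) (nat_lit 4180) (XT.lf (nat_lit 0) (nat_lit 1135240320558) (nat_lit 76) (nat_lit 1853368660087) (nat_lit 76) (nat_lit 1565380198234) (nat_lit 3) (nat_lit 4) (nat_lit 4) (nat_lit 5) (nat_lit 4) (nat_lit 4) (nat_lit 410) (nat_lit 341) (nat_lit 149)) (XT.lf (nat_lit 0) (nat_lit 41871105924) (nat_lit 532) (nat_lit 4860109520) (nat_lit 532) (nat_lit 4860109520) (nat_lit 58) (nat_lit 3) (nat_lit 65) (nat_lit 3) (nat_lit 65) (nat_lit 5) (nat_lit 342) (nat_lit 342) (nat_lit 216))) (XT.nd (nat_lit 78) (nat_lit 0) (nat_lit 76) (XT.lf (nat_lit 76) (nat_lit 41694703879) (nat_lit 0) (nat_lit 46405669954) (nat_lit 532) (nat_lit 19128895644) (nat_lit 59) (nat_lit 5) (nat_lit 58) (nat_lit 3) (nat_lit 65) (nat_lit 5) (nat_lit 343) (nat_lit 342) (nat_lit 215)) (XT.lf (nat_lit 0) (nat_lit 93185482430) (nat_lit 456) (nat_lit 13916216961) (nat_lit 532) (nat_lit 4467656562) (nat_lit 59) (nat_lit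 5) (nat_lit 65) (nat_lit 5) (nat_lit 66) (nat_lit 5) (nat_lit 344) (nat_lit 342) (nat_lit 214)))) (XT.nd (nat_lit 156) (nat_lit 456) (nat_lit 0) (XT.nd (nat_lit 78) (nat_lit 0) (nat_lit 0) (XT.lf (nat_lit 76) (nat_lit 42765195005) (nat_lit 0) (nat_lit 58145519756) (nat_lit 532) (nat_lit 15167270177) (nat_lit 60) (nat_lit 5) (nat_lit 59) (nat_lit 5) (nat_lit 66) (nat_lit 5) (nat_lit 345) (nat_lit 342) (nat_lit 213)) (XT.lf (nat_lit 76) (nat_lit 104772205660) (nat_lit 0) (nat_lit 4861754165) (nat_lit 532) (nat_lit 11282945620) (nat_lit 60) (nat_lit 5) (nat_lit 59) (nat_lit 5) (nat_lit 66) (nat_lit 5) (nat_lit 346) (nat_lit 342) (nat_lit 212))) (XT.nd (nat_lit 78) (nat_lit 532) (nat_lit 0) (XT.lf (nat_lit 76) (nat_lit 46663719438) (nat_lit 0) (nat_lit 74780217899) (nat_lit 532) (nat_lit 4507893109) (nat_lit 61) (nat_lit 5) (nat_lit 60) (nat_lit 5) (nat_lit 67) (nat_lit 5) (nat_lit 347) (nat_lit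 342) (nat_lit 211)) (XT.nd (nat_lit 78) (nat_lit 0) (nat_lit 76) (XT.lf (nat_lit 0) (nat_lit 3247361906) (nat_lit 532) (nat_lit 16144937999) (nat_lit 608) (nat_lit 111945547364) (nat_lit 53) (nat_lit 5) (nat_lit 60) (nat_lit 5) (nat_lit 61) (nat_lit 5) (nat_lit 348) (nat_lit 342) (nat_lit 210)) (XT.lf (nat_lit 0) (nat_lit 13703276017) (nat_lit 532) (nat_lit 83382770481) (nat_lit 76) (nat_lit 39873429870) (nat_lit 54) (nat_lit 5) (nat_lit 61) (nat_lit 5) (nat_lit 55) (nat_lit 5) (nat_lit 349) (nat_lit 342) (nat_lit 209)))))) (XT.nd (nat_lit 312) (nat_lit 684) (nat_lit 0) (XT.nd (nat_lit 156) (nat_lit 228) (nat_lit 0) (XT.nd (nat_lit 78) (nat_lit 380) (nat_lit 0) (XT.lf (nat_lit 0) (nat_lit 25951867520) (nat_lit 532) (nat_lit 13716794333) (nat_lit 76) (nat_lit 103285678101) (nat_lit 54) (nat_lit 5) (nat_lit 61) (nat_lit 5) (nat_lit 55) (nat_lit 5) (nat_lit 350) (nat_lit 342) (nat_lit 208))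 (XT.lf (nat_lit 0) (nat_lit 41315292233) (nat_lit 456) (nat_lit 85120240482) (nat_lit 76) (nat_lit 22822464704) (nat_lit 49) (nat_lit 5) (nat_lit 55) (nat_lit 5) (nat_lit 50) (nat_lit 5) (nat_lit 351) (nat_lit 342) (nat_lit 207))) (XT.nd (nat_lit 78) (nat_lit 228) (nat_lit 0) (XT.lf (nat_lit 0) (nat_lit 59322587420) (nat_lit 456) (nat_lit 8075643105) (nat_lit 76) (nat_lit 88554533665) (nat_lit 49) (nat_lit 5) (nat_lit 55) (nat_lit 5) (nat_lit 50) (nat_lit 5) (nat_lit 352) (nat_lit 342) (nat_lit 206)) (XT.lf (nat_lit 0) (nat_lit 79088515364) (nat_lit 228) (nat_lit 1583715666) (nat_lit 304) (nat_lit 82358740485) (nat_lit 46) (nat_lit 5) (nat_lit 49) (nat_lit 5) (nat_lit 50) (nat_lit 5) (nat_lit 353) (nat_lit 342) (nat_lit 205)))) (XT.nd (nat_lit 156) (nat_lit 456) (nat_lit 0) (XT.nd (nat_lit 78) (nat_lit 0) (nat_lit 0) (XT.lf (nat_lit 0) (nat_lit 1420919928) (nat_lit 228) (nat_lit 104240715450)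 (nat_lit 304) (nat_lit 64859257276) (nat_lit 43) (nat_lit 5) (nat_lit 46) (nat_lit 5) (nat_lit 47) (nat_lit 5) (nat_lit 354) (nat_lit 342) (nat_lit 204)) (XT.lf (nat_lit 0) (nat_lit 98343605370) (nat_lit 228) (nat_lit 36641529424) (nat_lit 304) (nat_lit 43438077613) (nat_lit 43) (nat_lit 5) (nat_lit 46) (nat_lit 5) (nat_lit 47) (nat_lit 5) (nat_lit 355) (nat_lit 342) (nat_lit 203))) (XT.nd (nat_lit 78) (nat_lit 304) (nat_lit 0) (XT.lf (nat_lit 0) (nat_lit 15987203110) (nat_lit 152) (nat_lit 151926130207) (nat_lit 228) (nat_lit 18943679207) (nat_lit 41) (nat_lit 5) (nat_lit 43) (nat_lit 5) (nat_lit 44) (nat_lit 5) (nat_lit 356) (nat_lit 342) (nat_lit 202)) (XT.nd (nat_lit 78) (nat_lit 228) (nat_lit 0) (XT.lf (nat_lit 0) (nat_lit 10332432082) (nat_lit 228) (nat_lit 72686361387) (nat_lit 76) (nat_lit 112676445259) (nat_lit 40) (nat_lit 5) (nat_lit 43) (nat_lit 5) (nat_lit 41) (nat_lit 5)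 (nat_lit 357) (nat_lit 342) (nat_lit 201)) (XT.lf (nat_lit 0) (nat_lit 34589720435) (nat_lit 228) (nat_lit 7169102292) (nat_lit 304) (nat_lit 163375805768) (nat_lit 37) (nat_lit 5) (nat_lit 40) (nat_lit 5) (nat_lit 41) (nat_lit 5) (nat_lit 358) (nat_lit 342) (nat_lit 200))))))))
noncomputable def xc205 : XT := (XT.nd (nat_lit 1404) (nat_lit 836) (nat_lit 0) (XT.nd (nat_lit 702) (nat_lit 608) (nat_lit 0) (XT.nd (nat_lit 312) (nat_lit 456) (nat_lit 0) (XT.nd (nat_lit 156) (nat_lit 152) (nat_lit 0) (XT.nd (nat_lit 78) (nat_lit 152) (nat_lit 0) (XT.lf (nat_lit 0) (nat_lit 79535789697) (nat_lit 304) (nat_lit 62438203089) (nat_lit 76) (nat_lit 73048259685) (nat_lit 37) (nat_lit 5) (nat_lit 41) (nat_lit 5) (nat_lit 38) (nat_lit 5) (nat_lit 359) (nat_lit 342) (nat_lit 199)) (XT.lf (nat_lit 0) (nat_lit 56980944259) (nat_lit 152) (nat_lit 64910356878) (nat_lit 228) (nat_lit 103685074474) (nat_lit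 35) (nat_lit 5) (nat_lit 37) (nat_lit 5) (nat_lit 38) (nat_lit 5) (nat_lit 360) (nat_lit 342) (nat_lit 198))) (XT.nd (nat_lit 78) (nat_lit 152) (nat_lit 0) (XT.lf (nat_lit 0) (nat_lit 169827114444) (nat_lit 228) (nat_lit 47818923201) (nat_lit 76) (nat_lit 19153442279) (nat_lit 35) (nat_lit 5) (nat_lit 38) (nat_lit 5) (nat_lit 36) (nat_lit 5) (nat_lit 361) (nat_lit 342) (nat_lit 197)) (XT.lf (nat_lit 0) (nat_lit 85195248224) (nat_lit 152) (nat_lit 140137281658) (nat_lit 228) (nat_lit 23289123918) (nat_lit 33) (nat_lit 5) (nat_lit 35) (nat_lit 5) (nat_lit 36) (nat_lit 5) (nat_lit 362) (nat_lit 342) (nat_lit 196)))) (XT.nd (nat_lit 156) (nat_lit 228) (nat_lit 0) (XT.nd (nat_lit 78) (nat_lit 152) (nat_lit 0) (XT.lf (nat_lit 0) (nat_lit 24034986226) (nat_lit 228) (nat_lit 30323721315) (nat_lit 76) (nat_lit 206877634341) (nat_lit 32) (nat_lit 5) (nat_lit 35) (nat_lit 5) (nat_lit 33) (nat_lit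 5) (nat_lit 363) (nat_lit 342) (nat_lit 195)) (XT.lf (nat_lit 0) (nat_lit 77753468479) (nat_lit 228) (nat_lit 156830906228) (nat_lit 76) (nat_lit 39918104590) (nat_lit 30) (nat_lit 5) (nat_lit 33) (nat_lit 5) (nat_lit 31) (nat_lit 5) (nat_lit 364) (nat_lit 342) (nat_lit 194))) (XT.nd (nat_lit 78) (nat_lit 228) (nat_lit 0) (XT.lf (nat_lit 0) (nat_lit 138031810800) (nat_lit 228) (nat_lit 10966273028) (nat_lit 76) (nat_lit 139650833495) (nat_lit 30) (nat_lit 5) (nat_lit 33) (nat_lit 5) (nat_lit 31) (nat_lit 5) (nat_lit 365) (nat_lit 342) (nat_lit 193)) (XT.nd (nat_lit 78) (nat_lit 76) (nat_lit 0) (XT.lf (nat_lit 0) (nat_lit 154285252232) (nat_lit 152) (nat_lit 52557572623) (nat_lit 228) (nat_lit 96787413313) (nat_lit 28) (nat_lit 5) (nat_lit 30) (nat_lit 5) (nat_lit 31) (nat_lit 5) (nat_lit 366) (nat_lit 342) (nat_lit 192)) (XT.lf (nat_lit 0) (nat_lit 12995594716) (nat_lit 76) (nat_lit 270024076510)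 (nat_lit 152) (nat_lit 36641517476) (nat_lit 27) (nat_lit 5) (nat_lit 28) (nat_lit 5) (nat_lit 29) (nat_lit 4) (nat_lit 367) (nat_lit 342) (nat_lit 191)))))) (XT.nd (nat_lit 312) (nat_lit 304) (nat_lit 0) (XT.nd (nat_lit 156) (nat_lit 76) (nat_lit 0) (XT.nd (nat_lit 78) (nat_lit 152) (nat_lit 0) (XT.lf (nat_lit 0) (nat_lit 32453961665) (nat_lit 152) (nat_lit 141983595267) (nat_lit 76) (nat_lit 162038226699) (nat_lit 26) (nat_lit 5) (nat_lit 28) (nat_lit 5) (nat_lit 27) (nat_lit 5) (nat_lit 368) (nat_lit 342) (nat_lit 190)) (XT.lf (nat_lit 0) (nat_lit 36759875154) (nat_lit 152) (nat_lit 69221543230) (nat_lit 228) (nat_lit 248507275012) (nat_lit 24) (nat_lit 5) (nat_lit 26) (nat_lit 5) (nat_lit 27) (nat_lit 5) (nat_lit 369) (nat_lit 342) (nat_lit 189))) (XT.nd (nat_lit 78) (nat_lit 76) (nat_lit 0) (XT.lf (nat_lit 0) (nat_lit 190441951544) (nat_lit 228) (nat_lit 136923691357) (nat_lit 76)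 (nat_lit 46172922734) (nat_lit 24) (nat_lit 5) (nat_lit 27) (nat_lit 5) (nat_lit 25) (nat_lit 4) (nat_lit 370) (nat_lit 342) (nat_lit 188)) (XT.lf (nat_lit 0) (nat_lit 59525359832) (nat_lit 76) (nat_lit 225363386178) (nat_lit 152) (nat_lit 108965328228) (nat_lit 23) (nat_lit 5) (nat_lit 24) (nat_lit 5) (nat_lit 25) (nat_lit 4) (nat_lit 371) (nat_lit 342) (nat_lit 187)))) (XT.nd (nat_lit 156) (nat_lit 76) (nat_lit 0) (XT.nd (nat_lit 78) (nat_lit 228) (nat_lit 0) (XT.lf (nat_lit 0) (nat_lit 279477089160) (nat_lit 76) (nat_lit 111157805790) (nat_lit 152) (nat_lit 24860439781) (nat_lit 23) (nat_lit 5) (nat_lit 24) (nat_lit 5) (nat_lit 25) (nat_lit 4) (nat_lit 372) (nat_lit 342) (nat_lit 186)) (XT.lf (nat_lit 0) (nat_lit 64995568665) (nat_lit 228) (nat_lit 358368229683) (nat_lit 76) (nat_lit 15191329302) (nat_lit 20) (nat_lit 5) (nat_lit 23) (nat_lit 5) (nat_lit 21) (nat_lit 4) (nat_lit 373)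 (nat_lit 342) (nat_lit 185))) (XT.nd (nat_lit 78) (nat_lit 76) (nat_lit 0) (XT.lf (nat_lit 0) (nat_lit 167399623424) (nat_lit 228) (nat_lit 145368002549) (nat_lit 76) (nat_lit 150104206022) (nat_lit 20) (nat_lit 5) (nat_lit 23) (nat_lit 5) (nat_lit 21) (nat_lit 4) (nat_lit 374) (nat_lit 342) (nat_lit 184)) (XT.nd (nat_lit 78) (nat_lit 0) (nat_lit 0) (XT.lf (nat_lit 0) (nat_lit 89130728563) (nat_lit 76) (nat_lit 191008761477) (nat_lit 152) (nat_lit 208822903703) (nat_lit 19) (nat_lit 5) (nat_lit 20) (nat_lit 5) (nat_lit 21) (nat_lit 4) (nat_lit 375) (nat_lit 342) (nat_lit 183)) (XT.lf (nat_lit 0) (nat_lit 350656375979) (nat_lit 76) (nat_lit 55216683621) (nat_lit 152) (nat_lit 110949179792) (nat_lit 19) (nat_lit 5) (nat_lit 20) (nat_lit 5) (nat_lit 21) (nat_lit 4) (nat_lit 376) (nat_lit 342) (nat_lit 182))))))) (XT.nd (nat_lit 702) (nat_lit 380) (nat_lit 0) (XT.nd (nat_lit 312) (nat_lit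 228) (nat_lit 0) (XT.nd (nat_lit 156) (nat_lit 76) (nat_lit 0) (XT.nd (nat_lit 78) (nat_lit 76) (nat_lit 0) (XT.lf (nat_lit 0) (nat_lit 88416887676) (nat_lit 76) (nat_lit 457573860440) (nat_lit 76) (nat_lit 574089951) (nat_lit 18) (nat_lit 4) (nat_lit 19) (nat_lit 5) (nat_lit 19) (nat_lit 4) (nat_lit 377) (nat_lit 342) (nat_lit 181)) (XT.lf (nat_lit 0) (nat_lit 118791980682) (nat_lit 152) (nat_lit 209912591390) (nat_lit 76) (nat_lit 249266396155) (nat_lit 17) (nat_lit 5) (nat_lit 19) (nat_lit 5) (nat_lit 18) (nat_lit 4) (nat_lit 378) (nat_lit 342) (nat_lit 180))) (XT.nd (nat_lit 78) (nat_lit 0) (nat_lit 0) (XT.lf (nat_lit 0) (nat_lit 61229462165) (nat_lit 76) (nat_lit 187919337677) (nat_lit 152) (nat_lit 362621797788) (nat_lit 16) (nat_lit 5) (nat_lit 17) (nat_lit 5) (nat_lit 18) (nat_lit 4) (nat_lit 379) (nat_lit 342) (nat_lit 179)) (XT.lf (nat_lit 0) (nat_lit 366000630923) (nat_lit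 76) (nat_lit 29672827286) (nat_lit 152) (nat_lit 252141595717) (nat_lit 16) (nat_lit 5) (nat_lit 17) (nat_lit 5) (nat_lit 18) (nat_lit 4) (nat_lit 380) (nat_lit 342) (nat_lit 178)))) (XT.nd (nat_lit 156) (nat_lit 76) (nat_lit 0) (XT.nd (nat_lit 78) (nat_lit 76) (nat_lit 0) (XT.lf (nat_lit 0) (nat_lit 5277610230) (nat_lit 76) (nat_lit 552165988736) (nat_lit 76) (nat_lit 129017587012) (nat_lit 15) (nat_lit 4) (nat_lit 16) (nat_lit 5) (nat_lit 16) (nat_lit 4) (nat_lit 381) (nat_lit 342) (nat_lit 177)) (XT.lf (nat_lit 0) (nat_lit 12434513151) (nat_lit 152) (nat_lit 397284710141) (nat_lit 76) (nat_lit 317778086677) (nat_lit 14) (nat_lit 5) (nat_lit 16) (nat_lit 5) (nat_lit 15) (nat_lit 4) (nat_lit 382) (nat_lit 342) (nat_lit 176))) (XT.nd (nat_lit 78) (nat_lit 76) (nat_lit 0) (XT.lf (nat_lit 0) (nat_lit 158232403387) (nat_lit 152) (nat_lit 94025187129) (nat_lit 76) (nat_lit 519290651067) (nat_lit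 14) (nat_lit 5) (nat_lit 16) (nat_lit 5) (nat_lit 15) (nat_lit 4) (nat_lit 383) (nat_lit 342) (nat_lit 175)) (XT.nd (nat_lit 78) (nat_lit 0) (nat_lit 0) (XT.lf (nat_lit 0) (nat_lit 245790393779) (nat_lit 76) (nat_lit 75814924520) (nat_lit 152) (nat_lit 497045033973) (nat_lit 13) (nat_lit 5) (nat_lit 14) (nat_lit 5) (nat_lit 15) (nat_lit 4) (nat_lit 384) (nat_lit 342) (nat_lit 174)) (XT.lf (nat_lit 0) (nat_lit 503445160911) (nat_lit 152) (nat_lit 254002935335) (nat_lit 0) (nat_lit 111640768030) (nat_lit 13) (nat_lit 5) (nat_lit 15) (nat_lit 4) (nat_lit 13) (nat_lit 4) (nat_lit 385) (nat_lit 342) (nat_lit 173)))))) (XT.nd (nat_lit 312) (nat_lit 152) (nat_lit 0) (XT.nd (nat_lit 156) (nat_lit 152) (nat_lit 0) (XT.nd (nat_lit 78) (nat_lit 0) (nat_lit 0) (XT.lf (nat_lit 0) (nat_lit 93047940159) (nat_lit 76) (nat_lit 610991209244) (nat_lit 76) (nat_lit 219186751182) (nat_lit 12) (nat_lit 4)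 (nat_lit 13) (nat_lit 5) (nat_lit 13) (nat_lit 4) (nat_lit 386) (nat_lit 342) (nat_lit 172)) (XT.lf (nat_lit 0) (nat_lit 482308135358) (nat_lit 76) (nat_lit 445317348366) (nat_lit 76) (nat_lit 53512829951) (nat_lit 12) (nat_lit 4) (nat_lit 13) (nat_lit 5) (nat_lit 13) (nat_lit 4) (nat_lit 387) (nat_lit 342) (nat_lit 171))) (XT.nd (nat_lit 78) (nat_lit 76) (nat_lit 0) (XT.lf (nat_lit 0) (nat_lit 119141178029) (nat_lit 152) (nat_lit 143990923995) (nat_lit 76) (nat_lit 780310323929) (nat_lit 11) (nat_lit 5) (nat_lit 13) (nat_lit 5) (nat_lit 12) (nat_lit 4) (nat_lit 388) (nat_lit 342) (nat_lit 170)) (XT.lf (nat_lit 0) (nat_lit 250369937468) (nat_lit 76) (nat_lit 58367833449) (nat_lit 152) (nat_lit 801400193060) (nat_lit 10) (nat_lit 5) (nat_lit 11) (nat_lit 5) (nat_lit 12) (nat_lit 4) (nat_lit 389) (nat_lit 342) (nat_lit 169)))) (XT.nd (nat_lit 156) (nat_lit 152) (nat_lit 0) (XT.nd (nat_lit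 78) (nat_lit 0) (nat_lit 0) (XT.lf (nat_lit 0) (nat_lit 521456066200) (nat_lit 152) (nat_lit 501402800167) (nat_lit 0) (nat_lit 158673960691) (nat_lit 10) (nat_lit 5) (nat_lit 12) (nat_lit 4) (nat_lit 10) (nat_lit 4) (nat_lit 390) (nat_lit 342) (nat_lit 168)) (XT.lf (nat_lit 0) (nat_lit 752707821257) (nat_lit 152) (nat_lit 115884503577) (nat_lit 0) (nat_lit 389925674672) (nat_lit 10) (nat_lit 5) (nat_lit 12) (nat_lit 4) (nat_lit 10) (nat_lit 4) (nat_lit 391) (nat_lit 342) (nat_lit 167))) (XT.nd (nat_lit 78) (nat_lit 76) (nat_lit 0) (XT.lf (nat_lit 0) (nat_lit 316297653572) (nat_lit 76) (nat_lit 693768981663) (nat_lit 76) (nat_lit 330986797046) (nat_lit 9) (nat_lit 4) (nat_lit 10) (nat_lit 5) (nat_lit 10) (nat_lit 4) (nat_lit 392) (nat_lit 342) (nat_lit 166)) (XT.nd (nat_lit 78) (nat_lit 76) (nat_lit 0) (XT.lf (nat_lit 0) (nat_lit 789644747233) (nat_lit 76) (nat_lit 501537848488) (nat_lit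 76) (nat_lit 138755628655) (nat_lit 9) (nat_lit 4) (nat_lit 10) (nat_lit 5) (nat_lit 10) (nat_lit 4) (nat_lit 393) (nat_lit 342) (nat_lit 165)) (XT.lf (nat_lit 0) (nat_lit 65409631607) (nat_lit 152) (nat_lit 226730218695) (nat_lit 76) (nat_lit 1233661477774) (nat_lit 8) (nat_lit 5) (nat_lit 10) (nat_lit 5) (nat_lit 9) (nat_lit 4) (nat_lit 394) (nat_lit 342) (nat_lit 164))))))))
noncomputable def xc206 : XT := (XT.nd (nat_lit 42978) (nat_lit 0) (nat_lit 2432) (XT.nd (nat_lit 702) (nat_lit 76) (nat_lit 0) (XT.nd (nat_lit 312) (nat_lit 228) (nat_lit 0) (XT.nd (nat_lit 156) (nat_lit 0) (nat_lit 0) (XT.nd (nat_lit 78) (nat_lit 0) (nat_lit 0) (XT.lf (nat_lit 0) (nat_lit 227704689178) (nat_lit 76) (nat_lit 56183278037) (nat_lit 152) (nat_lit 1344719088480) (nat_lit 7) (nat_lit 5) (nat_lit 8) (nat_lit 5) (nat_lit 9) (nat_lit 4) (nat_lit 395) (nat_lit 342) (nat_lit 163)) (XT.lf (nat_lit 0) (nat_lit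 530982286433) (nat_lit 152) (nat_lit 1012691198164) (nat_lit 0) (nat_lit 195072739594) (nat_lit 7) (nat_lit 5) (nat_lit 9) (nat_lit 4) (nat_lit 7) (nat_lit 4) (nat_lit 396) (nat_lit 342) (nat_lit 162))) (XT.nd (nat_lit 78) (nat_lit 0) (nat_lit 0) (XT.lf (nat_lit 0) (nat_lit 799303419606) (nat_lit 152) (nat_lit 594882516293) (nat_lit 0) (nat_lit 463393848800) (nat_lit 7) (nat_lit 5) (nat_lit 9) (nat_lit 4) (nat_lit 7) (nat_lit 4) (nat_lit 397) (nat_lit 342) (nat_lit 161)) (XT.lf (nat_lit 0) (nat_lit 1089090208707) (nat_lit 152) (nat_lit 143649208418) (nat_lit 0) (nat_lit 753180615709) (nat_lit 7) (nat_lit 5) (nat_lit 9) (nat_lit 4) (nat_lit 7) (nat_lit 4) (nat_lit 398) (nat_lit 342) (nat_lit 160)))) (XT.nd (nat_lit 156) (nat_lit 152) (nat_lit 0) (XT.nd (nat_lit 78) (nat_lit 0) (nat_lit 0) (XT.lf (nat_lit 0) (nat_lit 361780422575) (nat_lit 76) (nat_lit 1048980314069) (nat_lit 76) (nat_lit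 713070700524) (nat_lit 6) (nat_lit 4) (nat_lit 7) (nat_lit 5) (nat_lit 7) (nat_lit 4) (nat_lit 399) (nat_lit 342) (nat_lit 159)) (XT.lf (nat_lit 0) (nat_lit 915813819954) (nat_lit 76) (nat_lit 846278679529) (nat_lit 76) (nat_lit 510369046958) (nat_lit 6) (nat_lit 4) (nat_lit 7) (nat_lit 5) (nat_lit 7) (nat_lit 4) (nat_lit 400) (nat_lit 342) (nat_lit 158))) (XT.nd (nat_lit 78) (nat_lit 152) (nat_lit 0) (XT.lf (nat_lit 0) (nat_lit 1514169831846) (nat_lit 76) (nat_lit 627360942560) (nat_lit 76) (nat_lit 291451292373) (nat_lit 6) (nat_lit 4) (nat_lit 7) (nat_lit 5) (nat_lit 7) (nat_lit 4) (nat_lit 401) (nat_lit 342) (nat_lit 157)) (XT.nd (nat_lit 78) (nat_lit 152) (nat_lit 0) (XT.lf (nat_lit 0) (nat_lit 2160394271653) (nat_lit 76) (nat_lit 390929812869) (nat_lit 76) (nat_lit 55020146370) (nat_lit 6) (nat_lit 4) (nat_lit 7) (nat_lit 5) (nat_lit 7) (nat_lit 4) (nat_lit 402) (nat_lit 342) (nat_lit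 156)) (XT.lf (nat_lit 0) (nat_lit 63078876023) (nat_lit 76) (nat_lit 128742545912) (nat_lit 152) (nat_lit 2601247157731) (nat_lit 4) (nat_lit 5) (nat_lit 5) (nat_lit 5) (nat_lit 6) (nat_lit 4) (nat_lit 403) (nat_lit 342) (nat_lit 155)))))) (XT.nd (nat_lit 312) (nat_lit 76) (nat_lit 0) (XT.nd (nat_lit 156) (nat_lit 0) (nat_lit 0) (XT.nd (nat_lit 78) (nat_lit 0) (nat_lit 0) (XT.lf (nat_lit 0) (nat_lit 471661336005) (nat_lit 152) (nat_lit 2361023489686) (nat_lit 0) (nat_lit 160633840092) (nat_lit 4) (nat_lit 5) (nat_lit 6) (nat_lit 4) (nat_lit 4) (nat_lit 4) (nat_lit 404) (nat_lit 342) (nat_lit 154)) (XT.lf (nat_lit 0) (nat_lit 777232381963) (nat_lit 152) (nat_lit 1965883987671) (nat_lit 0) (nat_lit 466204874060) (nat_lit 4) (nat_lit 5) (nat_lit 6) (nat_lit 4) (nat_lit 4) (nat_lit 4) (nat_lit 405) (nat_lit 342) (nat_lit 153))) (XT.nd (nat_lit 78) (nat_lit 0) (nat_lit 0) (XT.lf (nat_lit 0)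 (nat_lit 1107249089866) (nat_lit 152) (nat_lit 1539133368852) (nat_lit 0) (nat_lit 796221570861) (nat_lit 4) (nat_lit 5) (nat_lit 6) (nat_lit 4) (nat_lit 4) (nat_lit 4) (nat_lit 406) (nat_lit 342) (nat_lit 152)) (XT.lf (nat_lit 0) (nat_lit 1463667114279) (nat_lit 152) (nat_lit 1078242740674) (nat_lit 0) (nat_lit 1152639584995) (nat_lit 4) (nat_lit 5) (nat_lit 6) (nat_lit 4) (nat_lit 4) (nat_lit 4) (nat_lit 407) (nat_lit 342) (nat_lit 151)))) (XT.nd (nat_lit 156) (nat_lit 76) (nat_lit 0) (XT.nd (nat_lit 78) (nat_lit 0) (nat_lit 0) (XT.lf (nat_lit 0) (nat_lit 1848598562013) (nat_lit 152) (nat_lit 580480899415) (nat_lit 0) (nat_lit 1537571023212) (nat_lit 4) (nat_lit 5) (nat_lit 6) (nat_lit 4) (nat_lit 4) (nat_lit 4) (nat_lit 408) (nat_lit 342) (nat_lit 150)) (XT.lf (nat_lit 0) (nat_lit 2264324508316) (nat_lit 152) (nat_lit 42898145273) (nat_lit 0) (nat_lit 1953296960702) (nat_lit 4) (nat_lit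 5) (nat_lit 6) (nat_lit 4) (nat_lit 4) (nat_lit 4) (nat_lit 409) (nat_lit 342) (nat_lit 149))) (XT.nd (nat_lit 41652) (nat_lit 0) (nat_lit 4180) (XT.lf (nat_lit 0) (nat_lit 566005062910) (nat_lit 76) (nat_lit 2160915886813) (nat_lit 76) (nat_lit 1849888331040) (nat_lit 3) (nat_lit 4) (nat_lit 4) (nat_lit 5) (nat_lit 4) (nat_lit 4) (nat_lit 410) (nat_lit 342) (nat_lit 148)) (XT.nd (nat_lit 78) (nat_lit 0) (nat_lit 0) (XT.lf (nat_lit 0) (nat_lit 45226371835) (nat_lit 532) (nat_lit 5245902284) (nat_lit 532) (nat_lit 5245902284) (nat_lit 58) (nat_lit 3) (nat_lit 65) (nat_lit 3) (nat_lit 65) (nat_lit 5) (nat_lit 343) (nat_lit 343) (nat_lit 214)) (XT.lf (nat_lit 76) (nat_lit 45036159474) (nat_lit 0) (nat_lit 50122714248) (nat_lit 532) (nat_lit 20647884227) (nat_lit 59) (nat_lit 5) (nat_lit 58) (nat_lit 3) (nat_lit 65) (nat_lit 5) (nat_lit 344) (nat_lit 343) (nat_lit 213))))))) (XT.nd (nat_lit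 702) (nat_lit 1064) (nat_lit 0) (XT.nd (nat_lit 312) (nat_lit 760) (nat_lit 0) (XT.nd (nat_lit 156) (nat_lit 0) (nat_lit 0) (XT.nd (nat_lit 78) (nat_lit 0) (nat_lit 0) (XT.lf (nat_lit 0) (nat_lit 100649913225) (nat_lit 456) (nat_lit 15023178414) (nat_lit 532) (nat_lit 4821031075) (nat_lit 59) (nat_lit 5) (nat_lit 65) (nat_lit 5) (nat_lit 66) (nat_lit 5) (nat_lit 345) (nat_lit 343) (nat_lit 212)) (XT.lf (nat_lit 76) (nat_lit 46192586107) (nat_lit 0) (nat_lit 62800016023) (nat_lit 532) (nat_lit 16370885911) (nat_lit 60) (nat_lit 5) (nat_lit 59) (nat_lit 5) (nat_lit 66) (nat_lit 5) (nat_lit 346) (nat_lit 343) (nat_lit 211))) (XT.nd (nat_lit 78) (nat_lit 0) (nat_lit 76) (XT.lf (nat_lit 76) (nat_lit 113159700170) (nat_lit 0) (nat_lit 5253337727) (nat_lit 532) (nat_lit 12176538787) (nat_lit 60) (nat_lit 5) (nat_lit 59) (nat_lit 5) (nat_lit 66) (nat_lit 5) (nat_lit 347) (nat_lit 343) (nat_lit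 210)) (XT.lf (nat_lit 76) (nat_lit 50403116201) (nat_lit 0) (nat_lit 80764170689) (nat_lit 532) (nat_lit 4860051843) (nat_lit 61) (nat_lit 5) (nat_lit 60) (nat_lit 5) (nat_lit 67) (nat_lit 5) (nat_lit 348) (nat_lit 343) (nat_lit 209)))) (XT.nd (nat_lit 156) (nat_lit 304) (nat_lit 0) (XT.nd (nat_lit 78) (nat_lit 0) (nat_lit 76) (XT.lf (nat_lit 0) (nat_lit 3514603521) (nat_lit 532) (nat_lit 17430298236) (nat_lit 608) (nat_lit 120899367322) (nat_lit 53) (nat_lit 5) (nat_lit 60) (nat_lit 5) (nat_lit 61) (nat_lit 5) (nat_lit 349) (nat_lit 343) (nat_lit 208)) (XT.lf (nat_lit 0) (nat_lit 14806561538) (nat_lit 532) (nat_lit 90046719059) (nat_lit 76) (nat_lit 43062382969) (nat_lit 54) (nat_lit 5) (nat_lit 61) (nat_lit 5) (nat_lit 55) (nat_lit 5) (nat_lit 350) (nat_lit 343) (nat_lit 207))) (XT.nd (nat_lit 78) (nat_lit 380) (nat_lit 0) (XT.lf (nat_lit 0) (nat_lit 28034520107) (nat_lit 532) (nat_lit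 14807959120) (nat_lit 76) (nat_lit 111547679302) (nat_lit 54) (nat_lit 5) (nat_lit 61) (nat_lit 5) (nat_lit 55) (nat_lit 5) (nat_lit 351) (nat_lit 343) (nat_lit 206)) (XT.nd (nat_lit 78) (nat_lit 0) (nat_lit 0) (XT.lf (nat_lit 0) (nat_lit 44626678454) (nat_lit 456) (nat_lit 91923332871) (nat_lit 76) (nat_lit 24648125112) (nat_lit 49) (nat_lit 5) (nat_lit 55) (nat_lit 5) (nat_lit 50) (nat_lit 5) (nat_lit 352) (nat_lit 343) (nat_lit 205)) (XT.lf (nat_lit 0) (nat_lit 64074100749) (nat_lit 456) (nat_lit 8715651175) (nat_lit 76) (nat_lit 95638769721) (nat_lit 49) (nat_lit 5) (nat_lit 55) (nat_lit 5) (nat_lit 50) (nat_lit 5) (nat_lit 353) (nat_lit 343) (nat_lit 204)))))) (XT.nd (nat_lit 312) (nat_lit 456) (nat_lit 0) (XT.nd (nat_lit 156) (nat_lit 152) (nat_lit 0) (XT.nd (nat_lit 78) (nat_lit 228) (nat_lit 0) (XT.lf (nat_lit 0) (nat_lit 85421486976) (nat_lit 228) (nat_lit 1709947845) (nat_lit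 304) (nat_lit 88941573749) (nat_lit 46) (nat_lit 5) (nat_lit 49) (nat_lit 5) (nat_lit 50) (nat_lit 5) (nat_lit 354) (nat_lit 343) (nat_lit 203)) (XT.lf (nat_lit 0) (nat_lit 1540753390) (nat_lit 228) (nat_lit 112578994754) (nat_lit 304) (nat_lit 70042395218) (nat_lit 43) (nat_lit 5) (nat_lit 46) (nat_lit 5) (nat_lit 47) (nat_lit 5) (nat_lit 355) (nat_lit 343) (nat_lit 202))) (XT.nd (nat_lit 78) (nat_lit 152) (nat_lit 0) (XT.lf (nat_lit 0) (nat_lit 106216797380) (nat_lit 228) (nat_lit 39571946285) (nat_lit 304) (nat_lit 46907936193) (nat_lit 43) (nat_lit 5) (nat_lit 46) (nat_lit 5) (nat_lit 47) (nat_lit 5) (nat_lit 356) (nat_lit 343) (nat_lit 201)) (XT.lf (nat_lit 0) (nat_lit 17272096998) (nat_lit 152) (nat_lit 164078908141) (nat_lit 228) (nat_lit 20454194701) (nat_lit 41) (nat_lit 5) (nat_lit 43) (nat_lit 5) (nat_lit 44) (nat_lit 5) (nat_lit 357) (nat_lit 343) (nat_lit 200)))) (XT.nd (nat_lit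 156) (nat_lit 152) (nat_lit 0) (XT.nd (nat_lit 78) (nat_lit 228) (nat_lit 0) (XT.lf (nat_lit 0) (nat_lit 11163406075) (nat_lit 228) (nat_lit 78495555868) (nat_lit 76) (nat_lit 121691541009) (nat_lit 40) (nat_lit 5) (nat_lit 43) (nat_lit 5) (nat_lit 41) (nat_lit 5) (nat_lit 358) (nat_lit 343) (nat_lit 199)) (XT.lf (nat_lit 0) (nat_lit 37362467831) (nat_lit 228) (nat_lit 7741249693) (nat_lit 304) (nat_lit 176441341949) (nat_lit 37) (nat_lit 5) (nat_lit 40) (nat_lit 5) (nat_lit 41) (nat_lit 5) (nat_lit 359) (nat_lit 343) (nat_lit 198))) (XT.nd (nat_lit 78) (nat_lit 152) (nat_lit 0) (XT.lf (nat_lit 0) (nat_lit 85902562304) (nat_lit 304) (nat_lit 67427818729) (nat_lit 76) (nat_lit 78893335007) (nat_lit 37) (nat_lit 5) (nat_lit 41) (nat_lit 5) (nat_lit 38) (nat_lit 5) (nat_lit 360) (nat_lit 343) (nat_lit 197)) (XT.nd (nat_lit 78) (nat_lit 0) (nat_lit 0) (XT.lf (nat_lit 0) (nat_lit 61544722670)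 (nat_lit 152) (nat_lit 70101629935) (nat_lit 228) (nat_lit 111975829676) (nat_lit 35) (nat_lit 5) (nat_lit 37) (nat_lit 5) (nat_lit 38) (nat_lit 5) (nat_lit 361) (nat_lit 343) (nat_lit 196)) (XT.lf (nat_lit 0) (nat_lit 183416788032) (nat_lit 228) (nat_lit 51639280724) (nat_lit 76) (nat_lit 20687085885) (nat_lit 35) (nat_lit 5) (nat_lit 38) (nat_lit 5) (nat_lit 36) (nat_lit 5) (nat_lit 362) (nat_lit 343) (nat_lit 195))))))))
noncomputable def xc207 : XT := (XT.nd (nat_lit 1404) (nat_lit 684) (nat_lit 0) (XT.nd (nat_lit 702) (nat_lit 608) (nat_lit 0) (XT.nd (nat_lit 312) (nat_lit 456) (nat_lit 0) (XT.nd (nat_lit 156) (nat_lit 152) (nat_lit 0) (XT.nd (nat_lit 78) (nat_lit 76) (nat_lit 0) (XT.lf (nat_lit 0) (nat_lit 92015893875) (nat_lit 152) (nat_lit 151346604113) (nat_lit 228) (nat_lit 25148615782) (nat_lit 33) (nat_lit 5) (nat_lit 35) (nat_lit 5) (nat_lit 36) (nat_lit 5) (nat_lit 363)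 (nat_lit 343) (nat_lit 194)) (XT.lf (nat_lit 0) (nat_lit 25960985178) (nat_lit 228) (nat_lit 32744794361) (nat_lit 76) (nat_lit 223429211050) (nat_lit 32) (nat_lit 5) (nat_lit 35) (nat_lit 5) (nat_lit 33) (nat_lit 5) (nat_lit 364) (nat_lit 343) (nat_lit 193))) (XT.nd (nat_lit 78) (nat_lit 0) (nat_lit 0) (XT.lf (nat_lit 0) (nat_lit 83976861182) (nat_lit 228) (nat_lit 169372466795) (nat_lit 76) (nat_lit 43113098004) (nat_lit 30) (nat_lit 5) (nat_lit 33) (nat_lit 5) (nat_lit 31) (nat_lit 5) (nat_lit 365) (nat_lit 343) (nat_lit 192)) (XT.lf (nat_lit 0) (nat_lit 149077240131) (nat_lit 228) (nat_lit 11839026786) (nat_lit 76) (nat_lit 150824330774) (nat_lit 30) (nat_lit 5) (nat_lit 33) (nat_lit 5) (nat_lit 31) (nat_lit 5) (nat_lit 366) (nat_lit 343) (nat_lit 191)))) (XT.nd (nat_lit 156) (nat_lit 228) (nat_lit 0) (XT.nd (nat_lit 78) (nat_lit 76) (nat_lit 0) (XT.lf (nat_lit 0) (nat_lit 166632505354)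 (nat_lit 152) (nat_lit 56760522905) (nat_lit 228) (nat_lit 104527404676) (nat_lit 28) (nat_lit 5) (nat_lit 30) (nat_lit 5) (nat_lit 31) (nat_lit 5) (nat_lit 367) (nat_lit 343) (nat_lit 190)) (XT.lf (nat_lit 0) (nat_lit 14039742811) (nat_lit 76) (nat_lit 291624218898) (nat_lit 152) (nat_lit 39569902808) (nat_lit 27) (nat_lit 5) (nat_lit 28) (nat_lit 5) (nat_lit 29) (nat_lit 4) (nat_lit 368) (nat_lit 343) (nat_lit 189))) (XT.nd (nat_lit 78) (nat_lit 152) (nat_lit 0) (XT.lf (nat_lit 0) (nat_lit 35052861184) (nat_lit 152) (nat_lit 153337978086) (nat_lit 76) (nat_lit 175002798784) (nat_lit 26) (nat_lit 5) (nat_lit 28) (nat_lit 5) (nat_lit 27) (nat_lit 5) (nat_lit 369) (nat_lit 343) (nat_lit 188)) (XT.nd (nat_lit 78) (nat_lit 0) (nat_lit 0) (XT.lf (nat_lit 0) (nat_lit 39704860987) (nat_lit 152) (nat_lit 74757563060) (nat_lit 228) (nat_lit 268385163907) (nat_lit 24) (nat_lit 5) (nat_lit 26)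 (nat_lit 5) (nat_lit 27) (nat_lit 5) (nat_lit 370) (nat_lit 343) (nat_lit 187)) (XT.lf (nat_lit 0) (nat_lit 205679653190) (nat_lit 228) (nat_lit 147873553552) (nat_lit 76) (nat_lit 49868255077) (nat_lit 24) (nat_lit 5) (nat_lit 27) (nat_lit 5) (nat_lit 25) (nat_lit 4) (nat_lit 371) (nat_lit 343) (nat_lit 186)))))) (XT.nd (nat_lit 312) (nat_lit 304) (nat_lit 0) (XT.nd (nat_lit 156) (nat_lit 228) (nat_lit 0) (XT.nd (nat_lit 78) (nat_lit 0) (nat_lit 0) (XT.lf (nat_lit 0) (nat_lit 64291319628) (nat_lit 76) (nat_lit 243390792385) (nat_lit 152) (nat_lit 117680105540) (nat_lit 23) (nat_lit 5) (nat_lit 24) (nat_lit 5) (nat_lit 25) (nat_lit 4) (nat_lit 372) (nat_lit 343) (nat_lit 185)) (XT.lf (nat_lit 0) (nat_lit 301838896117) (nat_lit 76) (nat_lit 120048888875) (nat_lit 152) (nat_lit 26847007421) (nat_lit 23) (nat_lit 5) (nat_lit 24) (nat_lit 5) (nat_lit 25) (nat_lit 4) (nat_lit 373) (nat_lit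 343) (nat_lit 184))) (XT.nd (nat_lit 78) (nat_lit 0) (nat_lit 0) (XT.lf (nat_lit 0) (nat_lit 70197334635) (nat_lit 228) (nat_lit 387033898989) (nat_lit 76) (nat_lit 16408133554) (nat_lit 20) (nat_lit 5) (nat_lit 23) (nat_lit 5) (nat_lit 21) (nat_lit 4) (nat_lit 374) (nat_lit 343) (nat_lit 183)) (XT.lf (nat_lit 0) (nat_lit 180793556702) (nat_lit 228) (nat_lit 156993934356) (nat_lit 76) (nat_lit 162113929454) (nat_lit 20) (nat_lit 5) (nat_lit 23) (nat_lit 5) (nat_lit 21) (nat_lit 4) (nat_lit 375) (nat_lit 343) (nat_lit 182)))) (XT.nd (nat_lit 156) (nat_lit 228) (nat_lit 0) (XT.nd (nat_lit 78) (nat_lit 0) (nat_lit 0) (XT.lf (nat_lit 0) (nat_lit 96264606425) (nat_lit 76) (nat_lit 206287943026) (nat_lit 152) (nat_lit 225526682877) (nat_lit 19) (nat_lit 5) (nat_lit 20) (nat_lit 5) (nat_lit 21) (nat_lit 4) (nat_lit 376) (nat_lit 343) (nat_lit 181)) (XT.lf (nat_lit 0) (nat_lit 378712052332) (nat_lit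 76) (nat_lit 59632611488) (nat_lit 152) (nat_lit 119823213136) (nat_lit 19) (nat_lit 5) (nat_lit 20) (nat_lit 5) (nat_lit 21) (nat_lit 4) (nat_lit 377) (nat_lit 343) (nat_lit 180))) (XT.nd (nat_lit 78) (nat_lit 152) (nat_lit 0) (XT.lf (nat_lit 0) (nat_lit 95493429832) (nat_lit 76) (nat_lit 494178315330) (nat_lit 76) (nat_lit 618140205) (nat_lit 18) (nat_lit 4) (nat_lit 19) (nat_lit 5) (nat_lit 19) (nat_lit 4) (nat_lit 378) (nat_lit 343) (nat_lit 179)) (XT.nd (nat_lit 78) (nat_lit 76) (nat_lit 0) (XT.lf (nat_lit 0) (nat_lit 128296990109) (nat_lit 152) (nat_lit 226702556343) (nat_lit 76) (nat_lit 269208966495) (nat_lit 17) (nat_lit 5) (nat_lit 19) (nat_lit 5) (nat_lit 18) (nat_lit 4) (nat_lit 379) (nat_lit 343) (nat_lit 178)) (XT.lf (nat_lit 0) (nat_lit 66130784475) (nat_lit 76) (nat_lit 202951519349) (nat_lit 152) (nat_lit 391629813006) (nat_lit 16) (nat_lit 5) (nat_lit 17) (nat_lit 5)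 (nat_lit 18) (nat_lit 4) (nat_lit 380) (nat_lit 343) (nat_lit 177))))))) (XT.nd (nat_lit 702) (nat_lit 304) (nat_lit 0) (XT.nd (nat_lit 312) (nat_lit 228) (nat_lit 0) (XT.nd (nat_lit 156) (nat_lit 76) (nat_lit 0) (XT.nd (nat_lit 78) (nat_lit 76) (nat_lit 0) (XT.lf (nat_lit 0) (nat_lit 395283427079) (nat_lit 76) (nat_lit 32045389263) (nat_lit 152) (nat_lit 272311322814) (nat_lit 16) (nat_lit 5) (nat_lit 17) (nat_lit 5) (nat_lit 18) (nat_lit 4) (nat_lit 381) (nat_lit 343) (nat_lit 176)) (XT.lf (nat_lit 0) (nat_lit 5702581654) (nat_lit 76) (nat_lit 596337971560) (nat_lit 76) (nat_lit 139337409813) (nat_lit 15) (nat_lit 4) (nat_lit 16) (nat_lit 5) (nat_lit 16) (nat_lit 4) (nat_lit 382) (nat_lit 343) (nat_lit 175))) (XT.nd (nat_lit 78) (nat_lit 0) (nat_lit 0) (XT.lf (nat_lit 0) (nat_lit 13430667642) (nat_lit 152) (nat_lit 429064855159) (nat_lit 76) (nat_lit 343201460042) (nat_lit 14) (nat_lit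 5) (nat_lit 16) (nat_lit 5) (nat_lit 15) (nat_lit 4) (nat_lit 383) (nat_lit 343) (nat_lit 174)) (XT.lf (nat_lit 0) (nat_lit 170892285879) (nat_lit 152) (nat_lit 101544765254) (nat_lit 76) (nat_lit 560834946143) (nat_lit 14) (nat_lit 5) (nat_lit 16) (nat_lit 5) (nat_lit 15) (nat_lit 4) (nat_lit 384) (nat_lit 343) (nat_lit 173)))) (XT.nd (nat_lit 156) (nat_lit 152) (nat_lit 0) (XT.nd (nat_lit 78) (nat_lit 0) (nat_lit 0) (XT.lf (nat_lit 0) (nat_lit 265456000435) (nat_lit 76) (nat_lit 81878995100) (nat_lit 152) (nat_lit 536807284392) (nat_lit 13) (nat_lit 5) (nat_lit 14) (nat_lit 5) (nat_lit 15) (nat_lit 4) (nat_lit 385) (nat_lit 343) (nat_lit 172)) (XT.lf (nat_lit 0) (nat_lit 543721957848) (nat_lit 152) (nat_lit 274320902881) (nat_lit 0) (nat_lit 120573017607) (nat_lit 13) (nat_lit 5) (nat_lit 15) (nat_lit 4) (nat_lit 13) (nat_lit 4) (nat_lit 386) (nat_lit 343) (nat_lit 171))) (XT.nd (nat_lit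 78) (nat_lit 76) (nat_lit 0) (XT.lf (nat_lit 0) (nat_lit 100493985252) (nat_lit 76) (nat_lit 659869445606) (nat_lit 76) (nat_lit 236720449482) (nat_lit 12) (nat_lit 4) (nat_lit 13) (nat_lit 5) (nat_lit 13) (nat_lit 4) (nat_lit 387) (nat_lit 343) (nat_lit 170)) (XT.nd (nat_lit 78) (nat_lit 76) (nat_lit 0) (XT.lf (nat_lit 0) (nat_lit 520894832373) (nat_lit 76) (nat_lit 480941754404) (nat_lit 76) (nat_lit 57792706537) (nat_lit 12) (nat_lit 4) (nat_lit 13) (nat_lit 5) (nat_lit 13) (nat_lit 4) (nat_lit 388) (nat_lit 343) (nat_lit 169)) (XT.lf (nat_lit 0) (nat_lit 128673483652) (nat_lit 152) (nat_lit 155508249779) (nat_lit 76) (nat_lit 842736005427) (nat_lit 11) (nat_lit 5) (nat_lit 13) (nat_lit 5) (nat_lit 12) (nat_lit 4) (nat_lit 389) (nat_lit 343) (nat_lit 168)))))) (XT.nd (nat_lit 390) (nat_lit 152) (nat_lit 0) (XT.nd (nat_lit 156) (nat_lit 76) (nat_lit 0) (XT.nd (nat_lit 78) (nat_lit 0)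 (nat_lit 0) (XT.lf (nat_lit 0) (nat_lit 270401431282) (nat_lit 76) (nat_lit 63036343438) (nat_lit 152) (nat_lit 865511147562) (nat_lit 10) (nat_lit 5) (nat_lit 11) (nat_lit 5) (nat_lit 12) (nat_lit 4) (nat_lit 390) (nat_lit 343) (nat_lit 167)) (XT.lf (nat_lit 0) (nat_lit 563173481289) (nat_lit 152) (nat_lit 541513213456) (nat_lit 0) (nat_lit 171368683870) (nat_lit 10) (nat_lit 5) (nat_lit 12) (nat_lit 4) (nat_lit 10) (nat_lit 4) (nat_lit 391) (nat_lit 343) (nat_lit 166))) (XT.nd (nat_lit 78) (nat_lit 76) (nat_lit 0) (XT.lf (nat_lit 0) (nat_lit 812925307877) (nat_lit 152) (nat_lit 125153587266) (nat_lit 0) (nat_lit 421120475242) (nat_lit 10) (nat_lit 5) (nat_lit 12) (nat_lit 4) (nat_lit 10) (nat_lit 4) (nat_lit 392) (nat_lit 343) (nat_lit 165)) (XT.nd (nat_lit 78) (nat_lit 0) (nat_lit 0) (XT.lf (nat_lit 0) (nat_lit 341603100010) (nat_lit 76) (nat_lit 749269702493) (nat_lit 76) (nat_lit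 357464837252) (nat_lit 9) (nat_lit 4) (nat_lit 10) (nat_lit 5) (nat_lit 10) (nat_lit 4) (nat_lit 393) (nat_lit 343) (nat_lit 164)) (XT.lf (nat_lit 0) (nat_lit 852817840115) (nat_lit 76) (nat_lit 541660137753) (nat_lit 76) (nat_lit 149855242320) (nat_lit 9) (nat_lit 4) (nat_lit 10) (nat_lit 5) (nat_lit 10) (nat_lit 4) (nat_lit 394) (nat_lit 343) (nat_lit 163))))) (XT.nd (nat_lit 156) (nat_lit 0) (nat_lit 0) (XT.nd (nat_lit 78) (nat_lit 76) (nat_lit 0) (XT.lf (nat_lit 0) (nat_lit 70643138039) (nat_lit 152) (nat_lit 244867196264) (nat_lit 76) (nat_lit 1332355040993) (nat_lit 8) (nat_lit 5) (nat_lit 10) (nat_lit 5) (nat_lit 9) (nat_lit 4) (nat_lit 395) (nat_lit 343) (nat_lit 162)) (XT.lf (nat_lit 0) (nat_lit 245922467784) (nat_lit 76) (nat_lit 60677251954) (nat_lit 152) (nat_lit 1452295843059) (nat_lit 7) (nat_lit 5) (nat_lit 8) (nat_lit 5) (nat_lit 9) (nat_lit 4) (nat_lit 396) (nat_lit 343)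 (nat_lit 161))) (XT.nd (nat_lit 78) (nat_lit 0) (nat_lit 0) (XT.lf (nat_lit 0) (nat_lit 573461546847) (nat_lit 152) (nat_lit 1093705156728) (nat_lit 0) (nat_lit 210679164219) (nat_lit 7) (nat_lit 5) (nat_lit 9) (nat_lit 4) (nat_lit 7) (nat_lit 4) (nat_lit 397) (nat_lit 343) (nat_lit 160)) (XT.nd (nat_lit 78) (nat_lit 0) (nat_lit 0) (XT.lf (nat_lit 0) (nat_lit 863248320489) (nat_lit 152) (nat_lit 642471879367) (nat_lit 0) (nat_lit 500465917313) (nat_lit 7) (nat_lit 5) (nat_lit 9) (nat_lit 4) (nat_lit 7) (nat_lit 4) (nat_lit 398) (nat_lit 343) (nat_lit 159)) (XT.lf (nat_lit 0) (nat_lit 1176218006250) (nat_lit 152) (nat_lit 155139998582) (nat_lit 0) (nat_lit 813435584048) (nat_lit 7) (nat_lit 5) (nat_lit 9) (nat_lit 4) (nat_lit 7) (nat_lit 4) (nat_lit 399) (nat_lit 343) (nat_lit 158))))))))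
noncomputable def xc208 : XT := (XT.nd (nat_lit 43056) (nat_lit 0) (nat_lit 1824) (XT.nd (nat_lit 702) (nat_lit 0) (nat_lit 0) (XT.nd (nat_lit 312) (nat_lit 152) (nat_lit 0) (XT.nd (nat_lit 156) (nat_lit 0) (nat_lit 0) (XT.nd (nat_lit 78) (nat_lit 0) (nat_lit 0) (XT.lf (nat_lit 0) (nat_lit 390723973865) (nat_lit 76) (nat_lit 1132898186408) (nat_lit 76) (nat_lit 770115746589) (nat_lit 6) (nat_lit 4) (nat_lit 7) (nat_lit 5) (nat_lit 7) (nat_lit 4) (nat_lit 400) (nat_lit 343) (nat_lit 157)) (XT.lf (nat_lit 0) (nat_lit 989079960258) (nat_lit 76) (nat_lit 913980462052) (nat_lit 76) (nat_lit 551198005922) (nat_lit 6) (nat_lit 4) (nat_lit 7) (nat_lit 5) (nat_lit 7) (nat_lit 4) (nat_lit 401) (nat_lit 343) (nat_lit 156))) (XT.nd (nat_lit 78) (nat_lit 0) (nat_lit 0) (XT.lf (nat_lit 0) (nat_lit 1635304376455) (nat_lit 76) (nat_lit 677549344040) (nat_lit 76) (nat_lit 314766872806) (nat_lit 6) (nat_lit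 4) (nat_lit 7) (nat_lit 5) (nat_lit 7) (nat_lit 4) (nat_lit 402) (nat_lit 343) (nat_lit 155)) (XT.lf (nat_lit 0) (nat_lit 2333226700479) (nat_lit 76) (nat_lit 422203759079) (nat_lit 76) (nat_lit 59421273861) (nat_lit 6) (nat_lit 4) (nat_lit 7) (nat_lit 5) (nat_lit 7) (nat_lit 4) (nat_lit 403) (nat_lit 343) (nat_lit 154)))) (XT.nd (nat_lit 156) (nat_lit 0) (nat_lit 0) (XT.nd (nat_lit 78) (nat_lit 0) (nat_lit 0) (XT.lf (nat_lit 0) (nat_lit 68126074425) (nat_lit 76) (nat_lit 139041508551) (nat_lit 152) (nat_lit 2809346447209) (nat_lit 4) (nat_lit 5) (nat_lit 5) (nat_lit 5) (nat_lit 6) (nat_lit 4) (nat_lit 404) (nat_lit 343) (nat_lit 153)) (XT.lf (nat_lit 0) (nat_lit 509394666862) (nat_lit 152) (nat_lit 2549904522965) (nat_lit 0) (nat_lit 173484935236) (nat_lit 4) (nat_lit 5) (nat_lit 6) (nat_lit 4) (nat_lit 4) (nat_lit 4) (nat_lit 405) (nat_lit 343) (nat_lit 152))) (XT.nd (nat_lit 78) (nat_lit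 0) (nat_lit 0) (XT.lf (nat_lit 0) (nat_lit 839411365090) (nat_lit 152) (nat_lit 2123153923448) (nat_lit 0) (nat_lit 503501623185) (nat_lit 4) (nat_lit 5) (nat_lit 6) (nat_lit 4) (nat_lit 4) (nat_lit 4) (nat_lit 406) (nat_lit 343) (nat_lit 151)) (XT.nd (nat_lit 78) (nat_lit 0) (nat_lit 0) (XT.lf (nat_lit 0) (nat_lit 1195829380546) (nat_lit 152) (nat_lit 1662263313141) (nat_lit 0) (nat_lit 859919629123) (nat_lit 4) (nat_lit 5) (nat_lit 6) (nat_lit 4) (nat_lit 4) (nat_lit 4) (nat_lit 407) (nat_lit 343) (nat_lit 150)) (XT.lf (nat_lit 0) (nat_lit 1580760819987) (nat_lit 152) (nat_lit 1164501488429) (nat_lit 0) (nat_lit 1244851059751) (nat_lit 4) (nat_lit 5) (nat_lit 6) (nat_lit 4) (nat_lit 4) (nat_lit 4) (nat_lit 408) (nat_lit 343) (nat_lit 149)))))) (XT.nd (nat_lit 41964) (nat_lit 0) (nat_lit 3724) (XT.nd (nat_lit 41808) (nat_lit 0) (nat_lit 4104) (XT.nd (nat_lit 78) (nat_lit 0) (nat_lit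 0) (XT.lf (nat_lit 0) (nat_lit 1996486758609) (nat_lit 152) (nat_lit 626918749609) (nat_lit 0) (nat_lit 1660576990214) (nat_lit 4) (nat_lit 5) (nat_lit 6) (nat_lit 4) (nat_lit 4) (nat_lit 4) (nat_lit 409) (nat_lit 343) (nat_lit 148)) (XT.lf (nat_lit 0) (nat_lit 2445470757532) (nat_lit 152) (nat_lit 46329421193) (nat_lit 0) (nat_lit 2109560981581) (nat_lit 4) (nat_lit 5) (nat_lit 6) (nat_lit 4) (nat_lit 4) (nat_lit 4) (nat_lit 410) (nat_lit 343) (nat_lit 147))) (XT.nd (nat_lit 78) (nat_lit 0) (nat_lit 0) (XT.lf (nat_lit 0) (nat_lit 48849263334) (nat_lit 532) (nat_lit 5662988736) (nat_lit 532) (nat_lit 5662988736) (nat_lit 58) (nat_lit 3) (nat_lit 65) (nat_lit 3) (nat_lit 65) (nat_lit 5) (nat_lit 344) (nat_lit 344) (nat_lit 212)) (XT.lf (nat_lit 76) (nat_lit 48644092772) (nat_lit 0) (nat_lit 54136467172) (nat_lit 532) (nat_lit 22290007260) (nat_lit 59) (nat_lit 5) (nat_lit 58) (nat_lit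 3) (nat_lit 65) (nat_lit 5) (nat_lit 345) (nat_lit 344) (nat_lit 211)))) (XT.nd (nat_lit 156) (nat_lit 456) (nat_lit 0) (XT.nd (nat_lit 78) (nat_lit 0) (nat_lit 0) (XT.lf (nat_lit 0) (nat_lit 108710130049) (nat_lit 456) (nat_lit 16219600670) (nat_lit 532) (nat_lit 5203251617) (nat_lit 59) (nat_lit 5) (nat_lit 65) (nat_lit 5) (nat_lit 66) (nat_lit 5) (nat_lit 346) (nat_lit 344) (nat_lit 210)) (XT.lf (nat_lit 76) (nat_lit 49893287493) (nat_lit 0) (nat_lit 67826464738) (nat_lit 532) (nat_lit 17672184115) (nat_lit 60) (nat_lit 5) (nat_lit 59) (nat_lit 5) (nat_lit 66) (nat_lit 5) (nat_lit 347) (nat_lit 344) (nat_lit 209))) (XT.nd (nat_lit 78) (nat_lit 456) (nat_lit 0) (XT.lf (nat_lit 76) (nat_lit 122217378496) (nat_lit 0) (nat_lit 5675870887) (nat_lit 532) (nat_lit 13142909420) (nat_lit 60) (nat_lit 5) (nat_lit 59) (nat_lit 5) (nat_lit 66) (nat_lit 5) (nat_lit 348) (nat_lit 344) (nat_lit 208))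 (XT.nd (nat_lit 78) (nat_lit 532) (nat_lit 0) (XT.lf (nat_lit 76) (nat_lit 54440766052) (nat_lit 0) (nat_lit 87226620667) (nat_lit 532) (nat_lit 5241592003) (nat_lit 61) (nat_lit 5) (nat_lit 60) (nat_lit 5) (nat_lit 67) (nat_lit 5) (nat_lit 349) (nat_lit 344) (nat_lit 207)) (XT.lf (nat_lit 0) (nat_lit 3802161259) (nat_lit 532) (nat_lit 18819376757) (nat_lit 608) (nat_lit 130569753066) (nat_lit 53) (nat_lit 5) (nat_lit 60) (nat_lit 5) (nat_lit 61) (nat_lit 5) (nat_lit 350) (nat_lit 344) (nat_lit 206))))))) (XT.nd (nat_lit 702) (nat_lit 912) (nat_lit 0) (XT.nd (nat_lit 312) (nat_lit 684) (nat_lit 0) (XT.nd (nat_lit 156) (nat_lit 380) (nat_lit 0) (XT.nd (nat_lit 78) (nat_lit 0) (nat_lit 0) (XT.lf (nat_lit 0) (nat_lit 15997107929) (nat_lit 532) (nat_lit 97244735510) (nat_lit 76) (nat_lit 46506583748) (nat_lit 54) (nat_lit 5) (nat_lit 61) (nat_lit 5) (nat_lit 55) (nat_lit 5) (nat_lit 351)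 (nat_lit 344) (nat_lit 205)) (XT.lf (nat_lit 0) (nat_lit 30282857149) (nat_lit 532) (nat_lit 15987298558) (nat_lit 76) (nat_lit 120470762296) (nat_lit 54) (nat_lit 5) (nat_lit 61) (nat_lit 5) (nat_lit 55) (nat_lit 5) (nat_lit 352) (nat_lit 344) (nat_lit 204))) (XT.nd (nat_lit 78) (nat_lit 0) (nat_lit 0) (XT.lf (nat_lit 0) (nat_lit 48202096375) (nat_lit 456) (nat_lit 99271603779) (nat_lit 76) (nat_lit 26619857865) (nat_lit 49) (nat_lit 5) (nat_lit 55) (nat_lit 5) (nat_lit 50) (nat_lit 5) (nat_lit 353) (nat_lit 344) (nat_lit 203)) (XT.lf (nat_lit 0) (nat_lit 69204921073) (nat_lit 456) (nat_lit 9407722045) (nat_lit 76) (nat_lit 103289762728) (nat_lit 49) (nat_lit 5) (nat_lit 55) (nat_lit 5) (nat_lit 50) (nat_lit 5) (nat_lit 354) (nat_lit 344) (nat_lit 202)))) (XT.nd (nat_lit 156) (nat_lit 228) (nat_lit 0) (XT.nd (nat_lit 78) (nat_lit 228) (nat_lit 0) (XT.lf (nat_lit 0) (nat_lit 92260255987)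 (nat_lit 228) (nat_lit 1846344947) (nat_lit 304) (nat_lit 96051870521) (nat_lit 46) (nat_lit 5) (nat_lit 49) (nat_lit 5) (nat_lit 50) (nat_lit 5) (nat_lit 355) (nat_lit 344) (nat_lit 201)) (XT.lf (nat_lit 0) (nat_lit 1669294754) (nat_lit 228) (nat_lit 121584475915) (nat_lit 304) (nat_lit 75640983475) (nat_lit 43) (nat_lit 5) (nat_lit 46) (nat_lit 5) (nat_lit 47) (nat_lit 5) (nat_lit 356) (nat_lit 344) (nat_lit 200))) (XT.nd (nat_lit 78) (nat_lit 228) (nat_lit 0) (XT.lf (nat_lit 0) (nat_lit 114719031072) (nat_lit 228) (nat_lit 42736925674) (nat_lit 304) (nat_lit 50656123533) (nat_lit 43) (nat_lit 5) (nat_lit 46) (nat_lit 5) (nat_lit 47) (nat_lit 5) (nat_lit 357) (nat_lit 344) (nat_lit 199)) (XT.nd (nat_lit 78) (nat_lit 76) (nat_lit 0) (XT.lf (nat_lit 0) (nat_lit 18658938181) (nat_lit 152) (nat_lit 177204095550) (nat_lit 228) (nat_lit 22086261722) (nat_lit 41) (nat_lit 5) (nat_lit 43) (nat_lit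 5) (nat_lit 44) (nat_lit 5) (nat_lit 358) (nat_lit 344) (nat_lit 198)) (XT.lf (nat_lit 0) (nat_lit 12060233213) (nat_lit 228) (nat_lit 84770301136) (nat_lit 76) (nat_lit 131427704592) (nat_lit 40) (nat_lit 5) (nat_lit 43) (nat_lit 5) (nat_lit 41) (nat_lit 5) (nat_lit 359) (nat_lit 344) (nat_lit 197)))))) (XT.nd (nat_lit 312) (nat_lit 532) (nat_lit 0) (XT.nd (nat_lit 156) (nat_lit 152) (nat_lit 0) (XT.nd (nat_lit 78) (nat_lit 0) (nat_lit 0) (XT.lf (nat_lit 0) (nat_lit 40356240429) (nat_lit 228) (nat_lit 8359365869) (nat_lit 304) (nat_lit 190552767034) (nat_lit 37) (nat_lit 5) (nat_lit 40) (nat_lit 5) (nat_lit 41) (nat_lit 5) (nat_lit 360) (nat_lit 344) (nat_lit 196)) (XT.lf (nat_lit 0) (nat_lit 92778118995) (nat_lit 304) (nat_lit 72817379783) (nat_lit 76) (nat_lit 85205843085) (nat_lit 37) (nat_lit 5) (nat_lit 41) (nat_lit 5) (nat_lit 38) (nat_lit 5) (nat_lit 361) (nat_lit 344) (nat_lit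 195))) (XT.nd (nat_lit 78) (nat_lit 0) (nat_lit 0) (XT.lf (nat_lit 0) (nat_lit 66472846841) (nat_lit 152) (nat_lit 75708426746) (nat_lit 228) (nat_lit 120930423179) (nat_lit 35) (nat_lit 5) (nat_lit 37) (nat_lit 5) (nat_lit 38) (nat_lit 5) (nat_lit 362) (nat_lit 344) (nat_lit 194)) (XT.lf (nat_lit 0) (nat_lit 198093135560) (nat_lit 228) (nat_lit 55766002458) (nat_lit 76) (nat_lit 22343225786) (nat_lit 35) (nat_lit 5) (nat_lit 38) (nat_lit 5) (nat_lit 36) (nat_lit 5) (nat_lit 363) (nat_lit 344) (nat_lit 193)))) (XT.nd (nat_lit 156) (nat_lit 304) (nat_lit 0) (XT.nd (nat_lit 78) (nat_lit 76) (nat_lit 0) (XT.lf (nat_lit 0) (nat_lit 99381474192) (nat_lit 152) (nat_lit 163452909193) (nat_lit 228) (nat_lit 27157386004) (nat_lit 33) (nat_lit 5) (nat_lit 35) (nat_lit 5) (nat_lit 36) (nat_lit 5) (nat_lit 364) (nat_lit 344) (nat_lit 192)) (XT.lf (nat_lit 0) (nat_lit 28040607524) (nat_lit 228) (nat_lit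 35360241543) (nat_lit 76) (nat_lit 241304719026) (nat_lit 32) (nat_lit 5) (nat_lit 35) (nat_lit 5) (nat_lit 33) (nat_lit 5) (nat_lit 365) (nat_lit 344) (nat_lit 191))) (XT.nd (nat_lit 78) (nat_lit 152) (nat_lit 0) (XT.lf (nat_lit 0) (nat_lit 90697680880) (nat_lit 228) (nat_lit 182918052949) (nat_lit 76) (nat_lit 46563470473) (nat_lit 30) (nat_lit 5) (nat_lit 33) (nat_lit 5) (nat_lit 31) (nat_lit 5) (nat_lit 366) (nat_lit 344) (nat_lit 190)) (XT.nd (nat_lit 78) (nat_lit 152) (nat_lit 0) (XT.lf (nat_lit 0) (nat_lit 161005892307) (nat_lit 228) (nat_lit 12782249680) (nat_lit 76) (nat_lit 162891503744) (nat_lit 30) (nat_lit 5) (nat_lit 33) (nat_lit 5) (nat_lit 31) (nat_lit 5) (nat_lit 367) (nat_lit 344) (nat_lit 189)) (XT.lf (nat_lit 0) (nat_lit 179966906317) (nat_lit 152) (nat_lit 61299945389) (nat_lit 228) (nat_lit 112887023574) (nat_lit 28) (nat_lit 5) (nat_lit 30) (nat_lit 5) (nat_lit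 31) (nat_lit 5) (nat_lit 368) (nat_lit 344) (nat_lit 188))))))))
noncomputable def xc209 : XT := (XT.nd (nat_lit 1404) (nat_lit 532) (nat_lit 0) (XT.nd (nat_lit 702) (nat_lit 456) (nat_lit 0) (XT.nd (nat_lit 312) (nat_lit 380) (nat_lit 0) (XT.nd (nat_lit 156) (nat_lit 152) (nat_lit 0) (XT.nd (nat_lit 78) (nat_lit 76) (nat_lit 0) (XT.lf (nat_lit 0) (nat_lit 15166780705) (nat_lit 76) (nat_lit 314952627145) (nat_lit 152) (nat_lit 42732977830) (nat_lit 27) (nat_lit 5) (nat_lit 28) (nat_lit 5) (nat_lit 29) (nat_lit 4) (nat_lit 369) (nat_lit 344) (nat_lit 187)) (XT.lf (nat_lit 0) (nat_lit 37859304229) (nat_lit 152) (nat_lit 165601325658) (nat_lit 76) (nat_lit 189004320653) (nat_lit 26) (nat_lit 5) (nat_lit 28) (nat_lit 5) (nat_lit 27) (nat_lit 5) (nat_lit 370) (nat_lit 344) (nat_lit 186))) (XT.nd (nat_lit 78) (nat_lit 0) (nat_lit 0) (XT.lf (nat_lit 0) (nat_lit 42884847105) (nat_lit 152) (nat_lit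 80736707519) (nat_lit 228) (nat_lit 289853668114) (nat_lit 24) (nat_lit 5) (nat_lit 26) (nat_lit 5) (nat_lit 27) (nat_lit 5) (nat_lit 371) (nat_lit 344) (nat_lit 185)) (XT.lf (nat_lit 0) (nat_lit 222136036353) (nat_lit 228) (nat_lit 159699980092) (nat_lit 76) (nat_lit 53859000226) (nat_lit 24) (nat_lit 5) (nat_lit 27) (nat_lit 5) (nat_lit 25) (nat_lit 4) (nat_lit 372) (nat_lit 344) (nat_lit 184)))) (XT.nd (nat_lit 156) (nat_lit 304) (nat_lit 0) (XT.nd (nat_lit 78) (nat_lit 0) (nat_lit 0) (XT.lf (nat_lit 0) (nat_lit 69437995406) (nat_lit 76) (nat_lit 262860628574) (nat_lit 152) (nat_lit 127092414406) (nat_lit 23) (nat_lit 5) (nat_lit 24) (nat_lit 5) (nat_lit 25) (nat_lit 4) (nat_lit 373) (nat_lit 344) (nat_lit 183)) (XT.lf (nat_lit 0) (nat_lit 325989128368) (nat_lit 76) (nat_lit 129651478502) (nat_lit 152) (nat_lit 28992823962) (nat_lit 23) (nat_lit 5) (nat_lit 24) (nat_lit 5) (nat_lit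 25) (nat_lit 4) (nat_lit 374) (nat_lit 344) (nat_lit 182))) (XT.nd (nat_lit 78) (nat_lit 76) (nat_lit 0) (XT.lf (nat_lit 0) (nat_lit 75814939372) (nat_lit 228) (nat_lit 417993362392) (nat_lit 76) (nat_lit 17722068452) (nat_lit 20) (nat_lit 5) (nat_lit 23) (nat_lit 5) (nat_lit 21) (nat_lit 4) (nat_lit 375) (nat_lit 344) (nat_lit 181)) (XT.nd (nat_lit 78) (nat_lit 76) (nat_lit 0) (XT.lf (nat_lit 0) (nat_lit 195258724541) (nat_lit 228) (nat_lit 169550441220) (nat_lit 76) (nat_lit 175084232898) (nat_lit 20) (nat_lit 5) (nat_lit 23) (nat_lit 5) (nat_lit 21) (nat_lit 4) (nat_lit 376) (nat_lit 344) (nat_lit 180)) (XT.lf (nat_lit 0) (nat_lit 103968706675) (nat_lit 76) (nat_lit 222789675854) (nat_lit 152) (nat_lit 243567057286) (nat_lit 19) (nat_lit 5) (nat_lit 20) (nat_lit 5) (nat_lit 21) (nat_lit 4) (nat_lit 377) (nat_lit 344) (nat_lit 179)))))) (XT.nd (nat_lit 312) (nat_lit 228) (nat_lit 0)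 (XT.nd (nat_lit 156) (nat_lit 152) (nat_lit 0) (XT.nd (nat_lit 78) (nat_lit 76) (nat_lit 0) (XT.lf (nat_lit 0) (nat_lit 409011731089) (nat_lit 76) (nat_lit 64402014282) (nat_lit 152) (nat_lit 129407440353) (nat_lit 19) (nat_lit 5) (nat_lit 20) (nat_lit 5) (nat_lit 21) (nat_lit 4) (nat_lit 378) (nat_lit 344) (nat_lit 178)) (XT.lf (nat_lit 0) (nat_lit 103135640108) (nat_lit 76) (nat_lit 533711334033) (nat_lit 76) (nat_lit 665982246) (nat_lit 18) (nat_lit 4) (nat_lit 19) (nat_lit 5) (nat_lit 19) (nat_lit 4) (nat_lit 379) (nat_lit 344) (nat_lit 177))) (XT.nd (nat_lit 78) (nat_lit 76) (nat_lit 0) (XT.lf (nat_lit 0) (nat_lit 138562164760) (nat_lit 152) (nat_lit 244836152519) (nat_lit 76) (nat_lit 290746762903) (nat_lit 17) (nat_lit 5) (nat_lit 19) (nat_lit 5) (nat_lit 18) (nat_lit 4) (nat_lit 380) (nat_lit 344) (nat_lit 176)) (XT.lf (nat_lit 0) (nat_lit 71423789530) (nat_lit 76) (nat_lit 219186470336)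 (nat_lit 152) (nat_lit 422958716047) (nat_lit 16) (nat_lit 5) (nat_lit 17) (nat_lit 5) (nat_lit 18) (nat_lit 4) (nat_lit 381) (nat_lit 344) (nat_lit 175)))) (XT.nd (nat_lit 156) (nat_lit 152) (nat_lit 0) (XT.nd (nat_lit 78) (nat_lit 76) (nat_lit 0) (XT.lf (nat_lit 0) (nat_lit 426908455225) (nat_lit 76) (nat_lit 34607936552) (nat_lit 152) (nat_lit 294094856416) (nat_lit 16) (nat_lit 5) (nat_lit 17) (nat_lit 5) (nat_lit 18) (nat_lit 4) (nat_lit 382) (nat_lit 344) (nat_lit 174)) (XT.lf (nat_lit 0) (nat_lit 6161156675) (nat_lit 76) (nat_lit 644043897937) (nat_lit 76) (nat_lit 150483044436) (nat_lit 15) (nat_lit 4) (nat_lit 16) (nat_lit 5) (nat_lit 16) (nat_lit 4) (nat_lit 383) (nat_lit 344) (nat_lit 173))) (XT.nd (nat_lit 78) (nat_lit 76) (nat_lit 0) (XT.lf (nat_lit 0) (nat_lit 14506315703) (nat_lit 152) (nat_lit 463387787233) (nat_lit 76) (nat_lit 370658542577) (nat_lit 14) (nat_lit 5) (nat_lit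 16) (nat_lit 5) (nat_lit 15) (nat_lit 4) (nat_lit 384) (nat_lit 344) (nat_lit 172)) (XT.nd (nat_lit 78) (nat_lit 76) (nat_lit 0) (XT.lf (nat_lit 0) (nat_lit 184564774906) (nat_lit 152) (nat_lit 109666257272) (nat_lit 76) (nat_lit 605702636031) (nat_lit 14) (nat_lit 5) (nat_lit 16) (nat_lit 5) (nat_lit 15) (nat_lit 4) (nat_lit 385) (nat_lit 344) (nat_lit 171)) (XT.lf (nat_lit 0) (nat_lit 286694516781) (nat_lit 76) (nat_lit 88428351590) (nat_lit 152) (nat_lit 579750707765) (nat_lit 13) (nat_lit 5) (nat_lit 14) (nat_lit 5) (nat_lit 15) (nat_lit 4) (nat_lit 386) (nat_lit 344) (nat_lit 170))))))) (XT.nd (nat_lit 702) (nat_lit 228) (nat_lit 0) (XT.nd (nat_lit 312) (nat_lit 152) (nat_lit 0) (XT.nd (nat_lit 156) (nat_lit 76) (nat_lit 0) (XT.nd (nat_lit 78) (nat_lit 76) (nat_lit 0) (XT.lf (nat_lit 0) (nat_lit 587220729621) (nat_lit 152) (nat_lit 296264631284) (nat_lit 0) (nat_lit 130219706182)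 (nat_lit 13) (nat_lit 5) (nat_lit 15) (nat_lit 4) (nat_lit 13) (nat_lit 4) (nat_lit 387) (nat_lit 344) (nat_lit 169)) (XT.lf (nat_lit 0) (nat_lit 108535398689) (nat_lit 76) (nat_lit 712658092151) (nat_lit 76) (nat_lit 255657020803) (nat_lit 12) (nat_lit 4) (nat_lit 13) (nat_lit 5) (nat_lit 13) (nat_lit 4) (nat_lit 388) (nat_lit 344) (nat_lit 168))) (XT.nd (nat_lit 78) (nat_lit 76) (nat_lit 0) (XT.lf (nat_lit 0) (nat_lit 562568173237) (nat_lit 76) (nat_lit 519416252994) (nat_lit 76) (nat_lit 62415137284) (nat_lit 12) (nat_lit 4) (nat_lit 13) (nat_lit 5) (nat_lit 13) (nat_lit 4) (nat_lit 389) (nat_lit 344) (nat_lit 167)) (XT.lf (nat_lit 0) (nat_lit 138968229440) (nat_lit 152) (nat_lit 167947239548) (nat_lit 76) (nat_lit 910155619386) (nat_lit 11) (nat_lit 5) (nat_lit 13) (nat_lit 5) (nat_lit 12) (nat_lit 4) (nat_lit 390) (nat_lit 344) (nat_lit 166)))) (XT.nd (nat_lit 156) (nat_lit 76) (nat_lit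 0) (XT.nd (nat_lit 78) (nat_lit 0) (nat_lit 0) (XT.lf (nat_lit 0) (nat_lit 292035173714) (nat_lit 76) (nat_lit 68078465003) (nat_lit 152) (nat_lit 934751129779) (nat_lit 10) (nat_lit 5) (nat_lit 11) (nat_lit 5) (nat_lit 12) (nat_lit 4) (nat_lit 391) (nat_lit 344) (nat_lit 165)) (XT.lf (nat_lit 0) (nat_lit 608228156940) (nat_lit 152) (nat_lit 584832718127) (nat_lit 0) (nat_lit 185078869872) (nat_lit 10) (nat_lit 5) (nat_lit 12) (nat_lit 4) (nat_lit 10) (nat_lit 4) (nat_lit 392) (nat_lit 344) (nat_lit 164))) (XT.nd (nat_lit 78) (nat_lit 76) (nat_lit 0) (XT.lf (nat_lit 0) (nat_lit 877960070607) (nat_lit 152) (nat_lit 135164436835) (nat_lit 0) (nat_lit 454810753348) (nat_lit 10) (nat_lit 5) (nat_lit 12) (nat_lit 4) (nat_lit 10) (nat_lit 4) (nat_lit 393) (nat_lit 344) (nat_lit 163)) (XT.nd (nat_lit 78) (nat_lit 0) (nat_lit 0) (XT.lf (nat_lit 0) (nat_lit 368932749032) (nat_lit 76) (nat_lit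 809210594791) (nat_lit 76) (nat_lit 386061249577) (nat_lit 9) (nat_lit 4) (nat_lit 10) (nat_lit 5) (nat_lit 10) (nat_lit 4) (nat_lit 394) (nat_lit 344) (nat_lit 162)) (XT.lf (nat_lit 0) (nat_lit 921044564567) (nat_lit 76) (nat_lit 584992315531) (nat_lit 76) (nat_lit 161842944433) (nat_lit 9) (nat_lit 4) (nat_lit 10) (nat_lit 5) (nat_lit 10) (nat_lit 4) (nat_lit 395) (nat_lit 344) (nat_lit 161)))))) (XT.nd (nat_lit 312) (nat_lit 76) (nat_lit 0) (XT.nd (nat_lit 156) (nat_lit 0) (nat_lit 0) (XT.nd (nat_lit 78) (nat_lit 76) (nat_lit 0) (XT.lf (nat_lit 0) (nat_lit 76295220001) (nat_lit 152) (nat_lit 264455337461) (nat_lit 76) (nat_lit 1438943997254) (nat_lit 8) (nat_lit 5) (nat_lit 10) (nat_lit 5) (nat_lit 9) (nat_lit 4) (nat_lit 396) (nat_lit 344) (nat_lit 160)) (XT.lf (nat_lit 0) (nat_lit 265597468459) (nat_lit 76) (nat_lit 65530841981) (nat_lit 152) (nat_lit 1568478848211) (nat_lit 7) (nat_lit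 5) (nat_lit 8) (nat_lit 5) (nat_lit 9) (nat_lit 4) (nat_lit 397) (nat_lit 344) (nat_lit 159))) (XT.nd (nat_lit 78) (nat_lit 0) (nat_lit 0) (XT.lf (nat_lit 0) (nat_lit 619339051442) (nat_lit 152) (nat_lit 1181200422758) (nat_lit 0) (nat_lit 227534016438) (nat_lit 7) (nat_lit 5) (nat_lit 9) (nat_lit 4) (nat_lit 7) (nat_lit 4) (nat_lit 398) (nat_lit 344) (nat_lit 158)) (XT.lf (nat_lit 0) (nat_lit 932308723950) (nat_lit 152) (nat_lit 693868568134) (nat_lit 0) (nat_lit 540503671329) (nat_lit 7) (nat_lit 5) (nat_lit 9) (nat_lit 4) (nat_lit 7) (nat_lit 4) (nat_lit 399) (nat_lit 344) (nat_lit 157)))) (XT.nd (nat_lit 156) (nat_lit 0) (nat_lit 0) (XT.nd (nat_lit 78) (nat_lit 76) (nat_lit 0) (XT.lf (nat_lit 0) (nat_lit 1270315944733) (nat_lit 152) (nat_lit 167550215522) (nat_lit 0) (nat_lit 878510875801) (nat_lit 7) (nat_lit 5) (nat_lit 9) (nat_lit 4) (nat_lit 7) (nat_lit 4) (nat_lit 400) (nat_lit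 344) (nat_lit 156)) (XT.lf (nat_lit 0) (nat_lit 421982849836) (nat_lit 76) (nat_lit 1223529567395) (nat_lit 76) (nat_lit 831724483360) (nat_lit 6) (nat_lit 4) (nat_lit 7) (nat_lit 5) (nat_lit 7) (nat_lit 4) (nat_lit 401) (nat_lit 344) (nat_lit 155))) (XT.nd (nat_lit 78) (nat_lit 0) (nat_lit 0) (XT.lf (nat_lit 0) (nat_lit 1068207244173) (nat_lit 76) (nat_lit 987098460196) (nat_lit 76) (nat_lit 595293362176) (nat_lit 6) (nat_lit 4) (nat_lit 7) (nat_lit 5) (nat_lit 7) (nat_lit 4) (nat_lit 402) (nat_lit 344) (nat_lit 154)) (XT.nd (nat_lit 78) (nat_lit 0) (nat_lit 0) (XT.lf (nat_lit 0) (nat_lit 1766129547956) (nat_lit 76) (nat_lit 731752885248) (nat_lit 76) (nat_lit 339947774280) (nat_lit 6) (nat_lit 4) (nat_lit 7) (nat_lit 5) (nat_lit 7) (nat_lit 4) (nat_lit 403) (nat_lit 344) (nat_lit 153)) (XT.lf (nat_lit 0) (nat_lit 2519885597058) (nat_lit 76) (nat_lit 455979683588) (nat_lit 76) (nat_lit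 64174560630) (nat_lit 6) (nat_lit 4) (nat_lit 7) (nat_lit 5) (nat_lit 7) (nat_lit 4) (nat_lit 404) (nat_lit 344) (nat_lit 152))))))))
noncomputable def xc210 : XT := (XT.nd (nat_lit 43134) (nat_lit 0) (nat_lit 1444) (XT.nd (nat_lit 42432) (nat_lit 0) (nat_lit 3192) (XT.nd (nat_lit 312) (nat_lit 0) (nat_lit 0) (XT.nd (nat_lit 156) (nat_lit 0) (nat_lit 0) (XT.nd (nat_lit 78) (nat_lit 0) (nat_lit 0) (XT.lf (nat_lit 0) (nat_lit 73576921970) (nat_lit 76) (nat_lit 150164451120) (nat_lit 152) (nat_lit 3034093748770) (nat_lit 4) (nat_lit 5) (nat_lit 5) (nat_lit 5) (nat_lit 6) (nat_lit 4) (nat_lit 405) (nat_lit 344) (nat_lit 151)) (XT.lf (nat_lit 0) (nat_lit 550146603701) (nat_lit 152) (nat_lit 2753896159584) (nat_lit 0) (nat_lit 187364062647) (nat_lit 4) (nat_lit 5) (nat_lit 6) (nat_lit 4) (nat_lit 4) (nat_lit 4) (nat_lit 406) (nat_lit 344) (nat_lit 150))) (XT.nd (nat_lit 78) (nat_lit 0) (nat_lit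 0) (XT.lf (nat_lit 0) (nat_lit 906564610863) (nat_lit 152) (nat_lit 2293005565825) (nat_lit 0) (nat_lit 543782060996) (nat_lit 4) (nat_lit 5) (nat_lit 6) (nat_lit 4) (nat_lit 4) (nat_lit 4) (nat_lit 407) (nat_lit 344) (nat_lit 149)) (XT.lf (nat_lit 0) (nat_lit 1291496042624) (nat_lit 152) (nat_lit 1795243756434) (nat_lit 0) (nat_lit 928713484598) (nat_lit 4) (nat_lit 5) (nat_lit 6) (nat_lit 4) (nat_lit 4) (nat_lit 4) (nat_lit 408) (nat_lit 344) (nat_lit 148)))) (XT.nd (nat_lit 41886) (nat_lit 0) (nat_lit 4104) (XT.nd (nat_lit 78) (nat_lit 0) (nat_lit 0) (XT.lf (nat_lit 0) (nat_lit 1707221974136) (nat_lit 152) (nat_lit 1257661031801) (nat_lit 0) (nat_lit 1344439408555) (nat_lit 4) (nat_lit 5) (nat_lit 6) (nat_lit 4) (nat_lit 4) (nat_lit 4) (nat_lit 409) (nat_lit 344) (nat_lit 147)) (XT.lf (nat_lit 0) (nat_lit 2156205966475) (nat_lit 152) (nat_lit 677071716520) (nat_lit 0) (nat_lit 1793423393897)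 (nat_lit 4) (nat_lit 5) (nat_lit 6) (nat_lit 4) (nat_lit 4) (nat_lit 4) (nat_lit 410) (nat_lit 344) (nat_lit 146))) (XT.nd (nat_lit 78) (nat_lit 0) (nat_lit 0) (XT.lf (nat_lit 0) (nat_lit 52761303983) (nat_lit 532) (nat_lit 6113810987) (nat_lit 532) (nat_lit 6113810987) (nat_lit 58) (nat_lit 3) (nat_lit 65) (nat_lit 3) (nat_lit 65) (nat_lit 5) (nat_lit 345) (nat_lit 345) (nat_lit 210)) (XT.nd (nat_lit 78) (nat_lit 0) (nat_lit 76) (XT.lf (nat_lit 76) (nat_lit 52539941644) (nat_lit 0) (nat_lit 58470758845) (nat_lit 532) (nat_lit 24064885047) (nat_lit 59) (nat_lit 5) (nat_lit 58) (nat_lit 3) (nat_lit 65) (nat_lit 5) (nat_lit 346) (nat_lit 345) (nat_lit 209)) (XT.lf (nat_lit 0) (nat_lit 117413991007) (nat_lit 456) (nat_lit 17512511645) (nat_lit 532) (nat_lit 5616543688) (nat_lit 59) (nat_lit 5) (nat_lit 65) (nat_lit 5) (nat_lit 66) (nat_lit 5) (nat_lit 347) (nat_lit 345) (nat_lit 208))))))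 (XT.nd (nat_lit 312) (nat_lit 532) (nat_lit 0) (XT.nd (nat_lit 156) (nat_lit 456) (nat_lit 0) (XT.nd (nat_lit 78) (nat_lit 0) (nat_lit 0) (XT.lf (nat_lit 76) (nat_lit 53889289671) (nat_lit 0) (nat_lit 73254680197) (nat_lit 532) (nat_lit 19078780631) (nat_lit 60) (nat_lit 5) (nat_lit 59) (nat_lit 5) (nat_lit 66) (nat_lit 5) (nat_lit 348) (nat_lit 345) (nat_lit 207)) (XT.lf (nat_lit 76) (nat_lit 131998971719) (nat_lit 0) (nat_lit 6131883409) (nat_lit 532) (nat_lit 14187695679) (nat_lit 60) (nat_lit 5) (nat_lit 59) (nat_lit 5) (nat_lit 66) (nat_lit 5) (nat_lit 349) (nat_lit 345) (nat_lit 206))) (XT.nd (nat_lit 78) (nat_lit 532) (nat_lit 0) (XT.lf (nat_lit 76) (nat_lit 58800657442) (nat_lit 0) (nat_lit 94205878855) (nat_lit 532) (nat_lit 5654691665) (nat_lit 61) (nat_lit 5) (nat_lit 60) (nat_lit 5) (nat_lit 67) (nat_lit 5) (nat_lit 350) (nat_lit 345) (nat_lit 205)) (XT.lf (nat_lit 0) (nat_lit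 4111812089) (nat_lit 532) (nat_lit 20320344131) (nat_lit 608) (nat_lit 141013992741) (nat_lit 53) (nat_lit 5) (nat_lit 60) (nat_lit 5) (nat_lit 61) (nat_lit 5) (nat_lit 351) (nat_lit 345) (nat_lit 204)))) (XT.nd (nat_lit 156) (nat_lit 608) (nat_lit 0) (XT.nd (nat_lit 78) (nat_lit 0) (nat_lit 0) (XT.lf (nat_lit 0) (nat_lit 17282039002) (nat_lit 532) (nat_lit 105019409452) (nat_lit 76) (nat_lit 50226433272) (nat_lit 54) (nat_lit 5) (nat_lit 61) (nat_lit 5) (nat_lit 55) (nat_lit 5) (nat_lit 352) (nat_lit 345) (nat_lit 203)) (XT.lf (nat_lit 0) (nat_lit 32710265756) (nat_lit 532) (nat_lit 17261740870) (nat_lit 76) (nat_lit 130107796264) (nat_lit 54) (nat_lit 5) (nat_lit 61) (nat_lit 5) (nat_lit 55) (nat_lit 5) (nat_lit 353) (nat_lit 345) (nat_lit 202))) (XT.nd (nat_lit 78) (nat_lit 228) (nat_lit 0) (XT.lf (nat_lit 0) (nat_lit 52062793959) (nat_lit 456) (nat_lit 107208534652) (nat_lit 76) (nat_lit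 28749345966) (nat_lit 49) (nat_lit 5) (nat_lit 55) (nat_lit 5) (nat_lit 50) (nat_lit 5) (nat_lit 354) (nat_lit 345) (nat_lit 201)) (XT.nd (nat_lit 78) (nat_lit 228) (nat_lit 0) (XT.lf (nat_lit 0) (nat_lit 74745509086) (nat_lit 456) (nat_lit 10155897745) (nat_lit 76) (nat_lit 111552850665) (nat_lit 49) (nat_lit 5) (nat_lit 55) (nat_lit 5) (nat_lit 50) (nat_lit 5) (nat_lit 355) (nat_lit 345) (nat_lit 200)) (XT.lf (nat_lit 0) (nat_lit 99645406073) (nat_lit 228) (nat_lit 1993710699) (nat_lit 304) (nat_lit 103731708496) (nat_lit 46) (nat_lit 5) (nat_lit 49) (nat_lit 5) (nat_lit 50) (nat_lit 5) (nat_lit 356) (nat_lit 345) (nat_lit 199))))))) (XT.nd (nat_lit 702) (nat_lit 760) (nat_lit 0) (XT.nd (nat_lit 312) (nat_lit 532) (nat_lit 0) (XT.nd (nat_lit 156) (nat_lit 228) (nat_lit 0) (XT.nd (nat_lit 78) (nat_lit 0) (nat_lit 0) (XT.lf (nat_lit 0) (nat_lit 1807366021) (nat_lit 228) (nat_lit 131310515179)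 (nat_lit 304) (nat_lit 81688144046) (nat_lit 43) (nat_lit 5) (nat_lit 46) (nat_lit 5) (nat_lit 47) (nat_lit 5) (nat_lit 357) (nat_lit 345) (nat_lit 198)) (XT.lf (nat_lit 0) (nat_lit 123900745859) (nat_lit 228) (nat_lit 46155214164) (nat_lit 304) (nat_lit 54704800353) (nat_lit 43) (nat_lit 5) (nat_lit 46) (nat_lit 5) (nat_lit 47) (nat_lit 5) (nat_lit 358) (nat_lit 345) (nat_lit 197))) (XT.nd (nat_lit 78) (nat_lit 76) (nat_lit 0) (XT.lf (nat_lit 0) (nat_lit 20156002877) (nat_lit 152) (nat_lit 191379458480) (nat_lit 228) (nat_lit 23849503062) (nat_lit 41) (nat_lit 5) (nat_lit 43) (nat_lit 5) (nat_lit 44) (nat_lit 5) (nat_lit 359) (nat_lit 345) (nat_lit 196)) (XT.lf (nat_lit 0) (nat_lit 13028270879) (nat_lit 228) (nat_lit 91547724950) (nat_lit 76) (nat_lit 141942641383) (nat_lit 40) (nat_lit 5) (nat_lit 43) (nat_lit 5) (nat_lit 41) (nat_lit 5) (nat_lit 360) (nat_lit 345) (nat_lit 195))))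 (XT.nd (nat_lit 156) (nat_lit 304) (nat_lit 0) (XT.nd (nat_lit 78) (nat_lit 0) (nat_lit 0) (XT.lf (nat_lit 0) (nat_lit 43588833603) (nat_lit 228) (nat_lit 9027100222) (nat_lit 304) (nat_lit 205793659975) (nat_lit 37) (nat_lit 5) (nat_lit 40) (nat_lit 5) (nat_lit 41) (nat_lit 5) (nat_lit 361) (nat_lit 345) (nat_lit 194)) (XT.lf (nat_lit 0) (nat_lit 100203242063) (nat_lit 304) (nat_lit 78638771157) (nat_lit 76) (nat_lit 92023203261) (nat_lit 37) (nat_lit 5) (nat_lit 41) (nat_lit 5) (nat_lit 38) (nat_lit 5) (nat_lit 362) (nat_lit 345) (nat_lit 193))) (XT.nd (nat_lit 78) (nat_lit 152) (nat_lit 0) (XT.lf (nat_lit 0) (nat_lit 71794572356) (nat_lit 152) (nat_lit 81763957551) (nat_lit 228) (nat_lit 130601879607) (nat_lit 35) (nat_lit 5) (nat_lit 37) (nat_lit 5) (nat_lit 38) (nat_lit 5) (nat_lit 363) (nat_lit 345) (nat_lit 192)) (XT.nd (nat_lit 78) (nat_lit 152) (nat_lit 0) (XT.lf (nat_lit 0)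 (nat_lit 213943162268) (nat_lit 228) (nat_lit 60223492596) (nat_lit 76) (nat_lit 24131689534) (nat_lit 35) (nat_lit 5) (nat_lit 38) (nat_lit 5) (nat_lit 36) (nat_lit 5) (nat_lit 364) (nat_lit 345) (nat_lit 191)) (XT.lf (nat_lit 0) (nat_lit 107335686236) (nat_lit 152) (nat_lit 176527921722) (nat_lit 228) (nat_lit 29327302810) (nat_lit 33) (nat_lit 5) (nat_lit 35) (nat_lit 5) (nat_lit 36) (nat_lit 5) (nat_lit 365) (nat_lit 345) (nat_lit 190)))))) (XT.nd (nat_lit 312) (nat_lit 380) (nat_lit 0) (XT.nd (nat_lit 156) (nat_lit 152) (nat_lit 0) (XT.nd (nat_lit 78) (nat_lit 152) (nat_lit 0) (XT.lf (nat_lit 0) (nat_lit 30286208262) (nat_lit 228) (nat_lit 38185514598) (nat_lit 76) (nat_lit 260610100571) (nat_lit 32) (nat_lit 5) (nat_lit 35) (nat_lit 5) (nat_lit 33) (nat_lit 5) (nat_lit 366) (nat_lit 345) (nat_lit 189)) (XT.lf (nat_lit 0) (nat_lit 97955785133) (nat_lit 228) (nat_lit 197547886769)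 (nat_lit 76) (nat_lit 50289683766) (nat_lit 30) (nat_lit 5) (nat_lit 33) (nat_lit 5) (nat_lit 31) (nat_lit 5) (nat_lit 367) (nat_lit 345) (nat_lit 188))) (XT.nd (nat_lit 78) (nat_lit 152) (nat_lit 0) (XT.lf (nat_lit 0) (nat_lit 173888483861) (nat_lit 228) (nat_lit 13801486676) (nat_lit 76) (nat_lit 175923875576) (nat_lit 30) (nat_lit 5) (nat_lit 33) (nat_lit 5) (nat_lit 31) (nat_lit 5) (nat_lit 368) (nat_lit 345) (nat_lit 187)) (XT.lf (nat_lit 0) (nat_lit 194367517168) (nat_lit 152) (nat_lit 66202724158) (nat_lit 228) (nat_lit 121915779120) (nat_lit 28) (nat_lit 5) (nat_lit 30) (nat_lit 5) (nat_lit 31) (nat_lit 5) (nat_lit 369) (nat_lit 345) (nat_lit 186)))) (XT.nd (nat_lit 156) (nat_lit 228) (nat_lit 0) (XT.nd (nat_lit 78) (nat_lit 76) (nat_lit 0) (XT.lf (nat_lit 0) (nat_lit 16383431176) (nat_lit 76) (nat_lit 340147526220) (nat_lit 152) (nat_lit 46149457960) (nat_lit 27) (nat_lit 5)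 (nat_lit 28) (nat_lit 5) (nat_lit 29) (nat_lit 4) (nat_lit 370) (nat_lit 345) (nat_lit 185)) (XT.lf (nat_lit 0) (nat_lit 40889946845) (nat_lit 152) (nat_lit 178846267552) (nat_lit 76) (nat_lit 204125779103) (nat_lit 26) (nat_lit 5) (nat_lit 28) (nat_lit 5) (nat_lit 27) (nat_lit 5) (nat_lit 371) (nat_lit 345) (nat_lit 184))) (XT.nd (nat_lit 78) (nat_lit 76) (nat_lit 0) (XT.lf (nat_lit 0) (nat_lit 46318718927) (nat_lit 152) (nat_lit 87194391902) (nat_lit 228) (nat_lit 313039982050) (nat_lit 24) (nat_lit 5) (nat_lit 26) (nat_lit 5) (nat_lit 27) (nat_lit 5) (nat_lit 372) (nat_lit 345) (nat_lit 183)) (XT.nd (nat_lit 78) (nat_lit 76) (nat_lit 0) (XT.lf (nat_lit 0) (nat_lit 239908643290) (nat_lit 228) (nat_lit 172473014040) (nat_lit 76) (nat_lit 58168821704) (nat_lit 24) (nat_lit 5) (nat_lit 27) (nat_lit 5) (nat_lit 25) (nat_lit 4) (nat_lit 373) (nat_lit 345) (nat_lit 182)) (XT.lf (nat_lit 0)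 (nat_lit 74995924447) (nat_lit 76) (nat_lit 283888255264) (nat_lit 152) (nat_lit 137258007510) (nat_lit 23) (nat_lit 5) (nat_lit 24) (nat_lit 5) (nat_lit 25) (nat_lit 4) (nat_lit 374) (nat_lit 345) (nat_lit 181))))))))
noncomputable def xc211 : XT := (XT.nd (nat_lit 1404) (nat_lit 456) (nat_lit 0) (XT.nd (nat_lit 702) (nat_lit 456) (nat_lit 0) (XT.nd (nat_lit 312) (nat_lit 228) (nat_lit 0) (XT.nd (nat_lit 156) (nat_lit 76) (nat_lit 0) (XT.nd (nat_lit 78) (nat_lit 228) (nat_lit 0) (XT.lf (nat_lit 0) (nat_lit 352070934016) (nat_lit 76) (nat_lit 140022463823) (nat_lit 152) (nat_lit 31310583168) (nat_lit 23) (nat_lit 5) (nat_lit 24) (nat_lit 5) (nat_lit 25) (nat_lit 4) (nat_lit 375) (nat_lit 345) (nat_lit 180)) (XT.lf (nat_lit 0) (nat_lit 81881693135) (nat_lit 228) (nat_lit 451430046305) (nat_lit 76) (nat_lit 19140934934) (nat_lit 20) (nat_lit 5) (nat_lit 23) (nat_lit 5) (nat_lit 21) (nat_lit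 4) (nat_lit 376) (nat_lit 345) (nat_lit 179))) (XT.nd (nat_lit 78) (nat_lit 76) (nat_lit 0) (XT.lf (nat_lit 0) (nat_lit 210880865665) (nat_lit 228) (nat_lit 183111897741) (nat_lit 76) (nat_lit 189091990980) (nat_lit 20) (nat_lit 5) (nat_lit 23) (nat_lit 5) (nat_lit 21) (nat_lit 4) (nat_lit 377) (nat_lit 345) (nat_lit 178)) (XT.lf (nat_lit 0) (nat_lit 112288716700) (nat_lit 76) (nat_lit 240611733141) (nat_lit 152) (nat_lit 263050912763) (nat_lit 19) (nat_lit 5) (nat_lit 20) (nat_lit 5) (nat_lit 21) (nat_lit 4) (nat_lit 378) (nat_lit 345) (nat_lit 177)))) (XT.nd (nat_lit 156) (nat_lit 152) (nat_lit 0) (XT.nd (nat_lit 78) (nat_lit 76) (nat_lit 0) (XT.lf (nat_lit 0) (nat_lit 441734996883) (nat_lit 76) (nat_lit 69553141368) (nat_lit 152) (nat_lit 139758638260) (nat_lit 19) (nat_lit 5) (nat_lit 20) (nat_lit 5) (nat_lit 21) (nat_lit 4) (nat_lit 379) (nat_lit 345) (nat_lit 176)) (XT.lf (nat_lit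 0) (nat_lit 111388836901) (nat_lit 76) (nat_lit 576407172063) (nat_lit 76) (nat_lit 717881217) (nat_lit 18) (nat_lit 4) (nat_lit 19) (nat_lit 5) (nat_lit 19) (nat_lit 4) (nat_lit 380) (nat_lit 345) (nat_lit 175))) (XT.nd (nat_lit 78) (nat_lit 76) (nat_lit 0) (XT.lf (nat_lit 0) (nat_lit 149648351455) (nat_lit 152) (nat_lit 264420808497) (nat_lit 76) (nat_lit 314007429079) (nat_lit 17) (nat_lit 5) (nat_lit 19) (nat_lit 5) (nat_lit 18) (nat_lit 4) (nat_lit 381) (nat_lit 345) (nat_lit 174)) (XT.nd (nat_lit 78) (nat_lit 0) (nat_lit 0) (XT.lf (nat_lit 0) (nat_lit 77139872304) (nat_lit 76) (nat_lit 236720384396) (nat_lit 152) (nat_lit 456794142754) (nat_lit 16) (nat_lit 5) (nat_lit 17) (nat_lit 5) (nat_lit 18) (nat_lit 4) (nat_lit 382) (nat_lit 345) (nat_lit 173)) (XT.lf (nat_lit 0) (nat_lit 461063149801) (nat_lit 76) (nat_lit 37375642247) (nat_lit 152) (nat_lit 317621268470) (nat_lit 16) (nat_lit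 5) (nat_lit 17) (nat_lit 5) (nat_lit 18) (nat_lit 4) (nat_lit 383) (nat_lit 345) (nat_lit 172)))))) (XT.nd (nat_lit 312) (nat_lit 228) (nat_lit 0) (XT.nd (nat_lit 156) (nat_lit 76) (nat_lit 0) (XT.nd (nat_lit 78) (nat_lit 76) (nat_lit 0) (XT.lf (nat_lit 0) (nat_lit 6656079807) (nat_lit 76) (nat_lit 695566456971) (nat_lit 76) (nat_lit 162520523585) (nat_lit 15) (nat_lit 4) (nat_lit 16) (nat_lit 5) (nat_lit 16) (nat_lit 4) (nat_lit 384) (nat_lit 345) (nat_lit 171)) (XT.lf (nat_lit 0) (nat_lit 15667845179) (nat_lit 152) (nat_lit 500456875765) (nat_lit 76) (nat_lit 400312053943) (nat_lit 14) (nat_lit 5) (nat_lit 16) (nat_lit 5) (nat_lit 15) (nat_lit 4) (nat_lit 385) (nat_lit 345) (nat_lit 170))) (XT.nd (nat_lit 78) (nat_lit 76) (nat_lit 0) (XT.lf (nat_lit 0) (nat_lit 199330905250) (nat_lit 152) (nat_lit 118437766699) (nat_lit 76) (nat_lit 654159613543) (nat_lit 14) (nat_lit 5) (nat_lit 16)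 (nat_lit 5) (nat_lit 15) (nat_lit 4) (nat_lit 386) (nat_lit 345) (nat_lit 169)) (XT.lf (nat_lit 0) (nat_lit 309631823932) (nat_lit 76) (nat_lit 95501793998) (nat_lit 152) (nat_lit 626129770406) (nat_lit 13) (nat_lit 5) (nat_lit 14) (nat_lit 5) (nat_lit 15) (nat_lit 4) (nat_lit 387) (nat_lit 345) (nat_lit 168)))) (XT.nd (nat_lit 156) (nat_lit 152) (nat_lit 0) (XT.nd (nat_lit 78) (nat_lit 76) (nat_lit 0) (XT.lf (nat_lit 0) (nat_lit 634199258313) (nat_lit 152) (nat_lit 319964135268) (nat_lit 0) (nat_lit 140638008985) (nat_lit 13) (nat_lit 5) (nat_lit 15) (nat_lit 4) (nat_lit 13) (nat_lit 4) (nat_lit 388) (nat_lit 345) (nat_lit 167)) (XT.lf (nat_lit 0) (nat_lit 117219854913) (nat_lit 76) (nat_lit 769669960114) (nat_lit 76) (nat_lit 276108669712) (nat_lit 12) (nat_lit 4) (nat_lit 13) (nat_lit 5) (nat_lit 13) (nat_lit 4) (nat_lit 389) (nat_lit 345) (nat_lit 166))) (XT.nd (nat_lit 78) (nat_lit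 152) (nat_lit 0) (XT.lf (nat_lit 0) (nat_lit 607575131104) (nat_lit 76) (nat_lit 560968831559) (nat_lit 76) (nat_lit 67407503123) (nat_lit 12) (nat_lit 4) (nat_lit 13) (nat_lit 5) (nat_lit 13) (nat_lit 4) (nat_lit 390) (nat_lit 345) (nat_lit 165)) (XT.nd (nat_lit 78) (nat_lit 76) (nat_lit 0) (XT.lf (nat_lit 0) (nat_lit 150086431190) (nat_lit 152) (nat_lit 181381586774) (nat_lit 76) (nat_lit 982968697816) (nat_lit 11) (nat_lit 5) (nat_lit 13) (nat_lit 5) (nat_lit 12) (nat_lit 4) (nat_lit 391) (nat_lit 345) (nat_lit 164)) (XT.lf (nat_lit 0) (nat_lit 315399383297) (nat_lit 76) (nat_lit 73524068411) (nat_lit 152) (nat_lit 1009530440336) (nat_lit 10) (nat_lit 5) (nat_lit 11) (nat_lit 5) (nat_lit 12) (nat_lit 4) (nat_lit 392) (nat_lit 345) (nat_lit 163))))))) (XT.nd (nat_lit 702) (nat_lit 228) (nat_lit 0) (XT.nd (nat_lit 312) (nat_lit 152) (nat_lit 0) (XT.nd (nat_lit 156) (nat_lit 76) (nat_lit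 0) (XT.nd (nat_lit 78) (nat_lit 0) (nat_lit 0) (XT.lf (nat_lit 0) (nat_lit 656887092921) (nat_lit 152) (nat_lit 631618004640) (nat_lit 0) (nat_lit 199885772135) (nat_lit 10) (nat_lit 5) (nat_lit 12) (nat_lit 4) (nat_lit 10) (nat_lit 4) (nat_lit 393) (nat_lit 345) (nat_lit 162)) (XT.lf (nat_lit 0) (nat_lit 948197509057) (nat_lit 152) (nat_lit 145976359433) (nat_lit 0) (nat_lit 491196162386) (nat_lit 10) (nat_lit 5) (nat_lit 12) (nat_lit 4) (nat_lit 10) (nat_lit 4) (nat_lit 394) (nat_lit 345) (nat_lit 161))) (XT.nd (nat_lit 78) (nat_lit 0) (nat_lit 0) (XT.lf (nat_lit 0) (nat_lit 398448570106) (nat_lit 76) (nat_lit 873946856039) (nat_lit 76) (nat_lit 416945485401) (nat_lit 9) (nat_lit 4) (nat_lit 10) (nat_lit 5) (nat_lit 10) (nat_lit 4) (nat_lit 395) (nat_lit 345) (nat_lit 160)) (XT.lf (nat_lit 0) (nat_lit 994729241909) (nat_lit 76) (nat_lit 631791157870) (nat_lit 76) (nat_lit 174789765041)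 (nat_lit 9) (nat_lit 4) (nat_lit 10) (nat_lit 5) (nat_lit 10) (nat_lit 4) (nat_lit 396) (nat_lit 345) (nat_lit 159)))) (XT.nd (nat_lit 156) (nat_lit 0) (nat_lit 0) (XT.nd (nat_lit 78) (nat_lit 76) (nat_lit 0) (XT.lf (nat_lit 0) (nat_lit 82399378513) (nat_lit 152) (nat_lit 285610706069) (nat_lit 76) (nat_lit 1554059991127) (nat_lit 8) (nat_lit 5) (nat_lit 10) (nat_lit 5) (nat_lit 9) (nat_lit 4) (nat_lit 397) (nat_lit 345) (nat_lit 158)) (XT.lf (nat_lit 0) (nat_lit 286846297529) (nat_lit 76) (nat_lit 70772803399) (nat_lit 152) (nat_lit 1693956588258) (nat_lit 7) (nat_lit 5) (nat_lit 8) (nat_lit 5) (nat_lit 9) (nat_lit 4) (nat_lit 398) (nat_lit 345) (nat_lit 157))) (XT.nd (nat_lit 78) (nat_lit 0) (nat_lit 0) (XT.lf (nat_lit 0) (nat_lit 668886673541) (nat_lit 152) (nat_lit 1275695473631) (nat_lit 0) (nat_lit 245737182782) (nat_lit 7) (nat_lit 5) (nat_lit 9) (nat_lit 4) (nat_lit 7) (nat_lit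 4) (nat_lit 399) (nat_lit 345) (nat_lit 156)) (XT.nd (nat_lit 78) (nat_lit 0) (nat_lit 0) (XT.lf (nat_lit 0) (nat_lit 1006893882961) (nat_lit 152) (nat_lit 749377143448) (nat_lit 0) (nat_lit 583744377099) (nat_lit 7) (nat_lit 5) (nat_lit 9) (nat_lit 4) (nat_lit 7) (nat_lit 4) (nat_lit 400) (nat_lit 345) (nat_lit 155)) (XT.lf (nat_lit 0) (nat_lit 1371941647252) (nat_lit 152) (nat_lit 180953390046) (nat_lit 0) (nat_lit 948792127406) (nat_lit 7) (nat_lit 5) (nat_lit 9) (nat_lit 4) (nat_lit 7) (nat_lit 4) (nat_lit 401) (nat_lit 345) (nat_lit 154)))))) (XT.nd (nat_lit 312) (nat_lit 152) (nat_lit 0) (XT.nd (nat_lit 156) (nat_lit 0) (nat_lit 0) (XT.nd (nat_lit 78) (nat_lit 0) (nat_lit 0) (XT.lf (nat_lit 0) (nat_lit 455742299207) (nat_lit 76) (nat_lit 1321411526472) (nat_lit 76) (nat_lit 898261993678) (nat_lit 6) (nat_lit 4) (nat_lit 7) (nat_lit 5) (nat_lit 7) (nat_lit 4) (nat_lit 402) (nat_lit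 345) (nat_lit 153)) (XT.lf (nat_lit 0) (nat_lit 1153664584248) (nat_lit 76) (nat_lit 1066065960795) (nat_lit 76) (nat_lit 642916416011) (nat_lit 6) (nat_lit 4) (nat_lit 7) (nat_lit 5) (nat_lit 7) (nat_lit 4) (nat_lit 403) (nat_lit 345) (nat_lit 152))) (XT.nd (nat_lit 78) (nat_lit 0) (nat_lit 0) (XT.lf (nat_lit 0) (nat_lit 1907420615997) (nat_lit 76) (nat_lit 790292767719) (nat_lit 76) (nat_lit 367143211833) (nat_lit 6) (nat_lit 4) (nat_lit 7) (nat_lit 5) (nat_lit 7) (nat_lit 4) (nat_lit 404) (nat_lit 345) (nat_lit 151)) (XT.lf (nat_lit 0) (nat_lit 2721477096864) (nat_lit 76) (nat_lit 492457735729) (nat_lit 76) (nat_lit 69308169564) (nat_lit 6) (nat_lit 4) (nat_lit 7) (nat_lit 5) (nat_lit 7) (nat_lit 4) (nat_lit 405) (nat_lit 345) (nat_lit 150)))) (XT.nd (nat_lit 156) (nat_lit 0) (nat_lit 0) (XT.nd (nat_lit 78) (nat_lit 0) (nat_lit 0) (XT.lf (nat_lit 0) (nat_lit 79463728670) (nat_lit 76)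 (nat_lit 162177283037) (nat_lit 152) (nat_lit 3276820893549) (nat_lit 4) (nat_lit 5) (nat_lit 5) (nat_lit 5) (nat_lit 6) (nat_lit 4) (nat_lit 406) (nat_lit 345) (nat_lit 149)) (XT.lf (nat_lit 0) (nat_lit 594158643632) (nat_lit 152) (nat_lit 2974207230592) (nat_lit 0) (nat_lit 202353472804) (nat_lit 4) (nat_lit 5) (nat_lit 6) (nat_lit 4) (nat_lit 4) (nat_lit 4) (nat_lit 407) (nat_lit 345) (nat_lit 148))) (XT.nd (nat_lit 78) (nat_lit 0) (nat_lit 0) (XT.lf (nat_lit 0) (nat_lit 979090068283) (nat_lit 152) (nat_lit 2476445435388) (nat_lit 0) (nat_lit 587284889899) (nat_lit 4) (nat_lit 5) (nat_lit 6) (nat_lit 4) (nat_lit 4) (nat_lit 4) (nat_lit 408) (nat_lit 345) (nat_lit 147)) (XT.nd (nat_lit 41964) (nat_lit 0) (nat_lit 4104) (XT.lf (nat_lit 0) (nat_lit 1394815993211) (nat_lit 152) (nat_lit 1938862723891) (nat_lit 0) (nat_lit 1003010807831) (nat_lit 4) (nat_lit 5) (nat_lit 6) (nat_lit 4) (nat_lit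 4) (nat_lit 4) (nat_lit 409) (nat_lit 345) (nat_lit 146)) (XT.lf (nat_lit 0) (nat_lit 56985723033) (nat_lit 532) (nat_lit 6601015276) (nat_lit 532) (nat_lit 6601015276) (nat_lit 58) (nat_lit 3) (nat_lit 65) (nat_lit 3) (nat_lit 65) (nat_lit 5) (nat_lit 346) (nat_lit 346) (nat_lit 208))))))))
noncomputable def xc212 : XT := (XT.nd (nat_lit 1404) (nat_lit 1368) (nat_lit 0) (XT.nd (nat_lit 702) (nat_lit 1064) (nat_lit 0) (XT.nd (nat_lit 312) (nat_lit 684) (nat_lit 0) (XT.nd (nat_lit 156) (nat_lit 0) (nat_lit 76) (XT.nd (nat_lit 78) (nat_lit 0) (nat_lit 76) (XT.lf (nat_lit 76) (nat_lit 56746841923) (nat_lit 0) (nat_lit 63151312471) (nat_lit 532) (nat_lit 25982940397) (nat_lit 59) (nat_lit 5) (nat_lit 58) (nat_lit 3) (nat_lit 65) (nat_lit 5) (nat_lit 347) (nat_lit 346) (nat_lit 207)) (XT.lf (nat_lit 0) (nat_lit 126813155001) (nat_lit 456) (nat_lit 18909519882) (nat_lit 532) (nat_lit 6063322551)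 (nat_lit 59) (nat_lit 5) (nat_lit 65) (nat_lit 5) (nat_lit 66) (nat_lit 5) (nat_lit 348) (nat_lit 346) (nat_lit 206))) (XT.nd (nat_lit 78) (nat_lit 0) (nat_lit 0) (XT.lf (nat_lit 76) (nat_lit 58204324459) (nat_lit 0) (nat_lit 79116853549) (nat_lit 532) (nat_lit 20598928920) (nat_lit 60) (nat_lit 5) (nat_lit 59) (nat_lit 5) (nat_lit 66) (nat_lit 5) (nat_lit 349) (nat_lit 346) (nat_lit 205)) (XT.lf (nat_lit 76) (nat_lit 142562492802) (nat_lit 0) (nat_lit 6624099764) (nat_lit 532) (nat_lit 15317013036) (nat_lit 60) (nat_lit 5) (nat_lit 59) (nat_lit 5) (nat_lit 66) (nat_lit 5) (nat_lit 350) (nat_lit 346) (nat_lit 204)))) (XT.nd (nat_lit 156) (nat_lit 304) (nat_lit 0) (XT.nd (nat_lit 78) (nat_lit 532) (nat_lit 0) (XT.lf (nat_lit 76) (nat_lit 63508679606) (nat_lit 0) (nat_lit 101743316699) (nat_lit 532) (nat_lit 6101727751) (nat_lit 61) (nat_lit 5) (nat_lit 60) (nat_lit 5) (nat_lit 67) (nat_lit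 5) (nat_lit 351) (nat_lit 346) (nat_lit 203)) (XT.lf (nat_lit 0) (nat_lit 4445453498) (nat_lit 532) (nat_lit 21942042678) (nat_lit 608) (nat_lit 152293962837) (nat_lit 53) (nat_lit 5) (nat_lit 60) (nat_lit 5) (nat_lit 61) (nat_lit 5) (nat_lit 352) (nat_lit 346) (nat_lit 202))) (XT.nd (nat_lit 78) (nat_lit 380) (nat_lit 0) (XT.lf (nat_lit 0) (nat_lit 18669028081) (nat_lit 532) (nat_lit 113416757048) (nat_lit 76) (nat_lit 54243967364) (nat_lit 54) (nat_lit 5) (nat_lit 61) (nat_lit 5) (nat_lit 55) (nat_lit 5) (nat_lit 353) (nat_lit 346) (nat_lit 201)) (XT.nd (nat_lit 78) (nat_lit 380) (nat_lit 0) (XT.lf (nat_lit 0) (nat_lit 35331185127) (nat_lit 532) (nat_lit 18638786473) (nat_lit 76) (nat_lit 140515882401) (nat_lit 54) (nat_lit 5) (nat_lit 61) (nat_lit 5) (nat_lit 55) (nat_lit 5) (nat_lit 354) (nat_lit 346) (nat_lit 200)) (XT.lf (nat_lit 0) (nat_lit 56231701112) (nat_lit 456) (nat_lit 115781104402)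 (nat_lit 76) (nat_lit 31049207456) (nat_lit 49) (nat_lit 5) (nat_lit 55) (nat_lit 5) (nat_lit 50) (nat_lit 5) (nat_lit 355) (nat_lit 346) (nat_lit 199)))))) (XT.nd (nat_lit 312) (nat_lit 608) (nat_lit 0) (XT.nd (nat_lit 156) (nat_lit 228) (nat_lit 0) (XT.nd (nat_lit 78) (nat_lit 228) (nat_lit 0) (XT.lf (nat_lit 0) (nat_lit 80728745772) (nat_lit 456) (nat_lit 10964561210) (nat_lit 76) (nat_lit 120476998915) (nat_lit 49) (nat_lit 5) (nat_lit 55) (nat_lit 5) (nat_lit 50) (nat_lit 5) (nat_lit 356) (nat_lit 346) (nat_lit 198)) (XT.lf (nat_lit 0) (nat_lit 107620750499) (nat_lit 228) (nat_lit 2152914480) (nat_lit 304) (nat_lit 112026548617) (nat_lit 46) (nat_lit 5) (nat_lit 49) (nat_lit 5) (nat_lit 50) (nat_lit 5) (nat_lit 357) (nat_lit 346) (nat_lit 197))) (XT.nd (nat_lit 78) (nat_lit 0) (nat_lit 0) (XT.lf (nat_lit 0) (nat_lit 1955837064) (nat_lit 228) (nat_lit 141814740130) (nat_lit 304) (nat_lit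 88219664956) (nat_lit 43) (nat_lit 5) (nat_lit 46) (nat_lit 5) (nat_lit 47) (nat_lit 5) (nat_lit 358) (nat_lit 346) (nat_lit 196)) (XT.lf (nat_lit 0) (nat_lit 133816399752) (nat_lit 228) (nat_lit 49847060683) (nat_lit 304) (nat_lit 59077915295) (nat_lit 43) (nat_lit 5) (nat_lit 46) (nat_lit 5) (nat_lit 47) (nat_lit 5) (nat_lit 359) (nat_lit 346) (nat_lit 195)))) (XT.nd (nat_lit 156) (nat_lit 380) (nat_lit 0) (XT.nd (nat_lit 78) (nat_lit 76) (nat_lit 0) (XT.lf (nat_lit 0) (nat_lit 21772212225) (nat_lit 152) (nat_lit 206688988072) (nat_lit 228) (nat_lit 25754325791) (nat_lit 41) (nat_lit 5) (nat_lit 43) (nat_lit 5) (nat_lit 44) (nat_lit 5) (nat_lit 360) (nat_lit 346) (nat_lit 194)) (XT.lf (nat_lit 0) (nat_lit 14073292331) (nat_lit 228) (nat_lit 98867941887) (nat_lit 76) (nat_lit 153298670341) (nat_lit 40) (nat_lit 5) (nat_lit 43) (nat_lit 5) (nat_lit 41) (nat_lit 5) (nat_lit 361) (nat_lit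 346) (nat_lit 193))) (XT.nd (nat_lit 78) (nat_lit 152) (nat_lit 0) (XT.lf (nat_lit 0) (nat_lit 47079450186) (nat_lit 228) (nat_lit 9748398113) (nat_lit 304) (nat_lit 222254299187) (nat_lit 37) (nat_lit 5) (nat_lit 40) (nat_lit 5) (nat_lit 41) (nat_lit 5) (nat_lit 362) (nat_lit 346) (nat_lit 192)) (XT.nd (nat_lit 78) (nat_lit 152) (nat_lit 0) (XT.lf (nat_lit 0) (nat_lit 108221965033) (nat_lit 304) (nat_lit 84926444344) (nat_lit 76) (nat_lit 99385824892) (nat_lit 37) (nat_lit 5) (nat_lit 41) (nat_lit 5) (nat_lit 38) (nat_lit 5) (nat_lit 363) (nat_lit 346) (nat_lit 191)) (XT.lf (nat_lit 0) (nat_lit 77541479853) (nat_lit 152) (nat_lit 88304093931) (nat_lit 228) (nat_lit 141047477312) (nat_lit 35) (nat_lit 5) (nat_lit 37) (nat_lit 5) (nat_lit 38) (nat_lit 5) (nat_lit 364) (nat_lit 346) (nat_lit 190))))))) (XT.nd (nat_lit 702) (nat_lit 532) (nat_lit 0) (XT.nd (nat_lit 312) (nat_lit 456) (nat_lit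 0) (XT.nd (nat_lit 156) (nat_lit 228) (nat_lit 0) (XT.nd (nat_lit 78) (nat_lit 152) (nat_lit 0) (XT.lf (nat_lit 0) (nat_lit 231060823636) (nat_lit 228) (nat_lit 65038122639) (nat_lit 76) (nat_lit 26063086910) (nat_lit 35) (nat_lit 5) (nat_lit 38) (nat_lit 5) (nat_lit 36) (nat_lit 5) (nat_lit 365) (nat_lit 346) (nat_lit 189)) (XT.lf (nat_lit 0) (nat_lit 115925708237) (nat_lit 152) (nat_lit 190649109329) (nat_lit 228) (nat_lit 31671194447) (nat_lit 33) (nat_lit 5) (nat_lit 35) (nat_lit 5) (nat_lit 36) (nat_lit 5) (nat_lit 366) (nat_lit 346) (nat_lit 188))) (XT.nd (nat_lit 78) (nat_lit 152) (nat_lit 0) (XT.lf (nat_lit 0) (nat_lit 32711121500) (nat_lit 228) (nat_lit 41237315413) (nat_lit 76) (nat_lit 281459769405) (nat_lit 32) (nat_lit 5) (nat_lit 35) (nat_lit 5) (nat_lit 33) (nat_lit 5) (nat_lit 367) (nat_lit 346) (nat_lit 187)) (XT.lf (nat_lit 0) (nat_lit 105794211063) (nat_lit 228) (nat_lit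 213348622361) (nat_lit 76) (nat_lit 54313832109) (nat_lit 30) (nat_lit 5) (nat_lit 33) (nat_lit 5) (nat_lit 31) (nat_lit 5) (nat_lit 368) (nat_lit 346) (nat_lit 186)))) (XT.nd (nat_lit 156) (nat_lit 304) (nat_lit 0) (XT.nd (nat_lit 78) (nat_lit 152) (nat_lit 0) (XT.lf (nat_lit 0) (nat_lit 187801380273) (nat_lit 228) (nat_lit 14902739546) (nat_lit 76) (nat_lit 189998687142) (nat_lit 30) (nat_lit 5) (nat_lit 33) (nat_lit 5) (nat_lit 31) (nat_lit 5) (nat_lit 369) (nat_lit 346) (nat_lit 185)) (XT.lf (nat_lit 0) (nat_lit 209919712047) (nat_lit 152) (nat_lit 71497898827) (nat_lit 228) (nat_lit 131667149868) (nat_lit 28) (nat_lit 5) (nat_lit 30) (nat_lit 5) (nat_lit 31) (nat_lit 5) (nat_lit 370) (nat_lit 346) (nat_lit 184))) (XT.nd (nat_lit 78) (nat_lit 228) (nat_lit 0) (XT.lf (nat_lit 0) (nat_lit 17696941760) (nat_lit 76) (nat_lit 367358204262) (nat_lit 152) (nat_lit 49839564377) (nat_lit 27)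 (nat_lit 5) (nat_lit 28) (nat_lit 5) (nat_lit 29) (nat_lit 4) (nat_lit 371) (nat_lit 346) (nat_lit 183)) (XT.nd (nat_lit 78) (nat_lit 152) (nat_lit 0) (XT.lf (nat_lit 0) (nat_lit 44162770059) (nat_lit 152) (nat_lit 193151256200) (nat_lit 76) (nat_lit 220456795476) (nat_lit 26) (nat_lit 5) (nat_lit 28) (nat_lit 5) (nat_lit 27) (nat_lit 5) (nat_lit 372) (nat_lit 346) (nat_lit 182)) (XT.lf (nat_lit 0) (nat_lit 50026860520) (nat_lit 152) (nat_lit 94168869680) (nat_lit 228) (nat_lit 338081483500) (nat_lit 24) (nat_lit 5) (nat_lit 26) (nat_lit 5) (nat_lit 27) (nat_lit 5) (nat_lit 373) (nat_lit 346) (nat_lit 181)))))) (XT.nd (nat_lit 312) (nat_lit 228) (nat_lit 0) (XT.nd (nat_lit 156) (nat_lit 228) (nat_lit 0) (XT.nd (nat_lit 78) (nat_lit 76) (nat_lit 0) (XT.lf (nat_lit 0) (nat_lit 259102812831) (nat_lit 228) (nat_lit 186268313618) (nat_lit 76) (nat_lit 62823271764) (nat_lit 24) (nat_lit 5)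 (nat_lit 27) (nat_lit 5) (nat_lit 25) (nat_lit 4) (nat_lit 374) (nat_lit 346) (nat_lit 180)) (XT.lf (nat_lit 0) (nat_lit 80998075606) (nat_lit 76) (nat_lit 306598266649) (nat_lit 152) (nat_lit 148237104860) (nat_lit 23) (nat_lit 5) (nat_lit 24) (nat_lit 5) (nat_lit 25) (nat_lit 4) (nat_lit 375) (nat_lit 346) (nat_lit 179))) (XT.nd (nat_lit 78) (nat_lit 228) (nat_lit 0) (XT.lf (nat_lit 0) (nat_lit 380238902444) (nat_lit 76) (nat_lit 151223289599) (nat_lit 152) (nat_lit 33814000884) (nat_lit 23) (nat_lit 5) (nat_lit 24) (nat_lit 5) (nat_lit 25) (nat_lit 4) (nat_lit 376) (nat_lit 346) (nat_lit 178)) (XT.lf (nat_lit 0) (nat_lit 88433564846) (nat_lit 228) (nat_lit 487542062253) (nat_lit 76) (nat_lit 20673153664) (nat_lit 20) (nat_lit 5) (nat_lit 23) (nat_lit 5) (nat_lit 21) (nat_lit 4) (nat_lit 377) (nat_lit 346) (nat_lit 177)))) (XT.nd (nat_lit 156) (nat_lit 152) (nat_lit 0) (XT.nd (nat_lit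 78) (nat_lit 76) (nat_lit 0) (XT.lf (nat_lit 0) (nat_lit 227752572195) (nat_lit 228) (nat_lit 197758638675) (nat_lit 76) (nat_lit 204220224273) (nat_lit 20) (nat_lit 5) (nat_lit 23) (nat_lit 5) (nat_lit 21) (nat_lit 4) (nat_lit 378) (nat_lit 346) (nat_lit 176)) (XT.lf (nat_lit 0) (nat_lit 121273968950) (nat_lit 76) (nat_lit 259859714332) (nat_lit 152) (nat_lit 284093691969) (nat_lit 19) (nat_lit 5) (nat_lit 20) (nat_lit 5) (nat_lit 21) (nat_lit 4) (nat_lit 379) (nat_lit 346) (nat_lit 175))) (XT.nd (nat_lit 78) (nat_lit 152) (nat_lit 0) (XT.lf (nat_lit 0) (nat_lit 477075791923) (nat_lit 76) (nat_lit 75116506140) (nat_lit 152) (nat_lit 150938131344) (nat_lit 19) (nat_lit 5) (nat_lit 20) (nat_lit 5) (nat_lit 21) (nat_lit 4) (nat_lit 380) (nat_lit 346) (nat_lit 174)) (XT.nd (nat_lit 78) (nat_lit 76) (nat_lit 0) (XT.lf (nat_lit 0) (nat_lit 120301954814) (nat_lit 76) (nat_lit 622518829596)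 (nat_lit 76) (nat_lit 774128922) (nat_lit 18) (nat_lit 4) (nat_lit 19) (nat_lit 5) (nat_lit 19) (nat_lit 4) (nat_lit 381) (nat_lit 346) (nat_lit 173)) (XT.lf (nat_lit 0) (nat_lit 161621259964) (nat_lit 152) (nat_lit 285572555975) (nat_lit 76) (nat_lit 339128816567) (nat_lit 17) (nat_lit 5) (nat_lit 19) (nat_lit 5) (nat_lit 18) (nat_lit 4) (nat_lit 382) (nat_lit 346) (nat_lit 172))))))))
noncomputable def xc213 : XT := (XT.nd (nat_lit 1404) (nat_lit 228) (nat_lit 0) (XT.nd (nat_lit 702) (nat_lit 380) (nat_lit 0) (XT.nd (nat_lit 312) (nat_lit 152) (nat_lit 0) (XT.nd (nat_lit 156) (nat_lit 152) (nat_lit 0) (XT.nd (nat_lit 78) (nat_lit 0) (nat_lit 0) (XT.lf (nat_lit 0) (nat_lit 83312930753) (nat_lit 76) (nat_lit 255657154751) (nat_lit 152) (nat_lit 493336584860) (nat_lit 16) (nat_lit 5) (nat_lit 17) (nat_lit 5) (nat_lit 18) (nat_lit 4) (nat_lit 383) (nat_lit 346) (nat_lit 171)) (XT.lf (nat_lit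 0) (nat_lit 497949932030) (nat_lit 76) (nat_lit 40364896963) (nat_lit 152) (nat_lit 343029961323) (nat_lit 16) (nat_lit 5) (nat_lit 17) (nat_lit 5) (nat_lit 18) (nat_lit 4) (nat_lit 384) (nat_lit 346) (nat_lit 170))) (XT.nd (nat_lit 78) (nat_lit 76) (nat_lit 0) (XT.lf (nat_lit 0) (nat_lit 7190307101) (nat_lit 76) (nat_lit 751210956655) (nat_lit 76) (nat_lit 175521167183) (nat_lit 15) (nat_lit 4) (nat_lit 16) (nat_lit 5) (nat_lit 16) (nat_lit 4) (nat_lit 385) (nat_lit 346) (nat_lit 169)) (XT.lf (nat_lit 0) (nat_lit 16922150896) (nat_lit 152) (nat_lit 540491767350) (nat_lit 76) (nat_lit 432337728100) (nat_lit 14) (nat_lit 5) (nat_lit 16) (nat_lit 5) (nat_lit 15) (nat_lit 4) (nat_lit 386) (nat_lit 346) (nat_lit 168)))) (XT.nd (nat_lit 156) (nat_lit 76) (nat_lit 0) (XT.nd (nat_lit 78) (nat_lit 76) (nat_lit 0) (XT.lf (nat_lit 0) (nat_lit 215278190728) (nat_lit 152) (nat_lit 127911252409) (nat_lit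 76) (nat_lit 706493039887) (nat_lit 14) (nat_lit 5) (nat_lit 16) (nat_lit 5) (nat_lit 15) (nat_lit 4) (nat_lit 387) (nat_lit 346) (nat_lit 167)) (XT.lf (nat_lit 0) (nat_lit 334403866596) (nat_lit 76) (nat_lit 103141229597) (nat_lit 152) (nat_lit 676219299861) (nat_lit 13) (nat_lit 5) (nat_lit 14) (nat_lit 5) (nat_lit 15) (nat_lit 4) (nat_lit 388) (nat_lit 346) (nat_lit 166))) (XT.nd (nat_lit 78) (nat_lit 76) (nat_lit 0) (XT.lf (nat_lit 0) (nat_lit 684935945139) (nat_lit 152) (nat_lit 345559837319) (nat_lit 0) (nat_lit 151889672396) (nat_lit 13) (nat_lit 5) (nat_lit 15) (nat_lit 4) (nat_lit 13) (nat_lit 4) (nat_lit 389) (nat_lit 346) (nat_lit 165)) (XT.nd (nat_lit 78) (nat_lit 0) (nat_lit 0) (XT.lf (nat_lit 0) (nat_lit 126598835906) (nat_lit 76) (nat_lit 831242888706) (nat_lit 76) (nat_lit 298196580748) (nat_lit 12) (nat_lit 4) (nat_lit 13) (nat_lit 5) (nat_lit 13) (nat_lit 4) (nat_lit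 390) (nat_lit 346) (nat_lit 164)) (XT.lf (nat_lit 0) (nat_lit 656182431037) (nat_lit 76) (nat_lit 605845719363) (nat_lit 76) (nat_lit 72799378798) (nat_lit 12) (nat_lit 4) (nat_lit 13) (nat_lit 5) (nat_lit 13) (nat_lit 4) (nat_lit 391) (nat_lit 346) (nat_lit 163)))))) (XT.nd (nat_lit 312) (nat_lit 228) (nat_lit 0) (XT.nd (nat_lit 156) (nat_lit 0) (nat_lit 0) (XT.nd (nat_lit 78) (nat_lit 76) (nat_lit 0) (XT.lf (nat_lit 0) (nat_lit 162093983027) (nat_lit 152) (nat_lit 195890886059) (nat_lit 76) (nat_lit 1061606732804) (nat_lit 11) (nat_lit 5) (nat_lit 13) (nat_lit 5) (nat_lit 12) (nat_lit 4) (nat_lit 392) (nat_lit 346) (nat_lit 162)) (XT.lf (nat_lit 0) (nat_lit 340632530538) (nat_lit 76) (nat_lit 79405416216) (nat_lit 152) (nat_lit 1090292206989) (nat_lit 10) (nat_lit 5) (nat_lit 11) (nat_lit 5) (nat_lit 12) (nat_lit 4) (nat_lit 393) (nat_lit 346) (nat_lit 161))) (XT.nd (nat_lit 78) (nat_lit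 0) (nat_lit 0) (XT.lf (nat_lit 0) (nat_lit 709438646282) (nat_lit 152) (nat_lit 682146303948) (nat_lit 0) (nat_lit 215877142026) (nat_lit 10) (nat_lit 5) (nat_lit 12) (nat_lit 4) (nat_lit 10) (nat_lit 4) (nat_lit 394) (nat_lit 346) (nat_lit 160)) (XT.lf (nat_lit 0) (nat_lit 1024053852307) (nat_lit 152) (nat_lit 157653411647) (nat_lit 0) (nat_lit 530492325860) (nat_lit 10) (nat_lit 5) (nat_lit 12) (nat_lit 4) (nat_lit 10) (nat_lit 4) (nat_lit 395) (nat_lit 346) (nat_lit 159)))) (XT.nd (nat_lit 156) (nat_lit 152) (nat_lit 0) (XT.nd (nat_lit 78) (nat_lit 0) (nat_lit 0) (XT.lf (nat_lit 0) (nat_lit 430325485507) (nat_lit 76) (nat_lit 943862101834) (nat_lit 76) (nat_lit 450300554839) (nat_lit 9) (nat_lit 4) (nat_lit 10) (nat_lit 5) (nat_lit 10) (nat_lit 4) (nat_lit 396) (nat_lit 346) (nat_lit 158)) (XT.lf (nat_lit 0) (nat_lit 1074308534774) (nat_lit 76) (nat_lit 682333985048) (nat_lit 76) (nat_lit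 188772419028) (nat_lit 9) (nat_lit 4) (nat_lit 10) (nat_lit 5) (nat_lit 10) (nat_lit 4) (nat_lit 397) (nat_lit 346) (nat_lit 157))) (XT.nd (nat_lit 78) (nat_lit 76) (nat_lit 0) (XT.lf (nat_lit 0) (nat_lit 88991792538) (nat_lit 152) (nat_lit 308458655157) (nat_lit 76) (nat_lit 1678385196875) (nat_lit 8) (nat_lit 5) (nat_lit 10) (nat_lit 5) (nat_lit 9) (nat_lit 4) (nat_lit 398) (nat_lit 346) (nat_lit 156)) (XT.nd (nat_lit 78) (nat_lit 0) (nat_lit 0) (XT.lf (nat_lit 0) (nat_lit 309794885757) (nat_lit 76) (nat_lit 76434193908) (nat_lit 152) (nat_lit 1829472628513) (nat_lit 7) (nat_lit 5) (nat_lit 8) (nat_lit 5) (nat_lit 9) (nat_lit 4) (nat_lit 399) (nat_lit 346) (nat_lit 155)) (XT.lf (nat_lit 0) (nat_lit 722398034364) (nat_lit 152) (nat_lit 1377750268803) (nat_lit 0) (nat_lit 265396538946) (nat_lit 7) (nat_lit 5) (nat_lit 9) (nat_lit 4) (nat_lit 7) (nat_lit 4) (nat_lit 400) (nat_lit 346)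 (nat_lit 154))))))) (XT.nd (nat_lit 42666) (nat_lit 0) (nat_lit 3724) (XT.nd (nat_lit 312) (nat_lit 152) (nat_lit 0) (XT.nd (nat_lit 156) (nat_lit 76) (nat_lit 0) (XT.nd (nat_lit 78) (nat_lit 0) (nat_lit 0) (XT.lf (nat_lit 0) (nat_lit 1087445788913) (nat_lit 152) (nat_lit 809326534629) (nat_lit 0) (nat_lit 630444280546) (nat_lit 7) (nat_lit 5) (nat_lit 9) (nat_lit 4) (nat_lit 7) (nat_lit 4) (nat_lit 401) (nat_lit 346) (nat_lit 153)) (XT.lf (nat_lit 0) (nat_lit 1481697345064) (nat_lit 152) (nat_lit 195428938754) (nat_lit 0) (nat_lit 1024695824708) (nat_lit 7) (nat_lit 5) (nat_lit 9) (nat_lit 4) (nat_lit 7) (nat_lit 4) (nat_lit 402) (nat_lit 346) (nat_lit 152))) (XT.nd (nat_lit 78) (nat_lit 0) (nat_lit 0) (XT.lf (nat_lit 0) (nat_lit 492202387347) (nat_lit 76) (nat_lit 1427124100241) (nat_lit 76) (nat_lit 970122568783) (nat_lit 6) (nat_lit 4) (nat_lit 7) (nat_lit 5) (nat_lit 7) (nat_lit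 4) (nat_lit 403) (nat_lit 346) (nat_lit 151)) (XT.lf (nat_lit 0) (nat_lit 1245958403028) (nat_lit 76) (nat_lit 1151350915113) (nat_lit 76) (nat_lit 694349373376) (nat_lit 6) (nat_lit 4) (nat_lit 7) (nat_lit 5) (nat_lit 7) (nat_lit 4) (nat_lit 404) (nat_lit 346) (nat_lit 150)))) (XT.nd (nat_lit 156) (nat_lit 152) (nat_lit 0) (XT.nd (nat_lit 78) (nat_lit 0) (nat_lit 0) (XT.lf (nat_lit 0) (nat_lit 2060014869018) (nat_lit 76) (nat_lit 853515890483) (nat_lit 76) (nat_lit 396514339228) (nat_lit 6) (nat_lit 4) (nat_lit 7) (nat_lit 5) (nat_lit 7) (nat_lit 4) (nat_lit 405) (nat_lit 346) (nat_lit 149)) (XT.lf (nat_lit 0) (nat_lit 2939195823633) (nat_lit 76) (nat_lit 531854078056) (nat_lit 76) (nat_lit 74852517989) (nat_lit 6) (nat_lit 4) (nat_lit 7) (nat_lit 5) (nat_lit 7) (nat_lit 4) (nat_lit 406) (nat_lit 346) (nat_lit 148))) (XT.nd (nat_lit 78) (nat_lit 0) (nat_lit 0) (XT.lf (nat_lit 0) (nat_lit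 85821386756) (nat_lit 76) (nat_lit 175151187754) (nat_lit 152) (nat_lit 3538966260572) (nat_lit 4) (nat_lit 5) (nat_lit 5) (nat_lit 5) (nat_lit 6) (nat_lit 4) (nat_lit 407) (nat_lit 346) (nat_lit 147)) (XT.nd (nat_lit 78) (nat_lit 0) (nat_lit 0) (XT.lf (nat_lit 0) (nat_lit 641691602300) (nat_lit 152) (nat_lit 3212143275981) (nat_lit 0) (nat_lit 218541995094) (nat_lit 4) (nat_lit 5) (nat_lit 6) (nat_lit 4) (nat_lit 4) (nat_lit 4) (nat_lit 408) (nat_lit 346) (nat_lit 146)) (XT.lf (nat_lit 0) (nat_lit 1057417521131) (nat_lit 152) (nat_lit 2674560576647) (nat_lit 0) (nat_lit 634267907448) (nat_lit 4) (nat_lit 5) (nat_lit 6) (nat_lit 4) (nat_lit 4) (nat_lit 4) (nat_lit 409) (nat_lit 346) (nat_lit 145)))))) (XT.nd (nat_lit 312) (nat_lit 380) (nat_lit 0) (XT.nd (nat_lit 156) (nat_lit 0) (nat_lit 76) (XT.nd (nat_lit 78) (nat_lit 0) (nat_lit 0) (XT.lf (nat_lit 0) (nat_lit 61547594191) (nat_lit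 532) (nat_lit 7127467049) (nat_lit 532) (nat_lit 7127467049) (nat_lit 58) (nat_lit 3) (nat_lit 65) (nat_lit 3) (nat_lit 65) (nat_lit 5) (nat_lit 347) (nat_lit 347) (nat_lit 206)) (XT.lf (nat_lit 76) (nat_lit 61289765672) (nat_lit 0) (nat_lit 68205897680) (nat_lit 532) (nat_lit 28055458128) (nat_lit 59) (nat_lit 5) (nat_lit 58) (nat_lit 3) (nat_lit 65) (nat_lit 5) (nat_lit 348) (nat_lit 347) (nat_lit 205))) (XT.nd (nat_lit 78) (nat_lit 0) (nat_lit 0) (XT.lf (nat_lit 0) (nat_lit 136963389769) (nat_lit 456) (nat_lit 20418858380) (nat_lit 532) (nat_lit 6546206743) (nat_lit 59) (nat_lit 5) (nat_lit 65) (nat_lit 5) (nat_lit 66) (nat_lit 5) (nat_lit 349) (nat_lit 347) (nat_lit 204)) (XT.lf (nat_lit 76) (nat_lit 62864006847) (nat_lit 0) (nat_lit 85447744132) (nat_lit 532) (nat_lit 22241567032) (nat_lit 60) (nat_lit 5) (nat_lit 59) (nat_lit 5) (nat_lit 66) (nat_lit 5) (nat_lit 350) (nat_lit 347)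 (nat_lit 203)))) (XT.nd (nat_lit 156) (nat_lit 456) (nat_lit 0) (XT.nd (nat_lit 78) (nat_lit 0) (nat_lit 76) (XT.lf (nat_lit 76) (nat_lit 153970581515) (nat_lit 0) (nat_lit 7155455799) (nat_lit 532) (nat_lit 16537488707) (nat_lit 60) (nat_lit 5) (nat_lit 59) (nat_lit 5) (nat_lit 66) (nat_lit 5) (nat_lit 351) (nat_lit 347) (nat_lit 202)) (XT.lf (nat_lit 76) (nat_lit 68592777241) (nat_lit 0) (nat_lit 109883611542) (nat_lit 532) (nat_lit 6585288427) (nat_lit 61) (nat_lit 5) (nat_lit 60) (nat_lit 5) (nat_lit 67) (nat_lit 5) (nat_lit 352) (nat_lit 347) (nat_lit 201))) (XT.nd (nat_lit 78) (nat_lit 0) (nat_lit 76) (XT.lf (nat_lit 0) (nat_lit 4805116219) (nat_lit 532) (nat_lit 23694037623) (nat_lit 608) (nat_lit 164476494505) (nat_lit 53) (nat_lit 5) (nat_lit 60) (nat_lit 5) (nat_lit 61) (nat_lit 5) (nat_lit 353) (nat_lit 347) (nat_lit 200)) (XT.nd (nat_lit 78) (nat_lit 0) (nat_lit 0) (XT.lf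 (nat_lit 0) (nat_lit 20166344873) (nat_lit 532) (nat_lit 122486492364) (nat_lit 76) (nat_lit 58582987009) (nat_lit 54) (nat_lit 5) (nat_lit 61) (nat_lit 5) (nat_lit 55) (nat_lit 5) (nat_lit 354) (nat_lit 347) (nat_lit 199)) (XT.lf (nat_lit 0) (nat_lit 38161193406) (nat_lit 532) (nat_lit 20126551199) (nat_lit 76) (nat_lit 151756692118) (nat_lit 54) (nat_lit 5) (nat_lit 61) (nat_lit 5) (nat_lit 55) (nat_lit 5) (nat_lit 355) (nat_lit 347) (nat_lit 198))))))))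
noncomputable def xc214 : XT := (XT.nd (nat_lit 1404) (nat_lit 1064) (nat_lit 0) (XT.nd (nat_lit 702) (nat_lit 836) (nat_lit 0) (XT.nd (nat_lit 312) (nat_lit 456) (nat_lit 0) (XT.nd (nat_lit 156) (nat_lit 456) (nat_lit 0) (XT.nd (nat_lit 78) (nat_lit 0) (nat_lit 0) (XT.lf (nat_lit 0) (nat_lit 60733566793) (nat_lit 456) (nat_lit 125040066501) (nat_lit 76) (nat_lit 33533070162) (nat_lit 49) (nat_lit 5) (nat_lit 55) (nat_lit 5) (nat_lit 50) (nat_lit 5) (nat_lit 356) (nat_lit 347) (nat_lit 197)) (XT.lf (nat_lit 0) (nat_lit 87190128390) (nat_lit 456) (nat_lit 11838461057) (nat_lit 76) (nat_lit 130115090411) (nat_lit 49) (nat_lit 5) (nat_lit 55) (nat_lit 5) (nat_lit 50) (nat_lit 5) (nat_lit 357) (nat_lit 347) (nat_lit 196))) (XT.nd (nat_lit 78) (nat_lit 228) (nat_lit 0) (XT.lf (nat_lit 0) (nat_lit 116233592929) (nat_lit 228) (nat_lit 2324896373) (nat_lit 304) (nat_lit 120985503303) (nat_lit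 46) (nat_lit 5) (nat_lit 49) (nat_lit 5) (nat_lit 50) (nat_lit 5) (nat_lit 358) (nat_lit 347) (nat_lit 195)) (XT.lf (nat_lit 0) (nat_lit 2115632014) (nat_lit 228) (nat_lit 153159390994) (nat_lit 304) (nat_lit 95274211221) (nat_lit 43) (nat_lit 5) (nat_lit 46) (nat_lit 5) (nat_lit 47) (nat_lit 5) (nat_lit 359) (nat_lit 347) (nat_lit 194)))) (XT.nd (nat_lit 156) (nat_lit 304) (nat_lit 0) (XT.nd (nat_lit 78) (nat_lit 152) (nat_lit 0) (XT.lf (nat_lit 0) (nat_lit 144524793199) (nat_lit 228) (nat_lit 53834336328) (nat_lit 304) (nat_lit 63801345804) (nat_lit 43) (nat_lit 5) (nat_lit 46) (nat_lit 5) (nat_lit 47) (nat_lit 5) (nat_lit 360) (nat_lit 347) (nat_lit 193)) (XT.lf (nat_lit 0) (nat_lit 23517186319) (nat_lit 152) (nat_lit 223223398024) (nat_lit 228) (nat_lit 27811981941) (nat_lit 41) (nat_lit 5) (nat_lit 43) (nat_lit 5) (nat_lit 44) (nat_lit 5) (nat_lit 361) (nat_lit 347) (nat_lit 192)))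 (XT.nd (nat_lit 78) (nat_lit 228) (nat_lit 0) (XT.lf (nat_lit 0) (nat_lit 15201521786) (nat_lit 228) (nat_lit 106774289909) (nat_lit 76) (nat_lit 165563093501) (nat_lit 40) (nat_lit 5) (nat_lit 43) (nat_lit 5) (nat_lit 41) (nat_lit 5) (nat_lit 362) (nat_lit 347) (nat_lit 191)) (XT.nd (nat_lit 78) (nat_lit 0) (nat_lit 0) (XT.lf (nat_lit 0) (nat_lit 50848815369) (nat_lit 228) (nat_lit 10527523968) (nat_lit 304) (nat_lit 240032196633) (nat_lit 37) (nat_lit 5) (nat_lit 40) (nat_lit 5) (nat_lit 41) (nat_lit 5) (nat_lit 363) (nat_lit 347) (nat_lit 190)) (XT.lf (nat_lit 0) (nat_lit 116881834379) (nat_lit 304) (nat_lit 91717620500) (nat_lit 76) (nat_lit 107337347065) (nat_lit 37) (nat_lit 5) (nat_lit 41) (nat_lit 5) (nat_lit 38) (nat_lit 5) (nat_lit 364) (nat_lit 347) (nat_lit 189)))))) (XT.nd (nat_lit 312) (nat_lit 456) (nat_lit 0) (XT.nd (nat_lit 156) (nat_lit 228) (nat_lit 0) (XT.nd (nat_lit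 78) (nat_lit 0) (nat_lit 0) (XT.lf (nat_lit 0) (nat_lit 83747663217) (nat_lit 152) (nat_lit 95367581061) (nat_lit 228) (nat_lit 152329086999) (nat_lit 35) (nat_lit 5) (nat_lit 37) (nat_lit 5) (nat_lit 38) (nat_lit 5) (nat_lit 365) (nat_lit 347) (nat_lit 188)) (XT.lf (nat_lit 0) (nat_lit 249547582863) (nat_lit 228) (nat_lit 70238386644) (nat_lit 76) (nat_lit 28148873071) (nat_lit 35) (nat_lit 5) (nat_lit 38) (nat_lit 5) (nat_lit 36) (nat_lit 5) (nat_lit 366) (nat_lit 347) (nat_lit 187))) (XT.nd (nat_lit 78) (nat_lit 76) (nat_lit 0) (XT.lf (nat_lit 0) (nat_lit 125202480175) (nat_lit 152) (nat_lit 205900141188) (nat_lit 228) (nat_lit 34202924478) (nat_lit 33) (nat_lit 5) (nat_lit 35) (nat_lit 5) (nat_lit 36) (nat_lit 5) (nat_lit 367) (nat_lit 347) (nat_lit 186)) (XT.lf (nat_lit 0) (nat_lit 35329740110) (nat_lit 228) (nat_lit 44533694033) (nat_lit 76) (nat_lit 303977288944) (nat_lit 32) (nat_lit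 5) (nat_lit 35) (nat_lit 5) (nat_lit 33) (nat_lit 5) (nat_lit 368) (nat_lit 347) (nat_lit 185)))) (XT.nd (nat_lit 156) (nat_lit 304) (nat_lit 0) (XT.nd (nat_lit 78) (nat_lit 0) (nat_lit 0) (XT.lf (nat_lit 0) (nat_lit 114259431007) (nat_lit 228) (nat_lit 230413858386) (nat_lit 76) (nat_lit 58659773418) (nat_lit 30) (nat_lit 5) (nat_lit 33) (nat_lit 5) (nat_lit 31) (nat_lit 5) (nat_lit 369) (nat_lit 347) (nat_lit 184)) (XT.lf (nat_lit 0) (nat_lit 202827049083) (nat_lit 228) (nat_lit 16092501521) (nat_lit 76) (nat_lit 205199355022) (nat_lit 30) (nat_lit 5) (nat_lit 33) (nat_lit 5) (nat_lit 31) (nat_lit 5) (nat_lit 370) (nat_lit 347) (nat_lit 183))) (XT.nd (nat_lit 78) (nat_lit 152) (nat_lit 0) (XT.lf (nat_lit 0) (nat_lit 226715683992) (nat_lit 152) (nat_lit 77216836303) (nat_lit 228) (nat_lit 142198900131) (nat_lit 28) (nat_lit 5) (nat_lit 30) (nat_lit 5) (nat_lit 31) (nat_lit 5) (nat_lit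 371) (nat_lit 347) (nat_lit 182)) (XT.nd (nat_lit 78) (nat_lit 76) (nat_lit 0) (XT.lf (nat_lit 0) (nat_lit 19115128591) (nat_lit 76) (nat_lit 396745896908) (nat_lit 152) (nat_lit 53825143262) (nat_lit 27) (nat_lit 5) (nat_lit 28) (nat_lit 5) (nat_lit 29) (nat_lit 4) (nat_lit 372) (nat_lit 347) (nat_lit 181)) (XT.lf (nat_lit 0) (nat_lit 47697186955) (nat_lit 152) (nat_lit 208601030945) (nat_lit 76) (nat_lit 238094157053) (nat_lit 26) (nat_lit 5) (nat_lit 28) (nat_lit 5) (nat_lit 27) (nat_lit 5) (nat_lit 373) (nat_lit 347) (nat_lit 180))))))) (XT.nd (nat_lit 702) (nat_lit 456) (nat_lit 0) (XT.nd (nat_lit 312) (nat_lit 380) (nat_lit 0) (XT.nd (nat_lit 156) (nat_lit 76) (nat_lit 0) (XT.nd (nat_lit 78) (nat_lit 0) (nat_lit 0) (XT.lf (nat_lit 0) (nat_lit 54031276233) (nat_lit 152) (nat_lit 101701458837) (nat_lit 228) (nat_lit 365126547178) (nat_lit 24) (nat_lit 5) (nat_lit 26) (nat_lit 5) (nat_lit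 27) (nat_lit 5) (nat_lit 374) (nat_lit 347) (nat_lit 179)) (XT.lf (nat_lit 0) (nat_lit 279832305070) (nat_lit 228) (nat_lit 201167599741) (nat_lit 76) (nat_lit 67849943111) (nat_lit 24) (nat_lit 5) (nat_lit 27) (nat_lit 5) (nat_lit 25) (nat_lit 4) (nat_lit 375) (nat_lit 347) (nat_lit 178))) (XT.nd (nat_lit 78) (nat_lit 0) (nat_lit 0) (XT.lf (nat_lit 0) (nat_lit 87480045457) (nat_lit 76) (nat_lit 331125228602) (nat_lit 152) (nat_lit 160094750159) (nat_lit 23) (nat_lit 5) (nat_lit 24) (nat_lit 5) (nat_lit 25) (nat_lit 4) (nat_lit 376) (nat_lit 347) (nat_lit 177)) (XT.lf (nat_lit 0) (nat_lit 410659981123) (nat_lit 76) (nat_lit 163320320009) (nat_lit 152) (nat_lit 36517895872) (nat_lit 23) (nat_lit 5) (nat_lit 24) (nat_lit 5) (nat_lit 25) (nat_lit 4) (nat_lit 377) (nat_lit 347) (nat_lit 176)))) (XT.nd (nat_lit 156) (nat_lit 152) (nat_lit 0) (XT.nd (nat_lit 78) (nat_lit 0) (nat_lit 0) (XT.lf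 (nat_lit 0) (nat_lit 95509395661) (nat_lit 228) (nat_lit 526543380118) (nat_lit 76) (nat_lit 22327815230) (nat_lit 20) (nat_lit 5) (nat_lit 23) (nat_lit 5) (nat_lit 21) (nat_lit 4) (nat_lit 378) (nat_lit 347) (nat_lit 175)) (XT.lf (nat_lit 0) (nat_lit 245973838737) (nat_lit 228) (nat_lit 213577434291) (nat_lit 76) (nat_lit 220558591541) (nat_lit 20) (nat_lit 5) (nat_lit 23) (nat_lit 5) (nat_lit 21) (nat_lit 4) (nat_lit 379) (nat_lit 347) (nat_lit 174))) (XT.nd (nat_lit 78) (nat_lit 76) (nat_lit 0) (XT.lf (nat_lit 0) (nat_lit 130977733956) (nat_lit 76) (nat_lit 280647670610) (nat_lit 152) (nat_lit 306820078088) (nat_lit 19) (nat_lit 5) (nat_lit 20) (nat_lit 5) (nat_lit 21) (nat_lit 4) (nat_lit 380) (nat_lit 347) (nat_lit 173)) (XT.nd (nat_lit 78) (nat_lit 76) (nat_lit 0) (XT.lf (nat_lit 0) (nat_lit 515243565917) (nat_lit 76) (nat_lit 81125066568) (nat_lit 152) (nat_lit 163012154780) (nat_lit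 19) (nat_lit 5) (nat_lit 20) (nat_lit 5) (nat_lit 21) (nat_lit 4) (nat_lit 381) (nat_lit 347) (nat_lit 172)) (XT.lf (nat_lit 0) (nat_lit 129927835273) (nat_lit 76) (nat_lit 672319550443) (nat_lit 76) (nat_lit 835045183) (nat_lit 18) (nat_lit 4) (nat_lit 19) (nat_lit 5) (nat_lit 19) (nat_lit 4) (nat_lit 382) (nat_lit 347) (nat_lit 171)))))) (XT.nd (nat_lit 312) (nat_lit 228) (nat_lit 0) (XT.nd (nat_lit 156) (nat_lit 76) (nat_lit 0) (XT.nd (nat_lit 78) (nat_lit 76) (nat_lit 0) (XT.lf (nat_lit 0) (nat_lit 174551852730) (nat_lit 152) (nat_lit 308416716761) (nat_lit 76) (nat_lit 366259801901) (nat_lit 17) (nat_lit 5) (nat_lit 19) (nat_lit 5) (nat_lit 18) (nat_lit 4) (nat_lit 383) (nat_lit 347) (nat_lit 170)) (XT.lf (nat_lit 0) (nat_lit 89979567292) (nat_lit 76) (nat_lit 276108989479) (nat_lit 152) (nat_lit 532802577737) (nat_lit 16) (nat_lit 5) (nat_lit 17) (nat_lit 5) (nat_lit 18) (nat_lit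 4) (nat_lit 384) (nat_lit 347) (nat_lit 169))) (XT.nd (nat_lit 78) (nat_lit 76) (nat_lit 0) (XT.lf (nat_lit 0) (nat_lit 537787409999) (nat_lit 76) (nat_lit 43593405710) (nat_lit 152) (nat_lit 370471493496) (nat_lit 16) (nat_lit 5) (nat_lit 17) (nat_lit 5) (nat_lit 18) (nat_lit 4) (nat_lit 385) (nat_lit 347) (nat_lit 168)) (XT.lf (nat_lit 0) (nat_lit 7767024219) (nat_lit 76) (nat_lit 811307132851) (nat_lit 76) (nat_lit 189562004685) (nat_lit 15) (nat_lit 4) (nat_lit 16) (nat_lit 5) (nat_lit 16) (nat_lit 4) (nat_lit 386) (nat_lit 347) (nat_lit 167)))) (XT.nd (nat_lit 156) (nat_lit 152) (nat_lit 0) (XT.nd (nat_lit 78) (nat_lit 0) (nat_lit 0) (XT.lf (nat_lit 0) (nat_lit 18276675800) (nat_lit 152) (nat_lit 583729686862) (nat_lit 76) (nat_lit 466925354923) (nat_lit 14) (nat_lit 5) (nat_lit 16) (nat_lit 5) (nat_lit 15) (nat_lit 4) (nat_lit 387) (nat_lit 347) (nat_lit 166)) (XT.lf (nat_lit 0)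 (nat_lit 232501143053) (nat_lit 152) (nat_lit 138142836050) (nat_lit 76) (nat_lit 763013046573) (nat_lit 14) (nat_lit 5) (nat_lit 16) (nat_lit 5) (nat_lit 15) (nat_lit 4) (nat_lit 388) (nat_lit 347) (nat_lit 165))) (XT.nd (nat_lit 78) (nat_lit 76) (nat_lit 0) (XT.lf (nat_lit 0) (nat_lit 361157459145) (nat_lit 76) (nat_lit 111391921037) (nat_lit 152) (nat_lit 730316113245) (nat_lit 13) (nat_lit 5) (nat_lit 14) (nat_lit 5) (nat_lit 15) (nat_lit 4) (nat_lit 389) (nat_lit 347) (nat_lit 164)) (XT.nd (nat_lit 78) (nat_lit 76) (nat_lit 0) (XT.lf (nat_lit 0) (nat_lit 739731460463) (nat_lit 152) (nat_lit 373203399363) (nat_lit 0) (nat_lit 164041380046) (nat_lit 13) (nat_lit 5) (nat_lit 15) (nat_lit 4) (nat_lit 13) (nat_lit 4) (nat_lit 390) (nat_lit 347) (nat_lit 163)) (XT.lf (nat_lit 0) (nat_lit 136727936708) (nat_lit 76) (nat_lit 897741746913) (nat_lit 76) (nat_lit 322051636305) (nat_lit 12)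 (nat_lit 4) (nat_lit 13) (nat_lit 5) (nat_lit 13) (nat_lit 4) (nat_lit 391) (nat_lit 347) (nat_lit 162))))))))
noncomputable def xc215 : XT := (XT.nd (nat_lit 43446) (nat_lit 0) (nat_lit 2508) (XT.nd (nat_lit 702) (nat_lit 228) (nat_lit 0) (XT.nd (nat_lit 312) (nat_lit 228) (nat_lit 0) (XT.nd (nat_lit 156) (nat_lit 76) (nat_lit 0) (XT.nd (nat_lit 78) (nat_lit 76) (nat_lit 0) (XT.lf (nat_lit 0) (nat_lit 708678131011) (nat_lit 76) (nat_lit 654312846460) (nat_lit 76) (nat_lit 78622707896) (nat_lit 12) (nat_lit 4) (nat_lit 13) (nat_lit 5) (nat_lit 13) (nat_lit 4) (nat_lit 392) (nat_lit 347) (nat_lit 161)) (XT.lf (nat_lit 0) (nat_lit 175062048086) (nat_lit 152) (nat_lit 211561104427) (nat_lit 76) (nat_lit 1146535733673) (nat_lit 11) (nat_lit 5) (nat_lit 13) (nat_lit 5) (nat_lit 12) (nat_lit 4) (nat_lit 393) (nat_lit 347) (nat_lit 160))) (XT.nd (nat_lit 78) (nat_lit 0) (nat_lit 0) (XT.lf (nat_lit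 0) (nat_lit 367884158852) (nat_lit 76) (nat_lit 85757354256) (nat_lit 152) (nat_lit 1177515010354) (nat_lit 10) (nat_lit 5) (nat_lit 11) (nat_lit 5) (nat_lit 12) (nat_lit 4) (nat_lit 394) (nat_lit 347) (nat_lit 159)) (XT.lf (nat_lit 0) (nat_lit 766194240322) (nat_lit 152) (nat_lit 736717029985) (nat_lit 0) (nat_lit 233147749020) (nat_lit 10) (nat_lit 5) (nat_lit 12) (nat_lit 4) (nat_lit 10) (nat_lit 4) (nat_lit 395) (nat_lit 347) (nat_lit 158)))) (XT.nd (nat_lit 156) (nat_lit 152) (nat_lit 0) (XT.nd (nat_lit 78) (nat_lit 76) (nat_lit 0) (XT.lf (nat_lit 0) (nat_lit 1105978625619) (nat_lit 152) (nat_lit 170264778765) (nat_lit 0) (nat_lit 572932115291) (nat_lit 10) (nat_lit 5) (nat_lit 12) (nat_lit 4) (nat_lit 10) (nat_lit 4) (nat_lit 396) (nat_lit 347) (nat_lit 157)) (XT.lf (nat_lit 0) (nat_lit 464752407229) (nat_lit 76) (nat_lit 1019370639006) (nat_lit 76) (nat_lit 486324111062) (nat_lit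 9) (nat_lit 4) (nat_lit 10) (nat_lit 5) (nat_lit 10) (nat_lit 4) (nat_lit 397) (nat_lit 347) (nat_lit 156))) (XT.nd (nat_lit 78) (nat_lit 152) (nat_lit 0) (XT.lf (nat_lit 0) (nat_lit 1160254035038) (nat_lit 76) (nat_lit 736920304802) (nat_lit 76) (nat_lit 203873760546) (nat_lit 9) (nat_lit 4) (nat_lit 10) (nat_lit 5) (nat_lit 10) (nat_lit 4) (nat_lit 398) (nat_lit 347) (nat_lit 155)) (XT.nd (nat_lit 78) (nat_lit 76) (nat_lit 0) (XT.lf (nat_lit 0) (nat_lit 96111533527) (nat_lit 152) (nat_lit 333134569622) (nat_lit 76) (nat_lit 1812656361097) (nat_lit 8) (nat_lit 5) (nat_lit 10) (nat_lit 5) (nat_lit 9) (nat_lit 4) (nat_lit 399) (nat_lit 347) (nat_lit 154)) (XT.lf (nat_lit 0) (nat_lit 334579234871) (nat_lit 76) (nat_lit 82548557539) (nat_lit 152) (nat_lit 1975830021437) (nat_lit 7) (nat_lit 5) (nat_lit 8) (nat_lit 5) (nat_lit 9) (nat_lit 4) (nat_lit 400) (nat_lit 347) (nat_lit 153))))))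 (XT.nd (nat_lit 312) (nat_lit 152) (nat_lit 0) (XT.nd (nat_lit 156) (nat_lit 76) (nat_lit 0) (XT.nd (nat_lit 78) (nat_lit 0) (nat_lit 0) (XT.lf (nat_lit 0) (nat_lit 780190243145) (nat_lit 152) (nat_lit 1487969567813) (nat_lit 0) (nat_lit 286628589171) (nat_lit 7) (nat_lit 5) (nat_lit 9) (nat_lit 4) (nat_lit 7) (nat_lit 4) (nat_lit 401) (nat_lit 347) (nat_lit 152)) (XT.lf (nat_lit 0) (nat_lit 1174441790945) (nat_lit 152) (nat_lit 874071988423) (nat_lit 0) (nat_lit 680880125869) (nat_lit 7) (nat_lit 5) (nat_lit 9) (nat_lit 4) (nat_lit 7) (nat_lit 4) (nat_lit 402) (nat_lit 347) (nat_lit 151))) (XT.nd (nat_lit 78) (nat_lit 76) (nat_lit 0) (XT.lf (nat_lit 0) (nat_lit 1600233446483) (nat_lit 152) (nat_lit 211062634431) (nat_lit 0) (nat_lit 1106671771128) (nat_lit 7) (nat_lit 5) (nat_lit 9) (nat_lit 4) (nat_lit 7) (nat_lit 4) (nat_lit 403) (nat_lit 347) (nat_lit 150)) (XT.lf (nat_lit 0) (nat_lit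 531579182077) (nat_lit 76) (nat_lit 1541293729606) (nat_lit 76) (nat_lit 1047732044734) (nat_lit 6) (nat_lit 4) (nat_lit 7) (nat_lit 5) (nat_lit 7) (nat_lit 4) (nat_lit 404) (nat_lit 347) (nat_lit 149)))) (XT.nd (nat_lit 156) (nat_lit 152) (nat_lit 0) (XT.nd (nat_lit 78) (nat_lit 0) (nat_lit 0) (XT.lf (nat_lit 0) (nat_lit 1345635634291) (nat_lit 76) (nat_lit 1243458711791) (nat_lit 76) (nat_lit 749897018106) (nat_lit 6) (nat_lit 4) (nat_lit 7) (nat_lit 5) (nat_lit 7) (nat_lit 4) (nat_lit 405) (nat_lit 347) (nat_lit 148)) (XT.lf (nat_lit 0) (nat_lit 2224816576151) (nat_lit 76) (nat_lit 921796905674) (nat_lit 76) (nat_lit 428235203829) (nat_lit 6) (nat_lit 4) (nat_lit 7) (nat_lit 5) (nat_lit 7) (nat_lit 4) (nat_lit 406) (nat_lit 347) (nat_lit 147))) (XT.nd (nat_lit 78) (nat_lit 152) (nat_lit 0) (XT.lf (nat_lit 0) (nat_lit 3174331968793) (nat_lit 76) (nat_lit 574402167220) (nat_lit 76) (nat_lit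 80840457820) (nat_lit 6) (nat_lit 4) (nat_lit 7) (nat_lit 5) (nat_lit 7) (nat_lit 4) (nat_lit 407) (nat_lit 347) (nat_lit 146)) (XT.nd (nat_lit 78) (nat_lit 0) (nat_lit 0) (XT.lf (nat_lit 0) (nat_lit 92687577629) (nat_lit 76) (nat_lit 189163044498) (nat_lit 152) (nat_lit 3822083300392) (nat_lit 4) (nat_lit 5) (nat_lit 5) (nat_lit 5) (nat_lit 6) (nat_lit 4) (nat_lit 408) (nat_lit 347) (nat_lit 145)) (XT.lf (nat_lit 0) (nat_lit 693027159544) (nat_lit 152) (nat_lit 3469114281049) (nat_lit 0) (nat_lit 236025564291) (nat_lit 4) (nat_lit 5) (nat_lit 6) (nat_lit 4) (nat_lit 4) (nat_lit 4) (nat_lit 409) (nat_lit 347) (nat_lit 144))))))) (XT.nd (nat_lit 702) (nat_lit 1216) (nat_lit 0) (XT.nd (nat_lit 312) (nat_lit 380) (nat_lit 0) (XT.nd (nat_lit 156) (nat_lit 0) (nat_lit 76) (XT.nd (nat_lit 78) (nat_lit 0) (nat_lit 0) (XT.lf (nat_lit 0) (nat_lit 66473985159) (nat_lit 532) (nat_lit 7696267423)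 (nat_lit 532) (nat_lit 7696267423) (nat_lit 58) (nat_lit 3) (nat_lit 65) (nat_lit 3) (nat_lit 65) (nat_lit 5) (nat_lit 348) (nat_lit 348) (nat_lit 204)) (XT.lf (nat_lit 76) (nat_lit 66195670172) (nat_lit 0) (nat_lit 73664495876) (nat_lit 532) (nat_lit 30294650007) (nat_lit 59) (nat_lit 5) (nat_lit 58) (nat_lit 3) (nat_lit 65) (nat_lit 5) (nat_lit 349) (nat_lit 348) (nat_lit 203))) (XT.nd (nat_lit 78) (nat_lit 0) (nat_lit 0) (XT.lf (nat_lit 0) (nat_lit 147924903996) (nat_lit 456) (nat_lit 22049432301) (nat_lit 532) (nat_lit 7068032902) (nat_lit 59) (nat_lit 5) (nat_lit 65) (nat_lit 5) (nat_lit 66) (nat_lit 5) (nat_lit 350) (nat_lit 348) (nat_lit 202)) (XT.lf (nat_lit 76) (nat_lit 67895987847) (nat_lit 0) (nat_lit 92284885935) (nat_lit 532) (nat_lit 24016368903) (nat_lit 60) (nat_lit 5) (nat_lit 59) (nat_lit 5) (nat_lit 66) (nat_lit 5) (nat_lit 351) (nat_lit 348) (nat_lit 201)))) (XT.nd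 (nat_lit 156) (nat_lit 456) (nat_lit 0) (XT.nd (nat_lit 78) (nat_lit 0) (nat_lit 76) (XT.lf (nat_lit 76) (nat_lit 166290876603) (nat_lit 0) (nat_lit 7729116590) (nat_lit 532) (nat_lit 17856299385) (nat_lit 60) (nat_lit 5) (nat_lit 59) (nat_lit 5) (nat_lit 66) (nat_lit 5) (nat_lit 352) (nat_lit 348) (nat_lit 200)) (XT.lf (nat_lit 76) (nat_lit 74083117172) (nat_lit 0) (nat_lit 118675011633) (nat_lit 532) (nat_lit 7108186995) (nat_lit 61) (nat_lit 5) (nat_lit 60) (nat_lit 5) (nat_lit 67) (nat_lit 5) (nat_lit 353) (nat_lit 348) (nat_lit 199))) (XT.nd (nat_lit 78) (nat_lit 0) (nat_lit 76) (XT.lf (nat_lit 0) (nat_lit 5192977541) (nat_lit 532) (nat_lit 25586672712) (nat_lit 608) (nat_lit 177633769278) (nat_lit 53) (nat_lit 5) (nat_lit 60) (nat_lit 5) (nat_lit 61) (nat_lit 5) (nat_lit 354) (nat_lit 348) (nat_lit 198)) (XT.nd (nat_lit 78) (nat_lit 0) (nat_lit 0) (XT.lf (nat_lit 0) (nat_lit 21782905675)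 (nat_lit 532) (nat_lit 132282320835) (nat_lit 76) (nat_lit 63269199233) (nat_lit 54) (nat_lit 5) (nat_lit 61) (nat_lit 5) (nat_lit 55) (nat_lit 5) (nat_lit 355) (nat_lit 348) (nat_lit 197)) (XT.lf (nat_lit 0) (nat_lit 41217101111) (nat_lit 532) (nat_lit 21733813334) (nat_lit 76) (nat_lit 163896832362) (nat_lit 54) (nat_lit 5) (nat_lit 61) (nat_lit 5) (nat_lit 55) (nat_lit 5) (nat_lit 356) (nat_lit 348) (nat_lit 196)))))) (XT.nd (nat_lit 312) (nat_lit 456) (nat_lit 0) (XT.nd (nat_lit 156) (nat_lit 456) (nat_lit 0) (XT.nd (nat_lit 78) (nat_lit 0) (nat_lit 0) (XT.lf (nat_lit 0) (nat_lit 65595106725) (nat_lit 456) (nat_lit 135040248627) (nat_lit 76) (nat_lit 36215652425) (nat_lit 49) (nat_lit 5) (nat_lit 55) (nat_lit 5) (nat_lit 50) (nat_lit 5) (nat_lit 357) (nat_lit 348) (nat_lit 195)) (XT.lf (nat_lit 0) (nat_lit 94167981799) (nat_lit 456) (nat_lit 12782738688) (nat_lit 76) (nat_lit 140524238986)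 (nat_lit 49) (nat_lit 5) (nat_lit 55) (nat_lit 5) (nat_lit 50) (nat_lit 5) (nat_lit 358) (nat_lit 348) (nat_lit 194))) (XT.nd (nat_lit 78) (nat_lit 228) (nat_lit 0) (XT.lf (nat_lit 0) (nat_lit 125535008750) (nat_lit 228) (nat_lit 2510672664) (nat_lit 304) (nat_lit 130661626486) (nat_lit 46) (nat_lit 5) (nat_lit 49) (nat_lit 5) (nat_lit 50) (nat_lit 5) (nat_lit 359) (nat_lit 348) (nat_lit 193)) (XT.lf (nat_lit 0) (nat_lit 2287735785) (nat_lit 228) (nat_lit 165411689302) (nat_lit 304) (nat_lit 102893553012) (nat_lit 43) (nat_lit 5) (nat_lit 46) (nat_lit 5) (nat_lit 47) (nat_lit 5) (nat_lit 360) (nat_lit 348) (nat_lit 192)))) (XT.nd (nat_lit 156) (nat_lit 304) (nat_lit 0) (XT.nd (nat_lit 78) (nat_lit 152) (nat_lit 0) (XT.lf (nat_lit 0) (nat_lit 156089418516) (nat_lit 228) (nat_lit 58140663816) (nat_lit 304) (nat_lit 68903050592) (nat_lit 43) (nat_lit 5) (nat_lit 46) (nat_lit 5) (nat_lit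 47) (nat_lit 5) (nat_lit 361) (nat_lit 348) (nat_lit 191)) (XT.lf (nat_lit 0) (nat_lit 25401302237) (nat_lit 152) (nat_lit 241080661933) (nat_lit 228) (nat_lit 30034634329) (nat_lit 41) (nat_lit 5) (nat_lit 43) (nat_lit 5) (nat_lit 44) (nat_lit 5) (nat_lit 362) (nat_lit 348) (nat_lit 190))) (XT.nd (nat_lit 78) (nat_lit 228) (nat_lit 0) (XT.lf (nat_lit 0) (nat_lit 16419672051) (nat_lit 228) (nat_lit 115313586215) (nat_lit 76) (nat_lit 178808594970) (nat_lit 40) (nat_lit 5) (nat_lit 43) (nat_lit 5) (nat_lit 41) (nat_lit 5) (nat_lit 363) (nat_lit 348) (nat_lit 189)) (XT.nd (nat_lit 78) (nat_lit 0) (nat_lit 0) (XT.lf (nat_lit 0) (nat_lit 54919300475) (nat_lit 228) (nat_lit 11369086315) (nat_lit 304) (nat_lit 259232674893) (nat_lit 37) (nat_lit 5) (nat_lit 40) (nat_lit 5) (nat_lit 41) (nat_lit 5) (nat_lit 364) (nat_lit 348) (nat_lit 188)) (XT.lf (nat_lit 0) (nat_lit 126234191953) (nat_lit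 304) (nat_lit 99052510086) (nat_lit 76) (nat_lit 115924897401) (nat_lit 37) (nat_lit 5) (nat_lit 41) (nat_lit 5) (nat_lit 38) (nat_lit 5) (nat_lit 365) (nat_lit 348) (nat_lit 187))))))))
noncomputable def xc216 : XT := (XT.nd (nat_lit 1404) (nat_lit 836) (nat_lit 0) (XT.nd (nat_lit 702) (nat_lit 608) (nat_lit 0) (XT.nd (nat_lit 312) (nat_lit 456) (nat_lit 0) (XT.nd (nat_lit 156) (nat_lit 228) (nat_lit 0) (XT.nd (nat_lit 78) (nat_lit 0) (nat_lit 0) (XT.lf (nat_lit 0) (nat_lit 90449932530) (nat_lit 152) (nat_lit 102996267052) (nat_lit 228) (nat_lit 164513537676) (nat_lit 35) (nat_lit 5) (nat_lit 37) (nat_lit 5) (nat_lit 38) (nat_lit 5) (nat_lit 366) (nat_lit 348) (nat_lit 186)) (XT.lf (nat_lit 0) (nat_lit 269513012722) (nat_lit 228) (nat_lit 75855069195) (nat_lit 76) (nat_lit 30401416669) (nat_lit 35) (nat_lit 5) (nat_lit 38) (nat_lit 5) (nat_lit 36) (nat_lit 5) (nat_lit 367) (nat_lit 348)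 (nat_lit 185))) (XT.nd (nat_lit 78) (nat_lit 76) (nat_lit 0) (XT.lf (nat_lit 0) (nat_lit 135221006504) (nat_lit 152) (nat_lit 222371383546) (nat_lit 228) (nat_lit 36937473316) (nat_lit 33) (nat_lit 5) (nat_lit 35) (nat_lit 5) (nat_lit 36) (nat_lit 5) (nat_lit 368) (nat_lit 348) (nat_lit 184)) (XT.lf (nat_lit 0) (nat_lit 38157601563) (nat_lit 228) (nat_lit 48094154805) (nat_lit 76) (nat_lit 328296104764) (nat_lit 32) (nat_lit 5) (nat_lit 35) (nat_lit 5) (nat_lit 33) (nat_lit 5) (nat_lit 369) (nat_lit 348) (nat_lit 183)))) (XT.nd (nat_lit 156) (nat_lit 304) (nat_lit 0) (XT.nd (nat_lit 78) (nat_lit 0) (nat_lit 0) (XT.lf (nat_lit 0) (nat_lit 123401628440) (nat_lit 228) (nat_lit 248844691883) (nat_lit 76) (nat_lit 63353270947) (nat_lit 30) (nat_lit 5) (nat_lit 33) (nat_lit 5) (nat_lit 31) (nat_lit 5) (nat_lit 370) (nat_lit 348) (nat_lit 182)) (XT.lf (nat_lit 0) (nat_lit 219054549076) (nat_lit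 228) (nat_lit 17377794999) (nat_lit 76) (nat_lit 221615966067) (nat_lit 30) (nat_lit 5) (nat_lit 33) (nat_lit 5) (nat_lit 31) (nat_lit 5) (nat_lit 371) (nat_lit 348) (nat_lit 181))) (XT.nd (nat_lit 78) (nat_lit 152) (nat_lit 0) (XT.lf (nat_lit 0) (nat_lit 244854992022) (nat_lit 152) (nat_lit 83393416377) (nat_lit 228) (nat_lit 153573421772) (nat_lit 28) (nat_lit 5) (nat_lit 30) (nat_lit 5) (nat_lit 31) (nat_lit 5) (nat_lit 372) (nat_lit 348) (nat_lit 180)) (XT.nd (nat_lit 78) (nat_lit 76) (nat_lit 0) (XT.lf (nat_lit 0) (nat_lit 20646423489) (nat_lit 76) (nat_lit 428484742447) (nat_lit 152) (nat_lit 58129794757) (nat_lit 27) (nat_lit 5) (nat_lit 28) (nat_lit 5) (nat_lit 29) (nat_lit 4) (nat_lit 373) (nat_lit 348) (nat_lit 179)) (XT.lf (nat_lit 0) (nat_lit 51514158148) (nat_lit 152) (nat_lit 225287119464) (nat_lit 76) (nat_lit 257142390869) (nat_lit 26) (nat_lit 5) (nat_lit 28) (nat_lit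 5) (nat_lit 27) (nat_lit 5) (nat_lit 374) (nat_lit 348) (nat_lit 178)))))) (XT.nd (nat_lit 312) (nat_lit 380) (nat_lit 0) (XT.nd (nat_lit 156) (nat_lit 76) (nat_lit 0) (XT.nd (nat_lit 78) (nat_lit 0) (nat_lit 0) (XT.lf (nat_lit 0) (nat_lit 58355721808) (nat_lit 152) (nat_lit 109836786434) (nat_lit 228) (nat_lit 394335423523) (nat_lit 24) (nat_lit 5) (nat_lit 26) (nat_lit 5) (nat_lit 27) (nat_lit 5) (nat_lit 375) (nat_lit 348) (nat_lit 177)) (XT.lf (nat_lit 0) (nat_lit 302219975907) (nat_lit 228) (nat_lit 217259139609) (nat_lit 76) (nat_lit 73278632667) (nat_lit 24) (nat_lit 5) (nat_lit 27) (nat_lit 5) (nat_lit 25) (nat_lit 4) (nat_lit 376) (nat_lit 348) (nat_lit 176))) (XT.nd (nat_lit 78) (nat_lit 0) (nat_lit 0) (XT.lf (nat_lit 0) (nat_lit 94480269911) (nat_lit 76) (nat_lit 357614475817) (nat_lit 152) (nat_lit 172901195836) (nat_lit 23) (nat_lit 5) (nat_lit 24) (nat_lit 5) (nat_lit 25)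 (nat_lit 4) (nat_lit 377) (nat_lit 348) (nat_lit 175)) (XT.lf (nat_lit 0) (nat_lit 443514465555) (nat_lit 76) (nat_lit 176385231653) (nat_lit 152) (nat_lit 39438277231) (nat_lit 23) (nat_lit 5) (nat_lit 24) (nat_lit 5) (nat_lit 25) (nat_lit 4) (nat_lit 378) (nat_lit 348) (nat_lit 174)))) (XT.nd (nat_lit 156) (nat_lit 152) (nat_lit 0) (XT.nd (nat_lit 78) (nat_lit 0) (nat_lit 0) (XT.lf (nat_lit 0) (nat_lit 103151129504) (nat_lit 228) (nat_lit 568665095455) (nat_lit 76) (nat_lit 24114734269) (nat_lit 20) (nat_lit 5) (nat_lit 23) (nat_lit 5) (nat_lit 21) (nat_lit 4) (nat_lit 379) (nat_lit 348) (nat_lit 173)) (XT.lf (nat_lit 0) (nat_lit 265652655272) (nat_lit 228) (nat_lit 230662003968) (nat_lit 76) (nat_lit 238203921291) (nat_lit 20) (nat_lit 5) (nat_lit 23) (nat_lit 5) (nat_lit 21) (nat_lit 4) (nat_lit 380) (nat_lit 348) (nat_lit 172))) (XT.nd (nat_lit 78) (nat_lit 76) (nat_lit 0) (XT.lf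 (nat_lit 0) (nat_lit 141457536599) (nat_lit 76) (nat_lit 303098780497) (nat_lit 152) (nat_lit 331364733342) (nat_lit 19) (nat_lit 5) (nat_lit 20) (nat_lit 5) (nat_lit 21) (nat_lit 4) (nat_lit 381) (nat_lit 348) (nat_lit 171)) (XT.nd (nat_lit 78) (nat_lit 76) (nat_lit 0) (XT.lf (nat_lit 0) (nat_lit 556464517788) (nat_lit 76) (nat_lit 87614420262) (nat_lit 152) (nat_lit 176052246613) (nat_lit 19) (nat_lit 5) (nat_lit 20) (nat_lit 5) (nat_lit 21) (nat_lit 4) (nat_lit 382) (nat_lit 348) (nat_lit 170)) (XT.lf (nat_lit 0) (nat_lit 140323540211) (nat_lit 76) (nat_lit 726104441020) (nat_lit 76) (nat_lit 900979410) (nat_lit 18) (nat_lit 4) (nat_lit 19) (nat_lit 5) (nat_lit 19) (nat_lit 4) (nat_lit 383) (nat_lit 348) (nat_lit 169))))))) (XT.nd (nat_lit 702) (nat_lit 380) (nat_lit 0) (XT.nd (nat_lit 312) (nat_lit 228) (nat_lit 0) (XT.nd (nat_lit 156) (nat_lit 76) (nat_lit 0) (XT.nd (nat_lit 78)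 (nat_lit 76) (nat_lit 0) (XT.lf (nat_lit 0) (nat_lit 188516765668) (nat_lit 152) (nat_lit 333088644902) (nat_lit 76) (nat_lit 395561169050) (nat_lit 17) (nat_lit 5) (nat_lit 19) (nat_lit 5) (nat_lit 18) (nat_lit 4) (nat_lit 384) (nat_lit 348) (nat_lit 168)) (XT.lf (nat_lit 0) (nat_lit 97179306200) (nat_lit 76) (nat_lit 298197076220) (nat_lit 152) (nat_lit 575425983278) (nat_lit 16) (nat_lit 5) (nat_lit 17) (nat_lit 5) (nat_lit 18) (nat_lit 4) (nat_lit 385) (nat_lit 348) (nat_lit 167))) (XT.nd (nat_lit 78) (nat_lit 76) (nat_lit 0) (XT.lf (nat_lit 0) (nat_lit 580811674581) (nat_lit 76) (nat_lit 47080292595) (nat_lit 152) (nat_lit 400108471607) (nat_lit 16) (nat_lit 5) (nat_lit 17) (nat_lit 5) (nat_lit 18) (nat_lit 4) (nat_lit 386) (nat_lit 348) (nat_lit 166)) (XT.lf (nat_lit 0) (nat_lit 8389665778) (nat_lit 76) (nat_lit 876211103052) (nat_lit 76) (nat_lit 204726231287) (nat_lit 15) (nat_lit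 4) (nat_lit 16) (nat_lit 5) (nat_lit 16) (nat_lit 4) (nat_lit 387) (nat_lit 348) (nat_lit 165)))) (XT.nd (nat_lit 156) (nat_lit 152) (nat_lit 0) (XT.nd (nat_lit 78) (nat_lit 0) (nat_lit 0) (XT.lf (nat_lit 0) (nat_lit 19739455296) (nat_lit 152) (nat_lit 630426842782) (nat_lit 76) (nat_lit 504279905072) (nat_lit 14) (nat_lit 5) (nat_lit 16) (nat_lit 5) (nat_lit 15) (nat_lit 4) (nat_lit 388) (nat_lit 348) (nat_lit 164)) (XT.lf (nat_lit 0) (nat_lit 251101832120) (nat_lit 152) (nat_lit 149193134203) (nat_lit 76) (nat_lit 824054573406) (nat_lit 14) (nat_lit 5) (nat_lit 16) (nat_lit 5) (nat_lit 15) (nat_lit 4) (nat_lit 389) (nat_lit 348) (nat_lit 163))) (XT.nd (nat_lit 78) (nat_lit 76) (nat_lit 0) (XT.lf (nat_lit 0) (nat_lit 390051156032) (nat_lit 76) (nat_lit 120302754377) (nat_lit 152) (nat_lit 788740775929) (nat_lit 13) (nat_lit 5) (nat_lit 14) (nat_lit 5) (nat_lit 15) (nat_lit 4) (nat_lit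 390) (nat_lit 348) (nat_lit 162)) (XT.nd (nat_lit 78) (nat_lit 76) (nat_lit 0) (XT.lf (nat_lit 0) (nat_lit 798910525751) (nat_lit 152) (nat_lit 403058621123) (nat_lit 0) (nat_lit 177165148148) (nat_lit 13) (nat_lit 5) (nat_lit 15) (nat_lit 4) (nat_lit 13) (nat_lit 4) (nat_lit 391) (nat_lit 348) (nat_lit 161)) (XT.lf (nat_lit 0) (nat_lit 147667195247) (nat_lit 76) (nat_lit 969560595507) (nat_lit 76) (nat_lit 347815192019) (nat_lit 12) (nat_lit 4) (nat_lit 13) (nat_lit 5) (nat_lit 13) (nat_lit 4) (nat_lit 392) (nat_lit 348) (nat_lit 160)))))) (XT.nd (nat_lit 312) (nat_lit 228) (nat_lit 0) (XT.nd (nat_lit 156) (nat_lit 76) (nat_lit 0) (XT.nd (nat_lit 78) (nat_lit 76) (nat_lit 0) (XT.lf (nat_lit 0) (nat_lit 765373329272) (nat_lit 76) (nat_lit 706657419399) (nat_lit 76) (nat_lit 84911991944) (nat_lit 12) (nat_lit 4) (nat_lit 13) (nat_lit 5) (nat_lit 13) (nat_lit 4) (nat_lit 393) (nat_lit 348)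 (nat_lit 159)) (XT.lf (nat_lit 0) (nat_lit 189067480398) (nat_lit 152) (nat_lit 228485090417) (nat_lit 76) (nat_lit 1238258988667) (nat_lit 11) (nat_lit 5) (nat_lit 13) (nat_lit 5) (nat_lit 12) (nat_lit 4) (nat_lit 394) (nat_lit 348) (nat_lit 158))) (XT.nd (nat_lit 78) (nat_lit 0) (nat_lit 0) (XT.lf (nat_lit 0) (nat_lit 397315771080) (nat_lit 76) (nat_lit 92617517993) (nat_lit 152) (nat_lit 1271715719760) (nat_lit 10) (nat_lit 5) (nat_lit 11) (nat_lit 5) (nat_lit 12) (nat_lit 4) (nat_lit 395) (nat_lit 348) (nat_lit 157)) (XT.lf (nat_lit 0) (nat_lit 827490210222) (nat_lit 152) (nat_lit 795653553668) (nat_lit 0) (nat_lit 251799942426) (nat_lit 10) (nat_lit 5) (nat_lit 12) (nat_lit 4) (nat_lit 10) (nat_lit 4) (nat_lit 396) (nat_lit 348) (nat_lit 156)))) (XT.nd (nat_lit 156) (nat_lit 152) (nat_lit 0) (XT.nd (nat_lit 78) (nat_lit 76) (nat_lit 0) (XT.lf (nat_lit 0) (nat_lit 1194457314441) (nat_lit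 152) (nat_lit 183885184478) (nat_lit 0) (nat_lit 618767030333) (nat_lit 10) (nat_lit 5) (nat_lit 12) (nat_lit 4) (nat_lit 10) (nat_lit 4) (nat_lit 397) (nat_lit 348) (nat_lit 155)) (XT.lf (nat_lit 0) (nat_lit 501933356736) (nat_lit 76) (nat_lit 1100919920636) (nat_lit 76) (nat_lit 525229621425) (nat_lit 9) (nat_lit 4) (nat_lit 10) (nat_lit 5) (nat_lit 10) (nat_lit 4) (nat_lit 398) (nat_lit 348) (nat_lit 154))) (XT.nd (nat_lit 78) (nat_lit 152) (nat_lit 0) (XT.lf (nat_lit 0) (nat_lit 1253075058701) (nat_lit 76) (nat_lit 795873587065) (nat_lit 76) (nat_lit 220183273869) (nat_lit 9) (nat_lit 4) (nat_lit 10) (nat_lit 5) (nat_lit 10) (nat_lit 4) (nat_lit 399) (nat_lit 348) (nat_lit 153)) (XT.nd (nat_lit 78) (nat_lit 76) (nat_lit 0) (XT.lf (nat_lit 0) (nat_lit 103800797075) (nat_lit 152) (nat_lit 359784668227) (nat_lit 76) (nat_lit 1957669168743) (nat_lit 8) (nat_lit 5) (nat_lit 10) (nat_lit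 5) (nat_lit 9) (nat_lit 4) (nat_lit 400) (nat_lit 348) (nat_lit 152)) (XT.lf (nat_lit 0) (nat_lit 361346223739) (nat_lit 76) (nat_lit 89152123314) (nat_lit 152) (nat_lit 2133896065335) (nat_lit 7) (nat_lit 5) (nat_lit 8) (nat_lit 5) (nat_lit 9) (nat_lit 4) (nat_lit 401) (nat_lit 348) (nat_lit 151))))))))
noncomputable def xc217 : XT := (XT.nd (nat_lit 43524) (nat_lit 0) (nat_lit 1520) (XT.nd (nat_lit 42822) (nat_lit 0) (nat_lit 3420) (XT.nd (nat_lit 312) (nat_lit 152) (nat_lit 0) (XT.nd (nat_lit 156) (nat_lit 76) (nat_lit 0) (XT.nd (nat_lit 78) (nat_lit 0) (nat_lit 0) (XT.lf (nat_lit 0) (nat_lit 842605776410) (nat_lit 152) (nat_lit 1607006513814) (nat_lit 0) (nat_lit 309559156748) (nat_lit 7) (nat_lit 5) (nat_lit 9) (nat_lit 4) (nat_lit 7) (nat_lit 4) (nat_lit 402) (nat_lit 348) (nat_lit 150)) (XT.lf (nat_lit 0) (nat_lit 1268397424788) (nat_lit 152) (nat_lit 943997173956) (nat_lit 0)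 (nat_lit 735350795609) (nat_lit 7) (nat_lit 5) (nat_lit 9) (nat_lit 4) (nat_lit 7) (nat_lit 4) (nat_lit 403) (nat_lit 348) (nat_lit 149))) (XT.nd (nat_lit 78) (nat_lit 76) (nat_lit 0) (XT.lf (nat_lit 0) (nat_lit 1728252391246) (nat_lit 152) (nat_lit 227947114130) (nat_lit 0) (nat_lit 1195205753254) (nat_lit 7) (nat_lit 5) (nat_lit 9) (nat_lit 4) (nat_lit 7) (nat_lit 4) (nat_lit 404) (nat_lit 348) (nat_lit 148)) (XT.lf (nat_lit 0) (nat_lit 574106034254) (nat_lit 76) (nat_lit 1664596971928) (nat_lit 76) (nat_lit 1131550325776) (nat_lit 6) (nat_lit 4) (nat_lit 7) (nat_lit 5) (nat_lit 7) (nat_lit 4) (nat_lit 405) (nat_lit 348) (nat_lit 147)))) (XT.nd (nat_lit 156) (nat_lit 152) (nat_lit 0) (XT.nd (nat_lit 78) (nat_lit 0) (nat_lit 0) (XT.lf (nat_lit 0) (nat_lit 1453286964304) (nat_lit 76) (nat_lit 1342935171653) (nat_lit 76) (nat_lit 809888517946) (nat_lit 6) (nat_lit 4) (nat_lit 7) (nat_lit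 5) (nat_lit 7) (nat_lit 4) (nat_lit 406) (nat_lit 348) (nat_lit 146)) (XT.lf (nat_lit 0) (nat_lit 2402802346011) (nat_lit 76) (nat_lit 995540438609) (nat_lit 76) (nat_lit 462493777906) (nat_lit 6) (nat_lit 4) (nat_lit 7) (nat_lit 5) (nat_lit 7) (nat_lit 4) (nat_lit 407) (nat_lit 348) (nat_lit 145))) (XT.nd (nat_lit 78) (nat_lit 152) (nat_lit 0) (XT.lf (nat_lit 0) (nat_lit 3428278937193) (nat_lit 76) (nat_lit 620354137339) (nat_lit 76) (nat_lit 87307470158) (nat_lit 6) (nat_lit 4) (nat_lit 7) (nat_lit 5) (nat_lit 7) (nat_lit 4) (nat_lit 408) (nat_lit 348) (nat_lit 144)) (XT.nd (nat_lit 42198) (nat_lit 0) (nat_lit 4104) (XT.lf (nat_lit 0) (nat_lit 100102995303) (nat_lit 76) (nat_lit 204295883774) (nat_lit 152) (nat_lit 4127849740636) (nat_lit 4) (nat_lit 5) (nat_lit 5) (nat_lit 5) (nat_lit 6) (nat_lit 4) (nat_lit 409) (nat_lit 348) (nat_lit 143)) (XT.lf (nat_lit 0) (nat_lit 71794118849)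 (nat_lit 532) (nat_lit 8310771123) (nat_lit 532) (nat_lit 8310771123) (nat_lit 58) (nat_lit 3) (nat_lit 65) (nat_lit 3) (nat_lit 65) (nat_lit 5) (nat_lit 349) (nat_lit 349) (nat_lit 202)))))) (XT.nd (nat_lit 312) (nat_lit 684) (nat_lit 0) (XT.nd (nat_lit 156) (nat_lit 0) (nat_lit 76) (XT.nd (nat_lit 78) (nat_lit 0) (nat_lit 76) (XT.lf (nat_lit 76) (nat_lit 71493658531) (nat_lit 0) (nat_lit 79559478575) (nat_lit 532) (nat_lit 32713725461) (nat_lit 59) (nat_lit 5) (nat_lit 58) (nat_lit 3) (nat_lit 65) (nat_lit 5) (nat_lit 350) (nat_lit 349) (nat_lit 201)) (XT.lf (nat_lit 0) (nat_lit 159762705510) (nat_lit 456) (nat_lit 23810870810) (nat_lit 532) (nat_lit 7631871984) (nat_lit 59) (nat_lit 5) (nat_lit 65) (nat_lit 5) (nat_lit 66) (nat_lit 5) (nat_lit 351) (nat_lit 349) (nat_lit 200))) (XT.nd (nat_lit 78) (nat_lit 0) (nat_lit 0) (XT.lf (nat_lit 76) (nat_lit 73330119251) (nat_lit 0) (nat_lit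 99668810445) (nat_lit 532) (nat_lit 25933800250) (nat_lit 60) (nat_lit 5) (nat_lit 59) (nat_lit 5) (nat_lit 66) (nat_lit 5) (nat_lit 352) (nat_lit 349) (nat_lit 199)) (XT.lf (nat_lit 76) (nat_lit 179596417450) (nat_lit 0) (nat_lit 8348495579) (nat_lit 532) (nat_lit 19281212442) (nat_lit 60) (nat_lit 5) (nat_lit 59) (nat_lit 5) (nat_lit 66) (nat_lit 5) (nat_lit 353) (nat_lit 349) (nat_lit 198)))) (XT.nd (nat_lit 156) (nat_lit 304) (nat_lit 0) (XT.nd (nat_lit 78) (nat_lit 532) (nat_lit 0) (XT.lf (nat_lit 76) (nat_lit 80012268048) (nat_lit 0) (nat_lit 128169622276) (nat_lit 532) (nat_lit 7673477324) (nat_lit 61) (nat_lit 5) (nat_lit 60) (nat_lit 5) (nat_lit 67) (nat_lit 5) (nat_lit 354) (nat_lit 349) (nat_lit 197)) (XT.lf (nat_lit 0) (nat_lit 5611375299) (nat_lit 532) (nat_lit 27631130604) (nat_lit 608) (nat_lit 191843746552) (nat_lit 53) (nat_lit 5) (nat_lit 60) (nat_lit 5) (nat_lit 61)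 (nat_lit 5) (nat_lit 355) (nat_lit 349) (nat_lit 196))) (XT.nd (nat_lit 78) (nat_lit 380) (nat_lit 0) (XT.lf (nat_lit 0) (nat_lit 23528327234) (nat_lit 532) (nat_lit 142862256538) (nat_lit 76) (nat_lit 68330369315) (nat_lit 54) (nat_lit 5) (nat_lit 61) (nat_lit 5) (nat_lit 55) (nat_lit 5) (nat_lit 356) (nat_lit 349) (nat_lit 195)) (XT.nd (nat_lit 78) (nat_lit 380) (nat_lit 0) (XT.lf (nat_lit 0) (nat_lit 44517051705) (nat_lit 532) (nat_lit 23470064730) (nat_lit 76) (nat_lit 177008240194) (nat_lit 54) (nat_lit 5) (nat_lit 61) (nat_lit 5) (nat_lit 55) (nat_lit 5) (nat_lit 357) (nat_lit 349) (nat_lit 194)) (XT.lf (nat_lit 0) (nat_lit 70845162613) (nat_lit 456) (nat_lit 145840876615) (nat_lit 76) (nat_lit 39112850306) (nat_lit 49) (nat_lit 5) (nat_lit 55) (nat_lit 5) (nat_lit 50) (nat_lit 5) (nat_lit 358) (nat_lit 349) (nat_lit 193))))))) (XT.nd (nat_lit 702) (nat_lit 836) (nat_lit 0) (XT.nd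 (nat_lit 312) (nat_lit 608) (nat_lit 0) (XT.nd (nat_lit 156) (nat_lit 228) (nat_lit 0) (XT.nd (nat_lit 78) (nat_lit 228) (nat_lit 0) (XT.lf (nat_lit 0) (nat_lit 101703686407) (nat_lit 456) (nat_lit 13802957874) (nat_lit 76) (nat_lit 151766127816) (nat_lit 49) (nat_lit 5) (nat_lit 55) (nat_lit 5) (nat_lit 50) (nat_lit 5) (nat_lit 359) (nat_lit 349) (nat_lit 192)) (XT.lf (nat_lit 0) (nat_lit 135580148602) (nat_lit 228) (nat_lit 2711341790) (nat_lit 304) (nat_lit 141112227145) (nat_lit 46) (nat_lit 5) (nat_lit 49) (nat_lit 5) (nat_lit 50) (nat_lit 5) (nat_lit 360) (nat_lit 349) (nat_lit 191))) (XT.nd (nat_lit 78) (nat_lit 0) (nat_lit 0) (XT.lf (nat_lit 0) (nat_lit 2473200816) (nat_lit 228) (nat_lit 178644236096) (nat_lit 304) (nat_lit 111122812368) (nat_lit 43) (nat_lit 5) (nat_lit 46) (nat_lit 5) (nat_lit 47) (nat_lit 5) (nat_lit 361) (nat_lit 349) (nat_lit 190)) (XT.lf (nat_lit 0) (nat_lit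 168578836968) (nat_lit 228) (nat_lit 62791557337) (nat_lit 304) (nat_lit 74413234560) (nat_lit 43) (nat_lit 5) (nat_lit 46) (nat_lit 5) (nat_lit 47) (nat_lit 5) (nat_lit 362) (nat_lit 349) (nat_lit 189)))) (XT.nd (nat_lit 156) (nat_lit 380) (nat_lit 0) (XT.nd (nat_lit 78) (nat_lit 76) (nat_lit 0) (XT.lf (nat_lit 0) (nat_lit 27435756393) (nat_lit 152) (nat_lit 260366593682) (nat_lit 228) (nat_lit 32435427908) (nat_lit 41) (nat_lit 5) (nat_lit 43) (nat_lit 5) (nat_lit 44) (nat_lit 5) (nat_lit 363) (nat_lit 349) (nat_lit 188)) (XT.lf (nat_lit 0) (nat_lit 17734984945) (nat_lit 228) (nat_lit 124536403834) (nat_lit 76) (nat_lit 193113671790) (nat_lit 40) (nat_lit 5) (nat_lit 43) (nat_lit 5) (nat_lit 41) (nat_lit 5) (nat_lit 364) (nat_lit 349) (nat_lit 187))) (XT.nd (nat_lit 78) (nat_lit 152) (nat_lit 0) (XT.lf (nat_lit 0) (nat_lit 59315056341) (nat_lit 228) (nat_lit 12278064893) (nat_lit 304)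 (nat_lit 279969490642) (nat_lit 37) (nat_lit 5) (nat_lit 40) (nat_lit 5) (nat_lit 41) (nat_lit 5) (nat_lit 365) (nat_lit 349) (nat_lit 186)) (XT.nd (nat_lit 78) (nat_lit 152) (nat_lit 0) (XT.lf (nat_lit 0) (nat_lit 136334479798) (nat_lit 304) (nat_lit 106974550353) (nat_lit 76) (nat_lit 125199371506) (nat_lit 37) (nat_lit 5) (nat_lit 41) (nat_lit 5) (nat_lit 38) (nat_lit 5) (nat_lit 366) (nat_lit 349) (nat_lit 185)) (XT.lf (nat_lit 0) (nat_lit 97688032975) (nat_lit 152) (nat_lit 111235350708) (nat_lit 228) (nat_lit 177673012079) (nat_lit 35) (nat_lit 5) (nat_lit 37) (nat_lit 5) (nat_lit 38) (nat_lit 5) (nat_lit 367) (nat_lit 349) (nat_lit 184)))))) (XT.nd (nat_lit 312) (nat_lit 456) (nat_lit 0) (XT.nd (nat_lit 156) (nat_lit 228) (nat_lit 0) (XT.nd (nat_lit 78) (nat_lit 152) (nat_lit 0) (XT.lf (nat_lit 0) (nat_lit 291075445399) (nat_lit 228) (nat_lit 81921427080) (nat_lit 76) (nat_lit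 32834073343) (nat_lit 35) (nat_lit 5) (nat_lit 38) (nat_lit 5) (nat_lit 36) (nat_lit 5) (nat_lit 368) (nat_lit 349) (nat_lit 183)) (XT.lf (nat_lit 0) (nat_lit 146040682836) (nat_lit 152) (nat_lit 240160434990) (nat_lit 228) (nat_lit 39891026461) (nat_lit 33) (nat_lit 5) (nat_lit 35) (nat_lit 5) (nat_lit 36) (nat_lit 5) (nat_lit 369) (nat_lit 349) (nat_lit 182))) (XT.nd (nat_lit 78) (nat_lit 152) (nat_lit 0) (XT.lf (nat_lit 0) (nat_lit 41211480474) (nat_lit 228) (nat_lit 51939771251) (nat_lit 76) (nat_lit 354560335588) (nat_lit 32) (nat_lit 5) (nat_lit 35) (nat_lit 5) (nat_lit 33) (nat_lit 5) (nat_lit 370) (nat_lit 349) (nat_lit 181)) (XT.lf (nat_lit 0) (nat_lit 133274995813) (nat_lit 228) (nat_lit 268750316638) (nat_lit 76) (nat_lit 68422146182) (nat_lit 30) (nat_lit 5) (nat_lit 33) (nat_lit 5) (nat_lit 31) (nat_lit 5) (nat_lit 371) (nat_lit 349) (nat_lit 180)))) (XT.nd (nat_lit 156)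 (nat_lit 304) (nat_lit 0) (XT.nd (nat_lit 78) (nat_lit 152) (nat_lit 0) (XT.lf (nat_lit 0) (nat_lit 236580058463) (nat_lit 228) (nat_lit 18766212492) (nat_lit 76) (nat_lit 239345811463) (nat_lit 30) (nat_lit 5) (nat_lit 33) (nat_lit 5) (nat_lit 31) (nat_lit 5) (nat_lit 372) (nat_lit 349) (nat_lit 179)) (XT.lf (nat_lit 0) (nat_lit 264445151767) (nat_lit 152) (nat_lit 90064232255) (nat_lit 228) (nat_lit 165858103497) (nat_lit 28) (nat_lit 5) (nat_lit 30) (nat_lit 5) (nat_lit 31) (nat_lit 5) (nat_lit 373) (nat_lit 349) (nat_lit 178))) (XT.nd (nat_lit 78) (nat_lit 228) (nat_lit 0) (XT.lf (nat_lit 0) (nat_lit 22299924586) (nat_lit 76) (nat_lit 462762813497) (nat_lit 152) (nat_lit 62779012385) (nat_lit 27) (nat_lit 5) (nat_lit 28) (nat_lit 5) (nat_lit 29) (nat_lit 4) (nat_lit 374) (nat_lit 349) (nat_lit 177)) (XT.nd (nat_lit 78) (nat_lit 152) (nat_lit 0) (XT.lf (nat_lit 0) (nat_lit 55636316380)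 (nat_lit 152) (nat_lit 243308379525) (nat_lit 76) (nat_lit 277714383348) (nat_lit 26) (nat_lit 5) (nat_lit 28) (nat_lit 5) (nat_lit 27) (nat_lit 5) (nat_lit 375) (nat_lit 349) (nat_lit 176)) (XT.lf (nat_lit 0) (nat_lit 63025845771) (nat_lit 152) (nat_lit 118623052815) (nat_lit 228) (nat_lit 425881187935) (nat_lit 24) (nat_lit 5) (nat_lit 26) (nat_lit 5) (nat_lit 27) (nat_lit 5) (nat_lit 376) (nat_lit 349) (nat_lit 175))))))))
noncomputable def xc218 : XT := (XT.nd (nat_lit 1404) (nat_lit 456) (nat_lit 0) (XT.nd (nat_lit 702) (nat_lit 380) (nat_lit 0) (XT.nd (nat_lit 312) (nat_lit 228) (nat_lit 0) (XT.nd (nat_lit 156) (nat_lit 228) (nat_lit 0) (XT.nd (nat_lit 78) (nat_lit 76) (nat_lit 0) (XT.lf (nat_lit 0) (nat_lit 326398505419) (nat_lit 228) (nat_lit 234638269173) (nat_lit 76) (nat_lit 79141518365) (nat_lit 24) (nat_lit 5) (nat_lit 27) (nat_lit 5) (nat_lit 25) (nat_lit 4) (nat_lit 377)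 (nat_lit 349) (nat_lit 174)) (XT.lf (nat_lit 0) (nat_lit 102040252562) (nat_lit 76) (nat_lit 386222972812) (nat_lit 152) (nat_lit 186732318992) (nat_lit 23) (nat_lit 5) (nat_lit 24) (nat_lit 5) (nat_lit 25) (nat_lit 4) (nat_lit 378) (nat_lit 349) (nat_lit 173))) (XT.nd (nat_lit 78) (nat_lit 228) (nat_lit 0) (XT.lf (nat_lit 0) (nat_lit 478997068224) (nat_lit 76) (nat_lit 190495438083) (nat_lit 152) (nat_lit 42592438937) (nat_lit 23) (nat_lit 5) (nat_lit 24) (nat_lit 5) (nat_lit 25) (nat_lit 4) (nat_lit 379) (nat_lit 349) (nat_lit 172)) (XT.lf (nat_lit 0) (nat_lit 111404061935) (nat_lit 228) (nat_lit 614156798400) (nat_lit 76) (nat_lit 26044507850) (nat_lit 20) (nat_lit 5) (nat_lit 23) (nat_lit 5) (nat_lit 21) (nat_lit 4) (nat_lit 380) (nat_lit 349) (nat_lit 171)))) (XT.nd (nat_lit 156) (nat_lit 152) (nat_lit 0) (XT.nd (nat_lit 78) (nat_lit 76) (nat_lit 0) (XT.lf (nat_lit 0) (nat_lit 286905647389)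 (nat_lit 228) (nat_lit 249113571053) (nat_lit 76) (nat_lit 257260785771) (nat_lit 20) (nat_lit 5) (nat_lit 23) (nat_lit 5) (nat_lit 21) (nat_lit 4) (nat_lit 381) (nat_lit 349) (nat_lit 170)) (XT.lf (nat_lit 0) (nat_lit 152775497488) (nat_lit 76) (nat_lit 327346079575) (nat_lit 152) (nat_lit 357873096687) (nat_lit 19) (nat_lit 5) (nat_lit 20) (nat_lit 5) (nat_lit 21) (nat_lit 4) (nat_lit 382) (nat_lit 349) (nat_lit 169))) (XT.nd (nat_lit 78) (nat_lit 152) (nat_lit 0) (XT.lf (nat_lit 0) (nat_lit 600982936583) (nat_lit 76) (nat_lit 94623015214) (nat_lit 152) (nat_lit 190135671414) (nat_lit 19) (nat_lit 5) (nat_lit 20) (nat_lit 5) (nat_lit 21) (nat_lit 4) (nat_lit 383) (nat_lit 349) (nat_lit 168)) (XT.nd (nat_lit 78) (nat_lit 76) (nat_lit 0) (XT.lf (nat_lit 0) (nat_lit 151550690674) (nat_lit 76) (nat_lit 784192218921) (nat_lit 76) (nat_lit 972312403) (nat_lit 18) (nat_lit 4) (nat_lit 19)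 (nat_lit 5) (nat_lit 19) (nat_lit 4) (nat_lit 384) (nat_lit 349) (nat_lit 167)) (XT.lf (nat_lit 0) (nat_lit 203598762545) (nat_lit 152) (nat_lit 359734528332) (nat_lit 76) (nat_lit 427206562401) (nat_lit 17) (nat_lit 5) (nat_lit 19) (nat_lit 5) (nat_lit 18) (nat_lit 4) (nat_lit 385) (nat_lit 349) (nat_lit 166)))))) (XT.nd (nat_lit 312) (nat_lit 152) (nat_lit 0) (XT.nd (nat_lit 156) (nat_lit 152) (nat_lit 0) (XT.nd (nat_lit 78) (nat_lit 0) (nat_lit 0) (XT.lf (nat_lit 0) (nat_lit 104954828272) (nat_lit 76) (nat_lit 322052300122) (nat_lit 152) (nat_lit 621459375487) (nat_lit 16) (nat_lit 5) (nat_lit 17) (nat_lit 5) (nat_lit 18) (nat_lit 4) (nat_lit 386) (nat_lit 349) (nat_lit 165)) (XT.lf (nat_lit 0) (nat_lit 627277698895) (nat_lit 76) (nat_lit 50846213969) (nat_lit 152) (nat_lit 432116513731) (nat_lit 16) (nat_lit 5) (nat_lit 17) (nat_lit 5) (nat_lit 18) (nat_lit 4) (nat_lit 387) (nat_lit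 349) (nat_lit 164))) (XT.nd (nat_lit 78) (nat_lit 76) (nat_lit 0) (XT.lf (nat_lit 0) (nat_lit 9061936109) (nat_lit 76) (nat_lit 946307476528) (nat_lit 76) (nat_lit 221103700698) (nat_lit 15) (nat_lit 4) (nat_lit 16) (nat_lit 5) (nat_lit 16) (nat_lit 4) (nat_lit 388) (nat_lit 349) (nat_lit 163)) (XT.lf (nat_lit 0) (nat_lit 21319165073) (nat_lit 152) (nat_lit 680859945083) (nat_lit 76) (nat_lit 544622744798) (nat_lit 14) (nat_lit 5) (nat_lit 16) (nat_lit 5) (nat_lit 15) (nat_lit 4) (nat_lit 389) (nat_lit 349) (nat_lit 162)))) (XT.nd (nat_lit 156) (nat_lit 76) (nat_lit 0) (XT.nd (nat_lit 78) (nat_lit 76) (nat_lit 0) (XT.lf (nat_lit 0) (nat_lit 271190491054) (nat_lit 152) (nat_lit 161127617234) (nat_lit 76) (nat_lit 889979353464) (nat_lit 14) (nat_lit 5) (nat_lit 16) (nat_lit 5) (nat_lit 15) (nat_lit 4) (nat_lit 390) (nat_lit 349) (nat_lit 161)) (XT.lf (nat_lit 0) (nat_lit 421256191721) (nat_lit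 76) (nat_lit 129926528617) (nat_lit 152) (nat_lit 851839500986) (nat_lit 13) (nat_lit 5) (nat_lit 14) (nat_lit 5) (nat_lit 15) (nat_lit 4) (nat_lit 391) (nat_lit 349) (nat_lit 160))) (XT.nd (nat_lit 78) (nat_lit 76) (nat_lit 0) (XT.lf (nat_lit 0) (nat_lit 862823838019) (nat_lit 152) (nat_lit 435302410444) (nat_lit 0) (nat_lit 191338752401) (nat_lit 13) (nat_lit 5) (nat_lit 15) (nat_lit 4) (nat_lit 13) (nat_lit 4) (nat_lit 392) (nat_lit 349) (nat_lit 159)) (XT.nd (nat_lit 78) (nat_lit 0) (nat_lit 0) (XT.lf (nat_lit 0) (nat_lit 159481448441) (nat_lit 76) (nat_lit 1047125022057) (nat_lit 76) (nat_lit 375639914247) (nat_lit 12) (nat_lit 4) (nat_lit 13) (nat_lit 5) (nat_lit 13) (nat_lit 4) (nat_lit 393) (nat_lit 349) (nat_lit 158)) (XT.lf (nat_lit 0) (nat_lit 826604008182) (nat_lit 76) (nat_lit 763189623052) (nat_lit 76) (nat_lit 91704494694) (nat_lit 12) (nat_lit 4) (nat_lit 13) (nat_lit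 5) (nat_lit 13) (nat_lit 4) (nat_lit 394) (nat_lit 349) (nat_lit 157))))))) (XT.nd (nat_lit 702) (nat_lit 76) (nat_lit 0) (XT.nd (nat_lit 312) (nat_lit 228) (nat_lit 0) (XT.nd (nat_lit 156) (nat_lit 0) (nat_lit 0) (XT.nd (nat_lit 78) (nat_lit 76) (nat_lit 0) (XT.lf (nat_lit 0) (nat_lit 204193280463) (nat_lit 152) (nat_lit 246763124018) (nat_lit 76) (nat_lit 1337320047525) (nat_lit 11) (nat_lit 5) (nat_lit 13) (nat_lit 5) (nat_lit 12) (nat_lit 4) (nat_lit 395) (nat_lit 349) (nat_lit 156)) (XT.lf (nat_lit 0) (nat_lit 429101786812) (nat_lit 76) (nat_lit 100026555404) (nat_lit 152) (nat_lit 1373452556026) (nat_lit 10) (nat_lit 5) (nat_lit 11) (nat_lit 5) (nat_lit 12) (nat_lit 4) (nat_lit 396) (nat_lit 349) (nat_lit 155))) (XT.nd (nat_lit 78) (nat_lit 0) (nat_lit 0) (XT.lf (nat_lit 0) (nat_lit 893689796274) (nat_lit 152) (nat_lit 859305118897) (nat_lit 0) (nat_lit 271944258023) (nat_lit 10)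 (nat_lit 5) (nat_lit 12) (nat_lit 4) (nat_lit 10) (nat_lit 4) (nat_lit 397) (nat_lit 349) (nat_lit 154)) (XT.lf (nat_lit 0) (nat_lit 1290014241479) (nat_lit 152) (nat_lit 198595333436) (nat_lit 0) (nat_lit 668268689244) (nat_lit 10) (nat_lit 5) (nat_lit 12) (nat_lit 4) (nat_lit 10) (nat_lit 4) (nat_lit 398) (nat_lit 349) (nat_lit 153)))) (XT.nd (nat_lit 156) (nat_lit 152) (nat_lit 0) (XT.nd (nat_lit 78) (nat_lit 0) (nat_lit 0) (XT.lf (nat_lit 0) (nat_lit 542088674219) (nat_lit 76) (nat_lit 1188993197508) (nat_lit 76) (nat_lit 567247632324) (nat_lit 9) (nat_lit 4) (nat_lit 10) (nat_lit 5) (nat_lit 10) (nat_lit 4) (nat_lit 399) (nat_lit 349) (nat_lit 152)) (XT.lf (nat_lit 0) (nat_lit 1353321664271) (nat_lit 76) (nat_lit 859543180717) (nat_lit 76) (nat_lit 237797603543) (nat_lit 9) (nat_lit 4) (nat_lit 10) (nat_lit 5) (nat_lit 10) (nat_lit 4) (nat_lit 400) (nat_lit 349) (nat_lit 151))) (XT.nd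 (nat_lit 78) (nat_lit 76) (nat_lit 0) (XT.lf (nat_lit 0) (nat_lit 112105153078) (nat_lit 152) (nat_lit 388566869871) (nat_lit 76) (nat_lit 2114282958380) (nat_lit 8) (nat_lit 5) (nat_lit 10) (nat_lit 5) (nat_lit 9) (nat_lit 4) (nat_lit 401) (nat_lit 349) (nat_lit 150)) (XT.nd (nat_lit 78) (nat_lit 0) (nat_lit 0) (XT.lf (nat_lit 0) (nat_lit 390254478977) (nat_lit 76) (nat_lit 96284019835) (nat_lit 152) (nat_lit 2304607443792) (nat_lit 7) (nat_lit 5) (nat_lit 8) (nat_lit 5) (nat_lit 9) (nat_lit 4) (nat_lit 402) (nat_lit 349) (nat_lit 149)) (XT.lf (nat_lit 0) (nat_lit 910014507568) (nat_lit 152) (nat_lit 1735566503864) (nat_lit 0) (nat_lit 334324129724) (nat_lit 7) (nat_lit 5) (nat_lit 9) (nat_lit 4) (nat_lit 7) (nat_lit 4) (nat_lit 403) (nat_lit 349) (nat_lit 148)))))) (XT.nd (nat_lit 312) (nat_lit 0) (nat_lit 0) (XT.nd (nat_lit 156) (nat_lit 76) (nat_lit 0) (XT.nd (nat_lit 78) (nat_lit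 0) (nat_lit 0) (XT.lf (nat_lit 0) (nat_lit 1369869467887) (nat_lit 152) (nat_lit 1019516456155) (nat_lit 0) (nat_lit 794179081883) (nat_lit 7) (nat_lit 5) (nat_lit 9) (nat_lit 4) (nat_lit 7) (nat_lit 4) (nat_lit 404) (nat_lit 349) (nat_lit 147)) (XT.lf (nat_lit 0) (nat_lit 1866512813208) (nat_lit 152) (nat_lit 246182427966) (nat_lit 0) (nat_lit 1290822419649) (nat_lit 7) (nat_lit 5) (nat_lit 9) (nat_lit 4) (nat_lit 7) (nat_lit 4) (nat_lit 405) (nat_lit 349) (nat_lit 146))) (XT.nd (nat_lit 78) (nat_lit 0) (nat_lit 0) (XT.lf (nat_lit 0) (nat_lit 620034960763) (nat_lit 76) (nat_lit 1797764510163) (nat_lit 76) (nat_lit 1222074109608) (nat_lit 6) (nat_lit 4) (nat_lit 7) (nat_lit 5) (nat_lit 7) (nat_lit 4) (nat_lit 406) (nat_lit 349) (nat_lit 145)) (XT.lf (nat_lit 0) (nat_lit 1569550332344) (nat_lit 76) (nat_lit 1450369782127) (nat_lit 76) (nat_lit 874679375094) (nat_lit 6) (nat_lit 4) (nat_lit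 7) (nat_lit 5) (nat_lit 7) (nat_lit 4) (nat_lit 407) (nat_lit 349) (nat_lit 144)))) (XT.nd (nat_lit 42354) (nat_lit 0) (nat_lit 3952) (XT.nd (nat_lit 78) (nat_lit 0) (nat_lit 0) (XT.lf (nat_lit 0) (nat_lit 2595026914151) (nat_lit 76) (nat_lit 1075183485495) (nat_lit 76) (nat_lit 499493072465) (nat_lit 6) (nat_lit 4) (nat_lit 7) (nat_lit 5) (nat_lit 7) (nat_lit 4) (nat_lit 408) (nat_lit 349) (nat_lit 143)) (XT.lf (nat_lit 0) (nat_lit 3702541604446) (nat_lit 76) (nat_lit 669982294065) (nat_lit 76) (nat_lit 94291875481) (nat_lit 6) (nat_lit 4) (nat_lit 7) (nat_lit 5) (nat_lit 7) (nat_lit 4) (nat_lit 409) (nat_lit 349) (nat_lit 142))) (XT.nd (nat_lit 78) (nat_lit 0) (nat_lit 0) (XT.lf (nat_lit 0) (nat_lit 77539547256) (nat_lit 532) (nat_lit 8974605983) (nat_lit 532) (nat_lit 8974605983) (nat_lit 58) (nat_lit 3) (nat_lit 65) (nat_lit 3) (nat_lit 65) (nat_lit 5) (nat_lit 350) (nat_lit 350)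 (nat_lit 200)) (XT.nd (nat_lit 78) (nat_lit 0) (nat_lit 76) (XT.lf (nat_lit 76) (nat_lit 77215152881) (nat_lit 0) (nat_lit 85925799815) (nat_lit 532) (nat_lit 35326968434) (nat_lit 59) (nat_lit 5) (nat_lit 58) (nat_lit 3) (nat_lit 65) (nat_lit 5) (nat_lit 351) (nat_lit 350) (nat_lit 199)) (XT.lf (nat_lit 0) (nat_lit 172546987722) (nat_lit 456) (nat_lit 25713583346) (nat_lit 532) (nat_lit 8241046957) (nat_lit 59) (nat_lit 5) (nat_lit 65) (nat_lit 5) (nat_lit 66) (nat_lit 5) (nat_lit 352) (nat_lit 350) (nat_lit 198))))))))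
noncomputable def xc219 : XT := (XT.nd (nat_lit 1404) (nat_lit 1292) (nat_lit 0) (XT.nd (nat_lit 702) (nat_lit 988) (nat_lit 0) (XT.nd (nat_lit 312) (nat_lit 532) (nat_lit 0) (XT.nd (nat_lit 156) (nat_lit 456) (nat_lit 0) (XT.nd (nat_lit 78) (nat_lit 0) (nat_lit 0) (XT.lf (nat_lit 76) (nat_lit 79198631309) (nat_lit 0) (nat_lit 107643287190) (nat_lit 532) (nat_lit 28005179368) (nat_lit 60) (nat_lit 5) (nat_lit 59) (nat_lit 5) (nat_lit 66) (nat_lit 5) (nat_lit 353) (nat_lit 350) (nat_lit 197)) (XT.lf (nat_lit 76) (nat_lit 193966077622) (nat_lit 0) (nat_lit 9017275142) (nat_lit 532) (nat_lit 20820630825) (nat_lit 60) (nat_lit 5) (nat_lit 59) (nat_lit 5) (nat_lit 66) (nat_lit 5) (nat_lit 354) (nat_lit 350) (nat_lit 196))) (XT.nd (nat_lit 78) (nat_lit 532) (nat_lit 0) (XT.lf (nat_lit 76) (nat_lit 86415394127) (nat_lit 0) (nat_lit 138423714788) (nat_lit 532) (nat_lit 8284470880) (nat_lit 61)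 (nat_lit 5) (nat_lit 60) (nat_lit 5) (nat_lit 67) (nat_lit 5) (nat_lit 355) (nat_lit 350) (nat_lit 195)) (XT.lf (nat_lit 0) (nat_lit 6062822664) (nat_lit 532) (nat_lit 29839498345) (nat_lit 608) (nat_lit 207190625333) (nat_lit 53) (nat_lit 5) (nat_lit 60) (nat_lit 5) (nat_lit 61) (nat_lit 5) (nat_lit 356) (nat_lit 350) (nat_lit 194)))) (XT.nd (nat_lit 156) (nat_lit 608) (nat_lit 0) (XT.nd (nat_lit 78) (nat_lit 0) (nat_lit 0) (XT.lf (nat_lit 0) (nat_lit 25412984620) (nat_lit 532) (nat_lit 154288965144) (nat_lit 76) (nat_lit 73796485196) (nat_lit 54) (nat_lit 5) (nat_lit 61) (nat_lit 5) (nat_lit 55) (nat_lit 5) (nat_lit 357) (nat_lit 350) (nat_lit 193)) (XT.lf (nat_lit 0) (nat_lit 48080629922) (nat_lit 532) (nat_lit 25345566281) (nat_lit 76) (nat_lit 191168608981) (nat_lit 54) (nat_lit 5) (nat_lit 61) (nat_lit 5) (nat_lit 55) (nat_lit 5) (nat_lit 358) (nat_lit 350) (nat_lit 192))) (XT.nd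 (nat_lit 78) (nat_lit 228) (nat_lit 0) (XT.lf (nat_lit 0) (nat_lit 76514873830) (nat_lit 456) (nat_lit 157505924606) (nat_lit 76) (nat_lit 42241831767) (nat_lit 49) (nat_lit 5) (nat_lit 55) (nat_lit 5) (nat_lit 50) (nat_lit 5) (nat_lit 359) (nat_lit 350) (nat_lit 191)) (XT.nd (nat_lit 78) (nat_lit 228) (nat_lit 0) (XT.lf (nat_lit 0) (nat_lit 109841924105) (nat_lit 456) (nat_lit 14905136969) (nat_lit 76) (nat_lit 163907374926) (nat_lit 49) (nat_lit 5) (nat_lit 55) (nat_lit 5) (nat_lit 50) (nat_lit 5) (nat_lit 360) (nat_lit 350) (nat_lit 190)) (XT.lf (nat_lit 0) (nat_lit 146428565936) (nat_lit 228) (nat_lit 2928090793) (nat_lit 304) (nat_lit 152399208181) (nat_lit 46) (nat_lit 5) (nat_lit 49) (nat_lit 5) (nat_lit 50) (nat_lit 5) (nat_lit 361) (nat_lit 350) (nat_lit 189)))))) (XT.nd (nat_lit 312) (nat_lit 532) (nat_lit 0) (XT.nd (nat_lit 156) (nat_lit 228) (nat_lit 0) (XT.nd (nat_lit 78)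 (nat_lit 0) (nat_lit 0) (XT.lf (nat_lit 0) (nat_lit 2673154076) (nat_lit 228) (nat_lit 192935442036) (nat_lit 304) (nat_lit 120010729877) (nat_lit 43) (nat_lit 5) (nat_lit 46) (nat_lit 5) (nat_lit 47) (nat_lit 5) (nat_lit 362) (nat_lit 350) (nat_lit 188)) (XT.lf (nat_lit 0) (nat_lit 182067085773) (nat_lit 228) (nat_lit 67814573639) (nat_lit 304) (nat_lit 80364527139) (nat_lit 43) (nat_lit 5) (nat_lit 46) (nat_lit 5) (nat_lit 47) (nat_lit 5) (nat_lit 363) (nat_lit 350) (nat_lit 187))) (XT.nd (nat_lit 78) (nat_lit 76) (nat_lit 0) (XT.lf (nat_lit 0) (nat_lit 29632631630) (nat_lit 152) (nat_lit 281195474328) (nat_lit 228) (nat_lit 35028567039) (nat_lit 41) (nat_lit 5) (nat_lit 43) (nat_lit 5) (nat_lit 44) (nat_lit 5) (nat_lit 364) (nat_lit 350) (nat_lit 186)) (XT.lf (nat_lit 0) (nat_lit 19155274765) (nat_lit 228) (nat_lit 134497370600) (nat_lit 76) (nat_lit 208563099229) (nat_lit 40) (nat_lit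 5) (nat_lit 43) (nat_lit 5) (nat_lit 41) (nat_lit 5) (nat_lit 365) (nat_lit 350) (nat_lit 185)))) (XT.nd (nat_lit 156) (nat_lit 304) (nat_lit 0) (XT.nd (nat_lit 78) (nat_lit 0) (nat_lit 0) (XT.lf (nat_lit 0) (nat_lit 64062157135) (nat_lit 228) (nat_lit 13259839981) (nat_lit 304) (nat_lit 302365508190) (nat_lit 37) (nat_lit 5) (nat_lit 40) (nat_lit 5) (nat_lit 41) (nat_lit 5) (nat_lit 366) (nat_lit 350) (nat_lit 184)) (XT.lf (nat_lit 0) (nat_lit 147242569190) (nat_lit 304) (nat_lit 115530662066) (nat_lit 76) (nat_lit 135215734732) (nat_lit 37) (nat_lit 5) (nat_lit 41) (nat_lit 5) (nat_lit 38) (nat_lit 5) (nat_lit 367) (nat_lit 350) (nat_lit 183))) (XT.nd (nat_lit 78) (nat_lit 152) (nat_lit 0) (XT.lf (nat_lit 0) (nat_lit 105504881034) (nat_lit 152) (nat_lit 120133649180) (nat_lit 228) (nat_lit 191885473920) (nat_lit 35) (nat_lit 5) (nat_lit 37) (nat_lit 5) (nat_lit 38) (nat_lit 5) (nat_lit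 368) (nat_lit 350) (nat_lit 182)) (XT.nd (nat_lit 78) (nat_lit 152) (nat_lit 0) (XT.lf (nat_lit 0) (nat_lit 314362674153) (nat_lit 228) (nat_lit 88473385716) (nat_lit 76) (nat_lit 35461265037) (nat_lit 35) (nat_lit 5) (nat_lit 38) (nat_lit 5) (nat_lit 36) (nat_lit 5) (nat_lit 369) (nat_lit 350) (nat_lit 181)) (XT.lf (nat_lit 0) (nat_lit 157725648549) (nat_lit 152) (nat_lit 259372704597) (nat_lit 228) (nat_lit 43081069964) (nat_lit 33) (nat_lit 5) (nat_lit 35) (nat_lit 5) (nat_lit 36) (nat_lit 5) (nat_lit 370) (nat_lit 350) (nat_lit 180))))))) (XT.nd (nat_lit 702) (nat_lit 532) (nat_lit 0) (XT.nd (nat_lit 312) (nat_lit 380) (nat_lit 0) (XT.nd (nat_lit 156) (nat_lit 152) (nat_lit 0) (XT.nd (nat_lit 78) (nat_lit 152) (nat_lit 0) (XT.lf (nat_lit 0) (nat_lit 44509488406) (nat_lit 228) (nat_lit 56093310342) (nat_lit 76) (nat_lit 382925627491) (nat_lit 32) (nat_lit 5) (nat_lit 35) (nat_lit 5)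 (nat_lit 33) (nat_lit 5) (nat_lit 371) (nat_lit 350) (nat_lit 179)) (XT.lf (nat_lit 0) (nat_lit 143938056091) (nat_lit 228) (nat_lit 290248669648) (nat_lit 76) (nat_lit 73896443905) (nat_lit 30) (nat_lit 5) (nat_lit 33) (nat_lit 5) (nat_lit 31) (nat_lit 5) (nat_lit 372) (nat_lit 350) (nat_lit 178))) (XT.nd (nat_lit 78) (nat_lit 152) (nat_lit 0) (XT.lf (nat_lit 0) (nat_lit 255507445189) (nat_lit 228) (nat_lit 20265961046) (nat_lit 76) (nat_lit 258493963444) (nat_lit 30) (nat_lit 5) (nat_lit 33) (nat_lit 5) (nat_lit 31) (nat_lit 5) (nat_lit 373) (nat_lit 350) (nat_lit 177)) (XT.lf (nat_lit 0) (nat_lit 285602273153) (nat_lit 152) (nat_lit 97268807192) (nat_lit 228) (nat_lit 179125729814) (nat_lit 28) (nat_lit 5) (nat_lit 30) (nat_lit 5) (nat_lit 31) (nat_lit 5) (nat_lit 374) (nat_lit 350) (nat_lit 176)))) (XT.nd (nat_lit 156) (nat_lit 228) (nat_lit 0) (XT.nd (nat_lit 78) (nat_lit 76) (nat_lit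 0) (XT.lf (nat_lit 0) (nat_lit 24085450804) (nat_lit 76) (nat_lit 499783231285) (nat_lit 152) (nat_lit 67800333760) (nat_lit 27) (nat_lit 5) (nat_lit 28) (nat_lit 5) (nat_lit 29) (nat_lit 4) (nat_lit 375) (nat_lit 350) (nat_lit 175)) (XT.lf (nat_lit 0) (nat_lit 60088100960) (nat_lit 152) (nat_lit 262771584269) (nat_lit 76) (nat_lit 299932049457) (nat_lit 26) (nat_lit 5) (nat_lit 28) (nat_lit 5) (nat_lit 27) (nat_lit 5) (nat_lit 376) (nat_lit 350) (nat_lit 174))) (XT.nd (nat_lit 78) (nat_lit 76) (nat_lit 0) (XT.lf (nat_lit 0) (nat_lit 68069341946) (nat_lit 152) (nat_lit 128112317021) (nat_lit 228) (nat_lit 459950766072) (nat_lit 24) (nat_lit 5) (nat_lit 26) (nat_lit 5) (nat_lit 27) (nat_lit 5) (nat_lit 377) (nat_lit 350) (nat_lit 173)) (XT.nd (nat_lit 78) (nat_lit 76) (nat_lit 0) (XT.lf (nat_lit 0) (nat_lit 352511184411) (nat_lit 228) (nat_lit 253407957589) (nat_lit 76) (nat_lit 85473350023)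 (nat_lit 24) (nat_lit 5) (nat_lit 27) (nat_lit 5) (nat_lit 25) (nat_lit 4) (nat_lit 378) (nat_lit 350) (nat_lit 172)) (XT.lf (nat_lit 0) (nat_lit 110204811122) (nat_lit 76) (nat_lit 417120243876) (nat_lit 152) (nat_lit 201670070741) (nat_lit 23) (nat_lit 5) (nat_lit 24) (nat_lit 5) (nat_lit 25) (nat_lit 4) (nat_lit 379) (nat_lit 350) (nat_lit 171)))))) (XT.nd (nat_lit 312) (nat_lit 228) (nat_lit 0) (XT.nd (nat_lit 156) (nat_lit 76) (nat_lit 0) (XT.nd (nat_lit 78) (nat_lit 228) (nat_lit 0) (XT.lf (nat_lit 0) (nat_lit 517318072900) (nat_lit 76) (nat_lit 205734548350) (nat_lit 152) (nat_lit 45999062042) (nat_lit 23) (nat_lit 5) (nat_lit 24) (nat_lit 5) (nat_lit 25) (nat_lit 4) (nat_lit 380) (nat_lit 350) (nat_lit 170)) (XT.lf (nat_lit 0) (nat_lit 120317108830) (nat_lit 228) (nat_lit 663288052242) (nat_lit 76) (nat_lit 28128578457) (nat_lit 20) (nat_lit 5) (nat_lit 23) (nat_lit 5) (nat_lit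 21) (nat_lit 4) (nat_lit 381) (nat_lit 350) (nat_lit 169))) (XT.nd (nat_lit 78) (nat_lit 76) (nat_lit 0) (XT.lf (nat_lit 0) (nat_lit 309858767642) (nat_lit 228) (nat_lit 269041462264) (nat_lit 76) (nat_lit 277842120836) (nat_lit 20) (nat_lit 5) (nat_lit 23) (nat_lit 5) (nat_lit 21) (nat_lit 4) (nat_lit 382) (nat_lit 350) (nat_lit 168)) (XT.lf (nat_lit 0) (nat_lit 164998701519) (nat_lit 76) (nat_lit 353533248655) (nat_lit 152) (nat_lit 386502245414) (nat_lit 19) (nat_lit 5) (nat_lit 20) (nat_lit 5) (nat_lit 21) (nat_lit 4) (nat_lit 383) (nat_lit 350) (nat_lit 167)))) (XT.nd (nat_lit 156) (nat_lit 152) (nat_lit 0) (XT.nd (nat_lit 78) (nat_lit 76) (nat_lit 0) (XT.lf (nat_lit 0) (nat_lit 649062649503) (nat_lit 76) (nat_lit 102192377463) (nat_lit 152) (nat_lit 205345877897) (nat_lit 19) (nat_lit 5) (nat_lit 20) (nat_lit 5) (nat_lit 21) (nat_lit 4) (nat_lit 384) (nat_lit 350) (nat_lit 166))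 (XT.lf (nat_lit 0) (nat_lit 163675832387) (nat_lit 76) (nat_lit 846927101423) (nat_lit 76) (nat_lit 1049458370) (nat_lit 18) (nat_lit 4) (nat_lit 19) (nat_lit 5) (nat_lit 19) (nat_lit 4) (nat_lit 385) (nat_lit 350) (nat_lit 165))) (XT.nd (nat_lit 78) (nat_lit 76) (nat_lit 0) (XT.lf (nat_lit 0) (nat_lit 219887225641) (nat_lit 152) (nat_lit 388512254794) (nat_lit 76) (nat_lit 461383515913) (nat_lit 17) (nat_lit 5) (nat_lit 19) (nat_lit 5) (nat_lit 18) (nat_lit 4) (nat_lit 386) (nat_lit 350) (nat_lit 164)) (XT.nd (nat_lit 78) (nat_lit 0) (nat_lit 0) (XT.lf (nat_lit 0) (nat_lit 113352224115) (nat_lit 76) (nat_lit 347816019286) (nat_lit 152) (nat_lit 671175537004) (nat_lit 16) (nat_lit 5) (nat_lit 17) (nat_lit 5) (nat_lit 18) (nat_lit 4) (nat_lit 387) (nat_lit 350) (nat_lit 163)) (XT.lf (nat_lit 0) (nat_lit 677460849604) (nat_lit 76) (nat_lit 54913480674) (nat_lit 152) (nat_lit 466685289901)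 (nat_lit 16) (nat_lit 5) (nat_lit 17) (nat_lit 5) (nat_lit 18) (nat_lit 4) (nat_lit 388) (nat_lit 350) (nat_lit 162))))))))
noncomputable def xc220 : XT := (XT.nd (nat_lit 1404) (nat_lit 76) (nat_lit 0) (XT.nd (nat_lit 702) (nat_lit 228) (nat_lit 0) (XT.nd (nat_lit 312) (nat_lit 228) (nat_lit 0) (XT.nd (nat_lit 156) (nat_lit 76) (nat_lit 0) (XT.nd (nat_lit 78) (nat_lit 76) (nat_lit 0) (XT.lf (nat_lit 0) (nat_lit 9787831557) (nat_lit 76) (nat_lit 1022011633319) (nat_lit 76) (nat_lit 238791457409) (nat_lit 15) (nat_lit 4) (nat_lit 16) (nat_lit 5) (nat_lit 16) (nat_lit 4) (nat_lit 389) (nat_lit 350) (nat_lit 161)) (XT.lf (nat_lit 0) (nat_lit 23025172691) (nat_lit 152) (nat_lit 735327844666) (nat_lit 76) (nat_lit 588192947888) (nat_lit 14) (nat_lit 5) (nat_lit 16) (nat_lit 5) (nat_lit 15) (nat_lit 4) (nat_lit 390) (nat_lit 350) (nat_lit 160))) (XT.nd (nat_lit 78) (nat_lit 76) (nat_lit 0)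 (XT.lf (nat_lit 0) (nat_lit 292886169608) (nat_lit 152) (nat_lit 174016996962) (nat_lit 76) (nat_lit 961178056839) (nat_lit 14) (nat_lit 5) (nat_lit 16) (nat_lit 5) (nat_lit 15) (nat_lit 4) (nat_lit 391) (nat_lit 350) (nat_lit 159)) (XT.lf (nat_lit 0) (nat_lit 454957495706) (nat_lit 76) (nat_lit 140320268439) (nat_lit 152) (nat_lit 919986200660) (nat_lit 13) (nat_lit 5) (nat_lit 14) (nat_lit 5) (nat_lit 15) (nat_lit 4) (nat_lit 392) (nat_lit 350) (nat_lit 158)))) (XT.nd (nat_lit 156) (nat_lit 152) (nat_lit 0) (XT.nd (nat_lit 78) (nat_lit 76) (nat_lit 0) (XT.lf (nat_lit 0) (nat_lit 931850148189) (nat_lit 152) (nat_lit 470125831359) (nat_lit 0) (nat_lit 206646189015) (nat_lit 13) (nat_lit 5) (nat_lit 15) (nat_lit 4) (nat_lit 13) (nat_lit 4) (nat_lit 393) (nat_lit 350) (nat_lit 157)) (XT.lf (nat_lit 0) (nat_lit 172240716695) (nat_lit 76) (nat_lit 1130894662804) (nat_lit 76) (nat_lit 405690684604)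 (nat_lit 12) (nat_lit 4) (nat_lit 13) (nat_lit 5) (nat_lit 13) (nat_lit 4) (nat_lit 394) (nat_lit 350) (nat_lit 156))) (XT.nd (nat_lit 78) (nat_lit 152) (nat_lit 0) (XT.lf (nat_lit 0) (nat_lit 892733025483) (nat_lit 76) (nat_lit 824244458621) (nat_lit 76) (nat_lit 99040462805) (nat_lit 12) (nat_lit 4) (nat_lit 13) (nat_lit 5) (nat_lit 13) (nat_lit 4) (nat_lit 395) (nat_lit 350) (nat_lit 155)) (XT.nd (nat_lit 78) (nat_lit 76) (nat_lit 0) (XT.lf (nat_lit 0) (nat_lit 220529087236) (nat_lit 152) (nat_lit 266503510675) (nat_lit 76) (nat_lit 1444305942619) (nat_lit 11) (nat_lit 5) (nat_lit 13) (nat_lit 5) (nat_lit 12) (nat_lit 4) (nat_lit 396) (nat_lit 350) (nat_lit 154)) (XT.lf (nat_lit 0) (nat_lit 463430576231) (nat_lit 76) (nat_lit 108028367741) (nat_lit 152) (nat_lit 1483328399298) (nat_lit 10) (nat_lit 5) (nat_lit 11) (nat_lit 5) (nat_lit 12) (nat_lit 4) (nat_lit 397) (nat_lit 350) (nat_lit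 153)))))) (XT.nd (nat_lit 312) (nat_lit 152) (nat_lit 0) (XT.nd (nat_lit 156) (nat_lit 76) (nat_lit 0) (XT.nd (nat_lit 78) (nat_lit 0) (nat_lit 0) (XT.lf (nat_lit 0) (nat_lit 965185296534) (nat_lit 152) (nat_lit 928048911928) (nat_lit 0) (nat_lit 293700073186) (nat_lit 10) (nat_lit 5) (nat_lit 12) (nat_lit 4) (nat_lit 10) (nat_lit 4) (nat_lit 398) (nat_lit 350) (nat_lit 152)) (XT.lf (nat_lit 0) (nat_lit 1393215673907) (nat_lit 152) (nat_lit 214482389295) (nat_lit 0) (nat_lit 721730438570) (nat_lit 10) (nat_lit 5) (nat_lit 12) (nat_lit 4) (nat_lit 10) (nat_lit 4) (nat_lit 399) (nat_lit 350) (nat_lit 151))) (XT.nd (nat_lit 78) (nat_lit 0) (nat_lit 0) (XT.lf (nat_lit 0) (nat_lit 585456324522) (nat_lit 76) (nat_lit 1284112381722) (nat_lit 76) (nat_lit 612627135284) (nat_lit 9) (nat_lit 4) (nat_lit 10) (nat_lit 5) (nat_lit 10) (nat_lit 4) (nat_lit 400) (nat_lit 350) (nat_lit 150)) (XT.lf (nat_lit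 0) (nat_lit 1461587912566) (nat_lit 76) (nat_lit 928306383705) (nat_lit 76) (nat_lit 256821126987) (nat_lit 9) (nat_lit 4) (nat_lit 10) (nat_lit 5) (nat_lit 10) (nat_lit 4) (nat_lit 401) (nat_lit 350) (nat_lit 149)))) (XT.nd (nat_lit 156) (nat_lit 0) (nat_lit 0) (XT.nd (nat_lit 78) (nat_lit 76) (nat_lit 0) (XT.lf (nat_lit 0) (nat_lit 121073815871) (nat_lit 152) (nat_lit 419651729222) (nat_lit 76) (nat_lit 2283425814647) (nat_lit 8) (nat_lit 5) (nat_lit 10) (nat_lit 5) (nat_lit 9) (nat_lit 4) (nat_lit 402) (nat_lit 350) (nat_lit 148)) (XT.lf (nat_lit 0) (nat_lit 421475315123) (nat_lit 76) (nat_lit 103986507074) (nat_lit 152) (nat_lit 2488975776290) (nat_lit 7) (nat_lit 5) (nat_lit 8) (nat_lit 5) (nat_lit 9) (nat_lit 4) (nat_lit 403) (nat_lit 350) (nat_lit 147))) (XT.nd (nat_lit 78) (nat_lit 0) (nat_lit 0) (XT.lf (nat_lit 0) (nat_lit 982815898836) (nat_lit 152) (nat_lit 1874411368879) (nat_lit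 0) (nat_lit 361070266236) (nat_lit 7) (nat_lit 5) (nat_lit 9) (nat_lit 4) (nat_lit 7) (nat_lit 4) (nat_lit 404) (nat_lit 350) (nat_lit 146)) (XT.nd (nat_lit 78) (nat_lit 0) (nat_lit 0) (XT.lf (nat_lit 0) (nat_lit 1479459238894) (nat_lit 152) (nat_lit 1101077351078) (nat_lit 0) (nat_lit 857713599299) (nat_lit 7) (nat_lit 5) (nat_lit 9) (nat_lit 4) (nat_lit 7) (nat_lit 4) (nat_lit 405) (nat_lit 350) (nat_lit 145)) (XT.lf (nat_lit 0) (nat_lit 2015834036021) (nat_lit 152) (nat_lit 265876631861) (nat_lit 0) (nat_lit 1394088389948) (nat_lit 7) (nat_lit 5) (nat_lit 9) (nat_lit 4) (nat_lit 7) (nat_lit 4) (nat_lit 406) (nat_lit 350) (nat_lit 144))))))) (XT.nd (nat_lit 42978) (nat_lit 0) (nat_lit 2660) (XT.nd (nat_lit 42588) (nat_lit 0) (nat_lit 3952) (XT.nd (nat_lit 156) (nat_lit 0) (nat_lit 0) (XT.nd (nat_lit 78) (nat_lit 0) (nat_lit 0) (XT.lf (nat_lit 0) (nat_lit 669638138083) (nat_lit 76) (nat_lit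 1941585482774) (nat_lit 76) (nat_lit 1319839830703) (nat_lit 6) (nat_lit 4) (nat_lit 7) (nat_lit 5) (nat_lit 7) (nat_lit 4) (nat_lit 407) (nat_lit 350) (nat_lit 143)) (XT.lf (nat_lit 0) (nat_lit 1695114711209) (nat_lit 76) (nat_lit 1566399190436) (nat_lit 76) (nat_lit 944653532812) (nat_lit 6) (nat_lit 4) (nat_lit 7) (nat_lit 5) (nat_lit 7) (nat_lit 4) (nat_lit 408) (nat_lit 350) (nat_lit 142))) (XT.nd (nat_lit 42354) (nat_lit 0) (nat_lit 3952) (XT.lf (nat_lit 0) (nat_lit 2802629393466) (nat_lit 76) (nat_lit 1161198002982) (nat_lit 76) (nat_lit 539452340216) (nat_lit 6) (nat_lit 4) (nat_lit 7) (nat_lit 5) (nat_lit 7) (nat_lit 4) (nat_lit 409) (nat_lit 350) (nat_lit 141)) (XT.lf (nat_lit 0) (nat_lit 83744339038) (nat_lit 532) (nat_lit 9691694121) (nat_lit 532) (nat_lit 9691694121) (nat_lit 58) (nat_lit 3) (nat_lit 65) (nat_lit 3) (nat_lit 65) (nat_lit 5) (nat_lit 351) (nat_lit 351) (nat_lit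 198)))) (XT.nd (nat_lit 156) (nat_lit 0) (nat_lit 76) (XT.nd (nat_lit 78) (nat_lit 0) (nat_lit 76) (XT.lf (nat_lit 76) (nat_lit 83394081219) (nat_lit 0) (nat_lit 92801203781) (nat_lit 532) (nat_lit 38149820813) (nat_lit 59) (nat_lit 5) (nat_lit 58) (nat_lit 3) (nat_lit 65) (nat_lit 5) (nat_lit 352) (nat_lit 351) (nat_lit 197)) (XT.lf (nat_lit 0) (nat_lit 186353546611) (nat_lit 456) (nat_lit 27768820624) (nat_lit 532) (nat_lit 8899152056) (nat_lit 59) (nat_lit 5) (nat_lit 65) (nat_lit 5) (nat_lit 66) (nat_lit 5) (nat_lit 353) (nat_lit 351) (nat_lit 196))) (XT.nd (nat_lit 78) (nat_lit 0) (nat_lit 0) (XT.lf (nat_lit 76) (nat_lit 85536324384) (nat_lit 0) (nat_lit 116255583421) (nat_lit 532) (nat_lit 30242743150) (nat_lit 60) (nat_lit 5) (nat_lit 59) (nat_lit 5) (nat_lit 66) (nat_lit 5) (nat_lit 354) (nat_lit 351) (nat_lit 195)) (XT.nd (nat_lit 78) (nat_lit 0) (nat_lit 76) (XT.lf (nat_lit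 76) (nat_lit 209485032878) (nat_lit 0) (nat_lit 9739428686) (nat_lit 532) (nat_lit 22483641876) (nat_lit 60) (nat_lit 5) (nat_lit 59) (nat_lit 5) (nat_lit 66) (nat_lit 5) (nat_lit 355) (nat_lit 351) (nat_lit 194)) (XT.lf (nat_lit 76) (nat_lit 93330464335) (nat_lit 0) (nat_lit 149498060128) (nat_lit 532) (nat_lit 8944755446) (nat_lit 61) (nat_lit 5) (nat_lit 60) (nat_lit 5) (nat_lit 67) (nat_lit 5) (nat_lit 356) (nat_lit 351) (nat_lit 193)))))) (XT.nd (nat_lit 312) (nat_lit 608) (nat_lit 0) (XT.nd (nat_lit 156) (nat_lit 304) (nat_lit 0) (XT.nd (nat_lit 78) (nat_lit 0) (nat_lit 76) (XT.lf (nat_lit 0) (nat_lit 6550023838) (nat_lit 532) (nat_lit 32224838333) (nat_lit 608) (nat_lit 223765343000) (nat_lit 53) (nat_lit 5) (nat_lit 60) (nat_lit 5) (nat_lit 61) (nat_lit 5) (nat_lit 357) (nat_lit 351) (nat_lit 192)) (XT.lf (nat_lit 0) (nat_lit 27448073465) (nat_lit 532) (nat_lit 166630134553) (nat_lit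 76) (nat_lit 79699935096) (nat_lit 54) (nat_lit 5) (nat_lit 61) (nat_lit 5) (nat_lit 55) (nat_lit 5) (nat_lit 358) (nat_lit 351) (nat_lit 191))) (XT.nd (nat_lit 78) (nat_lit 380) (nat_lit 0) (XT.lf (nat_lit 0) (nat_lit 51928978534) (nat_lit 532) (nat_lit 27371408063) (nat_lit 76) (nat_lit 206461848703) (nat_lit 54) (nat_lit 5) (nat_lit 61) (nat_lit 5) (nat_lit 55) (nat_lit 5) (nat_lit 359) (nat_lit 351) (nat_lit 190)) (XT.lf (nat_lit 0) (nat_lit 82637862611) (nat_lit 456) (nat_lit 170104493450) (nat_lit 76) (nat_lit 45621138387) (nat_lit 49) (nat_lit 5) (nat_lit 55) (nat_lit 5) (nat_lit 50) (nat_lit 5) (nat_lit 360) (nat_lit 351) (nat_lit 189)))) (XT.nd (nat_lit 156) (nat_lit 380) (nat_lit 0) (XT.nd (nat_lit 78) (nat_lit 228) (nat_lit 0) (XT.lf (nat_lit 0) (nat_lit 118630943658) (nat_lit 456) (nat_lit 16095783922) (nat_lit 76) (nat_lit 177019927956) (nat_lit 49) (nat_lit 5) (nat_lit 55)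 (nat_lit 5) (nat_lit 50) (nat_lit 5) (nat_lit 361) (nat_lit 351) (nat_lit 188)) (XT.lf (nat_lit 0) (nat_lit 158144570557) (nat_lit 228) (nat_lit 3162202306) (nat_lit 304) (nat_lit 164589432613) (nat_lit 46) (nat_lit 5) (nat_lit 49) (nat_lit 5) (nat_lit 50) (nat_lit 5) (nat_lit 362) (nat_lit 351) (nat_lit 187))) (XT.nd (nat_lit 78) (nat_lit 152) (nat_lit 0) (XT.lf (nat_lit 0) (nat_lit 2888804409) (nat_lit 228) (nat_lit 208369991949) (nat_lit 304) (nat_lit 129609952910) (nat_lit 43) (nat_lit 5) (nat_lit 46) (nat_lit 5) (nat_lit 47) (nat_lit 5) (nat_lit 363) (nat_lit 351) (nat_lit 186)) (XT.nd (nat_lit 78) (nat_lit 152) (nat_lit 0) (XT.lf (nat_lit 0) (nat_lit 196634117455) (nat_lit 228) (nat_lit 73239475226) (nat_lit 304) (nat_lit 86792175091) (nat_lit 43) (nat_lit 5) (nat_lit 46) (nat_lit 5) (nat_lit 47) (nat_lit 5) (nat_lit 364) (nat_lit 351) (nat_lit 185)) (XT.lf (nat_lit 0) (nat_lit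 32004969463) (nat_lit 152) (nat_lit 303690729173) (nat_lit 228) (nat_lit 37829399126) (nat_lit 41) (nat_lit 5) (nat_lit 43) (nat_lit 5) (nat_lit 44) (nat_lit 5) (nat_lit 365) (nat_lit 351) (nat_lit 184))))))))
noncomputable def xc221 : XT := (XT.nd (nat_lit 1404) (nat_lit 836) (nat_lit 0) (XT.nd (nat_lit 702) (nat_lit 760) (nat_lit 0) (XT.nd (nat_lit 312) (nat_lit 380) (nat_lit 0) (XT.nd (nat_lit 156) (nat_lit 152) (nat_lit 0) (XT.nd (nat_lit 78) (nat_lit 228) (nat_lit 0) (XT.lf (nat_lit 0) (nat_lit 20688975059) (nat_lit 228) (nat_lit 145255492261) (nat_lit 76) (nat_lit 225248433257) (nat_lit 40) (nat_lit 5) (nat_lit 43) (nat_lit 5) (nat_lit 41) (nat_lit 5) (nat_lit 366) (nat_lit 351) (nat_lit 183)) (XT.lf (nat_lit 0) (nat_lit 69188755466) (nat_lit 228) (nat_lit 14320224142) (nat_lit 304) (nat_lit 326553427083) (nat_lit 37) (nat_lit 5) (nat_lit 40) (nat_lit 5) (nat_lit 41) (nat_lit 5)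 (nat_lit 367) (nat_lit 351) (nat_lit 182))) (XT.nd (nat_lit 78) (nat_lit 152) (nat_lit 0) (XT.lf (nat_lit 0) (nat_lit 159023115851) (nat_lit 304) (nat_lit 124771526970) (nat_lit 76) (nat_lit 146033348026) (nat_lit 37) (nat_lit 5) (nat_lit 41) (nat_lit 5) (nat_lit 38) (nat_lit 5) (nat_lit 368) (nat_lit 351) (nat_lit 181)) (XT.lf (nat_lit 0) (nat_lit 113946819374) (nat_lit 152) (nat_lit 129743887081) (nat_lit 228) (nat_lit 207235129457) (nat_lit 35) (nat_lit 5) (nat_lit 37) (nat_lit 5) (nat_lit 38) (nat_lit 5) (nat_lit 369) (nat_lit 351) (nat_lit 180)))) (XT.nd (nat_lit 156) (nat_lit 228) (nat_lit 0) (XT.nd (nat_lit 78) (nat_lit 152) (nat_lit 0) (XT.lf (nat_lit 0) (nat_lit 339512710996) (nat_lit 228) (nat_lit 95549751489) (nat_lit 76) (nat_lit 38298565611) (nat_lit 35) (nat_lit 5) (nat_lit 38) (nat_lit 5) (nat_lit 36) (nat_lit 5) (nat_lit 370) (nat_lit 351) (nat_lit 179)) (XT.lf (nat_lit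 0) (nat_lit 170345167414) (nat_lit 152) (nat_lit 280122036404) (nat_lit 228) (nat_lit 46526493650) (nat_lit 33) (nat_lit 5) (nat_lit 35) (nat_lit 5) (nat_lit 36) (nat_lit 5) (nat_lit 371) (nat_lit 351) (nat_lit 178))) (XT.nd (nat_lit 78) (nat_lit 152) (nat_lit 0) (XT.lf (nat_lit 0) (nat_lit 48071181544) (nat_lit 228) (nat_lit 60579366898) (nat_lit 76) (nat_lit 413560076402) (nat_lit 32) (nat_lit 5) (nat_lit 35) (nat_lit 5) (nat_lit 33) (nat_lit 5) (nat_lit 372) (nat_lit 351) (nat_lit 177)) (XT.nd (nat_lit 78) (nat_lit 0) (nat_lit 0) (XT.lf (nat_lit 0) (nat_lit 155454009883) (nat_lit 228) (nat_lit 313467129473) (nat_lit 76) (nat_lit 79808610402) (nat_lit 30) (nat_lit 5) (nat_lit 33) (nat_lit 5) (nat_lit 31) (nat_lit 5) (nat_lit 373) (nat_lit 351) (nat_lit 176)) (XT.lf (nat_lit 0) (nat_lit 275948882753) (nat_lit 228) (nat_lit 21885910387) (nat_lit 76) (nat_lit 279173898097) (nat_lit 30)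 (nat_lit 5) (nat_lit 33) (nat_lit 5) (nat_lit 31) (nat_lit 5) (nat_lit 374) (nat_lit 351) (nat_lit 175)))))) (XT.nd (nat_lit 312) (nat_lit 304) (nat_lit 0) (XT.nd (nat_lit 156) (nat_lit 228) (nat_lit 0) (XT.nd (nat_lit 78) (nat_lit 76) (nat_lit 0) (XT.lf (nat_lit 0) (nat_lit 308451748939) (nat_lit 152) (nat_lit 105049828535) (nat_lit 228) (nat_lit 193454912031) (nat_lit 28) (nat_lit 5) (nat_lit 30) (nat_lit 5) (nat_lit 31) (nat_lit 5) (nat_lit 375) (nat_lit 351) (nat_lit 174)) (XT.lf (nat_lit 0) (nat_lit 26013600527) (nat_lit 76) (nat_lit 539765369133) (nat_lit 152) (nat_lit 73223503451) (nat_lit 27) (nat_lit 5) (nat_lit 28) (nat_lit 5) (nat_lit 29) (nat_lit 4) (nat_lit 376) (nat_lit 351) (nat_lit 173))) (XT.nd (nat_lit 78) (nat_lit 152) (nat_lit 0) (XT.lf (nat_lit 0) (nat_lit 64895902868) (nat_lit 152) (nat_lit 283792054480) (nat_lit 76) (nat_lit 323927055321) (nat_lit 26) (nat_lit 5)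 (nat_lit 28) (nat_lit 5) (nat_lit 27) (nat_lit 5) (nat_lit 377) (nat_lit 351) (nat_lit 172)) (XT.lf (nat_lit 0) (nat_lit 73516114022) (nat_lit 152) (nat_lit 138360805110) (nat_lit 228) (nat_lit 496746041266) (nat_lit 24) (nat_lit 5) (nat_lit 26) (nat_lit 5) (nat_lit 27) (nat_lit 5) (nat_lit 378) (nat_lit 351) (nat_lit 171)))) (XT.nd (nat_lit 156) (nat_lit 228) (nat_lit 0) (XT.nd (nat_lit 78) (nat_lit 76) (nat_lit 0) (XT.lf (nat_lit 0) (nat_lit 380712763800) (nat_lit 228) (nat_lit 273679416968) (nat_lit 76) (nat_lit 92311655430) (nat_lit 24) (nat_lit 5) (nat_lit 27) (nat_lit 5) (nat_lit 25) (nat_lit 4) (nat_lit 379) (nat_lit 351) (nat_lit 170)) (XT.lf (nat_lit 0) (nat_lit 119022343436) (nat_lit 76) (nat_lit 450489377479) (nat_lit 152) (nat_lit 217802961576) (nat_lit 23) (nat_lit 5) (nat_lit 24) (nat_lit 5) (nat_lit 25) (nat_lit 4) (nat_lit 380) (nat_lit 351) (nat_lit 169))) (XT.nd (nat_lit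 78) (nat_lit 228) (nat_lit 0) (XT.lf (nat_lit 0) (nat_lit 558704581162) (nat_lit 76) (nat_lit 222192862305) (nat_lit 152) (nat_lit 49678325132) (nat_lit 23) (nat_lit 5) (nat_lit 24) (nat_lit 5) (nat_lit 25) (nat_lit 4) (nat_lit 381) (nat_lit 351) (nat_lit 168)) (XT.nd (nat_lit 78) (nat_lit 0) (nat_lit 0) (XT.lf (nat_lit 0) (nat_lit 129943096483) (nat_lit 228) (nat_lit 716349990428) (nat_lit 76) (nat_lit 30379301959) (nat_lit 20) (nat_lit 5) (nat_lit 23) (nat_lit 5) (nat_lit 21) (nat_lit 4) (nat_lit 382) (nat_lit 351) (nat_lit 167)) (XT.lf (nat_lit 0) (nat_lit 334648042153) (nat_lit 228) (nat_lit 290563755178) (nat_lit 76) (nat_lit 300069895340) (nat_lit 20) (nat_lit 5) (nat_lit 23) (nat_lit 5) (nat_lit 21) (nat_lit 4) (nat_lit 383) (nat_lit 351) (nat_lit 166))))))) (XT.nd (nat_lit 702) (nat_lit 380) (nat_lit 0) (XT.nd (nat_lit 312) (nat_lit 228) (nat_lit 0) (XT.nd (nat_lit 156) (nat_lit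 152) (nat_lit 0) (XT.nd (nat_lit 78) (nat_lit 0) (nat_lit 0) (XT.lf (nat_lit 0) (nat_lit 178199595783) (nat_lit 76) (nat_lit 381815465058) (nat_lit 152) (nat_lit 417421825760) (nat_lit 19) (nat_lit 5) (nat_lit 20) (nat_lit 5) (nat_lit 21) (nat_lit 4) (nat_lit 384) (nat_lit 351) (nat_lit 165)) (XT.lf (nat_lit 0) (nat_lit 700988585668) (nat_lit 76) (nat_lit 110367357022) (nat_lit 152) (nat_lit 221772993234) (nat_lit 19) (nat_lit 5) (nat_lit 20) (nat_lit 5) (nat_lit 21) (nat_lit 4) (nat_lit 385) (nat_lit 351) (nat_lit 164))) (XT.nd (nat_lit 78) (nat_lit 76) (nat_lit 0) (XT.lf (nat_lit 0) (nat_lit 176770830442) (nat_lit 76) (nat_lit 914680845144) (nat_lit 76) (nat_lit 1132867178) (nat_lit 18) (nat_lit 4) (nat_lit 19) (nat_lit 5) (nat_lit 19) (nat_lit 4) (nat_lit 386) (nat_lit 351) (nat_lit 163)) (XT.lf (nat_lit 0) (nat_lit 237478685595) (nat_lit 152) (nat_lit 419592347143) (nat_lit 76) (nat_lit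 498294564574) (nat_lit 17) (nat_lit 5) (nat_lit 19) (nat_lit 5) (nat_lit 18) (nat_lit 4) (nat_lit 387) (nat_lit 351) (nat_lit 162)))) (XT.nd (nat_lit 156) (nat_lit 152) (nat_lit 0) (XT.nd (nat_lit 78) (nat_lit 0) (nat_lit 0) (XT.lf (nat_lit 0) (nat_lit 122421267597) (nat_lit 76) (nat_lit 375640902299) (nat_lit 152) (nat_lit 724869075401) (nat_lit 16) (nat_lit 5) (nat_lit 17) (nat_lit 5) (nat_lit 18) (nat_lit 4) (nat_lit 388) (nat_lit 351) (nat_lit 161)) (XT.lf (nat_lit 0) (nat_lit 731658519011) (nat_lit 76) (nat_lit 59306190118) (nat_lit 152) (nat_lit 504019645905) (nat_lit 16) (nat_lit 5) (nat_lit 17) (nat_lit 5) (nat_lit 18) (nat_lit 4) (nat_lit 389) (nat_lit 351) (nat_lit 160))) (XT.nd (nat_lit 78) (nat_lit 76) (nat_lit 0) (XT.lf (nat_lit 0) (nat_lit 10571664460) (nat_lit 76) (nat_lit 1103772185614) (nat_lit 76) (nat_lit 257894311600) (nat_lit 15) (nat_lit 4) (nat_lit 16) (nat_lit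 5) (nat_lit 16) (nat_lit 4) (nat_lit 390) (nat_lit 351) (nat_lit 159)) (XT.nd (nat_lit 78) (nat_lit 0) (nat_lit 0) (XT.lf (nat_lit 0) (nat_lit 24867593238) (nat_lit 152) (nat_lit 794153304044) (nat_lit 76) (nat_lit 635248712513) (nat_lit 14) (nat_lit 5) (nat_lit 16) (nat_lit 5) (nat_lit 15) (nat_lit 4) (nat_lit 391) (nat_lit 351) (nat_lit 158)) (XT.lf (nat_lit 0) (nat_lit 316317439781) (nat_lit 152) (nat_lit 187937645427) (nat_lit 76) (nat_lit 1038072605825) (nat_lit 14) (nat_lit 5) (nat_lit 16) (nat_lit 5) (nat_lit 15) (nat_lit 4) (nat_lit 392) (nat_lit 351) (nat_lit 157)))))) (XT.nd (nat_lit 312) (nat_lit 228) (nat_lit 0) (XT.nd (nat_lit 156) (nat_lit 76) (nat_lit 0) (XT.nd (nat_lit 78) (nat_lit 0) (nat_lit 0) (XT.lf (nat_lit 0) (nat_lit 491354788647) (nat_lit 76) (nat_lit 151545562009) (nat_lit 152) (nat_lit 993584701990) (nat_lit 13) (nat_lit 5) (nat_lit 14) (nat_lit 5) (nat_lit 15)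 (nat_lit 4) (nat_lit 393) (nat_lit 351) (nat_lit 156)) (XT.lf (nat_lit 0) (nat_lit 1006398505661) (nat_lit 152) (nat_lit 507735236070) (nat_lit 0) (nat_lit 223178172563) (nat_lit 13) (nat_lit 5) (nat_lit 15) (nat_lit 4) (nat_lit 13) (nat_lit 4) (nat_lit 394) (nat_lit 351) (nat_lit 155))) (XT.nd (nat_lit 78) (nat_lit 0) (nat_lit 0) (XT.lf (nat_lit 0) (nat_lit 186020619074) (nat_lit 76) (nat_lit 1221365926314) (nat_lit 76) (nat_lit 438145576905) (nat_lit 12) (nat_lit 4) (nat_lit 13) (nat_lit 5) (nat_lit 13) (nat_lit 4) (nat_lit 395) (nat_lit 351) (nat_lit 154)) (XT.lf (nat_lit 0) (nat_lit 964152264784) (nat_lit 76) (nat_lit 890183728724) (nat_lit 76) (nat_lit 106963364211) (nat_lit 12) (nat_lit 4) (nat_lit 13) (nat_lit 5) (nat_lit 13) (nat_lit 4) (nat_lit 396) (nat_lit 351) (nat_lit 153)))) (XT.nd (nat_lit 156) (nat_lit 76) (nat_lit 0) (XT.nd (nat_lit 78) (nat_lit 76) (nat_lit 0) (XT.lf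 (nat_lit 0) (nat_lit 238171709427) (nat_lit 152) (nat_lit 287823222887) (nat_lit 76) (nat_lit 1559850667766) (nat_lit 11) (nat_lit 5) (nat_lit 13) (nat_lit 5) (nat_lit 12) (nat_lit 4) (nat_lit 397) (nat_lit 351) (nat_lit 152)) (XT.lf (nat_lit 0) (nat_lit 500505576575) (nat_lit 76) (nat_lit 116670369588) (nat_lit 152) (nat_lit 1601994361563) (nat_lit 10) (nat_lit 5) (nat_lit 11) (nat_lit 5) (nat_lit 12) (nat_lit 4) (nat_lit 398) (nat_lit 351) (nat_lit 151))) (XT.nd (nat_lit 78) (nat_lit 76) (nat_lit 0) (XT.lf (nat_lit 0) (nat_lit 1042400391654) (nat_lit 152) (nat_lit 1002292296348) (nat_lit 0) (nat_lit 317196314400) (nat_lit 10) (nat_lit 5) (nat_lit 12) (nat_lit 4) (nat_lit 10) (nat_lit 4) (nat_lit 399) (nat_lit 351) (nat_lit 150)) (XT.nd (nat_lit 78) (nat_lit 76) (nat_lit 0) (XT.lf (nat_lit 0) (nat_lit 1504673179114) (nat_lit 152) (nat_lit 231640491056) (nat_lit 0) (nat_lit 779469091580)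 (nat_lit 10) (nat_lit 5) (nat_lit 12) (nat_lit 4) (nat_lit 10) (nat_lit 4) (nat_lit 400) (nat_lit 351) (nat_lit 149)) (XT.lf (nat_lit 0) (nat_lit 632293307477) (nat_lit 76) (nat_lit 1386841139418) (nat_lit 76) (nat_lit 661637042367) (nat_lit 9) (nat_lit 4) (nat_lit 10) (nat_lit 5) (nat_lit 10) (nat_lit 4) (nat_lit 401) (nat_lit 351) (nat_lit 148))))))))
noncomputable def xc222 : XT := (XT.nd (nat_lit 43836) (nat_lit 0) (nat_lit 1368) (XT.nd (nat_lit 43134) (nat_lit 0) (nat_lit 3268) (XT.nd (nat_lit 312) (nat_lit 76) (nat_lit 0) (XT.nd (nat_lit 156) (nat_lit 76) (nat_lit 0) (XT.nd (nat_lit 78) (nat_lit 76) (nat_lit 0) (XT.lf (nat_lit 0) (nat_lit 1578515387232) (nat_lit 76) (nat_lit 1002570678807) (nat_lit 76) (nat_lit 277366572943) (nat_lit 9) (nat_lit 4) (nat_lit 10) (nat_lit 5) (nat_lit 10) (nat_lit 4) (nat_lit 402) (nat_lit 351) (nat_lit 147)) (XT.lf (nat_lit 0) (nat_lit 130759935944)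 (nat_lit 152) (nat_lit 453223447259) (nat_lit 76) (nat_lit 2466100068087) (nat_lit 8) (nat_lit 5) (nat_lit 10) (nat_lit 5) (nat_lit 9) (nat_lit 4) (nat_lit 403) (nat_lit 351) (nat_lit 146))) (XT.nd (nat_lit 78) (nat_lit 0) (nat_lit 0) (XT.lf (nat_lit 0) (nat_lit 455193749993) (nat_lit 76) (nat_lit 112305226724) (nat_lit 152) (nat_lit 2688093612908) (nat_lit 7) (nat_lit 5) (nat_lit 8) (nat_lit 5) (nat_lit 9) (nat_lit 4) (nat_lit 404) (nat_lit 351) (nat_lit 145)) (XT.lf (nat_lit 0) (nat_lit 1061441368498) (nat_lit 152) (nat_lit 2024363888047) (nat_lit 0) (nat_lit 389956064262) (nat_lit 7) (nat_lit 5) (nat_lit 9) (nat_lit 4) (nat_lit 7) (nat_lit 4) (nat_lit 405) (nat_lit 351) (nat_lit 144)))) (XT.nd (nat_lit 156) (nat_lit 76) (nat_lit 0) (XT.nd (nat_lit 78) (nat_lit 0) (nat_lit 0) (XT.lf (nat_lit 0) (nat_lit 1597816161113) (nat_lit 152) (nat_lit 1189163177737) (nat_lit 0) (nat_lit 926330850879)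 (nat_lit 7) (nat_lit 5) (nat_lit 9) (nat_lit 4) (nat_lit 7) (nat_lit 4) (nat_lit 406) (nat_lit 351) (nat_lit 143)) (XT.lf (nat_lit 0) (nat_lit 2177100928446) (nat_lit 152) (nat_lit 287146427755) (nat_lit 0) (nat_lit 1505615612659) (nat_lit 7) (nat_lit 5) (nat_lit 9) (nat_lit 4) (nat_lit 7) (nat_lit 4) (nat_lit 407) (nat_lit 351) (nat_lit 142))) (XT.nd (nat_lit 42510) (nat_lit 0) (nat_lit 3952) (XT.lf (nat_lit 0) (nat_lit 723209515313) (nat_lit 76) (nat_lit 2096912160042) (nat_lit 76) (nat_lit 1425426839113) (nat_lit 6) (nat_lit 4) (nat_lit 7) (nat_lit 5) (nat_lit 7) (nat_lit 4) (nat_lit 408) (nat_lit 351) (nat_lit 141)) (XT.nd (nat_lit 78) (nat_lit 0) (nat_lit 0) (XT.lf (nat_lit 0) (nat_lit 90445281909) (nat_lit 532) (nat_lit 10466274900) (nat_lit 532) (nat_lit 10466274900) (nat_lit 58) (nat_lit 3) (nat_lit 65) (nat_lit 3) (nat_lit 65) (nat_lit 5) (nat_lit 352) (nat_lit 352) (nat_lit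 196)) (XT.lf (nat_lit 76) (nat_lit 90067079002) (nat_lit 0) (nat_lit 100226448901) (nat_lit 532) (nat_lit 41198972892) (nat_lit 59) (nat_lit 5) (nat_lit 58) (nat_lit 3) (nat_lit 65) (nat_lit 5) (nat_lit 353) (nat_lit 352) (nat_lit 195)))))) (XT.nd (nat_lit 312) (nat_lit 760) (nat_lit 0) (XT.nd (nat_lit 156) (nat_lit 0) (nat_lit 0) (XT.nd (nat_lit 78) (nat_lit 0) (nat_lit 0) (XT.lf (nat_lit 0) (nat_lit 201264230779) (nat_lit 456) (nat_lit 29988740720) (nat_lit 532) (nat_lit 9610073713) (nat_lit 59) (nat_lit 5) (nat_lit 65) (nat_lit 5) (nat_lit 66) (nat_lit 5) (nat_lit 354) (nat_lit 352) (nat_lit 194)) (XT.lf (nat_lit 76) (nat_lit 92380775748) (nat_lit 0) (nat_lit 125556744477) (nat_lit 532) (nat_lit 32659718700) (nat_lit 60) (nat_lit 5) (nat_lit 59) (nat_lit 5) (nat_lit 66) (nat_lit 5) (nat_lit 355) (nat_lit 352) (nat_lit 193))) (XT.nd (nat_lit 78) (nat_lit 0) (nat_lit 76) (XT.lf (nat_lit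 76) (nat_lit 226245266447) (nat_lit 0) (nat_lit 10519244446) (nat_lit 532) (nat_lit 24280070354) (nat_lit 60) (nat_lit 5) (nat_lit 59) (nat_lit 5) (nat_lit 66) (nat_lit 5) (nat_lit 356) (nat_lit 352) (nat_lit 192)) (XT.lf (nat_lit 76) (nat_lit 100798477853) (nat_lit 0) (nat_lit 161458289160) (nat_lit 532) (nat_lit 9658215593) (nat_lit 61) (nat_lit 5) (nat_lit 60) (nat_lit 5) (nat_lit 67) (nat_lit 5) (nat_lit 357) (nat_lit 352) (nat_lit 191)))) (XT.nd (nat_lit 156) (nat_lit 304) (nat_lit 0) (XT.nd (nat_lit 78) (nat_lit 0) (nat_lit 76) (XT.lf (nat_lit 0) (nat_lit 7075890767) (nat_lit 532) (nat_lit 34801265146) (nat_lit 608) (nat_lit 241666114028) (nat_lit 53) (nat_lit 5) (nat_lit 60) (nat_lit 5) (nat_lit 61) (nat_lit 5) (nat_lit 358) (nat_lit 352) (nat_lit 190)) (XT.lf (nat_lit 0) (nat_lit 29645676951) (nat_lit 532) (nat_lit 179958875390) (nat_lit 76) (nat_lit 86075699352) (nat_lit 54)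 (nat_lit 5) (nat_lit 61) (nat_lit 5) (nat_lit 55) (nat_lit 5) (nat_lit 359) (nat_lit 352) (nat_lit 189))) (XT.nd (nat_lit 78) (nat_lit 380) (nat_lit 0) (XT.lf (nat_lit 0) (nat_lit 56084924233) (nat_lit 532) (nat_lit 29559574479) (nat_lit 76) (nat_lit 222978583125) (nat_lit 54) (nat_lit 5) (nat_lit 61) (nat_lit 5) (nat_lit 55) (nat_lit 5) (nat_lit 360) (nat_lit 352) (nat_lit 188)) (XT.nd (nat_lit 78) (nat_lit 0) (nat_lit 0) (XT.lf (nat_lit 0) (nat_lit 89250433865) (nat_lit 456) (nat_lit 183711219588) (nat_lit 76) (nat_lit 49270795232) (nat_lit 49) (nat_lit 5) (nat_lit 55) (nat_lit 5) (nat_lit 50) (nat_lit 5) (nat_lit 361) (nat_lit 352) (nat_lit 187)) (XT.lf (nat_lit 0) (nat_lit 128122847156) (nat_lit 456) (nat_lit 17381934286) (nat_lit 76) (nat_lit 191181490502) (nat_lit 49) (nat_lit 5) (nat_lit 55) (nat_lit 5) (nat_lit 50) (nat_lit 5) (nat_lit 362) (nat_lit 352) (nat_lit 186))))))) (XT.nd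 (nat_lit 702) (nat_lit 836) (nat_lit 0) (XT.nd (nat_lit 312) (nat_lit 456) (nat_lit 0) (XT.nd (nat_lit 156) (nat_lit 152) (nat_lit 0) (XT.nd (nat_lit 78) (nat_lit 228) (nat_lit 0) (XT.lf (nat_lit 0) (nat_lit 170797610264) (nat_lit 228) (nat_lit 3415062106) (nat_lit 304) (nat_lit 177755119268) (nat_lit 46) (nat_lit 5) (nat_lit 49) (nat_lit 5) (nat_lit 50) (nat_lit 5) (nat_lit 363) (nat_lit 352) (nat_lit 185)) (XT.lf (nat_lit 0) (nat_lit 3121450262) (nat_lit 228) (nat_lit 225039346579) (nat_lit 304) (nat_lit 139977347088) (nat_lit 43) (nat_lit 5) (nat_lit 46) (nat_lit 5) (nat_lit 47) (nat_lit 5) (nat_lit 364) (nat_lit 352) (nat_lit 184))) (XT.nd (nat_lit 78) (nat_lit 152) (nat_lit 0) (XT.lf (nat_lit 0) (nat_lit 212366274167) (nat_lit 228) (nat_lit 79098406645) (nat_lit 304) (nat_lit 93734250899) (nat_lit 43) (nat_lit 5) (nat_lit 46) (nat_lit 5) (nat_lit 47) (nat_lit 5) (nat_lit 365) (nat_lit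 352) (nat_lit 183)) (XT.lf (nat_lit 0) (nat_lit 34566847904) (nat_lit 152) (nat_lit 327985659059) (nat_lit 228) (nat_lit 40854505105) (nat_lit 41) (nat_lit 5) (nat_lit 43) (nat_lit 5) (nat_lit 44) (nat_lit 5) (nat_lit 366) (nat_lit 352) (nat_lit 182)))) (XT.nd (nat_lit 156) (nat_lit 152) (nat_lit 0) (XT.nd (nat_lit 78) (nat_lit 228) (nat_lit 0) (XT.lf (nat_lit 0) (nat_lit 22345189011) (nat_lit 228) (nat_lit 156874501611) (nat_lit 76) (nat_lit 243268553194) (nat_lit 40) (nat_lit 5) (nat_lit 43) (nat_lit 5) (nat_lit 41) (nat_lit 5) (nat_lit 367) (nat_lit 352) (nat_lit 181)) (XT.lf (nat_lit 0) (nat_lit 74725249730) (nat_lit 228) (nat_lit 15465496534) (nat_lit 304) (nat_lit 352676568052) (nat_lit 37) (nat_lit 5) (nat_lit 40) (nat_lit 5) (nat_lit 41) (nat_lit 5) (nat_lit 368) (nat_lit 352) (nat_lit 180))) (XT.nd (nat_lit 78) (nat_lit 152) (nat_lit 0) (XT.lf (nat_lit 0) (nat_lit 171745943451)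 (nat_lit 304) (nat_lit 134751887621) (nat_lit 76) (nat_lit 157716319807) (nat_lit 37) (nat_lit 5) (nat_lit 41) (nat_lit 5) (nat_lit 38) (nat_lit 5) (nat_lit 369) (nat_lit 352) (nat_lit 179)) (XT.nd (nat_lit 78) (nat_lit 0) (nat_lit 0) (XT.lf (nat_lit 0) (nat_lit 123063891963) (nat_lit 152) (nat_lit 140123008786) (nat_lit 228) (nat_lit 223812926116) (nat_lit 35) (nat_lit 5) (nat_lit 37) (nat_lit 5) (nat_lit 38) (nat_lit 5) (nat_lit 370) (nat_lit 352) (nat_lit 178)) (XT.lf (nat_lit 0) (nat_lit 366674604857) (nat_lit 228) (nat_lit 103192441241) (nat_lit 76) (nat_lit 41362793256) (nat_lit 35) (nat_lit 5) (nat_lit 38) (nat_lit 5) (nat_lit 36) (nat_lit 5) (nat_lit 371) (nat_lit 352) (nat_lit 177)))))) (XT.nd (nat_lit 312) (nat_lit 456) (nat_lit 0) (XT.nd (nat_lit 156) (nat_lit 152) (nat_lit 0) (XT.nd (nat_lit 78) (nat_lit 76) (nat_lit 0) (XT.lf (nat_lit 0) (nat_lit 183974038507) (nat_lit 152)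 (nat_lit 302531383884) (nat_lit 228) (nat_lit 50247702724) (nat_lit 33) (nat_lit 5) (nat_lit 35) (nat_lit 5) (nat_lit 36) (nat_lit 5) (nat_lit 372) (nat_lit 352) (nat_lit 176)) (XT.lf (nat_lit 0) (nat_lit 51917676879) (nat_lit 228) (nat_lit 65424508884) (nat_lit 76) (nat_lit 446645224345) (nat_lit 32) (nat_lit 5) (nat_lit 35) (nat_lit 5) (nat_lit 33) (nat_lit 5) (nat_lit 373) (nat_lit 352) (nat_lit 175))) (XT.nd (nat_lit 78) (nat_lit 0) (nat_lit 0) (XT.lf (nat_lit 0) (nat_lit 167891110255) (nat_lit 228) (nat_lit 338543270625) (nat_lit 76) (nat_lit 86193685881) (nat_lit 30) (nat_lit 5) (nat_lit 33) (nat_lit 5) (nat_lit 31) (nat_lit 5) (nat_lit 374) (nat_lit 352) (nat_lit 174)) (XT.lf (nat_lit 0) (nat_lit 298025515208) (nat_lit 228) (nat_lit 23635645065) (nat_lit 76) (nat_lit 301508167951) (nat_lit 30) (nat_lit 5) (nat_lit 33) (nat_lit 5) (nat_lit 31) (nat_lit 5) (nat_lit 375) (nat_lit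 352) (nat_lit 173)))) (XT.nd (nat_lit 156) (nat_lit 228) (nat_lit 0) (XT.nd (nat_lit 78) (nat_lit 76) (nat_lit 0) (XT.lf (nat_lit 0) (nat_lit 333128998193) (nat_lit 152) (nat_lit 113453400523) (nat_lit 228) (nat_lit 208930553820) (nat_lit 28) (nat_lit 5) (nat_lit 30) (nat_lit 5) (nat_lit 31) (nat_lit 5) (nat_lit 376) (nat_lit 352) (nat_lit 172)) (XT.lf (nat_lit 0) (nat_lit 28095814819) (nat_lit 76) (nat_lit 582946152286) (nat_lit 152) (nat_lit 79080648979) (nat_lit 27) (nat_lit 5) (nat_lit 28) (nat_lit 5) (nat_lit 29) (nat_lit 4) (nat_lit 377) (nat_lit 352) (nat_lit 171))) (XT.nd (nat_lit 78) (nat_lit 152) (nat_lit 0) (XT.lf (nat_lit 0) (nat_lit 70088221387) (nat_lit 152) (nat_lit 306494341566) (nat_lit 76) (nat_lit 349841598610) (nat_lit 26) (nat_lit 5) (nat_lit 28) (nat_lit 5) (nat_lit 27) (nat_lit 5) (nat_lit 378) (nat_lit 352) (nat_lit 170)) (XT.nd (nat_lit 78) (nat_lit 0) (nat_lit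 0) (XT.lf (nat_lit 0) (nat_lit 79398453144) (nat_lit 152) (nat_lit 149429243187) (nat_lit 228) (nat_lit 536485050620) (nat_lit 24) (nat_lit 5) (nat_lit 26) (nat_lit 5) (nat_lit 27) (nat_lit 5) (nat_lit 379) (nat_lit 352) (nat_lit 169)) (XT.lf (nat_lit 0) (nat_lit 411170371869) (nat_lit 228) (nat_lit 295572761043) (nat_lit 76) (nat_lit 99696962868) (nat_lit 24) (nat_lit 5) (nat_lit 27) (nat_lit 5) (nat_lit 25) (nat_lit 4) (nat_lit 380) (nat_lit 352) (nat_lit 168))))))))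
noncomputable def xc223 : XT := (XT.nd (nat_lit 1404) (nat_lit 304) (nat_lit 0) (XT.nd (nat_lit 702) (nat_lit 380) (nat_lit 0) (XT.nd (nat_lit 312) (nat_lit 304) (nat_lit 0) (XT.nd (nat_lit 156) (nat_lit 228) (nat_lit 0) (XT.nd (nat_lit 78) (nat_lit 0) (nat_lit 0) (XT.lf (nat_lit 0) (nat_lit 128545114643) (nat_lit 76) (nat_lit 486528111091) (nat_lit 152) (nat_lit 235226585656) (nat_lit 23) (nat_lit 5) (nat_lit 24) (nat_lit 5) (nat_lit 25) (nat_lit 4) (nat_lit 381) (nat_lit 352) (nat_lit 167)) (XT.lf (nat_lit 0) (nat_lit 603401858517) (nat_lit 76) (nat_lit 239967905561) (nat_lit 152) (nat_lit 53652023692) (nat_lit 23) (nat_lit 5) (nat_lit 24) (nat_lit 5) (nat_lit 25) (nat_lit 4) (nat_lit 382) (nat_lit 352) (nat_lit 166))) (XT.nd (nat_lit 78) (nat_lit 0) (nat_lit 0) (XT.lf (nat_lit 0) (nat_lit 140339074849) (nat_lit 228) (nat_lit 773657041452) (nat_lit 76) (nat_lit 32810020965) (nat_lit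 20) (nat_lit 5) (nat_lit 23) (nat_lit 5) (nat_lit 21) (nat_lit 4) (nat_lit 383) (nat_lit 352) (nat_lit 165)) (XT.lf (nat_lit 0) (nat_lit 361420376865) (nat_lit 228) (nat_lit 313807977619) (nat_lit 76) (nat_lit 324075834051) (nat_lit 20) (nat_lit 5) (nat_lit 23) (nat_lit 5) (nat_lit 21) (nat_lit 4) (nat_lit 384) (nat_lit 352) (nat_lit 164)))) (XT.nd (nat_lit 156) (nat_lit 228) (nat_lit 0) (XT.nd (nat_lit 78) (nat_lit 0) (nat_lit 0) (XT.lf (nat_lit 0) (nat_lit 192456419191) (nat_lit 76) (nat_lit 412360322042) (nat_lit 152) (nat_lit 450815058029) (nat_lit 19) (nat_lit 5) (nat_lit 20) (nat_lit 5) (nat_lit 21) (nat_lit 4) (nat_lit 385) (nat_lit 352) (nat_lit 163)) (XT.lf (nat_lit 0) (nat_lit 757068464879) (nat_lit 76) (nat_lit 119196393527) (nat_lit 152) (nat_lit 239514356959) (nat_lit 19) (nat_lit 5) (nat_lit 20) (nat_lit 5) (nat_lit 21) (nat_lit 4) (nat_lit 386) (nat_lit 352) (nat_lit 162)))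 (XT.nd (nat_lit 78) (nat_lit 152) (nat_lit 0) (XT.lf (nat_lit 0) (nat_lit 190913295458) (nat_lit 76) (nat_lit 987854948907) (nat_lit 76) (nat_lit 1223026849) (nat_lit 18) (nat_lit 4) (nat_lit 19) (nat_lit 5) (nat_lit 19) (nat_lit 4) (nat_lit 387) (nat_lit 352) (nat_lit 161)) (XT.nd (nat_lit 78) (nat_lit 76) (nat_lit 0) (XT.lf (nat_lit 0) (nat_lit 256477393597) (nat_lit 152) (nat_lit 453158973567) (nat_lit 76) (nat_lit 538158444715) (nat_lit 17) (nat_lit 5) (nat_lit 19) (nat_lit 5) (nat_lit 18) (nat_lit 4) (nat_lit 388) (nat_lit 352) (nat_lit 160)) (XT.lf (nat_lit 0) (nat_lit 132215711078) (nat_lit 76) (nat_lit 405691832807) (nat_lit 152) (nat_lit 782858168851) (nat_lit 16) (nat_lit 5) (nat_lit 17) (nat_lit 5) (nat_lit 18) (nat_lit 4) (nat_lit 389) (nat_lit 352) (nat_lit 159)))))) (XT.nd (nat_lit 312) (nat_lit 228) (nat_lit 0) (XT.nd (nat_lit 156) (nat_lit 76) (nat_lit 0) (XT.nd (nat_lit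 78) (nat_lit 76) (nat_lit 0) (XT.lf (nat_lit 0) (nat_lit 790191887636) (nat_lit 76) (nat_lit 64050368962) (nat_lit 152) (nat_lit 544340817039) (nat_lit 16) (nat_lit 5) (nat_lit 17) (nat_lit 5) (nat_lit 18) (nat_lit 4) (nat_lit 390) (nat_lit 352) (nat_lit 158)) (XT.lf (nat_lit 0) (nat_lit 11418088956) (nat_lit 76) (nat_lit 1192073636071) (nat_lit 76) (nat_lit 278525460094) (nat_lit 15) (nat_lit 4) (nat_lit 16) (nat_lit 5) (nat_lit 16) (nat_lit 4) (nat_lit 391) (nat_lit 352) (nat_lit 157))) (XT.nd (nat_lit 78) (nat_lit 0) (nat_lit 0) (XT.lf (nat_lit 0) (nat_lit 26857349404) (nat_lit 152) (nat_lit 857684909764) (nat_lit 76) (nat_lit 686068891402) (nat_lit 14) (nat_lit 5) (nat_lit 16) (nat_lit 5) (nat_lit 15) (nat_lit 4) (nat_lit 392) (nat_lit 352) (nat_lit 156)) (XT.lf (nat_lit 0) (nat_lit 341623157840) (nat_lit 152) (nat_lit 202972047243) (nat_lit 76) (nat_lit 1121118675299) (nat_lit 14)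 (nat_lit 5) (nat_lit 16) (nat_lit 5) (nat_lit 15) (nat_lit 4) (nat_lit 393) (nat_lit 352) (nat_lit 155)))) (XT.nd (nat_lit 156) (nat_lit 152) (nat_lit 0) (XT.nd (nat_lit 78) (nat_lit 0) (nat_lit 0) (XT.lf (nat_lit 0) (nat_lit 530663766119) (nat_lit 76) (nat_lit 163668925845) (nat_lit 152) (nat_lit 1073071139738) (nat_lit 13) (nat_lit 5) (nat_lit 14) (nat_lit 5) (nat_lit 15) (nat_lit 4) (nat_lit 394) (nat_lit 352) (nat_lit 154)) (XT.lf (nat_lit 0) (nat_lit 1086910682425) (nat_lit 152) (nat_lit 548353487571) (nat_lit 0) (nat_lit 241032673648) (nat_lit 13) (nat_lit 5) (nat_lit 15) (nat_lit 4) (nat_lit 13) (nat_lit 4) (nat_lit 395) (nat_lit 352) (nat_lit 153))) (XT.nd (nat_lit 78) (nat_lit 76) (nat_lit 0) (XT.lf (nat_lit 0) (nat_lit 200902821620) (nat_lit 76) (nat_lit 1319074935061) (nat_lit 76) (nat_lit 473196912299) (nat_lit 12) (nat_lit 4) (nat_lit 13) (nat_lit 5) (nat_lit 13) (nat_lit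 4) (nat_lit 396) (nat_lit 352) (nat_lit 152)) (XT.nd (nat_lit 78) (nat_lit 76) (nat_lit 0) (XT.lf (nat_lit 0) (nat_lit 1041284958023) (nat_lit 76) (nat_lit 961398181319) (nat_lit 76) (nat_lit 115520145609) (nat_lit 12) (nat_lit 4) (nat_lit 13) (nat_lit 5) (nat_lit 13) (nat_lit 4) (nat_lit 397) (nat_lit 352) (nat_lit 151)) (XT.lf (nat_lit 0) (nat_lit 257225699278) (nat_lit 152) (nat_lit 310848593199) (nat_lit 76) (nat_lit 1684638935296) (nat_lit 11) (nat_lit 5) (nat_lit 13) (nat_lit 5) (nat_lit 12) (nat_lit 4) (nat_lit 398) (nat_lit 352) (nat_lit 150))))))) (XT.nd (nat_lit 702) (nat_lit 0) (nat_lit 0) (XT.nd (nat_lit 312) (nat_lit 152) (nat_lit 0) (XT.nd (nat_lit 156) (nat_lit 76) (nat_lit 0) (XT.nd (nat_lit 78) (nat_lit 0) (nat_lit 0) (XT.lf (nat_lit 0) (nat_lit 540546497878) (nat_lit 76) (nat_lit 126003769755) (nat_lit 152) (nat_lit 1730153644988) (nat_lit 10) (nat_lit 5) (nat_lit 11)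 (nat_lit 5) (nat_lit 12) (nat_lit 4) (nat_lit 399) (nat_lit 352) (nat_lit 149)) (XT.lf (nat_lit 0) (nat_lit 1125792655667) (nat_lit 152) (nat_lit 1082475226924) (nat_lit 0) (nat_lit 342572221333) (nat_lit 10) (nat_lit 5) (nat_lit 12) (nat_lit 4) (nat_lit 10) (nat_lit 4) (nat_lit 400) (nat_lit 352) (nat_lit 148))) (XT.nd (nat_lit 78) (nat_lit 76) (nat_lit 0) (XT.lf (nat_lit 0) (nat_lit 1625047248887) (nat_lit 152) (nat_lit 250171310773) (nat_lit 0) (nat_lit 841826805741) (nat_lit 10) (nat_lit 5) (nat_lit 12) (nat_lit 4) (nat_lit 10) (nat_lit 4) (nat_lit 401) (nat_lit 352) (nat_lit 147)) (XT.lf (nat_lit 0) (nat_lit 682877181020) (nat_lit 76) (nat_lit 1497788230947) (nat_lit 76) (nat_lit 714567779641) (nat_lit 9) (nat_lit 4) (nat_lit 10) (nat_lit 5) (nat_lit 10) (nat_lit 4) (nat_lit 402) (nat_lit 352) (nat_lit 146)))) (XT.nd (nat_lit 156) (nat_lit 76) (nat_lit 0) (XT.nd (nat_lit 78) (nat_lit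 76) (nat_lit 0) (XT.lf (nat_lit 0) (nat_lit 1704796996863) (nat_lit 76) (nat_lit 1082776148274) (nat_lit 76) (nat_lit 299555689413) (nat_lit 9) (nat_lit 4) (nat_lit 10) (nat_lit 5) (nat_lit 10) (nat_lit 4) (nat_lit 403) (nat_lit 352) (nat_lit 145)) (XT.lf (nat_lit 0) (nat_lit 141220914979) (nat_lit 152) (nat_lit 489480962700) (nat_lit 76) (nat_lit 2663388234944) (nat_lit 8) (nat_lit 5) (nat_lit 10) (nat_lit 5) (nat_lit 9) (nat_lit 4) (nat_lit 404) (nat_lit 352) (nat_lit 144))) (XT.nd (nat_lit 78) (nat_lit 0) (nat_lit 0) (XT.lf (nat_lit 0) (nat_lit 491609601210) (nat_lit 76) (nat_lit 121289472609) (nat_lit 152) (nat_lit 2903140908623) (nat_lit 7) (nat_lit 5) (nat_lit 8) (nat_lit 5) (nat_lit 9) (nat_lit 4) (nat_lit 405) (nat_lit 352) (nat_lit 143)) (XT.nd (nat_lit 78) (nat_lit 0) (nat_lit 0) (XT.lf (nat_lit 0) (nat_lit 1146356847522) (nat_lit 152) (nat_lit 2186312664436) (nat_lit 0) (nat_lit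 421152700918) (nat_lit 7) (nat_lit 5) (nat_lit 9) (nat_lit 4) (nat_lit 7) (nat_lit 4) (nat_lit 406) (nat_lit 352) (nat_lit 142)) (XT.lf (nat_lit 0) (nat_lit 1725641610987) (nat_lit 152) (nat_lit 1284295922090) (nat_lit 0) (nat_lit 1000437459241) (nat_lit 7) (nat_lit 5) (nat_lit 9) (nat_lit 4) (nat_lit 7) (nat_lit 4) (nat_lit 407) (nat_lit 352) (nat_lit 141)))))) (XT.nd (nat_lit 42900) (nat_lit 0) (nat_lit 3496) (XT.nd (nat_lit 42666) (nat_lit 0) (nat_lit 3876) (XT.nd (nat_lit 42588) (nat_lit 0) (nat_lit 3876) (XT.lf (nat_lit 0) (nat_lit 2351269148078) (nat_lit 152) (nat_lit 310117855063) (nat_lit 0) (nat_lit 1626064991571) (nat_lit 7) (nat_lit 5) (nat_lit 9) (nat_lit 4) (nat_lit 7) (nat_lit 4) (nat_lit 408) (nat_lit 352) (nat_lit 140)) (XT.lf (nat_lit 0) (nat_lit 97682101090) (nat_lit 532) (nat_lit 11302929815) (nat_lit 532) (nat_lit 11302929815) (nat_lit 58) (nat_lit 3) (nat_lit 65)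 (nat_lit 3) (nat_lit 65) (nat_lit 5) (nat_lit 353) (nat_lit 353) (nat_lit 194))) (XT.nd (nat_lit 78) (nat_lit 0) (nat_lit 76) (XT.lf (nat_lit 76) (nat_lit 97273706712) (nat_lit 0) (nat_lit 108245549739) (nat_lit 532) (nat_lit 44492461379) (nat_lit 59) (nat_lit 5) (nat_lit 58) (nat_lit 3) (nat_lit 65) (nat_lit 5) (nat_lit 354) (nat_lit 353) (nat_lit 193)) (XT.nd (nat_lit 78) (nat_lit 0) (nat_lit 0) (XT.lf (nat_lit 0) (nat_lit 217367427231) (nat_lit 456) (nat_lit 32386480621) (nat_lit 532) (nat_lit 10378013261) (nat_lit 59) (nat_lit 5) (nat_lit 65) (nat_lit 5) (nat_lit 66) (nat_lit 5) (nat_lit 355) (nat_lit 353) (nat_lit 192)) (XT.lf (nat_lit 76) (nat_lit 99772562751) (nat_lit 0) (nat_lit 135601896503) (nat_lit 532) (nat_lit 35270400944) (nat_lit 60) (nat_lit 5) (nat_lit 59) (nat_lit 5) (nat_lit 66) (nat_lit 5) (nat_lit 356) (nat_lit 353) (nat_lit 191))))) (XT.nd (nat_lit 156) (nat_lit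 456) (nat_lit 0) (XT.nd (nat_lit 78) (nat_lit 0) (nat_lit 76) (XT.lf (nat_lit 76) (nat_lit 244346114562) (nat_lit 0) (nat_lit 11361351102) (nat_lit 532) (nat_lit 26220535934) (nat_lit 60) (nat_lit 5) (nat_lit 59) (nat_lit 5) (nat_lit 66) (nat_lit 5) (nat_lit 357) (nat_lit 353) (nat_lit 190)) (XT.lf (nat_lit 76) (nat_lit 108863707565) (nat_lit 0) (nat_lit 174375281701) (nat_lit 532) (nat_lit 10429055035) (nat_lit 61) (nat_lit 5) (nat_lit 60) (nat_lit 5) (nat_lit 67) (nat_lit 5) (nat_lit 358) (nat_lit 353) (nat_lit 189))) (XT.nd (nat_lit 78) (nat_lit 0) (nat_lit 76) (XT.lf (nat_lit 0) (nat_lit 7643560983) (nat_lit 532) (nat_lit 37584028692) (nat_lit 608) (nat_lit 260999011851) (nat_lit 53) (nat_lit 5) (nat_lit 60) (nat_lit 5) (nat_lit 61) (nat_lit 5) (nat_lit 359) (nat_lit 353) (nat_lit 188)) (XT.nd (nat_lit 78) (nat_lit 0) (nat_lit 0) (XT.lf (nat_lit 0) (nat_lit 32018837974) (nat_lit 532)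 (nat_lit 194354153728) (nat_lit 76) (nat_lit 92961557638) (nat_lit 54) (nat_lit 5) (nat_lit 61) (nat_lit 5) (nat_lit 55) (nat_lit 5) (nat_lit 360) (nat_lit 353) (nat_lit 187)) (XT.lf (nat_lit 0) (nat_lit 60573113418) (nat_lit 532) (nat_lit 31923014796) (nat_lit 76) (nat_lit 240816686755) (nat_lit 54) (nat_lit 5) (nat_lit 61) (nat_lit 5) (nat_lit 55) (nat_lit 5) (nat_lit 361) (nat_lit 353) (nat_lit 186))))))))
noncomputable def xc224 : XT := (XT.nd (nat_lit 1404) (nat_lit 1064) (nat_lit 0) (XT.nd (nat_lit 702) (nat_lit 836) (nat_lit 0) (XT.nd (nat_lit 312) (nat_lit 456) (nat_lit 0) (XT.nd (nat_lit 156) (nat_lit 456) (nat_lit 0) (XT.nd (nat_lit 78) (nat_lit 0) (nat_lit 0) (XT.lf (nat_lit 0) (nat_lit 96391790802) (nat_lit 456) (nat_lit 198406716831) (nat_lit 76) (nat_lit 53212429507) (nat_lit 49) (nat_lit 5) (nat_lit 55) (nat_lit 5) (nat_lit 50) (nat_lit 5) (nat_lit 362) (nat_lit 353) (nat_lit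 185)) (XT.lf (nat_lit 0) (nat_lit 138373899213) (nat_lit 456) (nat_lit 18771192432) (nat_lit 76) (nat_lit 206475982573) (nat_lit 49) (nat_lit 5) (nat_lit 55) (nat_lit 5) (nat_lit 50) (nat_lit 5) (nat_lit 363) (nat_lit 353) (nat_lit 184))) (XT.nd (nat_lit 78) (nat_lit 228) (nat_lit 0) (XT.lf (nat_lit 0) (nat_lit 184462682856) (nat_lit 228) (nat_lit 3688167294) (nat_lit 304) (nat_lit 191974270275) (nat_lit 46) (nat_lit 5) (nat_lit 49) (nat_lit 5) (nat_lit 50) (nat_lit 5) (nat_lit 364) (nat_lit 353) (nat_lit 183)) (XT.lf (nat_lit 0) (nat_lit 3372487872) (nat_lit 228) (nat_lit 243042284491) (nat_lit 304) (nat_lit 151174332819) (nat_lit 43) (nat_lit 5) (nat_lit 46) (nat_lit 5) (nat_lit 47) (nat_lit 5) (nat_lit 365) (nat_lit 353) (nat_lit 182)))) (XT.nd (nat_lit 156) (nat_lit 304) (nat_lit 0) (XT.nd (nat_lit 78) (nat_lit 152) (nat_lit 0) (XT.lf (nat_lit 0) (nat_lit 229356799794) (nat_lit 228)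 (nat_lit 85426084905) (nat_lit 304) (nat_lit 101231877975) (nat_lit 43) (nat_lit 5) (nat_lit 46) (nat_lit 5) (nat_lit 47) (nat_lit 5) (nat_lit 366) (nat_lit 353) (nat_lit 181)) (XT.lf (nat_lit 0) (nat_lit 37333465355) (nat_lit 152) (nat_lit 354224230193) (nat_lit 228) (nat_lit 44121797312) (nat_lit 41) (nat_lit 5) (nat_lit 43) (nat_lit 5) (nat_lit 44) (nat_lit 5) (nat_lit 367) (nat_lit 353) (nat_lit 180))) (XT.nd (nat_lit 78) (nat_lit 228) (nat_lit 0) (XT.lf (nat_lit 0) (nat_lit 24133743730) (nat_lit 228) (nat_lit 169423235720) (nat_lit 76) (nat_lit 262730247735) (nat_lit 40) (nat_lit 5) (nat_lit 43) (nat_lit 5) (nat_lit 41) (nat_lit 5) (nat_lit 368) (nat_lit 353) (nat_lit 179)) (XT.nd (nat_lit 78) (nat_lit 0) (nat_lit 0) (XT.lf (nat_lit 0) (nat_lit 80704464691) (nat_lit 228) (nat_lit 16702440013) (nat_lit 304) (nat_lit 380889721962) (nat_lit 37) (nat_lit 5) (nat_lit 40) (nat_lit 5) (nat_lit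 41) (nat_lit 5) (nat_lit 369) (nat_lit 353) (nat_lit 178)) (XT.lf (nat_lit 0) (nat_lit 185486457688) (nat_lit 304) (nat_lit 145530871358) (nat_lit 76) (nat_lit 170333885970) (nat_lit 37) (nat_lit 5) (nat_lit 41) (nat_lit 5) (nat_lit 38) (nat_lit 5) (nat_lit 370) (nat_lit 353) (nat_lit 177)))))) (XT.nd (nat_lit 312) (nat_lit 456) (nat_lit 0) (XT.nd (nat_lit 156) (nat_lit 228) (nat_lit 0) (XT.nd (nat_lit 78) (nat_lit 0) (nat_lit 0) (XT.lf (nat_lit 0) (nat_lit 132910141041) (nat_lit 152) (nat_lit 151332515761) (nat_lit 228) (nat_lit 241717091123) (nat_lit 35) (nat_lit 5) (nat_lit 37) (nat_lit 5) (nat_lit 38) (nat_lit 5) (nat_lit 371) (nat_lit 353) (nat_lit 176)) (XT.lf (nat_lit 0) (nat_lit 396009325115) (nat_lit 228) (nat_lit 111446730258) (nat_lit 76) (nat_lit 44672110267) (nat_lit 35) (nat_lit 5) (nat_lit 38) (nat_lit 5) (nat_lit 36) (nat_lit 5) (nat_lit 372) (nat_lit 353) (nat_lit 175)))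 (XT.nd (nat_lit 78) (nat_lit 76) (nat_lit 0) (XT.lf (nat_lit 0) (nat_lit 198693039863) (nat_lit 152) (nat_lit 326733538428) (nat_lit 228) (nat_lit 54266738405) (nat_lit 33) (nat_lit 5) (nat_lit 35) (nat_lit 5) (nat_lit 36) (nat_lit 5) (nat_lit 373) (nat_lit 353) (nat_lit 174)) (XT.lf (nat_lit 0) (nat_lit 56071777595) (nat_lit 228) (nat_lit 70657434473) (nat_lit 76) (nat_lit 482377135357) (nat_lit 32) (nat_lit 5) (nat_lit 35) (nat_lit 5) (nat_lit 33) (nat_lit 5) (nat_lit 374) (nat_lit 353) (nat_lit 173)))) (XT.nd (nat_lit 156) (nat_lit 304) (nat_lit 0) (XT.nd (nat_lit 78) (nat_lit 0) (nat_lit 0) (XT.lf (nat_lit 0) (nat_lit 181323067441) (nat_lit 228) (nat_lit 365625678429) (nat_lit 76) (nat_lit 93089512238) (nat_lit 30) (nat_lit 5) (nat_lit 33) (nat_lit 5) (nat_lit 31) (nat_lit 5) (nat_lit 375) (nat_lit 353) (nat_lit 172)) (XT.lf (nat_lit 0) (nat_lit 321868175282) (nat_lit 228) (nat_lit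 25525520886) (nat_lit 76) (nat_lit 325629128320) (nat_lit 30) (nat_lit 5) (nat_lit 33) (nat_lit 5) (nat_lit 31) (nat_lit 5) (nat_lit 376) (nat_lit 353) (nat_lit 171))) (XT.nd (nat_lit 78) (nat_lit 152) (nat_lit 0) (XT.lf (nat_lit 0) (nat_lit 359780269129) (nat_lit 152) (nat_lit 122529317375) (nat_lit 228) (nat_lit 225644354116) (nat_lit 28) (nat_lit 5) (nat_lit 30) (nat_lit 5) (nat_lit 31) (nat_lit 5) (nat_lit 377) (nat_lit 353) (nat_lit 170)) (XT.nd (nat_lit 78) (nat_lit 76) (nat_lit 0) (XT.lf (nat_lit 0) (nat_lit 30344445583) (nat_lit 76) (nat_lit 629581461772) (nat_lit 152) (nat_lit 85406470970) (nat_lit 27) (nat_lit 5) (nat_lit 28) (nat_lit 5) (nat_lit 29) (nat_lit 4) (nat_lit 378) (nat_lit 353) (nat_lit 169)) (XT.lf (nat_lit 0) (nat_lit 75695833187) (nat_lit 152) (nat_lit 331012965303) (nat_lit 76) (nat_lit 377829251314) (nat_lit 26) (nat_lit 5) (nat_lit 28) (nat_lit 5) (nat_lit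 27) (nat_lit 5) (nat_lit 379) (nat_lit 353) (nat_lit 168))))))) (XT.nd (nat_lit 702) (nat_lit 456) (nat_lit 0) (XT.nd (nat_lit 312) (nat_lit 380) (nat_lit 0) (XT.nd (nat_lit 156) (nat_lit 76) (nat_lit 0) (XT.nd (nat_lit 78) (nat_lit 0) (nat_lit 0) (XT.lf (nat_lit 0) (nat_lit 85751229601) (nat_lit 152) (nat_lit 161383217132) (nat_lit 228) (nat_lit 579403276868) (nat_lit 24) (nat_lit 5) (nat_lit 26) (nat_lit 5) (nat_lit 27) (nat_lit 5) (nat_lit 380) (nat_lit 353) (nat_lit 167)) (XT.lf (nat_lit 0) (nat_lit 444064504846) (nat_lit 228) (nat_lit 319217716629) (nat_lit 76) (nat_lit 107673041403) (nat_lit 24) (nat_lit 5) (nat_lit 27) (nat_lit 5) (nat_lit 25) (nat_lit 4) (nat_lit 381) (nat_lit 353) (nat_lit 166))) (XT.nd (nat_lit 78) (nat_lit 0) (nat_lit 0) (XT.lf (nat_lit 0) (nat_lit 138829567205) (nat_lit 76) (nat_lit 525450002822) (nat_lit 152) (nat_lit 254044187091) (nat_lit 23) (nat_lit 5)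 (nat_lit 24) (nat_lit 5) (nat_lit 25) (nat_lit 4) (nat_lit 382) (nat_lit 353) (nat_lit 165)) (XT.lf (nat_lit 0) (nat_lit 651674788116) (nat_lit 76) (nat_lit 259165007306) (nat_lit 152) (nat_lit 57943699090) (nat_lit 23) (nat_lit 5) (nat_lit 24) (nat_lit 5) (nat_lit 25) (nat_lit 4) (nat_lit 383) (nat_lit 353) (nat_lit 164)))) (XT.nd (nat_lit 156) (nat_lit 152) (nat_lit 0) (XT.nd (nat_lit 78) (nat_lit 0) (nat_lit 0) (XT.lf (nat_lit 0) (nat_lit 151566655781) (nat_lit 228) (nat_lit 835548791830) (nat_lit 76) (nat_lit 35435144016) (nat_lit 20) (nat_lit 5) (nat_lit 23) (nat_lit 5) (nat_lit 21) (nat_lit 4) (nat_lit 384) (nat_lit 353) (nat_lit 163)) (XT.lf (nat_lit 0) (nat_lit 390334428259) (nat_lit 228) (nat_lit 338911863109) (nat_lit 76) (nat_lit 350002198343) (nat_lit 20) (nat_lit 5) (nat_lit 23) (nat_lit 5) (nat_lit 21) (nat_lit 4) (nat_lit 385) (nat_lit 353) (nat_lit 162))) (XT.nd (nat_lit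 78) (nat_lit 76) (nat_lit 0) (XT.lf (nat_lit 0) (nat_lit 207853666391) (nat_lit 76) (nat_lit 445348821827) (nat_lit 152) (nat_lit 486879822178) (nat_lit 19) (nat_lit 5) (nat_lit 20) (nat_lit 5) (nat_lit 21) (nat_lit 4) (nat_lit 386) (nat_lit 353) (nat_lit 161)) (XT.nd (nat_lit 78) (nat_lit 76) (nat_lit 0) (XT.lf (nat_lit 0) (nat_lit 817634621388) (nat_lit 76) (nat_lit 128731803178) (nat_lit 152) (nat_lit 258675097652) (nat_lit 19) (nat_lit 5) (nat_lit 20) (nat_lit 5) (nat_lit 21) (nat_lit 4) (nat_lit 387) (nat_lit 353) (nat_lit 160)) (XT.lf (nat_lit 0) (nat_lit 206187043748) (nat_lit 76) (nat_lit 1066883032879) (nat_lit 76) (nat_lit 1320466303) (nat_lit 18) (nat_lit 4) (nat_lit 19) (nat_lit 5) (nat_lit 19) (nat_lit 4) (nat_lit 388) (nat_lit 353) (nat_lit 159)))))) (XT.nd (nat_lit 312) (nat_lit 228) (nat_lit 0) (XT.nd (nat_lit 156) (nat_lit 76) (nat_lit 0) (XT.nd (nat_lit 78) (nat_lit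 76) (nat_lit 0) (XT.lf (nat_lit 0) (nat_lit 276995939298) (nat_lit 152) (nat_lit 489411038720) (nat_lit 76) (nat_lit 581211390333) (nat_lit 17) (nat_lit 5) (nat_lit 19) (nat_lit 5) (nat_lit 18) (nat_lit 4) (nat_lit 389) (nat_lit 353) (nat_lit 158)) (XT.lf (nat_lit 0) (nat_lit 142793604171) (nat_lit 76) (nat_lit 438146886500) (nat_lit 152) (nat_lit 845486451490) (nat_lit 16) (nat_lit 5) (nat_lit 17) (nat_lit 5) (nat_lit 18) (nat_lit 4) (nat_lit 390) (nat_lit 353) (nat_lit 157))) (XT.nd (nat_lit 78) (nat_lit 76) (nat_lit 0) (XT.lf (nat_lit 0) (nat_lit 853407827728) (nat_lit 76) (nat_lit 69174127246) (nat_lit 152) (nat_lit 587887739005) (nat_lit 16) (nat_lit 5) (nat_lit 17) (nat_lit 5) (nat_lit 18) (nat_lit 4) (nat_lit 391) (nat_lit 353) (nat_lit 156)) (XT.lf (nat_lit 0) (nat_lit 12332128785) (nat_lit 76) (nat_lit 1287439248843) (nat_lit 76) (nat_lit 300807157022) (nat_lit 15) (nat_lit 4)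 (nat_lit 16) (nat_lit 5) (nat_lit 16) (nat_lit 4) (nat_lit 392) (nat_lit 353) (nat_lit 155)))) (XT.nd (nat_lit 156) (nat_lit 152) (nat_lit 0) (XT.nd (nat_lit 78) (nat_lit 0) (nat_lit 0) (XT.lf (nat_lit 0) (nat_lit 29006236316) (nat_lit 152) (nat_lit 926299137899) (nat_lit 76) (nat_lit 740954644388) (nat_lit 14) (nat_lit 5) (nat_lit 16) (nat_lit 5) (nat_lit 15) (nat_lit 4) (nat_lit 393) (nat_lit 353) (nat_lit 154)) (XT.lf (nat_lit 0) (nat_lit 368953287282) (nat_lit 152) (nat_lit 219209288202) (nat_lit 76) (nat_lit 1210808393094) (nat_lit 14) (nat_lit 5) (nat_lit 16) (nat_lit 5) (nat_lit 15) (nat_lit 4) (nat_lit 394) (nat_lit 353) (nat_lit 153))) (XT.nd (nat_lit 78) (nat_lit 76) (nat_lit 0) (XT.lf (nat_lit 0) (nat_lit 573117376993) (nat_lit 76) (nat_lit 176762198893) (nat_lit 152) (nat_lit 1158916540784) (nat_lit 13) (nat_lit 5) (nat_lit 14) (nat_lit 5) (nat_lit 15) (nat_lit 4) (nat_lit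 395) (nat_lit 353) (nat_lit 152)) (XT.nd (nat_lit 78) (nat_lit 76) (nat_lit 0) (XT.lf (nat_lit 0) (nat_lit 1173863791058) (nat_lit 152) (nat_lit 592221280136) (nat_lit 0) (nat_lit 260315499542) (nat_lit 13) (nat_lit 5) (nat_lit 15) (nat_lit 4) (nat_lit 13) (nat_lit 4) (nat_lit 396) (nat_lit 353) (nat_lit 151)) (XT.lf (nat_lit 0) (nat_lit 216975521476) (nat_lit 76) (nat_lit 1424600702364) (nat_lit 76) (nat_lit 511052398859) (nat_lit 12) (nat_lit 4) (nat_lit 13) (nat_lit 5) (nat_lit 13) (nat_lit 4) (nat_lit 397) (nat_lit 353) (nat_lit 150))))))))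
noncomputable def xc225 : XT := (XT.nd (nat_lit 43992) (nat_lit 0) (nat_lit 1596) (XT.nd (nat_lit 702) (nat_lit 0) (nat_lit 0) (XT.nd (nat_lit 312) (nat_lit 228) (nat_lit 0) (XT.nd (nat_lit 156) (nat_lit 76) (nat_lit 0) (XT.nd (nat_lit 78) (nat_lit 76) (nat_lit 0) (XT.lf (nat_lit 0) (nat_lit 1124588193671) (nat_lit 76) (nat_lit 1038309825175) (nat_lit 76) (nat_lit 124761510568) (nat_lit 12) (nat_lit 4) (nat_lit 13) (nat_lit 5) (nat_lit 13) (nat_lit 4) (nat_lit 398) (nat_lit 353) (nat_lit 149)) (XT.lf (nat_lit 0) (nat_lit 277803972211) (nat_lit 152) (nat_lit 335716062686) (nat_lit 76) (nat_lit 1819410233683) (nat_lit 11) (nat_lit 5) (nat_lit 13) (nat_lit 5) (nat_lit 12) (nat_lit 4) (nat_lit 399) (nat_lit 353) (nat_lit 148))) (XT.nd (nat_lit 78) (nat_lit 0) (nat_lit 0) (XT.lf (nat_lit 0) (nat_lit 583790625096) (nat_lit 76) (nat_lit 136083874662) (nat_lit 152) (nat_lit 1868565708964) (nat_lit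 10) (nat_lit 5) (nat_lit 11) (nat_lit 5) (nat_lit 12) (nat_lit 4) (nat_lit 400) (nat_lit 353) (nat_lit 147)) (XT.lf (nat_lit 0) (nat_lit 1215856267605) (nat_lit 152) (nat_lit 1169072856590) (nat_lit 0) (nat_lit 369978172035) (nat_lit 10) (nat_lit 5) (nat_lit 12) (nat_lit 4) (nat_lit 10) (nat_lit 4) (nat_lit 401) (nat_lit 353) (nat_lit 146)))) (XT.nd (nat_lit 156) (nat_lit 152) (nat_lit 0) (XT.nd (nat_lit 78) (nat_lit 76) (nat_lit 0) (XT.lf (nat_lit 0) (nat_lit 1755051213507) (nat_lit 152) (nat_lit 270184655924) (nat_lit 0) (nat_lit 909173110382) (nat_lit 10) (nat_lit 5) (nat_lit 12) (nat_lit 4) (nat_lit 10) (nat_lit 4) (nat_lit 402) (nat_lit 353) (nat_lit 145)) (XT.lf (nat_lit 0) (nat_lit 737507706106) (nat_lit 76) (nat_lit 1617611118277) (nat_lit 76) (nat_lit 771733008156) (nat_lit 9) (nat_lit 4) (nat_lit 10) (nat_lit 5) (nat_lit 10) (nat_lit 4) (nat_lit 403) (nat_lit 353) (nat_lit 144)))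 (XT.nd (nat_lit 78) (nat_lit 152) (nat_lit 0) (XT.lf (nat_lit 0) (nat_lit 1841181081246) (nat_lit 76) (nat_lit 1169398081668) (nat_lit 76) (nat_lit 323519965069) (nat_lit 9) (nat_lit 4) (nat_lit 10) (nat_lit 5) (nat_lit 10) (nat_lit 4) (nat_lit 404) (nat_lit 353) (nat_lit 143)) (XT.nd (nat_lit 78) (nat_lit 76) (nat_lit 0) (XT.lf (nat_lit 0) (nat_lit 152518746064) (nat_lit 152) (nat_lit 528639130782) (nat_lit 76) (nat_lit 2876459432122) (nat_lit 8) (nat_lit 5) (nat_lit 10) (nat_lit 5) (nat_lit 9) (nat_lit 4) (nat_lit 405) (nat_lit 353) (nat_lit 142)) (XT.lf (nat_lit 0) (nat_lit 530938670419) (nat_lit 76) (nat_lit 130992482738) (nat_lit 152) (nat_lit 3135392015575) (nat_lit 7) (nat_lit 5) (nat_lit 8) (nat_lit 5) (nat_lit 9) (nat_lit 4) (nat_lit 406) (nat_lit 353) (nat_lit 141)))))) (XT.nd (nat_lit 42900) (nat_lit 0) (nat_lit 3496) (XT.nd (nat_lit 42744) (nat_lit 0) (nat_lit 3876) (XT.nd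 (nat_lit 78) (nat_lit 0) (nat_lit 0) (XT.lf (nat_lit 0) (nat_lit 1238065540680) (nat_lit 152) (nat_lit 2361217390678) (nat_lit 0) (nat_lit 454845046892) (nat_lit 7) (nat_lit 5) (nat_lit 9) (nat_lit 4) (nat_lit 7) (nat_lit 4) (nat_lit 407) (nat_lit 353) (nat_lit 140)) (XT.lf (nat_lit 0) (nat_lit 1863693074455) (nat_lit 152) (nat_lit 1387039330197) (nat_lit 0) (nat_lit 1080472576258) (nat_lit 7) (nat_lit 5) (nat_lit 9) (nat_lit 4) (nat_lit 7) (nat_lit 4) (nat_lit 408) (nat_lit 353) (nat_lit 139))) (XT.nd (nat_lit 78) (nat_lit 0) (nat_lit 0) (XT.lf (nat_lit 0) (nat_lit 105497695094) (nat_lit 532) (nat_lit 12206609437) (nat_lit 532) (nat_lit 12206609437) (nat_lit 58) (nat_lit 3) (nat_lit 65) (nat_lit 3) (nat_lit 65) (nat_lit 5) (nat_lit 354) (nat_lit 354) (nat_lit 192)) (XT.lf (nat_lit 76) (nat_lit 105056684688) (nat_lit 0) (nat_lit 116906038134) (nat_lit 532) (nat_lit 48049775519) (nat_lit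 59) (nat_lit 5) (nat_lit 58) (nat_lit 3) (nat_lit 65) (nat_lit 5) (nat_lit 355) (nat_lit 354) (nat_lit 191)))) (XT.nd (nat_lit 156) (nat_lit 456) (nat_lit 0) (XT.nd (nat_lit 78) (nat_lit 0) (nat_lit 0) (XT.lf (nat_lit 0) (nat_lit 234758585804) (nat_lit 456) (nat_lit 34976233641) (nat_lit 532) (nat_lit 11207511568) (nat_lit 59) (nat_lit 5) (nat_lit 65) (nat_lit 5) (nat_lit 66) (nat_lit 5) (nat_lit 356) (nat_lit 354) (nat_lit 190)) (XT.lf (nat_lit 76) (nat_lit 107755503696) (nat_lit 0) (nat_lit 146450573316) (nat_lit 532) (nat_lit 38090236678) (nat_lit 60) (nat_lit 5) (nat_lit 59) (nat_lit 5) (nat_lit 66) (nat_lit 5) (nat_lit 357) (nat_lit 354) (nat_lit 189))) (XT.nd (nat_lit 78) (nat_lit 456) (nat_lit 0) (XT.lf (nat_lit 76) (nat_lit 263894855509) (nat_lit 0) (nat_lit 12270745387) (nat_lit 532) (nat_lit 28316515531) (nat_lit 60) (nat_lit 5) (nat_lit 59) (nat_lit 5) (nat_lit 66) (nat_lit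 5) (nat_lit 358) (nat_lit 354) (nat_lit 188)) (XT.nd (nat_lit 78) (nat_lit 532) (nat_lit 0) (XT.lf (nat_lit 76) (nat_lit 117573962849) (nat_lit 0) (nat_lit 188325586652) (nat_lit 532) (nat_lit 11261820963) (nat_lit 61) (nat_lit 5) (nat_lit 60) (nat_lit 5) (nat_lit 67) (nat_lit 5) (nat_lit 359) (nat_lit 354) (nat_lit 187)) (XT.lf (nat_lit 0) (nat_lit 8256416708) (nat_lit 532) (nat_lit 40589604155) (nat_lit 608) (nat_lit 281878597322) (nat_lit 53) (nat_lit 5) (nat_lit 60) (nat_lit 5) (nat_lit 61) (nat_lit 5) (nat_lit 360) (nat_lit 354) (nat_lit 186))))))) (XT.nd (nat_lit 702) (nat_lit 912) (nat_lit 0) (XT.nd (nat_lit 312) (nat_lit 684) (nat_lit 0) (XT.nd (nat_lit 156) (nat_lit 380) (nat_lit 0) (XT.nd (nat_lit 78) (nat_lit 0) (nat_lit 0) (XT.lf (nat_lit 0) (nat_lit 34581636907) (nat_lit 532) (nat_lit 209901258580) (nat_lit 76) (nat_lit 100398312787) (nat_lit 54) (nat_lit 5) (nat_lit 61)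 (nat_lit 5) (nat_lit 55) (nat_lit 5) (nat_lit 361) (nat_lit 354) (nat_lit 185)) (XT.lf (nat_lit 0) (nat_lit 65420158691) (nat_lit 532) (nat_lit 34475719455) (nat_lit 76) (nat_lit 260081864786) (nat_lit 54) (nat_lit 5) (nat_lit 61) (nat_lit 5) (nat_lit 55) (nat_lit 5) (nat_lit 362) (nat_lit 354) (nat_lit 184))) (XT.nd (nat_lit 78) (nat_lit 0) (nat_lit 0) (XT.lf (nat_lit 0) (nat_lit 104104267662) (nat_lit 456) (nat_lit 214278053626) (nat_lit 76) (nat_lit 57469398711) (nat_lit 49) (nat_lit 5) (nat_lit 55) (nat_lit 5) (nat_lit 50) (nat_lit 5) (nat_lit 363) (nat_lit 354) (nat_lit 183)) (XT.lf (nat_lit 0) (nat_lit 149444860776) (nat_lit 456) (nat_lit 20271776205) (nat_lit 76) (nat_lit 222994037885) (nat_lit 49) (nat_lit 5) (nat_lit 55) (nat_lit 5) (nat_lit 50) (nat_lit 5) (nat_lit 364) (nat_lit 354) (nat_lit 182)))) (XT.nd (nat_lit 156) (nat_lit 228) (nat_lit 0) (XT.nd (nat_lit 78) (nat_lit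 228) (nat_lit 0) (XT.lf (nat_lit 0) (nat_lit 199220780965) (nat_lit 228) (nat_lit 3983135132) (nat_lit 304) (nat_lit 207331132907) (nat_lit 46) (nat_lit 5) (nat_lit 49) (nat_lit 5) (nat_lit 50) (nat_lit 5) (nat_lit 365) (nat_lit 354) (nat_lit 181)) (XT.lf (nat_lit 0) (nat_lit 3643419951) (nat_lit 228) (nat_lit 262485487369) (nat_lit 304) (nat_lit 163267248892) (nat_lit 43) (nat_lit 5) (nat_lit 46) (nat_lit 5) (nat_lit 47) (nat_lit 5) (nat_lit 366) (nat_lit 354) (nat_lit 180))) (XT.nd (nat_lit 78) (nat_lit 228) (nat_lit 0) (XT.lf (nat_lit 0) (nat_lit 247706392897) (nat_lit 228) (nat_lit 92260005141) (nat_lit 304) (nat_lit 109329473997) (nat_lit 43) (nat_lit 5) (nat_lit 46) (nat_lit 5) (nat_lit 47) (nat_lit 5) (nat_lit 367) (nat_lit 354) (nat_lit 179)) (XT.nd (nat_lit 78) (nat_lit 76) (nat_lit 0) (XT.lf (nat_lit 0) (nat_lit 40321231077) (nat_lit 152) (nat_lit 382561927190) (nat_lit 228)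 (nat_lit 47650625286) (nat_lit 41) (nat_lit 5) (nat_lit 43) (nat_lit 5) (nat_lit 44) (nat_lit 5) (nat_lit 368) (nat_lit 354) (nat_lit 178)) (XT.lf (nat_lit 0) (nat_lit 26065248782) (nat_lit 228) (nat_lit 182976043462) (nat_lit 76) (nat_lit 283748847839) (nat_lit 40) (nat_lit 5) (nat_lit 43) (nat_lit 5) (nat_lit 41) (nat_lit 5) (nat_lit 369) (nat_lit 354) (nat_lit 177)))))) (XT.nd (nat_lit 312) (nat_lit 532) (nat_lit 0) (XT.nd (nat_lit 156) (nat_lit 152) (nat_lit 0) (XT.nd (nat_lit 78) (nat_lit 0) (nat_lit 0) (XT.lf (nat_lit 0) (nat_lit 87161846371) (nat_lit 228) (nat_lit 18038381232) (nat_lit 304) (nat_lit 411360066784) (nat_lit 37) (nat_lit 5) (nat_lit 40) (nat_lit 5) (nat_lit 41) (nat_lit 5) (nat_lit 370) (nat_lit 354) (nat_lit 176)) (XT.lf (nat_lit 0) (nat_lit 200326093406) (nat_lit 304) (nat_lit 157172340319) (nat_lit 76) (nat_lit 183960820252) (nat_lit 37) (nat_lit 5) (nat_lit 41)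 (nat_lit 5) (nat_lit 38) (nat_lit 5) (nat_lit 371) (nat_lit 354) (nat_lit 175))) (XT.nd (nat_lit 78) (nat_lit 0) (nat_lit 0) (XT.lf (nat_lit 0) (nat_lit 143543927737) (nat_lit 152) (nat_lit 163438830904) (nat_lit 228) (nat_lit 261053713314) (nat_lit 35) (nat_lit 5) (nat_lit 37) (nat_lit 5) (nat_lit 38) (nat_lit 5) (nat_lit 372) (nat_lit 354) (nat_lit 174)) (XT.lf (nat_lit 0) (nat_lit 427690715731) (nat_lit 228) (nat_lit 120361520221) (nat_lit 76) (nat_lit 48246130760) (nat_lit 35) (nat_lit 5) (nat_lit 38) (nat_lit 5) (nat_lit 36) (nat_lit 5) (nat_lit 373) (nat_lit 354) (nat_lit 173)))) (XT.nd (nat_lit 156) (nat_lit 304) (nat_lit 0) (XT.nd (nat_lit 78) (nat_lit 76) (nat_lit 0) (XT.lf (nat_lit 0) (nat_lit 214589407499) (nat_lit 152) (nat_lit 352871916147) (nat_lit 228) (nat_lit 58607408292) (nat_lit 33) (nat_lit 5) (nat_lit 35) (nat_lit 5) (nat_lit 36) (nat_lit 5) (nat_lit 374) (nat_lit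 354) (nat_lit 172)) (XT.lf (nat_lit 0) (nat_lit 60558108422) (nat_lit 228) (nat_lit 76309141780) (nat_lit 76) (nat_lit 520967557442) (nat_lit 32) (nat_lit 5) (nat_lit 35) (nat_lit 5) (nat_lit 33) (nat_lit 5) (nat_lit 375) (nat_lit 354) (nat_lit 171))) (XT.nd (nat_lit 78) (nat_lit 152) (nat_lit 0) (XT.lf (nat_lit 0) (nat_lit 195829485853) (nat_lit 228) (nat_lit 394874829201) (nat_lit 76) (nat_lit 100536957414) (nat_lit 30) (nat_lit 5) (nat_lit 33) (nat_lit 5) (nat_lit 31) (nat_lit 5) (nat_lit 376) (nat_lit 354) (nat_lit 170)) (XT.nd (nat_lit 78) (nat_lit 152) (nat_lit 0) (XT.lf (nat_lit 0) (nat_lit 347618159875) (nat_lit 228) (nat_lit 27566725980) (nat_lit 76) (nat_lit 351679721730) (nat_lit 30) (nat_lit 5) (nat_lit 33) (nat_lit 5) (nat_lit 31) (nat_lit 5) (nat_lit 377) (nat_lit 354) (nat_lit 169)) (XT.lf (nat_lit 0) (nat_lit 388563506057) (nat_lit 152) (nat_lit 132331358246) (nat_lit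 228) (nat_lit 243695350311) (nat_lit 28) (nat_lit 5) (nat_lit 30) (nat_lit 5) (nat_lit 31) (nat_lit 5) (nat_lit 378) (nat_lit 354) (nat_lit 168))))))))
noncomputable def xc226 : XT := (XT.nd (nat_lit 1404) (nat_lit 456) (nat_lit 0) (XT.nd (nat_lit 702) (nat_lit 456) (nat_lit 0) (XT.nd (nat_lit 312) (nat_lit 380) (nat_lit 0) (XT.nd (nat_lit 156) (nat_lit 152) (nat_lit 0) (XT.nd (nat_lit 78) (nat_lit 76) (nat_lit 0) (XT.lf (nat_lit 0) (nat_lit 32772829057) (nat_lit 76) (nat_lit 679947650613) (nat_lit 152) (nat_lit 92238448586) (nat_lit 27) (nat_lit 5) (nat_lit 28) (nat_lit 5) (nat_lit 29) (nat_lit 4) (nat_lit 379) (nat_lit 354) (nat_lit 167)) (XT.lf (nat_lit 0) (nat_lit 81751974885) (nat_lit 152) (nat_lit 357493210700) (nat_lit 76) (nat_lit 408055869896) (nat_lit 26) (nat_lit 5) (nat_lit 28) (nat_lit 5) (nat_lit 27) (nat_lit 5) (nat_lit 380) (nat_lit 354) (nat_lit 166))) (XT.nd (nat_lit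 78) (nat_lit 0) (nat_lit 0) (XT.lf (nat_lit 0) (nat_lit 92612099751) (nat_lit 152) (nat_lit 174293561136) (nat_lit 228) (nat_lit 625755043646) (nat_lit 24) (nat_lit 5) (nat_lit 26) (nat_lit 5) (nat_lit 27) (nat_lit 5) (nat_lit 381) (nat_lit 354) (nat_lit 165)) (XT.lf (nat_lit 0) (nat_lit 479590096670) (nat_lit 228) (nat_lit 344754392107) (nat_lit 76) (nat_lit 116287160355) (nat_lit 24) (nat_lit 5) (nat_lit 27) (nat_lit 5) (nat_lit 25) (nat_lit 4) (nat_lit 382) (nat_lit 354) (nat_lit 164)))) (XT.nd (nat_lit 156) (nat_lit 304) (nat_lit 0) (XT.nd (nat_lit 78) (nat_lit 0) (nat_lit 0) (XT.lf (nat_lit 0) (nat_lit 149936655653) (nat_lit 76) (nat_lit 567485696844) (nat_lit 152) (nat_lit 274367271598) (nat_lit 23) (nat_lit 5) (nat_lit 24) (nat_lit 5) (nat_lit 25) (nat_lit 4) (nat_lit 383) (nat_lit 354) (nat_lit 163)) (XT.lf (nat_lit 0) (nat_lit 703809440676) (nat_lit 76) (nat_lit 279897924369)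 (nat_lit 152) (nat_lit 62578777924) (nat_lit 23) (nat_lit 5) (nat_lit 24) (nat_lit 5) (nat_lit 25) (nat_lit 4) (nat_lit 384) (nat_lit 354) (nat_lit 162))) (XT.nd (nat_lit 78) (nat_lit 76) (nat_lit 0) (XT.lf (nat_lit 0) (nat_lit 163692378285) (nat_lit 228) (nat_lit 902391998213) (nat_lit 76) (nat_lit 38270231063) (nat_lit 20) (nat_lit 5) (nat_lit 23) (nat_lit 5) (nat_lit 21) (nat_lit 4) (nat_lit 385) (nat_lit 354) (nat_lit 161)) (XT.nd (nat_lit 78) (nat_lit 76) (nat_lit 0) (XT.lf (nat_lit 0) (nat_lit 421561543669) (nat_lit 228) (nat_lit 366024166821) (nat_lit 76) (nat_lit 378002629327) (nat_lit 20) (nat_lit 5) (nat_lit 23) (nat_lit 5) (nat_lit 21) (nat_lit 4) (nat_lit 386) (nat_lit 354) (nat_lit 160)) (XT.lf (nat_lit 0) (nat_lit 224482588701) (nat_lit 76) (nat_lit 480976448100) (nat_lit 152) (nat_lit 525829830300) (nat_lit 19) (nat_lit 5) (nat_lit 20) (nat_lit 5) (nat_lit 21) (nat_lit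 4) (nat_lit 387) (nat_lit 354) (nat_lit 159)))))) (XT.nd (nat_lit 312) (nat_lit 228) (nat_lit 0) (XT.nd (nat_lit 156) (nat_lit 152) (nat_lit 0) (XT.nd (nat_lit 78) (nat_lit 76) (nat_lit 0) (XT.lf (nat_lit 0) (nat_lit 883045973505) (nat_lit 76) (nat_lit 139030088660) (nat_lit 152) (nat_lit 279368755786) (nat_lit 19) (nat_lit 5) (nat_lit 20) (nat_lit 5) (nat_lit 21) (nat_lit 4) (nat_lit 388) (nat_lit 354) (nat_lit 158)) (XT.lf (nat_lit 0) (nat_lit 222682594228) (nat_lit 76) (nat_lit 1152233408070) (nat_lit 76) (nat_lit 1425758361) (nat_lit 18) (nat_lit 4) (nat_lit 19) (nat_lit 5) (nat_lit 19) (nat_lit 4) (nat_lit 389) (nat_lit 354) (nat_lit 157))) (XT.nd (nat_lit 78) (nat_lit 76) (nat_lit 0) (XT.lf (nat_lit 0) (nat_lit 299155918122) (nat_lit 152) (nat_lit 528563362205) (nat_lit 76) (nat_lit 627708533076) (nat_lit 17) (nat_lit 5) (nat_lit 19) (nat_lit 5) (nat_lit 18) (nat_lit 4) (nat_lit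 390) (nat_lit 354) (nat_lit 156)) (XT.lf (nat_lit 0) (nat_lit 154217637951) (nat_lit 76) (nat_lit 473198386279) (nat_lit 152) (nat_lit 913125049649) (nat_lit 16) (nat_lit 5) (nat_lit 17) (nat_lit 5) (nat_lit 18) (nat_lit 4) (nat_lit 391) (nat_lit 354) (nat_lit 155)))) (XT.nd (nat_lit 156) (nat_lit 152) (nat_lit 0) (XT.nd (nat_lit 78) (nat_lit 76) (nat_lit 0) (XT.lf (nat_lit 0) (nat_lit 921680958989) (nat_lit 76) (nat_lit 74707824887) (nat_lit 152) (nat_lit 634918463717) (nat_lit 16) (nat_lit 5) (nat_lit 17) (nat_lit 5) (nat_lit 18) (nat_lit 4) (nat_lit 392) (nat_lit 354) (nat_lit 154)) (XT.lf (nat_lit 0) (nat_lit 13319207242) (nat_lit 76) (nat_lit 1390434150313) (nat_lit 76) (nat_lit 324871438193) (nat_lit 15) (nat_lit 4) (nat_lit 16) (nat_lit 5) (nat_lit 16) (nat_lit 4) (nat_lit 393) (nat_lit 354) (nat_lit 153))) (XT.nd (nat_lit 78) (nat_lit 76) (nat_lit 0) (XT.lf (nat_lit 0) (nat_lit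 31326991531) (nat_lit 152) (nat_lit 1000402584837) (nat_lit 76) (nat_lit 800231223135) (nat_lit 14) (nat_lit 5) (nat_lit 16) (nat_lit 5) (nat_lit 15) (nat_lit 4) (nat_lit 394) (nat_lit 354) (nat_lit 152)) (XT.nd (nat_lit 78) (nat_lit 76) (nat_lit 0) (XT.lf (nat_lit 0) (nat_lit 398469787588) (nat_lit 152) (nat_lit 236745583023) (nat_lit 76) (nat_lit 1307673256390) (nat_lit 14) (nat_lit 5) (nat_lit 16) (nat_lit 5) (nat_lit 15) (nat_lit 4) (nat_lit 395) (nat_lit 354) (nat_lit 151)) (XT.lf (nat_lit 0) (nat_lit 618967204040) (nat_lit 76) (nat_lit 190902968169) (nat_lit 152) (nat_lit 1251629615304) (nat_lit 13) (nat_lit 5) (nat_lit 14) (nat_lit 5) (nat_lit 15) (nat_lit 4) (nat_lit 396) (nat_lit 354) (nat_lit 150))))))) (XT.nd (nat_lit 702) (nat_lit 152) (nat_lit 0) (XT.nd (nat_lit 312) (nat_lit 152) (nat_lit 0) (XT.nd (nat_lit 156) (nat_lit 76) (nat_lit 0) (XT.nd (nat_lit 78) (nat_lit 76) (nat_lit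 0) (XT.lf (nat_lit 0) (nat_lit 1267773112140) (nat_lit 152) (nat_lit 639598565502) (nat_lit 0) (nat_lit 281140921263) (nat_lit 13) (nat_lit 5) (nat_lit 15) (nat_lit 4) (nat_lit 13) (nat_lit 4) (nat_lit 397) (nat_lit 354) (nat_lit 149)) (XT.lf (nat_lit 0) (nat_lit 234333969681) (nat_lit 76) (nat_lit 1538568563506) (nat_lit 76) (nat_lit 551936362351) (nat_lit 12) (nat_lit 4) (nat_lit 13) (nat_lit 5) (nat_lit 13) (nat_lit 4) (nat_lit 398) (nat_lit 354) (nat_lit 148))) (XT.nd (nat_lit 78) (nat_lit 76) (nat_lit 0) (XT.lf (nat_lit 0) (nat_lit 1214555625541) (nat_lit 76) (nat_lit 1121374430590) (nat_lit 76) (nat_lit 134742219917) (nat_lit 12) (nat_lit 4) (nat_lit 13) (nat_lit 5) (nat_lit 13) (nat_lit 4) (nat_lit 399) (nat_lit 354) (nat_lit 147)) (XT.lf (nat_lit 0) (nat_lit 300028476021) (nat_lit 152) (nat_lit 362572989359) (nat_lit 76) (nat_lit 1964963209754) (nat_lit 11) (nat_lit 5) (nat_lit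 13) (nat_lit 5) (nat_lit 12) (nat_lit 4) (nat_lit 400) (nat_lit 354) (nat_lit 146)))) (XT.nd (nat_lit 156) (nat_lit 76) (nat_lit 0) (XT.nd (nat_lit 78) (nat_lit 0) (nat_lit 0) (XT.lf (nat_lit 0) (nat_lit 630494224373) (nat_lit 76) (nat_lit 146970416019) (nat_lit 152) (nat_lit 2018050770530) (nat_lit 10) (nat_lit 5) (nat_lit 11) (nat_lit 5) (nat_lit 12) (nat_lit 4) (nat_lit 401) (nat_lit 354) (nat_lit 145)) (XT.lf (nat_lit 0) (nat_lit 1313124940041) (nat_lit 152) (nat_lit 1262598352052) (nat_lit 0) (nat_lit 399576574114) (nat_lit 10) (nat_lit 5) (nat_lit 12) (nat_lit 4) (nat_lit 10) (nat_lit 4) (nat_lit 402) (nat_lit 354) (nat_lit 144))) (XT.nd (nat_lit 78) (nat_lit 76) (nat_lit 0) (XT.lf (nat_lit 0) (nat_lit 1895455468946) (nat_lit 152) (nat_lit 291799120004) (nat_lit 0) (nat_lit 981907096542) (nat_lit 10) (nat_lit 5) (nat_lit 12) (nat_lit 4) (nat_lit 10) (nat_lit 4) (nat_lit 403) (nat_lit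 354) (nat_lit 143)) (XT.nd (nat_lit 78) (nat_lit 0) (nat_lit 0) (XT.lf (nat_lit 0) (nat_lit 796508623181) (nat_lit 76) (nat_lit 1747019861010) (nat_lit 76) (nat_lit 833471482608) (nat_lit 9) (nat_lit 4) (nat_lit 10) (nat_lit 5) (nat_lit 10) (nat_lit 4) (nat_lit 404) (nat_lit 354) (nat_lit 142)) (XT.lf (nat_lit 0) (nat_lit 1988475846067) (nat_lit 76) (nat_lit 1262949792340) (nat_lit 76) (nat_lit 349401408385) (nat_lit 9) (nat_lit 4) (nat_lit 10) (nat_lit 5) (nat_lit 10) (nat_lit 4) (nat_lit 405) (nat_lit 354) (nat_lit 141)))))) (XT.nd (nat_lit 42978) (nat_lit 0) (nat_lit 3876) (XT.nd (nat_lit 156) (nat_lit 0) (nat_lit 0) (XT.nd (nat_lit 78) (nat_lit 76) (nat_lit 0) (XT.lf (nat_lit 0) (nat_lit 164720381111) (nat_lit 152) (nat_lit 570929996384) (nat_lit 76) (nat_lit 3106576305333) (nat_lit 8) (nat_lit 5) (nat_lit 10) (nat_lit 5) (nat_lit 9) (nat_lit 4) (nat_lit 406) (nat_lit 354) (nat_lit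 140)) (XT.lf (nat_lit 0) (nat_lit 573414022208) (nat_lit 76) (nat_lit 141471754746) (nat_lit 152) (nat_lit 3386223234727) (nat_lit 7) (nat_lit 5) (nat_lit 8) (nat_lit 5) (nat_lit 9) (nat_lit 4) (nat_lit 407) (nat_lit 354) (nat_lit 139))) (XT.nd (nat_lit 42744) (nat_lit 0) (nat_lit 3876) (XT.lf (nat_lit 0) (nat_lit 1337110908554) (nat_lit 152) (nat_lit 2550114535951) (nat_lit 0) (nat_lit 491232762011) (nat_lit 7) (nat_lit 5) (nat_lit 9) (nat_lit 4) (nat_lit 7) (nat_lit 4) (nat_lit 408) (nat_lit 354) (nat_lit 138)) (XT.lf (nat_lit 0) (nat_lit 113938390260) (nat_lit 532) (nat_lit 13182662571) (nat_lit 532) (nat_lit 13182662571) (nat_lit 58) (nat_lit 3) (nat_lit 65) (nat_lit 3) (nat_lit 65) (nat_lit 5) (nat_lit 355) (nat_lit 355) (nat_lit 190)))) (XT.nd (nat_lit 156) (nat_lit 0) (nat_lit 76) (XT.nd (nat_lit 78) (nat_lit 0) (nat_lit 76) (XT.lf (nat_lit 76) (nat_lit 113462146623) (nat_lit 0)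 (nat_lit 126259245135) (nat_lit 532) (nat_lit 51891971920) (nat_lit 59) (nat_lit 5) (nat_lit 58) (nat_lit 3) (nat_lit 65) (nat_lit 5) (nat_lit 356) (nat_lit 355) (nat_lit 189)) (XT.lf (nat_lit 0) (nat_lit 253540785352) (nat_lit 456) (nat_lit 37773333164) (nat_lit 532) (nat_lit 12103475702) (nat_lit 59) (nat_lit 5) (nat_lit 65) (nat_lit 5) (nat_lit 66) (nat_lit 5) (nat_lit 357) (nat_lit 355) (nat_lit 188))) (XT.nd (nat_lit 78) (nat_lit 0) (nat_lit 0) (XT.lf (nat_lit 76) (nat_lit 116376917864) (nat_lit 0) (nat_lit 158167069363) (nat_lit 532) (nat_lit 41135915540) (nat_lit 60) (nat_lit 5) (nat_lit 59) (nat_lit 5) (nat_lit 66) (nat_lit 5) (nat_lit 358) (nat_lit 355) (nat_lit 187)) (XT.nd (nat_lit 78) (nat_lit 0) (nat_lit 76) (XT.lf (nat_lit 76) (nat_lit 285007345684) (nat_lit 0) (nat_lit 13252821853) (nat_lit 532) (nat_lit 30580410780) (nat_lit 60) (nat_lit 5) (nat_lit 59) (nat_lit 5) (nat_lit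 66) (nat_lit 5) (nat_lit 359) (nat_lit 355) (nat_lit 186)) (XT.lf (nat_lit 76) (nat_lit 126980873258) (nat_lit 0) (nat_lit 203391875709) (nat_lit 532) (nat_lit 12161430498) (nat_lit 61) (nat_lit 5) (nat_lit 60) (nat_lit 5) (nat_lit 67) (nat_lit 5) (nat_lit 360) (nat_lit 355) (nat_lit 185))))))))
noncomputable def xc227 : XT := (XT.nd (nat_lit 1404) (nat_lit 1216) (nat_lit 0) (XT.nd (nat_lit 702) (nat_lit 836) (nat_lit 0) (XT.nd (nat_lit 312) (nat_lit 608) (nat_lit 0) (XT.nd (nat_lit 156) (nat_lit 304) (nat_lit 0) (XT.nd (nat_lit 78) (nat_lit 0) (nat_lit 76) (XT.lf (nat_lit 0) (nat_lit 8918105325) (nat_lit 532) (nat_lit 43835789263) (nat_lit 608) (nat_lit 304428597491) (nat_lit 53) (nat_lit 5) (nat_lit 60) (nat_lit 5) (nat_lit 61) (nat_lit 5) (nat_lit 361) (nat_lit 355) (nat_lit 184)) (XT.lf (nat_lit 0) (nat_lit 37349275452) (nat_lit 532) (nat_lit 226692306929) (nat_lit 76) (nat_lit 108430032523)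 (nat_lit 54) (nat_lit 5) (nat_lit 61) (nat_lit 5) (nat_lit 55) (nat_lit 5) (nat_lit 362) (nat_lit 355) (nat_lit 183))) (XT.nd (nat_lit 78) (nat_lit 380) (nat_lit 0) (XT.lf (nat_lit 0) (nat_lit 70654796934) (nat_lit 532) (nat_lit 37232802625) (nat_lit 76) (nat_lit 280888279444) (nat_lit 54) (nat_lit 5) (nat_lit 61) (nat_lit 5) (nat_lit 55) (nat_lit 5) (nat_lit 363) (nat_lit 355) (nat_lit 182)) (XT.lf (nat_lit 0) (nat_lit 112433580951) (nat_lit 456) (nat_lit 231419268636) (nat_lit 76) (nat_lit 62066929040) (nat_lit 49) (nat_lit 5) (nat_lit 55) (nat_lit 5) (nat_lit 50) (nat_lit 5) (nat_lit 364) (nat_lit 355) (nat_lit 181)))) (XT.nd (nat_lit 156) (nat_lit 380) (nat_lit 0) (XT.nd (nat_lit 78) (nat_lit 228) (nat_lit 0) (XT.lf (nat_lit 0) (nat_lit 161401349523) (nat_lit 456) (nat_lit 21892565264) (nat_lit 76) (nat_lit 240833540945) (nat_lit 49) (nat_lit 5) (nat_lit 55) (nat_lit 5) (nat_lit 50)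 (nat_lit 5) (nat_lit 365) (nat_lit 355) (nat_lit 180)) (XT.lf (nat_lit 0) (nat_lit 215159372351) (nat_lit 228) (nat_lit 4301712601) (nat_lit 304) (nat_lit 223916698479) (nat_lit 46) (nat_lit 5) (nat_lit 49) (nat_lit 5) (nat_lit 50) (nat_lit 5) (nat_lit 366) (nat_lit 355) (nat_lit 179))) (XT.nd (nat_lit 78) (nat_lit 152) (nat_lit 0) (XT.lf (nat_lit 0) (nat_lit 3935864954) (nat_lit 228) (nat_lit 283484172140) (nat_lit 304) (nat_lit 176327745271) (nat_lit 43) (nat_lit 5) (nat_lit 46) (nat_lit 5) (nat_lit 47) (nat_lit 5) (nat_lit 367) (nat_lit 355) (nat_lit 178)) (XT.nd (nat_lit 78) (nat_lit 152) (nat_lit 0) (XT.lf (nat_lit 0) (nat_lit 267523803780) (nat_lit 228) (nat_lit 99640662757) (nat_lit 304) (nat_lit 118075013832) (nat_lit 43) (nat_lit 5) (nat_lit 46) (nat_lit 5) (nat_lit 47) (nat_lit 5) (nat_lit 368) (nat_lit 355) (nat_lit 177)) (XT.lf (nat_lit 0) (nat_lit 43547862772) (nat_lit 152)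 (nat_lit 413166674388) (nat_lit 228) (nat_lit 51461890149) (nat_lit 41) (nat_lit 5) (nat_lit 43) (nat_lit 5) (nat_lit 44) (nat_lit 5) (nat_lit 369) (nat_lit 355) (nat_lit 176)))))) (XT.nd (nat_lit 312) (nat_lit 380) (nat_lit 0) (XT.nd (nat_lit 156) (nat_lit 152) (nat_lit 0) (XT.nd (nat_lit 78) (nat_lit 228) (nat_lit 0) (XT.lf (nat_lit 0) (nat_lit 28151159318) (nat_lit 228) (nat_lit 197613225777) (nat_lit 76) (nat_lit 306448910232) (nat_lit 40) (nat_lit 5) (nat_lit 43) (nat_lit 5) (nat_lit 41) (nat_lit 5) (nat_lit 370) (nat_lit 355) (nat_lit 175)) (XT.lf (nat_lit 0) (nat_lit 94135672428) (nat_lit 228) (nat_lit 19481233982) (nat_lit 304) (nat_lit 444268158020) (nat_lit 37) (nat_lit 5) (nat_lit 40) (nat_lit 5) (nat_lit 41) (nat_lit 5) (nat_lit 371) (nat_lit 355) (nat_lit 174))) (XT.nd (nat_lit 78) (nat_lit 152) (nat_lit 0) (XT.lf (nat_lit 0) (nat_lit 216352797393) (nat_lit 304) (nat_lit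 169745269564) (nat_lit 76) (nat_lit 198677877406) (nat_lit 37) (nat_lit 5) (nat_lit 41) (nat_lit 5) (nat_lit 38) (nat_lit 5) (nat_lit 372) (nat_lit 355) (nat_lit 173)) (XT.lf (nat_lit 0) (nat_lit 155028278215) (nat_lit 152) (nat_lit 176513692076) (nat_lit 228) (nat_lit 281937371578) (nat_lit 35) (nat_lit 5) (nat_lit 37) (nat_lit 5) (nat_lit 38) (nat_lit 5) (nat_lit 373) (nat_lit 355) (nat_lit 172)))) (XT.nd (nat_lit 156) (nat_lit 228) (nat_lit 0) (XT.nd (nat_lit 78) (nat_lit 152) (nat_lit 0) (XT.lf (nat_lit 0) (nat_lit 461906525637) (nat_lit 228) (nat_lit 129989628688) (nat_lit 76) (nat_lit 52106036989) (nat_lit 35) (nat_lit 5) (nat_lit 38) (nat_lit 5) (nat_lit 36) (nat_lit 5) (nat_lit 374) (nat_lit 355) (nat_lit 171)) (XT.lf (nat_lit 0) (nat_lit 231757352663) (nat_lit 152) (nat_lit 381101407645) (nat_lit 228) (nat_lit 63295427238) (nat_lit 33) (nat_lit 5) (nat_lit 35) (nat_lit 5) (nat_lit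 36) (nat_lit 5) (nat_lit 375) (nat_lit 355) (nat_lit 170))) (XT.nd (nat_lit 78) (nat_lit 152) (nat_lit 0) (XT.lf (nat_lit 0) (nat_lit 65403261743) (nat_lit 228) (nat_lit 82413112277) (nat_lit 76) (nat_lit 562645177448) (nat_lit 32) (nat_lit 5) (nat_lit 35) (nat_lit 5) (nat_lit 33) (nat_lit 5) (nat_lit 376) (nat_lit 355) (nat_lit 169)) (XT.nd (nat_lit 78) (nat_lit 0) (nat_lit 0) (XT.lf (nat_lit 0) (nat_lit 211496335990) (nat_lit 228) (nat_lit 426464040928) (nat_lit 76) (nat_lit 108580157660) (nat_lit 30) (nat_lit 5) (nat_lit 33) (nat_lit 5) (nat_lit 31) (nat_lit 5) (nat_lit 377) (nat_lit 355) (nat_lit 168)) (XT.lf (nat_lit 0) (nat_lit 375428067543) (nat_lit 228) (nat_lit 29771346829) (nat_lit 76) (nat_lit 379814325073) (nat_lit 30) (nat_lit 5) (nat_lit 33) (nat_lit 5) (nat_lit 31) (nat_lit 5) (nat_lit 378) (nat_lit 355) (nat_lit 167))))))) (XT.nd (nat_lit 702) (nat_lit 456) (nat_lit 0)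 (XT.nd (nat_lit 312) (nat_lit 304) (nat_lit 0) (XT.nd (nat_lit 156) (nat_lit 228) (nat_lit 0) (XT.nd (nat_lit 78) (nat_lit 76) (nat_lit 0) (XT.lf (nat_lit 0) (nat_lit 419649285614) (nat_lit 152) (nat_lit 142917605830) (nat_lit 228) (nat_lit 263190504969) (nat_lit 28) (nat_lit 5) (nat_lit 30) (nat_lit 5) (nat_lit 31) (nat_lit 5) (nat_lit 379) (nat_lit 355) (nat_lit 166)) (XT.lf (nat_lit 0) (nat_lit 35395365110) (nat_lit 76) (nat_lit 734343181369) (nat_lit 152) (nat_lit 99617061458) (nat_lit 27) (nat_lit 5) (nat_lit 28) (nat_lit 5) (nat_lit 29) (nat_lit 4) (nat_lit 380) (nat_lit 355) (nat_lit 165))) (XT.nd (nat_lit 78) (nat_lit 152) (nat_lit 0) (XT.lf (nat_lit 0) (nat_lit 88292540147) (nat_lit 152) (nat_lit 386091988691) (nat_lit 76) (nat_lit 440700578236) (nat_lit 26) (nat_lit 5) (nat_lit 28) (nat_lit 5) (nat_lit 27) (nat_lit 5) (nat_lit 381) (nat_lit 355) (nat_lit 164)) (XT.lf (nat_lit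 0) (nat_lit 100021729409) (nat_lit 152) (nat_lit 188236777366) (nat_lit 228) (nat_lit 675815022437) (nat_lit 24) (nat_lit 5) (nat_lit 26) (nat_lit 5) (nat_lit 27) (nat_lit 5) (nat_lit 382) (nat_lit 355) (nat_lit 163)))) (XT.nd (nat_lit 156) (nat_lit 228) (nat_lit 0) (XT.nd (nat_lit 78) (nat_lit 76) (nat_lit 0) (XT.lf (nat_lit 0) (nat_lit 517957674291) (nat_lit 228) (nat_lit 372334107456) (nat_lit 76) (nat_lit 125590369500) (nat_lit 24) (nat_lit 5) (nat_lit 27) (nat_lit 5) (nat_lit 25) (nat_lit 4) (nat_lit 383) (nat_lit 355) (nat_lit 162)) (XT.lf (nat_lit 0) (nat_lit 161932208023) (nat_lit 76) (nat_lit 612884290072) (nat_lit 152) (nat_lit 296316267129) (nat_lit 23) (nat_lit 5) (nat_lit 24) (nat_lit 5) (nat_lit 25) (nat_lit 4) (nat_lit 384) (nat_lit 355) (nat_lit 161))) (XT.nd (nat_lit 78) (nat_lit 228) (nat_lit 0) (XT.lf (nat_lit 0) (nat_lit 760114769928) (nat_lit 76) (nat_lit 302289515244)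 (nat_lit 152) (nat_lit 67584722568) (nat_lit 23) (nat_lit 5) (nat_lit 24) (nat_lit 5) (nat_lit 25) (nat_lit 4) (nat_lit 385) (nat_lit 355) (nat_lit 160)) (XT.nd (nat_lit 78) (nat_lit 0) (nat_lit 0) (XT.lf (nat_lit 0) (nat_lit 176788102945) (nat_lit 228) (nat_lit 974582760537) (nat_lit 76) (nat_lit 41332085767) (nat_lit 20) (nat_lit 5) (nat_lit 23) (nat_lit 5) (nat_lit 21) (nat_lit 4) (nat_lit 386) (nat_lit 355) (nat_lit 159)) (XT.lf (nat_lit 0) (nat_lit 455286776790) (nat_lit 228) (nat_lit 395305546895) (nat_lit 76) (nat_lit 408243058394) (nat_lit 20) (nat_lit 5) (nat_lit 23) (nat_lit 5) (nat_lit 21) (nat_lit 4) (nat_lit 387) (nat_lit 355) (nat_lit 158)))))) (XT.nd (nat_lit 312) (nat_lit 228) (nat_lit 0) (XT.nd (nat_lit 156) (nat_lit 152) (nat_lit 0) (XT.nd (nat_lit 78) (nat_lit 0) (nat_lit 0) (XT.lf (nat_lit 0) (nat_lit 242441735062) (nat_lit 76) (nat_lit 519454324344) (nat_lit 152)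 (nat_lit 567895892948) (nat_lit 19) (nat_lit 5) (nat_lit 20) (nat_lit 5) (nat_lit 21) (nat_lit 4) (nat_lit 388) (nat_lit 355) (nat_lit 157)) (XT.lf (nat_lit 0) (nat_lit 953690150705) (nat_lit 76) (nat_lit 150152273898) (nat_lit 152) (nat_lit 301717956456) (nat_lit 19) (nat_lit 5) (nat_lit 20) (nat_lit 5) (nat_lit 21) (nat_lit 4) (nat_lit 389) (nat_lit 355) (nat_lit 156))) (XT.nd (nat_lit 78) (nat_lit 76) (nat_lit 0) (XT.lf (nat_lit 0) (nat_lit 240497705007) (nat_lit 76) (nat_lit 1244411851429) (nat_lit 76) (nat_lit 1539523038) (nat_lit 18) (nat_lit 4) (nat_lit 19) (nat_lit 5) (nat_lit 19) (nat_lit 4) (nat_lit 390) (nat_lit 355) (nat_lit 155)) (XT.lf (nat_lit 0) (nat_lit 323088651929) (nat_lit 152) (nat_lit 570847951403) (nat_lit 76) (nat_lit 677925414210) (nat_lit 17) (nat_lit 5) (nat_lit 19) (nat_lit 5) (nat_lit 18) (nat_lit 4) (nat_lit 391) (nat_lit 355) (nat_lit 154)))) (XT.nd (nat_lit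 156) (nat_lit 152) (nat_lit 0) (XT.nd (nat_lit 78) (nat_lit 0) (nat_lit 0) (XT.lf (nat_lit 0) (nat_lit 166555516618) (nat_lit 76) (nat_lit 511054041867) (nat_lit 152) (nat_lit 986174781021) (nat_lit 16) (nat_lit 5) (nat_lit 17) (nat_lit 5) (nat_lit 18) (nat_lit 4) (nat_lit 392) (nat_lit 355) (nat_lit 153)) (XT.lf (nat_lit 0) (nat_lit 995415868700) (nat_lit 76) (nat_lit 80684251513) (nat_lit 152) (nat_lit 685711688408) (nat_lit 16) (nat_lit 5) (nat_lit 17) (nat_lit 5) (nat_lit 18) (nat_lit 4) (nat_lit 393) (nat_lit 355) (nat_lit 152))) (XT.nd (nat_lit 78) (nat_lit 76) (nat_lit 0) (XT.lf (nat_lit 0) (nat_lit 14385179483) (nat_lit 76) (nat_lit 1501668677917) (nat_lit 76) (nat_lit 350860903427) (nat_lit 15) (nat_lit 4) (nat_lit 16) (nat_lit 5) (nat_lit 16) (nat_lit 4) (nat_lit 394) (nat_lit 355) (nat_lit 151)) (XT.nd (nat_lit 78) (nat_lit 0) (nat_lit 0) (XT.lf (nat_lit 0) (nat_lit 33833370598)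 (nat_lit 152) (nat_lit 1080434376592) (nat_lit 76) (nat_lit 864249898623) (nat_lit 14) (nat_lit 5) (nat_lit 16) (nat_lit 5) (nat_lit 15) (nat_lit 4) (nat_lit 395) (nat_lit 355) (nat_lit 150)) (XT.lf (nat_lit 0) (nat_lit 430347574062) (nat_lit 152) (nat_lit 255684845376) (nat_lit 76) (nat_lit 1412287281380) (nat_lit 14) (nat_lit 5) (nat_lit 16) (nat_lit 5) (nat_lit 15) (nat_lit 4) (nat_lit 396) (nat_lit 355) (nat_lit 149))))))))
noncomputable def xc228 : XT := (XT.nd (nat_lit 44148) (nat_lit 0) (nat_lit 1748) (XT.nd (nat_lit 702) (nat_lit 152) (nat_lit 0) (XT.nd (nat_lit 312) (nat_lit 228) (nat_lit 0) (XT.nd (nat_lit 156) (nat_lit 76) (nat_lit 0) (XT.nd (nat_lit 78) (nat_lit 0) (nat_lit 0) (XT.lf (nat_lit 0) (nat_lit 668484954923) (nat_lit 76) (nat_lit 206175028466) (nat_lit 152) (nat_lit 1351759771272) (nat_lit 13) (nat_lit 5) (nat_lit 14) (nat_lit 5) (nat_lit 15) (nat_lit 4) (nat_lit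 397) (nat_lit 355) (nat_lit 148)) (XT.lf (nat_lit 0) (nat_lit 1369195147837) (nat_lit 152) (nat_lit 690766093194) (nat_lit 0) (nat_lit 303632350793) (nat_lit 13) (nat_lit 5) (nat_lit 15) (nat_lit 4) (nat_lit 13) (nat_lit 4) (nat_lit 398) (nat_lit 355) (nat_lit 147))) (XT.nd (nat_lit 78) (nat_lit 0) (nat_lit 0) (XT.lf (nat_lit 0) (nat_lit 253081035752) (nat_lit 76) (nat_lit 1661653881366) (nat_lit 76) (nat_lit 596091075509) (nat_lit 12) (nat_lit 4) (nat_lit 13) (nat_lit 5) (nat_lit 13) (nat_lit 4) (nat_lit 399) (nat_lit 355) (nat_lit 146)) (XT.lf (nat_lit 0) (nat_lit 1311720398266) (nat_lit 76) (nat_lit 1211084230203) (nat_lit 76) (nat_lit 145521416187) (nat_lit 12) (nat_lit 4) (nat_lit 13) (nat_lit 5) (nat_lit 13) (nat_lit 4) (nat_lit 400) (nat_lit 355) (nat_lit 145)))) (XT.nd (nat_lit 156) (nat_lit 76) (nat_lit 0) (XT.nd (nat_lit 78) (nat_lit 76) (nat_lit 0) (XT.lf (nat_lit 0) (nat_lit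 324030913597) (nat_lit 152) (nat_lit 391578521288) (nat_lit 76) (nat_lit 2122160401460) (nat_lit 11) (nat_lit 5) (nat_lit 13) (nat_lit 5) (nat_lit 12) (nat_lit 4) (nat_lit 401) (nat_lit 355) (nat_lit 144)) (XT.lf (nat_lit 0) (nat_lit 680934061765) (nat_lit 76) (nat_lit 158727904740) (nat_lit 152) (nat_lit 2179494664863) (nat_lit 10) (nat_lit 5) (nat_lit 11) (nat_lit 5) (nat_lit 12) (nat_lit 4) (nat_lit 402) (nat_lit 355) (nat_lit 143))) (XT.nd (nat_lit 78) (nat_lit 76) (nat_lit 0) (XT.lf (nat_lit 0) (nat_lit 1418175081872) (nat_lit 152) (nat_lit 1363605934666) (nat_lit 0) (nat_lit 431542827200) (nat_lit 10) (nat_lit 5) (nat_lit 12) (nat_lit 4) (nat_lit 10) (nat_lit 4) (nat_lit 403) (nat_lit 355) (nat_lit 142)) (XT.nd (nat_lit 78) (nat_lit 76) (nat_lit 0) (XT.lf (nat_lit 0) (nat_lit 2047092042228) (nat_lit 152) (nat_lit 315142785206) (nat_lit 0) (nat_lit 1060459782003) (nat_lit 10) (nat_lit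 5) (nat_lit 12) (nat_lit 4) (nat_lit 10) (nat_lit 4) (nat_lit 404) (nat_lit 355) (nat_lit 141)) (XT.lf (nat_lit 0) (nat_lit 860229570740) (nat_lit 76) (nat_lit 1886781324093) (nat_lit 76) (nat_lit 900149058726) (nat_lit 9) (nat_lit 4) (nat_lit 10) (nat_lit 5) (nat_lit 10) (nat_lit 4) (nat_lit 405) (nat_lit 355) (nat_lit 140)))))) (XT.nd (nat_lit 43056) (nat_lit 0) (nat_lit 3876) (XT.nd (nat_lit 156) (nat_lit 76) (nat_lit 0) (XT.nd (nat_lit 78) (nat_lit 76) (nat_lit 0) (XT.lf (nat_lit 0) (nat_lit 2147554152368) (nat_lit 76) (nat_lit 1363985659248) (nat_lit 76) (nat_lit 377353389120) (nat_lit 9) (nat_lit 4) (nat_lit 10) (nat_lit 5) (nat_lit 10) (nat_lit 4) (nat_lit 406) (nat_lit 355) (nat_lit 139)) (XT.lf (nat_lit 0) (nat_lit 177898127652) (nat_lit 152) (nat_lit 616604169019) (nat_lit 76) (nat_lit 3355102511476) (nat_lit 8) (nat_lit 5) (nat_lit 10) (nat_lit 5) (nat_lit 9) (nat_lit 4) (nat_lit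 407) (nat_lit 355) (nat_lit 138))) (XT.nd (nat_lit 42822) (nat_lit 0) (nat_lit 3876) (XT.lf (nat_lit 0) (nat_lit 619287365311) (nat_lit 76) (nat_lit 152789386577) (nat_lit 152) (nat_lit 3657120971683) (nat_lit 7) (nat_lit 5) (nat_lit 8) (nat_lit 5) (nat_lit 9) (nat_lit 4) (nat_lit 408) (nat_lit 355) (nat_lit 137)) (XT.lf (nat_lit 0) (nat_lit 123054215560) (nat_lit 532) (nat_lit 14236867808) (nat_lit 532) (nat_lit 14236867808) (nat_lit 58) (nat_lit 3) (nat_lit 65) (nat_lit 3) (nat_lit 65) (nat_lit 5) (nat_lit 356) (nat_lit 356) (nat_lit 188)))) (XT.nd (nat_lit 156) (nat_lit 0) (nat_lit 76) (XT.nd (nat_lit 78) (nat_lit 0) (nat_lit 76) (XT.lf (nat_lit 76) (nat_lit 122539913242) (nat_lit 0) (nat_lit 136360605416) (nat_lit 532) (nat_lit 56041798775) (nat_lit 59) (nat_lit 5) (nat_lit 58) (nat_lit 3) (nat_lit 65) (nat_lit 5) (nat_lit 357) (nat_lit 356) (nat_lit 187)) (XT.lf (nat_lit 0) (nat_lit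 273825345063) (nat_lit 456) (nat_lit 40794343192) (nat_lit 532) (nat_lit 13071207812) (nat_lit 59) (nat_lit 5) (nat_lit 65) (nat_lit 5) (nat_lit 66) (nat_lit 5) (nat_lit 358) (nat_lit 356) (nat_lit 186))) (XT.nd (nat_lit 78) (nat_lit 0) (nat_lit 0) (XT.lf (nat_lit 76) (nat_lit 125687906232) (nat_lit 0) (nat_lit 170820820871) (nat_lit 532) (nat_lit 44425468419) (nat_lit 60) (nat_lit 5) (nat_lit 59) (nat_lit 5) (nat_lit 66) (nat_lit 5) (nat_lit 359) (nat_lit 356) (nat_lit 185)) (XT.nd (nat_lit 78) (nat_lit 0) (nat_lit 76) (XT.lf (nat_lit 76) (nat_lit 307808706430) (nat_lit 0) (nat_lit 14313404971) (nat_lit 532) (nat_lit 33025621082) (nat_lit 60) (nat_lit 5) (nat_lit 59) (nat_lit 5) (nat_lit 66) (nat_lit 5) (nat_lit 360) (nat_lit 356) (nat_lit 184)) (XT.lf (nat_lit 76) (nat_lit 137140194783) (nat_lit 0) (nat_lit 219663433349) (nat_lit 532) (nat_lit 13133199412) (nat_lit 61) (nat_lit 5) (nat_lit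 60) (nat_lit 5) (nat_lit 67) (nat_lit 5) (nat_lit 361) (nat_lit 356) (nat_lit 183))))))) (XT.nd (nat_lit 702) (nat_lit 836) (nat_lit 0) (XT.nd (nat_lit 312) (nat_lit 608) (nat_lit 0) (XT.nd (nat_lit 156) (nat_lit 304) (nat_lit 0) (XT.nd (nat_lit 78) (nat_lit 0) (nat_lit 76) (XT.lf (nat_lit 0) (nat_lit 9632561364) (nat_lit 532) (nat_lit 47341809447) (nat_lit 608) (nat_lit 328782638705) (nat_lit 53) (nat_lit 5) (nat_lit 60) (nat_lit 5) (nat_lit 61) (nat_lit 5) (nat_lit 362) (nat_lit 356) (nat_lit 182)) (XT.lf (nat_lit 0) (nat_lit 40338167069) (nat_lit 532) (nat_lit 244826789274) (nat_lit 76) (nat_lit 117104310565) (nat_lit 54) (nat_lit 5) (nat_lit 61) (nat_lit 5) (nat_lit 55) (nat_lit 5) (nat_lit 363) (nat_lit 356) (nat_lit 181))) (XT.nd (nat_lit 78) (nat_lit 380) (nat_lit 0) (XT.lf (nat_lit 0) (nat_lit 76308059931) (nat_lit 532) (nat_lit 40210591456) (nat_lit 76) (nat_lit 303359226466)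 (nat_lit 54) (nat_lit 5) (nat_lit 61) (nat_lit 5) (nat_lit 55) (nat_lit 5) (nat_lit 364) (nat_lit 356) (nat_lit 180)) (XT.lf (nat_lit 0) (nat_lit 121429100655) (nat_lit 456) (nat_lit 249931927686) (nat_lit 76) (nat_lit 67032264872) (nat_lit 49) (nat_lit 5) (nat_lit 55) (nat_lit 5) (nat_lit 50) (nat_lit 5) (nat_lit 365) (nat_lit 356) (nat_lit 179)))) (XT.nd (nat_lit 156) (nat_lit 380) (nat_lit 0) (XT.nd (nat_lit 78) (nat_lit 228) (nat_lit 0) (XT.lf (nat_lit 0) (nat_lit 174314228992) (nat_lit 456) (nat_lit 23643153410) (nat_lit 76) (nat_lit 260100207099) (nat_lit 49) (nat_lit 5) (nat_lit 55) (nat_lit 5) (nat_lit 50) (nat_lit 5) (nat_lit 366) (nat_lit 356) (nat_lit 178)) (XT.lf (nat_lit 0) (nat_lit 232372918529) (nat_lit 228) (nat_lit 4645786730) (nat_lit 304) (nat_lit 241829241267) (nat_lit 46) (nat_lit 5) (nat_lit 49) (nat_lit 5) (nat_lit 50) (nat_lit 5) (nat_lit 367) (nat_lit 356) (nat_lit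 177))) (XT.nd (nat_lit 78) (nat_lit 152) (nat_lit 0) (XT.lf (nat_lit 0) (nat_lit 4251566975) (nat_lit 228) (nat_lit 306162773693) (nat_lit 304) (nat_lit 190433207405) (nat_lit 43) (nat_lit 5) (nat_lit 46) (nat_lit 5) (nat_lit 47) (nat_lit 5) (nat_lit 368) (nat_lit 356) (nat_lit 176)) (XT.nd (nat_lit 78) (nat_lit 152) (nat_lit 0) (XT.lf (nat_lit 0) (nat_lit 288926479216) (nat_lit 228) (nat_lit 107611793353) (nat_lit 304) (nat_lit 127520313562) (nat_lit 43) (nat_lit 5) (nat_lit 46) (nat_lit 5) (nat_lit 47) (nat_lit 5) (nat_lit 369) (nat_lit 356) (nat_lit 175)) (XT.lf (nat_lit 0) (nat_lit 47032491869) (nat_lit 152) (nat_lit 446219830889) (nat_lit 228) (nat_lit 55578168212) (nat_lit 41) (nat_lit 5) (nat_lit 43) (nat_lit 5) (nat_lit 44) (nat_lit 5) (nat_lit 370) (nat_lit 356) (nat_lit 174)))))) (XT.nd (nat_lit 312) (nat_lit 380) (nat_lit 0) (XT.nd (nat_lit 156) (nat_lit 152) (nat_lit 0) (XT.nd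 (nat_lit 78) (nat_lit 228) (nat_lit 0) (XT.lf (nat_lit 0) (nat_lit 30403844169) (nat_lit 228) (nat_lit 213421511239) (nat_lit 76) (nat_lit 330964955565) (nat_lit 40) (nat_lit 5) (nat_lit 43) (nat_lit 5) (nat_lit 41) (nat_lit 5) (nat_lit 371) (nat_lit 356) (nat_lit 173)) (XT.lf (nat_lit 0) (nat_lit 101667279264) (nat_lit 228) (nat_lit 21039546016) (nat_lit 304) (nat_lit 479808998430) (nat_lit 37) (nat_lit 5) (nat_lit 40) (nat_lit 5) (nat_lit 41) (nat_lit 5) (nat_lit 372) (nat_lit 356) (nat_lit 172))) (XT.nd (nat_lit 78) (nat_lit 152) (nat_lit 0) (XT.lf (nat_lit 0) (nat_lit 233661549747) (nat_lit 304) (nat_lit 183324155550) (nat_lit 76) (nat_lit 214572271807) (nat_lit 37) (nat_lit 5) (nat_lit 41) (nat_lit 5) (nat_lit 38) (nat_lit 5) (nat_lit 373) (nat_lit 356) (nat_lit 171)) (XT.lf (nat_lit 0) (nat_lit 167431257430) (nat_lit 152) (nat_lit 190634577137) (nat_lit 228) (nat_lit 304491813635)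 (nat_lit 35) (nat_lit 5) (nat_lit 37) (nat_lit 5) (nat_lit 38) (nat_lit 5) (nat_lit 374) (nat_lit 356) (nat_lit 170)))) (XT.nd (nat_lit 156) (nat_lit 228) (nat_lit 0) (XT.nd (nat_lit 78) (nat_lit 152) (nat_lit 0) (XT.lf (nat_lit 0) (nat_lit 498859521493) (nat_lit 228) (nat_lit 140388101838) (nat_lit 76) (nat_lit 56274704934) (nat_lit 35) (nat_lit 5) (nat_lit 38) (nat_lit 5) (nat_lit 36) (nat_lit 5) (nat_lit 375) (nat_lit 356) (nat_lit 169)) (XT.lf (nat_lit 0) (nat_lit 250298620372) (nat_lit 152) (nat_lit 411589295811) (nat_lit 228) (nat_lit 68358569546) (nat_lit 33) (nat_lit 5) (nat_lit 35) (nat_lit 5) (nat_lit 36) (nat_lit 5) (nat_lit 376) (nat_lit 356) (nat_lit 168))) (XT.nd (nat_lit 78) (nat_lit 152) (nat_lit 0) (XT.lf (nat_lit 0) (nat_lit 70635955335) (nat_lit 228) (nat_lit 89005508957) (nat_lit 76) (nat_lit 607656976325) (nat_lit 32) (nat_lit 5) (nat_lit 35) (nat_lit 5) (nat_lit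 33) (nat_lit 5) (nat_lit 377) (nat_lit 356) (nat_lit 167)) (XT.nd (nat_lit 78) (nat_lit 0) (nat_lit 0) (XT.lf (nat_lit 0) (nat_lit 228416464053) (nat_lit 228) (nat_lit 460580500101) (nat_lit 76) (nat_lit 117266779166) (nat_lit 30) (nat_lit 5) (nat_lit 33) (nat_lit 5) (nat_lit 31) (nat_lit 5) (nat_lit 378) (nat_lit 356) (nat_lit 166)) (XT.lf (nat_lit 0) (nat_lit 405462702932) (nat_lit 228) (nat_lit 32152439666) (nat_lit 76) (nat_lit 410199664499) (nat_lit 30) (nat_lit 5) (nat_lit 33) (nat_lit 5) (nat_lit 31) (nat_lit 5) (nat_lit 379) (nat_lit 356) (nat_lit 165))))))))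
noncomputable def xc229 : XT := (XT.nd (nat_lit 1404) (nat_lit 380) (nat_lit 0) (XT.nd (nat_lit 702) (nat_lit 456) (nat_lit 0) (XT.nd (nat_lit 312) (nat_lit 304) (nat_lit 0) (XT.nd (nat_lit 156) (nat_lit 228) (nat_lit 0) (XT.nd (nat_lit 78) (nat_lit 76) (nat_lit 0) (XT.lf (nat_lit 0) (nat_lit 453221827805) (nat_lit 152) (nat_lit 154350790466) (nat_lit 228) (nat_lit 284245339532) (nat_lit 28) (nat_lit 5) (nat_lit 30) (nat_lit 5) (nat_lit 31) (nat_lit 5) (nat_lit 380) (nat_lit 356) (nat_lit 164)) (XT.lf (nat_lit 0) (nat_lit 38227602797) (nat_lit 76) (nat_lit 793090394714) (nat_lit 152) (nat_lit 107586029413) (nat_lit 27) (nat_lit 5) (nat_lit 28) (nat_lit 5) (nat_lit 29) (nat_lit 4) (nat_lit 381) (nat_lit 356) (nat_lit 163))) (XT.nd (nat_lit 78) (nat_lit 152) (nat_lit 0) (XT.lf (nat_lit 0) (nat_lit 95356292529) (nat_lit 152) (nat_lit 416978765770) (nat_lit 76) (nat_lit 475956829184) (nat_lit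 26) (nat_lit 5) (nat_lit 28) (nat_lit 5) (nat_lit 27) (nat_lit 5) (nat_lit 382) (nat_lit 356) (nat_lit 162)) (XT.lf (nat_lit 0) (nat_lit 108024035044) (nat_lit 152) (nat_lit 203295489222) (nat_lit 228) (nat_lit 729879860119) (nat_lit 24) (nat_lit 5) (nat_lit 26) (nat_lit 5) (nat_lit 27) (nat_lit 5) (nat_lit 383) (nat_lit 356) (nat_lit 161)))) (XT.nd (nat_lit 156) (nat_lit 228) (nat_lit 0) (XT.nd (nat_lit 78) (nat_lit 76) (nat_lit 0) (XT.lf (nat_lit 0) (nat_lit 559394605353) (nat_lit 228) (nat_lit 402120290768) (nat_lit 76) (nat_lit 135637801663) (nat_lit 24) (nat_lit 5) (nat_lit 27) (nat_lit 5) (nat_lit 25) (nat_lit 4) (nat_lit 384) (nat_lit 356) (nat_lit 160)) (XT.lf (nat_lit 0) (nat_lit 174887316145) (nat_lit 76) (nat_lit 661914808209) (nat_lit 152) (nat_lit 320021237398) (nat_lit 23) (nat_lit 5) (nat_lit 24) (nat_lit 5) (nat_lit 25) (nat_lit 4) (nat_lit 385) (nat_lit 356) (nat_lit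 159))) (XT.nd (nat_lit 78) (nat_lit 228) (nat_lit 0) (XT.lf (nat_lit 0) (nat_lit 820924443633) (nat_lit 76) (nat_lit 326472468067) (nat_lit 152) (nat_lit 72991193798) (nat_lit 23) (nat_lit 5) (nat_lit 24) (nat_lit 5) (nat_lit 25) (nat_lit 4) (nat_lit 386) (nat_lit 356) (nat_lit 158)) (XT.nd (nat_lit 78) (nat_lit 0) (nat_lit 0) (XT.lf (nat_lit 0) (nat_lit 190931437873) (nat_lit 228) (nat_lit 1052548869091) (nat_lit 76) (nat_lit 44638855148) (nat_lit 20) (nat_lit 5) (nat_lit 23) (nat_lit 5) (nat_lit 21) (nat_lit 4) (nat_lit 387) (nat_lit 356) (nat_lit 157)) (XT.lf (nat_lit 0) (nat_lit 491709984389) (nat_lit 228) (nat_lit 426929516305) (nat_lit 76) (nat_lit 440902690584) (nat_lit 20) (nat_lit 5) (nat_lit 23) (nat_lit 5) (nat_lit 21) (nat_lit 4) (nat_lit 388) (nat_lit 356) (nat_lit 156)))))) (XT.nd (nat_lit 312) (nat_lit 228) (nat_lit 0) (XT.nd (nat_lit 156) (nat_lit 152) (nat_lit 0) (XT.nd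 (nat_lit 78) (nat_lit 0) (nat_lit 0) (XT.lf (nat_lit 0) (nat_lit 261837536199) (nat_lit 76) (nat_lit 561010464870) (nat_lit 152) (nat_lit 613327286798) (nat_lit 19) (nat_lit 5) (nat_lit 20) (nat_lit 5) (nat_lit 21) (nat_lit 4) (nat_lit 389) (nat_lit 356) (nat_lit 155)) (XT.lf (nat_lit 0) (nat_lit 1029985790847) (nat_lit 76) (nat_lit 162164265605) (nat_lit 152) (nat_lit 325855135949) (nat_lit 19) (nat_lit 5) (nat_lit 20) (nat_lit 5) (nat_lit 21) (nat_lit 4) (nat_lit 390) (nat_lit 356) (nat_lit 154))) (XT.nd (nat_lit 78) (nat_lit 76) (nat_lit 0) (XT.lf (nat_lit 0) (nat_lit 259737952856) (nat_lit 76) (nat_lit 1343964602968) (nat_lit 76) (nat_lit 1662431115) (nat_lit 18) (nat_lit 4) (nat_lit 19) (nat_lit 5) (nat_lit 19) (nat_lit 4) (nat_lit 391) (nat_lit 356) (nat_lit 153)) (XT.lf (nat_lit 0) (nat_lit 348935967298) (nat_lit 152) (nat_lit 616515376183) (nat_lit 76) (nat_lit 732159617518) (nat_lit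 17) (nat_lit 5) (nat_lit 19) (nat_lit 5) (nat_lit 18) (nat_lit 4) (nat_lit 392) (nat_lit 356) (nat_lit 152)))) (XT.nd (nat_lit 156) (nat_lit 152) (nat_lit 0) (XT.nd (nat_lit 78) (nat_lit 0) (nat_lit 0) (XT.lf (nat_lit 0) (nat_lit 179880358867) (nat_lit 76) (nat_lit 551938180620) (nat_lit 152) (nat_lit 1065068529792) (nat_lit 16) (nat_lit 5) (nat_lit 17) (nat_lit 5) (nat_lit 18) (nat_lit 4) (nat_lit 393) (nat_lit 356) (nat_lit 151)) (XT.lf (nat_lit 0) (nat_lit 1075049509417) (nat_lit 76) (nat_lit 87138820712) (nat_lit 152) (nat_lit 740568407082) (nat_lit 16) (nat_lit 5) (nat_lit 17) (nat_lit 5) (nat_lit 18) (nat_lit 4) (nat_lit 394) (nat_lit 356) (nat_lit 150))) (XT.nd (nat_lit 78) (nat_lit 76) (nat_lit 0) (XT.lf (nat_lit 0) (nat_lit 15536367351) (nat_lit 76) (nat_lit 1621801996891) (nat_lit 76) (nat_lit 378929561520) (nat_lit 15) (nat_lit 4) (nat_lit 16) (nat_lit 5) (nat_lit 16) (nat_lit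 4) (nat_lit 395) (nat_lit 356) (nat_lit 149)) (XT.nd (nat_lit 78) (nat_lit 0) (nat_lit 0) (XT.lf (nat_lit 0) (nat_lit 36540228641) (nat_lit 152) (nat_lit 1166868770897) (nat_lit 76) (nat_lit 933390042808) (nat_lit 14) (nat_lit 5) (nat_lit 16) (nat_lit 5) (nat_lit 15) (nat_lit 4) (nat_lit 396) (nat_lit 356) (nat_lit 148)) (XT.lf (nat_lit 0) (nat_lit 464775554428) (nat_lit 152) (nat_lit 276139303541) (nat_lit 76) (nat_lit 1525270404905) (nat_lit 14) (nat_lit 5) (nat_lit 16) (nat_lit 5) (nat_lit 15) (nat_lit 4) (nat_lit 397) (nat_lit 356) (nat_lit 147))))))) (XT.nd (nat_lit 702) (nat_lit 0) (nat_lit 0) (XT.nd (nat_lit 312) (nat_lit 228) (nat_lit 0) (XT.nd (nat_lit 156) (nat_lit 76) (nat_lit 0) (XT.nd (nat_lit 78) (nat_lit 0) (nat_lit 0) (XT.lf (nat_lit 0) (nat_lit 721964072442) (nat_lit 76) (nat_lit 222668878861) (nat_lit 152) (nat_lit 1459900370140) (nat_lit 13) (nat_lit 5) (nat_lit 14)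 (nat_lit 5) (nat_lit 15) (nat_lit 4) (nat_lit 398) (nat_lit 356) (nat_lit 146)) (XT.lf (nat_lit 0) (nat_lit 1478730919752) (nat_lit 152) (nat_lit 746027074109) (nat_lit 0) (nat_lit 327923072454) (nat_lit 13) (nat_lit 5) (nat_lit 15) (nat_lit 4) (nat_lit 13) (nat_lit 4) (nat_lit 399) (nat_lit 356) (nat_lit 145))) (XT.nd (nat_lit 78) (nat_lit 0) (nat_lit 0) (XT.lf (nat_lit 0) (nat_lit 273327817392) (nat_lit 76) (nat_lit 1794586048511) (nat_lit 76) (nat_lit 643778193657) (nat_lit 12) (nat_lit 4) (nat_lit 13) (nat_lit 5) (nat_lit 13) (nat_lit 4) (nat_lit 400) (nat_lit 356) (nat_lit 144)) (XT.lf (nat_lit 0) (nat_lit 1416658306776) (nat_lit 76) (nat_lit 1307970835874) (nat_lit 76) (nat_lit 157162974025) (nat_lit 12) (nat_lit 4) (nat_lit 13) (nat_lit 5) (nat_lit 13) (nat_lit 4) (nat_lit 401) (nat_lit 356) (nat_lit 143)))) (XT.nd (nat_lit 156) (nat_lit 76) (nat_lit 0) (XT.nd (nat_lit 78) (nat_lit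 76) (nat_lit 0) (XT.lf (nat_lit 0) (nat_lit 349953523425) (nat_lit 152) (nat_lit 422904539600) (nat_lit 76) (nat_lit 2291933349253) (nat_lit 11) (nat_lit 5) (nat_lit 13) (nat_lit 5) (nat_lit 12) (nat_lit 4) (nat_lit 402) (nat_lit 356) (nat_lit 142)) (XT.lf (nat_lit 0) (nat_lit 735409043430) (nat_lit 76) (nat_lit 171426013182) (nat_lit 152) (nat_lit 2353854094610) (nat_lit 10) (nat_lit 5) (nat_lit 11) (nat_lit 5) (nat_lit 12) (nat_lit 4) (nat_lit 403) (nat_lit 356) (nat_lit 141))) (XT.nd (nat_lit 78) (nat_lit 76) (nat_lit 0) (XT.lf (nat_lit 0) (nat_lit 1531629214131) (nat_lit 152) (nat_lit 1472694164626) (nat_lit 0) (nat_lit 466066362392) (nat_lit 10) (nat_lit 5) (nat_lit 12) (nat_lit 4) (nat_lit 10) (nat_lit 4) (nat_lit 404) (nat_lit 356) (nat_lit 140)) (XT.nd (nat_lit 78) (nat_lit 76) (nat_lit 0) (XT.lf (nat_lit 0) (nat_lit 2210859522004) (nat_lit 152) (nat_lit 340353981344) (nat_lit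 0) (nat_lit 1145296665504) (nat_lit 10) (nat_lit 5) (nat_lit 12) (nat_lit 4) (nat_lit 10) (nat_lit 4) (nat_lit 405) (nat_lit 356) (nat_lit 139)) (XT.lf (nat_lit 0) (nat_lit 929048157340) (nat_lit 76) (nat_lit 2037723722170) (nat_lit 76) (nat_lit 972160861262) (nat_lit 9) (nat_lit 4) (nat_lit 10) (nat_lit 5) (nat_lit 10) (nat_lit 4) (nat_lit 406) (nat_lit 356) (nat_lit 138)))))) (XT.nd (nat_lit 43212) (nat_lit 0) (nat_lit 3344) (XT.nd (nat_lit 43056) (nat_lit 0) (nat_lit 3724) (XT.nd (nat_lit 42978) (nat_lit 0) (nat_lit 3724) (XT.lf (nat_lit 0) (nat_lit 2319358689131) (nat_lit 76) (nat_lit 1473104412127) (nat_lit 76) (nat_lit 407541547136) (nat_lit 9) (nat_lit 4) (nat_lit 10) (nat_lit 5) (nat_lit 10) (nat_lit 4) (nat_lit 407) (nat_lit 356) (nat_lit 137)) (XT.lf (nat_lit 0) (nat_lit 132899199306) (nat_lit 532) (nat_lit 15375467638) (nat_lit 532) (nat_lit 15375467638) (nat_lit 58) (nat_lit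 3) (nat_lit 65) (nat_lit 3) (nat_lit 65) (nat_lit 5) (nat_lit 357) (nat_lit 357) (nat_lit 186))) (XT.nd (nat_lit 78) (nat_lit 0) (nat_lit 76) (XT.lf (nat_lit 76) (nat_lit 132343787792) (nat_lit 0) (nat_lit 147269985974) (nat_lit 532) (nat_lit 60523830178) (nat_lit 59) (nat_lit 5) (nat_lit 58) (nat_lit 3) (nat_lit 65) (nat_lit 5) (nat_lit 358) (nat_lit 357) (nat_lit 185)) (XT.lf (nat_lit 0) (nat_lit 295732484535) (nat_lit 456) (nat_lit 44057156229) (nat_lit 532) (nat_lit 14116436376) (nat_lit 59) (nat_lit 5) (nat_lit 65) (nat_lit 5) (nat_lit 66) (nat_lit 5) (nat_lit 359) (nat_lit 357) (nat_lit 184)))) (XT.nd (nat_lit 156) (nat_lit 456) (nat_lit 0) (XT.nd (nat_lit 78) (nat_lit 0) (nat_lit 0) (XT.lf (nat_lit 76) (nat_lit 135743654556) (nat_lit 0) (nat_lit 184486817438) (nat_lit 532) (nat_lit 47978373893) (nat_lit 60) (nat_lit 5) (nat_lit 59) (nat_lit 5) (nat_lit 66) (nat_lit 5) (nat_lit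 360) (nat_lit 357) (nat_lit 183)) (XT.lf (nat_lit 76) (nat_lit 332434065745) (nat_lit 0) (nat_lit 15458783755) (nat_lit 532) (nat_lit 35666622621) (nat_lit 60) (nat_lit 5) (nat_lit 59) (nat_lit 5) (nat_lit 66) (nat_lit 5) (nat_lit 361) (nat_lit 357) (nat_lit 182))) (XT.nd (nat_lit 78) (nat_lit 532) (nat_lit 0) (XT.lf (nat_lit 76) (nat_lit 148112140530) (nat_lit 0) (nat_lit 237236685986) (nat_lit 532) (nat_lit 14182873261) (nat_lit 61) (nat_lit 5) (nat_lit 60) (nat_lit 5) (nat_lit 67) (nat_lit 5) (nat_lit 362) (nat_lit 357) (nat_lit 181)) (XT.nd (nat_lit 78) (nat_lit 0) (nat_lit 76) (XT.lf (nat_lit 0) (nat_lit 10404030139) (nat_lit 532) (nat_lit 51128431504) (nat_lit 608) (nat_lit 355085038395) (nat_lit 53) (nat_lit 5) (nat_lit 60) (nat_lit 5) (nat_lit 61) (nat_lit 5) (nat_lit 363) (nat_lit 357) (nat_lit 180)) (XT.lf (nat_lit 0) (nat_lit 43566034548) (nat_lit 532) (nat_lit 264412158917)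 (nat_lit 76) (nat_lit 126472548620) (nat_lit 54) (nat_lit 5) (nat_lit 61) (nat_lit 5) (nat_lit 55) (nat_lit 5) (nat_lit 364) (nat_lit 357) (nat_lit 179))))))))
noncomputable def xc230 : XT := (XT.nd (nat_lit 1404) (nat_lit 1064) (nat_lit 0) (XT.nd (nat_lit 702) (nat_lit 760) (nat_lit 0) (XT.nd (nat_lit 312) (nat_lit 684) (nat_lit 0) (XT.nd (nat_lit 156) (nat_lit 228) (nat_lit 0) (XT.nd (nat_lit 78) (nat_lit 380) (nat_lit 0) (XT.lf (nat_lit 0) (nat_lit 82413458534) (nat_lit 532) (nat_lit 43426722570) (nat_lit 76) (nat_lit 327627865703) (nat_lit 54) (nat_lit 5) (nat_lit 61) (nat_lit 5) (nat_lit 55) (nat_lit 5) (nat_lit 365) (nat_lit 357) (nat_lit 178)) (XT.lf (nat_lit 0) (nat_lit 131144143065) (nat_lit 456) (nat_lit 269925725349) (nat_lit 76) (nat_lit 72394830208) (nat_lit 49) (nat_lit 5) (nat_lit 55) (nat_lit 5) (nat_lit 50) (nat_lit 5) (nat_lit 366) (nat_lit 357) (nat_lit 177))) (XT.nd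 (nat_lit 78) (nat_lit 228) (nat_lit 0) (XT.lf (nat_lit 0) (nat_lit 188260028754) (nat_lit 456) (nat_lit 25533905172) (nat_lit 76) (nat_lit 280908208988) (nat_lit 49) (nat_lit 5) (nat_lit 55) (nat_lit 5) (nat_lit 50) (nat_lit 5) (nat_lit 367) (nat_lit 357) (nat_lit 176)) (XT.lf (nat_lit 0) (nat_lit 250963434788) (nat_lit 228) (nat_lit 5017395760) (nat_lit 304) (nat_lit 261174900622) (nat_lit 46) (nat_lit 5) (nat_lit 49) (nat_lit 5) (nat_lit 50) (nat_lit 5) (nat_lit 368) (nat_lit 357) (nat_lit 175)))) (XT.nd (nat_lit 156) (nat_lit 456) (nat_lit 0) (XT.nd (nat_lit 78) (nat_lit 0) (nat_lit 0) (XT.lf (nat_lit 0) (nat_lit 4592406346) (nat_lit 228) (nat_lit 330655682233) (nat_lit 304) (nat_lit 205667214575) (nat_lit 43) (nat_lit 5) (nat_lit 46) (nat_lit 5) (nat_lit 47) (nat_lit 5) (nat_lit 369) (nat_lit 357) (nat_lit 174)) (XT.lf (nat_lit 0) (nat_lit 312041258677) (nat_lit 228) (nat_lit 116220631862)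 (nat_lit 304) (nat_lit 137721337329) (nat_lit 43) (nat_lit 5) (nat_lit 46) (nat_lit 5) (nat_lit 47) (nat_lit 5) (nat_lit 370) (nat_lit 357) (nat_lit 173))) (XT.nd (nat_lit 78) (nat_lit 304) (nat_lit 0) (XT.lf (nat_lit 0) (nat_lit 50795777154) (nat_lit 152) (nat_lit 481917265225) (nat_lit 228) (nat_lit 60023844553) (nat_lit 41) (nat_lit 5) (nat_lit 43) (nat_lit 5) (nat_lit 44) (nat_lit 5) (nat_lit 371) (nat_lit 357) (nat_lit 172)) (XT.nd (nat_lit 78) (nat_lit 228) (nat_lit 0) (XT.lf (nat_lit 0) (nat_lit 32836659339) (nat_lit 228) (nat_lit 230494569757) (nat_lit 76) (nat_lit 357442265621) (nat_lit 40) (nat_lit 5) (nat_lit 43) (nat_lit 5) (nat_lit 41) (nat_lit 5) (nat_lit 372) (nat_lit 357) (nat_lit 171)) (XT.lf (nat_lit 0) (nat_lit 109801307217) (nat_lit 228) (nat_lit 22722549646) (nat_lit 304) (nat_lit 518193193415) (nat_lit 37) (nat_lit 5) (nat_lit 40) (nat_lit 5) (nat_lit 41) (nat_lit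 5) (nat_lit 373) (nat_lit 357) (nat_lit 170)))))) (XT.nd (nat_lit 312) (nat_lit 456) (nat_lit 0) (XT.nd (nat_lit 156) (nat_lit 152) (nat_lit 0) (XT.nd (nat_lit 78) (nat_lit 152) (nat_lit 0) (XT.lf (nat_lit 0) (nat_lit 252354926883) (nat_lit 304) (nat_lit 197989457353) (nat_lit 76) (nat_lit 231738194334) (nat_lit 37) (nat_lit 5) (nat_lit 41) (nat_lit 5) (nat_lit 38) (nat_lit 5) (nat_lit 374) (nat_lit 357) (nat_lit 169)) (XT.lf (nat_lit 0) (nat_lit 180826372700) (nat_lit 152) (nat_lit 205885163005) (nat_lit 228) (nat_lit 328850689187) (nat_lit 35) (nat_lit 5) (nat_lit 37) (nat_lit 5) (nat_lit 38) (nat_lit 5) (nat_lit 375) (nat_lit 357) (nat_lit 168))) (XT.nd (nat_lit 78) (nat_lit 152) (nat_lit 0) (XT.lf (nat_lit 0) (nat_lit 538768689424) (nat_lit 228) (nat_lit 151618552295) (nat_lit 76) (nat_lit 60776839925) (nat_lit 35) (nat_lit 5) (nat_lit 38) (nat_lit 5) (nat_lit 36) (nat_lit 5) (nat_lit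 376) (nat_lit 357) (nat_lit 167)) (XT.lf (nat_lit 0) (nat_lit 270323092560) (nat_lit 152) (nat_lit 444516247051) (nat_lit 228) (nat_lit 73826833410) (nat_lit 33) (nat_lit 5) (nat_lit 35) (nat_lit 5) (nat_lit 36) (nat_lit 5) (nat_lit 377) (nat_lit 357) (nat_lit 166)))) (XT.nd (nat_lit 156) (nat_lit 228) (nat_lit 0) (XT.nd (nat_lit 78) (nat_lit 152) (nat_lit 0) (XT.lf (nat_lit 0) (nat_lit 76287202692) (nat_lit 228) (nat_lit 96125390430) (nat_lit 76) (nat_lit 656269692764) (nat_lit 32) (nat_lit 5) (nat_lit 35) (nat_lit 5) (nat_lit 33) (nat_lit 5) (nat_lit 378) (nat_lit 357) (nat_lit 165)) (XT.lf (nat_lit 0) (nat_lit 246690142274) (nat_lit 228) (nat_lit 497426370749) (nat_lit 76) (nat_lit 126648300591) (nat_lit 30) (nat_lit 5) (nat_lit 33) (nat_lit 5) (nat_lit 31) (nat_lit 5) (nat_lit 379) (nat_lit 357) (nat_lit 164))) (XT.nd (nat_lit 78) (nat_lit 228) (nat_lit 0) (XT.lf (nat_lit 0) (nat_lit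 437900053516) (nat_lit 228) (nat_lit 34724107654) (nat_lit 76) (nat_lit 443015803485) (nat_lit 30) (nat_lit 5) (nat_lit 33) (nat_lit 5) (nat_lit 31) (nat_lit 5) (nat_lit 380) (nat_lit 357) (nat_lit 163)) (XT.nd (nat_lit 78) (nat_lit 76) (nat_lit 0) (XT.lf (nat_lit 0) (nat_lit 489480087868) (nat_lit 152) (nat_lit 166698661805) (nat_lit 228) (nat_lit 306984618756) (nat_lit 28) (nat_lit 5) (nat_lit 30) (nat_lit 5) (nat_lit 31) (nat_lit 5) (nat_lit 381) (nat_lit 357) (nat_lit 162)) (XT.lf (nat_lit 0) (nat_lit 41286332693) (nat_lit 76) (nat_lit 856537419532) (nat_lit 152) (nat_lit 116192571436) (nat_lit 27) (nat_lit 5) (nat_lit 28) (nat_lit 5) (nat_lit 29) (nat_lit 4) (nat_lit 382) (nat_lit 357) (nat_lit 161))))))) (XT.nd (nat_lit 702) (nat_lit 456) (nat_lit 0) (XT.nd (nat_lit 312) (nat_lit 304) (nat_lit 0) (XT.nd (nat_lit 156) (nat_lit 76) (nat_lit 0) (XT.nd (nat_lit 78) (nat_lit 152) (nat_lit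 0) (XT.lf (nat_lit 0) (nat_lit 102985095289) (nat_lit 152) (nat_lit 450336568046) (nat_lit 76) (nat_lit 514033551006) (nat_lit 26) (nat_lit 5) (nat_lit 28) (nat_lit 5) (nat_lit 27) (nat_lit 5) (nat_lit 383) (nat_lit 357) (nat_lit 160)) (XT.lf (nat_lit 0) (nat_lit 116666444201) (nat_lit 152) (nat_lit 219558930886) (nat_lit 228) (nat_lit 788269936761) (nat_lit 24) (nat_lit 5) (nat_lit 26) (nat_lit 5) (nat_lit 27) (nat_lit 5) (nat_lit 384) (nat_lit 357) (nat_lit 159))) (XT.nd (nat_lit 78) (nat_lit 76) (nat_lit 0) (XT.lf (nat_lit 0) (nat_lit 604146445660) (nat_lit 228) (nat_lit 434289446537) (nat_lit 76) (nat_lit 146488999495) (nat_lit 24) (nat_lit 5) (nat_lit 27) (nat_lit 5) (nat_lit 25) (nat_lit 4) (nat_lit 385) (nat_lit 357) (nat_lit 158)) (XT.lf (nat_lit 0) (nat_lit 188878757094) (nat_lit 76) (nat_lit 714867799905) (nat_lit 152) (nat_lit 345622652523) (nat_lit 23) (nat_lit 5) (nat_lit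 24) (nat_lit 5) (nat_lit 25) (nat_lit 4) (nat_lit 386) (nat_lit 357) (nat_lit 157)))) (XT.nd (nat_lit 156) (nat_lit 76) (nat_lit 0) (XT.nd (nat_lit 78) (nat_lit 228) (nat_lit 0) (XT.lf (nat_lit 0) (nat_lit 886598821029) (nat_lit 76) (nat_lit 352590086845) (nat_lit 152) (nat_lit 78830226462) (nat_lit 23) (nat_lit 5) (nat_lit 24) (nat_lit 5) (nat_lit 25) (nat_lit 4) (nat_lit 387) (nat_lit 357) (nat_lit 156)) (XT.lf (nat_lit 0) (nat_lit 206206198695) (nat_lit 228) (nat_lit 1136752339413) (nat_lit 76) (nat_lit 48210137188) (nat_lit 20) (nat_lit 5) (nat_lit 23) (nat_lit 5) (nat_lit 21) (nat_lit 4) (nat_lit 388) (nat_lit 357) (nat_lit 155))) (XT.nd (nat_lit 78) (nat_lit 76) (nat_lit 0) (XT.lf (nat_lit 0) (nat_lit 531047010726) (nat_lit 228) (nat_lit 461083470938) (nat_lit 76) (nat_lit 476175066597) (nat_lit 20) (nat_lit 5) (nat_lit 23) (nat_lit 5) (nat_lit 21) (nat_lit 4) (nat_lit 389) (nat_lit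 357) (nat_lit 154)) (XT.nd (nat_lit 78) (nat_lit 0) (nat_lit 0) (XT.lf (nat_lit 0) (nat_lit 282784935471) (nat_lit 76) (nat_lit 605891125944) (nat_lit 152) (nat_lit 662393231757) (nat_lit 19) (nat_lit 5) (nat_lit 20) (nat_lit 5) (nat_lit 21) (nat_lit 4) (nat_lit 390) (nat_lit 357) (nat_lit 153)) (XT.lf (nat_lit 0) (nat_lit 1112385021130) (nat_lit 76) (nat_lit 175137243783) (nat_lit 152) (nat_lit 351923326468) (nat_lit 19) (nat_lit 5) (nat_lit 20) (nat_lit 5) (nat_lit 21) (nat_lit 4) (nat_lit 391) (nat_lit 357) (nat_lit 152)))))) (XT.nd (nat_lit 312) (nat_lit 228) (nat_lit 0) (XT.nd (nat_lit 156) (nat_lit 76) (nat_lit 0) (XT.nd (nat_lit 78) (nat_lit 76) (nat_lit 0) (XT.lf (nat_lit 0) (nat_lit 280517358981) (nat_lit 76) (nat_lit 1451481602673) (nat_lit 76) (nat_lit 1795208041) (nat_lit 18) (nat_lit 4) (nat_lit 19) (nat_lit 5) (nat_lit 19) (nat_lit 4) (nat_lit 392) (nat_lit 357) (nat_lit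 151)) (XT.lf (nat_lit 0) (nat_lit 376851036052) (nat_lit 152) (nat_lit 665836253627) (nat_lit 76) (nat_lit 790732532814) (nat_lit 17) (nat_lit 5) (nat_lit 19) (nat_lit 5) (nat_lit 18) (nat_lit 4) (nat_lit 393) (nat_lit 357) (nat_lit 150))) (XT.nd (nat_lit 78) (nat_lit 0) (nat_lit 0) (XT.lf (nat_lit 0) (nat_lit 194271131299) (nat_lit 76) (nat_lit 596093076808) (nat_lit 152) (nat_lit 1150273811806) (nat_lit 16) (nat_lit 5) (nat_lit 17) (nat_lit 5) (nat_lit 18) (nat_lit 4) (nat_lit 394) (nat_lit 357) (nat_lit 149)) (XT.lf (nat_lit 0) (nat_lit 1161053788432) (nat_lit 76) (nat_lit 94109779830) (nat_lit 152) (nat_lit 799813694121) (nat_lit 16) (nat_lit 5) (nat_lit 17) (nat_lit 5) (nat_lit 18) (nat_lit 4) (nat_lit 395) (nat_lit 357) (nat_lit 148)))) (XT.nd (nat_lit 156) (nat_lit 76) (nat_lit 0) (XT.nd (nat_lit 78) (nat_lit 76) (nat_lit 0) (XT.lf (nat_lit 0) (nat_lit 16779596963) (nat_lit 76)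 (nat_lit 1751546006387) (nat_lit 76) (nat_lit 409243742816) (nat_lit 15) (nat_lit 4) (nat_lit 16) (nat_lit 5) (nat_lit 16) (nat_lit 4) (nat_lit 396) (nat_lit 357) (nat_lit 147)) (XT.lf (nat_lit 0) (nat_lit 39463608452) (nat_lit 152) (nat_lit 1260217967507) (nat_lit 76) (nat_lit 1008061376801) (nat_lit 14) (nat_lit 5) (nat_lit 16) (nat_lit 5) (nat_lit 15) (nat_lit 4) (nat_lit 397) (nat_lit 357) (nat_lit 146))) (XT.nd (nat_lit 78) (nat_lit 76) (nat_lit 0) (XT.lf (nat_lit 0) (nat_lit 501957748336) (nat_lit 152) (nat_lit 298230165360) (nat_lit 76) (nat_lit 1647292158194) (nat_lit 14) (nat_lit 5) (nat_lit 16) (nat_lit 5) (nat_lit 15) (nat_lit 4) (nat_lit 398) (nat_lit 357) (nat_lit 145)) (XT.nd (nat_lit 78) (nat_lit 0) (nat_lit 0) (XT.lf (nat_lit 0) (nat_lit 779721473550) (nat_lit 76) (nat_lit 240482258954) (nat_lit 152) (nat_lit 1576692243001) (nat_lit 13) (nat_lit 5) (nat_lit 14) (nat_lit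 5) (nat_lit 15) (nat_lit 4) (nat_lit 399) (nat_lit 357) (nat_lit 144)) (XT.lf (nat_lit 0) (nat_lit 1597029530581) (nat_lit 152) (nat_lit 805708977229) (nat_lit 0) (nat_lit 354157032788) (nat_lit 13) (nat_lit 5) (nat_lit 15) (nat_lit 4) (nat_lit 13) (nat_lit 4) (nat_lit 400) (nat_lit 357) (nat_lit 143))))))))
noncomputable def xc231 : XT := (XT.nd (nat_lit 44382) (nat_lit 0) (nat_lit 1140) (XT.nd (nat_lit 43680) (nat_lit 0) (nat_lit 3040) (XT.nd (nat_lit 312) (nat_lit 76) (nat_lit 0) (XT.nd (nat_lit 156) (nat_lit 152) (nat_lit 0) (XT.nd (nat_lit 78) (nat_lit 0) (nat_lit 0) (XT.lf (nat_lit 0) (nat_lit 295194298939) (nat_lit 76) (nat_lit 1938152809479) (nat_lit 76) (nat_lit 695280305209) (nat_lit 12) (nat_lit 4) (nat_lit 13) (nat_lit 5) (nat_lit 13) (nat_lit 4) (nat_lit 401) (nat_lit 357) (nat_lit 142)) (XT.lf (nat_lit 0) (nat_lit 1529991208499) (nat_lit 76) (nat_lit 1412608388937) (nat_lit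 76) (nat_lit 169735878669) (nat_lit 12) (nat_lit 4) (nat_lit 13) (nat_lit 5) (nat_lit 13) (nat_lit 4) (nat_lit 402) (nat_lit 357) (nat_lit 141))) (XT.nd (nat_lit 78) (nat_lit 76) (nat_lit 0) (XT.lf (nat_lit 0) (nat_lit 377949922532) (nat_lit 152) (nat_lit 456736676952) (nat_lit 76) (nat_lit 2475288116367) (nat_lit 11) (nat_lit 5) (nat_lit 13) (nat_lit 5) (nat_lit 12) (nat_lit 4) (nat_lit 403) (nat_lit 357) (nat_lit 140)) (XT.lf (nat_lit 0) (nat_lit 794241987003) (nat_lit 76) (nat_lit 185139987980) (nat_lit 152) (nat_lit 2542162299201) (nat_lit 10) (nat_lit 5) (nat_lit 11) (nat_lit 5) (nat_lit 12) (nat_lit 4) (nat_lit 404) (nat_lit 357) (nat_lit 139)))) (XT.nd (nat_lit 156) (nat_lit 76) (nat_lit 0) (XT.nd (nat_lit 78) (nat_lit 0) (nat_lit 0) (XT.lf (nat_lit 0) (nat_lit 1654159659037) (nat_lit 152) (nat_lit 1590509487908) (nat_lit 0) (nat_lit 503351764848) (nat_lit 10) (nat_lit 5) (nat_lit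 12) (nat_lit 4) (nat_lit 10) (nat_lit 4) (nat_lit 405) (nat_lit 357) (nat_lit 138)) (XT.lf (nat_lit 0) (nat_lit 2387728383557) (nat_lit 152) (nat_lit 367582105510) (nat_lit 0) (nat_lit 1236920485285) (nat_lit 10) (nat_lit 5) (nat_lit 12) (nat_lit 4) (nat_lit 10) (nat_lit 4) (nat_lit 406) (nat_lit 357) (nat_lit 137))) (XT.nd (nat_lit 43056) (nat_lit 0) (nat_lit 3724) (XT.lf (nat_lit 0) (nat_lit 1003372199347) (nat_lit 76) (nat_lit 2200741527479) (nat_lit 76) (nat_lit 1049933625428) (nat_lit 9) (nat_lit 4) (nat_lit 10) (nat_lit 5) (nat_lit 10) (nat_lit 4) (nat_lit 407) (nat_lit 357) (nat_lit 136)) (XT.nd (nat_lit 78) (nat_lit 0) (nat_lit 0) (XT.lf (nat_lit 0) (nat_lit 143531689521) (nat_lit 532) (nat_lit 16605205327) (nat_lit 532) (nat_lit 16605205327) (nat_lit 58) (nat_lit 3) (nat_lit 65) (nat_lit 3) (nat_lit 65) (nat_lit 5) (nat_lit 358) (nat_lit 358) (nat_lit 184)) (XT.lf (nat_lit 76)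 (nat_lit 142931875083) (nat_lit 0) (nat_lit 159052041063) (nat_lit 532) (nat_lit 65364611336) (nat_lit 59) (nat_lit 5) (nat_lit 58) (nat_lit 3) (nat_lit 65) (nat_lit 5) (nat_lit 359) (nat_lit 358) (nat_lit 183)))))) (XT.nd (nat_lit 312) (nat_lit 760) (nat_lit 0) (XT.nd (nat_lit 156) (nat_lit 0) (nat_lit 0) (XT.nd (nat_lit 78) (nat_lit 0) (nat_lit 0) (XT.lf (nat_lit 0) (nat_lit 319392036546) (nat_lit 456) (nat_lit 47581099082) (nat_lit 532) (nat_lit 15245350000) (nat_lit 59) (nat_lit 5) (nat_lit 65) (nat_lit 5) (nat_lit 66) (nat_lit 5) (nat_lit 360) (nat_lit 358) (nat_lit 182)) (XT.lf (nat_lit 76) (nat_lit 146603760626) (nat_lit 0) (nat_lit 199246046524) (nat_lit 532) (nat_lit 51815673297) (nat_lit 60) (nat_lit 5) (nat_lit 59) (nat_lit 5) (nat_lit 66) (nat_lit 5) (nat_lit 361) (nat_lit 358) (nat_lit 181))) (XT.nd (nat_lit 78) (nat_lit 0) (nat_lit 76) (XT.lf (nat_lit 76) (nat_lit 359029359250)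 (nat_lit 0) (nat_lit 16695749132) (nat_lit 532) (nat_lit 38519053813) (nat_lit 60) (nat_lit 5) (nat_lit 59) (nat_lit 5) (nat_lit 66) (nat_lit 5) (nat_lit 362) (nat_lit 358) (nat_lit 180)) (XT.lf (nat_lit 76) (nat_lit 159961737771) (nat_lit 0) (nat_lit 256215773445) (nat_lit 532) (nat_lit 15316661126) (nat_lit 61) (nat_lit 5) (nat_lit 60) (nat_lit 5) (nat_lit 67) (nat_lit 5) (nat_lit 363) (nat_lit 358) (nat_lit 179)))) (XT.nd (nat_lit 156) (nat_lit 304) (nat_lit 0) (XT.nd (nat_lit 78) (nat_lit 0) (nat_lit 76) (XT.lf (nat_lit 0) (nat_lit 11237093176) (nat_lit 532) (nat_lit 55218086426) (nat_lit 608) (nat_lit 383491660219) (nat_lit 53) (nat_lit 5) (nat_lit 60) (nat_lit 5) (nat_lit 61) (nat_lit 5) (nat_lit 364) (nat_lit 358) (nat_lit 178)) (XT.lf (nat_lit 0) (nat_lit 47052015283) (nat_lit 532) (nat_lit 285564468479) (nat_lit 76) (nat_lit 136590260954) (nat_lit 54) (nat_lit 5) (nat_lit 61)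 (nat_lit 5) (nat_lit 55) (nat_lit 5) (nat_lit 365) (nat_lit 358) (nat_lit 177))) (XT.nd (nat_lit 78) (nat_lit 380) (nat_lit 0) (XT.lf (nat_lit 0) (nat_lit 89007181486) (nat_lit 532) (nat_lit 46900246347) (nat_lit 76) (nat_lit 353838010186) (nat_lit 54) (nat_lit 5) (nat_lit 61) (nat_lit 5) (nat_lit 55) (nat_lit 5) (nat_lit 366) (nat_lit 358) (nat_lit 176)) (XT.nd (nat_lit 78) (nat_lit 0) (nat_lit 0) (XT.lf (nat_lit 0) (nat_lit 141636286957) (nat_lit 456) (nat_lit 291519134756) (nat_lit 76) (nat_lit 78186403033) (nat_lit 49) (nat_lit 5) (nat_lit 55) (nat_lit 5) (nat_lit 50) (nat_lit 5) (nat_lit 367) (nat_lit 358) (nat_lit 175)) (XT.lf (nat_lit 0) (nat_lit 203321398135) (nat_lit 456) (nat_lit 27576017011) (nat_lit 76) (nat_lit 303380853123) (nat_lit 49) (nat_lit 5) (nat_lit 55) (nat_lit 5) (nat_lit 50) (nat_lit 5) (nat_lit 368) (nat_lit 358) (nat_lit 174))))))) (XT.nd (nat_lit 702) (nat_lit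 836) (nat_lit 0) (XT.nd (nat_lit 312) (nat_lit 456) (nat_lit 0) (XT.nd (nat_lit 156) (nat_lit 152) (nat_lit 0) (XT.nd (nat_lit 78) (nat_lit 228) (nat_lit 0) (XT.lf (nat_lit 0) (nat_lit 271041094941) (nat_lit 228) (nat_lit 5418741203) (nat_lit 304) (nat_lit 282068309727) (nat_lit 46) (nat_lit 5) (nat_lit 49) (nat_lit 5) (nat_lit 50) (nat_lit 5) (nat_lit 369) (nat_lit 358) (nat_lit 173)) (XT.lf (nat_lit 0) (nat_lit 4960411005) (nat_lit 228) (nat_lit 357108039627) (nat_lit 304) (nat_lit 222120034966) (nat_lit 43) (nat_lit 5) (nat_lit 46) (nat_lit 5) (nat_lit 47) (nat_lit 5) (nat_lit 370) (nat_lit 358) (nat_lit 172))) (XT.nd (nat_lit 78) (nat_lit 152) (nat_lit 0) (XT.lf (nat_lit 0) (nat_lit 337005126178) (nat_lit 228) (nat_lit 125518192426) (nat_lit 304) (nat_lit 148738528783) (nat_lit 43) (nat_lit 5) (nat_lit 46) (nat_lit 5) (nat_lit 47) (nat_lit 5) (nat_lit 371) (nat_lit 358) (nat_lit 171))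 (XT.lf (nat_lit 0) (nat_lit 54860027406) (nat_lit 152) (nat_lit 520470516012) (nat_lit 228) (nat_lit 64825257333) (nat_lit 41) (nat_lit 5) (nat_lit 43) (nat_lit 5) (nat_lit 44) (nat_lit 5) (nat_lit 372) (nat_lit 358) (nat_lit 170)))) (XT.nd (nat_lit 156) (nat_lit 152) (nat_lit 0) (XT.nd (nat_lit 78) (nat_lit 228) (nat_lit 0) (XT.lf (nat_lit 0) (nat_lit 35464027301) (nat_lit 228) (nat_lit 248933567453) (nat_lit 76) (nat_lit 386037744273) (nat_lit 40) (nat_lit 5) (nat_lit 43) (nat_lit 5) (nat_lit 41) (nat_lit 5) (nat_lit 373) (nat_lit 358) (nat_lit 169)) (XT.lf (nat_lit 0) (nat_lit 118585965302) (nat_lit 228) (nat_lit 24540216399) (nat_lit 304) (nat_lit 559648198879) (nat_lit 37) (nat_lit 5) (nat_lit 40) (nat_lit 5) (nat_lit 41) (nat_lit 5) (nat_lit 374) (nat_lit 358) (nat_lit 168))) (XT.nd (nat_lit 78) (nat_lit 152) (nat_lit 0) (XT.lf (nat_lit 0) (nat_lit 272543709543) (nat_lit 304) (nat_lit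 213828073268) (nat_lit 76) (nat_lit 250277370580) (nat_lit 37) (nat_lit 5) (nat_lit 41) (nat_lit 5) (nat_lit 38) (nat_lit 5) (nat_lit 375) (nat_lit 358) (nat_lit 167)) (XT.nd (nat_lit 78) (nat_lit 0) (nat_lit 0) (XT.lf (nat_lit 0) (nat_lit 195293009501) (nat_lit 152) (nat_lit 222355821464) (nat_lit 228) (nat_lit 355158341769) (nat_lit 35) (nat_lit 5) (nat_lit 37) (nat_lit 5) (nat_lit 38) (nat_lit 5) (nat_lit 376) (nat_lit 358) (nat_lit 166)) (XT.lf (nat_lit 0) (nat_lit 581870532840) (nat_lit 228) (nat_lit 163747524056) (nat_lit 76) (nat_lit 65639123089) (nat_lit 35) (nat_lit 5) (nat_lit 38) (nat_lit 5) (nat_lit 36) (nat_lit 5) (nat_lit 377) (nat_lit 358) (nat_lit 165)))))) (XT.nd (nat_lit 312) (nat_lit 456) (nat_lit 0) (XT.nd (nat_lit 156) (nat_lit 152) (nat_lit 0) (XT.nd (nat_lit 78) (nat_lit 76) (nat_lit 0) (XT.lf (nat_lit 0) (nat_lit 291949439415) (nat_lit 152) (nat_lit 480077381841)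 (nat_lit 228) (nat_lit 79732618543) (nat_lit 33) (nat_lit 5) (nat_lit 35) (nat_lit 5) (nat_lit 36) (nat_lit 5) (nat_lit 378) (nat_lit 358) (nat_lit 164)) (XT.lf (nat_lit 0) (nat_lit 82390496921) (nat_lit 228) (nat_lit 103814942202) (nat_lit 76) (nat_lit 708771403931) (nat_lit 32) (nat_lit 5) (nat_lit 35) (nat_lit 5) (nat_lit 33) (nat_lit 5) (nat_lit 379) (nat_lit 358) (nat_lit 163))) (XT.nd (nat_lit 78) (nat_lit 0) (nat_lit 0) (XT.lf (nat_lit 0) (nat_lit 266425663239) (nat_lit 228) (nat_lit 537219992274) (nat_lit 76) (nat_lit 136780318181) (nat_lit 30) (nat_lit 5) (nat_lit 33) (nat_lit 5) (nat_lit 31) (nat_lit 5) (nat_lit 380) (nat_lit 358) (nat_lit 162)) (XT.lf (nat_lit 0) (nat_lit 472932344448) (nat_lit 228) (nat_lit 37501584290) (nat_lit 76) (nat_lit 478457209932) (nat_lit 30) (nat_lit 5) (nat_lit 33) (nat_lit 5) (nat_lit 31) (nat_lit 5) (nat_lit 381) (nat_lit 358) (nat_lit 161))))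 (XT.nd (nat_lit 156) (nat_lit 228) (nat_lit 0) (XT.nd (nat_lit 78) (nat_lit 76) (nat_lit 0) (XT.lf (nat_lit 0) (nat_lit 528638935432) (nat_lit 152) (nat_lit 180034390228) (nat_lit 228) (nat_lit 331543089955) (nat_lit 28) (nat_lit 5) (nat_lit 30) (nat_lit 5) (nat_lit 31) (nat_lit 5) (nat_lit 382) (nat_lit 358) (nat_lit 160)) (XT.lf (nat_lit 0) (nat_lit 44589686558) (nat_lit 76) (nat_lit 925060235832) (nat_lit 152) (nat_lit 125487685372) (nat_lit 27) (nat_lit 5) (nat_lit 28) (nat_lit 5) (nat_lit 29) (nat_lit 4) (nat_lit 383) (nat_lit 358) (nat_lit 159))) (XT.nd (nat_lit 78) (nat_lit 152) (nat_lit 0) (XT.lf (nat_lit 0) (nat_lit 111224159562) (nat_lit 152) (nat_lit 486363065690) (nat_lit 76) (nat_lit 555156385539) (nat_lit 26) (nat_lit 5) (nat_lit 28) (nat_lit 5) (nat_lit 27) (nat_lit 5) (nat_lit 384) (nat_lit 358) (nat_lit 158)) (XT.nd (nat_lit 78) (nat_lit 0) (nat_lit 0) (XT.lf (nat_lit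 0) (nat_lit 126000176706) (nat_lit 152) (nat_lit 237123476055) (nat_lit 228) (nat_lit 851331264068) (nat_lit 24) (nat_lit 5) (nat_lit 26) (nat_lit 5) (nat_lit 27) (nat_lit 5) (nat_lit 385) (nat_lit 358) (nat_lit 157)) (XT.lf (nat_lit 0) (nat_lit 652478394405) (nat_lit 228) (nat_lit 469032201460) (nat_lit 76) (nat_lit 158208268374) (nat_lit 24) (nat_lit 5) (nat_lit 27) (nat_lit 5) (nat_lit 25) (nat_lit 4) (nat_lit 386) (nat_lit 358) (nat_lit 156))))))))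
noncomputable def xc232 : XT := (XT.nd (nat_lit 1404) (nat_lit 76) (nat_lit 0) (XT.nd (nat_lit 702) (nat_lit 380) (nat_lit 0) (XT.nd (nat_lit 312) (nat_lit 304) (nat_lit 0) (XT.nd (nat_lit 156) (nat_lit 228) (nat_lit 0) (XT.nd (nat_lit 78) (nat_lit 0) (nat_lit 0) (XT.lf (nat_lit 0) (nat_lit 203989448315) (nat_lit 76) (nat_lit 772057058465) (nat_lit 152) (nat_lit 373272221355) (nat_lit 23) (nat_lit 5) (nat_lit 24) (nat_lit 5) (nat_lit 25) (nat_lit 4) (nat_lit 387) (nat_lit 358) (nat_lit 155)) (XT.lf (nat_lit 0) (nat_lit 957527088427) (nat_lit 76) (nat_lit 380797140615) (nat_lit 152) (nat_lit 85136419237) (nat_lit 23) (nat_lit 5) (nat_lit 24) (nat_lit 5) (nat_lit 25) (nat_lit 4) (nat_lit 388) (nat_lit 358) (nat_lit 154))) (XT.nd (nat_lit 78) (nat_lit 0) (nat_lit 0) (XT.lf (nat_lit 0) (nat_lit 222702905318) (nat_lit 228) (nat_lit 1227692150019) (nat_lit 76) (nat_lit 52067097021) (nat_lit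 20) (nat_lit 5) (nat_lit 23) (nat_lit 5) (nat_lit 21) (nat_lit 4) (nat_lit 389) (nat_lit 358) (nat_lit 153)) (XT.lf (nat_lit 0) (nat_lit 573530966702) (nat_lit 228) (nat_lit 497969799958) (nat_lit 76) (nat_lit 514269209756) (nat_lit 20) (nat_lit 5) (nat_lit 23) (nat_lit 5) (nat_lit 21) (nat_lit 4) (nat_lit 390) (nat_lit 358) (nat_lit 152)))) (XT.nd (nat_lit 156) (nat_lit 228) (nat_lit 0) (XT.nd (nat_lit 78) (nat_lit 0) (nat_lit 0) (XT.lf (nat_lit 0) (nat_lit 305408070137) (nat_lit 76) (nat_lit 654362265029) (nat_lit 152) (nat_lit 715384486263) (nat_lit 19) (nat_lit 5) (nat_lit 20) (nat_lit 5) (nat_lit 21) (nat_lit 4) (nat_lit 391) (nat_lit 358) (nat_lit 151)) (XT.lf (nat_lit 0) (nat_lit 1201376137476) (nat_lit 76) (nat_lit 189148083480) (nat_lit 152) (nat_lit 380077003665) (nat_lit 19) (nat_lit 5) (nat_lit 20) (nat_lit 5) (nat_lit 21) (nat_lit 4) (nat_lit 392) (nat_lit 358) (nat_lit 150)))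 (XT.nd (nat_lit 78) (nat_lit 152) (nat_lit 0) (XT.lf (nat_lit 0) (nat_lit 302959064827) (nat_lit 76) (nat_lit 1567599986398) (nat_lit 76) (nat_lit 1938638158) (nat_lit 18) (nat_lit 4) (nat_lit 19) (nat_lit 5) (nat_lit 19) (nat_lit 4) (nat_lit 393) (nat_lit 358) (nat_lit 149)) (XT.nd (nat_lit 78) (nat_lit 76) (nat_lit 0) (XT.lf (nat_lit 0) (nat_lit 406999283005) (nat_lit 152) (nat_lit 719102851576) (nat_lit 76) (nat_lit 853991260521) (nat_lit 17) (nat_lit 5) (nat_lit 19) (nat_lit 5) (nat_lit 18) (nat_lit 4) (nat_lit 394) (nat_lit 358) (nat_lit 148)) (XT.lf (nat_lit 0) (nat_lit 209813116490) (nat_lit 76) (nat_lit 643780387269) (nat_lit 152) (nat_lit 1242295544967) (nat_lit 16) (nat_lit 5) (nat_lit 17) (nat_lit 5) (nat_lit 18) (nat_lit 4) (nat_lit 395) (nat_lit 358) (nat_lit 147)))))) (XT.nd (nat_lit 312) (nat_lit 228) (nat_lit 0) (XT.nd (nat_lit 156) (nat_lit 76) (nat_lit 0) (XT.nd (nat_lit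 78) (nat_lit 76) (nat_lit 0) (XT.lf (nat_lit 0) (nat_lit 1253938364366) (nat_lit 76) (nat_lit 101638436583) (nat_lit 152) (nat_lit 863798630592) (nat_lit 16) (nat_lit 5) (nat_lit 17) (nat_lit 5) (nat_lit 18) (nat_lit 4) (nat_lit 396) (nat_lit 358) (nat_lit 146)) (XT.lf (nat_lit 0) (nat_lit 18122239260) (nat_lit 76) (nat_lit 1891669558077) (nat_lit 76) (nat_lit 441983084812) (nat_lit 15) (nat_lit 4) (nat_lit 16) (nat_lit 5) (nat_lit 16) (nat_lit 4) (nat_lit 397) (nat_lit 358) (nat_lit 145))) (XT.nd (nat_lit 78) (nat_lit 0) (nat_lit 0) (XT.lf (nat_lit 0) (nat_lit 42620835604) (nat_lit 152) (nat_lit 1361035143367) (nat_lit 76) (nat_lit 1088706398887) (nat_lit 14) (nat_lit 5) (nat_lit 16) (nat_lit 5) (nat_lit 15) (nat_lit 4) (nat_lit 398) (nat_lit 358) (nat_lit 144)) (XT.lf (nat_lit 0) (nat_lit 542114496422) (nat_lit 152) (nat_lit 322088336422) (nat_lit 76) (nat_lit 1779075634499) (nat_lit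 14) (nat_lit 5) (nat_lit 16) (nat_lit 5) (nat_lit 15) (nat_lit 4) (nat_lit 399) (nat_lit 358) (nat_lit 143)))) (XT.nd (nat_lit 156) (nat_lit 152) (nat_lit 0) (XT.nd (nat_lit 78) (nat_lit 0) (nat_lit 0) (XT.lf (nat_lit 0) (nat_lit 842099427471) (nat_lit 76) (nat_lit 259720728032) (nat_lit 152) (nat_lit 1702827488054) (nat_lit 13) (nat_lit 5) (nat_lit 14) (nat_lit 5) (nat_lit 15) (nat_lit 4) (nat_lit 400) (nat_lit 358) (nat_lit 142)) (XT.lf (nat_lit 0) (nat_lit 1724792010697) (nat_lit 152) (nat_lit 870165470091) (nat_lit 0) (nat_lit 382489693610) (nat_lit 13) (nat_lit 5) (nat_lit 15) (nat_lit 4) (nat_lit 13) (nat_lit 4) (nat_lit 401) (nat_lit 358) (nat_lit 141))) (XT.nd (nat_lit 78) (nat_lit 76) (nat_lit 0) (XT.lf (nat_lit 0) (nat_lit 318810062466) (nat_lit 76) (nat_lit 2093204928860) (nat_lit 76) (nat_lit 750902606220) (nat_lit 12) (nat_lit 4) (nat_lit 13) (nat_lit 5) (nat_lit 13) (nat_lit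 4) (nat_lit 402) (nat_lit 358) (nat_lit 140)) (XT.nd (nat_lit 78) (nat_lit 76) (nat_lit 0) (XT.lf (nat_lit 0) (nat_lit 1652390708523) (nat_lit 76) (nat_lit 1525616962480) (nat_lit 76) (nat_lit 183314634697) (nat_lit 12) (nat_lit 4) (nat_lit 13) (nat_lit 5) (nat_lit 13) (nat_lit 4) (nat_lit 403) (nat_lit 358) (nat_lit 139)) (XT.lf (nat_lit 0) (nat_lit 408186016843) (nat_lit 152) (nat_lit 493275417508) (nat_lit 76) (nat_lit 2673311250702) (nat_lit 11) (nat_lit 5) (nat_lit 13) (nat_lit 5) (nat_lit 12) (nat_lit 4) (nat_lit 404) (nat_lit 358) (nat_lit 138))))))) (XT.nd (nat_lit 43758) (nat_lit 0) (nat_lit 2356) (XT.nd (nat_lit 43368) (nat_lit 0) (nat_lit 3648) (XT.nd (nat_lit 156) (nat_lit 0) (nat_lit 0) (XT.nd (nat_lit 78) (nat_lit 0) (nat_lit 0) (XT.lf (nat_lit 0) (nat_lit 857781534663) (nat_lit 76) (nat_lit 199951095920) (nat_lit 152) (nat_lit 2745535177704) (nat_lit 10) (nat_lit 5) (nat_lit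 11) (nat_lit 5) (nat_lit 12) (nat_lit 4) (nat_lit 405) (nat_lit 358) (nat_lit 137)) (XT.lf (nat_lit 0) (nat_lit 1786492524161) (nat_lit 152) (nat_lit 1717750066996) (nat_lit 0) (nat_lit 543619986166) (nat_lit 10) (nat_lit 5) (nat_lit 12) (nat_lit 4) (nat_lit 10) (nat_lit 4) (nat_lit 406) (nat_lit 358) (nat_lit 136))) (XT.nd (nat_lit 43134) (nat_lit 0) (nat_lit 3648) (XT.lf (nat_lit 0) (nat_lit 2578746739797) (nat_lit 152) (nat_lit 396988507336) (nat_lit 0) (nat_lit 1335874198303) (nat_lit 10) (nat_lit 5) (nat_lit 12) (nat_lit 4) (nat_lit 10) (nat_lit 4) (nat_lit 407) (nat_lit 358) (nat_lit 135)) (XT.lf (nat_lit 0) (nat_lit 155014699881) (nat_lit 532) (nat_lit 17933364790) (nat_lit 532) (nat_lit 17933364790) (nat_lit 58) (nat_lit 3) (nat_lit 65) (nat_lit 3) (nat_lit 65) (nat_lit 5) (nat_lit 359) (nat_lit 359) (nat_lit 182)))) (XT.nd (nat_lit 156) (nat_lit 0) (nat_lit 76) (XT.nd (nat_lit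 78) (nat_lit 0) (nat_lit 76) (XT.lf (nat_lit 76) (nat_lit 154366926005) (nat_lit 0) (nat_lit 171776595476) (nat_lit 532) (nat_lit 70592815517) (nat_lit 59) (nat_lit 5) (nat_lit 58) (nat_lit 3) (nat_lit 65) (nat_lit 5) (nat_lit 360) (nat_lit 359) (nat_lit 181)) (XT.lf (nat_lit 0) (nat_lit 344944216725) (nat_lit 456) (nat_lit 51387047189) (nat_lit 532) (nat_lit 16464633961) (nat_lit 59) (nat_lit 5) (nat_lit 65) (nat_lit 5) (nat_lit 66) (nat_lit 5) (nat_lit 361) (nat_lit 359) (nat_lit 180))) (XT.nd (nat_lit 78) (nat_lit 0) (nat_lit 0) (XT.lf (nat_lit 76) (nat_lit 158332587629) (nat_lit 0) (nat_lit 215185973465) (nat_lit 532) (nat_lit 55960095107) (nat_lit 60) (nat_lit 5) (nat_lit 59) (nat_lit 5) (nat_lit 66) (nat_lit 5) (nat_lit 362) (nat_lit 359) (nat_lit 179)) (XT.nd (nat_lit 78) (nat_lit 0) (nat_lit 76) (XT.lf (nat_lit 76) (nat_lit 387752195169) (nat_lit 0) (nat_lit 18031634266) (nat_lit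 532) (nat_lit 41599807699) (nat_lit 60) (nat_lit 5) (nat_lit 59) (nat_lit 5) (nat_lit 66) (nat_lit 5) (nat_lit 363) (nat_lit 359) (nat_lit 178)) (XT.lf (nat_lit 76) (nat_lit 172759213486) (nat_lit 0) (nat_lit 276713166133) (nat_lit 532) (nat_lit 16541272141) (nat_lit 61) (nat_lit 5) (nat_lit 60) (nat_lit 5) (nat_lit 67) (nat_lit 5) (nat_lit 364) (nat_lit 359) (nat_lit 177)))))) (XT.nd (nat_lit 312) (nat_lit 608) (nat_lit 0) (XT.nd (nat_lit 156) (nat_lit 304) (nat_lit 0) (XT.nd (nat_lit 78) (nat_lit 0) (nat_lit 76) (XT.lf (nat_lit 0) (nat_lit 12136695597) (nat_lit 532) (nat_lit 59635002135) (nat_lit 608) (nat_lit 414170837646) (nat_lit 53) (nat_lit 5) (nat_lit 60) (nat_lit 5) (nat_lit 61) (nat_lit 5) (nat_lit 365) (nat_lit 359) (nat_lit 176)) (XT.lf (nat_lit 0) (nat_lit 50816774903) (nat_lit 532) (nat_lit 308409057412) (nat_lit 76) (nat_lit 147517403336) (nat_lit 54) (nat_lit 5) (nat_lit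 61) (nat_lit 5) (nat_lit 55) (nat_lit 5) (nat_lit 366) (nat_lit 359) (nat_lit 175))) (XT.nd (nat_lit 78) (nat_lit 380) (nat_lit 0) (XT.lf (nat_lit 0) (nat_lit 96128310076) (nat_lit 532) (nat_lit 50651739624) (nat_lit 76) (nat_lit 382144978321) (nat_lit 54) (nat_lit 5) (nat_lit 61) (nat_lit 5) (nat_lit 55) (nat_lit 5) (nat_lit 367) (nat_lit 359) (nat_lit 174)) (XT.lf (nat_lit 0) (nat_lit 152967714989) (nat_lit 456) (nat_lit 314840109449) (nat_lit 76) (nat_lit 84441303623) (nat_lit 49) (nat_lit 5) (nat_lit 55) (nat_lit 5) (nat_lit 50) (nat_lit 5) (nat_lit 368) (nat_lit 359) (nat_lit 173)))) (XT.nd (nat_lit 156) (nat_lit 380) (nat_lit 0) (XT.nd (nat_lit 78) (nat_lit 228) (nat_lit 0) (XT.lf (nat_lit 0) (nat_lit 219587596166) (nat_lit 456) (nat_lit 29781583476) (nat_lit 76) (nat_lit 327651310583) (nat_lit 49) (nat_lit 5) (nat_lit 55) (nat_lit 5) (nat_lit 50) (nat_lit 5) (nat_lit 369) (nat_lit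 359) (nat_lit 172)) (XT.lf (nat_lit 0) (nat_lit 292724884398) (nat_lit 228) (nat_lit 5852200875) (nat_lit 304) (nat_lit 304633274723) (nat_lit 46) (nat_lit 5) (nat_lit 49) (nat_lit 5) (nat_lit 50) (nat_lit 5) (nat_lit 370) (nat_lit 359) (nat_lit 171))) (XT.nd (nat_lit 78) (nat_lit 152) (nat_lit 0) (XT.lf (nat_lit 0) (nat_lit 5357768706) (nat_lit 228) (nat_lit 385676599477) (nat_lit 304) (nat_lit 239889160418) (nat_lit 43) (nat_lit 5) (nat_lit 46) (nat_lit 5) (nat_lit 47) (nat_lit 5) (nat_lit 371) (nat_lit 359) (nat_lit 170)) (XT.nd (nat_lit 78) (nat_lit 152) (nat_lit 0) (XT.lf (nat_lit 0) (nat_lit 363966022217) (nat_lit 228) (nat_lit 135559570672) (nat_lit 304) (nat_lit 160637169099) (nat_lit 43) (nat_lit 5) (nat_lit 46) (nat_lit 5) (nat_lit 47) (nat_lit 5) (nat_lit 372) (nat_lit 359) (nat_lit 169)) (XT.lf (nat_lit 0) (nat_lit 59249333781) (nat_lit 152) (nat_lit 562108045470) (nat_lit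 228) (nat_lit 70010853723) (nat_lit 41) (nat_lit 5) (nat_lit 43) (nat_lit 5) (nat_lit 44) (nat_lit 5) (nat_lit 373) (nat_lit 359) (nat_lit 168))))))))
noncomputable def xc233 : XT := (XT.nd (nat_lit 1404) (nat_lit 760) (nat_lit 0) (XT.nd (nat_lit 702) (nat_lit 760) (nat_lit 0) (XT.nd (nat_lit 312) (nat_lit 380) (nat_lit 0) (XT.nd (nat_lit 156) (nat_lit 152) (nat_lit 0) (XT.nd (nat_lit 78) (nat_lit 228) (nat_lit 0) (XT.lf (nat_lit 0) (nat_lit 38301522613) (nat_lit 228) (nat_lit 268847765979) (nat_lit 76) (nat_lit 416920847322) (nat_lit 40) (nat_lit 5) (nat_lit 43) (nat_lit 5) (nat_lit 41) (nat_lit 5) (nat_lit 374) (nat_lit 359) (nat_lit 167)) (XT.lf (nat_lit 0) (nat_lit 128073317070) (nat_lit 228) (nat_lit 26503316068) (nat_lit 304) (nat_lit 604419668980) (nat_lit 37) (nat_lit 5) (nat_lit 40) (nat_lit 5) (nat_lit 41) (nat_lit 5) (nat_lit 375) (nat_lit 359) (nat_lit 166))) (XT.nd (nat_lit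 78) (nat_lit 152) (nat_lit 0) (XT.lf (nat_lit 0) (nat_lit 294347539390) (nat_lit 304) (nat_lit 230933855589) (nat_lit 76) (nat_lit 270299663706) (nat_lit 37) (nat_lit 5) (nat_lit 41) (nat_lit 5) (nat_lit 38) (nat_lit 5) (nat_lit 376) (nat_lit 359) (nat_lit 165)) (XT.lf (nat_lit 0) (nat_lit 210916902066) (nat_lit 152) (nat_lit 240144154653) (nat_lit 228) (nat_lit 383570663986) (nat_lit 35) (nat_lit 5) (nat_lit 37) (nat_lit 5) (nat_lit 38) (nat_lit 5) (nat_lit 377) (nat_lit 359) (nat_lit 164)))) (XT.nd (nat_lit 156) (nat_lit 228) (nat_lit 0) (XT.nd (nat_lit 78) (nat_lit 152) (nat_lit 0) (XT.lf (nat_lit 0) (nat_lit 628420474045) (nat_lit 228) (nat_lit 176846886661) (nat_lit 76) (nat_lit 70890369509) (nat_lit 35) (nat_lit 5) (nat_lit 38) (nat_lit 5) (nat_lit 36) (nat_lit 5) (nat_lit 378) (nat_lit 359) (nat_lit 163)) (XT.lf (nat_lit 0) (nat_lit 315305822766) (nat_lit 152) (nat_lit 518483430949)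 (nat_lit 228) (nat_lit 86110918065) (nat_lit 33) (nat_lit 5) (nat_lit 35) (nat_lit 5) (nat_lit 36) (nat_lit 5) (nat_lit 379) (nat_lit 359) (nat_lit 162))) (XT.nd (nat_lit 78) (nat_lit 152) (nat_lit 0) (XT.lf (nat_lit 0) (nat_lit 88982009319) (nat_lit 228) (nat_lit 112119726517) (nat_lit 76) (nat_lit 765473232626) (nat_lit 32) (nat_lit 5) (nat_lit 35) (nat_lit 5) (nat_lit 33) (nat_lit 5) (nat_lit 380) (nat_lit 359) (nat_lit 161)) (XT.nd (nat_lit 78) (nat_lit 0) (nat_lit 0) (XT.lf (nat_lit 0) (nat_lit 287739981715) (nat_lit 228) (nat_lit 580197173159) (nat_lit 76) (nat_lit 147722875274) (nat_lit 30) (nat_lit 5) (nat_lit 33) (nat_lit 5) (nat_lit 31) (nat_lit 5) (nat_lit 381) (nat_lit 359) (nat_lit 160)) (XT.lf (nat_lit 0) (nat_lit 510767177760) (nat_lit 228) (nat_lit 40501323536) (nat_lit 76) (nat_lit 516733908614) (nat_lit 30) (nat_lit 5) (nat_lit 33) (nat_lit 5) (nat_lit 31) (nat_lit 5)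 (nat_lit 382) (nat_lit 359) (nat_lit 159)))))) (XT.nd (nat_lit 312) (nat_lit 304) (nat_lit 0) (XT.nd (nat_lit 156) (nat_lit 228) (nat_lit 0) (XT.nd (nat_lit 78) (nat_lit 76) (nat_lit 0) (XT.lf (nat_lit 0) (nat_lit 570930427953) (nat_lit 152) (nat_lit 194437000395) (nat_lit 228) (nat_lit 358066281406) (nat_lit 28) (nat_lit 5) (nat_lit 30) (nat_lit 5) (nat_lit 31) (nat_lit 5) (nat_lit 383) (nat_lit 359) (nat_lit 158)) (XT.lf (nat_lit 0) (nat_lit 48157244927) (nat_lit 76) (nat_lit 999064902725) (nat_lit 152) (nat_lit 135526450049) (nat_lit 27) (nat_lit 5) (nat_lit 28) (nat_lit 5) (nat_lit 29) (nat_lit 4) (nat_lit 384) (nat_lit 359) (nat_lit 157))) (XT.nd (nat_lit 78) (nat_lit 152) (nat_lit 0) (XT.lf (nat_lit 0) (nat_lit 120122312364) (nat_lit 152) (nat_lit 525271744175) (nat_lit 76) (nat_lit 599569025370) (nat_lit 26) (nat_lit 5) (nat_lit 28) (nat_lit 5) (nat_lit 27) (nat_lit 5) (nat_lit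 385) (nat_lit 359) (nat_lit 156)) (XT.lf (nat_lit 0) (nat_lit 136080548327) (nat_lit 152) (nat_lit 256093208990) (nat_lit 228) (nat_lit 919437535741) (nat_lit 24) (nat_lit 5) (nat_lit 26) (nat_lit 5) (nat_lit 27) (nat_lit 5) (nat_lit 386) (nat_lit 359) (nat_lit 155)))) (XT.nd (nat_lit 156) (nat_lit 228) (nat_lit 0) (XT.nd (nat_lit 78) (nat_lit 76) (nat_lit 0) (XT.lf (nat_lit 0) (nat_lit 704676865796) (nat_lit 228) (nat_lit 506554433955) (nat_lit 76) (nat_lit 170865057519) (nat_lit 24) (nat_lit 5) (nat_lit 27) (nat_lit 5) (nat_lit 25) (nat_lit 4) (nat_lit 387) (nat_lit 359) (nat_lit 154)) (XT.lf (nat_lit 0) (nat_lit 220308939102) (nat_lit 76) (nat_lit 833821481311) (nat_lit 152) (nat_lit 403133790413) (nat_lit 23) (nat_lit 5) (nat_lit 24) (nat_lit 5) (nat_lit 25) (nat_lit 4) (nat_lit 388) (nat_lit 359) (nat_lit 153))) (XT.nd (nat_lit 78) (nat_lit 228) (nat_lit 0) (XT.lf (nat_lit 0) (nat_lit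 1034129565615) (nat_lit 76) (nat_lit 411260780538) (nat_lit 152) (nat_lit 91947139581) (nat_lit 23) (nat_lit 5) (nat_lit 24) (nat_lit 5) (nat_lit 25) (nat_lit 4) (nat_lit 389) (nat_lit 359) (nat_lit 152)) (XT.nd (nat_lit 78) (nat_lit 0) (nat_lit 0) (XT.lf (nat_lit 0) (nat_lit 240519318409) (nat_lit 228) (nat_lit 1325907199192) (nat_lit 76) (nat_lit 56232592404) (nat_lit 20) (nat_lit 5) (nat_lit 23) (nat_lit 5) (nat_lit 21) (nat_lit 4) (nat_lit 390) (nat_lit 359) (nat_lit 151)) (XT.lf (nat_lit 0) (nat_lit 619413611320) (nat_lit 228) (nat_lit 537807085039) (nat_lit 76) (nat_lit 555410864705) (nat_lit 20) (nat_lit 5) (nat_lit 23) (nat_lit 5) (nat_lit 21) (nat_lit 4) (nat_lit 391) (nat_lit 359) (nat_lit 150))))))) (XT.nd (nat_lit 702) (nat_lit 304) (nat_lit 0) (XT.nd (nat_lit 312) (nat_lit 228) (nat_lit 0) (XT.nd (nat_lit 156) (nat_lit 152) (nat_lit 0) (XT.nd (nat_lit 78) (nat_lit 0) (nat_lit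 0) (XT.lf (nat_lit 0) (nat_lit 329841007097) (nat_lit 76) (nat_lit 706711116781) (nat_lit 152) (nat_lit 772615070238) (nat_lit 19) (nat_lit 5) (nat_lit 20) (nat_lit 5) (nat_lit 21) (nat_lit 4) (nat_lit 392) (nat_lit 359) (nat_lit 149)) (XT.lf (nat_lit 0) (nat_lit 1297486498241) (nat_lit 76) (nat_lit 204279810297) (nat_lit 152) (nat_lit 410483001990) (nat_lit 19) (nat_lit 5) (nat_lit 20) (nat_lit 5) (nat_lit 21) (nat_lit 4) (nat_lit 393) (nat_lit 359) (nat_lit 148))) (XT.nd (nat_lit 78) (nat_lit 76) (nat_lit 0) (XT.lf (nat_lit 0) (nat_lit 327196061898) (nat_lit 76) (nat_lit 1693007861433) (nat_lit 76) (nat_lit 2093569295) (nat_lit 18) (nat_lit 4) (nat_lit 19) (nat_lit 5) (nat_lit 19) (nat_lit 4) (nat_lit 394) (nat_lit 359) (nat_lit 147)) (XT.lf (nat_lit 0) (nat_lit 439559366309) (nat_lit 152) (nat_lit 776630820493) (nat_lit 76) (nat_lit 922310668599) (nat_lit 17) (nat_lit 5) (nat_lit 19)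 (nat_lit 5) (nat_lit 18) (nat_lit 4) (nat_lit 395) (nat_lit 359) (nat_lit 146)))) (XT.nd (nat_lit 156) (nat_lit 152) (nat_lit 0) (XT.nd (nat_lit 78) (nat_lit 0) (nat_lit 0) (XT.lf (nat_lit 0) (nat_lit 226598418456) (nat_lit 76) (nat_lit 695282701923) (nat_lit 152) (nat_lit 1341679041287) (nat_lit 16) (nat_lit 5) (nat_lit 17) (nat_lit 5) (nat_lit 18) (nat_lit 4) (nat_lit 396) (nat_lit 359) (nat_lit 145)) (XT.lf (nat_lit 0) (nat_lit 1354253667447) (nat_lit 76) (nat_lit 109769403799) (nat_lit 152) (nat_lit 932902384671) (nat_lit 16) (nat_lit 5) (nat_lit 17) (nat_lit 5) (nat_lit 18) (nat_lit 4) (nat_lit 397) (nat_lit 359) (nat_lit 144))) (XT.nd (nat_lit 78) (nat_lit 76) (nat_lit 0) (XT.lf (nat_lit 0) (nat_lit 19572253775) (nat_lit 76) (nat_lit 2043003012281) (nat_lit 76) (nat_lit 477341596626) (nat_lit 15) (nat_lit 4) (nat_lit 16) (nat_lit 5) (nat_lit 16) (nat_lit 4) (nat_lit 398) (nat_lit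 359) (nat_lit 143)) (XT.nd (nat_lit 78) (nat_lit 0) (nat_lit 0) (XT.lf (nat_lit 0) (nat_lit 46030621173) (nat_lit 152) (nat_lit 1469917730608) (nat_lit 76) (nat_lit 1175803006770) (nat_lit 14) (nat_lit 5) (nat_lit 16) (nat_lit 5) (nat_lit 15) (nat_lit 4) (nat_lit 399) (nat_lit 359) (nat_lit 142)) (XT.lf (nat_lit 0) (nat_lit 585483766063) (nat_lit 152) (nat_lit 347855195716) (nat_lit 76) (nat_lit 1921401774122) (nat_lit 14) (nat_lit 5) (nat_lit 16) (nat_lit 5) (nat_lit 15) (nat_lit 4) (nat_lit 400) (nat_lit 359) (nat_lit 141)))))) (XT.nd (nat_lit 312) (nat_lit 152) (nat_lit 0) (XT.nd (nat_lit 156) (nat_lit 76) (nat_lit 0) (XT.nd (nat_lit 78) (nat_lit 0) (nat_lit 0) (XT.lf (nat_lit 0) (nat_lit 909467584031) (nat_lit 76) (nat_lit 280498290562) (nat_lit 152) (nat_lit 1839053571882) (nat_lit 13) (nat_lit 5) (nat_lit 14) (nat_lit 5) (nat_lit 15) (nat_lit 4) (nat_lit 401) (nat_lit 359) (nat_lit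 140)) (XT.lf (nat_lit 0) (nat_lit 1862775472435) (nat_lit 152) (nat_lit 939778514526) (nat_lit 0) (nat_lit 413088953288) (nat_lit 13) (nat_lit 5) (nat_lit 15) (nat_lit 4) (nat_lit 13) (nat_lit 4) (nat_lit 402) (nat_lit 359) (nat_lit 139))) (XT.nd (nat_lit 78) (nat_lit 0) (nat_lit 0) (XT.lf (nat_lit 0) (nat_lit 344315055746) (nat_lit 76) (nat_lit 2260661232825) (nat_lit 76) (nat_lit 810974708916) (nat_lit 12) (nat_lit 4) (nat_lit 13) (nat_lit 5) (nat_lit 13) (nat_lit 4) (nat_lit 403) (nat_lit 359) (nat_lit 138)) (XT.lf (nat_lit 0) (nat_lit 1784582139540) (nat_lit 76) (nat_lit 1647666235826) (nat_lit 76) (nat_lit 197979707509) (nat_lit 12) (nat_lit 4) (nat_lit 13) (nat_lit 5) (nat_lit 13) (nat_lit 4) (nat_lit 404) (nat_lit 359) (nat_lit 137)))) (XT.nd (nat_lit 156) (nat_lit 0) (nat_lit 0) (XT.nd (nat_lit 78) (nat_lit 76) (nat_lit 0) (XT.lf (nat_lit 0) (nat_lit 440840984361) (nat_lit 152)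 (nat_lit 532737284927) (nat_lit 76) (nat_lit 2887176223654) (nat_lit 11) (nat_lit 5) (nat_lit 13) (nat_lit 5) (nat_lit 12) (nat_lit 4) (nat_lit 405) (nat_lit 359) (nat_lit 136)) (XT.lf (nat_lit 0) (nat_lit 926404219215) (nat_lit 76) (nat_lit 215947105492) (nat_lit 152) (nat_lit 2965177901528) (nat_lit 10) (nat_lit 5) (nat_lit 11) (nat_lit 5) (nat_lit 12) (nat_lit 4) (nat_lit 406) (nat_lit 359) (nat_lit 135))) (XT.nd (nat_lit 43212) (nat_lit 0) (nat_lit 3648) (XT.lf (nat_lit 0) (nat_lit 1929412005312) (nat_lit 152) (nat_lit 1855169918082) (nat_lit 0) (nat_lit 587109653758) (nat_lit 10) (nat_lit 5) (nat_lit 12) (nat_lit 4) (nat_lit 10) (nat_lit 4) (nat_lit 407) (nat_lit 359) (nat_lit 134)) (XT.nd (nat_lit 78) (nat_lit 0) (nat_lit 0) (XT.lf (nat_lit 0) (nat_lit 167416283277) (nat_lit 532) (nat_lit 19367813669) (nat_lit 532) (nat_lit 19367813669) (nat_lit 58) (nat_lit 3) (nat_lit 65) (nat_lit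 3) (nat_lit 65) (nat_lit 5) (nat_lit 360) (nat_lit 360) (nat_lit 180)) (XT.lf (nat_lit 76) (nat_lit 166716709539) (nat_lit 0) (nat_lit 185519058443) (nat_lit 532) (nat_lit 76239413661) (nat_lit 59) (nat_lit 5) (nat_lit 58) (nat_lit 3) (nat_lit 65) (nat_lit 5) (nat_lit 361) (nat_lit 360) (nat_lit 179))))))))
noncomputable def xc234 : XT := (XT.nd (nat_lit 1404) (nat_lit 1444) (nat_lit 0) (XT.nd (nat_lit 702) (nat_lit 1064) (nat_lit 0) (XT.nd (nat_lit 312) (nat_lit 760) (nat_lit 0) (XT.nd (nat_lit 156) (nat_lit 0) (nat_lit 0) (XT.nd (nat_lit 78) (nat_lit 0) (nat_lit 0) (XT.lf (nat_lit 0) (nat_lit 372540454729) (nat_lit 456) (nat_lit 55497548157) (nat_lit 532) (nat_lit 17781509720) (nat_lit 59) (nat_lit 5) (nat_lit 65) (nat_lit 5) (nat_lit 66) (nat_lit 5) (nat_lit 362) (nat_lit 360) (nat_lit 178)) (XT.lf (nat_lit 76) (nat_lit 170999645731) (nat_lit 0) (nat_lit 232401059864) (nat_lit 532)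 (nat_lit 60436189364) (nat_lit 60) (nat_lit 5) (nat_lit 59) (nat_lit 5) (nat_lit 66) (nat_lit 5) (nat_lit 363) (nat_lit 360) (nat_lit 177))) (XT.nd (nat_lit 78) (nat_lit 0) (nat_lit 76) (XT.lf (nat_lit 76) (nat_lit 418772788460) (nat_lit 0) (nat_lit 19474358083) (nat_lit 532) (nat_lit 44927131804) (nat_lit 60) (nat_lit 5) (nat_lit 59) (nat_lit 5) (nat_lit 66) (nat_lit 5) (nat_lit 364) (nat_lit 360) (nat_lit 176)) (XT.lf (nat_lit 76) (nat_lit 186580410692) (nat_lit 0) (nat_lit 298850331575) (nat_lit 532) (nat_lit 17863955020) (nat_lit 61) (nat_lit 5) (nat_lit 60) (nat_lit 5) (nat_lit 67) (nat_lit 5) (nat_lit 365) (nat_lit 360) (nat_lit 175)))) (XT.nd (nat_lit 156) (nat_lit 304) (nat_lit 0) (XT.nd (nat_lit 78) (nat_lit 0) (nat_lit 76) (XT.lf (nat_lit 0) (nat_lit 13108175627) (nat_lit 532) (nat_lit 64405346883) (nat_lit 608) (nat_lit 447304371435) (nat_lit 53) (nat_lit 5) (nat_lit 60) (nat_lit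 5) (nat_lit 61) (nat_lit 5) (nat_lit 366) (nat_lit 360) (nat_lit 174)) (XT.lf (nat_lit 0) (nat_lit 54882629924) (nat_lit 532) (nat_lit 333081294570) (nat_lit 76) (nat_lit 159318728307) (nat_lit 54) (nat_lit 5) (nat_lit 61) (nat_lit 5) (nat_lit 55) (nat_lit 5) (nat_lit 367) (nat_lit 360) (nat_lit 173))) (XT.nd (nat_lit 78) (nat_lit 380) (nat_lit 0) (XT.lf (nat_lit 0) (nat_lit 103819049910) (nat_lit 532) (nat_lit 54703427464) (nat_lit 76) (nat_lit 412716514276) (nat_lit 54) (nat_lit 5) (nat_lit 61) (nat_lit 5) (nat_lit 55) (nat_lit 5) (nat_lit 368) (nat_lit 360) (nat_lit 172)) (XT.nd (nat_lit 78) (nat_lit 0) (nat_lit 0) (XT.lf (nat_lit 0) (nat_lit 165205582354) (nat_lit 456) (nat_lit 340026841449) (nat_lit 76) (nat_lit 91196597923) (nat_lit 49) (nat_lit 5) (nat_lit 55) (nat_lit 5) (nat_lit 50) (nat_lit 5) (nat_lit 369) (nat_lit 360) (nat_lit 171)) (XT.lf (nat_lit 0) (nat_lit 237155020680)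 (nat_lit 456) (nat_lit 32163668713) (nat_lit 76) (nat_lit 353863406180) (nat_lit 49) (nat_lit 5) (nat_lit 55) (nat_lit 5) (nat_lit 50) (nat_lit 5) (nat_lit 370) (nat_lit 360) (nat_lit 170)))))) (XT.nd (nat_lit 312) (nat_lit 456) (nat_lit 0) (XT.nd (nat_lit 156) (nat_lit 152) (nat_lit 0) (XT.nd (nat_lit 78) (nat_lit 228) (nat_lit 0) (XT.lf (nat_lit 0) (nat_lit 316143305414) (nat_lit 228) (nat_lit 6320342973) (nat_lit 304) (nat_lit 329003508219) (nat_lit 46) (nat_lit 5) (nat_lit 49) (nat_lit 5) (nat_lit 50) (nat_lit 5) (nat_lit 371) (nat_lit 360) (nat_lit 169)) (XT.lf (nat_lit 0) (nat_lit 5786840152) (nat_lit 228) (nat_lit 416530656002) (nat_lit 304) (nat_lit 259079884005) (nat_lit 43) (nat_lit 5) (nat_lit 46) (nat_lit 5) (nat_lit 47) (nat_lit 5) (nat_lit 372) (nat_lit 360) (nat_lit 168))) (XT.nd (nat_lit 78) (nat_lit 152) (nat_lit 0) (XT.lf (nat_lit 0) (nat_lit 393083720614) (nat_lit 228)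 (nat_lit 146404270183) (nat_lit 304) (nat_lit 173487763695) (nat_lit 43) (nat_lit 5) (nat_lit 46) (nat_lit 5) (nat_lit 47) (nat_lit 5) (nat_lit 373) (nat_lit 360) (nat_lit 167)) (XT.lf (nat_lit 0) (nat_lit 63989712740) (nat_lit 152) (nat_lit 607076593237) (nat_lit 228) (nat_lit 75611358339) (nat_lit 41) (nat_lit 5) (nat_lit 43) (nat_lit 5) (nat_lit 44) (nat_lit 5) (nat_lit 374) (nat_lit 360) (nat_lit 166)))) (XT.nd (nat_lit 156) (nat_lit 152) (nat_lit 0) (XT.nd (nat_lit 78) (nat_lit 228) (nat_lit 0) (XT.lf (nat_lit 0) (nat_lit 41365964319) (nat_lit 228) (nat_lit 290355169846) (nat_lit 76) (nat_lit 450274586702) (nat_lit 40) (nat_lit 5) (nat_lit 43) (nat_lit 5) (nat_lit 41) (nat_lit 5) (nat_lit 375) (nat_lit 360) (nat_lit 165)) (XT.lf (nat_lit 0) (nat_lit 138319589281) (nat_lit 228) (nat_lit 28623480494) (nat_lit 304) (nat_lit 652772911729) (nat_lit 37) (nat_lit 5) (nat_lit 40) (nat_lit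 5) (nat_lit 41) (nat_lit 5) (nat_lit 376) (nat_lit 360) (nat_lit 164))) (XT.nd (nat_lit 78) (nat_lit 152) (nat_lit 0) (XT.lf (nat_lit 0) (nat_lit 317895628107) (nat_lit 304) (nat_lit 249408166626) (nat_lit 76) (nat_lit 291923725519) (nat_lit 37) (nat_lit 5) (nat_lit 41) (nat_lit 5) (nat_lit 38) (nat_lit 5) (nat_lit 377) (nat_lit 360) (nat_lit 163)) (XT.nd (nat_lit 78) (nat_lit 0) (nat_lit 0) (XT.lf (nat_lit 0) (nat_lit 227790641581) (nat_lit 152) (nat_lit 259355573404) (nat_lit 228) (nat_lit 414256021216) (nat_lit 35) (nat_lit 5) (nat_lit 37) (nat_lit 5) (nat_lit 38) (nat_lit 5) (nat_lit 378) (nat_lit 360) (nat_lit 162)) (XT.lf (nat_lit 0) (nat_lit 678694367950) (nat_lit 228) (nat_lit 190994260948) (nat_lit 76) (nat_lit 76561699012) (nat_lit 35) (nat_lit 5) (nat_lit 38) (nat_lit 5) (nat_lit 36) (nat_lit 5) (nat_lit 379) (nat_lit 360) (nat_lit 161))))))) (XT.nd (nat_lit 702) (nat_lit 608)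 (nat_lit 0) (XT.nd (nat_lit 312) (nat_lit 456) (nat_lit 0) (XT.nd (nat_lit 156) (nat_lit 152) (nat_lit 0) (XT.nd (nat_lit 78) (nat_lit 76) (nat_lit 0) (XT.lf (nat_lit 0) (nat_lit 340530655698) (nat_lit 152) (nat_lit 559961984164) (nat_lit 228) (nat_lit 92999525768) (nat_lit 33) (nat_lit 5) (nat_lit 35) (nat_lit 5) (nat_lit 36) (nat_lit 5) (nat_lit 380) (nat_lit 360) (nat_lit 160)) (XT.lf (nat_lit 0) (nat_lit 96100803814) (nat_lit 228) (nat_lit 121088952220) (nat_lit 76) (nat_lit 826711191013) (nat_lit 32) (nat_lit 5) (nat_lit 35) (nat_lit 5) (nat_lit 33) (nat_lit 5) (nat_lit 381) (nat_lit 360) (nat_lit 159))) (XT.nd (nat_lit 78) (nat_lit 0) (nat_lit 0) (XT.lf (nat_lit 0) (nat_lit 310759407805) (nat_lit 228) (nat_lit 626612588218) (nat_lit 76) (nat_lit 159540818154) (nat_lit 30) (nat_lit 5) (nat_lit 33) (nat_lit 5) (nat_lit 31) (nat_lit 5) (nat_lit 382) (nat_lit 360) (nat_lit 158)) (XT.lf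 (nat_lit 0) (nat_lit 551628762678) (nat_lit 228) (nat_lit 43741097203) (nat_lit 76) (nat_lit 558072725802) (nat_lit 30) (nat_lit 5) (nat_lit 33) (nat_lit 5) (nat_lit 31) (nat_lit 5) (nat_lit 383) (nat_lit 360) (nat_lit 157)))) (XT.nd (nat_lit 156) (nat_lit 228) (nat_lit 0) (XT.nd (nat_lit 78) (nat_lit 76) (nat_lit 0) (XT.lf (nat_lit 0) (nat_lit 616605185995) (nat_lit 152) (nat_lit 209991839498) (nat_lit 228) (nat_lit 386711364658) (nat_lit 28) (nat_lit 5) (nat_lit 30) (nat_lit 5) (nat_lit 31) (nat_lit 5) (nat_lit 384) (nat_lit 360) (nat_lit 156)) (XT.lf (nat_lit 0) (nat_lit 52010153263) (nat_lit 76) (nat_lit 1078989964650) (nat_lit 152) (nat_lit 146368351587) (nat_lit 27) (nat_lit 5) (nat_lit 28) (nat_lit 5) (nat_lit 29) (nat_lit 4) (nat_lit 385) (nat_lit 360) (nat_lit 155))) (XT.nd (nat_lit 78) (nat_lit 152) (nat_lit 0) (XT.lf (nat_lit 0) (nat_lit 129732285998) (nat_lit 152) (nat_lit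 567293169264) (nat_lit 76) (nat_lit 647534657987) (nat_lit 26) (nat_lit 5) (nat_lit 28) (nat_lit 5) (nat_lit 27) (nat_lit 5) (nat_lit 386) (nat_lit 360) (nat_lit 154)) (XT.nd (nat_lit 78) (nat_lit 0) (nat_lit 0) (XT.lf (nat_lit 0) (nat_lit 146967298678) (nat_lit 152) (nat_lit 276580541267) (nat_lit 228) (nat_lit 992992341881) (nat_lit 24) (nat_lit 5) (nat_lit 26) (nat_lit 5) (nat_lit 27) (nat_lit 5) (nat_lit 387) (nat_lit 360) (nat_lit 153)) (XT.lf (nat_lit 0) (nat_lit 761051186389) (nat_lit 228) (nat_lit 547078494071) (nat_lit 76) (nat_lit 184534371580) (nat_lit 24) (nat_lit 5) (nat_lit 27) (nat_lit 5) (nat_lit 25) (nat_lit 4) (nat_lit 388) (nat_lit 360) (nat_lit 152)))))) (XT.nd (nat_lit 312) (nat_lit 304) (nat_lit 0) (XT.nd (nat_lit 156) (nat_lit 228) (nat_lit 0) (XT.nd (nat_lit 78) (nat_lit 0) (nat_lit 0) (XT.lf (nat_lit 0) (nat_lit 237933941372) (nat_lit 76) (nat_lit 900527078219)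 (nat_lit 152) (nat_lit 435384314762) (nat_lit 23) (nat_lit 5) (nat_lit 24) (nat_lit 5) (nat_lit 25) (nat_lit 4) (nat_lit 389) (nat_lit 360) (nat_lit 151)) (XT.lf (nat_lit 0) (nat_lit 1116860196736) (nat_lit 76) (nat_lit 444161530391) (nat_lit 152) (nat_lit 99302745114) (nat_lit 23) (nat_lit 5) (nat_lit 24) (nat_lit 5) (nat_lit 25) (nat_lit 4) (nat_lit 390) (nat_lit 360) (nat_lit 150))) (XT.nd (nat_lit 78) (nat_lit 0) (nat_lit 0) (XT.lf (nat_lit 0) (nat_lit 259761018772) (nat_lit 228) (nat_lit 1431979498353) (nat_lit 76) (nat_lit 60731309212) (nat_lit 20) (nat_lit 5) (nat_lit 23) (nat_lit 5) (nat_lit 21) (nat_lit 4) (nat_lit 391) (nat_lit 360) (nat_lit 149)) (XT.lf (nat_lit 0) (nat_lit 668966843643) (nat_lit 228) (nat_lit 580831395571) (nat_lit 76) (nat_lit 599843835192) (nat_lit 20) (nat_lit 5) (nat_lit 23) (nat_lit 5) (nat_lit 21) (nat_lit 4) (nat_lit 392) (nat_lit 360) (nat_lit 148))))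 (XT.nd (nat_lit 156) (nat_lit 228) (nat_lit 0) (XT.nd (nat_lit 78) (nat_lit 0) (nat_lit 0) (XT.lf (nat_lit 0) (nat_lit 356228537448) (nat_lit 76) (nat_lit 763247895141) (nat_lit 152) (nat_lit 834424125887) (nat_lit 19) (nat_lit 5) (nat_lit 20) (nat_lit 5) (nat_lit 21) (nat_lit 4) (nat_lit 393) (nat_lit 360) (nat_lit 147)) (XT.lf (nat_lit 0) (nat_lit 1401285649382) (nat_lit 76) (nat_lit 220622092359) (nat_lit 152) (nat_lit 443321503287) (nat_lit 19) (nat_lit 5) (nat_lit 20) (nat_lit 5) (nat_lit 21) (nat_lit 4) (nat_lit 394) (nat_lit 360) (nat_lit 146))) (XT.nd (nat_lit 78) (nat_lit 152) (nat_lit 0) (XT.lf (nat_lit 0) (nat_lit 353371979948) (nat_lit 76) (nat_lit 1828448384144) (nat_lit 76) (nat_lit 2260917737) (nat_lit 18) (nat_lit 4) (nat_lit 19) (nat_lit 5) (nat_lit 19) (nat_lit 4) (nat_lit 395) (nat_lit 360) (nat_lit 145)) (XT.nd (nat_lit 78) (nat_lit 76) (nat_lit 0) (XT.lf (nat_lit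 0) (nat_lit 474724236209) (nat_lit 152) (nat_lit 838761063902) (nat_lit 76) (nat_lit 996095614025) (nat_lit 17) (nat_lit 5) (nat_lit 19) (nat_lit 5) (nat_lit 18) (nat_lit 4) (nat_lit 396) (nat_lit 360) (nat_lit 144)) (XT.lf (nat_lit 0) (nat_lit 244726508537) (nat_lit 76) (nat_lit 750905218345) (nat_lit 152) (nat_lit 1449013238323) (nat_lit 16) (nat_lit 5) (nat_lit 17) (nat_lit 5) (nat_lit 18) (nat_lit 4) (nat_lit 397) (nat_lit 360) (nat_lit 143))))))))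
noncomputable def xc235 : XT := (XT.nd (nat_lit 44694) (nat_lit 0) (nat_lit 1140) (XT.nd (nat_lit 43992) (nat_lit 0) (nat_lit 3192) (XT.nd (nat_lit 312) (nat_lit 228) (nat_lit 0) (XT.nd (nat_lit 156) (nat_lit 76) (nat_lit 0) (XT.nd (nat_lit 78) (nat_lit 76) (nat_lit 0) (XT.lf (nat_lit 0) (nat_lit 1462594161402) (nat_lit 76) (nat_lit 118550863759) (nat_lit 152) (nat_lit 1007534458532) (nat_lit 16) (nat_lit 5) (nat_lit 17) (nat_lit 5) (nat_lit 18) (nat_lit 4) (nat_lit 398) (nat_lit 360) (nat_lit 142)) (XT.lf (nat_lit 0) (nat_lit 21138235873) (nat_lit 76) (nat_lit 2206443158576) (nat_lit 76) (nat_lit 515528808641) (nat_lit 15) (nat_lit 4) (nat_lit 16) (nat_lit 5) (nat_lit 16) (nat_lit 4) (nat_lit 399) (nat_lit 360) (nat_lit 141))) (XT.nd (nat_lit 78) (nat_lit 0) (nat_lit 0) (XT.lf (nat_lit 0) (nat_lit 49713172651) (nat_lit 152) (nat_lit 1587510956817) (nat_lit 76) (nat_lit 1269867329592)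 (nat_lit 14) (nat_lit 5) (nat_lit 16) (nat_lit 5) (nat_lit 15) (nat_lit 4) (nat_lit 400) (nat_lit 360) (nat_lit 140)) (XT.lf (nat_lit 0) (nat_lit 632322561592) (nat_lit 152) (nat_lit 375683433373) (nat_lit 76) (nat_lit 2075113992238) (nat_lit 14) (nat_lit 5) (nat_lit 16) (nat_lit 5) (nat_lit 15) (nat_lit 4) (nat_lit 401) (nat_lit 360) (nat_lit 139)))) (XT.nd (nat_lit 156) (nat_lit 152) (nat_lit 0) (XT.nd (nat_lit 78) (nat_lit 0) (nat_lit 0) (XT.lf (nat_lit 0) (nat_lit 982225164248) (nat_lit 76) (nat_lit 302938071750) (nat_lit 152) (nat_lit 1986177758854) (nat_lit 13) (nat_lit 5) (nat_lit 14) (nat_lit 5) (nat_lit 15) (nat_lit 4) (nat_lit 402) (nat_lit 360) (nat_lit 138)) (XT.lf (nat_lit 0) (nat_lit 2011797596720) (nat_lit 152) (nat_lit 1014960630074) (nat_lit 0) (nat_lit 446136141729) (nat_lit 13) (nat_lit 5) (nat_lit 15) (nat_lit 4) (nat_lit 13) (nat_lit 4) (nat_lit 403) (nat_lit 360)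 (nat_lit 137))) (XT.nd (nat_lit 78) (nat_lit 76) (nat_lit 0) (XT.lf (nat_lit 0) (nat_lit 371860421627) (nat_lit 76) (nat_lit 2441514053995) (nat_lit 76) (nat_lit 875852594923) (nat_lit 12) (nat_lit 4) (nat_lit 13) (nat_lit 5) (nat_lit 13) (nat_lit 4) (nat_lit 404) (nat_lit 360) (nat_lit 136)) (XT.nd (nat_lit 78) (nat_lit 76) (nat_lit 0) (XT.lf (nat_lit 0) (nat_lit 1927348860168) (nat_lit 76) (nat_lit 1779479462974) (nat_lit 76) (nat_lit 213818000122) (nat_lit 12) (nat_lit 4) (nat_lit 13) (nat_lit 5) (nat_lit 13) (nat_lit 4) (nat_lit 405) (nat_lit 360) (nat_lit 135)) (XT.lf (nat_lit 0) (nat_lit 476108336986) (nat_lit 152) (nat_lit 575356125419) (nat_lit 76) (nat_lit 3118150384043) (nat_lit 11) (nat_lit 5) (nat_lit 13) (nat_lit 5) (nat_lit 12) (nat_lit 4) (nat_lit 406) (nat_lit 360) (nat_lit 134)))))) (XT.nd (nat_lit 312) (nat_lit 380) (nat_lit 0) (XT.nd (nat_lit 156) (nat_lit 0) (nat_lit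 76) (XT.nd (nat_lit 78) (nat_lit 0) (nat_lit 0) (XT.lf (nat_lit 0) (nat_lit 180809935224) (nat_lit 532) (nat_lit 20917049887) (nat_lit 532) (nat_lit 20917049887) (nat_lit 58) (nat_lit 3) (nat_lit 65) (nat_lit 3) (nat_lit 65) (nat_lit 5) (nat_lit 361) (nat_lit 361) (nat_lit 178)) (XT.lf (nat_lit 76) (nat_lit 180054414490) (nat_lit 0) (nat_lit 200360870609) (nat_lit 532) (nat_lit 82337857651) (nat_lit 59) (nat_lit 5) (nat_lit 58) (nat_lit 3) (nat_lit 65) (nat_lit 5) (nat_lit 362) (nat_lit 361) (nat_lit 177))) (XT.nd (nat_lit 78) (nat_lit 0) (nat_lit 0) (XT.lf (nat_lit 0) (nat_lit 402344291814) (nat_lit 456) (nat_lit 59936955226) (nat_lit 532) (nat_lit 19203777619) (nat_lit 59) (nat_lit 5) (nat_lit 65) (nat_lit 5) (nat_lit 66) (nat_lit 5) (nat_lit 363) (nat_lit 361) (nat_lit 176)) (XT.lf (nat_lit 76) (nat_lit 184680004127) (nat_lit 0) (nat_lit 250993323427) (nat_lit 532) (nat_lit 65270472929)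 (nat_lit 60) (nat_lit 5) (nat_lit 59) (nat_lit 5) (nat_lit 66) (nat_lit 5) (nat_lit 364) (nat_lit 361) (nat_lit 175)))) (XT.nd (nat_lit 156) (nat_lit 456) (nat_lit 0) (XT.nd (nat_lit 78) (nat_lit 0) (nat_lit 76) (XT.lf (nat_lit 76) (nat_lit 452274969628) (nat_lit 0) (nat_lit 21032472260) (nat_lit 532) (nat_lit 48520736066) (nat_lit 60) (nat_lit 5) (nat_lit 59) (nat_lit 5) (nat_lit 66) (nat_lit 5) (nat_lit 365) (nat_lit 361) (nat_lit 174)) (XT.lf (nat_lit 76) (nat_lit 201507238033) (nat_lit 0) (nat_lit 322758454252) (nat_lit 532) (nat_lit 19292540822) (nat_lit 61) (nat_lit 5) (nat_lit 60) (nat_lit 5) (nat_lit 67) (nat_lit 5) (nat_lit 366) (nat_lit 361) (nat_lit 173))) (XT.nd (nat_lit 78) (nat_lit 0) (nat_lit 76) (XT.lf (nat_lit 0) (nat_lit 14157296397) (nat_lit 532) (nat_lit 69557384182) (nat_lit 608) (nat_lit 483088606934) (nat_lit 53) (nat_lit 5) (nat_lit 60) (nat_lit 5) (nat_lit 61)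 (nat_lit 5) (nat_lit 367) (nat_lit 361) (nat_lit 172)) (XT.nd (nat_lit 78) (nat_lit 0) (nat_lit 0) (XT.lf (nat_lit 0) (nat_lit 59273680158) (nat_lit 532) (nat_lit 359727380238) (nat_lit 76) (nat_lit 172064168876) (nat_lit 54) (nat_lit 5) (nat_lit 61) (nat_lit 5) (nat_lit 55) (nat_lit 5) (nat_lit 368) (nat_lit 361) (nat_lit 171)) (XT.lf (nat_lit 0) (nat_lit 112124981162) (nat_lit 532) (nat_lit 59079314719) (nat_lit 76) (nat_lit 445733781996) (nat_lit 54) (nat_lit 5) (nat_lit 61) (nat_lit 5) (nat_lit 55) (nat_lit 5) (nat_lit 369) (nat_lit 361) (nat_lit 170))))))) (XT.nd (nat_lit 702) (nat_lit 836) (nat_lit 0) (XT.nd (nat_lit 312) (nat_lit 456) (nat_lit 0) (XT.nd (nat_lit 156) (nat_lit 456) (nat_lit 0) (XT.nd (nat_lit 78) (nat_lit 0) (nat_lit 0) (XT.lf (nat_lit 0) (nat_lit 178422414888) (nat_lit 456) (nat_lit 367228580024) (nat_lit 76) (nat_lit 98492317192) (nat_lit 49) (nat_lit 5) (nat_lit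 55) (nat_lit 5) (nat_lit 50) (nat_lit 5) (nat_lit 370) (nat_lit 361) (nat_lit 169)) (XT.lf (nat_lit 0) (nat_lit 256127779691) (nat_lit 456) (nat_lit 34736383746) (nat_lit 76) (nat_lit 382172470743) (nat_lit 49) (nat_lit 5) (nat_lit 55) (nat_lit 5) (nat_lit 50) (nat_lit 5) (nat_lit 371) (nat_lit 361) (nat_lit 168))) (XT.nd (nat_lit 78) (nat_lit 228) (nat_lit 0) (XT.lf (nat_lit 0) (nat_lit 341435138730) (nat_lit 228) (nat_lit 6825941286) (nat_lit 304) (nat_lit 355323421523) (nat_lit 46) (nat_lit 5) (nat_lit 49) (nat_lit 5) (nat_lit 50) (nat_lit 5) (nat_lit 372) (nat_lit 361) (nat_lit 167)) (XT.lf (nat_lit 0) (nat_lit 6250173124) (nat_lit 228) (nat_lit 449853047240) (nat_lit 304) (nat_lit 279805923862) (nat_lit 43) (nat_lit 5) (nat_lit 46) (nat_lit 5) (nat_lit 47) (nat_lit 5) (nat_lit 373) (nat_lit 361) (nat_lit 166)))) (XT.nd (nat_lit 156) (nat_lit 304) (nat_lit 0) (XT.nd (nat_lit 78) (nat_lit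 152) (nat_lit 0) (XT.lf (nat_lit 0) (nat_lit 424530775448) (nat_lit 228) (nat_lit 158116555092) (nat_lit 304) (nat_lit 187366459918) (nat_lit 43) (nat_lit 5) (nat_lit 46) (nat_lit 5) (nat_lit 47) (nat_lit 5) (nat_lit 374) (nat_lit 361) (nat_lit 165)) (XT.lf (nat_lit 0) (nat_lit 69109260348) (nat_lit 152) (nat_lit 655642638502) (nat_lit 228) (nat_lit 81659955209) (nat_lit 41) (nat_lit 5) (nat_lit 43) (nat_lit 5) (nat_lit 44) (nat_lit 5) (nat_lit 375) (nat_lit 361) (nat_lit 164))) (XT.nd (nat_lit 78) (nat_lit 228) (nat_lit 0) (XT.lf (nat_lit 0) (nat_lit 44675515724) (nat_lit 228) (nat_lit 313583225570) (nat_lit 76) (nat_lit 486296615018) (nat_lit 40) (nat_lit 5) (nat_lit 43) (nat_lit 5) (nat_lit 41) (nat_lit 5) (nat_lit 376) (nat_lit 361) (nat_lit 163)) (XT.nd (nat_lit 78) (nat_lit 0) (nat_lit 0) (XT.lf (nat_lit 0) (nat_lit 149385505227) (nat_lit 228) (nat_lit 30913272462) (nat_lit 304)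 (nat_lit 704994461086) (nat_lit 37) (nat_lit 5) (nat_lit 40) (nat_lit 5) (nat_lit 41) (nat_lit 5) (nat_lit 377) (nat_lit 361) (nat_lit 162)) (XT.lf (nat_lit 0) (nat_lit 343327523182) (nat_lit 304) (nat_lit 269360479240) (nat_lit 76) (nat_lit 315277699621) (nat_lit 37) (nat_lit 5) (nat_lit 41) (nat_lit 5) (nat_lit 38) (nat_lit 5) (nat_lit 378) (nat_lit 361) (nat_lit 161)))))) (XT.nd (nat_lit 312) (nat_lit 456) (nat_lit 0) (XT.nd (nat_lit 156) (nat_lit 228) (nat_lit 0) (XT.nd (nat_lit 78) (nat_lit 0) (nat_lit 0) (XT.lf (nat_lit 0) (nat_lit 246014224998) (nat_lit 152) (nat_lit 280103921864) (nat_lit 228) (nat_lit 447396249237) (nat_lit 35) (nat_lit 5) (nat_lit 37) (nat_lit 5) (nat_lit 38) (nat_lit 5) (nat_lit 379) (nat_lit 361) (nat_lit 160)) (XT.lf (nat_lit 0) (nat_lit 732990136850) (nat_lit 228) (nat_lit 206273478911) (nat_lit 76) (nat_lit 82686720617) (nat_lit 35) (nat_lit 5) (nat_lit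 38) (nat_lit 5) (nat_lit 36) (nat_lit 5) (nat_lit 380) (nat_lit 361) (nat_lit 159))) (XT.nd (nat_lit 78) (nat_lit 76) (nat_lit 0) (XT.lf (nat_lit 0) (nat_lit 367773422892) (nat_lit 152) (nat_lit 604758838936) (nat_lit 228) (nat_lit 100439259998) (nat_lit 33) (nat_lit 5) (nat_lit 35) (nat_lit 5) (nat_lit 36) (nat_lit 5) (nat_lit 381) (nat_lit 361) (nat_lit 158)) (XT.lf (nat_lit 0) (nat_lit 103789068521) (nat_lit 228) (nat_lit 130775766256) (nat_lit 76) (nat_lit 892848171837) (nat_lit 32) (nat_lit 5) (nat_lit 35) (nat_lit 5) (nat_lit 33) (nat_lit 5) (nat_lit 382) (nat_lit 361) (nat_lit 157)))) (XT.nd (nat_lit 156) (nat_lit 304) (nat_lit 0) (XT.nd (nat_lit 78) (nat_lit 0) (nat_lit 0) (XT.lf (nat_lit 0) (nat_lit 335620355519) (nat_lit 228) (nat_lit 676741287668) (nat_lit 76) (nat_lit 172304180365) (nat_lit 30) (nat_lit 5) (nat_lit 33) (nat_lit 5) (nat_lit 31) (nat_lit 5) (nat_lit 383) (nat_lit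 361) (nat_lit 156)) (XT.lf (nat_lit 0) (nat_lit 595759244331) (nat_lit 228) (nat_lit 47240100157) (nat_lit 76) (nat_lit 602718633457) (nat_lit 30) (nat_lit 5) (nat_lit 33) (nat_lit 5) (nat_lit 31) (nat_lit 5) (nat_lit 384) (nat_lit 361) (nat_lit 155))) (XT.nd (nat_lit 78) (nat_lit 152) (nat_lit 0) (XT.lf (nat_lit 0) (nat_lit 665933878486) (nat_lit 152) (nat_lit 226791082981) (nat_lit 228) (nat_lit 417648085851) (nat_lit 28) (nat_lit 5) (nat_lit 30) (nat_lit 5) (nat_lit 31) (nat_lit 5) (nat_lit 385) (nat_lit 361) (nat_lit 154)) (XT.nd (nat_lit 78) (nat_lit 76) (nat_lit 0) (XT.lf (nat_lit 0) (nat_lit 56171247367) (nat_lit 76) (nat_lit 1165309050116) (nat_lit 152) (nat_lit 158077635844) (nat_lit 27) (nat_lit 5) (nat_lit 28) (nat_lit 5) (nat_lit 29) (nat_lit 4) (nat_lit 386) (nat_lit 361) (nat_lit 153)) (XT.lf (nat_lit 0) (nat_lit 140111030612) (nat_lit 152) (nat_lit 612676353218) (nat_lit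 76) (nat_lit 699337525436) (nat_lit 26) (nat_lit 5) (nat_lit 28) (nat_lit 5) (nat_lit 27) (nat_lit 5) (nat_lit 387) (nat_lit 361) (nat_lit 152))))))))
noncomputable def xc236 : XT := (XT.nd (nat_lit 1404) (nat_lit 0) (nat_lit 0) (XT.nd (nat_lit 702) (nat_lit 456) (nat_lit 0) (XT.nd (nat_lit 312) (nat_lit 380) (nat_lit 0) (XT.nd (nat_lit 156) (nat_lit 76) (nat_lit 0) (XT.nd (nat_lit 78) (nat_lit 0) (nat_lit 0) (XT.lf (nat_lit 0) (nat_lit 158724945334) (nat_lit 152) (nat_lit 298706877879) (nat_lit 228) (nat_lit 1072431560577) (nat_lit 24) (nat_lit 5) (nat_lit 26) (nat_lit 5) (nat_lit 27) (nat_lit 5) (nat_lit 388) (nat_lit 361) (nat_lit 151)) (XT.lf (nat_lit 0) (nat_lit 821935428187) (nat_lit 228) (nat_lit 590844521025) (nat_lit 76) (nat_lit 199297215151) (nat_lit 24) (nat_lit 5) (nat_lit 27) (nat_lit 5) (nat_lit 25) (nat_lit 4) (nat_lit 389) (nat_lit 361) (nat_lit 150))) (XT.nd (nat_lit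 78) (nat_lit 0) (nat_lit 0) (XT.lf (nat_lit 0) (nat_lit 256968902860) (nat_lit 76) (nat_lit 972569140226) (nat_lit 152) (nat_lit 470214906579) (nat_lit 23) (nat_lit 5) (nat_lit 24) (nat_lit 5) (nat_lit 25) (nat_lit 4) (nat_lit 390) (nat_lit 361) (nat_lit 149)) (XT.lf (nat_lit 0) (nat_lit 1206209240417) (nat_lit 76) (nat_lit 479694356294) (nat_lit 152) (nat_lit 107246822720) (nat_lit 23) (nat_lit 5) (nat_lit 24) (nat_lit 5) (nat_lit 25) (nat_lit 4) (nat_lit 391) (nat_lit 361) (nat_lit 148)))) (XT.nd (nat_lit 156) (nat_lit 152) (nat_lit 0) (XT.nd (nat_lit 78) (nat_lit 0) (nat_lit 0) (XT.lf (nat_lit 0) (nat_lit 280542033068) (nat_lit 228) (nat_lit 1546537620933) (nat_lit 76) (nat_lit 65589907754) (nat_lit 20) (nat_lit 5) (nat_lit 23) (nat_lit 5) (nat_lit 21) (nat_lit 4) (nat_lit 392) (nat_lit 361) (nat_lit 147)) (XT.lf (nat_lit 0) (nat_lit 722484314092) (nat_lit 228) (nat_lit 627297687504)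 (nat_lit 76) (nat_lit 647831428865) (nat_lit 20) (nat_lit 5) (nat_lit 23) (nat_lit 5) (nat_lit 21) (nat_lit 4) (nat_lit 393) (nat_lit 361) (nat_lit 146))) (XT.nd (nat_lit 78) (nat_lit 76) (nat_lit 0) (XT.lf (nat_lit 0) (nat_lit 384727034594) (nat_lit 76) (nat_lit 824307631602) (nat_lit 152) (nat_lit 901177927382) (nat_lit 19) (nat_lit 5) (nat_lit 20) (nat_lit 5) (nat_lit 21) (nat_lit 4) (nat_lit 394) (nat_lit 361) (nat_lit 145)) (XT.nd (nat_lit 78) (nat_lit 76) (nat_lit 0) (XT.lf (nat_lit 0) (nat_lit 1513388699619) (nat_lit 76) (nat_lit 238271771646) (nat_lit 152) (nat_lit 478787104498) (nat_lit 19) (nat_lit 5) (nat_lit 20) (nat_lit 5) (nat_lit 21) (nat_lit 4) (nat_lit 395) (nat_lit 361) (nat_lit 144)) (XT.lf (nat_lit 0) (nat_lit 381641938188) (nat_lit 76) (nat_lit 1974724163823) (nat_lit 76) (nat_lit 2441673614) (nat_lit 18) (nat_lit 4) (nat_lit 19) (nat_lit 5) (nat_lit 19) (nat_lit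 4) (nat_lit 396) (nat_lit 361) (nat_lit 143)))))) (XT.nd (nat_lit 312) (nat_lit 228) (nat_lit 0) (XT.nd (nat_lit 156) (nat_lit 76) (nat_lit 0) (XT.nd (nat_lit 78) (nat_lit 76) (nat_lit 0) (XT.lf (nat_lit 0) (nat_lit 512702278498) (nat_lit 152) (nat_lit 905861758488) (nat_lit 76) (nat_lit 1075783341970) (nat_lit 17) (nat_lit 5) (nat_lit 19) (nat_lit 5) (nat_lit 18) (nat_lit 4) (nat_lit 397) (nat_lit 361) (nat_lit 142)) (XT.lf (nat_lit 0) (nat_lit 264304814923) (nat_lit 76) (nat_lit 810977550309) (nat_lit 152) (nat_lit 1564934189136) (nat_lit 16) (nat_lit 5) (nat_lit 17) (nat_lit 5) (nat_lit 18) (nat_lit 4) (nat_lit 398) (nat_lit 361) (nat_lit 141))) (XT.nd (nat_lit 78) (nat_lit 76) (nat_lit 0) (XT.lf (nat_lit 0) (nat_lit 1579601866261) (nat_lit 76) (nat_lit 128034853689) (nat_lit 152) (nat_lit 1088137114980) (nat_lit 16) (nat_lit 5) (nat_lit 17) (nat_lit 5) (nat_lit 18) (nat_lit 4) (nat_lit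 399) (nat_lit 361) (nat_lit 140)) (XT.lf (nat_lit 0) (nat_lit 22829467749) (nat_lit 76) (nat_lit 2382958530084) (nat_lit 76) (nat_lit 556771014125) (nat_lit 15) (nat_lit 4) (nat_lit 16) (nat_lit 5) (nat_lit 16) (nat_lit 4) (nat_lit 400) (nat_lit 361) (nat_lit 139)))) (XT.nd (nat_lit 156) (nat_lit 152) (nat_lit 0) (XT.nd (nat_lit 78) (nat_lit 0) (nat_lit 0) (XT.lf (nat_lit 0) (nat_lit 53690313727) (nat_lit 152) (nat_lit 1714511668547) (nat_lit 76) (nat_lit 1371456786502) (nat_lit 14) (nat_lit 5) (nat_lit 16) (nat_lit 5) (nat_lit 15) (nat_lit 4) (nat_lit 401) (nat_lit 361) (nat_lit 138)) (XT.lf (nat_lit 0) (nat_lit 682908447319) (nat_lit 152) (nat_lit 405737955437) (nat_lit 76) (nat_lit 2241123176934) (nat_lit 14) (nat_lit 5) (nat_lit 16) (nat_lit 5) (nat_lit 15) (nat_lit 4) (nat_lit 402) (nat_lit 361) (nat_lit 137))) (XT.nd (nat_lit 78) (nat_lit 76) (nat_lit 0) (XT.lf (nat_lit 0) (nat_lit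 1060803326131) (nat_lit 76) (nat_lit 327173047138) (nat_lit 152) (nat_lit 2145071894875) (nat_lit 13) (nat_lit 5) (nat_lit 14) (nat_lit 5) (nat_lit 15) (nat_lit 4) (nat_lit 403) (nat_lit 361) (nat_lit 136)) (XT.nd (nat_lit 78) (nat_lit 76) (nat_lit 0) (XT.lf (nat_lit 0) (nat_lit 2172741478609) (nat_lit 152) (nat_lit 1096157338492) (nat_lit 0) (nat_lit 481827094949) (nat_lit 13) (nat_lit 5) (nat_lit 15) (nat_lit 4) (nat_lit 13) (nat_lit 4) (nat_lit 404) (nat_lit 361) (nat_lit 135)) (XT.lf (nat_lit 0) (nat_lit 401609393750) (nat_lit 76) (nat_lit 2636835111909) (nat_lit 76) (nat_lit 945920724750) (nat_lit 12) (nat_lit 4) (nat_lit 13) (nat_lit 5) (nat_lit 13) (nat_lit 4) (nat_lit 405) (nat_lit 361) (nat_lit 134))))))) (XT.nd (nat_lit 44070) (nat_lit 0) (nat_lit 1900) (XT.nd (nat_lit 43680) (nat_lit 0) (nat_lit 3116) (XT.nd (nat_lit 43524) (nat_lit 0) (nat_lit 3496) (XT.nd (nat_lit 43446)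 (nat_lit 0) (nat_lit 3496) (XT.lf (nat_lit 0) (nat_lit 2081536897123) (nat_lit 76) (nat_lit 1921837758525) (nat_lit 76) (nat_lit 230923368126) (nat_lit 12) (nat_lit 4) (nat_lit 13) (nat_lit 5) (nat_lit 13) (nat_lit 4) (nat_lit 406) (nat_lit 361) (nat_lit 133)) (XT.lf (nat_lit 0) (nat_lit 195275029497) (nat_lit 532) (nat_lit 22590251948) (nat_lit 532) (nat_lit 22590251948) (nat_lit 58) (nat_lit 3) (nat_lit 65) (nat_lit 3) (nat_lit 65) (nat_lit 5) (nat_lit 362) (nat_lit 362) (nat_lit 176))) (XT.nd (nat_lit 78) (nat_lit 0) (nat_lit 76) (XT.lf (nat_lit 76) (nat_lit 194459083311) (nat_lit 0) (nat_lit 216389986734) (nat_lit 532) (nat_lit 88924278323) (nat_lit 59) (nat_lit 5) (nat_lit 58) (nat_lit 3) (nat_lit 65) (nat_lit 5) (nat_lit 363) (nat_lit 362) (nat_lit 175)) (XT.lf (nat_lit 0) (nat_lit 434532350169) (nat_lit 456) (nat_lit 64731571466) (nat_lit 532) (nat_lit 20739863026) (nat_lit 59)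 (nat_lit 5) (nat_lit 65) (nat_lit 5) (nat_lit 66) (nat_lit 5) (nat_lit 364) (nat_lit 362) (nat_lit 174)))) (XT.nd (nat_lit 156) (nat_lit 456) (nat_lit 0) (XT.nd (nat_lit 78) (nat_lit 0) (nat_lit 0) (XT.lf (nat_lit 76) (nat_lit 199454736023) (nat_lit 0) (nat_lit 271072942571) (nat_lit 532) (nat_lit 70491586429) (nat_lit 60) (nat_lit 5) (nat_lit 59) (nat_lit 5) (nat_lit 66) (nat_lit 5) (nat_lit 365) (nat_lit 362) (nat_lit 173)) (XT.lf (nat_lit 76) (nat_lit 488457274203) (nat_lit 0) (nat_lit 22715211957) (nat_lit 532) (nat_lit 52401909457) (nat_lit 60) (nat_lit 5) (nat_lit 59) (nat_lit 5) (nat_lit 66) (nat_lit 5) (nat_lit 366) (nat_lit 362) (nat_lit 172))) (XT.nd (nat_lit 78) (nat_lit 532) (nat_lit 0) (XT.lf (nat_lit 76) (nat_lit 217628155283) (nat_lit 0) (nat_lit 348579213026) (nat_lit 532) (nat_lit 20835489183) (nat_lit 61) (nat_lit 5) (nat_lit 60) (nat_lit 5) (nat_lit 67) (nat_lit 5)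 (nat_lit 367) (nat_lit 362) (nat_lit 171)) (XT.nd (nat_lit 78) (nat_lit 0) (nat_lit 76) (XT.lf (nat_lit 0) (nat_lit 15290280245) (nat_lit 532) (nat_lit 75121640167) (nat_lit 608) (nat_lit 521735597566) (nat_lit 53) (nat_lit 5) (nat_lit 60) (nat_lit 5) (nat_lit 61) (nat_lit 5) (nat_lit 368) (nat_lit 362) (nat_lit 170)) (XT.lf (nat_lit 0) (nat_lit 64015951663) (nat_lit 532) (nat_lit 388505212377) (nat_lit 76) (nat_lit 185829252922) (nat_lit 54) (nat_lit 5) (nat_lit 61) (nat_lit 5) (nat_lit 55) (nat_lit 5) (nat_lit 369) (nat_lit 362) (nat_lit 169)))))) (XT.nd (nat_lit 312) (nat_lit 684) (nat_lit 0) (XT.nd (nat_lit 156) (nat_lit 228) (nat_lit 0) (XT.nd (nat_lit 78) (nat_lit 380) (nat_lit 0) (XT.lf (nat_lit 0) (nat_lit 121095328814) (nat_lit 532) (nat_lit 63805328156) (nat_lit 76) (nat_lit 481392438755) (nat_lit 54) (nat_lit 5) (nat_lit 61) (nat_lit 5) (nat_lit 55) (nat_lit 5) (nat_lit 370)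 (nat_lit 362) (nat_lit 168)) (XT.lf (nat_lit 0) (nat_lit 192696538965) (nat_lit 456) (nat_lit 396606515996) (nat_lit 76) (nat_lit 106371695224) (nat_lit 49) (nat_lit 5) (nat_lit 55) (nat_lit 5) (nat_lit 50) (nat_lit 5) (nat_lit 371) (nat_lit 362) (nat_lit 167))) (XT.nd (nat_lit 78) (nat_lit 228) (nat_lit 0) (XT.lf (nat_lit 0) (nat_lit 276618308443) (nat_lit 456) (nat_lit 37514969974) (nat_lit 76) (nat_lit 412746261604) (nat_lit 49) (nat_lit 5) (nat_lit 55) (nat_lit 5) (nat_lit 50) (nat_lit 5) (nat_lit 372) (nat_lit 362) (nat_lit 166)) (XT.lf (nat_lit 0) (nat_lit 368750266086) (nat_lit 228) (nat_lit 7371991619) (nat_lit 304) (nat_lit 383748980298) (nat_lit 46) (nat_lit 5) (nat_lit 49) (nat_lit 5) (nat_lit 50) (nat_lit 5) (nat_lit 373) (nat_lit 362) (nat_lit 165)))) (XT.nd (nat_lit 156) (nat_lit 456) (nat_lit 0) (XT.nd (nat_lit 78) (nat_lit 0) (nat_lit 0) (XT.lf (nat_lit 0) (nat_lit 6750517700)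 (nat_lit 228) (nat_lit 485841238513) (nat_lit 304) (nat_lit 302190096963) (nat_lit 43) (nat_lit 5) (nat_lit 46) (nat_lit 5) (nat_lit 47) (nat_lit 5) (nat_lit 374) (nat_lit 362) (nat_lit 164)) (XT.lf (nat_lit 0) (nat_lit 458493543712) (nat_lit 228) (nat_lit 170765830883) (nat_lit 304) (nat_lit 202355498185) (nat_lit 43) (nat_lit 5) (nat_lit 46) (nat_lit 5) (nat_lit 47) (nat_lit 5) (nat_lit 375) (nat_lit 362) (nat_lit 163))) (XT.nd (nat_lit 78) (nat_lit 304) (nat_lit 0) (XT.lf (nat_lit 0) (nat_lit 74638318897) (nat_lit 152) (nat_lit 708093979114) (nat_lit 228) (nat_lit 88192484309) (nat_lit 41) (nat_lit 5) (nat_lit 43) (nat_lit 5) (nat_lit 44) (nat_lit 5) (nat_lit 376) (nat_lit 362) (nat_lit 162)) (XT.nd (nat_lit 78) (nat_lit 228) (nat_lit 0) (XT.lf (nat_lit 0) (nat_lit 48249792115) (nat_lit 228) (nat_lit 338669576805) (nat_lit 76) (nat_lit 525200396843) (nat_lit 40) (nat_lit 5) (nat_lit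 43) (nat_lit 5) (nat_lit 41) (nat_lit 5) (nat_lit 377) (nat_lit 362) (nat_lit 161)) (XT.lf (nat_lit 0) (nat_lit 161336644688) (nat_lit 228) (nat_lit 33386260125) (nat_lit 304) (nat_lit 761393774847) (nat_lit 37) (nat_lit 5) (nat_lit 40) (nat_lit 5) (nat_lit 41) (nat_lit 5) (nat_lit 378) (nat_lit 362) (nat_lit 160))))))))
noncomputable def xc237 : XT := (XT.nd (nat_lit 1404) (nat_lit 532) (nat_lit 0) (XT.nd (nat_lit 702) (nat_lit 608) (nat_lit 0) (XT.nd (nat_lit 312) (nat_lit 456) (nat_lit 0) (XT.nd (nat_lit 156) (nat_lit 152) (nat_lit 0) (XT.nd (nat_lit 78) (nat_lit 152) (nat_lit 0) (XT.lf (nat_lit 0) (nat_lit 370793934935) (nat_lit 304) (nat_lit 290909025470) (nat_lit 76) (nat_lit 340499980800) (nat_lit 37) (nat_lit 5) (nat_lit 41) (nat_lit 5) (nat_lit 38) (nat_lit 5) (nat_lit 379) (nat_lit 362) (nat_lit 159)) (XT.lf (nat_lit 0) (nat_lit 265695647711) (nat_lit 152) (nat_lit 302512152099)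 (nat_lit 228) (nat_lit 483187731689) (nat_lit 35) (nat_lit 5) (nat_lit 37) (nat_lit 5) (nat_lit 38) (nat_lit 5) (nat_lit 380) (nat_lit 362) (nat_lit 158))) (XT.nd (nat_lit 78) (nat_lit 152) (nat_lit 0) (XT.lf (nat_lit 0) (nat_lit 791629535953) (nat_lit 228) (nat_lit 222775080377) (nat_lit 76) (nat_lit 89301731727) (nat_lit 35) (nat_lit 5) (nat_lit 38) (nat_lit 5) (nat_lit 36) (nat_lit 5) (nat_lit 381) (nat_lit 362) (nat_lit 157)) (XT.lf (nat_lit 0) (nat_lit 397195566561) (nat_lit 152) (nat_lit 653139456920) (nat_lit 228) (nat_lit 108474205469) (nat_lit 33) (nat_lit 5) (nat_lit 35) (nat_lit 5) (nat_lit 36) (nat_lit 5) (nat_lit 382) (nat_lit 362) (nat_lit 156)))) (XT.nd (nat_lit 156) (nat_lit 228) (nat_lit 0) (XT.nd (nat_lit 78) (nat_lit 152) (nat_lit 0) (XT.lf (nat_lit 0) (nat_lit 112092365815) (nat_lit 228) (nat_lit 141237568518) (nat_lit 76) (nat_lit 964276098923) (nat_lit 32) (nat_lit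 5) (nat_lit 35) (nat_lit 5) (nat_lit 33) (nat_lit 5) (nat_lit 383) (nat_lit 362) (nat_lit 155)) (XT.lf (nat_lit 0) (nat_lit 362470151219) (nat_lit 228) (nat_lit 730880326958) (nat_lit 76) (nat_lit 186088597748) (nat_lit 30) (nat_lit 5) (nat_lit 33) (nat_lit 5) (nat_lit 31) (nat_lit 5) (nat_lit 384) (nat_lit 362) (nat_lit 154))) (XT.nd (nat_lit 78) (nat_lit 228) (nat_lit 0) (XT.lf (nat_lit 0) (nat_lit 643420138746) (nat_lit 228) (nat_lit 51019063981) (nat_lit 76) (nat_lit 650936200943) (nat_lit 30) (nat_lit 5) (nat_lit 33) (nat_lit 5) (nat_lit 31) (nat_lit 5) (nat_lit 385) (nat_lit 362) (nat_lit 153)) (XT.nd (nat_lit 78) (nat_lit 76) (nat_lit 0) (XT.lf (nat_lit 0) (nat_lit 719208826772) (nat_lit 152) (nat_lit 244934280734) (nat_lit 228) (nat_lit 451059771556) (nat_lit 28) (nat_lit 5) (nat_lit 30) (nat_lit 5) (nat_lit 31) (nat_lit 5) (nat_lit 386) (nat_lit 362) (nat_lit 152)) (XT.lf (nat_lit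 0) (nat_lit 60665188791) (nat_lit 76) (nat_lit 1258533678356) (nat_lit 152) (nat_lit 170723689073) (nat_lit 27) (nat_lit 5) (nat_lit 28) (nat_lit 5) (nat_lit 29) (nat_lit 4) (nat_lit 387) (nat_lit 362) (nat_lit 151)))))) (XT.nd (nat_lit 312) (nat_lit 304) (nat_lit 0) (XT.nd (nat_lit 156) (nat_lit 76) (nat_lit 0) (XT.nd (nat_lit 78) (nat_lit 152) (nat_lit 0) (XT.lf (nat_lit 0) (nat_lit 151320051721) (nat_lit 152) (nat_lit 661690230349) (nat_lit 76) (nat_lit 755284608756) (nat_lit 26) (nat_lit 5) (nat_lit 28) (nat_lit 5) (nat_lit 27) (nat_lit 5) (nat_lit 388) (nat_lit 362) (nat_lit 150)) (XT.lf (nat_lit 0) (nat_lit 171423166236) (nat_lit 152) (nat_lit 322603336641) (nat_lit 228) (nat_lit 1158225940829) (nat_lit 24) (nat_lit 5) (nat_lit 26) (nat_lit 5) (nat_lit 27) (nat_lit 5) (nat_lit 389) (nat_lit 362) (nat_lit 149))) (XT.nd (nat_lit 78) (nat_lit 76) (nat_lit 0) (XT.lf (nat_lit 0) (nat_lit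 887690388375) (nat_lit 228) (nat_lit 638111866167) (nat_lit 76) (nat_lit 215241072820) (nat_lit 24) (nat_lit 5) (nat_lit 27) (nat_lit 5) (nat_lit 25) (nat_lit 4) (nat_lit 390) (nat_lit 362) (nat_lit 148)) (XT.lf (nat_lit 0) (nat_lit 277526626147) (nat_lit 76) (nat_lit 1050374582066) (nat_lit 152) (nat_lit 507831967620) (nat_lit 23) (nat_lit 5) (nat_lit 24) (nat_lit 5) (nat_lit 25) (nat_lit 4) (nat_lit 391) (nat_lit 362) (nat_lit 147)))) (XT.nd (nat_lit 156) (nat_lit 76) (nat_lit 0) (XT.nd (nat_lit 78) (nat_lit 228) (nat_lit 0) (XT.lf (nat_lit 0) (nat_lit 1302706175074) (nat_lit 76) (nat_lit 518069822041) (nat_lit 152) (nat_lit 115826446792) (nat_lit 23) (nat_lit 5) (nat_lit 24) (nat_lit 5) (nat_lit 25) (nat_lit 4) (nat_lit 392) (nat_lit 362) (nat_lit 146)) (XT.lf (nat_lit 0) (nat_lit 302985509563) (nat_lit 228) (nat_lit 1670260427171) (nat_lit 76) (nat_lit 70837180798) (nat_lit 20) (nat_lit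 5) (nat_lit 23) (nat_lit 5) (nat_lit 21) (nat_lit 4) (nat_lit 393) (nat_lit 362) (nat_lit 145))) (XT.nd (nat_lit 78) (nat_lit 76) (nat_lit 0) (XT.lf (nat_lit 0) (nat_lit 780283164635) (nat_lit 228) (nat_lit 677481314137) (nat_lit 76) (nat_lit 699658017640) (nat_lit 20) (nat_lit 5) (nat_lit 23) (nat_lit 5) (nat_lit 21) (nat_lit 4) (nat_lit 394) (nat_lit 362) (nat_lit 144)) (XT.nd (nat_lit 78) (nat_lit 0) (nat_lit 0) (XT.lf (nat_lit 0) (nat_lit 415505380960) (nat_lit 76) (nat_lit 890252160555) (nat_lit 152) (nat_lit 973272051339) (nat_lit 19) (nat_lit 5) (nat_lit 20) (nat_lit 5) (nat_lit 21) (nat_lit 4) (nat_lit 395) (nat_lit 362) (nat_lit 143)) (XT.lf (nat_lit 0) (nat_lit 1634459965588) (nat_lit 76) (nat_lit 257333437844) (nat_lit 152) (nat_lit 517089970791) (nat_lit 19) (nat_lit 5) (nat_lit 20) (nat_lit 5) (nat_lit 21) (nat_lit 4) (nat_lit 396) (nat_lit 362) (nat_lit 142))))))) (XT.nd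 (nat_lit 702) (nat_lit 76) (nat_lit 0) (XT.nd (nat_lit 312) (nat_lit 228) (nat_lit 0) (XT.nd (nat_lit 156) (nat_lit 76) (nat_lit 0) (XT.nd (nat_lit 78) (nat_lit 76) (nat_lit 0) (XT.lf (nat_lit 0) (nat_lit 412173464577) (nat_lit 76) (nat_lit 2132702018866) (nat_lit 76) (nat_lit 2636906729) (nat_lit 18) (nat_lit 4) (nat_lit 19) (nat_lit 5) (nat_lit 19) (nat_lit 4) (nat_lit 397) (nat_lit 362) (nat_lit 141)) (XT.lf (nat_lit 0) (nat_lit 553718549419) (nat_lit 152) (nat_lit 978330535822) (nat_lit 76) (nat_lit 1161846076905) (nat_lit 17) (nat_lit 5) (nat_lit 19) (nat_lit 5) (nat_lit 18) (nat_lit 4) (nat_lit 398) (nat_lit 362) (nat_lit 140))) (XT.nd (nat_lit 78) (nat_lit 0) (nat_lit 0) (XT.lf (nat_lit 0) (nat_lit 285449359327) (nat_lit 76) (nat_lit 875855681028) (nat_lit 152) (nat_lit 1690128831457) (nat_lit 16) (nat_lit 5) (nat_lit 17) (nat_lit 5) (nat_lit 18) (nat_lit 4) (nat_lit 399) (nat_lit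 362) (nat_lit 139)) (XT.lf (nat_lit 0) (nat_lit 1705970162979) (nat_lit 76) (nat_lit 138277574109) (nat_lit 152) (nat_lit 1175187998243) (nat_lit 16) (nat_lit 5) (nat_lit 17) (nat_lit 5) (nat_lit 18) (nat_lit 4) (nat_lit 400) (nat_lit 362) (nat_lit 138)))) (XT.nd (nat_lit 156) (nat_lit 76) (nat_lit 0) (XT.nd (nat_lit 78) (nat_lit 76) (nat_lit 0) (XT.lf (nat_lit 0) (nat_lit 24655973495) (nat_lit 76) (nat_lit 2573595142893) (nat_lit 76) (nat_lit 601312610200) (nat_lit 15) (nat_lit 4) (nat_lit 16) (nat_lit 5) (nat_lit 16) (nat_lit 4) (nat_lit 401) (nat_lit 362) (nat_lit 137)) (XT.lf (nat_lit 0) (nat_lit 57985613640) (nat_lit 152) (nat_lit 1851672460729) (nat_lit 76) (nat_lit 1481173389900) (nat_lit 14) (nat_lit 5) (nat_lit 16) (nat_lit 5) (nat_lit 15) (nat_lit 4) (nat_lit 402) (nat_lit 362) (nat_lit 136))) (XT.nd (nat_lit 78) (nat_lit 76) (nat_lit 0) (XT.lf (nat_lit 0) (nat_lit 737541192377)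 (nat_lit 152) (nat_lit 438196861036) (nat_lit 76) (nat_lit 2420413087087) (nat_lit 14) (nat_lit 5) (nat_lit 16) (nat_lit 5) (nat_lit 15) (nat_lit 4) (nat_lit 403) (nat_lit 362) (nat_lit 135)) (XT.nd (nat_lit 78) (nat_lit 0) (nat_lit 0) (XT.lf (nat_lit 0) (nat_lit 1145667719744) (nat_lit 76) (nat_lit 353346830595) (nat_lit 152) (nat_lit 2316677573859) (nat_lit 13) (nat_lit 5) (nat_lit 14) (nat_lit 5) (nat_lit 15) (nat_lit 4) (nat_lit 404) (nat_lit 362) (nat_lit 134)) (XT.lf (nat_lit 0) (nat_lit 2346560860471) (nat_lit 152) (nat_lit 1183849803840) (nat_lit 0) (nat_lit 520373315599) (nat_lit 13) (nat_lit 5) (nat_lit 15) (nat_lit 4) (nat_lit 13) (nat_lit 4) (nat_lit 405) (nat_lit 362) (nat_lit 133)))))) (XT.nd (nat_lit 43758) (nat_lit 0) (nat_lit 3116) (XT.nd (nat_lit 43602) (nat_lit 0) (nat_lit 3496) (XT.nd (nat_lit 43524) (nat_lit 0) (nat_lit 3496) (XT.lf (nat_lit 0) (nat_lit 433738263899)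 (nat_lit 76) (nat_lit 2847781863930) (nat_lit 76) (nat_lit 1021594316057) (nat_lit 12) (nat_lit 4) (nat_lit 13) (nat_lit 5) (nat_lit 13) (nat_lit 4) (nat_lit 406) (nat_lit 362) (nat_lit 132)) (XT.lf (nat_lit 0) (nat_lit 210897288592) (nat_lit 532) (nat_lit 24397333274) (nat_lit 532) (nat_lit 24397333274) (nat_lit 58) (nat_lit 3) (nat_lit 65) (nat_lit 3) (nat_lit 65) (nat_lit 5) (nat_lit 363) (nat_lit 363) (nat_lit 174))) (XT.nd (nat_lit 78) (nat_lit 0) (nat_lit 76) (XT.lf (nat_lit 76) (nat_lit 210016080605) (nat_lit 0) (nat_lit 233701396987) (nat_lit 532) (nat_lit 96037699377) (nat_lit 59) (nat_lit 5) (nat_lit 58) (nat_lit 3) (nat_lit 65) (nat_lit 5) (nat_lit 364) (nat_lit 363) (nat_lit 173)) (XT.lf (nat_lit 0) (nat_lit 469295379721) (nat_lit 456) (nat_lit 69909805536) (nat_lit 532) (nat_lit 22398866194) (nat_lit 59) (nat_lit 5) (nat_lit 65) (nat_lit 5) (nat_lit 66) (nat_lit 5) (nat_lit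 365) (nat_lit 363) (nat_lit 172)))) (XT.nd (nat_lit 156) (nat_lit 456) (nat_lit 0) (XT.nd (nat_lit 78) (nat_lit 0) (nat_lit 0) (XT.lf (nat_lit 76) (nat_lit 215411399169) (nat_lit 0) (nat_lit 292758909380) (nat_lit 532) (nat_lit 76130463810) (nat_lit 60) (nat_lit 5) (nat_lit 59) (nat_lit 5) (nat_lit 66) (nat_lit 5) (nat_lit 366) (nat_lit 363) (nat_lit 171)) (XT.lf (nat_lit 76) (nat_lit 527534119347) (nat_lit 0) (nat_lit 24532550584) (nat_lit 532) (nat_lit 56593645979) (nat_lit 60) (nat_lit 5) (nat_lit 59) (nat_lit 5) (nat_lit 66) (nat_lit 5) (nat_lit 367) (nat_lit 363) (nat_lit 170))) (XT.nd (nat_lit 78) (nat_lit 532) (nat_lit 0) (XT.lf (nat_lit 76) (nat_lit 235038697664) (nat_lit 0) (nat_lit 376465620743) (nat_lit 532) (nat_lit 22501938311) (nat_lit 61) (nat_lit 5) (nat_lit 60) (nat_lit 5) (nat_lit 67) (nat_lit 5) (nat_lit 368) (nat_lit 363) (nat_lit 169)) (XT.nd (nat_lit 78) (nat_lit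 0) (nat_lit 76) (XT.lf (nat_lit 0) (nat_lit 16513845718) (nat_lit 532) (nat_lit 81131084386) (nat_lit 608) (nat_lit 563474361419) (nat_lit 53) (nat_lit 5) (nat_lit 60) (nat_lit 5) (nat_lit 61) (nat_lit 5) (nat_lit 369) (nat_lit 363) (nat_lit 168)) (XT.lf (nat_lit 0) (nat_lit 69137551092) (nat_lit 532) (nat_lit 419585322200) (nat_lit 76) (nat_lit 200695550748) (nat_lit 54) (nat_lit 5) (nat_lit 61) (nat_lit 5) (nat_lit 55) (nat_lit 5) (nat_lit 370) (nat_lit 363) (nat_lit 167))))))))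
noncomputable def xc238 : XT := (XT.nd (nat_lit 1404) (nat_lit 1064) (nat_lit 0) (XT.nd (nat_lit 702) (nat_lit 760) (nat_lit 0) (XT.nd (nat_lit 312) (nat_lit 684) (nat_lit 0) (XT.nd (nat_lit 156) (nat_lit 228) (nat_lit 0) (XT.nd (nat_lit 78) (nat_lit 380) (nat_lit 0) (XT.lf (nat_lit 0) (nat_lit 130783254467) (nat_lit 532) (nat_lit 68909469995) (nat_lit 76) (nat_lit 519903794589) (nat_lit 54) (nat_lit 5) (nat_lit 61) (nat_lit 5) (nat_lit 55) (nat_lit 5) (nat_lit 371) (nat_lit 363) (nat_lit 166)) (XT.lf (nat_lit 0) (nat_lit 208112545764) (nat_lit 456) (nat_lit 428334736839) (nat_lit 76) (nat_lit 114881424546) (nat_lit 49) (nat_lit 5) (nat_lit 55) (nat_lit 5) (nat_lit 50) (nat_lit 5) (nat_lit 372) (nat_lit 363) (nat_lit 165))) (XT.nd (nat_lit 78) (nat_lit 228) (nat_lit 0) (XT.lf (nat_lit 0) (nat_lit 298748035786) (nat_lit 456) (nat_lit 40515889390) (nat_lit 76) (nat_lit 445765956703) (nat_lit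 49) (nat_lit 5) (nat_lit 55) (nat_lit 5) (nat_lit 50) (nat_lit 5) (nat_lit 373) (nat_lit 363) (nat_lit 164)) (XT.lf (nat_lit 0) (nat_lit 398250558513) (nat_lit 228) (nat_lit 7961729541) (nat_lit 304) (nat_lit 414448628705) (nat_lit 46) (nat_lit 5) (nat_lit 49) (nat_lit 5) (nat_lit 50) (nat_lit 5) (nat_lit 374) (nat_lit 363) (nat_lit 163)))) (XT.nd (nat_lit 156) (nat_lit 456) (nat_lit 0) (XT.nd (nat_lit 78) (nat_lit 0) (nat_lit 0) (XT.lf (nat_lit 0) (nat_lit 7290842660) (nat_lit 228) (nat_lit 524708492579) (nat_lit 304) (nat_lit 326365046825) (nat_lit 43) (nat_lit 5) (nat_lit 46) (nat_lit 5) (nat_lit 47) (nat_lit 5) (nat_lit 375) (nat_lit 363) (nat_lit 162)) (XT.lf (nat_lit 0) (nat_lit 495173289750) (nat_lit 228) (nat_lit 184427055673) (nat_lit 304) (nat_lit 218543699248) (nat_lit 43) (nat_lit 5) (nat_lit 46) (nat_lit 5) (nat_lit 47) (nat_lit 5) (nat_lit 376) (nat_lit 363) (nat_lit 161)))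 (XT.nd (nat_lit 78) (nat_lit 304) (nat_lit 0) (XT.lf (nat_lit 0) (nat_lit 80609656804) (nat_lit 152) (nat_lit 764741437029) (nat_lit 228) (nat_lit 95247653873) (nat_lit 41) (nat_lit 5) (nat_lit 43) (nat_lit 5) (nat_lit 44) (nat_lit 5) (nat_lit 377) (nat_lit 363) (nat_lit 160)) (XT.nd (nat_lit 78) (nat_lit 228) (nat_lit 0) (XT.lf (nat_lit 0) (nat_lit 52109977074) (nat_lit 228) (nat_lit 365762879909) (nat_lit 76) (nat_lit 567216473707) (nat_lit 40) (nat_lit 5) (nat_lit 43) (nat_lit 5) (nat_lit 41) (nat_lit 5) (nat_lit 378) (nat_lit 363) (nat_lit 159)) (XT.lf (nat_lit 0) (nat_lit 174243832645) (nat_lit 228) (nat_lit 36057097376) (nat_lit 304) (nat_lit 822305068394) (nat_lit 37) (nat_lit 5) (nat_lit 40) (nat_lit 5) (nat_lit 41) (nat_lit 5) (nat_lit 379) (nat_lit 363) (nat_lit 158)))))) (XT.nd (nat_lit 312) (nat_lit 456) (nat_lit 0) (XT.nd (nat_lit 156) (nat_lit 152) (nat_lit 0) (XT.nd (nat_lit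 78) (nat_lit 152) (nat_lit 0) (XT.lf (nat_lit 0) (nat_lit 400457629685) (nat_lit 304) (nat_lit 314181497072) (nat_lit 76) (nat_lit 367740035171) (nat_lit 37) (nat_lit 5) (nat_lit 41) (nat_lit 5) (nat_lit 38) (nat_lit 5) (nat_lit 380) (nat_lit 363) (nat_lit 157)) (XT.lf (nat_lit 0) (nat_lit 286951543624) (nat_lit 152) (nat_lit 326713052666) (nat_lit 228) (nat_lit 521842563764) (nat_lit 35) (nat_lit 5) (nat_lit 37) (nat_lit 5) (nat_lit 38) (nat_lit 5) (nat_lit 381) (nat_lit 363) (nat_lit 156))) (XT.nd (nat_lit 78) (nat_lit 152) (nat_lit 0) (XT.lf (nat_lit 0) (nat_lit 854960060141) (nat_lit 228) (nat_lit 240596849457) (nat_lit 76) (nat_lit 96445933246) (nat_lit 35) (nat_lit 5) (nat_lit 38) (nat_lit 5) (nat_lit 36) (nat_lit 5) (nat_lit 382) (nat_lit 363) (nat_lit 155)) (XT.lf (nat_lit 0) (nat_lit 428971443227) (nat_lit 152) (nat_lit 705390537059) (nat_lit 228) (nat_lit 117151974444) (nat_lit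 33) (nat_lit 5) (nat_lit 35) (nat_lit 5) (nat_lit 36) (nat_lit 5) (nat_lit 383) (nat_lit 363) (nat_lit 154)))) (XT.nd (nat_lit 156) (nat_lit 228) (nat_lit 0) (XT.nd (nat_lit 78) (nat_lit 152) (nat_lit 0) (XT.lf (nat_lit 0) (nat_lit 121059902382) (nat_lit 228) (nat_lit 152536351916) (nat_lit 76) (nat_lit 1041418249714) (nat_lit 32) (nat_lit 5) (nat_lit 35) (nat_lit 5) (nat_lit 33) (nat_lit 5) (nat_lit 384) (nat_lit 363) (nat_lit 153)) (XT.lf (nat_lit 0) (nat_lit 391467906713) (nat_lit 228) (nat_lit 789350527014) (nat_lit 76) (nat_lit 200975756688) (nat_lit 30) (nat_lit 5) (nat_lit 33) (nat_lit 5) (nat_lit 31) (nat_lit 5) (nat_lit 385) (nat_lit 363) (nat_lit 152))) (XT.nd (nat_lit 78) (nat_lit 228) (nat_lit 0) (XT.lf (nat_lit 0) (nat_lit 694893882620) (nat_lit 228) (nat_lit 55100379747) (nat_lit 76) (nat_lit 703011162870) (nat_lit 30) (nat_lit 5) (nat_lit 33) (nat_lit 5) (nat_lit 31) (nat_lit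 5) (nat_lit 386) (nat_lit 363) (nat_lit 151)) (XT.nd (nat_lit 78) (nat_lit 76) (nat_lit 0) (XT.lf (nat_lit 0) (nat_lit 776745736966) (nat_lit 152) (nat_lit 264528946987) (nat_lit 228) (nat_lit 487144415110) (nat_lit 28) (nat_lit 5) (nat_lit 30) (nat_lit 5) (nat_lit 31) (nat_lit 5) (nat_lit 387) (nat_lit 363) (nat_lit 150)) (XT.lf (nat_lit 0) (nat_lit 65518611058) (nat_lit 76) (nat_lit 1359216290517) (nat_lit 152) (nat_lit 184381449049) (nat_lit 27) (nat_lit 5) (nat_lit 28) (nat_lit 5) (nat_lit 29) (nat_lit 4) (nat_lit 388) (nat_lit 363) (nat_lit 149))))))) (XT.nd (nat_lit 702) (nat_lit 456) (nat_lit 0) (XT.nd (nat_lit 312) (nat_lit 304) (nat_lit 0) (XT.nd (nat_lit 156) (nat_lit 76) (nat_lit 0) (XT.nd (nat_lit 78) (nat_lit 152) (nat_lit 0) (XT.lf (nat_lit 0) (nat_lit 163425774737) (nat_lit 152) (nat_lit 714625250623) (nat_lit 76) (nat_lit 815707447145) (nat_lit 26) (nat_lit 5) (nat_lit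 28) (nat_lit 5) (nat_lit 27) (nat_lit 5) (nat_lit 389) (nat_lit 363) (nat_lit 148)) (XT.lf (nat_lit 0) (nat_lit 185137212673) (nat_lit 152) (nat_lit 348411525153) (nat_lit 228) (nat_lit 1250883892129) (nat_lit 24) (nat_lit 5) (nat_lit 26) (nat_lit 5) (nat_lit 27) (nat_lit 5) (nat_lit 390) (nat_lit 363) (nat_lit 147))) (XT.nd (nat_lit 78) (nat_lit 76) (nat_lit 0) (XT.lf (nat_lit 0) (nat_lit 958705727411) (nat_lit 228) (nat_lit 689160629813) (nat_lit 76) (nat_lit 232460427624) (nat_lit 24) (nat_lit 5) (nat_lit 27) (nat_lit 5) (nat_lit 25) (nat_lit 4) (nat_lit 391) (nat_lit 363) (nat_lit 146)) (XT.lf (nat_lit 0) (nat_lit 299728937186) (nat_lit 76) (nat_lit 1134404472004) (nat_lit 152) (nat_lit 548458412303) (nat_lit 23) (nat_lit 5) (nat_lit 24) (nat_lit 5) (nat_lit 25) (nat_lit 4) (nat_lit 392) (nat_lit 363) (nat_lit 145)))) (XT.nd (nat_lit 156) (nat_lit 76) (nat_lit 0) (XT.nd (nat_lit 78)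 (nat_lit 228) (nat_lit 0) (XT.lf (nat_lit 0) (nat_lit 1406922836625) (nat_lit 76) (nat_lit 559515336853) (nat_lit 152) (nat_lit 125092458158) (nat_lit 23) (nat_lit 5) (nat_lit 24) (nat_lit 5) (nat_lit 25) (nat_lit 4) (nat_lit 393) (nat_lit 363) (nat_lit 144)) (XT.lf (nat_lit 0) (nat_lit 327224447935) (nat_lit 228) (nat_lit 1803881086930) (nat_lit 76) (nat_lit 76504224212) (nat_lit 20) (nat_lit 5) (nat_lit 23) (nat_lit 5) (nat_lit 21) (nat_lit 4) (nat_lit 394) (nat_lit 363) (nat_lit 143))) (XT.nd (nat_lit 78) (nat_lit 76) (nat_lit 0) (XT.lf (nat_lit 0) (nat_lit 842705908183) (nat_lit 228) (nat_lit 731679657774) (nat_lit 76) (nat_lit 755630722894) (nat_lit 20) (nat_lit 5) (nat_lit 23) (nat_lit 5) (nat_lit 21) (nat_lit 4) (nat_lit 395) (nat_lit 363) (nat_lit 142)) (XT.nd (nat_lit 78) (nat_lit 0) (nat_lit 0) (XT.lf (nat_lit 0) (nat_lit 448745968843) (nat_lit 76) (nat_lit 961472263461) (nat_lit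 152) (nat_lit 1051133720939) (nat_lit 19) (nat_lit 5) (nat_lit 20) (nat_lit 5) (nat_lit 21) (nat_lit 4) (nat_lit 396) (nat_lit 363) (nat_lit 141)) (XT.lf (nat_lit 0) (nat_lit 1765216908581) (nat_lit 76) (nat_lit 277920048115) (nat_lit 152) (nat_lit 558457080947) (nat_lit 19) (nat_lit 5) (nat_lit 20) (nat_lit 5) (nat_lit 21) (nat_lit 4) (nat_lit 397) (nat_lit 363) (nat_lit 140)))))) (XT.nd (nat_lit 312) (nat_lit 228) (nat_lit 0) (XT.nd (nat_lit 156) (nat_lit 76) (nat_lit 0) (XT.nd (nat_lit 78) (nat_lit 76) (nat_lit 0) (XT.lf (nat_lit 0) (nat_lit 445147488635) (nat_lit 76) (nat_lit 2303318113449) (nat_lit 76) (nat_lit 2847772870) (nat_lit 18) (nat_lit 4) (nat_lit 19) (nat_lit 5) (nat_lit 19) (nat_lit 4) (nat_lit 398) (nat_lit 363) (nat_lit 139)) (XT.lf (nat_lit 0) (nat_lit 598016109368) (nat_lit 152) (nat_lit 1056596838645) (nat_lit 76) (nat_lit 1254793820994) (nat_lit 17) (nat_lit 5) (nat_lit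 19) (nat_lit 5) (nat_lit 18) (nat_lit 4) (nat_lit 399) (nat_lit 363) (nat_lit 138))) (XT.nd (nat_lit 78) (nat_lit 0) (nat_lit 0) (XT.lf (nat_lit 0) (nat_lit 308285444570) (nat_lit 76) (nat_lit 945924072662) (nat_lit 152) (nat_lit 1825339058405) (nat_lit 16) (nat_lit 5) (nat_lit 17) (nat_lit 5) (nat_lit 18) (nat_lit 4) (nat_lit 400) (nat_lit 363) (nat_lit 137)) (XT.lf (nat_lit 0) (nat_lit 1842447902404) (nat_lit 76) (nat_lit 149339721845) (nat_lit 152) (nat_lit 1269202964428) (nat_lit 16) (nat_lit 5) (nat_lit 17) (nat_lit 5) (nat_lit 18) (nat_lit 4) (nat_lit 401) (nat_lit 363) (nat_lit 136)))) (XT.nd (nat_lit 156) (nat_lit 76) (nat_lit 0) (XT.nd (nat_lit 78) (nat_lit 76) (nat_lit 0) (XT.lf (nat_lit 0) (nat_lit 26628578540) (nat_lit 76) (nat_lit 2779482694655) (nat_lit 76) (nat_lit 649417546096) (nat_lit 15) (nat_lit 4) (nat_lit 16) (nat_lit 5) (nat_lit 16) (nat_lit 4) (nat_lit 402) (nat_lit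 363) (nat_lit 135)) (XT.lf (nat_lit 0) (nat_lit 62624526872) (nat_lit 152) (nat_lit 1999806136443) (nat_lit 76) (nat_lit 1599667312943) (nat_lit 14) (nat_lit 5) (nat_lit 16) (nat_lit 5) (nat_lit 15) (nat_lit 4) (nat_lit 403) (nat_lit 363) (nat_lit 134))) (XT.nd (nat_lit 78) (nat_lit 76) (nat_lit 0) (XT.lf (nat_lit 0) (nat_lit 796544547158) (nat_lit 152) (nat_lit 473252497749) (nat_lit 76) (nat_lit 2614046182064) (nat_lit 14) (nat_lit 5) (nat_lit 16) (nat_lit 5) (nat_lit 15) (nat_lit 4) (nat_lit 404) (nat_lit 363) (nat_lit 133)) (XT.nd (nat_lit 43680) (nat_lit 0) (nat_lit 3420) (XT.lf (nat_lit 0) (nat_lit 1237321246654) (nat_lit 76) (nat_lit 381614525332) (nat_lit 152) (nat_lit 2502011717520) (nat_lit 13) (nat_lit 5) (nat_lit 14) (nat_lit 5) (nat_lit 15) (nat_lit 4) (nat_lit 405) (nat_lit 363) (nat_lit 132)) (XT.lf (nat_lit 0) (nat_lit 227769291788) (nat_lit 532) (nat_lit 26349000913)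 (nat_lit 532) (nat_lit 26349000913) (nat_lit 58) (nat_lit 3) (nat_lit 65) (nat_lit 3) (nat_lit 65) (nat_lit 5) (nat_lit 364) (nat_lit 364) (nat_lit 172))))))))
noncomputable def xc239 : XT := (XT.nd (nat_lit 1404) (nat_lit 1444) (nat_lit 0) (XT.nd (nat_lit 702) (nat_lit 1064) (nat_lit 0) (XT.nd (nat_lit 312) (nat_lit 684) (nat_lit 0) (XT.nd (nat_lit 156) (nat_lit 0) (nat_lit 76) (XT.nd (nat_lit 78) (nat_lit 0) (nat_lit 76) (XT.lf (nat_lit 76) (nat_lit 226817599074) (nat_lit 0) (nat_lit 252397689914) (nat_lit 532) (nat_lit 103720268473) (nat_lit 59) (nat_lit 5) (nat_lit 58) (nat_lit 3) (nat_lit 65) (nat_lit 5) (nat_lit 365) (nat_lit 364) (nat_lit 171)) (XT.lf (nat_lit 0) (nat_lit 506839388646) (nat_lit 456) (nat_lit 75502339938) (nat_lit 532) (nat_lit 24190616133) (nat_lit 59) (nat_lit 5) (nat_lit 65) (nat_lit 5) (nat_lit 66) (nat_lit 5) (nat_lit 366) (nat_lit 364) (nat_lit 170))) (XT.nd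 (nat_lit 78) (nat_lit 0) (nat_lit 0) (XT.lf (nat_lit 76) (nat_lit 232644554814) (nat_lit 0) (nat_lit 316179734788) (nat_lit 532) (nat_lit 82220515514) (nat_lit 60) (nat_lit 5) (nat_lit 59) (nat_lit 5) (nat_lit 66) (nat_lit 5) (nat_lit 367) (nat_lit 364) (nat_lit 169)) (XT.lf (nat_lit 76) (nat_lit 569737074553) (nat_lit 0) (nat_lit 26495258944) (nat_lit 532) (nat_lit 61120780804) (nat_lit 60) (nat_lit 5) (nat_lit 59) (nat_lit 5) (nat_lit 66) (nat_lit 5) (nat_lit 368) (nat_lit 364) (nat_lit 168)))) (XT.nd (nat_lit 156) (nat_lit 304) (nat_lit 0) (XT.nd (nat_lit 78) (nat_lit 532) (nat_lit 0) (XT.lf (nat_lit 76) (nat_lit 253842042070) (nat_lit 0) (nat_lit 406582930994) (nat_lit 532) (nat_lit 24301759008) (nat_lit 61) (nat_lit 5) (nat_lit 60) (nat_lit 5) (nat_lit 67) (nat_lit 5) (nat_lit 369) (nat_lit 364) (nat_lit 167)) (XT.lf (nat_lit 0) (nat_lit 17835247488) (nat_lit 532) (nat_lit 87621325086)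 (nat_lit 608) (nat_lit 608552238356) (nat_lit 53) (nat_lit 5) (nat_lit 60) (nat_lit 5) (nat_lit 61) (nat_lit 5) (nat_lit 370) (nat_lit 364) (nat_lit 166))) (XT.nd (nat_lit 78) (nat_lit 380) (nat_lit 0) (XT.lf (nat_lit 0) (nat_lit 74668832353) (nat_lit 532) (nat_lit 453151884630) (nat_lit 76) (nat_lit 216751158450) (nat_lit 54) (nat_lit 5) (nat_lit 61) (nat_lit 5) (nat_lit 55) (nat_lit 5) (nat_lit 371) (nat_lit 364) (nat_lit 165)) (XT.nd (nat_lit 78) (nat_lit 380) (nat_lit 0) (XT.lf (nat_lit 0) (nat_lit 141246171467) (nat_lit 532) (nat_lit 74421983755) (nat_lit 76) (nat_lit 561496064492) (nat_lit 54) (nat_lit 5) (nat_lit 61) (nat_lit 5) (nat_lit 55) (nat_lit 5) (nat_lit 372) (nat_lit 364) (nat_lit 164)) (XT.lf (nat_lit 0) (nat_lit 224761792636) (nat_lit 456) (nat_lit 462601258210) (nat_lit 76) (nat_lit 124071933113) (nat_lit 49) (nat_lit 5) (nat_lit 55) (nat_lit 5) (nat_lit 50) (nat_lit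 5) (nat_lit 373) (nat_lit 364) (nat_lit 163)))))) (XT.nd (nat_lit 312) (nat_lit 608) (nat_lit 0) (XT.nd (nat_lit 156) (nat_lit 228) (nat_lit 0) (XT.nd (nat_lit 78) (nat_lit 228) (nat_lit 0) (XT.lf (nat_lit 0) (nat_lit 322648103845) (nat_lit 456) (nat_lit 43756922044) (nat_lit 76) (nat_lit 481427228241) (nat_lit 49) (nat_lit 5) (nat_lit 55) (nat_lit 5) (nat_lit 50) (nat_lit 5) (nat_lit 374) (nat_lit 364) (nat_lit 162)) (XT.lf (nat_lit 0) (nat_lit 430110835653) (nat_lit 228) (nat_lit 8598649550) (nat_lit 304) (nat_lit 447604287506) (nat_lit 46) (nat_lit 5) (nat_lit 49) (nat_lit 5) (nat_lit 50) (nat_lit 5) (nat_lit 375) (nat_lit 364) (nat_lit 161))) (XT.nd (nat_lit 78) (nat_lit 0) (nat_lit 0) (XT.lf (nat_lit 0) (nat_lit 7874353167) (nat_lit 228) (nat_lit 566685133393) (nat_lit 304) (nat_lit 352474029468) (nat_lit 43) (nat_lit 5) (nat_lit 46) (nat_lit 5) (nat_lit 47) (nat_lit 5) (nat_lit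 376) (nat_lit 364) (nat_lit 160)) (XT.lf (nat_lit 0) (nat_lit 534787378017) (nat_lit 228) (nat_lit 199181184393) (nat_lit 304) (nat_lit 236026990463) (nat_lit 43) (nat_lit 5) (nat_lit 46) (nat_lit 5) (nat_lit 47) (nat_lit 5) (nat_lit 377) (nat_lit 364) (nat_lit 159)))) (XT.nd (nat_lit 156) (nat_lit 380) (nat_lit 0) (XT.nd (nat_lit 78) (nat_lit 76) (nat_lit 0) (XT.lf (nat_lit 0) (nat_lit 87058662882) (nat_lit 152) (nat_lit 825920700195) (nat_lit 228) (nat_lit 102867269697) (nat_lit 41) (nat_lit 5) (nat_lit 43) (nat_lit 5) (nat_lit 44) (nat_lit 5) (nat_lit 378) (nat_lit 364) (nat_lit 158)) (XT.lf (nat_lit 0) (nat_lit 56278948070) (nat_lit 228) (nat_lit 395023684787) (nat_lit 76) (nat_lit 612593830283) (nat_lit 40) (nat_lit 5) (nat_lit 43) (nat_lit 5) (nat_lit 41) (nat_lit 5) (nat_lit 379) (nat_lit 364) (nat_lit 157))) (XT.nd (nat_lit 78) (nat_lit 152) (nat_lit 0) (XT.lf (nat_lit 0) (nat_lit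 188183559062) (nat_lit 228) (nat_lit 38941610675) (nat_lit 304) (nat_lit 888089295161) (nat_lit 37) (nat_lit 5) (nat_lit 40) (nat_lit 5) (nat_lit 41) (nat_lit 5) (nat_lit 380) (nat_lit 364) (nat_lit 156)) (XT.nd (nat_lit 78) (nat_lit 152) (nat_lit 0) (XT.lf (nat_lit 0) (nat_lit 432494394342) (nat_lit 304) (nat_lit 339315802129) (nat_lit 76) (nat_lit 397159285916) (nat_lit 37) (nat_lit 5) (nat_lit 41) (nat_lit 5) (nat_lit 38) (nat_lit 5) (nat_lit 381) (nat_lit 364) (nat_lit 155)) (XT.lf (nat_lit 0) (nat_lit 309907876387) (nat_lit 152) (nat_lit 352850035493) (nat_lit 228) (nat_lit 563589809005) (nat_lit 35) (nat_lit 5) (nat_lit 37) (nat_lit 5) (nat_lit 38) (nat_lit 5) (nat_lit 382) (nat_lit 364) (nat_lit 154))))))) (XT.nd (nat_lit 702) (nat_lit 608) (nat_lit 0) (XT.nd (nat_lit 312) (nat_lit 456) (nat_lit 0) (XT.nd (nat_lit 156) (nat_lit 228) (nat_lit 0) (XT.nd (nat_lit 78) (nat_lit 152)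 (nat_lit 0) (XT.lf (nat_lit 0) (nat_lit 923357003252) (nat_lit 228) (nat_lit 259844393923) (nat_lit 76) (nat_lit 104161661902) (nat_lit 35) (nat_lit 5) (nat_lit 38) (nat_lit 5) (nat_lit 36) (nat_lit 5) (nat_lit 383) (nat_lit 364) (nat_lit 153)) (XT.lf (nat_lit 0) (nat_lit 463289357024) (nat_lit 152) (nat_lit 761821714510) (nat_lit 228) (nat_lit 126523988827) (nat_lit 33) (nat_lit 5) (nat_lit 35) (nat_lit 5) (nat_lit 36) (nat_lit 5) (nat_lit 384) (nat_lit 364) (nat_lit 152))) (XT.nd (nat_lit 78) (nat_lit 152) (nat_lit 0) (XT.lf (nat_lit 0) (nat_lit 130744820860) (nat_lit 228) (nat_lit 164739069668) (nat_lit 76) (nat_lit 1124731763597) (nat_lit 32) (nat_lit 5) (nat_lit 35) (nat_lit 5) (nat_lit 33) (nat_lit 5) (nat_lit 385) (nat_lit 364) (nat_lit 151)) (XT.lf (nat_lit 0) (nat_lit 422785462189) (nat_lit 228) (nat_lit 852498375330) (nat_lit 76) (nat_lit 217053878197) (nat_lit 30) (nat_lit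 5) (nat_lit 33) (nat_lit 5) (nat_lit 31) (nat_lit 5) (nat_lit 386) (nat_lit 364) (nat_lit 150)))) (XT.nd (nat_lit 156) (nat_lit 304) (nat_lit 0) (XT.nd (nat_lit 78) (nat_lit 152) (nat_lit 0) (XT.lf (nat_lit 0) (nat_lit 750485507063) (nat_lit 228) (nat_lit 59508230641) (nat_lit 76) (nat_lit 759252112357) (nat_lit 30) (nat_lit 5) (nat_lit 33) (nat_lit 5) (nat_lit 31) (nat_lit 5) (nat_lit 387) (nat_lit 364) (nat_lit 149)) (XT.lf (nat_lit 0) (nat_lit 838885570866) (nat_lit 152) (nat_lit 285691197412) (nat_lit 228) (nat_lit 526115849859) (nat_lit 28) (nat_lit 5) (nat_lit 30) (nat_lit 5) (nat_lit 31) (nat_lit 5) (nat_lit 388) (nat_lit 364) (nat_lit 148))) (XT.nd (nat_lit 78) (nat_lit 228) (nat_lit 0) (XT.lf (nat_lit 0) (nat_lit 70760277551) (nat_lit 76) (nat_lit 1467953523365) (nat_lit 152) (nat_lit 199131849104) (nat_lit 27) (nat_lit 5) (nat_lit 28) (nat_lit 5) (nat_lit 29) (nat_lit 4) (nat_lit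 389) (nat_lit 364) (nat_lit 147)) (XT.nd (nat_lit 78) (nat_lit 152) (nat_lit 0) (XT.lf (nat_lit 0) (nat_lit 176499938636) (nat_lit 152) (nat_lit 771795100788) (nat_lit 76) (nat_lit 880964102663) (nat_lit 26) (nat_lit 5) (nat_lit 28) (nat_lit 5) (nat_lit 27) (nat_lit 5) (nat_lit 390) (nat_lit 364) (nat_lit 146)) (XT.lf (nat_lit 0) (nat_lit 199948355271) (nat_lit 152) (nat_lit 376284379933) (nat_lit 228) (nat_lit 1350954497218) (nat_lit 24) (nat_lit 5) (nat_lit 26) (nat_lit 5) (nat_lit 27) (nat_lit 5) (nat_lit 391) (nat_lit 364) (nat_lit 145)))))) (XT.nd (nat_lit 390) (nat_lit 304) (nat_lit 0) (XT.nd (nat_lit 156) (nat_lit 228) (nat_lit 0) (XT.nd (nat_lit 78) (nat_lit 76) (nat_lit 0) (XT.lf (nat_lit 0) (nat_lit 1035402278168) (nat_lit 228) (nat_lit 744293321035) (nat_lit 76) (nat_lit 251057320972) (nat_lit 24) (nat_lit 5) (nat_lit 27) (nat_lit 5) (nat_lit 25) (nat_lit 4) (nat_lit 392) (nat_lit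 364) (nat_lit 144)) (XT.lf (nat_lit 0) (nat_lit 323707407295) (nat_lit 76) (nat_lit 1225156764069) (nat_lit 152) (nat_lit 592334988642) (nat_lit 23) (nat_lit 5) (nat_lit 24) (nat_lit 5) (nat_lit 25) (nat_lit 4) (nat_lit 393) (nat_lit 364) (nat_lit 143))) (XT.nd (nat_lit 78) (nat_lit 228) (nat_lit 0) (XT.lf (nat_lit 0) (nat_lit 1519476807197) (nat_lit 76) (nat_lit 604276502972) (nat_lit 152) (nat_lit 135099765324) (nat_lit 23) (nat_lit 5) (nat_lit 24) (nat_lit 5) (nat_lit 25) (nat_lit 4) (nat_lit 394) (nat_lit 364) (nat_lit 142)) (XT.nd (nat_lit 78) (nat_lit 0) (nat_lit 0) (XT.lf (nat_lit 0) (nat_lit 353402487453) (nat_lit 228) (nat_lit 1948191424352) (nat_lit 76) (nat_lit 82624621263) (nat_lit 20) (nat_lit 5) (nat_lit 23) (nat_lit 5) (nat_lit 21) (nat_lit 4) (nat_lit 395) (nat_lit 364) (nat_lit 141)) (XT.lf (nat_lit 0) (nat_lit 910122458322) (nat_lit 228) (nat_lit 790213891940) (nat_lit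 76) (nat_lit 816081235460) (nat_lit 20) (nat_lit 5) (nat_lit 23) (nat_lit 5) (nat_lit 21) (nat_lit 4) (nat_lit 396) (nat_lit 364) (nat_lit 140))))) (XT.nd (nat_lit 156) (nat_lit 228) (nat_lit 0) (XT.nd (nat_lit 78) (nat_lit 0) (nat_lit 0) (XT.lf (nat_lit 0) (nat_lit 484645781301) (nat_lit 76) (nat_lit 1038389984578) (nat_lit 152) (nat_lit 1135224337590) (nat_lit 19) (nat_lit 5) (nat_lit 20) (nat_lit 5) (nat_lit 21) (nat_lit 4) (nat_lit 397) (nat_lit 364) (nat_lit 139)) (XT.lf (nat_lit 0) (nat_lit 1906434386222) (nat_lit 76) (nat_lit 300153596445) (nat_lit 152) (nat_lit 603133572400) (nat_lit 19) (nat_lit 5) (nat_lit 20) (nat_lit 5) (nat_lit 21) (nat_lit 4) (nat_lit 398) (nat_lit 364) (nat_lit 138))) (XT.nd (nat_lit 78) (nat_lit 152) (nat_lit 0) (XT.lf (nat_lit 0) (nat_lit 480759413661) (nat_lit 76) (nat_lit 2487583505146) (nat_lit 76) (nat_lit 3075520628) (nat_lit 18) (nat_lit 4) (nat_lit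 19) (nat_lit 5) (nat_lit 19) (nat_lit 4) (nat_lit 399) (nat_lit 364) (nat_lit 137)) (XT.nd (nat_lit 78) (nat_lit 76) (nat_lit 0) (XT.lf (nat_lit 0) (nat_lit 645857463272) (nat_lit 152) (nat_lit 1141124465673) (nat_lit 76) (nat_lit 1355177376345) (nat_lit 17) (nat_lit 5) (nat_lit 19) (nat_lit 5) (nat_lit 18) (nat_lit 4) (nat_lit 400) (nat_lit 364) (nat_lit 136)) (XT.lf (nat_lit 0) (nat_lit 332948397160) (nat_lit 76) (nat_lit 1021597944593) (nat_lit 152) (nat_lit 1971366114859) (nat_lit 16) (nat_lit 5) (nat_lit 17) (nat_lit 5) (nat_lit 18) (nat_lit 4) (nat_lit 401) (nat_lit 364) (nat_lit 135))))))))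
noncomputable def xc240 : XT := (XT.nd (nat_lit 45084) (nat_lit 0) (nat_lit 456) (XT.nd (nat_lit 44382) (nat_lit 0) (nat_lit 2204) (XT.nd (nat_lit 43992) (nat_lit 0) (nat_lit 3344) (XT.nd (nat_lit 156) (nat_lit 76) (nat_lit 0) (XT.nd (nat_lit 78) (nat_lit 76) (nat_lit 0) (XT.lf (nat_lit 0) (nat_lit 1989843842952) (nat_lit 76) (nat_lit 161286849702) (nat_lit 152) (nat_lit 1370739138417) (nat_lit 16) (nat_lit 5) (nat_lit 17) (nat_lit 5) (nat_lit 18) (nat_lit 4) (nat_lit 402) (nat_lit 364) (nat_lit 134)) (XT.lf (nat_lit 0) (nat_lit 28758973847) (nat_lit 76) (nat_lit 3001841259072) (nat_lit 76) (nat_lit 701370887266) (nat_lit 15) (nat_lit 4) (nat_lit 16) (nat_lit 5) (nat_lit 16) (nat_lit 4) (nat_lit 403) (nat_lit 364) (nat_lit 133))) (XT.nd (nat_lit 78) (nat_lit 0) (nat_lit 0) (XT.lf (nat_lit 0) (nat_lit 67634544013) (nat_lit 152) (nat_lit 2159790523497) (nat_lit 76) (nat_lit 1727640742432)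 (nat_lit 14) (nat_lit 5) (nat_lit 16) (nat_lit 5) (nat_lit 15) (nat_lit 4) (nat_lit 404) (nat_lit 364) (nat_lit 132)) (XT.lf (nat_lit 0) (nat_lit 860268161848) (nat_lit 152) (nat_lit 511112601401) (nat_lit 76) (nat_lit 2823169917790) (nat_lit 14) (nat_lit 5) (nat_lit 16) (nat_lit 5) (nat_lit 15) (nat_lit 4) (nat_lit 405) (nat_lit 364) (nat_lit 131)))) (XT.nd (nat_lit 156) (nat_lit 0) (nat_lit 76) (XT.nd (nat_lit 78) (nat_lit 0) (nat_lit 0) (XT.lf (nat_lit 0) (nat_lit 245991023838) (nat_lit 532) (nat_lit 28456818942) (nat_lit 532) (nat_lit 28456818942) (nat_lit 58) (nat_lit 3) (nat_lit 65) (nat_lit 3) (nat_lit 65) (nat_lit 5) (nat_lit 365) (nat_lit 365) (nat_lit 170)) (XT.lf (nat_lit 76) (nat_lit 244963205921) (nat_lit 0) (nat_lit 272589660429) (nat_lit 532) (nat_lit 112017506844) (nat_lit 59) (nat_lit 5) (nat_lit 58) (nat_lit 3) (nat_lit 65) (nat_lit 5) (nat_lit 366) (nat_lit 365) (nat_lit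 169))) (XT.nd (nat_lit 78) (nat_lit 0) (nat_lit 0) (XT.lf (nat_lit 0) (nat_lit 547386864282) (nat_lit 456) (nat_lit 81542312763) (nat_lit 532) (nat_lit 26125728802) (nat_lit 59) (nat_lit 5) (nat_lit 65) (nat_lit 5) (nat_lit 66) (nat_lit 5) (nat_lit 367) (nat_lit 365) (nat_lit 168)) (XT.nd (nat_lit 78) (nat_lit 0) (nat_lit 0) (XT.lf (nat_lit 76) (nat_lit 251256328141) (nat_lit 0) (nat_lit 341474210157) (nat_lit 532) (nat_lit 88797826335) (nat_lit 60) (nat_lit 5) (nat_lit 59) (nat_lit 5) (nat_lit 66) (nat_lit 5) (nat_lit 368) (nat_lit 365) (nat_lit 167)) (XT.lf (nat_lit 76) (nat_lit 615316233982) (nat_lit 0) (nat_lit 28614969091) (nat_lit 532) (nat_lit 66010137324) (nat_lit 60) (nat_lit 5) (nat_lit 59) (nat_lit 5) (nat_lit 66) (nat_lit 5) (nat_lit 369) (nat_lit 365) (nat_lit 166)))))) (XT.nd (nat_lit 312) (nat_lit 760) (nat_lit 0) (XT.nd (nat_lit 156) (nat_lit 0) (nat_lit 76) (XT.nd (nat_lit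 78) (nat_lit 532) (nat_lit 0) (XT.lf (nat_lit 76) (nat_lit 274149618563) (nat_lit 0) (nat_lit 439109617421) (nat_lit 532) (nat_lit 26245613062) (nat_lit 61) (nat_lit 5) (nat_lit 60) (nat_lit 5) (nat_lit 67) (nat_lit 5) (nat_lit 370) (nat_lit 365) (nat_lit 165)) (XT.lf (nat_lit 0) (nat_lit 19262319442) (nat_lit 532) (nat_lit 94630820144) (nat_lit 608) (nat_lit 657236355717) (nat_lit 53) (nat_lit 5) (nat_lit 60) (nat_lit 5) (nat_lit 61) (nat_lit 5) (nat_lit 371) (nat_lit 365) (nat_lit 164))) (XT.nd (nat_lit 78) (nat_lit 0) (nat_lit 0) (XT.lf (nat_lit 0) (nat_lit 80642576573) (nat_lit 532) (nat_lit 489403809623) (nat_lit 76) (nat_lit 234091219955) (nat_lit 54) (nat_lit 5) (nat_lit 61) (nat_lit 5) (nat_lit 55) (nat_lit 5) (nat_lit 372) (nat_lit 365) (nat_lit 163)) (XT.lf (nat_lit 0) (nat_lit 152546085213) (nat_lit 532) (nat_lit 80375533403) (nat_lit 76) (nat_lit 606415720789) (nat_lit 54)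 (nat_lit 5) (nat_lit 61) (nat_lit 5) (nat_lit 55) (nat_lit 5) (nat_lit 373) (nat_lit 365) (nat_lit 162)))) (XT.nd (nat_lit 156) (nat_lit 456) (nat_lit 0) (XT.nd (nat_lit 78) (nat_lit 0) (nat_lit 0) (XT.lf (nat_lit 0) (nat_lit 242742944562) (nat_lit 456) (nat_lit 499609138036) (nat_lit 76) (nat_lit 133997683134) (nat_lit 49) (nat_lit 5) (nat_lit 55) (nat_lit 5) (nat_lit 50) (nat_lit 5) (nat_lit 374) (nat_lit 365) (nat_lit 161)) (XT.lf (nat_lit 0) (nat_lit 348460145221) (nat_lit 456) (nat_lit 47257271336) (nat_lit 76) (nat_lit 519941402216) (nat_lit 49) (nat_lit 5) (nat_lit 55) (nat_lit 5) (nat_lit 50) (nat_lit 5) (nat_lit 375) (nat_lit 365) (nat_lit 160))) (XT.nd (nat_lit 78) (nat_lit 228) (nat_lit 0) (XT.lf (nat_lit 0) (nat_lit 464519901801) (nat_lit 228) (nat_lit 9286525779) (nat_lit 304) (nat_lit 483412432037) (nat_lit 46) (nat_lit 5) (nat_lit 49) (nat_lit 5) (nat_lit 50) (nat_lit 5)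 (nat_lit 376) (nat_lit 365) (nat_lit 159)) (XT.nd (nat_lit 78) (nat_lit 0) (nat_lit 0) (XT.lf (nat_lit 0) (nat_lit 8504509834) (nat_lit 228) (nat_lit 612019910976) (nat_lit 304) (nat_lit 380671762265) (nat_lit 43) (nat_lit 5) (nat_lit 46) (nat_lit 5) (nat_lit 47) (nat_lit 5) (nat_lit 377) (nat_lit 365) (nat_lit 158)) (XT.lf (nat_lit 0) (nat_lit 577570561233) (nat_lit 228) (nat_lit 215115648508) (nat_lit 304) (nat_lit 254908974181) (nat_lit 43) (nat_lit 5) (nat_lit 46) (nat_lit 5) (nat_lit 47) (nat_lit 5) (nat_lit 378) (nat_lit 365) (nat_lit 157))))))) (XT.nd (nat_lit 702) (nat_lit 760) (nat_lit 0) (XT.nd (nat_lit 312) (nat_lit 532) (nat_lit 0) (XT.nd (nat_lit 156) (nat_lit 228) (nat_lit 0) (XT.nd (nat_lit 78) (nat_lit 76) (nat_lit 0) (XT.lf (nat_lit 0) (nat_lit 94023556131) (nat_lit 152) (nat_lit 891994311804) (nat_lit 228) (nat_lit 111096482818) (nat_lit 41) (nat_lit 5) (nat_lit 43)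 (nat_lit 5) (nat_lit 44) (nat_lit 5) (nat_lit 379) (nat_lit 365) (nat_lit 156)) (XT.lf (nat_lit 0) (nat_lit 60781412089) (nat_lit 228) (nat_lit 426625386227) (nat_lit 76) (nat_lit 661601369868) (nat_lit 40) (nat_lit 5) (nat_lit 43) (nat_lit 5) (nat_lit 41) (nat_lit 5) (nat_lit 380) (nat_lit 365) (nat_lit 155))) (XT.nd (nat_lit 78) (nat_lit 0) (nat_lit 0) (XT.lf (nat_lit 0) (nat_lit 203238432235) (nat_lit 228) (nat_lit 42056892811) (nat_lit 304) (nat_lit 959136285563) (nat_lit 37) (nat_lit 5) (nat_lit 40) (nat_lit 5) (nat_lit 41) (nat_lit 5) (nat_lit 381) (nat_lit 365) (nat_lit 154)) (XT.lf (nat_lit 0) (nat_lit 467094078161) (nat_lit 304) (nat_lit 366460882221) (nat_lit 76) (nat_lit 428932069882) (nat_lit 37) (nat_lit 5) (nat_lit 41) (nat_lit 5) (nat_lit 38) (nat_lit 5) (nat_lit 382) (nat_lit 365) (nat_lit 153)))) (XT.nd (nat_lit 156) (nat_lit 380) (nat_lit 0) (XT.nd (nat_lit 78) (nat_lit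 0) (nat_lit 0) (XT.lf (nat_lit 0) (nat_lit 334700685916) (nat_lit 152) (nat_lit 381077985703) (nat_lit 228) (nat_lit 608676856672) (nat_lit 35) (nat_lit 5) (nat_lit 37) (nat_lit 5) (nat_lit 38) (nat_lit 5) (nat_lit 383) (nat_lit 365) (nat_lit 152)) (XT.lf (nat_lit 0) (nat_lit 997225682082) (nat_lit 228) (nat_lit 280631770977) (nat_lit 76) (nat_lit 112494641146) (nat_lit 35) (nat_lit 5) (nat_lit 38) (nat_lit 5) (nat_lit 36) (nat_lit 5) (nat_lit 384) (nat_lit 365) (nat_lit 151))) (XT.nd (nat_lit 78) (nat_lit 228) (nat_lit 0) (XT.lf (nat_lit 0) (nat_lit 500352675629) (nat_lit 152) (nat_lit 822767395504) (nat_lit 228) (nat_lit 136645784843) (nat_lit 33) (nat_lit 5) (nat_lit 35) (nat_lit 5) (nat_lit 36) (nat_lit 5) (nat_lit 385) (nat_lit 365) (nat_lit 150)) (XT.nd (nat_lit 78) (nat_lit 152) (nat_lit 0) (XT.lf (nat_lit 0) (nat_lit 141204514799) (nat_lit 228) (nat_lit 177918032004) (nat_lit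 76) (nat_lit 1214710350901) (nat_lit 32) (nat_lit 5) (nat_lit 35) (nat_lit 5) (nat_lit 33) (nat_lit 5) (nat_lit 386) (nat_lit 365) (nat_lit 149)) (XT.lf (nat_lit 0) (nat_lit 456608404565) (nat_lit 228) (nat_lit 920698079166) (nat_lit 76) (nat_lit 234418240728) (nat_lit 30) (nat_lit 5) (nat_lit 33) (nat_lit 5) (nat_lit 31) (nat_lit 5) (nat_lit 387) (nat_lit 365) (nat_lit 148)))))) (XT.nd (nat_lit 312) (nat_lit 456) (nat_lit 0) (XT.nd (nat_lit 156) (nat_lit 152) (nat_lit 0) (XT.nd (nat_lit 78) (nat_lit 152) (nat_lit 0) (XT.lf (nat_lit 0) (nat_lit 810524445221) (nat_lit 228) (nat_lit 64268735212) (nat_lit 76) (nat_lit 819992329749) (nat_lit 30) (nat_lit 5) (nat_lit 33) (nat_lit 5) (nat_lit 31) (nat_lit 5) (nat_lit 388) (nat_lit 365) (nat_lit 147)) (XT.lf (nat_lit 0) (nat_lit 905996566520) (nat_lit 152) (nat_lit 308546437192) (nat_lit 228) (nat_lit 568205016288) (nat_lit 28) (nat_lit 5) (nat_lit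 30) (nat_lit 5) (nat_lit 31) (nat_lit 5) (nat_lit 389) (nat_lit 365) (nat_lit 146))) (XT.nd (nat_lit 78) (nat_lit 76) (nat_lit 0) (XT.lf (nat_lit 0) (nat_lit 76421252026) (nat_lit 76) (nat_lit 1585389744884) (nat_lit 152) (nat_lit 215062297693) (nat_lit 27) (nat_lit 5) (nat_lit 28) (nat_lit 5) (nat_lit 29) (nat_lit 4) (nat_lit 390) (nat_lit 365) (nat_lit 145)) (XT.lf (nat_lit 0) (nat_lit 190620021106) (nat_lit 152) (nat_lit 833538563201) (nat_lit 76) (nat_lit 951441282099) (nat_lit 26) (nat_lit 5) (nat_lit 28) (nat_lit 5) (nat_lit 27) (nat_lit 5) (nat_lit 391) (nat_lit 365) (nat_lit 144)))) (XT.nd (nat_lit 156) (nat_lit 304) (nat_lit 0) (XT.nd (nat_lit 78) (nat_lit 0) (nat_lit 0) (XT.lf (nat_lit 0) (nat_lit 215944365655) (nat_lit 152) (nat_lit 406387072687) (nat_lit 228) (nat_lit 1459030765877) (nat_lit 24) (nat_lit 5) (nat_lit 26) (nat_lit 5) (nat_lit 27) (nat_lit 5) (nat_lit 392) (nat_lit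 365) (nat_lit 143)) (XT.lf (nat_lit 0) (nat_lit 1118234539780) (nat_lit 228) (nat_lit 803836650261) (nat_lit 76) (nat_lit 271141957351) (nat_lit 24) (nat_lit 5) (nat_lit 27) (nat_lit 5) (nat_lit 25) (nat_lit 4) (nat_lit 393) (nat_lit 365) (nat_lit 142))) (XT.nd (nat_lit 78) (nat_lit 228) (nat_lit 0) (XT.lf (nat_lit 0) (nat_lit 349604132881) (nat_lit 76) (nat_lit 1323169248871) (nat_lit 152) (nat_lit 639721704875) (nat_lit 23) (nat_lit 5) (nat_lit 24) (nat_lit 5) (nat_lit 25) (nat_lit 4) (nat_lit 394) (nat_lit 365) (nat_lit 141)) (XT.nd (nat_lit 78) (nat_lit 228) (nat_lit 0) (XT.lf (nat_lit 0) (nat_lit 1641035074923) (nat_lit 76) (nat_lit 652618571059) (nat_lit 152) (nat_lit 145907669830) (nat_lit 23) (nat_lit 5) (nat_lit 24) (nat_lit 5) (nat_lit 25) (nat_lit 4) (nat_lit 395) (nat_lit 365) (nat_lit 140)) (XT.lf (nat_lit 0) (nat_lit 381674758194) (nat_lit 228) (nat_lit 2104046610101) (nat_lit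 76) (nat_lit 89234641644) (nat_lit 20) (nat_lit 5) (nat_lit 23) (nat_lit 5) (nat_lit 21) (nat_lit 4) (nat_lit 396) (nat_lit 365) (nat_lit 139))))))))
noncomputable def xc241 : XT := (XT.nd (nat_lit 45162) (nat_lit 0) (nat_lit 912) (XT.nd (nat_lit 44460) (nat_lit 0) (nat_lit 2964) (XT.nd (nat_lit 312) (nat_lit 304) (nat_lit 0) (XT.nd (nat_lit 156) (nat_lit 76) (nat_lit 0) (XT.nd (nat_lit 78) (nat_lit 76) (nat_lit 0) (XT.lf (nat_lit 0) (nat_lit 982932321418) (nat_lit 228) (nat_lit 853430884591) (nat_lit 76) (nat_lit 881367781223) (nat_lit 20) (nat_lit 5) (nat_lit 23) (nat_lit 5) (nat_lit 21) (nat_lit 4) (nat_lit 397) (nat_lit 365) (nat_lit 138)) (XT.lf (nat_lit 0) (nat_lit 523417559504) (nat_lit 76) (nat_lit 1121461131938) (nat_lit 152) (nat_lit 1226042215131) (nat_lit 19) (nat_lit 5) (nat_lit 20) (nat_lit 5) (nat_lit 21) (nat_lit 4) (nat_lit 398) (nat_lit 365) (nat_lit 137))) (XT.nd (nat_lit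 78) (nat_lit 76) (nat_lit 0) (XT.lf (nat_lit 0) (nat_lit 2058949244248) (nat_lit 76) (nat_lit 324165836562) (nat_lit 152) (nat_lit 651384193873) (nat_lit 19) (nat_lit 5) (nat_lit 20) (nat_lit 5) (nat_lit 21) (nat_lit 4) (nat_lit 399) (nat_lit 365) (nat_lit 136)) (XT.lf (nat_lit 0) (nat_lit 519220274723) (nat_lit 76) (nat_lit 2686590136365) (nat_lit 76) (nat_lit 3321498773) (nat_lit 18) (nat_lit 4) (nat_lit 19) (nat_lit 5) (nat_lit 19) (nat_lit 4) (nat_lit 400) (nat_lit 365) (nat_lit 135)))) (XT.nd (nat_lit 156) (nat_lit 152) (nat_lit 0) (XT.nd (nat_lit 78) (nat_lit 76) (nat_lit 0) (XT.lf (nat_lit 0) (nat_lit 697526116193) (nat_lit 152) (nat_lit 1232414319991) (nat_lit 76) (nat_lit 1463591609038) (nat_lit 17) (nat_lit 5) (nat_lit 19) (nat_lit 5) (nat_lit 18) (nat_lit 4) (nat_lit 401) (nat_lit 365) (nat_lit 134)) (XT.lf (nat_lit 0) (nat_lit 359584369262) (nat_lit 76) (nat_lit 1103325733965)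 (nat_lit 152) (nat_lit 2129075345562) (nat_lit 16) (nat_lit 5) (nat_lit 17) (nat_lit 5) (nat_lit 18) (nat_lit 4) (nat_lit 402) (nat_lit 365) (nat_lit 133))) (XT.nd (nat_lit 78) (nat_lit 152) (nat_lit 0) (XT.lf (nat_lit 0) (nat_lit 2149031443286) (nat_lit 76) (nat_lit 174189754905) (nat_lit 152) (nat_lit 1480398215337) (nat_lit 16) (nat_lit 5) (nat_lit 17) (nat_lit 5) (nat_lit 18) (nat_lit 4) (nat_lit 403) (nat_lit 365) (nat_lit 132)) (XT.nd (nat_lit 78) (nat_lit 76) (nat_lit 0) (XT.lf (nat_lit 0) (nat_lit 31059785225) (nat_lit 76) (nat_lit 3241988515939) (nat_lit 76) (nat_lit 757480504649) (nat_lit 15) (nat_lit 4) (nat_lit 16) (nat_lit 5) (nat_lit 16) (nat_lit 4) (nat_lit 404) (nat_lit 365) (nat_lit 131)) (XT.lf (nat_lit 0) (nat_lit 73045354680) (nat_lit 152) (nat_lit 2332573676332) (nat_lit 76) (nat_lit 1865852039939) (nat_lit 14) (nat_lit 5) (nat_lit 16) (nat_lit 5) (nat_lit 15) (nat_lit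 4) (nat_lit 405) (nat_lit 365) (nat_lit 130)))))) (XT.nd (nat_lit 312) (nat_lit 380) (nat_lit 0) (XT.nd (nat_lit 156) (nat_lit 0) (nat_lit 76) (XT.nd (nat_lit 78) (nat_lit 0) (nat_lit 0) (XT.lf (nat_lit 0) (nat_lit 265670467532) (nat_lit 532) (nat_lit 30733276972) (nat_lit 532) (nat_lit 30733276972) (nat_lit 58) (nat_lit 3) (nat_lit 65) (nat_lit 3) (nat_lit 65) (nat_lit 5) (nat_lit 366) (nat_lit 366) (nat_lit 168)) (XT.lf (nat_lit 76) (nat_lit 264560432937) (nat_lit 0) (nat_lit 294396966428) (nat_lit 532) (nat_lit 120978578940) (nat_lit 59) (nat_lit 5) (nat_lit 58) (nat_lit 3) (nat_lit 65) (nat_lit 5) (nat_lit 367) (nat_lit 366) (nat_lit 167))) (XT.nd (nat_lit 78) (nat_lit 0) (nat_lit 0) (XT.lf (nat_lit 0) (nat_lit 591178091668) (nat_lit 456) (nat_lit 88065513997) (nat_lit 532) (nat_lit 28215669974) (nat_lit 59) (nat_lit 5) (nat_lit 65) (nat_lit 5) (nat_lit 66) (nat_lit 5) (nat_lit 368)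 (nat_lit 366) (nat_lit 166)) (XT.lf (nat_lit 76) (nat_lit 271357013527) (nat_lit 0) (nat_lit 368792229776) (nat_lit 532) (nat_lit 95901369160) (nat_lit 60) (nat_lit 5) (nat_lit 59) (nat_lit 5) (nat_lit 66) (nat_lit 5) (nat_lit 369) (nat_lit 366) (nat_lit 165)))) (XT.nd (nat_lit 156) (nat_lit 456) (nat_lit 0) (XT.nd (nat_lit 78) (nat_lit 0) (nat_lit 76) (XT.lf (nat_lit 76) (nat_lit 664541698566) (nat_lit 0) (nat_lit 30904243291) (nat_lit 532) (nat_lit 71290686012) (nat_lit 60) (nat_lit 5) (nat_lit 59) (nat_lit 5) (nat_lit 66) (nat_lit 5) (nat_lit 370) (nat_lit 366) (nat_lit 164)) (XT.lf (nat_lit 76) (nat_lit 296081770771) (nat_lit 0) (nat_lit 474238431351) (nat_lit 532) (nat_lit 28345016336) (nat_lit 61) (nat_lit 5) (nat_lit 60) (nat_lit 5) (nat_lit 67) (nat_lit 5) (nat_lit 371) (nat_lit 366) (nat_lit 163))) (XT.nd (nat_lit 78) (nat_lit 0) (nat_lit 76) (XT.lf (nat_lit 0) (nat_lit 20803521178)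 (nat_lit 532) (nat_lit 102201104901) (nat_lit 608) (nat_lit 709815211270) (nat_lit 53) (nat_lit 5) (nat_lit 60) (nat_lit 5) (nat_lit 61) (nat_lit 5) (nat_lit 372) (nat_lit 366) (nat_lit 162)) (XT.nd (nat_lit 78) (nat_lit 0) (nat_lit 0) (XT.lf (nat_lit 0) (nat_lit 87094186430) (nat_lit 532) (nat_lit 528555920825) (nat_lit 76) (nat_lit 252818490827) (nat_lit 54) (nat_lit 5) (nat_lit 61) (nat_lit 5) (nat_lit 55) (nat_lit 5) (nat_lit 373) (nat_lit 366) (nat_lit 161)) (XT.lf (nat_lit 0) (nat_lit 164749960670) (nat_lit 532) (nat_lit 86805396846) (nat_lit 76) (nat_lit 654928953707) (nat_lit 54) (nat_lit 5) (nat_lit 61) (nat_lit 5) (nat_lit 55) (nat_lit 5) (nat_lit 374) (nat_lit 366) (nat_lit 160))))))) (XT.nd (nat_lit 702) (nat_lit 836) (nat_lit 0) (XT.nd (nat_lit 312) (nat_lit 456) (nat_lit 0) (XT.nd (nat_lit 156) (nat_lit 456) (nat_lit 0) (XT.nd (nat_lit 78) (nat_lit 0) (nat_lit 0) (XT.lf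 (nat_lit 0) (nat_lit 262162558894) (nat_lit 456) (nat_lit 539577679753) (nat_lit 76) (nat_lit 144717493818) (nat_lit 49) (nat_lit 5) (nat_lit 55) (nat_lit 5) (nat_lit 50) (nat_lit 5) (nat_lit 375) (nat_lit 366) (nat_lit 159)) (XT.lf (nat_lit 0) (nat_lit 376337122364) (nat_lit 456) (nat_lit 51037677740) (nat_lit 76) (nat_lit 561536710720) (nat_lit 49) (nat_lit 5) (nat_lit 55) (nat_lit 5) (nat_lit 50) (nat_lit 5) (nat_lit 376) (nat_lit 366) (nat_lit 158))) (XT.nd (nat_lit 78) (nat_lit 228) (nat_lit 0) (XT.lf (nat_lit 0) (nat_lit 501681664809) (nat_lit 228) (nat_lit 10029434351) (nat_lit 304) (nat_lit 522085256444) (nat_lit 46) (nat_lit 5) (nat_lit 49) (nat_lit 5) (nat_lit 50) (nat_lit 5) (nat_lit 377) (nat_lit 366) (nat_lit 157)) (XT.lf (nat_lit 0) (nat_lit 9185049302) (nat_lit 228) (nat_lit 660981475487) (nat_lit 304) (nat_lit 411125340729) (nat_lit 43) (nat_lit 5) (nat_lit 46) (nat_lit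 5) (nat_lit 47) (nat_lit 5) (nat_lit 378) (nat_lit 366) (nat_lit 156)))) (XT.nd (nat_lit 156) (nat_lit 304) (nat_lit 0) (XT.nd (nat_lit 78) (nat_lit 152) (nat_lit 0) (XT.lf (nat_lit 0) (nat_lit 623776371578) (nat_lit 228) (nat_lit 232324874122) (nat_lit 304) (nat_lit 275301541637) (nat_lit 43) (nat_lit 5) (nat_lit 46) (nat_lit 5) (nat_lit 47) (nat_lit 5) (nat_lit 379) (nat_lit 366) (nat_lit 155)) (XT.lf (nat_lit 0) (nat_lit 101545612276) (nat_lit 152) (nat_lit 963353818677) (nat_lit 228) (nat_lit 119984057021) (nat_lit 41) (nat_lit 5) (nat_lit 43) (nat_lit 5) (nat_lit 44) (nat_lit 5) (nat_lit 380) (nat_lit 366) (nat_lit 154))) (XT.nd (nat_lit 78) (nat_lit 228) (nat_lit 0) (XT.lf (nat_lit 0) (nat_lit 65644052092) (nat_lit 228) (nat_lit 460755251365) (nat_lit 76) (nat_lit 714529507888) (nat_lit 40) (nat_lit 5) (nat_lit 43) (nat_lit 5) (nat_lit 41) (nat_lit 5) (nat_lit 381) (nat_lit 366)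 (nat_lit 153)) (XT.nd (nat_lit 78) (nat_lit 0) (nat_lit 0) (XT.lf (nat_lit 0) (nat_lit 219497668377) (nat_lit 228) (nat_lit 45421404183) (nat_lit 304) (nat_lit 1035867057055) (nat_lit 37) (nat_lit 5) (nat_lit 40) (nat_lit 5) (nat_lit 41) (nat_lit 5) (nat_lit 382) (nat_lit 366) (nat_lit 152)) (XT.lf (nat_lit 0) (nat_lit 504461717816) (nat_lit 304) (nat_lit 395777594982) (nat_lit 76) (nat_lit 463246670704) (nat_lit 37) (nat_lit 5) (nat_lit 41) (nat_lit 5) (nat_lit 38) (nat_lit 5) (nat_lit 383) (nat_lit 366) (nat_lit 151)))))) (XT.nd (nat_lit 312) (nat_lit 456) (nat_lit 0) (XT.nd (nat_lit 156) (nat_lit 228) (nat_lit 0) (XT.nd (nat_lit 78) (nat_lit 0) (nat_lit 0) (XT.lf (nat_lit 0) (nat_lit 361476894612) (nat_lit 152) (nat_lit 411564179439) (nat_lit 228) (nat_lit 657370887705) (nat_lit 35) (nat_lit 5) (nat_lit 37) (nat_lit 5) (nat_lit 38) (nat_lit 5) (nat_lit 384) (nat_lit 366) (nat_lit 150))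 (XT.lf (nat_lit 0) (nat_lit 1077003838302) (nat_lit 228) (nat_lit 303082163084) (nat_lit 76) (nat_lit 121494252127) (nat_lit 35) (nat_lit 5) (nat_lit 38) (nat_lit 5) (nat_lit 36) (nat_lit 5) (nat_lit 385) (nat_lit 366) (nat_lit 149))) (XT.nd (nat_lit 78) (nat_lit 76) (nat_lit 0) (XT.lf (nat_lit 0) (nat_lit 540381035464) (nat_lit 152) (nat_lit 888588738990) (nat_lit 228) (nat_lit 147577342101) (nat_lit 33) (nat_lit 5) (nat_lit 35) (nat_lit 5) (nat_lit 36) (nat_lit 5) (nat_lit 386) (nat_lit 366) (nat_lit 148)) (XT.lf (nat_lit 0) (nat_lit 152500968808) (nat_lit 228) (nat_lit 192151334614) (nat_lit 76) (nat_lit 1311887218596) (nat_lit 32) (nat_lit 5) (nat_lit 35) (nat_lit 5) (nat_lit 33) (nat_lit 5) (nat_lit 387) (nat_lit 366) (nat_lit 147)))) (XT.nd (nat_lit 156) (nat_lit 304) (nat_lit 0) (XT.nd (nat_lit 78) (nat_lit 0) (nat_lit 0) (XT.lf (nat_lit 0) (nat_lit 493137167295) (nat_lit 228)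 (nat_lit 994353783017) (nat_lit 76) (nat_lit 253171744804) (nat_lit 30) (nat_lit 5) (nat_lit 33) (nat_lit 5) (nat_lit 31) (nat_lit 5) (nat_lit 388) (nat_lit 366) (nat_lit 146)) (XT.lf (nat_lit 0) (nat_lit 875366484510) (nat_lit 228) (nat_lit 69410102101) (nat_lit 76) (nat_lit 885591757626) (nat_lit 30) (nat_lit 5) (nat_lit 33) (nat_lit 5) (nat_lit 31) (nat_lit 5) (nat_lit 389) (nat_lit 366) (nat_lit 145))) (XT.nd (nat_lit 78) (nat_lit 152) (nat_lit 0) (XT.lf (nat_lit 0) (nat_lit 978476420429) (nat_lit 152) (nat_lit 333230104145) (nat_lit 228) (nat_lit 613661330519) (nat_lit 28) (nat_lit 5) (nat_lit 30) (nat_lit 5) (nat_lit 31) (nat_lit 5) (nat_lit 390) (nat_lit 366) (nat_lit 144)) (XT.nd (nat_lit 78) (nat_lit 76) (nat_lit 0) (XT.lf (nat_lit 0) (nat_lit 82535082736) (nat_lit 76) (nat_lit 1712220872733) (nat_lit 152) (nat_lit 232267196341) (nat_lit 27) (nat_lit 5) (nat_lit 28) (nat_lit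 5) (nat_lit 29) (nat_lit 4) (nat_lit 391) (nat_lit 366) (nat_lit 143)) (XT.lf (nat_lit 0) (nat_lit 205869697709) (nat_lit 152) (nat_lit 900221523387) (nat_lit 76) (nat_lit 1027556628583) (nat_lit 26) (nat_lit 5) (nat_lit 28) (nat_lit 5) (nat_lit 27) (nat_lit 5) (nat_lit 392) (nat_lit 366) (nat_lit 142))))))))
noncomputable def xc242 : XT := (XT.nd (nat_lit 45318) (nat_lit 0) (nat_lit 1064) (XT.nd (nat_lit 702) (nat_lit 152) (nat_lit 0) (XT.nd (nat_lit 312) (nat_lit 380) (nat_lit 0) (XT.nd (nat_lit 156) (nat_lit 76) (nat_lit 0) (XT.nd (nat_lit 78) (nat_lit 0) (nat_lit 0) (XT.lf (nat_lit 0) (nat_lit 233220036616) (nat_lit 152) (nat_lit 438897989084) (nat_lit 228) (nat_lit 1575753149028) (nat_lit 24) (nat_lit 5) (nat_lit 26) (nat_lit 5) (nat_lit 27) (nat_lit 5) (nat_lit 393) (nat_lit 366) (nat_lit 141)) (XT.lf (nat_lit 0) (nat_lit 1207693371000) (nat_lit 228) (nat_lit 868143465292) (nat_lit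 76) (nat_lit 292833357407) (nat_lit 24) (nat_lit 5) (nat_lit 27) (nat_lit 5) (nat_lit 25) (nat_lit 4) (nat_lit 394) (nat_lit 366) (nat_lit 140))) (XT.nd (nat_lit 78) (nat_lit 0) (nat_lit 0) (XT.lf (nat_lit 0) (nat_lit 377572577539) (nat_lit 76) (nat_lit 1429022740493) (nat_lit 152) (nat_lit 690899370228) (nat_lit 23) (nat_lit 5) (nat_lit 24) (nat_lit 5) (nat_lit 25) (nat_lit 4) (nat_lit 395) (nat_lit 366) (nat_lit 139)) (XT.lf (nat_lit 0) (nat_lit 1772317986499) (nat_lit 76) (nat_lit 704828012032) (nat_lit 152) (nat_lit 157580217641) (nat_lit 23) (nat_lit 5) (nat_lit 24) (nat_lit 5) (nat_lit 25) (nat_lit 4) (nat_lit 396) (nat_lit 366) (nat_lit 138)))) (XT.nd (nat_lit 156) (nat_lit 152) (nat_lit 0) (XT.nd (nat_lit 78) (nat_lit 0) (nat_lit 0) (XT.lf (nat_lit 0) (nat_lit 412208800358) (nat_lit 228) (nat_lit 2272370228998) (nat_lit 76) (nat_lit 96373456426) (nat_lit 20) (nat_lit 5) (nat_lit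 23) (nat_lit 5) (nat_lit 21) (nat_lit 4) (nat_lit 397) (nat_lit 366) (nat_lit 137)) (XT.lf (nat_lit 0) (nat_lit 1061566964084) (nat_lit 228) (nat_lit 921705253590) (nat_lit 76) (nat_lit 951877243953) (nat_lit 20) (nat_lit 5) (nat_lit 23) (nat_lit 5) (nat_lit 21) (nat_lit 4) (nat_lit 398) (nat_lit 366) (nat_lit 136))) (XT.nd (nat_lit 78) (nat_lit 76) (nat_lit 0) (XT.lf (nat_lit 0) (nat_lit 565291063457) (nat_lit 76) (nat_lit 1211177978420) (nat_lit 152) (nat_lit 1324125532786) (nat_lit 19) (nat_lit 5) (nat_lit 20) (nat_lit 5) (nat_lit 21) (nat_lit 4) (nat_lit 399) (nat_lit 366) (nat_lit 135)) (XT.nd (nat_lit 78) (nat_lit 76) (nat_lit 0) (XT.lf (nat_lit 0) (nat_lit 2223665275633) (nat_lit 76) (nat_lit 350099062679) (nat_lit 152) (nat_lit 703494874238) (nat_lit 19) (nat_lit 5) (nat_lit 20) (nat_lit 5) (nat_lit 21) (nat_lit 4) (nat_lit 400) (nat_lit 366) (nat_lit 134)) (XT.lf (nat_lit 0)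 (nat_lit 560757989267) (nat_lit 76) (nat_lit 2901517305099) (nat_lit 76) (nat_lit 3587164230) (nat_lit 18) (nat_lit 4) (nat_lit 19) (nat_lit 5) (nat_lit 19) (nat_lit 4) (nat_lit 401) (nat_lit 366) (nat_lit 133)))))) (XT.nd (nat_lit 44226) (nat_lit 0) (nat_lit 3192) (XT.nd (nat_lit 156) (nat_lit 0) (nat_lit 0) (XT.nd (nat_lit 78) (nat_lit 76) (nat_lit 0) (XT.lf (nat_lit 0) (nat_lit 753328253379) (nat_lit 152) (nat_lit 1331007377340) (nat_lit 76) (nat_lit 1580678974271) (nat_lit 17) (nat_lit 5) (nat_lit 19) (nat_lit 5) (nat_lit 18) (nat_lit 4) (nat_lit 402) (nat_lit 366) (nat_lit 132)) (XT.lf (nat_lit 0) (nat_lit 388351204820) (nat_lit 76) (nat_lit 1191591753078) (nat_lit 152) (nat_lit 2299401323065) (nat_lit 16) (nat_lit 5) (nat_lit 17) (nat_lit 5) (nat_lit 18) (nat_lit 4) (nat_lit 403) (nat_lit 366) (nat_lit 131))) (XT.nd (nat_lit 43992) (nat_lit 0) (nat_lit 3192) (XT.lf (nat_lit 0) (nat_lit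 2320954038394) (nat_lit 76) (nat_lit 188124898626) (nat_lit 152) (nat_lit 1598830026136) (nat_lit 16) (nat_lit 5) (nat_lit 17) (nat_lit 5) (nat_lit 18) (nat_lit 4) (nat_lit 404) (nat_lit 366) (nat_lit 130)) (XT.lf (nat_lit 0) (nat_lit 286924243640) (nat_lit 532) (nat_lit 33191864124) (nat_lit 532) (nat_lit 33191864124) (nat_lit 58) (nat_lit 3) (nat_lit 65) (nat_lit 3) (nat_lit 65) (nat_lit 5) (nat_lit 367) (nat_lit 367) (nat_lit 166)))) (XT.nd (nat_lit 156) (nat_lit 0) (nat_lit 76) (XT.nd (nat_lit 78) (nat_lit 0) (nat_lit 76) (XT.lf (nat_lit 76) (nat_lit 285725413784) (nat_lit 0) (nat_lit 317948837908) (nat_lit 532) (nat_lit 130656583661) (nat_lit 59) (nat_lit 5) (nat_lit 58) (nat_lit 3) (nat_lit 65) (nat_lit 5) (nat_lit 368) (nat_lit 367) (nat_lit 165)) (XT.lf (nat_lit 0) (nat_lit 638472577551) (nat_lit 456) (nat_lit 95110597549) (nat_lit 532) (nat_lit 30472823150) (nat_lit 59) (nat_lit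 5) (nat_lit 65) (nat_lit 5) (nat_lit 66) (nat_lit 5) (nat_lit 369) (nat_lit 367) (nat_lit 164))) (XT.nd (nat_lit 78) (nat_lit 0) (nat_lit 0) (XT.lf (nat_lit 76) (nat_lit 293065728188) (nat_lit 0) (nat_lit 398295679152) (nat_lit 532) (nat_lit 103573235824) (nat_lit 60) (nat_lit 5) (nat_lit 59) (nat_lit 5) (nat_lit 66) (nat_lit 5) (nat_lit 370) (nat_lit 367) (nat_lit 163)) (XT.nd (nat_lit 78) (nat_lit 0) (nat_lit 76) (XT.lf (nat_lit 76) (nat_lit 717705176655) (nat_lit 0) (nat_lit 33376648489) (nat_lit 532) (nat_lit 76993716015) (nat_lit 60) (nat_lit 5) (nat_lit 59) (nat_lit 5) (nat_lit 66) (nat_lit 5) (nat_lit 371) (nat_lit 367) (nat_lit 162)) (XT.lf (nat_lit 76) (nat_lit 319768469089) (nat_lit 0) (nat_lit 512177544042) (nat_lit 532) (nat_lit 30612406935) (nat_lit 61) (nat_lit 5) (nat_lit 60) (nat_lit 5) (nat_lit 67) (nat_lit 5) (nat_lit 372) (nat_lit 367) (nat_lit 161))))))) (XT.nd (nat_lit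 702) (nat_lit 836) (nat_lit 0) (XT.nd (nat_lit 312) (nat_lit 608) (nat_lit 0) (XT.nd (nat_lit 156) (nat_lit 304) (nat_lit 0) (XT.nd (nat_lit 78) (nat_lit 0) (nat_lit 76) (XT.lf (nat_lit 0) (nat_lit 22467988214) (nat_lit 532) (nat_lit 110377038239) (nat_lit 608) (nat_lit 766600382815) (nat_lit 53) (nat_lit 5) (nat_lit 60) (nat_lit 5) (nat_lit 61) (nat_lit 5) (nat_lit 373) (nat_lit 367) (nat_lit 160)) (XT.lf (nat_lit 0) (nat_lit 94061896011) (nat_lit 532) (nat_lit 570840228538) (nat_lit 76) (nat_lit 273043947181) (nat_lit 54) (nat_lit 5) (nat_lit 61) (nat_lit 5) (nat_lit 55) (nat_lit 5) (nat_lit 374) (nat_lit 367) (nat_lit 159))) (XT.nd (nat_lit 78) (nat_lit 380) (nat_lit 0) (XT.lf (nat_lit 0) (nat_lit 177930119252) (nat_lit 532) (nat_lit 93749674933) (nat_lit 76) (nat_lit 707323248790) (nat_lit 54) (nat_lit 5) (nat_lit 61) (nat_lit 5) (nat_lit 55) (nat_lit 5) (nat_lit 375) (nat_lit 367)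 (nat_lit 158)) (XT.lf (nat_lit 0) (nat_lit 283135716870) (nat_lit 456) (nat_lit 582743731816) (nat_lit 76) (nat_lit 156294889922) (nat_lit 49) (nat_lit 5) (nat_lit 55) (nat_lit 5) (nat_lit 50) (nat_lit 5) (nat_lit 376) (nat_lit 367) (nat_lit 157)))) (XT.nd (nat_lit 156) (nat_lit 380) (nat_lit 0) (XT.nd (nat_lit 78) (nat_lit 228) (nat_lit 0) (XT.lf (nat_lit 0) (nat_lit 406444234065) (nat_lit 456) (nat_lit 55120541666) (nat_lit 76) (nat_lit 606459644428) (nat_lit 49) (nat_lit 5) (nat_lit 55) (nat_lit 5) (nat_lit 50) (nat_lit 5) (nat_lit 377) (nat_lit 367) (nat_lit 156)) (XT.lf (nat_lit 0) (nat_lit 541816344482) (nat_lit 228) (nat_lit 10831777533) (nat_lit 304) (nat_lit 563851931078) (nat_lit 46) (nat_lit 5) (nat_lit 49) (nat_lit 5) (nat_lit 50) (nat_lit 5) (nat_lit 378) (nat_lit 367) (nat_lit 155))) (XT.nd (nat_lit 78) (nat_lit 152) (nat_lit 0) (XT.lf (nat_lit 0) (nat_lit 9920006436) (nat_lit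 228) (nat_lit 713859969206) (nat_lit 304) (nat_lit 444015228655) (nat_lit 43) (nat_lit 5) (nat_lit 46) (nat_lit 5) (nat_lit 47) (nat_lit 5) (nat_lit 379) (nat_lit 367) (nat_lit 154)) (XT.nd (nat_lit 78) (nat_lit 152) (nat_lit 0) (XT.lf (nat_lit 0) (nat_lit 673678623147) (nat_lit 228) (nat_lit 250910841533) (nat_lit 304) (nat_lit 297325535956) (nat_lit 43) (nat_lit 5) (nat_lit 46) (nat_lit 5) (nat_lit 47) (nat_lit 5) (nat_lit 380) (nat_lit 367) (nat_lit 153)) (XT.lf (nat_lit 0) (nat_lit 109669408425) (nat_lit 152) (nat_lit 1040422091531) (nat_lit 228) (nat_lit 129582657764) (nat_lit 41) (nat_lit 5) (nat_lit 43) (nat_lit 5) (nat_lit 44) (nat_lit 5) (nat_lit 381) (nat_lit 367) (nat_lit 152)))))) (XT.nd (nat_lit 312) (nat_lit 380) (nat_lit 0) (XT.nd (nat_lit 156) (nat_lit 152) (nat_lit 0) (XT.nd (nat_lit 78) (nat_lit 228) (nat_lit 0) (XT.lf (nat_lit 0) (nat_lit 70895685171) (nat_lit 228)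 (nat_lit 497615529362) (nat_lit 76) (nat_lit 771691892894) (nat_lit 40) (nat_lit 5) (nat_lit 43) (nat_lit 5) (nat_lit 41) (nat_lit 5) (nat_lit 382) (nat_lit 367) (nat_lit 151)) (XT.lf (nat_lit 0) (nat_lit 237057620362) (nat_lit 228) (nat_lit 49055082179) (nat_lit 304) (nat_lit 1118736309005) (nat_lit 37) (nat_lit 5) (nat_lit 40) (nat_lit 5) (nat_lit 41) (nat_lit 5) (nat_lit 383) (nat_lit 367) (nat_lit 150))) (XT.nd (nat_lit 78) (nat_lit 152) (nat_lit 0) (XT.lf (nat_lit 0) (nat_lit 544818752466) (nat_lit 304) (nat_lit 427439667277) (nat_lit 76) (nat_lit 500306434565) (nat_lit 37) (nat_lit 5) (nat_lit 41) (nat_lit 5) (nat_lit 38) (nat_lit 5) (nat_lit 384) (nat_lit 367) (nat_lit 149)) (XT.lf (nat_lit 0) (nat_lit 390395178058) (nat_lit 152) (nat_lit 444489275111) (nat_lit 228) (nat_lit 709960457982) (nat_lit 35) (nat_lit 5) (nat_lit 37) (nat_lit 5) (nat_lit 38) (nat_lit 5) (nat_lit 385) (nat_lit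 367) (nat_lit 148)))) (XT.nd (nat_lit 156) (nat_lit 228) (nat_lit 0) (XT.nd (nat_lit 78) (nat_lit 152) (nat_lit 0) (XT.lf (nat_lit 0) (nat_lit 1163164232519) (nat_lit 228) (nat_lit 327328607898) (nat_lit 76) (nat_lit 131213826323) (nat_lit 35) (nat_lit 5) (nat_lit 38) (nat_lit 5) (nat_lit 36) (nat_lit 5) (nat_lit 386) (nat_lit 367) (nat_lit 147)) (XT.lf (nat_lit 0) (nat_lit 583611643288) (nat_lit 152) (nat_lit 959675796825) (nat_lit 228) (nat_lit 159383438994) (nat_lit 33) (nat_lit 5) (nat_lit 35) (nat_lit 5) (nat_lit 36) (nat_lit 5) (nat_lit 387) (nat_lit 367) (nat_lit 146))) (XT.nd (nat_lit 78) (nat_lit 152) (nat_lit 0) (XT.lf (nat_lit 0) (nat_lit 164701125896) (nat_lit 228) (nat_lit 207523321398) (nat_lit 76) (nat_lit 1416838230054) (nat_lit 32) (nat_lit 5) (nat_lit 35) (nat_lit 5) (nat_lit 33) (nat_lit 5) (nat_lit 388) (nat_lit 367) (nat_lit 145)) (XT.nd (nat_lit 78) (nat_lit 0) (nat_lit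 0) (XT.lf (nat_lit 0) (nat_lit 532588218151) (nat_lit 228) (nat_lit 1073901963503) (nat_lit 76) (nat_lit 273425522812) (nat_lit 30) (nat_lit 5) (nat_lit 33) (nat_lit 5) (nat_lit 31) (nat_lit 5) (nat_lit 389) (nat_lit 367) (nat_lit 144)) (XT.lf (nat_lit 0) (nat_lit 945395875005) (nat_lit 228) (nat_lit 74962797162) (nat_lit 76) (nat_lit 956439133814) (nat_lit 30) (nat_lit 5) (nat_lit 33) (nat_lit 5) (nat_lit 31) (nat_lit 5) (nat_lit 390) (nat_lit 367) (nat_lit 143))))))))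
noncomputable def xc243 : XT := (XT.nd (nat_lit 45396) (nat_lit 0) (nat_lit 1216) (XT.nd (nat_lit 702) (nat_lit 304) (nat_lit 0) (XT.nd (nat_lit 312) (nat_lit 304) (nat_lit 0) (XT.nd (nat_lit 156) (nat_lit 228) (nat_lit 0) (XT.nd (nat_lit 78) (nat_lit 76) (nat_lit 0) (XT.lf (nat_lit 0) (nat_lit 1056754644307) (nat_lit 152) (nat_lit 359888471305) (nat_lit 228) (nat_lit 662754162311) (nat_lit 28) (nat_lit 5) (nat_lit 30) (nat_lit 5) (nat_lit 31) (nat_lit 5) (nat_lit 391) (nat_lit 367) (nat_lit 142)) (XT.lf (nat_lit 0) (nat_lit 89138001279) (nat_lit 76) (nat_lit 1849198498192) (nat_lit 152) (nat_lit 250848499031) (nat_lit 27) (nat_lit 5) (nat_lit 28) (nat_lit 5) (nat_lit 29) (nat_lit 4) (nat_lit 392) (nat_lit 367) (nat_lit 141))) (XT.nd (nat_lit 78) (nat_lit 152) (nat_lit 0) (XT.lf (nat_lit 0) (nat_lit 222339337752) (nat_lit 152) (nat_lit 972239138201) (nat_lit 76) (nat_lit 1109761196520)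 (nat_lit 26) (nat_lit 5) (nat_lit 28) (nat_lit 5) (nat_lit 27) (nat_lit 5) (nat_lit 393) (nat_lit 367) (nat_lit 140)) (XT.lf (nat_lit 0) (nat_lit 251877743892) (nat_lit 152) (nat_lit 474009785844) (nat_lit 228) (nat_lit 1701813333975) (nat_lit 24) (nat_lit 5) (nat_lit 26) (nat_lit 5) (nat_lit 27) (nat_lit 5) (nat_lit 394) (nat_lit 367) (nat_lit 139)))) (XT.nd (nat_lit 156) (nat_lit 228) (nat_lit 0) (XT.nd (nat_lit 78) (nat_lit 76) (nat_lit 0) (XT.lf (nat_lit 0) (nat_lit 1304308899011) (nat_lit 228) (nat_lit 937594842215) (nat_lit 76) (nat_lit 316260063266) (nat_lit 24) (nat_lit 5) (nat_lit 27) (nat_lit 5) (nat_lit 25) (nat_lit 4) (nat_lit 395) (nat_lit 367) (nat_lit 138)) (XT.lf (nat_lit 0) (nat_lit 407778481503) (nat_lit 76) (nat_lit 1543344518333) (nat_lit 152) (nat_lit 746171258943) (nat_lit 23) (nat_lit 5) (nat_lit 24) (nat_lit 5) (nat_lit 25) (nat_lit 4) (nat_lit 396) (nat_lit 367)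 (nat_lit 137))) (XT.nd (nat_lit 78) (nat_lit 228) (nat_lit 0) (XT.lf (nat_lit 0) (nat_lit 1914103515938) (nat_lit 76) (nat_lit 761214214662) (nat_lit 152) (nat_lit 170186578661) (nat_lit 23) (nat_lit 5) (nat_lit 24) (nat_lit 5) (nat_lit 25) (nat_lit 4) (nat_lit 397) (nat_lit 367) (nat_lit 136)) (XT.nd (nat_lit 78) (nat_lit 0) (nat_lit 0) (XT.lf (nat_lit 0) (nat_lit 445185557121) (nat_lit 228) (nat_lit 2454159753087) (nat_lit 76) (nat_lit 104083370191) (nat_lit 20) (nat_lit 5) (nat_lit 23) (nat_lit 5) (nat_lit 21) (nat_lit 4) (nat_lit 398) (nat_lit 367) (nat_lit 135)) (XT.lf (nat_lit 0) (nat_lit 1146492370039) (nat_lit 228) (nat_lit 995441586626) (nat_lit 76) (nat_lit 1028027457961) (nat_lit 20) (nat_lit 5) (nat_lit 23) (nat_lit 5) (nat_lit 21) (nat_lit 4) (nat_lit 399) (nat_lit 367) (nat_lit 134)))))) (XT.nd (nat_lit 312) (nat_lit 76) (nat_lit 0) (XT.nd (nat_lit 156) (nat_lit 152) (nat_lit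 0) (XT.nd (nat_lit 78) (nat_lit 0) (nat_lit 0) (XT.lf (nat_lit 0) (nat_lit 610514433575) (nat_lit 76) (nat_lit 1308072178908) (nat_lit 152) (nat_lit 1430055524350) (nat_lit 19) (nat_lit 5) (nat_lit 20) (nat_lit 5) (nat_lit 21) (nat_lit 4) (nat_lit 400) (nat_lit 367) (nat_lit 133)) (XT.lf (nat_lit 0) (nat_lit 2401558576426) (nat_lit 76) (nat_lit 378106952706) (nat_lit 152) (nat_lit 759774416900) (nat_lit 19) (nat_lit 5) (nat_lit 20) (nat_lit 5) (nat_lit 21) (nat_lit 4) (nat_lit 401) (nat_lit 367) (nat_lit 132))) (XT.nd (nat_lit 78) (nat_lit 76) (nat_lit 0) (XT.lf (nat_lit 0) (nat_lit 605618707770) (nat_lit 76) (nat_lit 3133638653349) (nat_lit 76) (nat_lit 3874090691) (nat_lit 18) (nat_lit 4) (nat_lit 19) (nat_lit 5) (nat_lit 19) (nat_lit 4) (nat_lit 402) (nat_lit 367) (nat_lit 131)) (XT.lf (nat_lit 0) (nat_lit 813594554707) (nat_lit 152) (nat_lit 1437487891866) (nat_lit 76) (nat_lit 1707133323514)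 (nat_lit 17) (nat_lit 5) (nat_lit 19) (nat_lit 5) (nat_lit 18) (nat_lit 4) (nat_lit 403) (nat_lit 367) (nat_lit 130)))) (XT.nd (nat_lit 44148) (nat_lit 0) (nat_lit 3192) (XT.nd (nat_lit 44070) (nat_lit 0) (nat_lit 3192) (XT.lf (nat_lit 0) (nat_lit 419419374951) (nat_lit 76) (nat_lit 1286919059369) (nat_lit 152) (nat_lit 2483353385922) (nat_lit 16) (nat_lit 5) (nat_lit 17) (nat_lit 5) (nat_lit 18) (nat_lit 4) (nat_lit 404) (nat_lit 367) (nat_lit 129)) (XT.lf (nat_lit 0) (nat_lit 309878302049) (nat_lit 532) (nat_lit 35847148950) (nat_lit 532) (nat_lit 35847148950) (nat_lit 58) (nat_lit 3) (nat_lit 65) (nat_lit 3) (nat_lit 65) (nat_lit 5) (nat_lit 368) (nat_lit 368) (nat_lit 164))) (XT.nd (nat_lit 78) (nat_lit 0) (nat_lit 76) (XT.lf (nat_lit 76) (nat_lit 308583572241) (nat_lit 0) (nat_lit 343384842820) (nat_lit 532) (nat_lit 141108868933) (nat_lit 59) (nat_lit 5) (nat_lit 58) (nat_lit 3)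 (nat_lit 65) (nat_lit 5) (nat_lit 369) (nat_lit 368) (nat_lit 163)) (XT.nd (nat_lit 78) (nat_lit 0) (nat_lit 0) (XT.lf (nat_lit 0) (nat_lit 689550588272) (nat_lit 456) (nat_lit 102719310263) (nat_lit 532) (nat_lit 32910562907) (nat_lit 59) (nat_lit 5) (nat_lit 65) (nat_lit 5) (nat_lit 66) (nat_lit 5) (nat_lit 370) (nat_lit 368) (nat_lit 162)) (XT.lf (nat_lit 76) (nat_lit 316511118113) (nat_lit 0) (nat_lit 430159394350) (nat_lit 532) (nat_lit 111858886470) (nat_lit 60) (nat_lit 5) (nat_lit 59) (nat_lit 5) (nat_lit 66) (nat_lit 5) (nat_lit 371) (nat_lit 368) (nat_lit 161))))))) (XT.nd (nat_lit 702) (nat_lit 836) (nat_lit 0) (XT.nd (nat_lit 312) (nat_lit 760) (nat_lit 0) (XT.nd (nat_lit 156) (nat_lit 456) (nat_lit 0) (XT.nd (nat_lit 78) (nat_lit 0) (nat_lit 76) (XT.lf (nat_lit 76) (nat_lit 775121712703) (nat_lit 0) (nat_lit 36046836725) (nat_lit 532) (nat_lit 83153020500) (nat_lit 60) (nat_lit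 5) (nat_lit 59) (nat_lit 5) (nat_lit 66) (nat_lit 5) (nat_lit 372) (nat_lit 368) (nat_lit 160)) (XT.lf (nat_lit 76) (nat_lit 345350080923) (nat_lit 0) (nat_lit 553151780301) (nat_lit 532) (nat_lit 33061218841) (nat_lit 61) (nat_lit 5) (nat_lit 60) (nat_lit 5) (nat_lit 67) (nat_lit 5) (nat_lit 373) (nat_lit 368) (nat_lit 159))) (XT.nd (nat_lit 78) (nat_lit 0) (nat_lit 76) (XT.lf (nat_lit 0) (nat_lit 24265586171) (nat_lit 532) (nat_lit 119207068365) (nat_lit 608) (nat_lit 827928374553) (nat_lit 53) (nat_lit 5) (nat_lit 60) (nat_lit 5) (nat_lit 61) (nat_lit 5) (nat_lit 374) (nat_lit 368) (nat_lit 158)) (XT.lf (nat_lit 0) (nat_lit 101586997440) (nat_lit 532) (nat_lit 616507304544) (nat_lit 76) (nat_lit 294887443313) (nat_lit 54) (nat_lit 5) (nat_lit 61) (nat_lit 5) (nat_lit 55) (nat_lit 5) (nat_lit 375) (nat_lit 368) (nat_lit 157)))) (XT.nd (nat_lit 156) (nat_lit 456) (nat_lit 0) (XT.nd (nat_lit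 78) (nat_lit 380) (nat_lit 0) (XT.lf (nat_lit 0) (nat_lit 192164667448) (nat_lit 532) (nat_lit 101249517189) (nat_lit 76) (nat_lit 763909090505) (nat_lit 54) (nat_lit 5) (nat_lit 61) (nat_lit 5) (nat_lit 55) (nat_lit 5) (nat_lit 376) (nat_lit 368) (nat_lit 156)) (XT.lf (nat_lit 0) (nat_lit 305786705619) (nat_lit 456) (nat_lit 629363091201) (nat_lit 76) (nat_lit 168798478200) (nat_lit 49) (nat_lit 5) (nat_lit 55) (nat_lit 5) (nat_lit 50) (nat_lit 5) (nat_lit 377) (nat_lit 368) (nat_lit 155))) (XT.nd (nat_lit 78) (nat_lit 456) (nat_lit 0) (XT.lf (nat_lit 0) (nat_lit 438959894456) (nat_lit 456) (nat_lit 59530056148) (nat_lit 76) (nat_lit 654976413283) (nat_lit 49) (nat_lit 5) (nat_lit 55) (nat_lit 5) (nat_lit 50) (nat_lit 5) (nat_lit 378) (nat_lit 368) (nat_lit 154)) (XT.nd (nat_lit 78) (nat_lit 228) (nat_lit 0) (XT.lf (nat_lit 0) (nat_lit 585161777631) (nat_lit 228) (nat_lit 11698309820)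 (nat_lit 304) (nat_lit 608959960494) (nat_lit 46) (nat_lit 5) (nat_lit 49) (nat_lit 5) (nat_lit 50) (nat_lit 5) (nat_lit 379) (nat_lit 368) (nat_lit 153)) (XT.lf (nat_lit 0) (nat_lit 10713738287) (nat_lit 228) (nat_lit 770968745892) (nat_lit 304) (nat_lit 479536327492) (nat_lit 43) (nat_lit 5) (nat_lit 46) (nat_lit 5) (nat_lit 47) (nat_lit 5) (nat_lit 380) (nat_lit 368) (nat_lit 152)))))) (XT.nd (nat_lit 312) (nat_lit 380) (nat_lit 0) (XT.nd (nat_lit 156) (nat_lit 304) (nat_lit 0) (XT.nd (nat_lit 78) (nat_lit 152) (nat_lit 0) (XT.lf (nat_lit 0) (nat_lit 727573034606) (nat_lit 228) (nat_lit 270983689550) (nat_lit 304) (nat_lit 321111468226) (nat_lit 43) (nat_lit 5) (nat_lit 46) (nat_lit 5) (nat_lit 47) (nat_lit 5) (nat_lit 381) (nat_lit 368) (nat_lit 151)) (XT.lf (nat_lit 0) (nat_lit 118443087270) (nat_lit 152) (nat_lit 1123655830870) (nat_lit 228) (nat_lit 139949164230) (nat_lit 41) (nat_lit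 5) (nat_lit 43) (nat_lit 5) (nat_lit 44) (nat_lit 5) (nat_lit 382) (nat_lit 368) (nat_lit 150))) (XT.nd (nat_lit 78) (nat_lit 228) (nat_lit 0) (XT.lf (nat_lit 0) (nat_lit 76567433360) (nat_lit 228) (nat_lit 537424649872) (nat_lit 76) (nat_lit 833427265223) (nat_lit 40) (nat_lit 5) (nat_lit 43) (nat_lit 5) (nat_lit 41) (nat_lit 5) (nat_lit 383) (nat_lit 368) (nat_lit 149)) (XT.lf (nat_lit 0) (nat_lit 256022348745) (nat_lit 228) (nat_lit 52979459313) (nat_lit 304) (nat_lit 1208235117177) (nat_lit 37) (nat_lit 5) (nat_lit 40) (nat_lit 5) (nat_lit 41) (nat_lit 5) (nat_lit 384) (nat_lit 368) (nat_lit 148)))) (XT.nd (nat_lit 156) (nat_lit 228) (nat_lit 0) (XT.nd (nat_lit 78) (nat_lit 152) (nat_lit 0) (XT.lf (nat_lit 0) (nat_lit 588404336017) (nat_lit 304) (nat_lit 461634724659) (nat_lit 76) (nat_lit 540330975225) (nat_lit 37) (nat_lit 5) (nat_lit 41) (nat_lit 5) (nat_lit 38) (nat_lit 5) (nat_lit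 385) (nat_lit 368) (nat_lit 147)) (XT.lf (nat_lit 0) (nat_lit 421626905367) (nat_lit 152) (nat_lit 480048383955) (nat_lit 228) (nat_lit 766757208254) (nat_lit 35) (nat_lit 5) (nat_lit 37) (nat_lit 5) (nat_lit 38) (nat_lit 5) (nat_lit 386) (nat_lit 368) (nat_lit 146))) (XT.nd (nat_lit 78) (nat_lit 228) (nat_lit 0) (XT.lf (nat_lit 0) (nat_lit 1256217445839) (nat_lit 228) (nat_lit 353514786590) (nat_lit 76) (nat_lit 141710961601) (nat_lit 35) (nat_lit 5) (nat_lit 38) (nat_lit 5) (nat_lit 36) (nat_lit 5) (nat_lit 387) (nat_lit 368) (nat_lit 145)) (XT.nd (nat_lit 78) (nat_lit 76) (nat_lit 0) (XT.lf (nat_lit 0) (nat_lit 630300681907) (nat_lit 152) (nat_lit 1036449825176) (nat_lit 228) (nat_lit 172134036546) (nat_lit 33) (nat_lit 5) (nat_lit 35) (nat_lit 5) (nat_lit 36) (nat_lit 5) (nat_lit 388) (nat_lit 368) (nat_lit 144)) (XT.lf (nat_lit 0) (nat_lit 177877284196) (nat_lit 228) (nat_lit 224125084242)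 (nat_lit 76) (nat_lit 1530185317582) (nat_lit 32) (nat_lit 5) (nat_lit 35) (nat_lit 5) (nat_lit 33) (nat_lit 5) (nat_lit 389) (nat_lit 368) (nat_lit 143))))))))
noncomputable def xc244 : XT := (XT.nd (nat_lit 45552) (nat_lit 0) (nat_lit 1064) (XT.nd (nat_lit 702) (nat_lit 380) (nat_lit 0) (XT.nd (nat_lit 312) (nat_lit 304) (nat_lit 0) (XT.nd (nat_lit 156) (nat_lit 228) (nat_lit 0) (XT.nd (nat_lit 78) (nat_lit 0) (nat_lit 0) (XT.lf (nat_lit 0) (nat_lit 575195342024) (nat_lit 228) (nat_lit 1159814015855) (nat_lit 76) (nat_lit 295299597579) (nat_lit 30) (nat_lit 5) (nat_lit 33) (nat_lit 5) (nat_lit 31) (nat_lit 5) (nat_lit 390) (nat_lit 368) (nat_lit 142)) (XT.lf (nat_lit 0) (nat_lit 1021027606505) (nat_lit 228) (nat_lit 80959723965) (nat_lit 76) (nat_lit 1032954295022) (nat_lit 30) (nat_lit 5) (nat_lit 33) (nat_lit 5) (nat_lit 31) (nat_lit 5) (nat_lit 391) (nat_lit 368) (nat_lit 141)))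 (XT.nd (nat_lit 78) (nat_lit 76) (nat_lit 0) (XT.lf (nat_lit 0) (nat_lit 1141295110367) (nat_lit 152) (nat_lit 388679513711) (nat_lit 228) (nat_lit 715774431296) (nat_lit 28) (nat_lit 5) (nat_lit 30) (nat_lit 5) (nat_lit 31) (nat_lit 5) (nat_lit 392) (nat_lit 368) (nat_lit 140)) (XT.lf (nat_lit 0) (nat_lit 96269137338) (nat_lit 76) (nat_lit 1997134340016) (nat_lit 152) (nat_lit 270916316353) (nat_lit 27) (nat_lit 5) (nat_lit 28) (nat_lit 5) (nat_lit 29) (nat_lit 4) (nat_lit 393) (nat_lit 368) (nat_lit 139)))) (XT.nd (nat_lit 156) (nat_lit 76) (nat_lit 0) (XT.nd (nat_lit 78) (nat_lit 152) (nat_lit 0) (XT.lf (nat_lit 0) (nat_lit 240126539836) (nat_lit 152) (nat_lit 1050018177474) (nat_lit 76) (nat_lit 1198542124521) (nat_lit 26) (nat_lit 5) (nat_lit 28) (nat_lit 5) (nat_lit 27) (nat_lit 5) (nat_lit 394) (nat_lit 368) (nat_lit 138)) (XT.lf (nat_lit 0) (nat_lit 272028052863) (nat_lit 152)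 (nat_lit 511930532388) (nat_lit 228) (nat_lit 1837958343272) (nat_lit 24) (nat_lit 5) (nat_lit 26) (nat_lit 5) (nat_lit 27) (nat_lit 5) (nat_lit 395) (nat_lit 368) (nat_lit 137))) (XT.nd (nat_lit 78) (nat_lit 76) (nat_lit 0) (XT.lf (nat_lit 0) (nat_lit 1408653660942) (nat_lit 228) (nat_lit 1012602343602) (nat_lit 76) (nat_lit 341560900278) (nat_lit 24) (nat_lit 5) (nat_lit 27) (nat_lit 5) (nat_lit 25) (nat_lit 4) (nat_lit 396) (nat_lit 368) (nat_lit 136)) (XT.nd (nat_lit 78) (nat_lit 0) (nat_lit 0) (XT.lf (nat_lit 0) (nat_lit 440400843837) (nat_lit 76) (nat_lit 1666812044307) (nat_lit 152) (nat_lit 805864907444) (nat_lit 23) (nat_lit 5) (nat_lit 24) (nat_lit 5) (nat_lit 25) (nat_lit 4) (nat_lit 397) (nat_lit 368) (nat_lit 135)) (XT.lf (nat_lit 0) (nat_lit 2067231874818) (nat_lit 76) (nat_lit 822111318971) (nat_lit 152) (nat_lit 183801456607) (nat_lit 23) (nat_lit 5) (nat_lit 24) (nat_lit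 5) (nat_lit 25) (nat_lit 4) (nat_lit 398) (nat_lit 368) (nat_lit 134)))))) (XT.nd (nat_lit 312) (nat_lit 76) (nat_lit 0) (XT.nd (nat_lit 156) (nat_lit 76) (nat_lit 0) (XT.nd (nat_lit 78) (nat_lit 0) (nat_lit 0) (XT.lf (nat_lit 0) (nat_lit 480800446902) (nat_lit 228) (nat_lit 2650492452547) (nat_lit 76) (nat_lit 112410071744) (nat_lit 20) (nat_lit 5) (nat_lit 23) (nat_lit 5) (nat_lit 21) (nat_lit 4) (nat_lit 399) (nat_lit 368) (nat_lit 133)) (XT.lf (nat_lit 0) (nat_lit 1238211801505) (nat_lit 228) (nat_lit 1075076838753) (nat_lit 76) (nat_lit 1110269684170) (nat_lit 20) (nat_lit 5) (nat_lit 23) (nat_lit 5) (nat_lit 21) (nat_lit 4) (nat_lit 400) (nat_lit 368) (nat_lit 132))) (XT.nd (nat_lit 78) (nat_lit 0) (nat_lit 0) (XT.lf (nat_lit 0) (nat_lit 659355661171) (nat_lit 76) (nat_lit 1412717920826) (nat_lit 152) (nat_lit 1544459922523) (nat_lit 19) (nat_lit 5) (nat_lit 20) (nat_lit 5) (nat_lit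 21) (nat_lit 4) (nat_lit 401) (nat_lit 368) (nat_lit 131)) (XT.lf (nat_lit 0) (nat_lit 2593683330049) (nat_lit 76) (nat_lit 408355478928) (nat_lit 152) (nat_lit 820556329720) (nat_lit 19) (nat_lit 5) (nat_lit 20) (nat_lit 5) (nat_lit 21) (nat_lit 4) (nat_lit 402) (nat_lit 368) (nat_lit 130)))) (XT.nd (nat_lit 44304) (nat_lit 0) (nat_lit 3040) (XT.nd (nat_lit 44226) (nat_lit 0) (nat_lit 3040) (XT.lf (nat_lit 0) (nat_lit 654068272430) (nat_lit 76) (nat_lit 3384329714617) (nat_lit 76) (nat_lit 4183977927) (nat_lit 18) (nat_lit 4) (nat_lit 19) (nat_lit 5) (nat_lit 19) (nat_lit 4) (nat_lit 403) (nat_lit 368) (nat_lit 129)) (XT.lf (nat_lit 0) (nat_lit 334668668166) (nat_lit 532) (nat_lit 38714865735) (nat_lit 532) (nat_lit 38714865735) (nat_lit 58) (nat_lit 3) (nat_lit 65) (nat_lit 3) (nat_lit 65) (nat_lit 5) (nat_lit 369) (nat_lit 369) (nat_lit 162))) (XT.nd (nat_lit 78) (nat_lit 0) (nat_lit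 76) (XT.lf (nat_lit 76) (nat_lit 333270365490) (nat_lit 0) (nat_lit 370855714162) (nat_lit 532) (nat_lit 152397371467) (nat_lit 59) (nat_lit 5) (nat_lit 58) (nat_lit 3) (nat_lit 65) (nat_lit 5) (nat_lit 370) (nat_lit 369) (nat_lit 161)) (XT.nd (nat_lit 78) (nat_lit 0) (nat_lit 0) (XT.lf (nat_lit 0) (nat_lit 744714810675) (nat_lit 456) (nat_lit 110936739267) (nat_lit 532) (nat_lit 35543334127) (nat_lit 59) (nat_lit 5) (nat_lit 65) (nat_lit 5) (nat_lit 66) (nat_lit 5) (nat_lit 371) (nat_lit 369) (nat_lit 160)) (XT.lf (nat_lit 76) (nat_lit 341832120447) (nat_lit 0) (nat_lit 464572198080) (nat_lit 532) (nat_lit 120807418872) (nat_lit 60) (nat_lit 5) (nat_lit 59) (nat_lit 5) (nat_lit 66) (nat_lit 5) (nat_lit 372) (nat_lit 369) (nat_lit 159))))))) (XT.nd (nat_lit 702) (nat_lit 836) (nat_lit 0) (XT.nd (nat_lit 312) (nat_lit 760) (nat_lit 0) (XT.nd (nat_lit 156) (nat_lit 456) (nat_lit 0) (XT.nd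 (nat_lit 78) (nat_lit 0) (nat_lit 76) (XT.lf (nat_lit 76) (nat_lit 837131554243) (nat_lit 0) (nat_lit 38930631980) (nat_lit 532) (nat_lit 89805096847) (nat_lit 60) (nat_lit 5) (nat_lit 59) (nat_lit 5) (nat_lit 66) (nat_lit 5) (nat_lit 373) (nat_lit 369) (nat_lit 158)) (XT.lf (nat_lit 76) (nat_lit 372978202543) (nat_lit 0) (nat_lit 597403950791) (nat_lit 532) (nat_lit 35705961471) (nat_lit 61) (nat_lit 5) (nat_lit 60) (nat_lit 5) (nat_lit 67) (nat_lit 5) (nat_lit 374) (nat_lit 369) (nat_lit 157))) (XT.nd (nat_lit 78) (nat_lit 0) (nat_lit 76) (XT.lf (nat_lit 0) (nat_lit 26206969295) (nat_lit 532) (nat_lit 128743519865) (nat_lit 608) (nat_lit 894162611179) (nat_lit 53) (nat_lit 5) (nat_lit 60) (nat_lit 5) (nat_lit 61) (nat_lit 5) (nat_lit 375) (nat_lit 369) (nat_lit 156)) (XT.lf (nat_lit 0) (nat_lit 109714085620) (nat_lit 532) (nat_lit 665827766927) (nat_lit 76) (nat_lit 318478421937) (nat_lit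 54) (nat_lit 5) (nat_lit 61) (nat_lit 5) (nat_lit 55) (nat_lit 5) (nat_lit 376) (nat_lit 369) (nat_lit 155)))) (XT.nd (nat_lit 156) (nat_lit 456) (nat_lit 0) (XT.nd (nat_lit 78) (nat_lit 380) (nat_lit 0) (XT.lf (nat_lit 0) (nat_lit 207537959719) (nat_lit 532) (nat_lit 109349365620) (nat_lit 76) (nat_lit 825021802152) (nat_lit 54) (nat_lit 5) (nat_lit 61) (nat_lit 5) (nat_lit 55) (nat_lit 5) (nat_lit 377) (nat_lit 369) (nat_lit 154)) (XT.lf (nat_lit 0) (nat_lit 330249754722) (nat_lit 456) (nat_lit 679712019190) (nat_lit 76) (nat_lit 182302353956) (nat_lit 49) (nat_lit 5) (nat_lit 55) (nat_lit 5) (nat_lit 50) (nat_lit 5) (nat_lit 378) (nat_lit 369) (nat_lit 153))) (XT.nd (nat_lit 78) (nat_lit 456) (nat_lit 0) (XT.lf (nat_lit 0) (nat_lit 474076790321) (nat_lit 456) (nat_lit 64292350169) (nat_lit 76) (nat_lit 707374524031) (nat_lit 49) (nat_lit 5) (nat_lit 55) (nat_lit 5) (nat_lit 50) (nat_lit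 5) (nat_lit 379) (nat_lit 369) (nat_lit 152)) (XT.nd (nat_lit 78) (nat_lit 228) (nat_lit 0) (XT.lf (nat_lit 0) (nat_lit 631974827514) (nat_lit 228) (nat_lit 12634166104) (nat_lit 304) (nat_lit 657676650107) (nat_lit 46) (nat_lit 5) (nat_lit 49) (nat_lit 5) (nat_lit 50) (nat_lit 5) (nat_lit 380) (nat_lit 369) (nat_lit 151)) (XT.lf (nat_lit 0) (nat_lit 11570949949) (nat_lit 228) (nat_lit 832646227687) (nat_lit 304) (nat_lit 517899131278) (nat_lit 43) (nat_lit 5) (nat_lit 46) (nat_lit 5) (nat_lit 47) (nat_lit 5) (nat_lit 381) (nat_lit 369) (nat_lit 150)))))) (XT.nd (nat_lit 312) (nat_lit 380) (nat_lit 0) (XT.nd (nat_lit 156) (nat_lit 304) (nat_lit 0) (XT.nd (nat_lit 78) (nat_lit 152) (nat_lit 0) (XT.lf (nat_lit 0) (nat_lit 785778981633) (nat_lit 228) (nat_lit 292662368162) (nat_lit 304) (nat_lit 346800290857) (nat_lit 43) (nat_lit 5) (nat_lit 46) (nat_lit 5) (nat_lit 47) (nat_lit 5) (nat_lit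 382) (nat_lit 369) (nat_lit 149)) (XT.lf (nat_lit 0) (nat_lit 127918642423) (nat_lit 152) (nat_lit 1213548273348) (nat_lit 228) (nat_lit 151145006357) (nat_lit 41) (nat_lit 5) (nat_lit 43) (nat_lit 5) (nat_lit 44) (nat_lit 5) (nat_lit 383) (nat_lit 369) (nat_lit 148))) (XT.nd (nat_lit 78) (nat_lit 228) (nat_lit 0) (XT.lf (nat_lit 0) (nat_lit 82692908083) (nat_lit 228) (nat_lit 580418517405) (nat_lit 76) (nat_lit 900101464357) (nat_lit 40) (nat_lit 5) (nat_lit 43) (nat_lit 5) (nat_lit 41) (nat_lit 5) (nat_lit 384) (nat_lit 369) (nat_lit 147)) (XT.lf (nat_lit 0) (nat_lit 276504238457) (nat_lit 228) (nat_lit 57217790819) (nat_lit 304) (nat_lit 1304893843777) (nat_lit 37) (nat_lit 5) (nat_lit 40) (nat_lit 5) (nat_lit 41) (nat_lit 5) (nat_lit 385) (nat_lit 369) (nat_lit 146)))) (XT.nd (nat_lit 156) (nat_lit 228) (nat_lit 0) (XT.nd (nat_lit 78) (nat_lit 152) (nat_lit 0) (XT.lf (nat_lit 0) (nat_lit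 635476754361) (nat_lit 304) (nat_lit 498565403180) (nat_lit 76) (nat_lit 583557475445) (nat_lit 37) (nat_lit 5) (nat_lit 41) (nat_lit 5) (nat_lit 38) (nat_lit 5) (nat_lit 386) (nat_lit 369) (nat_lit 145)) (XT.lf (nat_lit 0) (nat_lit 455357154730) (nat_lit 152) (nat_lit 518452226237) (nat_lit 228) (nat_lit 828097710868) (nat_lit 35) (nat_lit 5) (nat_lit 37) (nat_lit 5) (nat_lit 38) (nat_lit 5) (nat_lit 387) (nat_lit 369) (nat_lit 144))) (XT.nd (nat_lit 78) (nat_lit 228) (nat_lit 0) (XT.lf (nat_lit 0) (nat_lit 1356714905565) (nat_lit 228) (nat_lit 381795875262) (nat_lit 76) (nat_lit 153047863540) (nat_lit 35) (nat_lit 5) (nat_lit 38) (nat_lit 5) (nat_lit 36) (nat_lit 5) (nat_lit 388) (nat_lit 369) (nat_lit 143)) (XT.nd (nat_lit 78) (nat_lit 76) (nat_lit 0) (XT.lf (nat_lit 0) (nat_lit 680724828329) (nat_lit 152) (nat_lit 1119365780845) (nat_lit 228) (nat_lit 185904692968) (nat_lit 33) (nat_lit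 5) (nat_lit 35) (nat_lit 5) (nat_lit 36) (nat_lit 5) (nat_lit 389) (nat_lit 369) (nat_lit 142)) (XT.lf (nat_lit 0) (nat_lit 192107525427) (nat_lit 228) (nat_lit 242055002789) (nat_lit 76) (nat_lit 1652600167958) (nat_lit 32) (nat_lit 5) (nat_lit 35) (nat_lit 5) (nat_lit 33) (nat_lit 5) (nat_lit 390) (nat_lit 369) (nat_lit 141))))))))
noncomputable def xc245 : XT := (XT.nd (nat_lit 45630) (nat_lit 0) (nat_lit 836) (XT.nd (nat_lit 702) (nat_lit 304) (nat_lit 0) (XT.nd (nat_lit 312) (nat_lit 304) (nat_lit 0) (XT.nd (nat_lit 156) (nat_lit 228) (nat_lit 0) (XT.nd (nat_lit 78) (nat_lit 0) (nat_lit 0) (XT.lf (nat_lit 0) (nat_lit 621211026331) (nat_lit 228) (nat_lit 1252599047336) (nat_lit 76) (nat_lit 318923593629) (nat_lit 30) (nat_lit 5) (nat_lit 33) (nat_lit 5) (nat_lit 31) (nat_lit 5) (nat_lit 391) (nat_lit 369) (nat_lit 140)) (XT.lf (nat_lit 0) (nat_lit 1102709867752) (nat_lit 228) (nat_lit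 87436418745) (nat_lit 76) (nat_lit 1115590664774) (nat_lit 30) (nat_lit 5) (nat_lit 33) (nat_lit 5) (nat_lit 31) (nat_lit 5) (nat_lit 392) (nat_lit 369) (nat_lit 139))) (XT.nd (nat_lit 78) (nat_lit 76) (nat_lit 0) (XT.lf (nat_lit 0) (nat_lit 1232598800229) (nat_lit 152) (nat_lit 419773844546) (nat_lit 228) (nat_lit 773036330930) (nat_lit 28) (nat_lit 5) (nat_lit 30) (nat_lit 5) (nat_lit 31) (nat_lit 5) (nat_lit 393) (nat_lit 369) (nat_lit 138)) (XT.lf (nat_lit 0) (nat_lit 103970750592) (nat_lit 76) (nat_lit 2156905054611) (nat_lit 152) (nat_lit 292589567992) (nat_lit 27) (nat_lit 5) (nat_lit 28) (nat_lit 5) (nat_lit 29) (nat_lit 4) (nat_lit 394) (nat_lit 369) (nat_lit 137)))) (XT.nd (nat_lit 156) (nat_lit 76) (nat_lit 0) (XT.nd (nat_lit 78) (nat_lit 152) (nat_lit 0) (XT.lf (nat_lit 0) (nat_lit 259336710231) (nat_lit 152) (nat_lit 1134019552982) (nat_lit 76) (nat_lit 1294425522157) (nat_lit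 26) (nat_lit 5) (nat_lit 28) (nat_lit 5) (nat_lit 27) (nat_lit 5) (nat_lit 395) (nat_lit 369) (nat_lit 136)) (XT.lf (nat_lit 0) (nat_lit 293790373790) (nat_lit 152) (nat_lit 552884943837) (nat_lit 228) (nat_lit 1984994961506) (nat_lit 24) (nat_lit 5) (nat_lit 26) (nat_lit 5) (nat_lit 27) (nat_lit 5) (nat_lit 396) (nat_lit 369) (nat_lit 135))) (XT.nd (nat_lit 78) (nat_lit 76) (nat_lit 0) (XT.lf (nat_lit 0) (nat_lit 1521345996692) (nat_lit 228) (nat_lit 1093610457366) (nat_lit 76) (nat_lit 368885799693) (nat_lit 24) (nat_lit 5) (nat_lit 27) (nat_lit 5) (nat_lit 25) (nat_lit 4) (nat_lit 397) (nat_lit 369) (nat_lit 134)) (XT.nd (nat_lit 78) (nat_lit 0) (nat_lit 0) (XT.lf (nat_lit 0) (nat_lit 475632983201) (nat_lit 76) (nat_lit 1800156977421) (nat_lit 152) (nat_lit 870334055274) (nat_lit 23) (nat_lit 5) (nat_lit 24) (nat_lit 5) (nat_lit 25) (nat_lit 4) (nat_lit 398) (nat_lit 369) (nat_lit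 133)) (XT.lf (nat_lit 0) (nat_lit 2232610491338) (nat_lit 76) (nat_lit 887880196313) (nat_lit 152) (nat_lit 198505531686) (nat_lit 23) (nat_lit 5) (nat_lit 24) (nat_lit 5) (nat_lit 25) (nat_lit 4) (nat_lit 399) (nat_lit 369) (nat_lit 132)))))) (XT.nd (nat_lit 44538) (nat_lit 0) (nat_lit 2964) (XT.nd (nat_lit 156) (nat_lit 76) (nat_lit 0) (XT.nd (nat_lit 78) (nat_lit 0) (nat_lit 0) (XT.lf (nat_lit 0) (nat_lit 519264521416) (nat_lit 228) (nat_lit 2862531779488) (nat_lit 76) (nat_lit 121402904865) (nat_lit 20) (nat_lit 5) (nat_lit 23) (nat_lit 5) (nat_lit 21) (nat_lit 4) (nat_lit 400) (nat_lit 369) (nat_lit 131)) (XT.lf (nat_lit 0) (nat_lit 1337268781515) (nat_lit 228) (nat_lit 1161082921722) (nat_lit 76) (nat_lit 1199091284256) (nat_lit 20) (nat_lit 5) (nat_lit 23) (nat_lit 5) (nat_lit 21) (nat_lit 4) (nat_lit 401) (nat_lit 369) (nat_lit 130))) (XT.nd (nat_lit 78) (nat_lit 0) (nat_lit 0)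 (XT.lf (nat_lit 0) (nat_lit 712104176573) (nat_lit 76) (nat_lit 1525735326719) (nat_lit 152) (nat_lit 1668016678795) (nat_lit 19) (nat_lit 5) (nat_lit 20) (nat_lit 5) (nat_lit 21) (nat_lit 4) (nat_lit 402) (nat_lit 369) (nat_lit 129)) (XT.lf (nat_lit 0) (nat_lit 2801178054331) (nat_lit 76) (nat_lit 441023891526) (nat_lit 152) (nat_lit 886200801348) (nat_lit 19) (nat_lit 5) (nat_lit 20) (nat_lit 5) (nat_lit 21) (nat_lit 4) (nat_lit 403) (nat_lit 369) (nat_lit 128)))) (XT.nd (nat_lit 156) (nat_lit 0) (nat_lit 76) (XT.nd (nat_lit 78) (nat_lit 0) (nat_lit 0) (XT.lf (nat_lit 0) (nat_lit 361442249027) (nat_lit 532) (nat_lit 41812007728) (nat_lit 532) (nat_lit 41812007728) (nat_lit 58) (nat_lit 3) (nat_lit 65) (nat_lit 3) (nat_lit 65) (nat_lit 5) (nat_lit 370) (nat_lit 370) (nat_lit 160)) (XT.lf (nat_lit 76) (nat_lit 359932086868) (nat_lit 0) (nat_lit 400524243239) (nat_lit 532) (nat_lit 164588983732)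 (nat_lit 59) (nat_lit 5) (nat_lit 58) (nat_lit 3) (nat_lit 65) (nat_lit 5) (nat_lit 371) (nat_lit 370) (nat_lit 159))) (XT.nd (nat_lit 78) (nat_lit 0) (nat_lit 0) (XT.lf (nat_lit 0) (nat_lit 804292145856) (nat_lit 456) (nat_lit 119811579114) (nat_lit 532) (nat_lit 38386737574) (nat_lit 59) (nat_lit 5) (nat_lit 65) (nat_lit 5) (nat_lit 66) (nat_lit 5) (nat_lit 372) (nat_lit 370) (nat_lit 158)) (XT.nd (nat_lit 78) (nat_lit 0) (nat_lit 0) (XT.lf (nat_lit 76) (nat_lit 369178786864) (nat_lit 0) (nat_lit 501738018664) (nat_lit 532) (nat_lit 130471859333) (nat_lit 60) (nat_lit 5) (nat_lit 59) (nat_lit 5) (nat_lit 66) (nat_lit 5) (nat_lit 373) (nat_lit 370) (nat_lit 157)) (XT.lf (nat_lit 76) (nat_lit 904102168194) (nat_lit 0) (nat_lit 42045123962) (nat_lit 532) (nat_lit 96989362884) (nat_lit 60) (nat_lit 5) (nat_lit 59) (nat_lit 5) (nat_lit 66) (nat_lit 5) (nat_lit 374) (nat_lit 370) (nat_lit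 156))))))) (XT.nd (nat_lit 702) (nat_lit 988) (nat_lit 0) (XT.nd (nat_lit 312) (nat_lit 760) (nat_lit 0) (XT.nd (nat_lit 156) (nat_lit 0) (nat_lit 76) (XT.nd (nat_lit 78) (nat_lit 532) (nat_lit 0) (XT.lf (nat_lit 76) (nat_lit 402816557466) (nat_lit 0) (nat_lit 645196290916) (nat_lit 532) (nat_lit 38562305607) (nat_lit 61) (nat_lit 5) (nat_lit 60) (nat_lit 5) (nat_lit 67) (nat_lit 5) (nat_lit 375) (nat_lit 370) (nat_lit 155)) (XT.lf (nat_lit 0) (nat_lit 28303643635) (nat_lit 532) (nat_lit 139042903744) (nat_lit 608) (nat_lit 965695591491) (nat_lit 53) (nat_lit 5) (nat_lit 60) (nat_lit 5) (nat_lit 61) (nat_lit 5) (nat_lit 376) (nat_lit 370) (nat_lit 154))) (XT.nd (nat_lit 78) (nat_lit 0) (nat_lit 0) (XT.lf (nat_lit 0) (nat_lit 118491322539) (nat_lit 532) (nat_lit 719093883703) (nat_lit 76) (nat_lit 343956681254) (nat_lit 54) (nat_lit 5) (nat_lit 61) (nat_lit 5) (nat_lit 55) (nat_lit 5)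 (nat_lit 377) (nat_lit 370) (nat_lit 153)) (XT.lf (nat_lit 0) (nat_lit 224141098413) (nat_lit 532) (nat_lit 118097218038) (nat_lit 76) (nat_lit 891023532955) (nat_lit 54) (nat_lit 5) (nat_lit 61) (nat_lit 5) (nat_lit 55) (nat_lit 5) (nat_lit 378) (nat_lit 370) (nat_lit 152)))) (XT.nd (nat_lit 156) (nat_lit 456) (nat_lit 0) (XT.nd (nat_lit 78) (nat_lit 0) (nat_lit 0) (XT.lf (nat_lit 0) (nat_lit 356669831682) (nat_lit 456) (nat_lit 734088878438) (nat_lit 76) (nat_lit 196886540129) (nat_lit 49) (nat_lit 5) (nat_lit 55) (nat_lit 5) (nat_lit 50) (nat_lit 5) (nat_lit 379) (nat_lit 370) (nat_lit 151)) (XT.lf (nat_lit 0) (nat_lit 512003022975) (nat_lit 456) (nat_lit 69435643473) (nat_lit 76) (nat_lit 763964483968) (nat_lit 49) (nat_lit 5) (nat_lit 55) (nat_lit 5) (nat_lit 50) (nat_lit 5) (nat_lit 380) (nat_lit 370) (nat_lit 150))) (XT.nd (nat_lit 78) (nat_lit 228) (nat_lit 0) (XT.lf (nat_lit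 0) (nat_lit 682532906028) (nat_lit 228) (nat_lit 13644892104) (nat_lit 304) (nat_lit 710290690185) (nat_lit 46) (nat_lit 5) (nat_lit 49) (nat_lit 5) (nat_lit 50) (nat_lit 5) (nat_lit 381) (nat_lit 370) (nat_lit 149)) (XT.nd (nat_lit 78) (nat_lit 0) (nat_lit 0) (XT.lf (nat_lit 0) (nat_lit 12496722481) (nat_lit 228) (nat_lit 899257910576) (nat_lit 304) (nat_lit 559330973977) (nat_lit 43) (nat_lit 5) (nat_lit 46) (nat_lit 5) (nat_lit 47) (nat_lit 5) (nat_lit 382) (nat_lit 370) (nat_lit 148)) (XT.lf (nat_lit 0) (nat_lit 848641389549) (nat_lit 228) (nat_lit 316075343424) (nat_lit 304) (nat_lit 374544232826) (nat_lit 43) (nat_lit 5) (nat_lit 46) (nat_lit 5) (nat_lit 47) (nat_lit 5) (nat_lit 383) (nat_lit 370) (nat_lit 147)))))) (XT.nd (nat_lit 312) (nat_lit 532) (nat_lit 0) (XT.nd (nat_lit 156) (nat_lit 228) (nat_lit 0) (XT.nd (nat_lit 78) (nat_lit 76) (nat_lit 0) (XT.lf (nat_lit 0) (nat_lit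 138152226557) (nat_lit 152) (nat_lit 1310632114647) (nat_lit 228) (nat_lit 163236528839) (nat_lit 41) (nat_lit 5) (nat_lit 43) (nat_lit 5) (nat_lit 44) (nat_lit 5) (nat_lit 384) (nat_lit 370) (nat_lit 146)) (XT.lf (nat_lit 0) (nat_lit 89308409362) (nat_lit 228) (nat_lit 626851909242) (nat_lit 76) (nat_lit 972109596866) (nat_lit 40) (nat_lit 5) (nat_lit 43) (nat_lit 5) (nat_lit 41) (nat_lit 5) (nat_lit 385) (nat_lit 370) (nat_lit 145))) (XT.nd (nat_lit 78) (nat_lit 0) (nat_lit 0) (XT.lf (nat_lit 0) (nat_lit 298624664822) (nat_lit 228) (nat_lit 61795192445) (nat_lit 304) (nat_lit 1409285280313) (nat_lit 37) (nat_lit 5) (nat_lit 40) (nat_lit 5) (nat_lit 41) (nat_lit 5) (nat_lit 386) (nat_lit 370) (nat_lit 144)) (XT.lf (nat_lit 0) (nat_lit 686314955977) (nat_lit 304) (nat_lit 538450550171) (nat_lit 76) (nat_lit 630242092515) (nat_lit 37) (nat_lit 5) (nat_lit 41) (nat_lit 5) (nat_lit 38) (nat_lit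 5) (nat_lit 387) (nat_lit 370) (nat_lit 143)))) (XT.nd (nat_lit 156) (nat_lit 380) (nat_lit 0) (XT.nd (nat_lit 78) (nat_lit 0) (nat_lit 0) (XT.lf (nat_lit 0) (nat_lit 491785810214) (nat_lit 152) (nat_lit 559928379959) (nat_lit 228) (nat_lit 894345464255) (nat_lit 35) (nat_lit 5) (nat_lit 37) (nat_lit 5) (nat_lit 38) (nat_lit 5) (nat_lit 388) (nat_lit 370) (nat_lit 142)) (XT.lf (nat_lit 0) (nat_lit 1465252152931) (nat_lit 228) (nat_lit 412339464475) (nat_lit 76) (nat_lit 165291714065) (nat_lit 35) (nat_lit 5) (nat_lit 38) (nat_lit 5) (nat_lit 36) (nat_lit 5) (nat_lit 389) (nat_lit 370) (nat_lit 141))) (XT.nd (nat_lit 78) (nat_lit 228) (nat_lit 0) (XT.lf (nat_lit 0) (nat_lit 735182893358) (nat_lit 152) (nat_lit 1208915017296) (nat_lit 228) (nat_lit 200777011391) (nat_lit 33) (nat_lit 5) (nat_lit 35) (nat_lit 5) (nat_lit 36) (nat_lit 5) (nat_lit 390) (nat_lit 370) (nat_lit 140)) (XT.nd (nat_lit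 78) (nat_lit 152) (nat_lit 0) (XT.lf (nat_lit 0) (nat_lit 207476177612) (nat_lit 228) (nat_lit 261419327401) (nat_lit 76) (nat_lit 1784808202802) (nat_lit 32) (nat_lit 5) (nat_lit 35) (nat_lit 5) (nat_lit 33) (nat_lit 5) (nat_lit 391) (nat_lit 370) (nat_lit 139)) (XT.lf (nat_lit 0) (nat_lit 670907957258) (nat_lit 228) (nat_lit 1352806894144) (nat_lit 76) (nat_lit 344437505333) (nat_lit 30) (nat_lit 5) (nat_lit 33) (nat_lit 5) (nat_lit 31) (nat_lit 5) (nat_lit 392) (nat_lit 370) (nat_lit 138))))))))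
noncomputable def xc246 : XT := (XT.nd (nat_lit 45786) (nat_lit 0) (nat_lit 532) (XT.nd (nat_lit 702) (nat_lit 0) (nat_lit 0) (XT.nd (nat_lit 312) (nat_lit 456) (nat_lit 0) (XT.nd (nat_lit 156) (nat_lit 152) (nat_lit 0) (XT.nd (nat_lit 78) (nat_lit 152) (nat_lit 0) (XT.lf (nat_lit 0) (nat_lit 1190926702377) (nat_lit 228) (nat_lit 94431260968) (nat_lit 76) (nat_lit 1204837940376) (nat_lit 30) (nat_lit 5) (nat_lit 33) (nat_lit 5) (nat_lit 31) (nat_lit 5) (nat_lit 393) (nat_lit 370) (nat_lit 137)) (XT.lf (nat_lit 0) (nat_lit 1331206773719) (nat_lit 152) (nat_lit 453355726165) (nat_lit 228) (nat_lit 834879190363) (nat_lit 28) (nat_lit 5) (nat_lit 30) (nat_lit 5) (nat_lit 31) (nat_lit 5) (nat_lit 394) (nat_lit 370) (nat_lit 136))) (XT.nd (nat_lit 78) (nat_lit 76) (nat_lit 0) (XT.lf (nat_lit 0) (nat_lit 112288481171) (nat_lit 76) (nat_lit 2329457431026) (nat_lit 152) (nat_lit 315996687418)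 (nat_lit 27) (nat_lit 5) (nat_lit 28) (nat_lit 5) (nat_lit 29) (nat_lit 4) (nat_lit 395) (nat_lit 370) (nat_lit 135)) (XT.lf (nat_lit 0) (nat_lit 280083687523) (nat_lit 152) (nat_lit 1224741049757) (nat_lit 76) (nat_lit 1397979587656) (nat_lit 26) (nat_lit 5) (nat_lit 28) (nat_lit 5) (nat_lit 27) (nat_lit 5) (nat_lit 396) (nat_lit 370) (nat_lit 134)))) (XT.nd (nat_lit 156) (nat_lit 304) (nat_lit 0) (XT.nd (nat_lit 78) (nat_lit 0) (nat_lit 0) (XT.lf (nat_lit 0) (nat_lit 317293669449) (nat_lit 152) (nat_lit 597115712645) (nat_lit 228) (nat_lit 2143794516220) (nat_lit 24) (nat_lit 5) (nat_lit 26) (nat_lit 5) (nat_lit 27) (nat_lit 5) (nat_lit 397) (nat_lit 370) (nat_lit 133)) (XT.lf (nat_lit 0) (nat_lit 1643053713186) (nat_lit 228) (nat_lit 1181099230750) (nat_lit 76) (nat_lit 398396687153) (nat_lit 24) (nat_lit 5) (nat_lit 27) (nat_lit 5) (nat_lit 25) (nat_lit 4) (nat_lit 398) (nat_lit 370)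 (nat_lit 132))) (XT.nd (nat_lit 78) (nat_lit 228) (nat_lit 0) (XT.lf (nat_lit 0) (nat_lit 513683683463) (nat_lit 76) (nat_lit 1944169509527) (nat_lit 152) (nat_lit 939960741317) (nat_lit 23) (nat_lit 5) (nat_lit 24) (nat_lit 5) (nat_lit 25) (nat_lit 4) (nat_lit 399) (nat_lit 370) (nat_lit 131)) (XT.nd (nat_lit 78) (nat_lit 228) (nat_lit 0) (XT.lf (nat_lit 0) (nat_lit 2411219387687) (nat_lit 76) (nat_lit 958910587862) (nat_lit 152) (nat_lit 214385938684) (nat_lit 23) (nat_lit 5) (nat_lit 24) (nat_lit 5) (nat_lit 25) (nat_lit 4) (nat_lit 400) (nat_lit 370) (nat_lit 130)) (XT.lf (nat_lit 0) (nat_lit 560805716361) (nat_lit 228) (nat_lit 3091534262466) (nat_lit 76) (nat_lit 131115160729) (nat_lit 20) (nat_lit 5) (nat_lit 23) (nat_lit 5) (nat_lit 21) (nat_lit 4) (nat_lit 401) (nat_lit 370) (nat_lit 129)))))) (XT.nd (nat_lit 44694) (nat_lit 0) (nat_lit 2508) (XT.nd (nat_lit 44538) (nat_lit 0)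 (nat_lit 2888) (XT.nd (nat_lit 44460) (nat_lit 0) (nat_lit 2888) (XT.lf (nat_lit 0) (nat_lit 1444250314806) (nat_lit 228) (nat_lit 1253969500477) (nat_lit 76) (nat_lit 1295018608732) (nat_lit 20) (nat_lit 5) (nat_lit 23) (nat_lit 5) (nat_lit 21) (nat_lit 4) (nat_lit 402) (nat_lit 370) (nat_lit 128)) (XT.lf (nat_lit 0) (nat_lit 390357703888) (nat_lit 532) (nat_lit 45156927823) (nat_lit 532) (nat_lit 45156927823) (nat_lit 58) (nat_lit 3) (nat_lit 65) (nat_lit 3) (nat_lit 65) (nat_lit 5) (nat_lit 371) (nat_lit 371) (nat_lit 158))) (XT.nd (nat_lit 78) (nat_lit 0) (nat_lit 76) (XT.lf (nat_lit 76) (nat_lit 388726732812) (nat_lit 0) (nat_lit 432566244379) (nat_lit 532) (nat_lit 177755950294) (nat_lit 59) (nat_lit 5) (nat_lit 58) (nat_lit 3) (nat_lit 65) (nat_lit 5) (nat_lit 372) (nat_lit 371) (nat_lit 157)) (XT.lf (nat_lit 0) (nat_lit 868635646405) (nat_lit 456) (nat_lit 129396420314) (nat_lit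 532) (nat_lit 41457622325) (nat_lit 59) (nat_lit 5) (nat_lit 65) (nat_lit 5) (nat_lit 66) (nat_lit 5) (nat_lit 373) (nat_lit 371) (nat_lit 156)))) (XT.nd (nat_lit 156) (nat_lit 456) (nat_lit 0) (XT.nd (nat_lit 78) (nat_lit 0) (nat_lit 0) (XT.lf (nat_lit 76) (nat_lit 398713172787) (nat_lit 0) (nat_lit 541877098513) (nat_lit 532) (nat_lit 140909476865) (nat_lit 60) (nat_lit 5) (nat_lit 59) (nat_lit 5) (nat_lit 66) (nat_lit 5) (nat_lit 374) (nat_lit 371) (nat_lit 155)) (XT.lf (nat_lit 76) (nat_lit 976430418477) (nat_lit 0) (nat_lit 45408769393) (nat_lit 532) (nat_lit 104748390420) (nat_lit 60) (nat_lit 5) (nat_lit 59) (nat_lit 5) (nat_lit 66) (nat_lit 5) (nat_lit 375) (nat_lit 371) (nat_lit 154))) (XT.nd (nat_lit 78) (nat_lit 532) (nat_lit 0) (XT.lf (nat_lit 76) (nat_lit 435041966700) (nat_lit 0) (nat_lit 696812014818) (nat_lit 532) (nat_lit 41647176216) (nat_lit 61) (nat_lit 5) (nat_lit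 60) (nat_lit 5) (nat_lit 67) (nat_lit 5) (nat_lit 376) (nat_lit 371) (nat_lit 153)) (XT.nd (nat_lit 78) (nat_lit 0) (nat_lit 76) (XT.lf (nat_lit 0) (nat_lit 30568035260) (nat_lit 532) (nat_lit 150166252273) (nat_lit 608) (nat_lit 1042951214305) (nat_lit 53) (nat_lit 5) (nat_lit 60) (nat_lit 5) (nat_lit 61) (nat_lit 5) (nat_lit 377) (nat_lit 371) (nat_lit 152)) (XT.lf (nat_lit 0) (nat_lit 127970722710) (nat_lit 532) (nat_lit 776621304740) (nat_lit 76) (nat_lit 371473203376) (nat_lit 54) (nat_lit 5) (nat_lit 61) (nat_lit 5) (nat_lit 55) (nat_lit 5) (nat_lit 378) (nat_lit 371) (nat_lit 151))))))) (XT.nd (nat_lit 702) (nat_lit 760) (nat_lit 0) (XT.nd (nat_lit 312) (nat_lit 684) (nat_lit 0) (XT.nd (nat_lit 156) (nat_lit 228) (nat_lit 0) (XT.nd (nat_lit 78) (nat_lit 380) (nat_lit 0) (XT.lf (nat_lit 0) (nat_lit 242072473663) (nat_lit 532) (nat_lit 127544912463) (nat_lit 76) (nat_lit 962305404130)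 (nat_lit 54) (nat_lit 5) (nat_lit 61) (nat_lit 5) (nat_lit 55) (nat_lit 5) (nat_lit 379) (nat_lit 371) (nat_lit 150)) (XT.lf (nat_lit 0) (nat_lit 385203501021) (nat_lit 456) (nat_lit 792815901018) (nat_lit 76) (nat_lit 212637461502) (nat_lit 49) (nat_lit 5) (nat_lit 55) (nat_lit 5) (nat_lit 50) (nat_lit 5) (nat_lit 380) (nat_lit 371) (nat_lit 149))) (XT.nd (nat_lit 78) (nat_lit 228) (nat_lit 0) (XT.lf (nat_lit 0) (nat_lit 552963341484) (nat_lit 456) (nat_lit 74990413752) (nat_lit 76) (nat_lit 825081640984) (nat_lit 49) (nat_lit 5) (nat_lit 55) (nat_lit 5) (nat_lit 50) (nat_lit 5) (nat_lit 381) (nat_lit 371) (nat_lit 148)) (XT.lf (nat_lit 0) (nat_lit 737135617654) (nat_lit 228) (nat_lit 14736477223) (nat_lit 304) (nat_lit 767113866585) (nat_lit 46) (nat_lit 5) (nat_lit 49) (nat_lit 5) (nat_lit 50) (nat_lit 5) (nat_lit 382) (nat_lit 371) (nat_lit 147)))) (XT.nd (nat_lit 156) (nat_lit 456)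 (nat_lit 0) (XT.nd (nat_lit 78) (nat_lit 0) (nat_lit 0) (XT.lf (nat_lit 0) (nat_lit 13496543044) (nat_lit 228) (nat_lit 971198530283) (nat_lit 304) (nat_lit 604077376619) (nat_lit 43) (nat_lit 5) (nat_lit 46) (nat_lit 5) (nat_lit 47) (nat_lit 5) (nat_lit 383) (nat_lit 371) (nat_lit 146)) (XT.lf (nat_lit 0) (nat_lit 916532777346) (nat_lit 228) (nat_lit 341361358732) (nat_lit 304) (nat_lit 404507701751) (nat_lit 43) (nat_lit 5) (nat_lit 46) (nat_lit 5) (nat_lit 47) (nat_lit 5) (nat_lit 384) (nat_lit 371) (nat_lit 145))) (XT.nd (nat_lit 78) (nat_lit 304) (nat_lit 0) (XT.lf (nat_lit 0) (nat_lit 149204484191) (nat_lit 152) (nat_lit 1415482666184) (nat_lit 228) (nat_lit 176295384250) (nat_lit 41) (nat_lit 5) (nat_lit 43) (nat_lit 5) (nat_lit 44) (nat_lit 5) (nat_lit 385) (nat_lit 371) (nat_lit 144)) (XT.nd (nat_lit 78) (nat_lit 228) (nat_lit 0) (XT.lf (nat_lit 0) (nat_lit 96453140953) (nat_lit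 228) (nat_lit 676999985202) (nat_lit 76) (nat_lit 1049878377784) (nat_lit 40) (nat_lit 5) (nat_lit 43) (nat_lit 5) (nat_lit 41) (nat_lit 5) (nat_lit 386) (nat_lit 371) (nat_lit 143)) (XT.lf (nat_lit 0) (nat_lit 322514712843) (nat_lit 228) (nat_lit 66738789288) (nat_lit 304) (nat_lit 1522028041896) (nat_lit 37) (nat_lit 5) (nat_lit 40) (nat_lit 5) (nat_lit 41) (nat_lit 5) (nat_lit 387) (nat_lit 371) (nat_lit 142)))))) (XT.nd (nat_lit 312) (nat_lit 456) (nat_lit 0) (XT.nd (nat_lit 156) (nat_lit 152) (nat_lit 0) (XT.nd (nat_lit 78) (nat_lit 152) (nat_lit 0) (XT.lf (nat_lit 0) (nat_lit 741220204983) (nat_lit 304) (nat_lit 581526521084) (nat_lit 76) (nat_lit 680661476234) (nat_lit 37) (nat_lit 5) (nat_lit 41) (nat_lit 5) (nat_lit 38) (nat_lit 5) (nat_lit 388) (nat_lit 371) (nat_lit 141)) (XT.lf (nat_lit 0) (nat_lit 531128746280) (nat_lit 152) (nat_lit 604722629456) (nat_lit 228) (nat_lit 965893046970)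 (nat_lit 35) (nat_lit 5) (nat_lit 37) (nat_lit 5) (nat_lit 38) (nat_lit 5) (nat_lit 389) (nat_lit 371) (nat_lit 140))) (XT.nd (nat_lit 78) (nat_lit 152) (nat_lit 0) (XT.lf (nat_lit 0) (nat_lit 1582472372251) (nat_lit 228) (nat_lit 445326552352) (nat_lit 76) (nat_lit 178515069574) (nat_lit 35) (nat_lit 5) (nat_lit 38) (nat_lit 5) (nat_lit 36) (nat_lit 5) (nat_lit 390) (nat_lit 371) (nat_lit 139)) (XT.lf (nat_lit 0) (nat_lit 793997592354) (nat_lit 152) (nat_lit 1305628196375) (nat_lit 228) (nat_lit 216839123421) (nat_lit 33) (nat_lit 5) (nat_lit 35) (nat_lit 5) (nat_lit 36) (nat_lit 5) (nat_lit 391) (nat_lit 371) (nat_lit 138)))) (XT.nd (nat_lit 156) (nat_lit 228) (nat_lit 0) (XT.nd (nat_lit 78) (nat_lit 152) (nat_lit 0) (XT.lf (nat_lit 0) (nat_lit 224074314817) (nat_lit 228) (nat_lit 282332808770) (nat_lit 76) (nat_lit 1927592877379) (nat_lit 32) (nat_lit 5) (nat_lit 35) (nat_lit 5) (nat_lit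 33) (nat_lit 5) (nat_lit 392) (nat_lit 371) (nat_lit 137)) (XT.lf (nat_lit 0) (nat_lit 724580635695) (nat_lit 228) (nat_lit 1461031379679) (nat_lit 76) (nat_lit 371992526518) (nat_lit 30) (nat_lit 5) (nat_lit 33) (nat_lit 5) (nat_lit 31) (nat_lit 5) (nat_lit 393) (nat_lit 371) (nat_lit 136))) (XT.nd (nat_lit 78) (nat_lit 228) (nat_lit 0) (XT.lf (nat_lit 0) (nat_lit 1286200877323) (nat_lit 228) (nat_lit 101985700738) (nat_lit 76) (nat_lit 1301224994828) (nat_lit 30) (nat_lit 5) (nat_lit 33) (nat_lit 5) (nat_lit 31) (nat_lit 5) (nat_lit 394) (nat_lit 371) (nat_lit 135)) (XT.nd (nat_lit 78) (nat_lit 76) (nat_lit 0) (XT.lf (nat_lit 0) (nat_lit 1437703375177) (nat_lit 152) (nat_lit 489624162014) (nat_lit 228) (nat_lit 901669485261) (nat_lit 28) (nat_lit 5) (nat_lit 30) (nat_lit 5) (nat_lit 31) (nat_lit 5) (nat_lit 395) (nat_lit 371) (nat_lit 134)) (XT.lf (nat_lit 0) (nat_lit 121271620133)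 (nat_lit 76) (nat_lit 2515814001542) (nat_lit 152) (nat_lit 341276382962) (nat_lit 27) (nat_lit 5) (nat_lit 28) (nat_lit 5) (nat_lit 29) (nat_lit 4) (nat_lit 396) (nat_lit 371) (nat_lit 133))))))))
noncomputable def xc247 : XT := (XT.nd (nat_lit 45864) (nat_lit 0) (nat_lit 228) (XT.nd (nat_lit 45162) (nat_lit 0) (nat_lit 1976) (XT.nd (nat_lit 312) (nat_lit 228) (nat_lit 0) (XT.nd (nat_lit 156) (nat_lit 76) (nat_lit 0) (XT.nd (nat_lit 78) (nat_lit 152) (nat_lit 0) (XT.lf (nat_lit 0) (nat_lit 302490417225) (nat_lit 152) (nat_lit 1322720275898) (nat_lit 76) (nat_lit 1509817975010) (nat_lit 26) (nat_lit 5) (nat_lit 28) (nat_lit 5) (nat_lit 27) (nat_lit 5) (nat_lit 397) (nat_lit 371) (nat_lit 132)) (XT.lf (nat_lit 0) (nat_lit 342677219380) (nat_lit 152) (nat_lit 644884946767) (nat_lit 228) (nat_lit 2315298041333) (nat_lit 24) (nat_lit 5) (nat_lit 26) (nat_lit 5) (nat_lit 27) (nat_lit 5) (nat_lit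 398) (nat_lit 371) (nat_lit 131))) (XT.nd (nat_lit 78) (nat_lit 76) (nat_lit 0) (XT.lf (nat_lit 0) (nat_lit 1774498041755) (nat_lit 228) (nat_lit 1275587115021) (nat_lit 76) (nat_lit 430268442259) (nat_lit 24) (nat_lit 5) (nat_lit 27) (nat_lit 5) (nat_lit 25) (nat_lit 4) (nat_lit 399) (nat_lit 371) (nat_lit 130)) (XT.lf (nat_lit 0) (nat_lit 554778430957) (nat_lit 76) (nat_lit 2099703047922) (nat_lit 152) (nat_lit 1015157567718) (nat_lit 23) (nat_lit 5) (nat_lit 24) (nat_lit 5) (nat_lit 25) (nat_lit 4) (nat_lit 400) (nat_lit 371) (nat_lit 129)))) (XT.nd (nat_lit 44616) (nat_lit 0) (nat_lit 2888) (XT.nd (nat_lit 78) (nat_lit 228) (nat_lit 0) (XT.lf (nat_lit 0) (nat_lit 2604116987607) (nat_lit 76) (nat_lit 1035623414181) (nat_lit 152) (nat_lit 231536783313) (nat_lit 23) (nat_lit 5) (nat_lit 24) (nat_lit 5) (nat_lit 25) (nat_lit 4) (nat_lit 401) (nat_lit 371) (nat_lit 128)) (XT.lf (nat_lit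 0) (nat_lit 605670202160) (nat_lit 228) (nat_lit 3338856952553) (nat_lit 76) (nat_lit 141604393713) (nat_lit 20) (nat_lit 5) (nat_lit 23) (nat_lit 5) (nat_lit 21) (nat_lit 4) (nat_lit 402) (nat_lit 371) (nat_lit 127))) (XT.nd (nat_lit 78) (nat_lit 0) (nat_lit 0) (XT.lf (nat_lit 0) (nat_lit 421586384446) (nat_lit 532) (nat_lit 48769447307) (nat_lit 532) (nat_lit 48769447307) (nat_lit 58) (nat_lit 3) (nat_lit 65) (nat_lit 3) (nat_lit 65) (nat_lit 5) (nat_lit 372) (nat_lit 372) (nat_lit 156)) (XT.nd (nat_lit 78) (nat_lit 0) (nat_lit 76) (XT.lf (nat_lit 76) (nat_lit 419824939161) (nat_lit 0) (nat_lit 467171596810) (nat_lit 532) (nat_lit 191976295885) (nat_lit 59) (nat_lit 5) (nat_lit 58) (nat_lit 3) (nat_lit 65) (nat_lit 5) (nat_lit 373) (nat_lit 372) (nat_lit 155)) (XT.lf (nat_lit 0) (nat_lit 938126608612) (nat_lit 456) (nat_lit 139748060955) (nat_lit 532) (nat_lit 44774185597) (nat_lit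 59) (nat_lit 5) (nat_lit 65) (nat_lit 5) (nat_lit 66) (nat_lit 5) (nat_lit 374) (nat_lit 372) (nat_lit 154)))))) (XT.nd (nat_lit 312) (nat_lit 532) (nat_lit 0) (XT.nd (nat_lit 156) (nat_lit 456) (nat_lit 0) (XT.nd (nat_lit 78) (nat_lit 0) (nat_lit 0) (XT.lf (nat_lit 76) (nat_lit 430610297747) (nat_lit 0) (nat_lit 585227299278) (nat_lit 532) (nat_lit 152182122520) (nat_lit 60) (nat_lit 5) (nat_lit 59) (nat_lit 5) (nat_lit 66) (nat_lit 5) (nat_lit 375) (nat_lit 372) (nat_lit 153)) (XT.lf (nat_lit 76) (nat_lit 1054544917823) (nat_lit 0) (nat_lit 49041501393) (nat_lit 532) (nat_lit 113128157491) (nat_lit 60) (nat_lit 5) (nat_lit 59) (nat_lit 5) (nat_lit 66) (nat_lit 5) (nat_lit 376) (nat_lit 372) (nat_lit 152))) (XT.nd (nat_lit 78) (nat_lit 532) (nat_lit 0) (XT.lf (nat_lit 76) (nat_lit 469845396597) (nat_lit 0) (nat_lit 752556993690) (nat_lit 532) (nat_lit 44978852714) (nat_lit 61) (nat_lit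 5) (nat_lit 60) (nat_lit 5) (nat_lit 67) (nat_lit 5) (nat_lit 377) (nat_lit 372) (nat_lit 151)) (XT.lf (nat_lit 0) (nat_lit 33013563930) (nat_lit 532) (nat_lit 162179480635) (nat_lit 608) (nat_lit 1126387290440) (nat_lit 53) (nat_lit 5) (nat_lit 60) (nat_lit 5) (nat_lit 61) (nat_lit 5) (nat_lit 378) (nat_lit 372) (nat_lit 150)))) (XT.nd (nat_lit 156) (nat_lit 608) (nat_lit 0) (XT.nd (nat_lit 78) (nat_lit 0) (nat_lit 0) (XT.lf (nat_lit 0) (nat_lit 138208461431) (nat_lit 532) (nat_lit 838750932251) (nat_lit 76) (nat_lit 401191049033) (nat_lit 54) (nat_lit 5) (nat_lit 61) (nat_lit 5) (nat_lit 55) (nat_lit 5) (nat_lit 379) (nat_lit 372) (nat_lit 149)) (XT.lf (nat_lit 0) (nat_lit 261438346468) (nat_lit 532) (nat_lit 137748434286) (nat_lit 76) (nat_lit 1039289826634) (nat_lit 54) (nat_lit 5) (nat_lit 61) (nat_lit 5) (nat_lit 55) (nat_lit 5) (nat_lit 380) (nat_lit 372) (nat_lit 148))) (XT.nd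 (nat_lit 78) (nat_lit 228) (nat_lit 0) (XT.lf (nat_lit 0) (nat_lit 416019852093) (nat_lit 456) (nat_lit 856241097916) (nat_lit 76) (nat_lit 229648456846) (nat_lit 49) (nat_lit 5) (nat_lit 55) (nat_lit 5) (nat_lit 50) (nat_lit 5) (nat_lit 381) (nat_lit 372) (nat_lit 147)) (XT.nd (nat_lit 78) (nat_lit 228) (nat_lit 0) (XT.lf (nat_lit 0) (nat_lit 597200474535) (nat_lit 456) (nat_lit 80989577237) (nat_lit 76) (nat_lit 891088170804) (nat_lit 49) (nat_lit 5) (nat_lit 55) (nat_lit 5) (nat_lit 50) (nat_lit 5) (nat_lit 382) (nat_lit 372) (nat_lit 146)) (XT.lf (nat_lit 0) (nat_lit 796106534918) (nat_lit 228) (nat_lit 15915390044) (nat_lit 304) (nat_lit 828482908341) (nat_lit 46) (nat_lit 5) (nat_lit 49) (nat_lit 5) (nat_lit 50) (nat_lit 5) (nat_lit 383) (nat_lit 372) (nat_lit 145))))))) (XT.nd (nat_lit 702) (nat_lit 760) (nat_lit 0) (XT.nd (nat_lit 312) (nat_lit 532) (nat_lit 0) (XT.nd (nat_lit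 156) (nat_lit 228) (nat_lit 0) (XT.nd (nat_lit 78) (nat_lit 0) (nat_lit 0) (XT.lf (nat_lit 0) (nat_lit 14576337444) (nat_lit 228) (nat_lit 1048894401441) (nat_lit 304) (nat_lit 652403502210) (nat_lit 43) (nat_lit 5) (nat_lit 46) (nat_lit 5) (nat_lit 47) (nat_lit 5) (nat_lit 384) (nat_lit 372) (nat_lit 144)) (XT.lf (nat_lit 0) (nat_lit 989855465234) (nat_lit 228) (nat_lit 368670257000) (nat_lit 304) (nat_lit 436868258134) (nat_lit 43) (nat_lit 5) (nat_lit 46) (nat_lit 5) (nat_lit 47) (nat_lit 5) (nat_lit 385) (nat_lit 372) (nat_lit 143))) (XT.nd (nat_lit 78) (nat_lit 76) (nat_lit 0) (XT.lf (nat_lit 0) (nat_lit 161140911093) (nat_lit 152) (nat_lit 1528721264360) (nat_lit 228) (nat_lit 190398957638) (nat_lit 41) (nat_lit 5) (nat_lit 43) (nat_lit 5) (nat_lit 44) (nat_lit 5) (nat_lit 386) (nat_lit 372) (nat_lit 142)) (XT.lf (nat_lit 0) (nat_lit 104169442677) (nat_lit 228) (nat_lit 731159918193)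 (nat_lit 76) (nat_lit 1133868659297) (nat_lit 40) (nat_lit 5) (nat_lit 43) (nat_lit 5) (nat_lit 41) (nat_lit 5) (nat_lit 387) (nat_lit 372) (nat_lit 141)))) (XT.nd (nat_lit 156) (nat_lit 304) (nat_lit 0) (XT.nd (nat_lit 78) (nat_lit 0) (nat_lit 0) (XT.lf (nat_lit 0) (nat_lit 348315954030) (nat_lit 228) (nat_lit 72077876526) (nat_lit 304) (nat_lit 1643790233085) (nat_lit 37) (nat_lit 5) (nat_lit 40) (nat_lit 5) (nat_lit 41) (nat_lit 5) (nat_lit 388) (nat_lit 372) (nat_lit 140)) (XT.lf (nat_lit 0) (nat_lit 800517866415) (nat_lit 304) (nat_lit 628048580100) (nat_lit 76) (nat_lit 735114408324) (nat_lit 37) (nat_lit 5) (nat_lit 41) (nat_lit 5) (nat_lit 38) (nat_lit 5) (nat_lit 389) (nat_lit 372) (nat_lit 139))) (XT.nd (nat_lit 78) (nat_lit 152) (nat_lit 0) (XT.lf (nat_lit 0) (nat_lit 573619107067) (nat_lit 152) (nat_lit 653100421895) (nat_lit 228) (nat_lit 1043164444066) (nat_lit 35) (nat_lit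 5) (nat_lit 37) (nat_lit 5) (nat_lit 38) (nat_lit 5) (nat_lit 390) (nat_lit 372) (nat_lit 138)) (XT.nd (nat_lit 78) (nat_lit 152) (nat_lit 0) (XT.lf (nat_lit 0) (nat_lit 1709070202400) (nat_lit 228) (nat_lit 480952617144) (nat_lit 76) (nat_lit 192796290901) (nat_lit 35) (nat_lit 5) (nat_lit 38) (nat_lit 5) (nat_lit 36) (nat_lit 5) (nat_lit 391) (nat_lit 372) (nat_lit 137)) (XT.lf (nat_lit 0) (nat_lit 857517457635) (nat_lit 152) (nat_lit 1410078432962) (nat_lit 228) (nat_lit 234186211388) (nat_lit 33) (nat_lit 5) (nat_lit 35) (nat_lit 5) (nat_lit 36) (nat_lit 5) (nat_lit 392) (nat_lit 372) (nat_lit 136)))))) (XT.nd (nat_lit 312) (nat_lit 380) (nat_lit 0) (XT.nd (nat_lit 156) (nat_lit 152) (nat_lit 0) (XT.nd (nat_lit 78) (nat_lit 152) (nat_lit 0) (XT.lf (nat_lit 0) (nat_lit 242000296865) (nat_lit 228) (nat_lit 304919377895) (nat_lit 76) (nat_lit 2081800323304) (nat_lit 32) (nat_lit 5) (nat_lit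 35) (nat_lit 5) (nat_lit 33) (nat_lit 5) (nat_lit 393) (nat_lit 372) (nat_lit 135)) (XT.lf (nat_lit 0) (nat_lit 782547122436) (nat_lit 228) (nat_lit 1577913833472) (nat_lit 76) (nat_lit 401751946438) (nat_lit 30) (nat_lit 5) (nat_lit 33) (nat_lit 5) (nat_lit 31) (nat_lit 5) (nat_lit 394) (nat_lit 372) (nat_lit 134))) (XT.nd (nat_lit 78) (nat_lit 152) (nat_lit 0) (XT.lf (nat_lit 0) (nat_lit 1389096980736) (nat_lit 228) (nat_lit 110144504407) (nat_lit 76) (nat_lit 1405323010893) (nat_lit 30) (nat_lit 5) (nat_lit 33) (nat_lit 5) (nat_lit 31) (nat_lit 5) (nat_lit 395) (nat_lit 372) (nat_lit 133)) (XT.lf (nat_lit 0) (nat_lit 1552719696255) (nat_lit 152) (nat_lit 528794075905) (nat_lit 228) (nat_lit 973803009505) (nat_lit 28) (nat_lit 5) (nat_lit 30) (nat_lit 5) (nat_lit 31) (nat_lit 5) (nat_lit 396) (nat_lit 372) (nat_lit 132)))) (XT.nd (nat_lit 156) (nat_lit 228) (nat_lit 0) (XT.nd (nat_lit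 78) (nat_lit 76) (nat_lit 0) (XT.lf (nat_lit 0) (nat_lit 130973401586) (nat_lit 76) (nat_lit 2717079101118) (nat_lit 152) (nat_lit 368578459778) (nat_lit 27) (nat_lit 5) (nat_lit 28) (nat_lit 5) (nat_lit 29) (nat_lit 4) (nat_lit 397) (nat_lit 372) (nat_lit 131)) (XT.lf (nat_lit 0) (nat_lit 326689680352) (nat_lit 152) (nat_lit 1428537848382) (nat_lit 76) (nat_lit 1630603430450) (nat_lit 26) (nat_lit 5) (nat_lit 28) (nat_lit 5) (nat_lit 27) (nat_lit 5) (nat_lit 398) (nat_lit 372) (nat_lit 130))) (XT.nd (nat_lit 78) (nat_lit 76) (nat_lit 0) (XT.lf (nat_lit 0) (nat_lit 370091445263) (nat_lit 152) (nat_lit 696475722884) (nat_lit 228) (nat_lit 2500521853618) (nat_lit 24) (nat_lit 5) (nat_lit 26) (nat_lit 5) (nat_lit 27) (nat_lit 5) (nat_lit 399) (nat_lit 372) (nat_lit 129)) (XT.nd (nat_lit 78) (nat_lit 76) (nat_lit 0) (XT.lf (nat_lit 0) (nat_lit 1916457912114) (nat_lit 228) (nat_lit 1377634037765)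 (nat_lit 76) (nat_lit 464689934902) (nat_lit 24) (nat_lit 5) (nat_lit 27) (nat_lit 5) (nat_lit 25) (nat_lit 4) (nat_lit 400) (nat_lit 372) (nat_lit 128)) (XT.lf (nat_lit 0) (nat_lit 599160750716) (nat_lit 76) (nat_lit 2267679272580) (nat_lit 152) (nat_lit 1096370144926) (nat_lit 23) (nat_lit 5) (nat_lit 24) (nat_lit 5) (nat_lit 25) (nat_lit 4) (nat_lit 401) (nat_lit 372) (nat_lit 127))))))))
noncomputable def xc248 : XT := (XT.nd (nat_lit 45942) (nat_lit 0) (nat_lit 76) (XT.nd (nat_lit 45240) (nat_lit 0) (nat_lit 1064) (XT.nd (nat_lit 44850) (nat_lit 0) (nat_lit 2280) (XT.nd (nat_lit 44694) (nat_lit 0) (nat_lit 2660) (XT.nd (nat_lit 44616) (nat_lit 0) (nat_lit 2660) (XT.lf (nat_lit 0) (nat_lit 2812446388543) (nat_lit 76) (nat_lit 1118473269560) (nat_lit 152) (nat_lit 250059699857) (nat_lit 23) (nat_lit 5) (nat_lit 24) (nat_lit 5) (nat_lit 25) (nat_lit 4) (nat_lit 402) (nat_lit 372) (nat_lit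 126)) (XT.lf (nat_lit 0) (nat_lit 455313350284) (nat_lit 532) (nat_lit 52670973306) (nat_lit 532) (nat_lit 52670973306) (nat_lit 58) (nat_lit 3) (nat_lit 65) (nat_lit 3) (nat_lit 65) (nat_lit 5) (nat_lit 373) (nat_lit 373) (nat_lit 154))) (XT.nd (nat_lit 78) (nat_lit 0) (nat_lit 76) (XT.lf (nat_lit 76) (nat_lit 453410992357) (nat_lit 0) (nat_lit 504545369892) (nat_lit 532) (nat_lit 207334287731) (nat_lit 59) (nat_lit 5) (nat_lit 58) (nat_lit 3) (nat_lit 65) (nat_lit 5) (nat_lit 374) (nat_lit 373) (nat_lit 153)) (XT.lf (nat_lit 0) (nat_lit 1013176832032) (nat_lit 456) (nat_lit 150927843258) (nat_lit 532) (nat_lit 48356080566) (nat_lit 59) (nat_lit 5) (nat_lit 65) (nat_lit 5) (nat_lit 66) (nat_lit 5) (nat_lit 375) (nat_lit 373) (nat_lit 152)))) (XT.nd (nat_lit 156) (nat_lit 456) (nat_lit 0) (XT.nd (nat_lit 78) (nat_lit 0) (nat_lit 0) (XT.lf (nat_lit 76) (nat_lit 465059182555) (nat_lit 0)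 (nat_lit 632045511413) (nat_lit 532) (nat_lit 164356595875) (nat_lit 60) (nat_lit 5) (nat_lit 59) (nat_lit 5) (nat_lit 66) (nat_lit 5) (nat_lit 376) (nat_lit 373) (nat_lit 151)) (XT.lf (nat_lit 76) (nat_lit 1138908567720) (nat_lit 0) (nat_lit 52964847608) (nat_lit 532) (nat_lit 122178320788) (nat_lit 60) (nat_lit 5) (nat_lit 59) (nat_lit 5) (nat_lit 66) (nat_lit 5) (nat_lit 377) (nat_lit 373) (nat_lit 150))) (XT.nd (nat_lit 78) (nat_lit 532) (nat_lit 0) (XT.lf (nat_lit 76) (nat_lit 507433090535) (nat_lit 0) (nat_lit 812761568348) (nat_lit 532) (nat_lit 48577077256) (nat_lit 61) (nat_lit 5) (nat_lit 60) (nat_lit 5) (nat_lit 67) (nat_lit 5) (nat_lit 378) (nat_lit 373) (nat_lit 149)) (XT.nd (nat_lit 78) (nat_lit 0) (nat_lit 76) (XT.lf (nat_lit 0) (nat_lit 35654722645) (nat_lit 532) (nat_lit 175153777512) (nat_lit 608) (nat_lit 1216498255664) (nat_lit 53) (nat_lit 5) (nat_lit 60) (nat_lit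 5) (nat_lit 61) (nat_lit 5) (nat_lit 379) (nat_lit 373) (nat_lit 148)) (XT.lf (nat_lit 0) (nat_lit 149265207708) (nat_lit 532) (nat_lit 905850940929) (nat_lit 76) (nat_lit 433286323857) (nat_lit 54) (nat_lit 5) (nat_lit 61) (nat_lit 5) (nat_lit 55) (nat_lit 5) (nat_lit 380) (nat_lit 373) (nat_lit 147)))))) (XT.nd (nat_lit 312) (nat_lit 684) (nat_lit 0) (XT.nd (nat_lit 156) (nat_lit 228) (nat_lit 0) (XT.nd (nat_lit 78) (nat_lit 380) (nat_lit 0) (XT.lf (nat_lit 0) (nat_lit 282353478410) (nat_lit 532) (nat_lit 148768248008) (nat_lit 76) (nat_lit 1122433004341) (nat_lit 54) (nat_lit 5) (nat_lit 61) (nat_lit 5) (nat_lit 55) (nat_lit 5) (nat_lit 381) (nat_lit 373) (nat_lit 146)) (XT.lf (nat_lit 0) (nat_lit 449301501124) (nat_lit 456) (nat_lit 924740321291) (nat_lit 76) (nat_lit 248020332043) (nat_lit 49) (nat_lit 5) (nat_lit 55) (nat_lit 5) (nat_lit 50) (nat_lit 5) (nat_lit 382) (nat_lit 373)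 (nat_lit 145))) (XT.nd (nat_lit 78) (nat_lit 228) (nat_lit 0) (XT.lf (nat_lit 0) (nat_lit 644976568853) (nat_lit 456) (nat_lit 87468683732) (nat_lit 76) (nat_lit 962375223218) (nat_lit 49) (nat_lit 5) (nat_lit 55) (nat_lit 5) (nat_lit 50) (nat_lit 5) (nat_lit 383) (nat_lit 373) (nat_lit 144)) (XT.lf (nat_lit 0) (nat_lit 859795115885) (nat_lit 228) (nat_lit 17188616655) (nat_lit 304) (nat_lit 894761483076) (nat_lit 46) (nat_lit 5) (nat_lit 49) (nat_lit 5) (nat_lit 50) (nat_lit 5) (nat_lit 384) (nat_lit 373) (nat_lit 143)))) (XT.nd (nat_lit 156) (nat_lit 456) (nat_lit 0) (XT.nd (nat_lit 78) (nat_lit 0) (nat_lit 0) (XT.lf (nat_lit 0) (nat_lit 15742505273) (nat_lit 228) (nat_lit 1132805943898) (nat_lit 304) (nat_lit 704595727056) (nat_lit 43) (nat_lit 5) (nat_lit 46) (nat_lit 5) (nat_lit 47) (nat_lit 5) (nat_lit 385) (nat_lit 373) (nat_lit 142)) (XT.lf (nat_lit 0) (nat_lit 1069043958781)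 (nat_lit 228) (nat_lit 398163868618) (nat_lit 304) (nat_lit 471817667553) (nat_lit 43) (nat_lit 5) (nat_lit 46) (nat_lit 5) (nat_lit 47) (nat_lit 5) (nat_lit 386) (nat_lit 373) (nat_lit 141))) (XT.nd (nat_lit 78) (nat_lit 304) (nat_lit 0) (XT.lf (nat_lit 0) (nat_lit 174032242422) (nat_lit 152) (nat_lit 1651018952547) (nat_lit 228) (nat_lit 205630825079) (nat_lit 41) (nat_lit 5) (nat_lit 43) (nat_lit 5) (nat_lit 44) (nat_lit 5) (nat_lit 387) (nat_lit 373) (nat_lit 140)) (XT.nd (nat_lit 78) (nat_lit 228) (nat_lit 0) (XT.lf (nat_lit 0) (nat_lit 112503041342) (nat_lit 228) (nat_lit 789652655214) (nat_lit 76) (nat_lit 1224578161721) (nat_lit 40) (nat_lit 5) (nat_lit 43) (nat_lit 5) (nat_lit 41) (nat_lit 5) (nat_lit 388) (nat_lit 373) (nat_lit 139)) (XT.lf (nat_lit 0) (nat_lit 376181285358) (nat_lit 228) (nat_lit 77844093012) (nat_lit 304) (nat_lit 1775293407012) (nat_lit 37) (nat_lit 5) (nat_lit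 40) (nat_lit 5) (nat_lit 41) (nat_lit 5) (nat_lit 389) (nat_lit 373) (nat_lit 138))))))) (XT.nd (nat_lit 702) (nat_lit 228) (nat_lit 0) (XT.nd (nat_lit 312) (nat_lit 456) (nat_lit 0) (XT.nd (nat_lit 156) (nat_lit 152) (nat_lit 0) (XT.nd (nat_lit 78) (nat_lit 152) (nat_lit 0) (XT.lf (nat_lit 0) (nat_lit 864559334337) (nat_lit 304) (nat_lit 678292412777) (nat_lit 76) (nat_lit 793923572984) (nat_lit 37) (nat_lit 5) (nat_lit 41) (nat_lit 5) (nat_lit 38) (nat_lit 5) (nat_lit 390) (nat_lit 373) (nat_lit 137)) (XT.lf (nat_lit 0) (nat_lit 619508688003) (nat_lit 152) (nat_lit 705348440284) (nat_lit 228) (nat_lit 1126617559587) (nat_lit 35) (nat_lit 5) (nat_lit 37) (nat_lit 5) (nat_lit 38) (nat_lit 5) (nat_lit 391) (nat_lit 373) (nat_lit 136))) (XT.nd (nat_lit 78) (nat_lit 152) (nat_lit 0) (XT.lf (nat_lit 0) (nat_lit 1845795853201) (nat_lit 228) (nat_lit 519428775592) (nat_lit 76) (nat_lit 208220007685)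 (nat_lit 35) (nat_lit 5) (nat_lit 38) (nat_lit 5) (nat_lit 36) (nat_lit 5) (nat_lit 392) (nat_lit 373) (nat_lit 135)) (XT.lf (nat_lit 0) (nat_lit 926118903880) (nat_lit 152) (nat_lit 1522884691204) (nat_lit 228) (nat_lit 252921072370) (nat_lit 33) (nat_lit 5) (nat_lit 35) (nat_lit 5) (nat_lit 36) (nat_lit 5) (nat_lit 393) (nat_lit 373) (nat_lit 134)))) (XT.nd (nat_lit 156) (nat_lit 228) (nat_lit 0) (XT.nd (nat_lit 78) (nat_lit 152) (nat_lit 0) (XT.lf (nat_lit 0) (nat_lit 261360352217) (nat_lit 228) (nat_lit 329312880479) (nat_lit 76) (nat_lit 2248344362659) (nat_lit 32) (nat_lit 5) (nat_lit 35) (nat_lit 5) (nat_lit 33) (nat_lit 5) (nat_lit 394) (nat_lit 373) (nat_lit 133)) (XT.lf (nat_lit 0) (nat_lit 845150922996) (nat_lit 228) (nat_lit 1704146891640) (nat_lit 76) (nat_lit 433892117411) (nat_lit 30) (nat_lit 5) (nat_lit 33) (nat_lit 5) (nat_lit 31) (nat_lit 5) (nat_lit 395) (nat_lit 373)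 (nat_lit 132))) (XT.nd (nat_lit 78) (nat_lit 228) (nat_lit 0) (XT.lf (nat_lit 0) (nat_lit 1500224767681) (nat_lit 228) (nat_lit 118956019843) (nat_lit 76) (nat_lit 1517748865893) (nat_lit 30) (nat_lit 5) (nat_lit 33) (nat_lit 5) (nat_lit 31) (nat_lit 5) (nat_lit 396) (nat_lit 373) (nat_lit 131)) (XT.nd (nat_lit 78) (nat_lit 76) (nat_lit 0) (XT.lf (nat_lit 0) (nat_lit 1676937315735) (nat_lit 152) (nat_lit 571097585628) (nat_lit 228) (nat_lit 1051707220621) (nat_lit 28) (nat_lit 5) (nat_lit 30) (nat_lit 5) (nat_lit 31) (nat_lit 5) (nat_lit 397) (nat_lit 373) (nat_lit 130)) (XT.lf (nat_lit 0) (nat_lit 141451318160) (nat_lit 76) (nat_lit 2934445411592) (nat_lit 152) (nat_lit 398064707565) (nat_lit 27) (nat_lit 5) (nat_lit 28) (nat_lit 5) (nat_lit 29) (nat_lit 4) (nat_lit 398) (nat_lit 373) (nat_lit 129)))))) (XT.nd (nat_lit 45006) (nat_lit 0) (nat_lit 2584) (XT.nd (nat_lit 156) (nat_lit 0)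 (nat_lit 0) (XT.nd (nat_lit 78) (nat_lit 152) (nat_lit 0) (XT.lf (nat_lit 0) (nat_lit 352824880286) (nat_lit 152) (nat_lit 1542820833739) (nat_lit 76) (nat_lit 1761051719838) (nat_lit 26) (nat_lit 5) (nat_lit 28) (nat_lit 5) (nat_lit 27) (nat_lit 5) (nat_lit 399) (nat_lit 373) (nat_lit 128)) (XT.lf (nat_lit 0) (nat_lit 399698802321) (nat_lit 152) (nat_lit 752193763890) (nat_lit 228) (nat_lit 2700563575310) (nat_lit 24) (nat_lit 5) (nat_lit 26) (nat_lit 5) (nat_lit 27) (nat_lit 5) (nat_lit 400) (nat_lit 373) (nat_lit 127))) (XT.nd (nat_lit 44772) (nat_lit 0) (nat_lit 2584) (XT.lf (nat_lit 0) (nat_lit 2069774568247) (nat_lit 228) (nat_lit 1487844720955) (nat_lit 76) (nat_lit 501865144493) (nat_lit 24) (nat_lit 5) (nat_lit 27) (nat_lit 5) (nat_lit 25) (nat_lit 4) (nat_lit 401) (nat_lit 373) (nat_lit 126)) (XT.lf (nat_lit 0) (nat_lit 491738465531) (nat_lit 532) (nat_lit 56884625634) (nat_lit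 532) (nat_lit 56884625634) (nat_lit 58) (nat_lit 3) (nat_lit 65) (nat_lit 3) (nat_lit 65) (nat_lit 5) (nat_lit 374) (nat_lit 374) (nat_lit 152)))) (XT.nd (nat_lit 156) (nat_lit 0) (nat_lit 76) (XT.nd (nat_lit 78) (nat_lit 0) (nat_lit 76) (XT.lf (nat_lit 76) (nat_lit 489683921526) (nat_lit 0) (nat_lit 544909038353) (nat_lit 532) (nat_lit 223920934878) (nat_lit 59) (nat_lit 5) (nat_lit 58) (nat_lit 3) (nat_lit 65) (nat_lit 5) (nat_lit 375) (nat_lit 374) (nat_lit 151)) (XT.lf (nat_lit 0) (nat_lit 1094231059811) (nat_lit 456) (nat_lit 163002017073) (nat_lit 532) (nat_lit 52224532821) (nat_lit 59) (nat_lit 5) (nat_lit 65) (nat_lit 5) (nat_lit 66) (nat_lit 5) (nat_lit 376) (nat_lit 374) (nat_lit 150))) (XT.nd (nat_lit 78) (nat_lit 0) (nat_lit 0) (XT.lf (nat_lit 76) (nat_lit 502263969447) (nat_lit 0) (nat_lit 682609176496) (nat_lit 532) (nat_lit 177505040858) (nat_lit 60) (nat_lit 5) (nat_lit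 59) (nat_lit 5) (nat_lit 66) (nat_lit 5) (nat_lit 377) (nat_lit 374) (nat_lit 149)) (XT.nd (nat_lit 78) (nat_lit 0) (nat_lit 76) (XT.lf (nat_lit 76) (nat_lit 1230021301552) (nat_lit 0) (nat_lit 57202057797) (nat_lit 532) (nat_lit 131952509889) (nat_lit 60) (nat_lit 5) (nat_lit 59) (nat_lit 5) (nat_lit 66) (nat_lit 5) (nat_lit 378) (nat_lit 374) (nat_lit 148)) (XT.lf (nat_lit 76) (nat_lit 548027791113) (nat_lit 0) (nat_lit 877782506816) (nat_lit 532) (nat_lit 52463171699) (nat_lit 61) (nat_lit 5) (nat_lit 60) (nat_lit 5) (nat_lit 67) (nat_lit 5) (nat_lit 379) (nat_lit 374) (nat_lit 147))))))))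
noncomputable def xc249 : XT := (XT.nd (nat_lit 1404) (nat_lit 456) (nat_lit 0) (XT.nd (nat_lit 702) (nat_lit 836) (nat_lit 0) (XT.nd (nat_lit 312) (nat_lit 608) (nat_lit 0) (XT.nd (nat_lit 156) (nat_lit 304) (nat_lit 0) (XT.nd (nat_lit 78) (nat_lit 0) (nat_lit 76) (XT.lf (nat_lit 0) (nat_lit 38507163558) (nat_lit 532) (nat_lit 189166026923) (nat_lit 608) (nat_lit 1313818100675) (nat_lit 53) (nat_lit 5) (nat_lit 60) (nat_lit 5) (nat_lit 61) (nat_lit 5) (nat_lit 380) (nat_lit 374) (nat_lit 146)) (XT.lf (nat_lit 0) (nat_lit 161206483791) (nat_lit 532) (nat_lit 978318959702) (nat_lit 76) (nat_lit 467949221966) (nat_lit 54) (nat_lit 5) (nat_lit 61) (nat_lit 5) (nat_lit 55) (nat_lit 5) (nat_lit 381) (nat_lit 374) (nat_lit 145))) (XT.nd (nat_lit 78) (nat_lit 380) (nat_lit 0) (XT.lf (nat_lit 0) (nat_lit 304941811744) (nat_lit 532) (nat_lit 160669655533) (nat_lit 76) (nat_lit 1212227637465) (nat_lit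 54) (nat_lit 5) (nat_lit 61) (nat_lit 5) (nat_lit 55) (nat_lit 5) (nat_lit 382) (nat_lit 374) (nat_lit 144)) (XT.lf (nat_lit 0) (nat_lit 485245673395) (nat_lit 456) (nat_lit 998719491732) (nat_lit 76) (nat_lit 267861957449) (nat_lit 49) (nat_lit 5) (nat_lit 55) (nat_lit 5) (nat_lit 50) (nat_lit 5) (nat_lit 383) (nat_lit 374) (nat_lit 143)))) (XT.nd (nat_lit 156) (nat_lit 380) (nat_lit 0) (XT.nd (nat_lit 78) (nat_lit 228) (nat_lit 0) (XT.lf (nat_lit 0) (nat_lit 696574742676) (nat_lit 456) (nat_lit 94466127262) (nat_lit 76) (nat_lit 1039365240003) (nat_lit 49) (nat_lit 5) (nat_lit 55) (nat_lit 5) (nat_lit 50) (nat_lit 5) (nat_lit 384) (nat_lit 374) (nat_lit 142)) (XT.lf (nat_lit 0) (nat_lit 928578775029) (nat_lit 228) (nat_lit 18563702049) (nat_lit 304) (nat_lit 966342352056) (nat_lit 46) (nat_lit 5) (nat_lit 49) (nat_lit 5) (nat_lit 50) (nat_lit 5) (nat_lit 385) (nat_lit 374) (nat_lit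 141))) (XT.nd (nat_lit 78) (nat_lit 152) (nat_lit 0) (XT.lf (nat_lit 0) (nat_lit 17001957850) (nat_lit 228) (nat_lit 1223430411130) (nat_lit 304) (nat_lit 760963337784) (nat_lit 43) (nat_lit 5) (nat_lit 46) (nat_lit 5) (nat_lit 47) (nat_lit 5) (nat_lit 386) (nat_lit 374) (nat_lit 140)) (XT.nd (nat_lit 78) (nat_lit 152) (nat_lit 0) (XT.lf (nat_lit 0) (nat_lit 1154567523775) (nat_lit 228) (nat_lit 430016970440) (nat_lit 304) (nat_lit 509563037033) (nat_lit 43) (nat_lit 5) (nat_lit 46) (nat_lit 5) (nat_lit 47) (nat_lit 5) (nat_lit 387) (nat_lit 374) (nat_lit 139)) (XT.lf (nat_lit 0) (nat_lit 187954871920) (nat_lit 152) (nat_lit 1783100457638) (nat_lit 228) (nat_lit 222081248929) (nat_lit 41) (nat_lit 5) (nat_lit 43) (nat_lit 5) (nat_lit 44) (nat_lit 5) (nat_lit 388) (nat_lit 374) (nat_lit 138)))))) (XT.nd (nat_lit 312) (nat_lit 380) (nat_lit 0) (XT.nd (nat_lit 156) (nat_lit 152) (nat_lit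 0) (XT.nd (nat_lit 78) (nat_lit 228) (nat_lit 0) (XT.lf (nat_lit 0) (nat_lit 121503321730) (nat_lit 228) (nat_lit 852824819247) (nat_lit 76) (nat_lit 1322544422957) (nat_lit 40) (nat_lit 5) (nat_lit 43) (nat_lit 5) (nat_lit 41) (nat_lit 5) (nat_lit 389) (nat_lit 374) (nat_lit 137)) (XT.lf (nat_lit 0) (nat_lit 406275835346) (nat_lit 228) (nat_lit 84071608761) (nat_lit 304) (nat_lit 1917316841232) (nat_lit 37) (nat_lit 5) (nat_lit 40) (nat_lit 5) (nat_lit 41) (nat_lit 5) (nat_lit 390) (nat_lit 374) (nat_lit 136))) (XT.nd (nat_lit 78) (nat_lit 152) (nat_lit 0) (XT.lf (nat_lit 0) (nat_lit 933724114185) (nat_lit 304) (nat_lit 732555759734) (nat_lit 76) (nat_lit 857437469107) (nat_lit 37) (nat_lit 5) (nat_lit 41) (nat_lit 5) (nat_lit 38) (nat_lit 5) (nat_lit 391) (nat_lit 374) (nat_lit 135)) (XT.lf (nat_lit 0) (nat_lit 669069427943) (nat_lit 152) (nat_lit 761776302337) (nat_lit 228) (nat_lit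 1216746930056) (nat_lit 35) (nat_lit 5) (nat_lit 37) (nat_lit 5) (nat_lit 38) (nat_lit 5) (nat_lit 392) (nat_lit 374) (nat_lit 134)))) (XT.nd (nat_lit 156) (nat_lit 228) (nat_lit 0) (XT.nd (nat_lit 78) (nat_lit 152) (nat_lit 0) (XT.lf (nat_lit 0) (nat_lit 1993459551129) (nat_lit 228) (nat_lit 560983033981) (nat_lit 76) (nat_lit 224877619885) (nat_lit 35) (nat_lit 5) (nat_lit 38) (nat_lit 5) (nat_lit 36) (nat_lit 5) (nat_lit 393) (nat_lit 374) (nat_lit 133)) (XT.lf (nat_lit 0) (nat_lit 1000208458743) (nat_lit 152) (nat_lit 1644715452445) (nat_lit 228) (nat_lit 273154727356) (nat_lit 33) (nat_lit 5) (nat_lit 35) (nat_lit 5) (nat_lit 36) (nat_lit 5) (nat_lit 394) (nat_lit 374) (nat_lit 132))) (XT.nd (nat_lit 78) (nat_lit 152) (nat_lit 0) (XT.lf (nat_lit 0) (nat_lit 282269207489) (nat_lit 228) (nat_lit 355657870067) (nat_lit 76) (nat_lit 2428211923237) (nat_lit 32) (nat_lit 5) (nat_lit 35)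 (nat_lit 5) (nat_lit 33) (nat_lit 5) (nat_lit 395) (nat_lit 374) (nat_lit 131)) (XT.nd (nat_lit 78) (nat_lit 0) (nat_lit 0) (XT.lf (nat_lit 0) (nat_lit 912763023212) (nat_lit 228) (nat_lit 1840478601382) (nat_lit 76) (nat_lit 468603499886) (nat_lit 30) (nat_lit 5) (nat_lit 33) (nat_lit 5) (nat_lit 31) (nat_lit 5) (nat_lit 396) (nat_lit 374) (nat_lit 130)) (XT.lf (nat_lit 0) (nat_lit 1620242773519) (nat_lit 228) (nat_lit 128472462922) (nat_lit 76) (nat_lit 1639168787277) (nat_lit 30) (nat_lit 5) (nat_lit 33) (nat_lit 5) (nat_lit 31) (nat_lit 5) (nat_lit 397) (nat_lit 374) (nat_lit 129))))))) (XT.nd (nat_lit 45474) (nat_lit 0) (nat_lit 1444) (XT.nd (nat_lit 45084) (nat_lit 0) (nat_lit 2584) (XT.nd (nat_lit 156) (nat_lit 228) (nat_lit 0) (XT.nd (nat_lit 78) (nat_lit 76) (nat_lit 0) (XT.lf (nat_lit 0) (nat_lit 1811092338527) (nat_lit 152) (nat_lit 616785378461) (nat_lit 228) (nat_lit 1135843772856)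 (nat_lit 28) (nat_lit 5) (nat_lit 30) (nat_lit 5) (nat_lit 31) (nat_lit 5) (nat_lit 398) (nat_lit 374) (nat_lit 128)) (XT.lf (nat_lit 0) (nat_lit 152767461718) (nat_lit 76) (nat_lit 3169201029416) (nat_lit 152) (nat_lit 429909859310) (nat_lit 27) (nat_lit 5) (nat_lit 28) (nat_lit 5) (nat_lit 29) (nat_lit 4) (nat_lit 399) (nat_lit 374) (nat_lit 127))) (XT.nd (nat_lit 78) (nat_lit 152) (nat_lit 0) (XT.lf (nat_lit 0) (nat_lit 381050892575) (nat_lit 152) (nat_lit 1666246463990) (nat_lit 76) (nat_lit 1901935870243) (nat_lit 26) (nat_lit 5) (nat_lit 28) (nat_lit 5) (nat_lit 27) (nat_lit 5) (nat_lit 400) (nat_lit 374) (nat_lit 126)) (XT.lf (nat_lit 0) (nat_lit 431674742033) (nat_lit 152) (nat_lit 812369250577) (nat_lit 228) (nat_lit 2916608638533) (nat_lit 24) (nat_lit 5) (nat_lit 26) (nat_lit 5) (nat_lit 27) (nat_lit 5) (nat_lit 401) (nat_lit 374) (nat_lit 125)))) (XT.nd (nat_lit 156) (nat_lit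 0) (nat_lit 76) (XT.nd (nat_lit 78) (nat_lit 0) (nat_lit 0) (XT.lf (nat_lit 0) (nat_lit 531077583260) (nat_lit 532) (nat_lit 61435373792) (nat_lit 532) (nat_lit 61435373792) (nat_lit 58) (nat_lit 3) (nat_lit 65) (nat_lit 3) (nat_lit 65) (nat_lit 5) (nat_lit 375) (nat_lit 375) (nat_lit 150)) (XT.lf (nat_lit 76) (nat_lit 528858677926) (nat_lit 0) (nat_lit 588501794745) (nat_lit 532) (nat_lit 241834527473) (nat_lit 59) (nat_lit 5) (nat_lit 58) (nat_lit 3) (nat_lit 65) (nat_lit 5) (nat_lit 376) (nat_lit 375) (nat_lit 149))) (XT.nd (nat_lit 78) (nat_lit 0) (nat_lit 0) (XT.lf (nat_lit 0) (nat_lit 1181769614226) (nat_lit 456) (nat_lit 176042132447) (nat_lit 532) (nat_lit 56402466135) (nat_lit 59) (nat_lit 5) (nat_lit 65) (nat_lit 5) (nat_lit 66) (nat_lit 5) (nat_lit 377) (nat_lit 375) (nat_lit 148)) (XT.nd (nat_lit 78) (nat_lit 0) (nat_lit 0) (XT.lf (nat_lit 76) (nat_lit 542445131831) (nat_lit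 0) (nat_lit 737217931338) (nat_lit 532) (nat_lit 191705373235) (nat_lit 60) (nat_lit 5) (nat_lit 59) (nat_lit 5) (nat_lit 66) (nat_lit 5) (nat_lit 378) (nat_lit 375) (nat_lit 147)) (XT.lf (nat_lit 76) (nat_lit 1328423047184) (nat_lit 0) (nat_lit 61778241608) (nat_lit 532) (nat_lit 142508645041) (nat_lit 60) (nat_lit 5) (nat_lit 59) (nat_lit 5) (nat_lit 66) (nat_lit 5) (nat_lit 379) (nat_lit 375) (nat_lit 146)))))) (XT.nd (nat_lit 312) (nat_lit 760) (nat_lit 0) (XT.nd (nat_lit 156) (nat_lit 0) (nat_lit 76) (XT.nd (nat_lit 78) (nat_lit 532) (nat_lit 0) (XT.lf (nat_lit 76) (nat_lit 591870060128) (nat_lit 0) (nat_lit 948005118506) (nat_lit 532) (nat_lit 56660163931) (nat_lit 61) (nat_lit 5) (nat_lit 60) (nat_lit 5) (nat_lit 67) (nat_lit 5) (nat_lit 380) (nat_lit 375) (nat_lit 145)) (XT.lf (nat_lit 0) (nat_lit 41587790742) (nat_lit 532) (nat_lit 204299263818) (nat_lit 608) (nat_lit 1418923535489)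 (nat_lit 53) (nat_lit 5) (nat_lit 60) (nat_lit 5) (nat_lit 61) (nat_lit 5) (nat_lit 381) (nat_lit 375) (nat_lit 144))) (XT.nd (nat_lit 78) (nat_lit 0) (nat_lit 0) (XT.lf (nat_lit 0) (nat_lit 174103053478) (nat_lit 532) (nat_lit 1056584428039) (nat_lit 76) (nat_lit 505385153035) (nat_lit 54) (nat_lit 5) (nat_lit 61) (nat_lit 5) (nat_lit 55) (nat_lit 5) (nat_lit 382) (nat_lit 375) (nat_lit 143)) (XT.lf (nat_lit 0) (nat_lit 329337203891) (nat_lit 532) (nat_lit 173523183124) (nat_lit 76) (nat_lit 1309205842270) (nat_lit 54) (nat_lit 5) (nat_lit 61) (nat_lit 5) (nat_lit 55) (nat_lit 5) (nat_lit 383) (nat_lit 375) (nat_lit 142)))) (XT.nd (nat_lit 156) (nat_lit 456) (nat_lit 0) (XT.nd (nat_lit 78) (nat_lit 0) (nat_lit 0) (XT.lf (nat_lit 0) (nat_lit 524065372003) (nat_lit 456) (nat_lit 1078617003691) (nat_lit 76) (nat_lit 289290913052) (nat_lit 49) (nat_lit 5) (nat_lit 55) (nat_lit 5) (nat_lit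 50) (nat_lit 5) (nat_lit 384) (nat_lit 375) (nat_lit 141)) (XT.lf (nat_lit 0) (nat_lit 752300763513) (nat_lit 456) (nat_lit 102023373574) (nat_lit 76) (nat_lit 1122514458284) (nat_lit 49) (nat_lit 5) (nat_lit 55) (nat_lit 5) (nat_lit 50) (nat_lit 5) (nat_lit 385) (nat_lit 375) (nat_lit 140))) (XT.nd (nat_lit 78) (nat_lit 228) (nat_lit 0) (XT.lf (nat_lit 0) (nat_lit 1002865119790) (nat_lit 228) (nat_lit 20048794837) (nat_lit 304) (nat_lit 1043649697639) (nat_lit 46) (nat_lit 5) (nat_lit 49) (nat_lit 5) (nat_lit 50) (nat_lit 5) (nat_lit 386) (nat_lit 375) (nat_lit 139)) (XT.nd (nat_lit 78) (nat_lit 0) (nat_lit 0) (XT.lf (nat_lit 0) (nat_lit 18362159193) (nat_lit 228) (nat_lit 1321304836922) (nat_lit 304) (nat_lit 821840364137) (nat_lit 43) (nat_lit 5) (nat_lit 46) (nat_lit 5) (nat_lit 47) (nat_lit 5) (nat_lit 387) (nat_lit 375) (nat_lit 138)) (XT.lf (nat_lit 0) (nat_lit 1246932967080) (nat_lit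 228) (nat_lit 464418321503) (nat_lit 304) (nat_lit 550328042339) (nat_lit 43) (nat_lit 5) (nat_lit 46) (nat_lit 5) (nat_lit 47) (nat_lit 5) (nat_lit 388) (nat_lit 375) (nat_lit 137))))))))
noncomputable def xc250 : XT := (XT.nd (nat_lit 46332) (nat_lit 0) (nat_lit 228) (XT.nd (nat_lit 702) (nat_lit 228) (nat_lit 0) (XT.nd (nat_lit 312) (nat_lit 532) (nat_lit 0) (XT.nd (nat_lit 156) (nat_lit 228) (nat_lit 0) (XT.nd (nat_lit 78) (nat_lit 76) (nat_lit 0) (XT.lf (nat_lit 0) (nat_lit 202991304630) (nat_lit 152) (nat_lit 1925748484722) (nat_lit 228) (nat_lit 239847712702) (nat_lit 41) (nat_lit 5) (nat_lit 43) (nat_lit 5) (nat_lit 44) (nat_lit 5) (nat_lit 389) (nat_lit 375) (nat_lit 136)) (XT.lf (nat_lit 0) (nat_lit 131223619259) (nat_lit 228) (nat_lit 921050763305) (nat_lit 76) (nat_lit 1428347983909) (nat_lit 40) (nat_lit 5) (nat_lit 43) (nat_lit 5) (nat_lit 41) (nat_lit 5) (nat_lit 390) (nat_lit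 375) (nat_lit 135))) (XT.nd (nat_lit 78) (nat_lit 0) (nat_lit 0) (XT.lf (nat_lit 0) (nat_lit 438777942605) (nat_lit 228) (nat_lit 90797327439) (nat_lit 304) (nat_lit 2070702155659) (nat_lit 37) (nat_lit 5) (nat_lit 40) (nat_lit 5) (nat_lit 41) (nat_lit 5) (nat_lit 391) (nat_lit 375) (nat_lit 134)) (XT.lf (nat_lit 0) (nat_lit 1008422071698) (nat_lit 304) (nat_lit 791160181019) (nat_lit 76) (nat_lit 926032475452) (nat_lit 37) (nat_lit 5) (nat_lit 41) (nat_lit 5) (nat_lit 38) (nat_lit 5) (nat_lit 392) (nat_lit 375) (nat_lit 133)))) (XT.nd (nat_lit 156) (nat_lit 380) (nat_lit 0) (XT.nd (nat_lit 78) (nat_lit 0) (nat_lit 0) (XT.lf (nat_lit 0) (nat_lit 722595020672) (nat_lit 152) (nat_lit 822718395233) (nat_lit 228) (nat_lit 1314086655056) (nat_lit 35) (nat_lit 5) (nat_lit 37) (nat_lit 5) (nat_lit 38) (nat_lit 5) (nat_lit 393) (nat_lit 375) (nat_lit 132)) (XT.lf (nat_lit 0) (nat_lit 2152936340658)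 (nat_lit 228) (nat_lit 605861639269) (nat_lit 76) (nat_lit 242867839408) (nat_lit 35) (nat_lit 5) (nat_lit 38) (nat_lit 5) (nat_lit 36) (nat_lit 5) (nat_lit 394) (nat_lit 375) (nat_lit 131))) (XT.nd (nat_lit 78) (nat_lit 228) (nat_lit 0) (XT.lf (nat_lit 0) (nat_lit 1080225171925) (nat_lit 152) (nat_lit 1776292676590) (nat_lit 228) (nat_lit 295007079136) (nat_lit 33) (nat_lit 5) (nat_lit 35) (nat_lit 5) (nat_lit 36) (nat_lit 5) (nat_lit 395) (nat_lit 375) (nat_lit 130)) (XT.nd (nat_lit 78) (nat_lit 152) (nat_lit 0) (XT.lf (nat_lit 0) (nat_lit 304850767318) (nat_lit 228) (nat_lit 384110464650) (nat_lit 76) (nat_lit 2622468887012) (nat_lit 32) (nat_lit 5) (nat_lit 35) (nat_lit 5) (nat_lit 33) (nat_lit 5) (nat_lit 396) (nat_lit 375) (nat_lit 129)) (XT.lf (nat_lit 0) (nat_lit 985784087683) (nat_lit 228) (nat_lit 1987716853837) (nat_lit 76) (nat_lit 506091791093) (nat_lit 30) (nat_lit 5) (nat_lit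 33) (nat_lit 5) (nat_lit 31) (nat_lit 5) (nat_lit 397) (nat_lit 375) (nat_lit 128)))))) (XT.nd (nat_lit 45240) (nat_lit 0) (nat_lit 2356) (XT.nd (nat_lit 156) (nat_lit 76) (nat_lit 0) (XT.nd (nat_lit 78) (nat_lit 152) (nat_lit 0) (XT.lf (nat_lit 0) (nat_lit 1749862216339) (nat_lit 228) (nat_lit 138750226941) (nat_lit 76) (nat_lit 1770302300644) (nat_lit 30) (nat_lit 5) (nat_lit 33) (nat_lit 5) (nat_lit 31) (nat_lit 5) (nat_lit 398) (nat_lit 375) (nat_lit 127)) (XT.lf (nat_lit 0) (nat_lit 1955979757789) (nat_lit 152) (nat_lit 666128196720) (nat_lit 228) (nat_lit 1226711252895) (nat_lit 28) (nat_lit 5) (nat_lit 30) (nat_lit 5) (nat_lit 31) (nat_lit 5) (nat_lit 399) (nat_lit 375) (nat_lit 126))) (XT.nd (nat_lit 45006) (nat_lit 0) (nat_lit 2356) (XT.lf (nat_lit 0) (nat_lit 164988891325) (nat_lit 76) (nat_lit 3422737098822) (nat_lit 152) (nat_lit 464302626742) (nat_lit 27) (nat_lit 5) (nat_lit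 28) (nat_lit 5) (nat_lit 29) (nat_lit 4) (nat_lit 400) (nat_lit 375) (nat_lit 125)) (XT.lf (nat_lit 0) (nat_lit 573563824632) (nat_lit 532) (nat_lit 66350184925) (nat_lit 532) (nat_lit 66350184925) (nat_lit 58) (nat_lit 3) (nat_lit 65) (nat_lit 3) (nat_lit 65) (nat_lit 5) (nat_lit 376) (nat_lit 376) (nat_lit 148)))) (XT.nd (nat_lit 156) (nat_lit 0) (nat_lit 76) (XT.nd (nat_lit 78) (nat_lit 0) (nat_lit 76) (XT.lf (nat_lit 76) (nat_lit 571167408749) (nat_lit 0) (nat_lit 635581966895) (nat_lit 532) (nat_lit 261181219202) (nat_lit 59) (nat_lit 5) (nat_lit 58) (nat_lit 3) (nat_lit 65) (nat_lit 5) (nat_lit 377) (nat_lit 376) (nat_lit 147)) (XT.lf (nat_lit 0) (nat_lit 1276311243061) (nat_lit 456) (nat_lit 190125463611) (nat_lit 532) (nat_lit 60914638295) (nat_lit 59) (nat_lit 5) (nat_lit 65) (nat_lit 5) (nat_lit 66) (nat_lit 5) (nat_lit 378) (nat_lit 376) (nat_lit 146))) (XT.nd (nat_lit 78)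 (nat_lit 0) (nat_lit 0) (XT.lf (nat_lit 76) (nat_lit 585840780811) (nat_lit 0) (nat_lit 796195383611) (nat_lit 532) (nat_lit 207041742317) (nat_lit 60) (nat_lit 5) (nat_lit 59) (nat_lit 5) (nat_lit 66) (nat_lit 5) (nat_lit 379) (nat_lit 376) (nat_lit 145)) (XT.nd (nat_lit 78) (nat_lit 0) (nat_lit 76) (XT.lf (nat_lit 76) (nat_lit 1434696926544) (nat_lit 0) (nat_lit 66720517387) (nat_lit 532) (nat_lit 153909280368) (nat_lit 60) (nat_lit 5) (nat_lit 59) (nat_lit 5) (nat_lit 66) (nat_lit 5) (nat_lit 380) (nat_lit 376) (nat_lit 144)) (XT.lf (nat_lit 76) (nat_lit 639219704142) (nat_lit 0) (nat_lit 1023845537542) (nat_lit 532) (nat_lit 61192924316) (nat_lit 61) (nat_lit 5) (nat_lit 60) (nat_lit 5) (nat_lit 67) (nat_lit 5) (nat_lit 381) (nat_lit 376) (nat_lit 143))))))) (XT.nd (nat_lit 702) (nat_lit 836) (nat_lit 0) (XT.nd (nat_lit 312) (nat_lit 608) (nat_lit 0) (XT.nd (nat_lit 156) (nat_lit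 304) (nat_lit 0) (XT.nd (nat_lit 78) (nat_lit 0) (nat_lit 76) (XT.lf (nat_lit 0) (nat_lit 44914860383) (nat_lit 532) (nat_lit 220643166121) (nat_lit 608) (nat_lit 1532437406978) (nat_lit 53) (nat_lit 5) (nat_lit 60) (nat_lit 5) (nat_lit 61) (nat_lit 5) (nat_lit 382) (nat_lit 376) (nat_lit 142)) (XT.lf (nat_lit 0) (nat_lit 188031341467) (nat_lit 532) (nat_lit 1141111140752) (nat_lit 76) (nat_lit 545815959544) (nat_lit 54) (nat_lit 5) (nat_lit 61) (nat_lit 5) (nat_lit 55) (nat_lit 5) (nat_lit 383) (nat_lit 376) (nat_lit 141))) (XT.nd (nat_lit 78) (nat_lit 380) (nat_lit 0) (XT.lf (nat_lit 0) (nat_lit 355684220675) (nat_lit 532) (nat_lit 187404999321) (nat_lit 76) (nat_lit 1413942304343) (nat_lit 54) (nat_lit 5) (nat_lit 61) (nat_lit 5) (nat_lit 55) (nat_lit 5) (nat_lit 384) (nat_lit 376) (nat_lit 140)) (XT.lf (nat_lit 0) (nat_lit 565990640117) (nat_lit 456) (nat_lit 1164906323367) (nat_lit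 76) (nat_lit 312434185245) (nat_lit 49) (nat_lit 5) (nat_lit 55) (nat_lit 5) (nat_lit 50) (nat_lit 5) (nat_lit 385) (nat_lit 376) (nat_lit 139)))) (XT.nd (nat_lit 156) (nat_lit 380) (nat_lit 0) (XT.nd (nat_lit 78) (nat_lit 228) (nat_lit 0) (XT.lf (nat_lit 0) (nat_lit 812484860107) (nat_lit 456) (nat_lit 110185205849) (nat_lit 76) (nat_lit 1212315614159) (nat_lit 49) (nat_lit 5) (nat_lit 55) (nat_lit 5) (nat_lit 50) (nat_lit 5) (nat_lit 386) (nat_lit 376) (nat_lit 138)) (XT.lf (nat_lit 0) (nat_lit 1083094366032) (nat_lit 228) (nat_lit 21652695530) (nat_lit 304) (nat_lit 1127141636943) (nat_lit 46) (nat_lit 5) (nat_lit 49) (nat_lit 5) (nat_lit 50) (nat_lit 5) (nat_lit 387) (nat_lit 376) (nat_lit 137))) (XT.nd (nat_lit 78) (nat_lit 152) (nat_lit 0) (XT.lf (nat_lit 0) (nat_lit 19831170265) (nat_lit 228) (nat_lit 1427009217789) (nat_lit 304) (nat_lit 887587558400) (nat_lit 43) (nat_lit 5)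 (nat_lit 46) (nat_lit 5) (nat_lit 47) (nat_lit 5) (nat_lit 388) (nat_lit 376) (nat_lit 136)) (XT.nd (nat_lit 78) (nat_lit 152) (nat_lit 0) (XT.lf (nat_lit 0) (nat_lit 1346687639942) (nat_lit 228) (nat_lit 501571781587) (nat_lit 304) (nat_lit 594354253441) (nat_lit 43) (nat_lit 5) (nat_lit 46) (nat_lit 5) (nat_lit 47) (nat_lit 5) (nat_lit 389) (nat_lit 376) (nat_lit 135)) (XT.lf (nat_lit 0) (nat_lit 219230645829) (nat_lit 152) (nat_lit 2079808355332) (nat_lit 228) (nat_lit 259035498733) (nat_lit 41) (nat_lit 5) (nat_lit 43) (nat_lit 5) (nat_lit 44) (nat_lit 5) (nat_lit 390) (nat_lit 376) (nat_lit 134)))))) (XT.nd (nat_lit 312) (nat_lit 380) (nat_lit 0) (XT.nd (nat_lit 156) (nat_lit 152) (nat_lit 0) (XT.nd (nat_lit 78) (nat_lit 228) (nat_lit 0) (XT.lf (nat_lit 0) (nat_lit 141721536055) (nat_lit 228) (nat_lit 994734788806) (nat_lit 76) (nat_lit 1542615828721) (nat_lit 40) (nat_lit 5) (nat_lit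 43) (nat_lit 5) (nat_lit 41) (nat_lit 5) (nat_lit 391) (nat_lit 376) (nat_lit 133)) (XT.lf (nat_lit 0) (nat_lit 473880212676) (nat_lit 228) (nat_lit 98061105041) (nat_lit 304) (nat_lit 2236358299931) (nat_lit 37) (nat_lit 5) (nat_lit 40) (nat_lit 5) (nat_lit 41) (nat_lit 5) (nat_lit 392) (nat_lit 376) (nat_lit 132))) (XT.nd (nat_lit 78) (nat_lit 152) (nat_lit 0) (XT.lf (nat_lit 0) (nat_lit 1089095861765) (nat_lit 304) (nat_lit 854452961641) (nat_lit 76) (nat_lit 1000115081047) (nat_lit 37) (nat_lit 5) (nat_lit 41) (nat_lit 5) (nat_lit 38) (nat_lit 5) (nat_lit 393) (nat_lit 376) (nat_lit 131)) (XT.lf (nat_lit 0) (nat_lit 780402655328) (nat_lit 152) (nat_lit 888535857171) (nat_lit 228) (nat_lit 1419213562251) (nat_lit 35) (nat_lit 5) (nat_lit 37) (nat_lit 5) (nat_lit 38) (nat_lit 5) (nat_lit 394) (nat_lit 376) (nat_lit 130)))) (XT.nd (nat_lit 156) (nat_lit 228) (nat_lit 0) (XT.nd (nat_lit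 78) (nat_lit 152) (nat_lit 0) (XT.lf (nat_lit 0) (nat_lit 2325171269721) (nat_lit 228) (nat_lit 654330538321) (nat_lit 76) (nat_lit 262297275076) (nat_lit 35) (nat_lit 5) (nat_lit 38) (nat_lit 5) (nat_lit 36) (nat_lit 5) (nat_lit 395) (nat_lit 376) (nat_lit 129)) (XT.lf (nat_lit 0) (nat_lit 1166643216957) (nat_lit 152) (nat_lit 1918396080386) (nat_lit 228) (nat_lit 318607622826) (nat_lit 33) (nat_lit 5) (nat_lit 35) (nat_lit 5) (nat_lit 36) (nat_lit 5) (nat_lit 396) (nat_lit 376) (nat_lit 128))) (XT.nd (nat_lit 78) (nat_lit 152) (nat_lit 0) (XT.lf (nat_lit 0) (nat_lit 329238848619) (nat_lit 228) (nat_lit 414839271796) (nat_lit 76) (nat_lit 2832266406474) (nat_lit 32) (nat_lit 5) (nat_lit 35) (nat_lit 5) (nat_lit 33) (nat_lit 5) (nat_lit 397) (nat_lit 376) (nat_lit 127)) (XT.nd (nat_lit 78) (nat_lit 0) (nat_lit 0) (XT.lf (nat_lit 0) (nat_lit 1064646834085) (nat_lit 228) (nat_lit 2146734171575)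 (nat_lit 76) (nat_lit 546579143996) (nat_lit 30) (nat_lit 5) (nat_lit 33) (nat_lit 5) (nat_lit 31) (nat_lit 5) (nat_lit 398) (nat_lit 376) (nat_lit 126)) (XT.lf (nat_lit 0) (nat_lit 1889851211597) (nat_lit 228) (nat_lit 149850216791) (nat_lit 76) (nat_lit 1911926493599) (nat_lit 30) (nat_lit 5) (nat_lit 33) (nat_lit 5) (nat_lit 31) (nat_lit 5) (nat_lit 399) (nat_lit 376) (nat_lit 125))))))))
noncomputable def xc251 : XT := (XT.nd (nat_lit 46410) (nat_lit 0) (nat_lit 152) (XT.nd (nat_lit 45708) (nat_lit 0) (nat_lit 684) (XT.nd (nat_lit 45318) (nat_lit 0) (nat_lit 1900) (XT.nd (nat_lit 45162) (nat_lit 0) (nat_lit 2280) (XT.nd (nat_lit 45084) (nat_lit 0) (nat_lit 2280) (XT.lf (nat_lit 0) (nat_lit 2112458166000) (nat_lit 152) (nat_lit 719418442155) (nat_lit 228) (nat_lit 1324848134445) (nat_lit 28) (nat_lit 5) (nat_lit 30) (nat_lit 5) (nat_lit 31) (nat_lit 5) (nat_lit 400) (nat_lit 376) (nat_lit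 124)) (XT.lf (nat_lit 0) (nat_lit 619448960362) (nat_lit 532) (nat_lit 71658183627) (nat_lit 532) (nat_lit 71658183627) (nat_lit 58) (nat_lit 3) (nat_lit 65) (nat_lit 3) (nat_lit 65) (nat_lit 5) (nat_lit 377) (nat_lit 377) (nat_lit 146))) (XT.nd (nat_lit 78) (nat_lit 0) (nat_lit 76) (XT.lf (nat_lit 76) (nat_lit 616860832819) (nat_lit 0) (nat_lit 686428548741) (nat_lit 532) (nat_lit 282075656323) (nat_lit 59) (nat_lit 5) (nat_lit 58) (nat_lit 3) (nat_lit 65) (nat_lit 5) (nat_lit 378) (nat_lit 377) (nat_lit 145)) (XT.lf (nat_lit 0) (nat_lit 1378416193686) (nat_lit 456) (nat_lit 205335466894) (nat_lit 532) (nat_lit 65787787814) (nat_lit 59) (nat_lit 5) (nat_lit 65) (nat_lit 5) (nat_lit 66) (nat_lit 5) (nat_lit 379) (nat_lit 377) (nat_lit 144)))) (XT.nd (nat_lit 156) (nat_lit 456) (nat_lit 0) (XT.nd (nat_lit 78) (nat_lit 0) (nat_lit 0) (XT.lf (nat_lit 76) (nat_lit 632708076226) (nat_lit 0)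 (nat_lit 859891029532) (nat_lit 532) (nat_lit 223605029595) (nat_lit 60) (nat_lit 5) (nat_lit 59) (nat_lit 5) (nat_lit 66) (nat_lit 5) (nat_lit 380) (nat_lit 377) (nat_lit 143)) (XT.lf (nat_lit 76) (nat_lit 1549472711177) (nat_lit 0) (nat_lit 72058172881) (nat_lit 532) (nat_lit 166221974551) (nat_lit 60) (nat_lit 5) (nat_lit 59) (nat_lit 5) (nat_lit 66) (nat_lit 5) (nat_lit 381) (nat_lit 377) (nat_lit 142))) (XT.nd (nat_lit 78) (nat_lit 532) (nat_lit 0) (XT.lf (nat_lit 76) (nat_lit 690357314083) (nat_lit 0) (nat_lit 1105753188737) (nat_lit 532) (nat_lit 66088313054) (nat_lit 61) (nat_lit 5) (nat_lit 60) (nat_lit 5) (nat_lit 67) (nat_lit 5) (nat_lit 382) (nat_lit 377) (nat_lit 141)) (XT.nd (nat_lit 78) (nat_lit 0) (nat_lit 76) (XT.lf (nat_lit 0) (nat_lit 48508088978) (nat_lit 532) (nat_lit 238294586145) (nat_lit 608) (nat_lit 1655032389805) (nat_lit 53) (nat_lit 5) (nat_lit 60) (nat_lit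 5) (nat_lit 61) (nat_lit 5) (nat_lit 383) (nat_lit 377) (nat_lit 140)) (XT.lf (nat_lit 0) (nat_lit 203073886259) (nat_lit 532) (nat_lit 1232399996408) (nat_lit 76) (nat_lit 589481231392) (nat_lit 54) (nat_lit 5) (nat_lit 61) (nat_lit 5) (nat_lit 55) (nat_lit 5) (nat_lit 384) (nat_lit 377) (nat_lit 139)))))) (XT.nd (nat_lit 312) (nat_lit 684) (nat_lit 0) (XT.nd (nat_lit 156) (nat_lit 228) (nat_lit 0) (XT.nd (nat_lit 78) (nat_lit 380) (nat_lit 0) (XT.lf (nat_lit 0) (nat_lit 384138993027) (nat_lit 532) (nat_lit 202397366299) (nat_lit 76) (nat_lit 1527057684139) (nat_lit 54) (nat_lit 5) (nat_lit 61) (nat_lit 5) (nat_lit 55) (nat_lit 5) (nat_lit 385) (nat_lit 377) (nat_lit 138)) (XT.lf (nat_lit 0) (nat_lit 611269924209) (nat_lit 456) (nat_lit 1258098794412) (nat_lit 76) (nat_lit 337428919335) (nat_lit 49) (nat_lit 5) (nat_lit 55) (nat_lit 5) (nat_lit 50) (nat_lit 5) (nat_lit 386) (nat_lit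 377) (nat_lit 137))) (XT.nd (nat_lit 78) (nat_lit 228) (nat_lit 0) (XT.lf (nat_lit 0) (nat_lit 877483679362) (nat_lit 456) (nat_lit 118999990072) (nat_lit 76) (nat_lit 1309300862616) (nat_lit 49) (nat_lit 5) (nat_lit 55) (nat_lit 5) (nat_lit 50) (nat_lit 5) (nat_lit 387) (nat_lit 377) (nat_lit 136)) (XT.lf (nat_lit 0) (nat_lit 1169741946743) (nat_lit 228) (nat_lit 23384908691) (nat_lit 304) (nat_lit 1217312936600) (nat_lit 46) (nat_lit 5) (nat_lit 49) (nat_lit 5) (nat_lit 50) (nat_lit 5) (nat_lit 388) (nat_lit 377) (nat_lit 135)))) (XT.nd (nat_lit 156) (nat_lit 456) (nat_lit 0) (XT.nd (nat_lit 78) (nat_lit 0) (nat_lit 0) (XT.lf (nat_lit 0) (nat_lit 21417696752) (nat_lit 228) (nat_lit 1541169949995) (nat_lit 304) (nat_lit 958594533178) (nat_lit 43) (nat_lit 5) (nat_lit 46) (nat_lit 5) (nat_lit 47) (nat_lit 5) (nat_lit 389) (nat_lit 377) (nat_lit 134)) (XT.lf (nat_lit 0) (nat_lit 1454422681570)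 (nat_lit 228) (nat_lit 541697519283) (nat_lit 304) (nat_lit 641902566037) (nat_lit 43) (nat_lit 5) (nat_lit 46) (nat_lit 5) (nat_lit 47) (nat_lit 5) (nat_lit 390) (nat_lit 377) (nat_lit 133))) (XT.nd (nat_lit 78) (nat_lit 304) (nat_lit 0) (XT.lf (nat_lit 0) (nat_lit 236769129069) (nat_lit 152) (nat_lit 2246193016755) (nat_lit 228) (nat_lit 279758312066) (nat_lit 41) (nat_lit 5) (nat_lit 43) (nat_lit 5) (nat_lit 44) (nat_lit 5) (nat_lit 391) (nat_lit 377) (nat_lit 132)) (XT.nd (nat_lit 78) (nat_lit 228) (nat_lit 0) (XT.lf (nat_lit 0) (nat_lit 153059282306) (nat_lit 228) (nat_lit 1074313541421) (nat_lit 76) (nat_lit 1666025100248) (nat_lit 40) (nat_lit 5) (nat_lit 43) (nat_lit 5) (nat_lit 41) (nat_lit 5) (nat_lit 392) (nat_lit 377) (nat_lit 131)) (XT.lf (nat_lit 0) (nat_lit 511790659409) (nat_lit 228) (nat_lit 105905986077) (nat_lit 304) (nat_lit 2415266939764) (nat_lit 37) (nat_lit 5)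 (nat_lit 40) (nat_lit 5) (nat_lit 41) (nat_lit 5) (nat_lit 393) (nat_lit 377) (nat_lit 130))))))) (XT.nd (nat_lit 45864) (nat_lit 0) (nat_lit 1216) (XT.nd (nat_lit 312) (nat_lit 228) (nat_lit 0) (XT.nd (nat_lit 156) (nat_lit 152) (nat_lit 0) (XT.nd (nat_lit 78) (nat_lit 152) (nat_lit 0) (XT.lf (nat_lit 0) (nat_lit 1176223551565) (nat_lit 304) (nat_lit 922809169544) (nat_lit 76) (nat_lit 1080124294011) (nat_lit 37) (nat_lit 5) (nat_lit 41) (nat_lit 5) (nat_lit 38) (nat_lit 5) (nat_lit 394) (nat_lit 377) (nat_lit 129)) (XT.lf (nat_lit 0) (nat_lit 842834896048) (nat_lit 152) (nat_lit 959618717445) (nat_lit 228) (nat_lit 1532750625618) (nat_lit 35) (nat_lit 5) (nat_lit 37) (nat_lit 5) (nat_lit 38) (nat_lit 5) (nat_lit 395) (nat_lit 377) (nat_lit 128))) (XT.nd (nat_lit 78) (nat_lit 152) (nat_lit 0) (XT.lf (nat_lit 0) (nat_lit 2511184989997) (nat_lit 228) (nat_lit 706676953874) (nat_lit 76)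 (nat_lit 283281064382) (nat_lit 35) (nat_lit 5) (nat_lit 38) (nat_lit 5) (nat_lit 36) (nat_lit 5) (nat_lit 396) (nat_lit 377) (nat_lit 127)) (XT.lf (nat_lit 0) (nat_lit 1259974701130) (nat_lit 152) (nat_lit 2071867757959) (nat_lit 228) (nat_lit 344096213241) (nat_lit 33) (nat_lit 5) (nat_lit 35) (nat_lit 5) (nat_lit 36) (nat_lit 5) (nat_lit 397) (nat_lit 377) (nat_lit 126)))) (XT.nd (nat_lit 45318) (nat_lit 0) (nat_lit 2128) (XT.nd (nat_lit 78) (nat_lit 152) (nat_lit 0) (XT.lf (nat_lit 0) (nat_lit 355577973582) (nat_lit 228) (nat_lit 448026387797) (nat_lit 76) (nat_lit 3058847726280) (nat_lit 32) (nat_lit 5) (nat_lit 35) (nat_lit 5) (nat_lit 33) (nat_lit 5) (nat_lit 398) (nat_lit 377) (nat_lit 125)) (XT.lf (nat_lit 0) (nat_lit 1149818597433) (nat_lit 228) (nat_lit 2318472879093) (nat_lit 76) (nat_lit 590305483759) (nat_lit 30) (nat_lit 5) (nat_lit 33) (nat_lit 5) (nat_lit 31) (nat_lit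 5) (nat_lit 399) (nat_lit 377) (nat_lit 124))) (XT.nd (nat_lit 78) (nat_lit 0) (nat_lit 0) (XT.lf (nat_lit 0) (nat_lit 669004902704) (nat_lit 532) (nat_lit 77390824521) (nat_lit 532) (nat_lit 77390824521) (nat_lit 58) (nat_lit 3) (nat_lit 65) (nat_lit 3) (nat_lit 65) (nat_lit 5) (nat_lit 378) (nat_lit 378) (nat_lit 144)) (XT.nd (nat_lit 78) (nat_lit 0) (nat_lit 76) (XT.lf (nat_lit 76) (nat_lit 666209726339) (nat_lit 0) (nat_lit 741342853640) (nat_lit 532) (nat_lit 304641657032) (nat_lit 59) (nat_lit 5) (nat_lit 58) (nat_lit 3) (nat_lit 65) (nat_lit 5) (nat_lit 379) (nat_lit 378) (nat_lit 143)) (XT.lf (nat_lit 0) (nat_lit 1488689533060) (nat_lit 456) (nat_lit 221762275263) (nat_lit 532) (nat_lit 71050792367) (nat_lit 59) (nat_lit 5) (nat_lit 65) (nat_lit 5) (nat_lit 66) (nat_lit 5) (nat_lit 380) (nat_lit 378) (nat_lit 142)))))) (XT.nd (nat_lit 312) (nat_lit 532) (nat_lit 0) (XT.nd (nat_lit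 156) (nat_lit 456) (nat_lit 0) (XT.nd (nat_lit 78) (nat_lit 0) (nat_lit 0) (XT.lf (nat_lit 76) (nat_lit 683324750573) (nat_lit 0) (nat_lit 928682324953) (nat_lit 532) (nat_lit 241493387289) (nat_lit 60) (nat_lit 5) (nat_lit 59) (nat_lit 5) (nat_lit 66) (nat_lit 5) (nat_lit 381) (nat_lit 378) (nat_lit 141)) (XT.lf (nat_lit 76) (nat_lit 1673430554228) (nat_lit 0) (nat_lit 77822838803) (nat_lit 532) (nat_lit 179519691151) (nat_lit 60) (nat_lit 5) (nat_lit 59) (nat_lit 5) (nat_lit 66) (nat_lit 5) (nat_lit 382) (nat_lit 378) (nat_lit 140))) (XT.nd (nat_lit 78) (nat_lit 532) (nat_lit 0) (XT.lf (nat_lit 76) (nat_lit 745585928025) (nat_lit 0) (nat_lit 1194213450860) (nat_lit 532) (nat_lit 71375339340) (nat_lit 61) (nat_lit 5) (nat_lit 60) (nat_lit 5) (nat_lit 67) (nat_lit 5) (nat_lit 383) (nat_lit 378) (nat_lit 139)) (XT.lf (nat_lit 0) (nat_lit 52388770188) (nat_lit 532) (nat_lit 257358124516)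 (nat_lit 608) (nat_lit 1787434972647) (nat_lit 53) (nat_lit 5) (nat_lit 60) (nat_lit 5) (nat_lit 61) (nat_lit 5) (nat_lit 384) (nat_lit 378) (nat_lit 138)))) (XT.nd (nat_lit 156) (nat_lit 608) (nat_lit 0) (XT.nd (nat_lit 78) (nat_lit 0) (nat_lit 0) (XT.lf (nat_lit 0) (nat_lit 219319829288) (nat_lit 532) (nat_lit 1330991965595) (nat_lit 76) (nat_lit 636639725689) (nat_lit 54) (nat_lit 5) (nat_lit 61) (nat_lit 5) (nat_lit 55) (nat_lit 5) (nat_lit 385) (nat_lit 378) (nat_lit 137)) (XT.lf (nat_lit 0) (nat_lit 414870142218) (nat_lit 532) (nat_lit 218589127339) (nat_lit 76) (nat_lit 1649222294968) (nat_lit 54) (nat_lit 5) (nat_lit 61) (nat_lit 5) (nat_lit 55) (nat_lit 5) (nat_lit 386) (nat_lit 378) (nat_lit 136))) (XT.nd (nat_lit 78) (nat_lit 228) (nat_lit 0) (XT.lf (nat_lit 0) (nat_lit 660171546338) (nat_lit 456) (nat_lit 1358746668108) (nat_lit 76) (nat_lit 364423232256) (nat_lit 49) (nat_lit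 5) (nat_lit 55) (nat_lit 5) (nat_lit 50) (nat_lit 5) (nat_lit 387) (nat_lit 378) (nat_lit 135)) (XT.nd (nat_lit 78) (nat_lit 228) (nat_lit 0) (XT.lf (nat_lit 0) (nat_lit 947682399815) (nat_lit 456) (nat_lit 128519961633) (nat_lit 76) (nat_lit 1414044931046) (nat_lit 49) (nat_lit 5) (nat_lit 55) (nat_lit 5) (nat_lit 50) (nat_lit 5) (nat_lit 388) (nat_lit 378) (nat_lit 134)) (XT.lf (nat_lit 0) (nat_lit 1263321329428) (nat_lit 228) (nat_lit 25255699259) (nat_lit 304) (nat_lit 1314697944695) (nat_lit 46) (nat_lit 5) (nat_lit 49) (nat_lit 5) (nat_lit 50) (nat_lit 5) (nat_lit 389) (nat_lit 378) (nat_lit 133))))))))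
noncomputable def xc252 : XT := (XT.nd (nat_lit 46644) (nat_lit 0) (nat_lit 228) (XT.nd (nat_lit 702) (nat_lit 76) (nat_lit 0) (XT.nd (nat_lit 312) (nat_lit 532) (nat_lit 0) (XT.nd (nat_lit 156) (nat_lit 228) (nat_lit 0) (XT.nd (nat_lit 78) (nat_lit 0) (nat_lit 0) (XT.lf (nat_lit 0) (nat_lit 23131140671) (nat_lit 228) (nat_lit 1664463541521) (nat_lit 304) (nat_lit 1035282070204) (nat_lit 43) (nat_lit 5) (nat_lit 46) (nat_lit 5) (nat_lit 47) (nat_lit 5) (nat_lit 390) (nat_lit 378) (nat_lit 132)) (XT.lf (nat_lit 0) (nat_lit 1570776522186) (nat_lit 228) (nat_lit 585033316684) (nat_lit 304) (nat_lit 693254747590) (nat_lit 43) (nat_lit 5) (nat_lit 46) (nat_lit 5) (nat_lit 47) (nat_lit 5) (nat_lit 391) (nat_lit 378) (nat_lit 131))) (XT.nd (nat_lit 78) (nat_lit 76) (nat_lit 0) (XT.lf (nat_lit 0) (nat_lit 255710686465) (nat_lit 152) (nat_lit 2425888452092) (nat_lit 228) (nat_lit 302138954256)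 (nat_lit 41) (nat_lit 5) (nat_lit 43) (nat_lit 5) (nat_lit 44) (nat_lit 5) (nat_lit 392) (nat_lit 378) (nat_lit 130)) (XT.lf (nat_lit 0) (nat_lit 165304044924) (nat_lit 228) (nat_lit 1160258598594) (nat_lit 76) (nat_lit 1799307112752) (nat_lit 40) (nat_lit 5) (nat_lit 43) (nat_lit 5) (nat_lit 41) (nat_lit 5) (nat_lit 393) (nat_lit 378) (nat_lit 129)))) (XT.nd (nat_lit 156) (nat_lit 304) (nat_lit 0) (XT.nd (nat_lit 78) (nat_lit 0) (nat_lit 0) (XT.lf (nat_lit 0) (nat_lit 552733937640) (nat_lit 228) (nat_lit 114378458647) (nat_lit 304) (nat_lit 2608488274231) (nat_lit 37) (nat_lit 5) (nat_lit 40) (nat_lit 5) (nat_lit 41) (nat_lit 5) (nat_lit 394) (nat_lit 378) (nat_lit 128)) (XT.lf (nat_lit 0) (nat_lit 1270321453574) (nat_lit 304) (nat_lit 996633878219) (nat_lit 76) (nat_lit 1166534243088) (nat_lit 37) (nat_lit 5) (nat_lit 41) (nat_lit 5) (nat_lit 38) (nat_lit 5) (nat_lit 395) (nat_lit 378)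 (nat_lit 127))) (XT.nd (nat_lit 78) (nat_lit 152) (nat_lit 0) (XT.lf (nat_lit 0) (nat_lit 910261711990) (nat_lit 152) (nat_lit 1036388207725) (nat_lit 228) (nat_lit 1655370657137) (nat_lit 35) (nat_lit 5) (nat_lit 37) (nat_lit 5) (nat_lit 38) (nat_lit 5) (nat_lit 396) (nat_lit 378) (nat_lit 126)) (XT.nd (nat_lit 78) (nat_lit 152) (nat_lit 0) (XT.lf (nat_lit 0) (nat_lit 2712079805227) (nat_lit 228) (nat_lit 763211086597) (nat_lit 76) (nat_lit 305943555791) (nat_lit 35) (nat_lit 5) (nat_lit 38) (nat_lit 5) (nat_lit 36) (nat_lit 5) (nat_lit 397) (nat_lit 378) (nat_lit 125)) (XT.lf (nat_lit 0) (nat_lit 1360772700210) (nat_lit 152) (nat_lit 2237617171002) (nat_lit 228) (nat_lit 371623893658) (nat_lit 33) (nat_lit 5) (nat_lit 35) (nat_lit 5) (nat_lit 36) (nat_lit 5) (nat_lit 398) (nat_lit 378) (nat_lit 124)))))) (XT.nd (nat_lit 45552) (nat_lit 0) (nat_lit 1596) (XT.nd (nat_lit 45396) (nat_lit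 0) (nat_lit 1976) (XT.nd (nat_lit 45318) (nat_lit 0) (nat_lit 1976) (XT.lf (nat_lit 0) (nat_lit 384024226107) (nat_lit 228) (nat_lit 483868476751) (nat_lit 76) (nat_lit 3303555550631) (nat_lit 32) (nat_lit 5) (nat_lit 35) (nat_lit 5) (nat_lit 33) (nat_lit 5) (nat_lit 399) (nat_lit 378) (nat_lit 123)) (XT.lf (nat_lit 0) (nat_lit 722525316794) (nat_lit 532) (nat_lit 83582078654) (nat_lit 532) (nat_lit 83582078654) (nat_lit 58) (nat_lit 3) (nat_lit 65) (nat_lit 3) (nat_lit 65) (nat_lit 5) (nat_lit 379) (nat_lit 379) (nat_lit 142))) (XT.nd (nat_lit 78) (nat_lit 0) (nat_lit 76) (XT.lf (nat_lit 76) (nat_lit 719506527503) (nat_lit 0) (nat_lit 800650299935) (nat_lit 532) (nat_lit 329012945188) (nat_lit 59) (nat_lit 5) (nat_lit 58) (nat_lit 3) (nat_lit 65) (nat_lit 5) (nat_lit 380) (nat_lit 379) (nat_lit 141)) (XT.lf (nat_lit 0) (nat_lit 1607784733324) (nat_lit 456) (nat_lit 239503232435) (nat_lit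 532) (nat_lit 76734839920) (nat_lit 59) (nat_lit 5) (nat_lit 65) (nat_lit 5) (nat_lit 66) (nat_lit 5) (nat_lit 381) (nat_lit 379) (nat_lit 140)))) (XT.nd (nat_lit 156) (nat_lit 456) (nat_lit 0) (XT.nd (nat_lit 78) (nat_lit 0) (nat_lit 0) (XT.lf (nat_lit 76) (nat_lit 737990754838) (nat_lit 0) (nat_lit 1002976922145) (nat_lit 532) (nat_lit 260812819972) (nat_lit 60) (nat_lit 5) (nat_lit 59) (nat_lit 5) (nat_lit 66) (nat_lit 5) (nat_lit 382) (nat_lit 379) (nat_lit 139)) (XT.lf (nat_lit 76) (nat_lit 1807305020992) (nat_lit 0) (nat_lit 84048676274) (nat_lit 532) (nat_lit 193881230980) (nat_lit 60) (nat_lit 5) (nat_lit 59) (nat_lit 5) (nat_lit 66) (nat_lit 5) (nat_lit 383) (nat_lit 379) (nat_lit 138))) (XT.nd (nat_lit 78) (nat_lit 532) (nat_lit 0) (XT.lf (nat_lit 76) (nat_lit 805232826972) (nat_lit 0) (nat_lit 1289750532950) (nat_lit 532) (nat_lit 77085333259) (nat_lit 61) (nat_lit 5) (nat_lit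 60) (nat_lit 5) (nat_lit 67) (nat_lit 5) (nat_lit 384) (nat_lit 379) (nat_lit 137)) (XT.nd (nat_lit 78) (nat_lit 0) (nat_lit 76) (XT.lf (nat_lit 0) (nat_lit 56579901032) (nat_lit 532) (nat_lit 277946750025) (nat_lit 608) (nat_lit 1930429763306) (nat_lit 53) (nat_lit 5) (nat_lit 60) (nat_lit 5) (nat_lit 61) (nat_lit 5) (nat_lit 385) (nat_lit 379) (nat_lit 136)) (XT.lf (nat_lit 0) (nat_lit 236865443175) (nat_lit 532) (nat_lit 1437471296672) (nat_lit 76) (nat_lit 687570900131) (nat_lit 54) (nat_lit 5) (nat_lit 61) (nat_lit 5) (nat_lit 55) (nat_lit 5) (nat_lit 386) (nat_lit 379) (nat_lit 135))))))) (XT.nd (nat_lit 702) (nat_lit 152) (nat_lit 0) (XT.nd (nat_lit 312) (nat_lit 684) (nat_lit 0) (XT.nd (nat_lit 156) (nat_lit 228) (nat_lit 0) (XT.nd (nat_lit 78) (nat_lit 380) (nat_lit 0) (XT.lf (nat_lit 0) (nat_lit 448059779100) (nat_lit 532) (nat_lit 236076233294) (nat_lit 76) (nat_lit 1781160075220)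 (nat_lit 54) (nat_lit 5) (nat_lit 61) (nat_lit 5) (nat_lit 55) (nat_lit 5) (nat_lit 387) (nat_lit 379) (nat_lit 134)) (XT.lf (nat_lit 0) (nat_lit 712985294214) (nat_lit 456) (nat_lit 1467446375960) (nat_lit 76) (nat_lit 393577090300) (nat_lit 49) (nat_lit 5) (nat_lit 55) (nat_lit 5) (nat_lit 50) (nat_lit 5) (nat_lit 388) (nat_lit 379) (nat_lit 133))) (XT.nd (nat_lit 78) (nat_lit 228) (nat_lit 0) (XT.lf (nat_lit 0) (nat_lit 1023497014179) (nat_lit 456) (nat_lit 138801534862) (nat_lit 76) (nat_lit 1527168525033) (nat_lit 49) (nat_lit 5) (nat_lit 55) (nat_lit 5) (nat_lit 50) (nat_lit 5) (nat_lit 389) (nat_lit 379) (nat_lit 132)) (XT.lf (nat_lit 0) (nat_lit 1364387058883) (nat_lit 228) (nat_lit 27276153375) (nat_lit 304) (nat_lit 1419873757265) (nat_lit 46) (nat_lit 5) (nat_lit 49) (nat_lit 5) (nat_lit 50) (nat_lit 5) (nat_lit 390) (nat_lit 379) (nat_lit 131)))) (XT.nd (nat_lit 156) (nat_lit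 456) (nat_lit 0) (XT.nd (nat_lit 78) (nat_lit 0) (nat_lit 0) (XT.lf (nat_lit 0) (nat_lit 24981656082) (nat_lit 228) (nat_lit 1797620621007) (nat_lit 304) (nat_lit 1118104613847) (nat_lit 43) (nat_lit 5) (nat_lit 46) (nat_lit 5) (nat_lit 47) (nat_lit 5) (nat_lit 391) (nat_lit 379) (nat_lit 130)) (XT.lf (nat_lit 0) (nat_lit 1696438666330) (nat_lit 228) (nat_lit 631835978467) (nat_lit 304) (nat_lit 748715107052) (nat_lit 43) (nat_lit 5) (nat_lit 46) (nat_lit 5) (nat_lit 47) (nat_lit 5) (nat_lit 392) (nat_lit 379) (nat_lit 129))) (XT.nd (nat_lit 78) (nat_lit 304) (nat_lit 0) (XT.lf (nat_lit 0) (nat_lit 276167564590) (nat_lit 152) (nat_lit 2619959523112) (nat_lit 228) (nat_lit 326310051070) (nat_lit 41) (nat_lit 5) (nat_lit 43) (nat_lit 5) (nat_lit 44) (nat_lit 5) (nat_lit 393) (nat_lit 379) (nat_lit 128)) (XT.nd (nat_lit 78) (nat_lit 228) (nat_lit 0) (XT.lf (nat_lit 0) (nat_lit 178528385693)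 (nat_lit 228) (nat_lit 1253079264071) (nat_lit 76) (nat_lit 1943251685616) (nat_lit 40) (nat_lit 5) (nat_lit 43) (nat_lit 5) (nat_lit 41) (nat_lit 5) (nat_lit 394) (nat_lit 379) (nat_lit 127)) (XT.lf (nat_lit 0) (nat_lit 596952674495) (nat_lit 228) (nat_lit 123528729924) (nat_lit 304) (nat_lit 2817167318410) (nat_lit 37) (nat_lit 5) (nat_lit 40) (nat_lit 5) (nat_lit 41) (nat_lit 5) (nat_lit 395) (nat_lit 379) (nat_lit 126)))))) (XT.nd (nat_lit 45708) (nat_lit 0) (nat_lit 1748) (XT.nd (nat_lit 156) (nat_lit 0) (nat_lit 0) (XT.nd (nat_lit 78) (nat_lit 152) (nat_lit 0) (XT.lf (nat_lit 0) (nat_lit 1371947185192) (nat_lit 304) (nat_lit 1076364567140) (nat_lit 76) (nat_lit 1259856987298) (nat_lit 37) (nat_lit 5) (nat_lit 41) (nat_lit 5) (nat_lit 38) (nat_lit 5) (nat_lit 396) (nat_lit 379) (nat_lit 125)) (XT.lf (nat_lit 0) (nat_lit 983082669746) (nat_lit 152) (nat_lit 1119299258243) (nat_lit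 228) (nat_lit 1787800293822) (nat_lit 35) (nat_lit 5) (nat_lit 37) (nat_lit 5) (nat_lit 38) (nat_lit 5) (nat_lit 397) (nat_lit 379) (nat_lit 124))) (XT.nd (nat_lit 45474) (nat_lit 0) (nat_lit 1748) (XT.lf (nat_lit 0) (nat_lit 2929046203389) (nat_lit 228) (nat_lit 824267953302) (nat_lit 76) (nat_lit 330419045621) (nat_lit 35) (nat_lit 5) (nat_lit 38) (nat_lit 5) (nat_lit 36) (nat_lit 5) (nat_lit 398) (nat_lit 379) (nat_lit 123)) (XT.lf (nat_lit 0) (nat_lit 780327360891) (nat_lit 532) (nat_lit 90268634806) (nat_lit 532) (nat_lit 90268634806) (nat_lit 58) (nat_lit 3) (nat_lit 65) (nat_lit 3) (nat_lit 65) (nat_lit 5) (nat_lit 380) (nat_lit 380) (nat_lit 140)))) (XT.nd (nat_lit 156) (nat_lit 0) (nat_lit 76) (XT.nd (nat_lit 78) (nat_lit 0) (nat_lit 76) (XT.lf (nat_lit 76) (nat_lit 777067069472) (nat_lit 0) (nat_lit 864702339365) (nat_lit 532) (nat_lit 355333942731) (nat_lit 59) (nat_lit 5)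 (nat_lit 58) (nat_lit 3) (nat_lit 65) (nat_lit 5) (nat_lit 381) (nat_lit 380) (nat_lit 139)) (XT.lf (nat_lit 0) (nat_lit 1736407544242) (nat_lit 456) (nat_lit 258663469727) (nat_lit 532) (nat_lit 82873613537) (nat_lit 59) (nat_lit 5) (nat_lit 65) (nat_lit 5) (nat_lit 66) (nat_lit 5) (nat_lit 382) (nat_lit 380) (nat_lit 138))) (XT.nd (nat_lit 78) (nat_lit 0) (nat_lit 0) (XT.lf (nat_lit 76) (nat_lit 797030035990) (nat_lit 0) (nat_lit 1083215085515) (nat_lit 532) (nat_lit 281677812734) (nat_lit 60) (nat_lit 5) (nat_lit 59) (nat_lit 5) (nat_lit 66) (nat_lit 5) (nat_lit 383) (nat_lit 380) (nat_lit 137)) (XT.nd (nat_lit 78) (nat_lit 0) (nat_lit 76) (XT.lf (nat_lit 76) (nat_lit 1951889441898) (nat_lit 0) (nat_lit 90772579263) (nat_lit 532) (nat_lit 209391699054) (nat_lit 60) (nat_lit 5) (nat_lit 59) (nat_lit 5) (nat_lit 66) (nat_lit 5) (nat_lit 384) (nat_lit 380) (nat_lit 136)) (XT.lf (nat_lit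 76) (nat_lit 869651474310) (nat_lit 0) (nat_lit 1392930580749) (nat_lit 532) (nat_lit 83252131432) (nat_lit 61) (nat_lit 5) (nat_lit 60) (nat_lit 5) (nat_lit 67) (nat_lit 5) (nat_lit 385) (nat_lit 380) (nat_lit 135))))))))
noncomputable def xc253 : XT := (XT.nd (nat_lit 46878) (nat_lit 0) (nat_lit 152) (XT.nd (nat_lit 702) (nat_lit 456) (nat_lit 0) (XT.nd (nat_lit 312) (nat_lit 608) (nat_lit 0) (XT.nd (nat_lit 156) (nat_lit 304) (nat_lit 0) (XT.nd (nat_lit 78) (nat_lit 0) (nat_lit 76) (XT.lf (nat_lit 0) (nat_lit 61106318173) (nat_lit 532) (nat_lit 300182469063) (nat_lit 608) (nat_lit 2084864138238) (nat_lit 53) (nat_lit 5) (nat_lit 60) (nat_lit 5) (nat_lit 61) (nat_lit 5) (nat_lit 386) (nat_lit 380) (nat_lit 134)) (XT.lf (nat_lit 0) (nat_lit 255814702245) (nat_lit 532) (nat_lit 1552468977968) (nat_lit 76) (nat_lit 742576569044) (nat_lit 54) (nat_lit 5) (nat_lit 61) (nat_lit 5) (nat_lit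 55) (nat_lit 5) (nat_lit 387) (nat_lit 380) (nat_lit 133))) (XT.nd (nat_lit 78) (nat_lit 380) (nat_lit 0) (XT.lf (nat_lit 0) (nat_lit 483904583294) (nat_lit 532) (nat_lit 254962311182) (nat_lit 76) (nat_lit 1923652878369) (nat_lit 54) (nat_lit 5) (nat_lit 61) (nat_lit 5) (nat_lit 55) (nat_lit 5) (nat_lit 388) (nat_lit 380) (nat_lit 132)) (XT.lf (nat_lit 0) (nat_lit 770024138473) (nat_lit 456) (nat_lit 1584842064091) (nat_lit 76) (nat_lit 425063257065) (nat_lit 49) (nat_lit 5) (nat_lit 55) (nat_lit 5) (nat_lit 50) (nat_lit 5) (nat_lit 389) (nat_lit 380) (nat_lit 131)))) (XT.nd (nat_lit 156) (nat_lit 380) (nat_lit 0) (XT.nd (nat_lit 78) (nat_lit 228) (nat_lit 0) (XT.lf (nat_lit 0) (nat_lit 1105376794500) (nat_lit 456) (nat_lit 149905637331) (nat_lit 76) (nat_lit 1649342006610) (nat_lit 49) (nat_lit 5) (nat_lit 55) (nat_lit 5) (nat_lit 50) (nat_lit 5) (nat_lit 390) (nat_lit 380) (nat_lit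 130)) (XT.lf (nat_lit 0) (nat_lit 1473538043399) (nat_lit 228) (nat_lit 29458244082) (nat_lit 304) (nat_lit 1533463638123) (nat_lit 46) (nat_lit 5) (nat_lit 49) (nat_lit 5) (nat_lit 50) (nat_lit 5) (nat_lit 391) (nat_lit 380) (nat_lit 129))) (XT.nd (nat_lit 78) (nat_lit 152) (nat_lit 0) (XT.lf (nat_lit 0) (nat_lit 26980209280) (nat_lit 228) (nat_lit 1941430267400) (nat_lit 304) (nat_lit 1207552964117) (nat_lit 43) (nat_lit 5) (nat_lit 46) (nat_lit 5) (nat_lit 47) (nat_lit 5) (nat_lit 392) (nat_lit 380) (nat_lit 128)) (XT.nd (nat_lit 78) (nat_lit 152) (nat_lit 0) (XT.lf (nat_lit 0) (nat_lit 1832153778814) (nat_lit 228) (nat_lit 682382853700) (nat_lit 304) (nat_lit 808612298173) (nat_lit 43) (nat_lit 5) (nat_lit 46) (nat_lit 5) (nat_lit 47) (nat_lit 5) (nat_lit 393) (nat_lit 380) (nat_lit 127)) (XT.lf (nat_lit 0) (nat_lit 298260989654) (nat_lit 152) (nat_lit 2829556280548) (nat_lit 228)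 (nat_lit 352414838416) (nat_lit 41) (nat_lit 5) (nat_lit 43) (nat_lit 5) (nat_lit 44) (nat_lit 5) (nat_lit 394) (nat_lit 380) (nat_lit 126)))))) (XT.nd (nat_lit 45786) (nat_lit 0) (nat_lit 1748) (XT.nd (nat_lit 156) (nat_lit 152) (nat_lit 0) (XT.nd (nat_lit 78) (nat_lit 228) (nat_lit 0) (XT.lf (nat_lit 0) (nat_lit 192810671274) (nat_lit 228) (nat_lit 1353325585983) (nat_lit 76) (nat_lit 2098711823761) (nat_lit 40) (nat_lit 5) (nat_lit 43) (nat_lit 5) (nat_lit 41) (nat_lit 5) (nat_lit 395) (nat_lit 380) (nat_lit 125)) (XT.lf (nat_lit 0) (nat_lit 644708907182) (nat_lit 228) (nat_lit 133411023675) (nat_lit 304) (nat_lit 3042540688657) (nat_lit 37) (nat_lit 5) (nat_lit 40) (nat_lit 5) (nat_lit 41) (nat_lit 5) (nat_lit 396) (nat_lit 380) (nat_lit 124))) (XT.nd (nat_lit 78) (nat_lit 152) (nat_lit 0) (XT.lf (nat_lit 0) (nat_lit 1481702973152) (nat_lit 304) (nat_lit 1162473714218) (nat_lit 76)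 (nat_lit 1360645550365) (nat_lit 37) (nat_lit 5) (nat_lit 41) (nat_lit 5) (nat_lit 38) (nat_lit 5) (nat_lit 397) (nat_lit 380) (nat_lit 123)) (XT.lf (nat_lit 0) (nat_lit 1061729301156) (nat_lit 152) (nat_lit 1208843193672) (nat_lit 228) (nat_lit 1930824303708) (nat_lit 35) (nat_lit 5) (nat_lit 37) (nat_lit 5) (nat_lit 38) (nat_lit 5) (nat_lit 398) (nat_lit 380) (nat_lit 122)))) (XT.nd (nat_lit 156) (nat_lit 0) (nat_lit 76) (XT.nd (nat_lit 78) (nat_lit 0) (nat_lit 0) (XT.lf (nat_lit 0) (nat_lit 842753565840) (nat_lit 532) (nat_lit 97490116896) (nat_lit 532) (nat_lit 97490116896) (nat_lit 58) (nat_lit 3) (nat_lit 65) (nat_lit 3) (nat_lit 65) (nat_lit 5) (nat_lit 381) (nat_lit 381) (nat_lit 138)) (XT.lf (nat_lit 76) (nat_lit 839232451978) (nat_lit 0) (nat_lit 933878539748) (nat_lit 532) (nat_lit 383760625509) (nat_lit 59) (nat_lit 5) (nat_lit 58) (nat_lit 3) (nat_lit 65) (nat_lit 5) (nat_lit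 382) (nat_lit 381) (nat_lit 137))) (XT.nd (nat_lit 78) (nat_lit 0) (nat_lit 0) (XT.lf (nat_lit 0) (nat_lit 1875320175433) (nat_lit 456) (nat_lit 279356529040) (nat_lit 532) (nat_lit 89503490980) (nat_lit 59) (nat_lit 5) (nat_lit 65) (nat_lit 5) (nat_lit 66) (nat_lit 5) (nat_lit 383) (nat_lit 381) (nat_lit 136)) (XT.nd (nat_lit 78) (nat_lit 0) (nat_lit 0) (XT.lf (nat_lit 76) (nat_lit 860792456671) (nat_lit 0) (nat_lit 1169872300585) (nat_lit 532) (nat_lit 304212009601) (nat_lit 60) (nat_lit 5) (nat_lit 59) (nat_lit 5) (nat_lit 66) (nat_lit 5) (nat_lit 384) (nat_lit 381) (nat_lit 135)) (XT.lf (nat_lit 76) (nat_lit 2108040613733) (nat_lit 0) (nat_lit 98034393224) (nat_lit 532) (nat_lit 226143008912) (nat_lit 60) (nat_lit 5) (nat_lit 59) (nat_lit 5) (nat_lit 66) (nat_lit 5) (nat_lit 385) (nat_lit 381) (nat_lit 134))))))) (XT.nd (nat_lit 702) (nat_lit 456) (nat_lit 0) (XT.nd (nat_lit 312)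 (nat_lit 760) (nat_lit 0) (XT.nd (nat_lit 156) (nat_lit 0) (nat_lit 76) (XT.nd (nat_lit 78) (nat_lit 532) (nat_lit 0) (XT.lf (nat_lit 76) (nat_lit 939223610413) (nat_lit 0) (nat_lit 1504365031634) (nat_lit 532) (nat_lit 89912277522) (nat_lit 61) (nat_lit 5) (nat_lit 60) (nat_lit 5) (nat_lit 67) (nat_lit 5) (nat_lit 386) (nat_lit 381) (nat_lit 133)) (XT.lf (nat_lit 0) (nat_lit 65994845110) (nat_lit 532) (nat_lit 324197048616) (nat_lit 608) (nat_lit 2251653264039) (nat_lit 53) (nat_lit 5) (nat_lit 60) (nat_lit 5) (nat_lit 61) (nat_lit 5) (nat_lit 387) (nat_lit 381) (nat_lit 132))) (XT.nd (nat_lit 78) (nat_lit 0) (nat_lit 0) (XT.lf (nat_lit 0) (nat_lit 276279898670) (nat_lit 532) (nat_lit 1676666476970) (nat_lit 76) (nat_lit 801982691912) (nat_lit 54) (nat_lit 5) (nat_lit 61) (nat_lit 5) (nat_lit 55) (nat_lit 5) (nat_lit 388) (nat_lit 381) (nat_lit 131)) (XT.lf (nat_lit 0) (nat_lit 522616968704)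 (nat_lit 532) (nat_lit 275359278265) (nat_lit 76) (nat_lit 2077545106179) (nat_lit 54) (nat_lit 5) (nat_lit 61) (nat_lit 5) (nat_lit 55) (nat_lit 5) (nat_lit 389) (nat_lit 381) (nat_lit 130)))) (XT.nd (nat_lit 156) (nat_lit 456) (nat_lit 0) (XT.nd (nat_lit 78) (nat_lit 0) (nat_lit 0) (XT.lf (nat_lit 0) (nat_lit 831626087316) (nat_lit 456) (nat_lit 1711629410404) (nat_lit 76) (nat_lit 459068317236) (nat_lit 49) (nat_lit 5) (nat_lit 55) (nat_lit 5) (nat_lit 50) (nat_lit 5) (nat_lit 390) (nat_lit 381) (nat_lit 129)) (XT.lf (nat_lit 0) (nat_lit 1193806954510) (nat_lit 456) (nat_lit 161898070897) (nat_lit 76) (nat_lit 1781289366774) (nat_lit 49) (nat_lit 5) (nat_lit 55) (nat_lit 5) (nat_lit 50) (nat_lit 5) (nat_lit 391) (nat_lit 381) (nat_lit 128))) (XT.nd (nat_lit 78) (nat_lit 228) (nat_lit 0) (XT.lf (nat_lit 0) (nat_lit 1591421103851) (nat_lit 228) (nat_lit 31814902268) (nat_lit 304) (nat_lit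 1656140712263) (nat_lit 46) (nat_lit 5) (nat_lit 49) (nat_lit 5) (nat_lit 50) (nat_lit 5) (nat_lit 392) (nat_lit 381) (nat_lit 127)) (XT.nd (nat_lit 78) (nat_lit 0) (nat_lit 0) (XT.lf (nat_lit 0) (nat_lit 29138643780) (nat_lit 228) (nat_lit 2096744685973) (nat_lit 304) (nat_lit 1304157185096) (nat_lit 43) (nat_lit 5) (nat_lit 46) (nat_lit 5) (nat_lit 47) (nat_lit 5) (nat_lit 393) (nat_lit 381) (nat_lit 126)) (XT.lf (nat_lit 0) (nat_lit 1978726097560) (nat_lit 228) (nat_lit 736973479386) (nat_lit 304) (nat_lit 873301267073) (nat_lit 43) (nat_lit 5) (nat_lit 46) (nat_lit 5) (nat_lit 47) (nat_lit 5) (nat_lit 394) (nat_lit 381) (nat_lit 125)))))) (XT.nd (nat_lit 46020) (nat_lit 0) (nat_lit 1216) (XT.nd (nat_lit 45864) (nat_lit 0) (nat_lit 1596) (XT.nd (nat_lit 156) (nat_lit 304) (nat_lit 0) (XT.lf (nat_lit 0) (nat_lit 322121885885) (nat_lit 152) (nat_lit 3055920779208) (nat_lit 228) (nat_lit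 380608011137) (nat_lit 41) (nat_lit 5) (nat_lit 43) (nat_lit 5) (nat_lit 44) (nat_lit 5) (nat_lit 395) (nat_lit 381) (nat_lit 124)) (XT.lf (nat_lit 0) (nat_lit 696285635812) (nat_lit 228) (nat_lit 144083901589) (nat_lit 304) (nat_lit 3285943930696) (nat_lit 37) (nat_lit 5) (nat_lit 40) (nat_lit 5) (nat_lit 41) (nat_lit 5) (nat_lit 397) (nat_lit 381) (nat_lit 122))) (XT.nd (nat_lit 78) (nat_lit 0) (nat_lit 0) (XT.lf (nat_lit 0) (nat_lit 910173864892) (nat_lit 532) (nat_lit 105289318794) (nat_lit 532) (nat_lit 105289318794) (nat_lit 58) (nat_lit 3) (nat_lit 65) (nat_lit 3) (nat_lit 65) (nat_lit 5) (nat_lit 382) (nat_lit 382) (nat_lit 136)) (XT.lf (nat_lit 76) (nat_lit 906371062666) (nat_lit 0) (nat_lit 1008588834273) (nat_lit 532) (nat_lit 414461447565) (nat_lit 59) (nat_lit 5) (nat_lit 58) (nat_lit 3) (nat_lit 65) (nat_lit 5) (nat_lit 383) (nat_lit 382) (nat_lit 135)))) (XT.nd (nat_lit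 156) (nat_lit 456) (nat_lit 0) (XT.nd (nat_lit 78) (nat_lit 0) (nat_lit 0) (XT.lf (nat_lit 0) (nat_lit 2025345813174) (nat_lit 456) (nat_lit 301705035705) (nat_lit 532) (nat_lit 96663760278) (nat_lit 59) (nat_lit 5) (nat_lit 65) (nat_lit 5) (nat_lit 66) (nat_lit 5) (nat_lit 384) (nat_lit 382) (nat_lit 134)) (XT.lf (nat_lit 76) (nat_lit 929655868467) (nat_lit 0) (nat_lit 1263462091687) (nat_lit 532) (nat_lit 328548946233) (nat_lit 60) (nat_lit 5) (nat_lit 59) (nat_lit 5) (nat_lit 66) (nat_lit 5) (nat_lit 385) (nat_lit 382) (nat_lit 133))) (XT.nd (nat_lit 78) (nat_lit 456) (nat_lit 0) (XT.lf (nat_lit 76) (nat_lit 2276683876963) (nat_lit 0) (nat_lit 105877151214) (nat_lit 532) (nat_lit 244234427277) (nat_lit 60) (nat_lit 5) (nat_lit 59) (nat_lit 5) (nat_lit 66) (nat_lit 5) (nat_lit 386) (nat_lit 382) (nat_lit 132)) (XT.nd (nat_lit 78) (nat_lit 532) (nat_lit 0) (XT.lf (nat_lit 76) (nat_lit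 1014361514814) (nat_lit 0) (nat_lit 1624714237960) (nat_lit 532) (nat_lit 97105238784) (nat_lit 61) (nat_lit 5) (nat_lit 60) (nat_lit 5) (nat_lit 67) (nat_lit 5) (nat_lit 387) (nat_lit 382) (nat_lit 131)) (XT.lf (nat_lit 0) (nat_lit 71274451138) (nat_lit 532) (nat_lit 350132797096) (nat_lit 608) (nat_lit 2431785520655) (nat_lit 53) (nat_lit 5) (nat_lit 60) (nat_lit 5) (nat_lit 61) (nat_lit 5) (nat_lit 388) (nat_lit 382) (nat_lit 130))))))))
noncomputable def xc254 : XT := (XT.nd (nat_lit 47112) (nat_lit 0) (nat_lit 228) (XT.nd (nat_lit 46410) (nat_lit 0) (nat_lit 988) (XT.nd (nat_lit 312) (nat_lit 684) (nat_lit 0) (XT.nd (nat_lit 156) (nat_lit 380) (nat_lit 0) (XT.nd (nat_lit 78) (nat_lit 0) (nat_lit 0) (XT.lf (nat_lit 0) (nat_lit 298382307922) (nat_lit 532) (nat_lit 1810799778635) (nat_lit 76) (nat_lit 866141304988) (nat_lit 54) (nat_lit 5) (nat_lit 61) (nat_lit 5) (nat_lit 55) (nat_lit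 5) (nat_lit 389) (nat_lit 382) (nat_lit 129)) (XT.lf (nat_lit 0) (nat_lit 564426342272) (nat_lit 532) (nat_lit 297388005256) (nat_lit 76) (nat_lit 2243748712566) (nat_lit 54) (nat_lit 5) (nat_lit 61) (nat_lit 5) (nat_lit 55) (nat_lit 5) (nat_lit 390) (nat_lit 382) (nat_lit 128))) (XT.nd (nat_lit 78) (nat_lit 0) (nat_lit 0) (XT.lf (nat_lit 0) (nat_lit 898156189533) (nat_lit 456) (nat_lit 1848559747105) (nat_lit 76) (nat_lit 495793782276) (nat_lit 49) (nat_lit 5) (nat_lit 55) (nat_lit 5) (nat_lit 50) (nat_lit 5) (nat_lit 391) (nat_lit 382) (nat_lit 127)) (XT.lf (nat_lit 0) (nat_lit 1289311524973) (nat_lit 456) (nat_lit 174849901633) (nat_lit 76) (nat_lit 1923792515803) (nat_lit 49) (nat_lit 5) (nat_lit 55) (nat_lit 5) (nat_lit 50) (nat_lit 5) (nat_lit 392) (nat_lit 382) (nat_lit 126)))) (XT.nd (nat_lit 156) (nat_lit 228) (nat_lit 0) (XT.nd (nat_lit 78) (nat_lit 228) (nat_lit 0) (XT.lf (nat_lit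 0) (nat_lit 1718734806717) (nat_lit 228) (nat_lit 34360093300) (nat_lit 304) (nat_lit 1788631954747) (nat_lit 46) (nat_lit 5) (nat_lit 49) (nat_lit 5) (nat_lit 50) (nat_lit 5) (nat_lit 393) (nat_lit 382) (nat_lit 125)) (XT.lf (nat_lit 0) (nat_lit 31469750506) (nat_lit 228) (nat_lit 2264484258433) (nat_lit 304) (nat_lit 1408489746057) (nat_lit 43) (nat_lit 5) (nat_lit 46) (nat_lit 5) (nat_lit 47) (nat_lit 5) (nat_lit 394) (nat_lit 382) (nat_lit 124))) (XT.nd (nat_lit 78) (nat_lit 228) (nat_lit 0) (XT.lf (nat_lit 0) (nat_lit 2137024199461) (nat_lit 228) (nat_lit 795931355499) (nat_lit 304) (nat_lit 943165355618) (nat_lit 43) (nat_lit 5) (nat_lit 46) (nat_lit 5) (nat_lit 47) (nat_lit 5) (nat_lit 395) (nat_lit 382) (nat_lit 123)) (XT.nd (nat_lit 78) (nat_lit 76) (nat_lit 0) (XT.lf (nat_lit 0) (nat_lit 347891651381) (nat_lit 152) (nat_lit 3300394438301) (nat_lit 228) (nat_lit 411056639723)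 (nat_lit 41) (nat_lit 5) (nat_lit 43) (nat_lit 5) (nat_lit 44) (nat_lit 5) (nat_lit 396) (nat_lit 382) (nat_lit 122)) (XT.lf (nat_lit 0) (nat_lit 224894391432) (nat_lit 228) (nat_lit 1578518931577) (nat_lit 76) (nat_lit 2447937476708) (nat_lit 40) (nat_lit 5) (nat_lit 43) (nat_lit 5) (nat_lit 41) (nat_lit 5) (nat_lit 397) (nat_lit 382) (nat_lit 121)))))) (XT.nd (nat_lit 312) (nat_lit 380) (nat_lit 0) (XT.nd (nat_lit 156) (nat_lit 0) (nat_lit 76) (XT.nd (nat_lit 78) (nat_lit 0) (nat_lit 0) (XT.lf (nat_lit 0) (nat_lit 982987785901) (nat_lit 532) (nat_lit 113712457907) (nat_lit 532) (nat_lit 113712457907) (nat_lit 58) (nat_lit 3) (nat_lit 65) (nat_lit 3) (nat_lit 65) (nat_lit 5) (nat_lit 383) (nat_lit 383) (nat_lit 134)) (XT.lf (nat_lit 76) (nat_lit 978880760137) (nat_lit 0) (nat_lit 1089275950742) (nat_lit 532) (nat_lit 447618339379) (nat_lit 59) (nat_lit 5) (nat_lit 58) (nat_lit 3) (nat_lit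 65) (nat_lit 5) (nat_lit 384) (nat_lit 383) (nat_lit 133))) (XT.nd (nat_lit 78) (nat_lit 0) (nat_lit 0) (XT.lf (nat_lit 0) (nat_lit 2187373498552) (nat_lit 456) (nat_lit 325841425137) (nat_lit 532) (nat_lit 104396852545) (nat_lit 59) (nat_lit 5) (nat_lit 65) (nat_lit 5) (nat_lit 66) (nat_lit 5) (nat_lit 385) (nat_lit 383) (nat_lit 132)) (XT.lf (nat_lit 76) (nat_lit 1004028351029) (nat_lit 0) (nat_lit 1364539065071) (nat_lit 532) (nat_lit 354832841239) (nat_lit 60) (nat_lit 5) (nat_lit 59) (nat_lit 5) (nat_lit 66) (nat_lit 5) (nat_lit 386) (nat_lit 383) (nat_lit 131)))) (XT.nd (nat_lit 156) (nat_lit 456) (nat_lit 0) (XT.nd (nat_lit 78) (nat_lit 0) (nat_lit 76) (XT.lf (nat_lit 76) (nat_lit 2458818599236) (nat_lit 0) (nat_lit 114347328912) (nat_lit 532) (nat_lit 263773162300) (nat_lit 60) (nat_lit 5) (nat_lit 59) (nat_lit 5) (nat_lit 66) (nat_lit 5) (nat_lit 387) (nat_lit 383) (nat_lit 130))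 (XT.lf (nat_lit 76) (nat_lit 1095510449346) (nat_lit 0) (nat_lit 1754691380250) (nat_lit 532) (nat_lit 104873639935) (nat_lit 61) (nat_lit 5) (nat_lit 60) (nat_lit 5) (nat_lit 67) (nat_lit 5) (nat_lit 388) (nat_lit 383) (nat_lit 129))) (XT.nd (nat_lit 78) (nat_lit 0) (nat_lit 76) (XT.lf (nat_lit 0) (nat_lit 76976423020) (nat_lit 532) (nat_lit 378143407653) (nat_lit 608) (nat_lit 2626328358443) (nat_lit 53) (nat_lit 5) (nat_lit 60) (nat_lit 5) (nat_lit 61) (nat_lit 5) (nat_lit 389) (nat_lit 383) (nat_lit 128)) (XT.nd (nat_lit 78) (nat_lit 0) (nat_lit 0) (XT.lf (nat_lit 0) (nat_lit 322252907437) (nat_lit 532) (nat_lit 1955663746787) (nat_lit 76) (nat_lit 935432607435) (nat_lit 54) (nat_lit 5) (nat_lit 61) (nat_lit 5) (nat_lit 55) (nat_lit 5) (nat_lit 390) (nat_lit 383) (nat_lit 127)) (XT.lf (nat_lit 0) (nat_lit 609580463433) (nat_lit 532) (nat_lit 321179032585) (nat_lit 76) (nat_lit 2423248607763)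 (nat_lit 54) (nat_lit 5) (nat_lit 61) (nat_lit 5) (nat_lit 55) (nat_lit 5) (nat_lit 391) (nat_lit 383) (nat_lit 126))))))) (XT.nd (nat_lit 46644) (nat_lit 0) (nat_lit 0) (XT.nd (nat_lit 46254) (nat_lit 0) (nat_lit 1140) (XT.nd (nat_lit 156) (nat_lit 456) (nat_lit 0) (XT.nd (nat_lit 78) (nat_lit 0) (nat_lit 0) (XT.lf (nat_lit 0) (nat_lit 970008697753) (nat_lit 456) (nat_lit 1996444513044) (nat_lit 76) (nat_lit 535457284569) (nat_lit 49) (nat_lit 5) (nat_lit 55) (nat_lit 5) (nat_lit 50) (nat_lit 5) (nat_lit 392) (nat_lit 383) (nat_lit 125)) (XT.lf (nat_lit 0) (nat_lit 1392456459062) (nat_lit 456) (nat_lit 188837880958) (nat_lit 76) (nat_lit 2077695916799) (nat_lit 49) (nat_lit 5) (nat_lit 55) (nat_lit 5) (nat_lit 50) (nat_lit 5) (nat_lit 393) (nat_lit 383) (nat_lit 124))) (XT.nd (nat_lit 156) (nat_lit 228) (nat_lit 0) (XT.lf (nat_lit 0) (nat_lit 1856233603735) (nat_lit 228) (nat_lit 37108899778)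 (nat_lit 304) (nat_lit 1931722498697) (nat_lit 46) (nat_lit 5) (nat_lit 49) (nat_lit 5) (nat_lit 50) (nat_lit 5) (nat_lit 394) (nat_lit 383) (nat_lit 123)) (XT.lf (nat_lit 0) (nat_lit 2307986147503) (nat_lit 228) (nat_lit 859605862020) (nat_lit 304) (nat_lit 1018618573076) (nat_lit 43) (nat_lit 5) (nat_lit 46) (nat_lit 5) (nat_lit 47) (nat_lit 5) (nat_lit 396) (nat_lit 383) (nat_lit 121)))) (XT.nd (nat_lit 156) (nat_lit 0) (nat_lit 76) (XT.nd (nat_lit 78) (nat_lit 0) (nat_lit 0) (XT.lf (nat_lit 0) (nat_lit 1061626818905) (nat_lit 532) (nat_lit 122809449061) (nat_lit 532) (nat_lit 122809449061) (nat_lit 58) (nat_lit 3) (nat_lit 65) (nat_lit 3) (nat_lit 65) (nat_lit 5) (nat_lit 384) (nat_lit 384) (nat_lit 132)) (XT.lf (nat_lit 76) (nat_lit 1057191231628) (nat_lit 0) (nat_lit 1176418035141) (nat_lit 532) (nat_lit 483427785960) (nat_lit 59) (nat_lit 5) (nat_lit 58) (nat_lit 3) (nat_lit 65)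 (nat_lit 5) (nat_lit 385) (nat_lit 384) (nat_lit 131))) (XT.nd (nat_lit 78) (nat_lit 0) (nat_lit 0) (XT.lf (nat_lit 0) (nat_lit 2362363395861) (nat_lit 456) (nat_lit 351908727638) (nat_lit 532) (nat_lit 112748593413) (nat_lit 59) (nat_lit 5) (nat_lit 65) (nat_lit 5) (nat_lit 66) (nat_lit 5) (nat_lit 386) (nat_lit 384) (nat_lit 130)) (XT.nd (nat_lit 78) (nat_lit 0) (nat_lit 0) (XT.lf (nat_lit 76) (nat_lit 1084350630330) (nat_lit 0) (nat_lit 1473702195462) (nat_lit 532) (nat_lit 383219450798) (nat_lit 60) (nat_lit 5) (nat_lit 59) (nat_lit 5) (nat_lit 66) (nat_lit 5) (nat_lit 387) (nat_lit 384) (nat_lit 129)) (XT.lf (nat_lit 76) (nat_lit 2655524097562) (nat_lit 0) (nat_lit 123495120027) (nat_lit 532) (nat_lit 284874998857) (nat_lit 60) (nat_lit 5) (nat_lit 59) (nat_lit 5) (nat_lit 66) (nat_lit 5) (nat_lit 388) (nat_lit 384) (nat_lit 128)))))) (XT.nd (nat_lit 312) (nat_lit 760) (nat_lit 0)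 (XT.nd (nat_lit 156) (nat_lit 0) (nat_lit 76) (XT.nd (nat_lit 78) (nat_lit 532) (nat_lit 0) (XT.lf (nat_lit 76) (nat_lit 1183151296737) (nat_lit 0) (nat_lit 1895066693459) (nat_lit 532) (nat_lit 113263515738) (nat_lit 61) (nat_lit 5) (nat_lit 60) (nat_lit 5) (nat_lit 67) (nat_lit 5) (nat_lit 389) (nat_lit 384) (nat_lit 127)) (XT.lf (nat_lit 0) (nat_lit 83134550400) (nat_lit 532) (nat_lit 408394868940) (nat_lit 608) (nat_lit 2836434623805) (nat_lit 53) (nat_lit 5) (nat_lit 60) (nat_lit 5) (nat_lit 61) (nat_lit 5) (nat_lit 390) (nat_lit 384) (nat_lit 126))) (XT.nd (nat_lit 78) (nat_lit 0) (nat_lit 0) (XT.lf (nat_lit 0) (nat_lit 348033152791) (nat_lit 532) (nat_lit 2112116834408) (nat_lit 76) (nat_lit 1010267214356) (nat_lit 54) (nat_lit 5) (nat_lit 61) (nat_lit 5) (nat_lit 55) (nat_lit 5) (nat_lit 391) (nat_lit 384) (nat_lit 125)) (XT.lf (nat_lit 0) (nat_lit 658346912321) (nat_lit 532)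 (nat_lit 346873343968) (nat_lit 76) (nat_lit 2617108494835) (nat_lit 54) (nat_lit 5) (nat_lit 61) (nat_lit 5) (nat_lit 55) (nat_lit 5) (nat_lit 392) (nat_lit 384) (nat_lit 124)))) (XT.nd (nat_lit 156) (nat_lit 456) (nat_lit 0) (XT.nd (nat_lit 78) (nat_lit 0) (nat_lit 0) (XT.lf (nat_lit 0) (nat_lit 1047609404769) (nat_lit 456) (nat_lit 2156160062232) (nat_lit 76) (nat_lit 578293867086) (nat_lit 49) (nat_lit 5) (nat_lit 55) (nat_lit 5) (nat_lit 50) (nat_lit 5) (nat_lit 393) (nat_lit 384) (nat_lit 123)) (XT.lf (nat_lit 0) (nat_lit 1503852986153) (nat_lit 456) (nat_lit 203944900457) (nat_lit 76) (nat_lit 2243911589913) (nat_lit 49) (nat_lit 5) (nat_lit 55) (nat_lit 5) (nat_lit 50) (nat_lit 5) (nat_lit 394) (nat_lit 384) (nat_lit 122))) (XT.nd (nat_lit 78) (nat_lit 228) (nat_lit 0) (XT.lf (nat_lit 0) (nat_lit 2004732302734) (nat_lit 228) (nat_lit 40077610916) (nat_lit 304) (nat_lit 2086260287937)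 (nat_lit 46) (nat_lit 5) (nat_lit 49) (nat_lit 5) (nat_lit 50) (nat_lit 5) (nat_lit 395) (nat_lit 384) (nat_lit 121)) (XT.nd (nat_lit 46020) (nat_lit 0) (nat_lit 1140) (XT.lf (nat_lit 0) (nat_lit 36706342276) (nat_lit 228) (nat_lit 2641294435023) (nat_lit 304) (nat_lit 1642862416803) (nat_lit 43) (nat_lit 5) (nat_lit 46) (nat_lit 5) (nat_lit 47) (nat_lit 5) (nat_lit 396) (nat_lit 384) (nat_lit 120)) (XT.lf (nat_lit 0) (nat_lit 1146556973104) (nat_lit 532) (nat_lit 132634200289) (nat_lit 532) (nat_lit 132634200289) (nat_lit 58) (nat_lit 3) (nat_lit 65) (nat_lit 3) (nat_lit 65) (nat_lit 5) (nat_lit 385) (nat_lit 385) (nat_lit 130))))))))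
noncomputable def xc255 : XT := (XT.nd (nat_lit 47580) (nat_lit 0) (nat_lit 0) (XT.nd (nat_lit 46878) (nat_lit 0) (nat_lit 304) (XT.nd (nat_lit 312) (nat_lit 684) (nat_lit 0) (XT.nd (nat_lit 156) (nat_lit 0) (nat_lit 76) (XT.nd (nat_lit 78) (nat_lit 0) (nat_lit 76) (XT.lf (nat_lit 76) (nat_lit 1141766539315) (nat_lit 0) (nat_lit 1270531485102) (nat_lit 532) (nat_lit 522101991202) (nat_lit 59) (nat_lit 5) (nat_lit 58) (nat_lit 3) (nat_lit 65) (nat_lit 5) (nat_lit 386) (nat_lit 385) (nat_lit 129)) (XT.lf (nat_lit 0) (nat_lit 2551352482469) (nat_lit 456) (nat_lit 380061415981) (nat_lit 532) (nat_lit 121768474597) (nat_lit 59) (nat_lit 5) (nat_lit 65) (nat_lit 5) (nat_lit 66) (nat_lit 5) (nat_lit 387) (nat_lit 385) (nat_lit 128))) (XT.nd (nat_lit 78) (nat_lit 0) (nat_lit 0) (XT.lf (nat_lit 76) (nat_lit 1171098690374) (nat_lit 0) (nat_lit 1591598375545) (nat_lit 532) (nat_lit 413876991653)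 (nat_lit 60) (nat_lit 5) (nat_lit 59) (nat_lit 5) (nat_lit 66) (nat_lit 5) (nat_lit 388) (nat_lit 385) (nat_lit 127)) (XT.lf (nat_lit 76) (nat_lit 2867966034272) (nat_lit 0) (nat_lit 133374733745) (nat_lit 532) (nat_lit 307664984683) (nat_lit 60) (nat_lit 5) (nat_lit 59) (nat_lit 5) (nat_lit 66) (nat_lit 5) (nat_lit 389) (nat_lit 385) (nat_lit 126)))) (XT.nd (nat_lit 156) (nat_lit 304) (nat_lit 0) (XT.nd (nat_lit 78) (nat_lit 532) (nat_lit 0) (XT.lf (nat_lit 76) (nat_lit 1277803410286) (nat_lit 0) (nat_lit 2046672031327) (nat_lit 532) (nat_lit 122324583802) (nat_lit 61) (nat_lit 5) (nat_lit 60) (nat_lit 5) (nat_lit 67) (nat_lit 5) (nat_lit 390) (nat_lit 385) (nat_lit 125)) (XT.lf (nat_lit 0) (nat_lit 89785326039) (nat_lit 532) (nat_lit 441066448745) (nat_lit 608) (nat_lit 3063349390869) (nat_lit 53) (nat_lit 5) (nat_lit 60) (nat_lit 5) (nat_lit 61) (nat_lit 5) (nat_lit 391) (nat_lit 385)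 (nat_lit 124))) (XT.nd (nat_lit 78) (nat_lit 380) (nat_lit 0) (XT.lf (nat_lit 0) (nat_lit 375875815953) (nat_lit 532) (nat_lit 2281086170768) (nat_lit 76) (nat_lit 1091088590070) (nat_lit 54) (nat_lit 5) (nat_lit 61) (nat_lit 5) (nat_lit 55) (nat_lit 5) (nat_lit 392) (nat_lit 385) (nat_lit 123)) (XT.nd (nat_lit 156) (nat_lit 380) (nat_lit 0) (XT.lf (nat_lit 0) (nat_lit 711014675435) (nat_lit 532) (nat_lit 374623201862) (nat_lit 76) (nat_lit 2826477173093) (nat_lit 54) (nat_lit 5) (nat_lit 61) (nat_lit 5) (nat_lit 55) (nat_lit 5) (nat_lit 393) (nat_lit 385) (nat_lit 122)) (XT.lf (nat_lit 0) (nat_lit 1624161233933) (nat_lit 456) (nat_lit 220260483082) (nat_lit 76) (nat_lit 2423424516909) (nat_lit 49) (nat_lit 5) (nat_lit 55) (nat_lit 5) (nat_lit 50) (nat_lit 5) (nat_lit 395) (nat_lit 385) (nat_lit 120)))))) (XT.nd (nat_lit 312) (nat_lit 380) (nat_lit 0) (XT.nd (nat_lit 156) (nat_lit 0)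 (nat_lit 76) (XT.nd (nat_lit 78) (nat_lit 0) (nat_lit 0) (XT.lf (nat_lit 0) (nat_lit 1238281538399) (nat_lit 532) (nat_lit 143244932285) (nat_lit 532) (nat_lit 143244932285) (nat_lit 58) (nat_lit 3) (nat_lit 65) (nat_lit 3) (nat_lit 65) (nat_lit 5) (nat_lit 386) (nat_lit 386) (nat_lit 128)) (XT.lf (nat_lit 76) (nat_lit 1233107870310) (nat_lit 0) (nat_lit 1372174010040) (nat_lit 532) (nat_lit 563870135379) (nat_lit 59) (nat_lit 5) (nat_lit 58) (nat_lit 3) (nat_lit 65) (nat_lit 5) (nat_lit 387) (nat_lit 386) (nat_lit 127))) (XT.nd (nat_lit 78) (nat_lit 0) (nat_lit 0) (XT.lf (nat_lit 0) (nat_lit 2755460693875) (nat_lit 456) (nat_lit 410466320800) (nat_lit 532) (nat_lit 131509947173) (nat_lit 59) (nat_lit 5) (nat_lit 65) (nat_lit 5) (nat_lit 66) (nat_lit 5) (nat_lit 388) (nat_lit 386) (nat_lit 126)) (XT.lf (nat_lit 76) (nat_lit 1264786593850) (nat_lit 0) (nat_lit 1718926249401) (nat_lit 532)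 (nat_lit 446987137945) (nat_lit 60) (nat_lit 5) (nat_lit 59) (nat_lit 5) (nat_lit 66) (nat_lit 5) (nat_lit 389) (nat_lit 386) (nat_lit 125)))) (XT.nd (nat_lit 156) (nat_lit 456) (nat_lit 0) (XT.nd (nat_lit 78) (nat_lit 0) (nat_lit 76) (XT.lf (nat_lit 76) (nat_lit 3097403324649) (nat_lit 0) (nat_lit 144044715974) (nat_lit 532) (nat_lit 332278171384) (nat_lit 60) (nat_lit 5) (nat_lit 59) (nat_lit 5) (nat_lit 66) (nat_lit 5) (nat_lit 390) (nat_lit 386) (nat_lit 124)) (XT.lf (nat_lit 76) (nat_lit 1380027691520) (nat_lit 0) (nat_lit 2210405795883) (nat_lit 532) (nat_lit 132110539193) (nat_lit 61) (nat_lit 5) (nat_lit 60) (nat_lit 5) (nat_lit 67) (nat_lit 5) (nat_lit 391) (nat_lit 386) (nat_lit 123))) (XT.nd (nat_lit 78) (nat_lit 0) (nat_lit 76) (XT.lf (nat_lit 0) (nat_lit 96968162073) (nat_lit 532) (nat_lit 476351756319) (nat_lit 608) (nat_lit 3308417339704) (nat_lit 53) (nat_lit 5) (nat_lit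 60) (nat_lit 5) (nat_lit 61) (nat_lit 5) (nat_lit 392) (nat_lit 386) (nat_lit 122)) (XT.nd (nat_lit 78) (nat_lit 0) (nat_lit 0) (XT.lf (nat_lit 0) (nat_lit 405945890607) (nat_lit 532) (nat_lit 2463573055519) (nat_lit 76) (nat_lit 1178375676046) (nat_lit 54) (nat_lit 5) (nat_lit 61) (nat_lit 5) (nat_lit 55) (nat_lit 5) (nat_lit 393) (nat_lit 386) (nat_lit 121)) (XT.lf (nat_lit 0) (nat_lit 767895858153) (nat_lit 532) (nat_lit 404593049761) (nat_lit 76) (nat_lit 3052595345802) (nat_lit 54) (nat_lit 5) (nat_lit 61) (nat_lit 5) (nat_lit 55) (nat_lit 5) (nat_lit 394) (nat_lit 386) (nat_lit 120))))))) (XT.nd (nat_lit 93288) (nat_lit 0) (nat_lit 684) (XT.nd (nat_lit 46488) (nat_lit 0) (nat_lit 380) (XT.nd (nat_lit 46332) (nat_lit 0) (nat_lit 684) (XT.nd (nat_lit 46254) (nat_lit 0) (nat_lit 684) (XT.lf (nat_lit 0) (nat_lit 1221931628317) (nat_lit 456) (nat_lit 2514945076894) (nat_lit 76) (nat_lit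 674521966156) (nat_lit 49) (nat_lit 5) (nat_lit 55) (nat_lit 5) (nat_lit 50) (nat_lit 5) (nat_lit 395) (nat_lit 386) (nat_lit 119)) (XT.lf (nat_lit 0) (nat_lit 1337344067856) (nat_lit 532) (nat_lit 154704523415) (nat_lit 532) (nat_lit 154704523415) (nat_lit 58) (nat_lit 3) (nat_lit 65) (nat_lit 3) (nat_lit 65) (nat_lit 5) (nat_lit 387) (nat_lit 387) (nat_lit 126))) (XT.nd (nat_lit 78) (nat_lit 0) (nat_lit 76) (XT.lf (nat_lit 76) (nat_lit 1331756506665) (nat_lit 0) (nat_lit 1481947936098) (nat_lit 532) (nat_lit 608979733248) (nat_lit 59) (nat_lit 5) (nat_lit 58) (nat_lit 3) (nat_lit 65) (nat_lit 5) (nat_lit 388) (nat_lit 387) (nat_lit 125)) (XT.lf (nat_lit 0) (nat_lit 2975897560365) (nat_lit 456) (nat_lit 443303619211) (nat_lit 532) (nat_lit 142030738325) (nat_lit 59) (nat_lit 5) (nat_lit 65) (nat_lit 5) (nat_lit 66) (nat_lit 5) (nat_lit 389) (nat_lit 387) (nat_lit 124)))) (XT.nd (nat_lit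 156) (nat_lit 380) (nat_lit 0) (XT.nd (nat_lit 78) (nat_lit 0) (nat_lit 0) (XT.lf (nat_lit 76) (nat_lit 1365969528427) (nat_lit 0) (nat_lit 1856440352621) (nat_lit 532) (nat_lit 482746097801) (nat_lit 60) (nat_lit 5) (nat_lit 59) (nat_lit 5) (nat_lit 66) (nat_lit 5) (nat_lit 390) (nat_lit 387) (nat_lit 123)) (XT.lf (nat_lit 76) (nat_lit 3345195597167) (nat_lit 0) (nat_lit 155568296278) (nat_lit 532) (nat_lit 358860414743) (nat_lit 60) (nat_lit 5) (nat_lit 59) (nat_lit 5) (nat_lit 66) (nat_lit 5) (nat_lit 391) (nat_lit 387) (nat_lit 122))) (XT.nd (nat_lit 156) (nat_lit 456) (nat_lit 0) (XT.lf (nat_lit 76) (nat_lit 1490429914053) (nat_lit 0) (nat_lit 2387238261311) (nat_lit 532) (nat_lit 142679372629) (nat_lit 61) (nat_lit 5) (nat_lit 60) (nat_lit 5) (nat_lit 67) (nat_lit 5) (nat_lit 392) (nat_lit 387) (nat_lit 121)) (XT.nd (nat_lit 46410) (nat_lit 0) (nat_lit 304) (XT.lf (nat_lit 0) (nat_lit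 438421569896) (nat_lit 532) (nat_lit 2660658892322) (nat_lit 76) (nat_lit 1272645729075) (nat_lit 54) (nat_lit 5) (nat_lit 61) (nat_lit 5) (nat_lit 55) (nat_lit 5) (nat_lit 394) (nat_lit 387) (nat_lit 119)) (XT.lf (nat_lit 0) (nat_lit 1444331598758) (nat_lit 532) (nat_lit 167080882328) (nat_lit 532) (nat_lit 167080882328) (nat_lit 58) (nat_lit 3) (nat_lit 65) (nat_lit 3) (nat_lit 65) (nat_lit 5) (nat_lit 388) (nat_lit 388) (nat_lit 124)))))) (XT.nd (nat_lit 46878) (nat_lit 0) (nat_lit 0) (XT.nd (nat_lit 156) (nat_lit 0) (nat_lit 76) (XT.nd (nat_lit 78) (nat_lit 0) (nat_lit 76) (XT.lf (nat_lit 76) (nat_lit 1438297032969) (nat_lit 0) (nat_lit 1600503775491) (nat_lit 532) (nat_lit 657698100795) (nat_lit 59) (nat_lit 5) (nat_lit 58) (nat_lit 3) (nat_lit 65) (nat_lit 5) (nat_lit 389) (nat_lit 388) (nat_lit 123)) (XT.lf (nat_lit 0) (nat_lit 3213969374609) (nat_lit 456) (nat_lit 478767902530)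 (nat_lit 532) (nat_lit 153393193428) (nat_lit 59) (nat_lit 5) (nat_lit 65) (nat_lit 5) (nat_lit 66) (nat_lit 5) (nat_lit 390) (nat_lit 388) (nat_lit 122))) (XT.nd (nat_lit 78) (nat_lit 0) (nat_lit 0) (XT.lf (nat_lit 76) (nat_lit 1475247096762) (nat_lit 0) (nat_lit 2004955583632) (nat_lit 532) (nat_lit 521365776041) (nat_lit 60) (nat_lit 5) (nat_lit 59) (nat_lit 5) (nat_lit 66) (nat_lit 5) (nat_lit 391) (nat_lit 388) (nat_lit 121)) (XT.nd (nat_lit 78) (nat_lit 0) (nat_lit 76) (XT.lf (nat_lit 76) (nat_lit 3612811250552) (nat_lit 0) (nat_lit 168013762575) (nat_lit 532) (nat_lit 387569239048) (nat_lit 60) (nat_lit 5) (nat_lit 59) (nat_lit 5) (nat_lit 66) (nat_lit 5) (nat_lit 392) (nat_lit 388) (nat_lit 120)) (XT.lf (nat_lit 76) (nat_lit 1609664313359) (nat_lit 0) (nat_lit 2578217323723) (nat_lit 532) (nat_lit 154093714124) (nat_lit 61) (nat_lit 5) (nat_lit 60) (nat_lit 5) (nat_lit 67) (nat_lit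 5) (nat_lit 393) (nat_lit 388) (nat_lit 119))))) (XT.nd (nat_lit 156) (nat_lit 0) (nat_lit 0) (XT.nd (nat_lit 78) (nat_lit 0) (nat_lit 0) (XT.lf (nat_lit 0) (nat_lit 1559878131352) (nat_lit 532) (nat_lit 180447350377) (nat_lit 532) (nat_lit 180447350377) (nat_lit 58) (nat_lit 3) (nat_lit 65) (nat_lit 3) (nat_lit 65) (nat_lit 5) (nat_lit 389) (nat_lit 389) (nat_lit 122)) (XT.lf (nat_lit 76) (nat_lit 1553360800553) (nat_lit 0) (nat_lit 1728544081394) (nat_lit 532) (nat_lit 710313939331) (nat_lit 59) (nat_lit 5) (nat_lit 58) (nat_lit 3) (nat_lit 65) (nat_lit 5) (nat_lit 390) (nat_lit 389) (nat_lit 121))) (XT.nd (nat_lit 46878) (nat_lit 76) (nat_lit 0) (XT.lf (nat_lit 0) (nat_lit 3471086932648) (nat_lit 456) (nat_lit 517069329401) (nat_lit 532) (nat_lit 165664645504) (nat_lit 59) (nat_lit 5) (nat_lit 65) (nat_lit 5) (nat_lit 66) (nat_lit 5) (nat_lit 391) (nat_lit 389) (nat_lit 120)) (XT.nd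 (nat_lit 78) (nat_lit 0) (nat_lit 76) (XT.lf (nat_lit 76) (nat_lit 1677629668839) (nat_lit 0) (nat_lit 1866827611217) (nat_lit 532) (nat_lit 767139046309) (nat_lit 59) (nat_lit 5) (nat_lit 58) (nat_lit 3) (nat_lit 65) (nat_lit 5) (nat_lit 391) (nat_lit 390) (nat_lit 119)) (XT.lf (nat_lit 0) (nat_lit 3748773894180) (nat_lit 456) (nat_lit 558434871182) (nat_lit 532) (nat_lit 178917814232) (nat_lit 59) (nat_lit 5) (nat_lit 65) (nat_lit 5) (nat_lit 66) (nat_lit 5) (nat_lit 392) (nat_lit 390) (nat_lit 118))))))))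

set_option maxRecDepth 10000000 in
noncomputable def Tp : PT := (PT.nd (nat_lit 7183722) (PT.nd (nat_lit 6762678) (PT.nd (nat_lit 6387498) pc0 pc1) (PT.nd (nat_lit 280254) pc2 pc3)) (PT.nd (nat_lit 233220) (PT.nd (nat_lit 94458) pc4 pc5) (PT.nd (nat_lit 143052) pc6 pc7)))

set_option maxRecDepth 10000000 in
noncomputable def Tx : XT := (XT.nd (nat_lit 11330202) (nat_lit 0) (nat_lit 76) XT.nil (XT.nd (nat_lit 6982872) (nat_lit 0) (nat_lit 0) (XT.nd (nat_lit 3230916) (nat_lit 0) (nat_lit 0) (XT.nd (nat_lit 2244528) (nat_lit 0) (nat_lit 0) (XT.nd (nat_lit 1588860) (nat_lit 0) (nat_lit 0) (XT.nd (nat_lit 1121328) (nat_lit 0) (nat_lit 0) (XT.nd (nat_lit 750048) (nat_lit 0) (nat_lit 0) (XT.nd (nat_lit 560664) (nat_lit 0) (nat_lit 0) (XT.nd (nat_lit 374400) (nat_lit 0) (nat_lit 0) (XT.nd (nat_lit 280332) (nat_lit 0) (nat_lit 0) xc0 xc1) (XT.nd (nat_lit 93444) (nat_lit 0) (nat_lit 0) xc2 xc3))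 (XT.nd (nat_lit 95004) (nat_lit 0) (nat_lit 0) (XT.nd (nat_lit 47580) (nat_lit 0) (nat_lit 0) xc4 xc5) (XT.nd (nat_lit 47268) (nat_lit 0) (nat_lit 0) xc6 xc7))) (XT.nd (nat_lit 186888) (nat_lit 0) (nat_lit 0) (XT.nd (nat_lit 93756) (nat_lit 0) (nat_lit 0) (XT.nd (nat_lit 90948) (nat_lit 0) (nat_lit 0) xc8 xc9) (XT.nd (nat_lit 46644) (nat_lit 0) (nat_lit 0) xc10 xc11)) (XT.nd (nat_lit 92508) (nat_lit 0) (nat_lit 0) (XT.nd (nat_lit 46332) (nat_lit 0) (nat_lit 0) xc12 xc13) (XT.nd (nat_lit 46020) (nat_lit 0) (nat_lit 0) xc14 xc15)))) (XT.nd (nat_lit 235560) (nat_lit 0) (nat_lit 0) (XT.nd (nat_lit 96876) (nat_lit 0) (nat_lit 0) (XT.nd (nat_lit 48516) (nat_lit 0) (nat_lit 0) (XT.nd (nat_lit 2808) (nat_lit 0) (nat_lit 0) xc16 xc17) (XT.nd (nat_lit 45552) (nat_lit 0) (nat_lit 0) xc18 xc19)) (XT.nd (nat_lit 90714) (nat_lit 0) (nat_lit 0) (XT.nd (nat_lit 45396) (nat_lit 0) (nat_lit 0) xc20 xc21)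 (XT.nd (nat_lit 2808) (nat_lit 0) (nat_lit 0) xc22 xc23))) (XT.nd (nat_lit 95472) (nat_lit 0) (nat_lit 0) (XT.nd (nat_lit 47814) (nat_lit 0) (nat_lit 0) (XT.nd (nat_lit 45006) (nat_lit 0) (nat_lit 0) xc24 xc25) (XT.nd (nat_lit 44850) (nat_lit 0) (nat_lit 0) xc26 xc27)) (XT.nd (nat_lit 47502) (nat_lit 0) (nat_lit 0) (XT.nd (nat_lit 44694) (nat_lit 0) (nat_lit 0) xc28 xc29) (XT.nd (nat_lit 44538) (nat_lit 0) (nat_lit 0) xc30 xc31))))) (XT.nd (nat_lit 331656) (nat_lit 0) (nat_lit 0) (XT.nd (nat_lit 187200) (nat_lit 0) (nat_lit 0) (XT.nd (nat_lit 93912) (nat_lit 0) (nat_lit 0) (XT.nd (nat_lit 47034) (nat_lit 0) (nat_lit 0) (XT.nd (nat_lit 2808) (nat_lit 0) (nat_lit 0) xc32 xc33) (XT.nd (nat_lit 2808) (nat_lit 0) (nat_lit 0) xc34 xc35)) (XT.nd (nat_lit 46722) (nat_lit 0) (nat_lit 0) (XT.nd (nat_lit 2808) (nat_lit 0) (nat_lit 0) xc36 xc37) (XT.nd (nat_lit 2808) (nat_lit 0) (nat_lit 0) xc38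 xc39))) (XT.nd (nat_lit 52026) (nat_lit 0) (nat_lit 0) (XT.nd (nat_lit 46410) (nat_lit 0) (nat_lit 0) (XT.nd (nat_lit 2808) (nat_lit 0) (nat_lit 0) xc40 xc41) (XT.nd (nat_lit 2808) (nat_lit 0) (nat_lit 0) xc42 xc43)) (XT.nd (nat_lit 46254) (nat_lit 0) (nat_lit 0) (XT.nd (nat_lit 43446) (nat_lit 0) (nat_lit 0) xc44 xc45) (XT.nd (nat_lit 43290) (nat_lit 0) (nat_lit 0) xc46 xc47)))) (XT.nd (nat_lit 182832) (nat_lit 0) (nat_lit 0) (XT.nd (nat_lit 91728) (nat_lit 0) (nat_lit 0) (XT.nd (nat_lit 45942) (nat_lit 0) (nat_lit 0) (XT.nd (nat_lit 43134) (nat_lit 0) (nat_lit 0) xc48 xc49) (XT.nd (nat_lit 42978) (nat_lit 0) (nat_lit 0) xc50 xc51)) (XT.nd (nat_lit 45630) (nat_lit 0) (nat_lit 0) (XT.nd (nat_lit 2808) (nat_lit 0) (nat_lit 0) xc52 xc53) (XT.nd (nat_lit 2808) (nat_lit 0) (nat_lit 0) xc54 xc55))) (XT.nd (nat_lit 50934) (nat_lit 0) (nat_lit 0) (XT.nd (nat_lit 5616) (nat_lit 0) (nat_lit 0)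 (XT.nd (nat_lit 2808) (nat_lit 0) (nat_lit 0) xc56 xc57) (XT.nd (nat_lit 42510) (nat_lit 0) (nat_lit 0) xc58 xc59)) (XT.nd (nat_lit 45162) (nat_lit 0) (nat_lit 0) (XT.nd (nat_lit 42354) (nat_lit 0) (nat_lit 0) xc60 xc61) (XT.nd (nat_lit 2808) (nat_lit 0) (nat_lit 0) xc62 xc63)))))) (XT.nd (nat_lit 513864) (nat_lit 0) (nat_lit 0) (XT.nd (nat_lit 278538) (nat_lit 0) (nat_lit 0) (XT.nd (nat_lit 139932) (nat_lit 0) (nat_lit 0) (XT.nd (nat_lit 50544) (nat_lit 0) (nat_lit 0) (XT.nd (nat_lit 44928) (nat_lit 0) (nat_lit 0) (XT.nd (nat_lit 2808) (nat_lit 0) (nat_lit 0) xc64 xc65) (XT.nd (nat_lit 2808) (nat_lit 228) (nat_lit 0) xc66 xc67)) (XT.nd (nat_lit 44772) (nat_lit 0) (nat_lit 0) (XT.nd (nat_lit 41964) (nat_lit 0) (nat_lit 152) xc68 xc69) (XT.nd (nat_lit 2808) (nat_lit 0) (nat_lit 0) xc70 xc71))) (XT.nd (nat_lit 50076) (nat_lit 0) (nat_lit 0) (XT.nd (nat_lit 5616) (nat_lit 0) (nat_lit 0)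 (XT.nd (nat_lit 2808) (nat_lit 0) (nat_lit 0) xc72 xc73) (XT.nd (nat_lit 41652) (nat_lit 0) (nat_lit 0) xc74 xc75)) (XT.nd (nat_lit 44304) (nat_lit 0) (nat_lit 0) (XT.nd (nat_lit 2808) (nat_lit 0) (nat_lit 0) xc76 xc77) (XT.nd (nat_lit 2808) (nat_lit 0) (nat_lit 0) xc78 xc79)))) (XT.nd (nat_lit 99060) (nat_lit 0) (nat_lit 0) (XT.nd (nat_lit 49608) (nat_lit 0) (nat_lit 0) (XT.nd (nat_lit 5616) (nat_lit 0) (nat_lit 0) (XT.nd (nat_lit 2808) (nat_lit 608) (nat_lit 0) xc80 xc81) (XT.nd (nat_lit 41184) (nat_lit 0) (nat_lit 684) xc82 xc83)) (XT.nd (nat_lit 43836) (nat_lit 0) (nat_lit 0) (XT.nd (nat_lit 2808) (nat_lit 0) (nat_lit 0) xc84 xc85) (XT.nd (nat_lit 2808) (nat_lit 836) (nat_lit 0) xc86 xc87))) (XT.nd (nat_lit 49296) (nat_lit 0) (nat_lit 0) (XT.nd (nat_lit 43680) (nat_lit 0) (nat_lit 0) (XT.nd (nat_lit 2808) (nat_lit 0) (nat_lit 0) xc88 xc89) (XT.nd (nat_lit 2808) (nat_lit 152) (nat_lit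 0) xc90 xc91)) (XT.nd (nat_lit 43524) (nat_lit 0) (nat_lit 0) (XT.nd (nat_lit 40716) (nat_lit 0) (nat_lit 228) xc92 xc93) (XT.nd (nat_lit 2808) (nat_lit 0) (nat_lit 0) xc94 xc95))))) (XT.nd (nat_lit 235248) (nat_lit 0) (nat_lit 0) (XT.nd (nat_lit 98280) (nat_lit 0) (nat_lit 0) (XT.nd (nat_lit 49062) (nat_lit 0) (nat_lit 0) (XT.nd (nat_lit 5616) (nat_lit 0) (nat_lit 0) (XT.nd (nat_lit 2808) (nat_lit 380) (nat_lit 0) xc96 xc97) (XT.nd (nat_lit 40638) (nat_lit 0) (nat_lit 684) xc98 xc99)) (XT.nd (nat_lit 43602) (nat_lit 0) (nat_lit 0) (XT.nd (nat_lit 2808) (nat_lit 0) (nat_lit 0) xc100 xc101) (XT.nd (nat_lit 2808) (nat_lit 912) (nat_lit 0) xc102 xc103))) (XT.nd (nat_lit 49296) (nat_lit 0) (nat_lit 0) (XT.nd (nat_lit 43680) (nat_lit 0) (nat_lit 0) (XT.nd (nat_lit 40872) (nat_lit 0) (nat_lit 1216) xc104 xc105) (XT.nd (nat_lit 2808) (nat_lit 152) (nat_lit 0) xc106 xc107)) (XT.nd (nat_lit 43758)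 (nat_lit 0) (nat_lit 0) (XT.nd (nat_lit 40950) (nat_lit 0) (nat_lit 228) xc108 xc109) (XT.nd (nat_lit 2808) (nat_lit 0) (nat_lit 0) xc110 xc111)))) (XT.nd (nat_lit 99138) (nat_lit 0) (nat_lit 0) (XT.nd (nat_lit 49530) (nat_lit 0) (nat_lit 0) (XT.nd (nat_lit 5616) (nat_lit 0) (nat_lit 0) (XT.nd (nat_lit 2808) (nat_lit 228) (nat_lit 0) xc112 xc113) (XT.nd (nat_lit 41106) (nat_lit 0) (nat_lit 228) xc114 xc115)) (XT.nd (nat_lit 43992) (nat_lit 0) (nat_lit 0) (XT.nd (nat_lit 2808) (nat_lit 0) (nat_lit 0) xc116 xc117) (XT.nd (nat_lit 2808) (nat_lit 380) (nat_lit 0) xc118 xc119))) (XT.nd (nat_lit 88218) (nat_lit 0) (nat_lit 0) (XT.nd (nat_lit 44070) (nat_lit 0) (nat_lit 0) (XT.nd (nat_lit 41262) (nat_lit 0) (nat_lit 380) xc120 xc121) (XT.nd (nat_lit 2808) (nat_lit 0) (nat_lit 0) xc122 xc123)) (XT.nd (nat_lit 5616) (nat_lit 0) (nat_lit 0) (XT.nd (nat_lit 2808) (nat_lit 380) (nat_lit 0) xc124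 xc125) (XT.nd (nat_lit 41418) (nat_lit 0) (nat_lit 380) xc126 xc127))))))) (XT.nd (nat_lit 1174134) (nat_lit 0) (nat_lit 152) (XT.nd (nat_lit 560118) (nat_lit 0) (nat_lit 0) (XT.nd (nat_lit 278538) (nat_lit 0) (nat_lit 0) (XT.nd (nat_lit 138762) (nat_lit 0) (nat_lit 0) (XT.nd (nat_lit 49920) (nat_lit 0) (nat_lit 0) (XT.nd (nat_lit 44304) (nat_lit 0) (nat_lit 0) (XT.nd (nat_lit 2808) (nat_lit 0) (nat_lit 0) xc128 xc129) (XT.nd (nat_lit 2808) (nat_lit 228) (nat_lit 0) xc130 xc131)) (XT.nd (nat_lit 44382) (nat_lit 0) (nat_lit 0) (XT.nd (nat_lit 41574) (nat_lit 0) (nat_lit 228) xc132 xc133) (XT.nd (nat_lit 2808) (nat_lit 0) (nat_lit 0) xc134 xc135))) (XT.nd (nat_lit 50232) (nat_lit 0) (nat_lit 0) (XT.nd (nat_lit 44616) (nat_lit 0) (nat_lit 152) (XT.nd (nat_lit 2808) (nat_lit 152) (nat_lit 0) xc136 xc137) (XT.nd (nat_lit 2808) (nat_lit 988) (nat_lit 0) xc138 xc139)) (XT.nd (nat_lit 44694)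 (nat_lit 0) (nat_lit 0) (XT.nd (nat_lit 41886) (nat_lit 0) (nat_lit 760) xc140 xc141) (XT.nd (nat_lit 2808) (nat_lit 0) (nat_lit 0) xc142 xc143)))) (XT.nd (nat_lit 140400) (nat_lit 0) (nat_lit 0) (XT.nd (nat_lit 50466) (nat_lit 0) (nat_lit 0) (XT.nd (nat_lit 5616) (nat_lit 0) (nat_lit 0) (XT.nd (nat_lit 2808) (nat_lit 456) (nat_lit 0) xc144 xc145) (XT.nd (nat_lit 42042) (nat_lit 0) (nat_lit 228) xc146 xc147)) (XT.nd (nat_lit 44928) (nat_lit 0) (nat_lit 0) (XT.nd (nat_lit 42120) (nat_lit 0) (nat_lit 1140) xc148 xc149) (XT.nd (nat_lit 2808) (nat_lit 152) (nat_lit 0) xc150 xc151))) (XT.nd (nat_lit 50700) (nat_lit 0) (nat_lit 0) (XT.nd (nat_lit 5616) (nat_lit 0) (nat_lit 0) (XT.nd (nat_lit 2808) (nat_lit 684) (nat_lit 0) xc152 xc153) (XT.nd (nat_lit 42276) (nat_lit 0) (nat_lit 228) xc154 xc155)) (XT.nd (nat_lit 45162) (nat_lit 0) (nat_lit 0) (XT.nd (nat_lit 42354) (nat_lit 0) (nat_lit 1140)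 xc156 xc157) (XT.nd (nat_lit 2808) (nat_lit 152) (nat_lit 0) xc158 xc159))))) (XT.nd (nat_lit 284934) (nat_lit 0) (nat_lit 0) (XT.nd (nat_lit 142038) (nat_lit 0) (nat_lit 0) (XT.nd (nat_lit 51012) (nat_lit 0) (nat_lit 0) (XT.nd (nat_lit 5616) (nat_lit 0) (nat_lit 0) (XT.nd (nat_lit 2808) (nat_lit 456) (nat_lit 0) xc160 xc161) (XT.nd (nat_lit 42588) (nat_lit 0) (nat_lit 152) xc162 xc163)) (XT.nd (nat_lit 45474) (nat_lit 0) (nat_lit 0) (XT.nd (nat_lit 42666) (nat_lit 0) (nat_lit 608) xc164 xc165) (XT.nd (nat_lit 2808) (nat_lit 0) (nat_lit 0) xc166 xc167))) (XT.nd (nat_lit 91338) (nat_lit 0) (nat_lit 0) (XT.nd (nat_lit 45630) (nat_lit 0) (nat_lit 0) (XT.nd (nat_lit 2808) (nat_lit 152) (nat_lit 0) xc168 xc169) (XT.nd (nat_lit 2808) (nat_lit 608) (nat_lit 0) xc170 xc171)) (XT.nd (nat_lit 5616) (nat_lit 152) (nat_lit 0) (XT.nd (nat_lit 2808) (nat_lit 1140) (nat_lit 0) xc172 xc173) (XT.nd (nat_lit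 43056) (nat_lit 0) (nat_lit 380) xc174 xc175)))) (XT.nd (nat_lit 184236) (nat_lit 0) (nat_lit 0) (XT.nd (nat_lit 91962) (nat_lit 0) (nat_lit 0) (XT.nd (nat_lit 45942) (nat_lit 0) (nat_lit 0) (XT.nd (nat_lit 43134) (nat_lit 0) (nat_lit 836) xc176 xc177) (XT.nd (nat_lit 2808) (nat_lit 0) (nat_lit 0) xc178 xc179)) (XT.nd (nat_lit 46098) (nat_lit 0) (nat_lit 0) (XT.nd (nat_lit 2808) (nat_lit 152) (nat_lit 0) xc180 xc181) (XT.nd (nat_lit 2808) (nat_lit 380) (nat_lit 0) xc182 xc183))) (XT.nd (nat_lit 51870) (nat_lit 0) (nat_lit 0) (XT.nd (nat_lit 46254) (nat_lit 0) (nat_lit 152) (XT.nd (nat_lit 2808) (nat_lit 684) (nat_lit 0) xc184 xc185) (XT.nd (nat_lit 2808) (nat_lit 912) (nat_lit 0) xc186 xc187)) (XT.nd (nat_lit 46410) (nat_lit 0) (nat_lit 76) (XT.nd (nat_lit 43602) (nat_lit 0) (nat_lit 152) xc188 xc189) (XT.nd (nat_lit 43680) (nat_lit 0) (nat_lit 152) xc190 xc191)))))) (XT.nd (nat_lit 840918)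 (nat_lit 0) (nat_lit 304) (XT.nd (nat_lit 375102) (nat_lit 0) (nat_lit 76) (XT.nd (nat_lit 186732) (nat_lit 0) (nat_lit 0) (XT.nd (nat_lit 93210) (nat_lit 0) (nat_lit 0) (XT.nd (nat_lit 46566) (nat_lit 0) (nat_lit 0) (XT.nd (nat_lit 43758) (nat_lit 0) (nat_lit 228) xc192 xc193) (XT.nd (nat_lit 43836) (nat_lit 0) (nat_lit 304) xc194 xc195)) (XT.nd (nat_lit 46722) (nat_lit 0) (nat_lit 0) (XT.nd (nat_lit 43914) (nat_lit 0) (nat_lit 456) xc196 xc197) (XT.nd (nat_lit 43992) (nat_lit 0) (nat_lit 532) xc198 xc199))) (XT.nd (nat_lit 93990) (nat_lit 0) (nat_lit 0) (XT.nd (nat_lit 46956) (nat_lit 0) (nat_lit 0) (XT.nd (nat_lit 44148) (nat_lit 0) (nat_lit 532) xc200 xc201) (XT.nd (nat_lit 44226) (nat_lit 0) (nat_lit 456) xc202 xc203)) (XT.nd (nat_lit 47112) (nat_lit 0) (nat_lit 0) (XT.nd (nat_lit 44304) (nat_lit 0) (nat_lit 380) xc204 xc205) (XT.nd (nat_lit 44382) (nat_lit 0) (nat_lit 304) xc206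 xc207)))) (XT.nd (nat_lit 231738) (nat_lit 0) (nat_lit 0) (XT.nd (nat_lit 136500) (nat_lit 0) (nat_lit 0) (XT.nd (nat_lit 47268) (nat_lit 0) (nat_lit 0) (XT.nd (nat_lit 44460) (nat_lit 0) (nat_lit 152) xc208 xc209) (XT.nd (nat_lit 44538) (nat_lit 0) (nat_lit 0) xc210 xc211)) (XT.nd (nat_lit 47580) (nat_lit 0) (nat_lit 0) (XT.nd (nat_lit 2808) (nat_lit 988) (nat_lit 0) xc212 xc213) (XT.nd (nat_lit 2808) (nat_lit 608) (nat_lit 0) xc214 xc215))) (XT.nd (nat_lit 95550) (nat_lit 0) (nat_lit 152) (XT.nd (nat_lit 47736) (nat_lit 0) (nat_lit 152) (XT.nd (nat_lit 2808) (nat_lit 228) (nat_lit 0) xc216 xc217) (XT.nd (nat_lit 45006) (nat_lit 0) (nat_lit 760) xc218 xc219)) (XT.nd (nat_lit 47892) (nat_lit 0) (nat_lit 0) (XT.nd (nat_lit 45084) (nat_lit 0) (nat_lit 228) xc220 xc221) (XT.nd (nat_lit 45240) (nat_lit 0) (nat_lit 76) xc222 xc223))))) (XT.nd (nat_lit 518778) (nat_lit 0) (nat_lit 532) (XT.nd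 (nat_lit 236340) (nat_lit 0) (nat_lit 228) (XT.nd (nat_lit 96486) (nat_lit 0) (nat_lit 0) (XT.nd (nat_lit 48204) (nat_lit 0) (nat_lit 0) (XT.nd (nat_lit 2808) (nat_lit 380) (nat_lit 0) xc224 xc225) (XT.nd (nat_lit 45474) (nat_lit 0) (nat_lit 532) xc226 xc227)) (XT.nd (nat_lit 91260) (nat_lit 0) (nat_lit 152) (XT.nd (nat_lit 45552) (nat_lit 0) (nat_lit 152) xc228 xc229) (XT.nd (nat_lit 2808) (nat_lit 304) (nat_lit 0) xc230 xc231))) (XT.nd (nat_lit 140712) (nat_lit 0) (nat_lit 152) (XT.nd (nat_lit 91806) (nat_lit 0) (nat_lit 76) (XT.nd (nat_lit 45864) (nat_lit 0) (nat_lit 0) xc232 xc233) (XT.nd (nat_lit 2808) (nat_lit 380) (nat_lit 0) xc234 xc235)) (XT.nd (nat_lit 92430) (nat_lit 0) (nat_lit 76) (XT.nd (nat_lit 46176) (nat_lit 0) (nat_lit 0) xc236 xc237) (XT.nd (nat_lit 46410) (nat_lit 0) (nat_lit 228) xc238 xc239)))) (XT.nd (nat_lit 375024) (nat_lit 0) (nat_lit 684) (XT.nd (nat_lit 186576)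 (nat_lit 0) (nat_lit 304) (XT.nd (nat_lit 93054) (nat_lit 0) (nat_lit 152) (XT.nd (nat_lit 46488) (nat_lit 0) (nat_lit 0) xc240 xc241) (XT.nd (nat_lit 46722) (nat_lit 0) (nat_lit 0) xc242 xc243)) (XT.nd (nat_lit 93990) (nat_lit 0) (nat_lit 152) (XT.nd (nat_lit 46956) (nat_lit 0) (nat_lit 76) xc244 xc245) (XT.nd (nat_lit 47190) (nat_lit 0) (nat_lit 0) xc246 xc247))) (XT.nd (nat_lit 280332) (nat_lit 0) (nat_lit 684) (XT.nd (nat_lit 139620) (nat_lit 0) (nat_lit 304) (XT.nd (nat_lit 92040) (nat_lit 0) (nat_lit 76) xc248 xc249) (XT.nd (nat_lit 47736) (nat_lit 0) (nat_lit 76) xc250 xc251)) (XT.nd (nat_lit 187434) (nat_lit 0) (nat_lit 608) (XT.nd (nat_lit 93444) (nat_lit 0) (nat_lit 228) xc252 xc253) (XT.nd (nat_lit 140400) (nat_lit 0) (nat_lit 684) xc254 xc255)))))))) XT.nil))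

set_option maxRecDepth 10000000 in
noncomputable def Te : XT := XT.nil

set_option maxRecDepth 10000000 in
noncomputable def Tz : ZL := (ZL.cons (nat_lit 76) (nat_lit 6) (nat_lit 265812034381841609378) (ZL.cons (nat_lit 152) (nat_lit 6) (nat_lit 256682282718636902094) (ZL.cons (nat_lit 228) (nat_lit 3) (nat_lit 127966637731746346119) (ZL.cons (nat_lit 304) (nat_lit 6) (nat_lit 246822150922375818230) (ZL.cons (nat_lit 380) (nat_lit 6) (nat_lit 238424668909358442916) (ZL.cons (nat_lit 456) (nat_lit 3) (nat_lit 118865571836556902079) (ZL.cons (nat_lit 532) (nat_lit 6) (nat_lit 229355388335299677578) (ZL.cons (nat_lit 608) (nat_lit 6) (nat_lit 221645250803227873292) (ZL.cons (nat_lit 684) (nat_lit 3) (nat_lit 110501548903352529814) (ZL.cons (nat_lit 760) (nat_lit 6) (nat_lit 213318302268590324664) (ZL.cons (nat_lit 836) (nat_lit 6) (nat_lit 206255462191840718698) (ZL.cons (nat_lit 912) (nat_lit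 3) (nat_lit 102830438041974612283) (ZL.cons (nat_lit 988) (nat_lit 6) (nat_lit 198627594908951144256) (ZL.cons (nat_lit 1064) (nat_lit 6) (nat_lit 192176780040336835856) (ZL.cons (nat_lit 1140) (nat_lit 3) (nat_lit 95813118673922355828) (ZL.cons (nat_lit 1216) (nat_lit 6) (nat_lit 185209899982233382782) (ZL.cons (nat_lit 1292) (nat_lit 6) (nat_lit 179340560072172794198) (ZL.cons (nat_lit 1368) (nat_lit 3) (nat_lit 89415399159932635897) (ZL.cons (nat_lit 1444) (nat_lit 6) (nat_lit 173001672969307358530) (ZL.cons (nat_lit 1520) (nat_lit 6) (nat_lit 167687980965519299798) (ZL.cons (nat_lit 1596) (nat_lit 3) (nat_lit 83607989671506167304) (ZL.cons (nat_lit 1672) (nat_lit 6) (nat_lit 162858233763293462662) (ZL.cons (nat_lit 1748) (nat_lit 6) (nat_lit 161949193601428196370) (ZL.cons (nat_lit 1824) (nat_lit 6) (nat_lit 157170105162382593364) (ZL.cons (nat_lit 1900) (nat_lit 3) (nat_lit 78366533311512146131)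 (ZL.cons (nat_lit 1976) (nat_lit 6) (nat_lit 152850393501792292390) (ZL.cons (nat_lit 2052) (nat_lit 6) (nat_lit 152008689648213342118) (ZL.cons (nat_lit 2128) (nat_lit 6) (nat_lit 147748066368996466234) (ZL.cons (nat_lit 2204) (nat_lit 3) (nat_lit 73671700527387908532) (ZL.cons (nat_lit 2280) (nat_lit 6) (nat_lit 143925948647422749786) (ZL.cons (nat_lit 2356) (nat_lit 6) (nat_lit 143146593227442240276) (ZL.cons (nat_lit 2432) (nat_lit 6) (nat_lit 140519686896993978162) (ZL.cons (nat_lit 2508) (nat_lit 6) (nat_lit 139393396193902486856) (ZL.cons (nat_lit 2584) (nat_lit 3) (nat_lit 69509353044071313258) (ZL.cons (nat_lit 2660) (nat_lit 6) (nat_lit 136061568786550395298) (ZL.cons (nat_lit 2736) (nat_lit 6) (nat_lit 135339943397679553162) (ZL.cons (nat_lit 2812) (nat_lit 6) (nat_lit 133131366842972027286) (ZL.cons (nat_lit 2888) (nat_lit 6) (nat_lit 132088505080850276076) (ZL.cons (nat_lit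 2964) (nat_lit 3) (nat_lit 65870784898869647140) (ZL.cons (nat_lit 3040) (nat_lit 6) (nat_lit 130585426203501733230) (ZL.cons (nat_lit 3116) (nat_lit 6) (nat_lit 129245123355036547696) (ZL.cons (nat_lit 3192) (nat_lit 6) (nat_lit 128576951698674656826) (ZL.cons (nat_lit 3268) (nat_lit 6) (nat_lit 126792948550752064442) (ZL.cons (nat_lit 3344) (nat_lit 6) (nat_lit 125827335808046739248) (ZL.cons (nat_lit 3420) (nat_lit 3) (nat_lit 62753049717397915087) (ZL.cons (nat_lit 3496) (nat_lit 6) (nat_lit 124717449261749214560) (ZL.cons (nat_lit 3572) (nat_lit 6) (nat_lit 123476428105762931658) (ZL.cons (nat_lit 3648) (nat_lit 6) (nat_lit 122857750646168588260) (ZL.cons (nat_lit 3724) (nat_lit 6) (nat_lit 123006326232982055240) (ZL.cons (nat_lit 3800) (nat_lit 6) (nat_lit 121510297286920811494) (ZL.cons (nat_lit 3876) (nat_lit 6) (nat_lit 120616211414045510388) (ZL.cons (nat_lit 3952) (nat_lit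 3) (nat_lit 60159385163851038032) (ZL.cons (nat_lit 4028) (nat_lit 6) (nat_lit 120638748180787984178) (ZL.cons (nat_lit 4104) (nat_lit 6) (nat_lit 121649439476131966276) (ZL.cons (nat_lit 4180) (nat_lit 6) (nat_lit 119917292205927240270) (ZL.cons (nat_lit 4256) (nat_lit 6) (nat_lit 118768198542976978320) (ZL.cons (nat_lit 4332) (nat_lit 6) (nat_lit 118195349043352586288) (ZL.cons (nat_lit 4408) (nat_lit 3) (nat_lit 58559904887605864442) (ZL.cons (nat_lit 4484) (nat_lit 6) (nat_lit 117293363792249457920) (ZL.cons (nat_lit 4560) (nat_lit 6) (nat_lit 117815054311611757506) (ZL.cons (nat_lit 4636) (nat_lit 6) (nat_lit 118687972832672626450) (ZL.cons (nat_lit 4712) (nat_lit 6) (nat_lit 117302760845578882240) (ZL.cons (nat_lit 4788) (nat_lit 6) (nat_lit 116474903555879529364) (ZL.cons (nat_lit 4864) (nat_lit 3) (nat_lit 58099747571299285828) (ZL.cons (nat_lit 4940) (nat_lit 6) (nat_lit 115126097966333798438)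 (ZL.cons (nat_lit 5016) (nat_lit 6) (nat_lit 115487090321772274838) (ZL.cons (nat_lit 5092) (nat_lit 6) (nat_lit 116211214246607381574) (ZL.cons (nat_lit 5168) (nat_lit 6) (nat_lit 115147238632764546438) (ZL.cons (nat_lit 5244) (nat_lit 6) (nat_lit 114616822429408627886) (ZL.cons (nat_lit 5320) (nat_lit 3) (nat_lit 56726811265353388533) (ZL.cons (nat_lit 5396) (nat_lit 6) (nat_lit 113641060869107524430) (ZL.cons (nat_lit 5472) (nat_lit 6) (nat_lit 114204486630018807980) (ZL.cons (nat_lit 5548) (nat_lit 6) (nat_lit 113437952102519407168) (ZL.cons (nat_lit 5624) (nat_lit 3) (nat_lit 56591472156222223162) (ZL.cons (nat_lit 5700) (nat_lit 6) (nat_lit 112266026519823937382) (ZL.cons (nat_lit 5776) (nat_lit 6) (nat_lit 112655898263697491896) (ZL.cons (nat_lit 5852) (nat_lit 6) (nat_lit 112164772149479048792) (ZL.cons (nat_lit 5928) (nat_lit 3) (nat_lit 55676919461111027703) (ZL.cons (nat_lit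 6004) (nat_lit 6) (nat_lit 111556272327694862556) (ZL.cons (nat_lit 6080) (nat_lit 3) (nat_lit 55660077001775690148) (ZL.cons (nat_lit 6156) (nat_lit 6) (nat_lit 110899092520167941424) (ZL.cons (nat_lit 6232) (nat_lit 1) (nat_lit 18446744073709551617) ZL.nil))))))))))))))))))))))))))))))))))))))))))))))))))))))))))))))))))))))))))))))))))

noncomputable def vl : XL := ⟨(nat_lit 0), (nat_lit 76), (nat_lit 215059642), (nat_lit 228), (nat_lit 17627100), (nat_lit 76), (nat_lit 215059642), (nat_lit 1), (nat_lit 5), (nat_lit 3), (nat_lit 4), (nat_lit 1), (nat_lit 4), (nat_lit 0), (nat_lit 0), (nat_lit 0)⟩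

noncomputable def cp0 : Nat := (nat_lit 470909229819215249757224602607605379389078740040482479512500766968439437615901947113753066444854795428417171893841499485763342968975829047404861199653582926785258611427251355948734895050256374388113244574213066058089034517527612716170707035047815183921001559899743430754201356420928890001007249307053816652206618655190144816319597402481973810654352840654779606055847811989228565868129560306539923353775227620315711873696520822406410930046567701512473097705022876168087434989229705552385461255207370465715027282758758951047467610544603694739891204390066235496003990275521804020631351915690697752369187789211938062548415300405645116086144081825057343157941948098419548859806170169171621118189947918533604936091867983498565739088367882981635278609605451646204493833011666607946642160469964662881824416779973208961464557666324171894277201050323871665496739988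05882088752544560639161564271603673360465406174773952812502835846901773109684731854066143451226920516301864003755881522964793640083603618024385496634643941961067532748269285466007259222237852330042517040445379321652655863935630688817116938065941449405981641063578903840207400466821480499491852603381000080173571376828537702815977442810661826491450205929090689615403971411655755135841015547776306681711998577770086419654650942030191222124574404847443295378991139741594564569183830945418087407588348594977187215814943020429536732027769880759964280235969056588903531217963570736283517380235135704488674339432236197755575610015688429059940513493369775558226485324661388414848109443094024107836212910718424760999435620252796893144822666156936704324601820248749047762658698371943476148424820966228634523899086487741982134032833282125558477800348019444509285083681734300228979908621717509768239876777874607688080216551202954923226848218645136017728542675733314352677263509751013882251120828770625207166335133117718408058708618125671943905459830784)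

noncomputable def cp1 : Nat := (nat_lit 515955696117984869838039706986013787081890537951409257904404851179962762083132362216924198557457158413617141208249582455239907354347624732366306453085500423868913636932135392992585741219963515969572223601559544844313339991605385177348210279593318354540777075309598567135097892352615061320869731328288578838157897141589156972767774045258692878679429452290352484331912560215520129749933701533532333640585849579022045340878294007581295182101263914470928868308164263251623706222696559442498194283133038455507458276269951773599356042852727805700221939259356951836944789051685584936871884026599382587611922294764934380972719690379641258886905646953987268671600437441055138278484624263889532899449683848374998866788921373628994777305839578050298487230882854992545158976658213616999973482914043460657073185624786719934665830918940595658574709289592971753956026228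09649228103980545308113358066732540022153752192522479416588475650080317946625399060796835867820914147973443208112806151641965034397943849187265146829292912410843793669232663200294162850053368696420365597244109838468497680932155075922567507530571189039703052363626272415425434356857116212209041596996877977751079507728336087327734243620837562883351331892192939096511935701422903060070339119770981780859172280013867920136785949278896378281795490639502552551012999613432396310971242715744986310495157475972700665895311048141094107994326474308197687741986291019130200944678266659680128501269294591031646522144216918785688109228150569118197749834931702751693517936956057272158626404844799657854749876415518585329967392540401896443730039182927576162311520022144690076598576871330162194647318003149695186722024013119344468424049025645001736681270556624848398747162509496114630794865605485339181525401841972425348535267662346941079078737705252083407186348770092118089635596319777103042759440552234320170699622506122109829443671595877623847458963456)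

noncomputable def rc0 : Nat := (nat_lit 493422295298964581278678221762461326799015201297540718880785494756781473639435781640757041654162637374615233404041885012784077141174855709233955024422455851203935184092752626594777099985966419497526525755316623699031752705894528154849855026665424854025046925889375728122713284381684297286067490236843175906127592188129851110359651910115181987523248363535888804180448827563806880260107020032895088533857014647281458258684962634327695926527584799066398381153036919623405824929257063593481552985846872055214270716066373171018239790028564573095745855174312712227810056147056767228167518668124665284867241374536675881914206235718014027967616704393287304280742957637718754363066872401436028948948729105340808669114664356971885869200677082049576094426327067942778212907055630172369045264191788643225290943843638024190000915782169569794895055689448878282560724584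55638234310438834653497191153926654340680751221190758755015998582258715778508409431075090115373953005003638279462846829464622082015120422864285561110436016223915597149308739289528421506744888261130491607191272546451885956981596132872688283674318009077588722269007327216795751353490956913147855954620991786633302498980386687445562437524319765743516033829205547383135450969116427121136292867048699804985500979291401453580542980970703130310386461230735957687810043702073435402886898796665261381788018112111534245429729145909952542218340297847189270269376364120537117136352651024558921496592828256579947370307336191477364231603057142616669489208289283610005923488632892836548799464768737526577510086588168588217164864307256822795771513356551927534448313930091888852718031878785642214120526662393589349438168507689771349048301071725294263399023735514637369022362834307815362094200386744931896489509934844950519695986678306688063125111219872645309543903157076449737570763837925837681128662609509803458968166961974447857539314085283743604081164288)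

noncomputable def rc1 : Nat := (nat_lit 515955696117984869838039706986013787081890537951409257904404851179962762083132362216924198557457158413617141208249582455239907354347624732366306453085500423868913636932135392992585741219963515969572223601559544844313339991605385177348210279593318354540777075309598567135097892352615061320869731328288578838157897141589156972767774045258692878679429452290352484331912560215520129749933701533532333640585849579022045340878294007581295182101263914470928868308164263251623706222696559442498194283133038455507458276269951773599356042852727805700221939259356951836944789051685584936871884026599382587611922294764934380972719690379641258886905646953987268671600437441055138278484624263889532899449683848374998866788921373628994777305839578050298487230882854992545158976658213616999973482914043460657073185624786719934665830918940595658574709289592971753956026228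09649228103980545308113358066732540022153752192522479416588475650080317946625399060796835867820914147973443208112806151641965034397943849187265146829292912410843793669232663200294162850053368696420365597244109838468497680932155075922567507530571189039703052363626272415425434356857116212209041596996877977751079507728336087327734243620837562883351331892192939096511935701422903060070339119770981780859172280013867920136785949278896378281795490639502552551012999613432396310971242715744986310495157475972700665895311048141094107994326474308197687741986291019130200944678266659680128501269294591031646522144216918785688109228150569118197749834931702751693517936956057272158626404844799657854749876415518585329967392540401896443730039182927576162311520022144690076598576871330162194647318003149695186722024013119344468424049025645001736681270556624848398747162509496114630794865605485339181525401841972425348535267662346941079078737705252083407186348770092118089635596319777103042759440552234320170699622506122109829443671595877623847458963456)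

end Vale.Agent.Lib.P154.PChain.BH.S2
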