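import Vale.Agent.Lib.P154.PChain.BH.R2_0

set_option linter.all false

namespace Vale.Agent.Lib.P154.PChain.BH.S3

open Vale.Agent.Lib.P154.Chain

noncomputable def pc0 : PT := (PT.nd (nat_lit 5966142) (PT.nd (nat_lit 5731908) (PT.nd (nat_lit 5591430) (PT.nd (nat_lit 5544552) (PT.nd (nat_lit 5497752) (PT.nd (nat_lit 5497674) PT.nil (PT.lf (nat_lit 76) (nat_lit 6) (nat_lit 1) (nat_lit 3) (nat_lit 166) (nat_lit 117) (nat_lit 167))) (PT.nd (nat_lit 46722) (PT.lf (nat_lit 76) (nat_lit 6) (nat_lit 1) (nat_lit 1) (nat_lit 167) (nat_lit 117) (nat_lit 166)) (PT.lf (nat_lit 152) (nat_lit 6) (nat_lit 2) (nat_lit 3) (nat_lit 165) (nat_lit 118) (nat_lit 167)))) (PT.nd (nat_lit 78) (PT.lf (nat_lit 228) (nat_lit 3) (nat_lit 3) (nat_lit 1) (nat_lit 166) (nat_lit 118) (nat_lit 166)) (PT.nd (nat_lit 46722) (PT.lf (nat_lit 152) (nat_lit 6) (nat_lit 2) (nat_lit 1) (nat_lit 167) (nat_lit 118) (nat_lit 165))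 (PT.lf (nat_lit 304) (nat_lit 6) (nat_lit 4) (nat_lit 3) (nat_lit 165) (nat_lit 119) (nat_lit 166))))) (PT.nd (nat_lit 46878) (PT.nd (nat_lit 46722) (PT.lf (nat_lit 304) (nat_lit 6) (nat_lit 4) (nat_lit 1) (nat_lit 166) (nat_lit 119) (nat_lit 165)) (PT.nd (nat_lit 78) (PT.lf (nat_lit 380) (nat_lit 6) (nat_lit 5) (nat_lit 3) (nat_lit 164) (nat_lit 120) (nat_lit 166)) (PT.lf (nat_lit 456) (nat_lit 3) (nat_lit 6) (nat_lit 1) (nat_lit 165) (nat_lit 120) (nat_lit 165)))) (PT.nd (nat_lit 46800) (PT.nd (nat_lit 46722) (PT.lf (nat_lit 380) (nat_lit 6) (nat_lit 5) (nat_lit 1) (nat_lit 166) (nat_lit 120) (nat_lit 164)) (PT.lf (nat_lit 532) (nat_lit 6) (nat_lit 7) (nat_lit 3) (nat_lit 164) (nat_lit 121) (nat_lit 165))) (PT.nd (nat_lit 46722) (PT.lf (nat_lit 532) (nat_lit 6) (nat_lit 7) (nat_lit 1) (nat_lit 165) (nat_lit 121) (nat_lit 164)) (PT.lf (nat_lit 608) (nat_lit 6) (nat_lit 8) (nat_lit 3) (nat_lit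 163) (nat_lit 122) (nat_lit 165)))))) (PT.nd (nat_lit 93756) (PT.nd (nat_lit 46878) (PT.nd (nat_lit 78) (PT.lf (nat_lit 684) (nat_lit 3) (nat_lit 9) (nat_lit 1) (nat_lit 164) (nat_lit 122) (nat_lit 164)) (PT.nd (nat_lit 46722) (PT.lf (nat_lit 608) (nat_lit 6) (nat_lit 8) (nat_lit 1) (nat_lit 165) (nat_lit 122) (nat_lit 163)) (PT.lf (nat_lit 760) (nat_lit 6) (nat_lit 10) (nat_lit 3) (nat_lit 163) (nat_lit 123) (nat_lit 164)))) (PT.nd (nat_lit 46722) (PT.lf (nat_lit 760) (nat_lit 6) (nat_lit 10) (nat_lit 1) (nat_lit 164) (nat_lit 123) (nat_lit 163)) (PT.nd (nat_lit 78) (PT.lf (nat_lit 836) (nat_lit 6) (nat_lit 11) (nat_lit 3) (nat_lit 162) (nat_lit 124) (nat_lit 164)) (PT.lf (nat_lit 912) (nat_lit 3) (nat_lit 12) (nat_lit 1) (nat_lit 163) (nat_lit 124) (nat_lit 163))))) (PT.nd (nat_lit 93522) (PT.nd (nat_lit 46722) (PT.lf (nat_lit 836) (nat_lit 6) (nat_lit 11) (nat_lit 1) (nat_lit 164) (nat_lit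 124) (nat_lit 162)) (PT.nd (nat_lit 78) (PT.lf (nat_lit 988) (nat_lit 6) (nat_lit 13) (nat_lit 3) (nat_lit 162) (nat_lit 125) (nat_lit 163)) (PT.lf (nat_lit 988) (nat_lit 6) (nat_lit 13) (nat_lit 1) (nat_lit 163) (nat_lit 125) (nat_lit 162)))) (PT.nd (nat_lit 156) (PT.nd (nat_lit 78) (PT.lf (nat_lit 1064) (nat_lit 6) (nat_lit 14) (nat_lit 3) (nat_lit 161) (nat_lit 126) (nat_lit 163)) (PT.lf (nat_lit 1140) (nat_lit 3) (nat_lit 15) (nat_lit 1) (nat_lit 162) (nat_lit 126) (nat_lit 162))) (PT.nd (nat_lit 46722) (PT.lf (nat_lit 1064) (nat_lit 6) (nat_lit 14) (nat_lit 1) (nat_lit 163) (nat_lit 126) (nat_lit 161)) (PT.lf (nat_lit 1216) (nat_lit 6) (nat_lit 16) (nat_lit 3) (nat_lit 161) (nat_lit 127) (nat_lit 162))))))) (PT.nd (nat_lit 234078) (PT.nd (nat_lit 140400) (PT.nd (nat_lit 46878) (PT.nd (nat_lit 46722) (PT.lf (nat_lit 1216) (nat_lit 6) (nat_lit 16) (nat_lit 1) (nat_lit 162) (nat_lit 127)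 (nat_lit 161)) (PT.nd (nat_lit 78) (PT.lf (nat_lit 1292) (nat_lit 6) (nat_lit 17) (nat_lit 3) (nat_lit 160) (nat_lit 128) (nat_lit 162)) (PT.lf (nat_lit 1368) (nat_lit 3) (nat_lit 18) (nat_lit 1) (nat_lit 161) (nat_lit 128) (nat_lit 161)))) (PT.nd (nat_lit 46722) (PT.lf (nat_lit 1292) (nat_lit 6) (nat_lit 17) (nat_lit 1) (nat_lit 162) (nat_lit 128) (nat_lit 160)) (PT.nd (nat_lit 78) (PT.lf (nat_lit 1444) (nat_lit 6) (nat_lit 19) (nat_lit 3) (nat_lit 160) (nat_lit 129) (nat_lit 161)) (PT.lf (nat_lit 1444) (nat_lit 6) (nat_lit 19) (nat_lit 1) (nat_lit 161) (nat_lit 129) (nat_lit 160))))) (PT.nd (nat_lit 46800) (PT.nd (nat_lit 78) (PT.lf (nat_lit 1520) (nat_lit 6) (nat_lit 20) (nat_lit 3) (nat_lit 159) (nat_lit 130) (nat_lit 161)) (PT.nd (nat_lit 78) (PT.lf (nat_lit 1596) (nat_lit 3) (nat_lit 21) (nat_lit 1) (nat_lit 160) (nat_lit 130) (nat_lit 160)) (PT.lf (nat_lit 1520) (nat_lit 6) (nat_lit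 20) (nat_lit 1) (nat_lit 161) (nat_lit 130) (nat_lit 159)))) (PT.nd (nat_lit 156) (PT.nd (nat_lit 78) (PT.lf (nat_lit 1672) (nat_lit 6) (nat_lit 22) (nat_lit 3) (nat_lit 158) (nat_lit 131) (nat_lit 161)) (PT.lf (nat_lit 1748) (nat_lit 6) (nat_lit 23) (nat_lit 3) (nat_lit 159) (nat_lit 131) (nat_lit 160))) (PT.nd (nat_lit 78) (PT.lf (nat_lit 1748) (nat_lit 6) (nat_lit 23) (nat_lit 1) (nat_lit 160) (nat_lit 131) (nat_lit 159)) (PT.lf (nat_lit 1672) (nat_lit 6) (nat_lit 22) (nat_lit 1) (nat_lit 161) (nat_lit 131) (nat_lit 158)))))) (PT.nd (nat_lit 93678) (PT.nd (nat_lit 46800) (PT.nd (nat_lit 78) (PT.lf (nat_lit 1824) (nat_lit 6) (nat_lit 24) (nat_lit 3) (nat_lit 158) (nat_lit 132) (nat_lit 160)) (PT.nd (nat_lit 78) (PT.lf (nat_lit 1900) (nat_lit 3) (nat_lit 25) (nat_lit 1) (nat_lit 159) (nat_lit 132) (nat_lit 159)) (PT.lf (nat_lit 1824) (nat_lit 6) (nat_lit 24) (nat_lit 1) (nat_lit 160) (nat_lit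 132) (nat_lit 158)))) (PT.nd (nat_lit 156) (PT.nd (nat_lit 78) (PT.lf (nat_lit 1976) (nat_lit 6) (nat_lit 26) (nat_lit 3) (nat_lit 157) (nat_lit 133) (nat_lit 160)) (PT.lf (nat_lit 2052) (nat_lit 6) (nat_lit 27) (nat_lit 3) (nat_lit 158) (nat_lit 133) (nat_lit 159))) (PT.nd (nat_lit 78) (PT.lf (nat_lit 2052) (nat_lit 6) (nat_lit 27) (nat_lit 1) (nat_lit 159) (nat_lit 133) (nat_lit 158)) (PT.lf (nat_lit 1976) (nat_lit 6) (nat_lit 26) (nat_lit 1) (nat_lit 160) (nat_lit 133) (nat_lit 157))))) (PT.nd (nat_lit 46800) (PT.nd (nat_lit 78) (PT.lf (nat_lit 2128) (nat_lit 6) (nat_lit 28) (nat_lit 3) (nat_lit 157) (nat_lit 134) (nat_lit 159)) (PT.nd (nat_lit 78) (PT.lf (nat_lit 2204) (nat_lit 3) (nat_lit 29) (nat_lit 1) (nat_lit 158) (nat_lit 134) (nat_lit 158)) (PT.lf (nat_lit 2128) (nat_lit 6) (nat_lit 28) (nat_lit 1) (nat_lit 159) (nat_lit 134) (nat_lit 157)))) (PT.nd (nat_lit 156) (PT.nd (nat_lit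 78) (PT.lf (nat_lit 2280) (nat_lit 6) (nat_lit 30) (nat_lit 3) (nat_lit 156) (nat_lit 135) (nat_lit 159)) (PT.lf (nat_lit 2356) (nat_lit 6) (nat_lit 31) (nat_lit 3) (nat_lit 157) (nat_lit 135) (nat_lit 158))) (PT.nd (nat_lit 78) (PT.lf (nat_lit 2356) (nat_lit 6) (nat_lit 31) (nat_lit 1) (nat_lit 158) (nat_lit 135) (nat_lit 157)) (PT.lf (nat_lit 2280) (nat_lit 6) (nat_lit 30) (nat_lit 1) (nat_lit 159) (nat_lit 135) (nat_lit 156))))))))
noncomputable def pc1 : PT := (PT.nd (nat_lit 234312) (PT.nd (nat_lit 93990) (PT.nd (nat_lit 46956) (PT.nd (nat_lit 234) (PT.nd (nat_lit 78) (PT.lf (nat_lit 2432) (nat_lit 6) (nat_lit 32) (nat_lit 3) (nat_lit 155) (nat_lit 136) (nat_lit 159)) (PT.nd (nat_lit 78) (PT.lf (nat_lit 2508) (nat_lit 6) (nat_lit 33) (nat_lit 3) (nat_lit 156) (nat_lit 136) (nat_lit 158)) (PT.lf (nat_lit 2584) (nat_lit 3) (nat_lit 34) (nat_lit 1) (nat_lit 157) (nat_lit 136) (nat_lit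 157)))) (PT.nd (nat_lit 78) (PT.lf (nat_lit 2508) (nat_lit 6) (nat_lit 33) (nat_lit 1) (nat_lit 158) (nat_lit 136) (nat_lit 156)) (PT.nd (nat_lit 46566) (PT.lf (nat_lit 2432) (nat_lit 6) (nat_lit 32) (nat_lit 1) (nat_lit 159) (nat_lit 136) (nat_lit 155)) (PT.lf (nat_lit 2660) (nat_lit 6) (nat_lit 35) (nat_lit 3) (nat_lit 155) (nat_lit 137) (nat_lit 158))))) (PT.nd (nat_lit 46722) (PT.nd (nat_lit 78) (PT.lf (nat_lit 2736) (nat_lit 6) (nat_lit 36) (nat_lit 3) (nat_lit 156) (nat_lit 137) (nat_lit 157)) (PT.nd (nat_lit 78) (PT.lf (nat_lit 2736) (nat_lit 6) (nat_lit 36) (nat_lit 1) (nat_lit 157) (nat_lit 137) (nat_lit 156)) (PT.lf (nat_lit 2660) (nat_lit 6) (nat_lit 35) (nat_lit 1) (nat_lit 158) (nat_lit 137) (nat_lit 155)))) (PT.nd (nat_lit 156) (PT.nd (nat_lit 78) (PT.lf (nat_lit 2812) (nat_lit 6) (nat_lit 37) (nat_lit 3) (nat_lit 154) (nat_lit 138) (nat_lit 158)) (PT.lf (nat_lit 2888) (nat_lit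 6) (nat_lit 38) (nat_lit 3) (nat_lit 155) (nat_lit 138) (nat_lit 157))) (PT.nd (nat_lit 78) (PT.lf (nat_lit 2964) (nat_lit 3) (nat_lit 39) (nat_lit 1) (nat_lit 156) (nat_lit 138) (nat_lit 156)) (PT.lf (nat_lit 2888) (nat_lit 6) (nat_lit 38) (nat_lit 1) (nat_lit 157) (nat_lit 138) (nat_lit 155)))))) (PT.nd (nat_lit 93366) (PT.nd (nat_lit 46644) (PT.nd (nat_lit 46488) (PT.lf (nat_lit 2812) (nat_lit 6) (nat_lit 37) (nat_lit 1) (nat_lit 158) (nat_lit 138) (nat_lit 154)) (PT.nd (nat_lit 78) (PT.lf (nat_lit 3040) (nat_lit 6) (nat_lit 40) (nat_lit 3) (nat_lit 153) (nat_lit 139) (nat_lit 158)) (PT.lf (nat_lit 3116) (nat_lit 6) (nat_lit 41) (nat_lit 3) (nat_lit 154) (nat_lit 139) (nat_lit 157)))) (PT.nd (nat_lit 156) (PT.nd (nat_lit 78) (PT.lf (nat_lit 3192) (nat_lit 6) (nat_lit 42) (nat_lit 3) (nat_lit 155) (nat_lit 139) (nat_lit 156)) (PT.lf (nat_lit 3192) (nat_lit 6) (nat_lit 42) (nat_lit 1) (nat_lit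 156) (nat_lit 139) (nat_lit 155))) (PT.nd (nat_lit 78) (PT.lf (nat_lit 3116) (nat_lit 6) (nat_lit 41) (nat_lit 1) (nat_lit 157) (nat_lit 139) (nat_lit 154)) (PT.lf (nat_lit 3040) (nat_lit 6) (nat_lit 40) (nat_lit 1) (nat_lit 158) (nat_lit 139) (nat_lit 153))))) (PT.nd (nat_lit 234) (PT.nd (nat_lit 78) (PT.lf (nat_lit 3268) (nat_lit 6) (nat_lit 43) (nat_lit 3) (nat_lit 153) (nat_lit 140) (nat_lit 157)) (PT.nd (nat_lit 78) (PT.lf (nat_lit 3344) (nat_lit 6) (nat_lit 44) (nat_lit 3) (nat_lit 154) (nat_lit 140) (nat_lit 156)) (PT.lf (nat_lit 3420) (nat_lit 3) (nat_lit 45) (nat_lit 1) (nat_lit 155) (nat_lit 140) (nat_lit 155)))) (PT.nd (nat_lit 46566) (PT.nd (nat_lit 78) (PT.lf (nat_lit 3344) (nat_lit 6) (nat_lit 44) (nat_lit 1) (nat_lit 156) (nat_lit 140) (nat_lit 154)) (PT.lf (nat_lit 3268) (nat_lit 6) (nat_lit 43) (nat_lit 1) (nat_lit 157) (nat_lit 140) (nat_lit 153))) (PT.nd (nat_lit 78) (PT.lf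 (nat_lit 3496) (nat_lit 6) (nat_lit 46) (nat_lit 3) (nat_lit 152) (nat_lit 141) (nat_lit 157)) (PT.lf (nat_lit 3572) (nat_lit 6) (nat_lit 47) (nat_lit 3) (nat_lit 153) (nat_lit 141) (nat_lit 156))))))) (PT.nd (nat_lit 93600) (PT.nd (nat_lit 46800) (PT.nd (nat_lit 234) (PT.nd (nat_lit 78) (PT.lf (nat_lit 3648) (nat_lit 6) (nat_lit 48) (nat_lit 3) (nat_lit 154) (nat_lit 141) (nat_lit 155)) (PT.nd (nat_lit 78) (PT.lf (nat_lit 3648) (nat_lit 6) (nat_lit 48) (nat_lit 1) (nat_lit 155) (nat_lit 141) (nat_lit 154)) (PT.lf (nat_lit 3572) (nat_lit 6) (nat_lit 47) (nat_lit 1) (nat_lit 156) (nat_lit 141) (nat_lit 153)))) (PT.nd (nat_lit 46410) (PT.lf (nat_lit 3496) (nat_lit 6) (nat_lit 46) (nat_lit 1) (nat_lit 157) (nat_lit 141) (nat_lit 152)) (PT.nd (nat_lit 78) (PT.lf (nat_lit 3724) (nat_lit 6) (nat_lit 49) (nat_lit 3) (nat_lit 151) (nat_lit 142) (nat_lit 157)) (PT.lf (nat_lit 3800) (nat_lit 6) (nat_lit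 50) (nat_lit 3) (nat_lit 152) (nat_lit 142) (nat_lit 156))))) (PT.nd (nat_lit 234) (PT.nd (nat_lit 78) (PT.lf (nat_lit 3876) (nat_lit 6) (nat_lit 51) (nat_lit 3) (nat_lit 153) (nat_lit 142) (nat_lit 155)) (PT.nd (nat_lit 78) (PT.lf (nat_lit 3952) (nat_lit 3) (nat_lit 52) (nat_lit 1) (nat_lit 154) (nat_lit 142) (nat_lit 154)) (PT.lf (nat_lit 3876) (nat_lit 6) (nat_lit 51) (nat_lit 1) (nat_lit 155) (nat_lit 142) (nat_lit 153)))) (PT.nd (nat_lit 46410) (PT.nd (nat_lit 78) (PT.lf (nat_lit 3800) (nat_lit 6) (nat_lit 50) (nat_lit 1) (nat_lit 156) (nat_lit 142) (nat_lit 152)) (PT.lf (nat_lit 3724) (nat_lit 6) (nat_lit 49) (nat_lit 1) (nat_lit 157) (nat_lit 142) (nat_lit 151))) (PT.nd (nat_lit 78) (PT.lf (nat_lit 4104) (nat_lit 6) (nat_lit 54) (nat_lit 3) (nat_lit 150) (nat_lit 143) (nat_lit 157)) (PT.lf (nat_lit 4180) (nat_lit 6) (nat_lit 55) (nat_lit 3) (nat_lit 151) (nat_lit 143) (nat_lit 156))))))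 (PT.nd (nat_lit 46722) (PT.nd (nat_lit 234) (PT.nd (nat_lit 78) (PT.lf (nat_lit 4256) (nat_lit 6) (nat_lit 56) (nat_lit 3) (nat_lit 152) (nat_lit 143) (nat_lit 155)) (PT.nd (nat_lit 78) (PT.lf (nat_lit 4332) (nat_lit 6) (nat_lit 57) (nat_lit 3) (nat_lit 153) (nat_lit 143) (nat_lit 154)) (PT.lf (nat_lit 4332) (nat_lit 6) (nat_lit 57) (nat_lit 1) (nat_lit 154) (nat_lit 143) (nat_lit 153)))) (PT.nd (nat_lit 156) (PT.nd (nat_lit 78) (PT.lf (nat_lit 4256) (nat_lit 6) (nat_lit 56) (nat_lit 1) (nat_lit 155) (nat_lit 143) (nat_lit 152)) (PT.lf (nat_lit 4180) (nat_lit 6) (nat_lit 55) (nat_lit 1) (nat_lit 156) (nat_lit 143) (nat_lit 151))) (PT.nd (nat_lit 46254) (PT.lf (nat_lit 4104) (nat_lit 6) (nat_lit 54) (nat_lit 1) (nat_lit 157) (nat_lit 143) (nat_lit 150)) (PT.lf (nat_lit 4028) (nat_lit 6) (nat_lit 53) (nat_lit 3) (nat_lit 149) (nat_lit 144) (nat_lit 157))))) (PT.nd (nat_lit 234) (PT.nd (nat_lit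 78) (PT.lf (nat_lit 4636) (nat_lit 6) (nat_lit 61) (nat_lit 3) (nat_lit 150) (nat_lit 144) (nat_lit 156)) (PT.nd (nat_lit 78) (PT.lf (nat_lit 4712) (nat_lit 6) (nat_lit 62) (nat_lit 3) (nat_lit 151) (nat_lit 144) (nat_lit 155)) (PT.lf (nat_lit 4788) (nat_lit 6) (nat_lit 63) (nat_lit 3) (nat_lit 152) (nat_lit 144) (nat_lit 154)))) (PT.nd (nat_lit 156) (PT.nd (nat_lit 78) (PT.lf (nat_lit 4864) (nat_lit 3) (nat_lit 64) (nat_lit 1) (nat_lit 153) (nat_lit 144) (nat_lit 153)) (PT.lf (nat_lit 4788) (nat_lit 6) (nat_lit 63) (nat_lit 1) (nat_lit 154) (nat_lit 144) (nat_lit 152))) (PT.nd (nat_lit 78) (PT.lf (nat_lit 4712) (nat_lit 6) (nat_lit 62) (nat_lit 1) (nat_lit 155) (nat_lit 144) (nat_lit 151)) (PT.lf (nat_lit 4636) (nat_lit 6) (nat_lit 61) (nat_lit 1) (nat_lit 156) (nat_lit 144) (nat_lit 150))))))))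
noncomputable def pc2 : PT := (PT.nd (nat_lit 140556) (PT.nd (nat_lit 93366) (PT.nd (nat_lit 46644) (PT.nd (nat_lit 46410) (PT.nd (nat_lit 46254) (PT.lf (nat_lit 4028) (nat_lit 6) (nat_lit 53) (nat_lit 1) (nat_lit 157) (nat_lit 144) (nat_lit 149)) (PT.nd (nat_lit 78) (PT.lf (nat_lit 4560) (nat_lit 6) (nat_lit 60) (nat_lit 3) (nat_lit 149) (nat_lit 145) (nat_lit 156)) (PT.lf (nat_lit 5092) (nat_lit 6) (nat_lit 67) (nat_lit 3) (nat_lit 150) (nat_lit 145) (nat_lit 155)))) (PT.nd (nat_lit 78) (PT.lf (nat_lit 5168) (nat_lit 6) (nat_lit 68) (nat_lit 3) (nat_lit 151) (nat_lit 145) (nat_lit 154)) (PT.nd (nat_lit 78) (PT.lf (nat_lit 5244) (nat_lit 6) (nat_lit 69) (nat_lit 3) (nat_lit 152) (nat_lit 145) (nat_lit 153)) (PT.lf (nat_lit 5244) (nat_lit 6) (nat_lit 69) (nat_lit 1) (nat_lit 153) (nat_lit 145) (nat_lit 152))))) (PT.nd (nat_lit 46410) (PT.nd (nat_lit 78) (PT.lf (nat_lit 5168) (nat_lit 6)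 (nat_lit 68) (nat_lit 1) (nat_lit 154) (nat_lit 145) (nat_lit 151)) (PT.nd (nat_lit 78) (PT.lf (nat_lit 5092) (nat_lit 6) (nat_lit 67) (nat_lit 1) (nat_lit 155) (nat_lit 145) (nat_lit 150)) (PT.lf (nat_lit 4560) (nat_lit 6) (nat_lit 60) (nat_lit 1) (nat_lit 156) (nat_lit 145) (nat_lit 149)))) (PT.nd (nat_lit 156) (PT.nd (nat_lit 78) (PT.lf (nat_lit 4484) (nat_lit 6) (nat_lit 59) (nat_lit 3) (nat_lit 148) (nat_lit 146) (nat_lit 156)) (PT.lf (nat_lit 5016) (nat_lit 6) (nat_lit 66) (nat_lit 3) (nat_lit 149) (nat_lit 146) (nat_lit 155))) (PT.nd (nat_lit 78) (PT.lf (nat_lit 5472) (nat_lit 6) (nat_lit 72) (nat_lit 3) (nat_lit 150) (nat_lit 146) (nat_lit 154)) (PT.lf (nat_lit 5548) (nat_lit 6) (nat_lit 73) (nat_lit 3) (nat_lit 151) (nat_lit 146) (nat_lit 153)))))) (PT.nd (nat_lit 46644) (PT.nd (nat_lit 234) (PT.nd (nat_lit 78) (PT.lf (nat_lit 5624) (nat_lit 3) (nat_lit 74) (nat_lit 1) (nat_lit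 152) (nat_lit 146) (nat_lit 152)) (PT.nd (nat_lit 78) (PT.lf (nat_lit 5548) (nat_lit 6) (nat_lit 73) (nat_lit 1) (nat_lit 153) (nat_lit 146) (nat_lit 151)) (PT.lf (nat_lit 5472) (nat_lit 6) (nat_lit 72) (nat_lit 1) (nat_lit 154) (nat_lit 146) (nat_lit 150)))) (PT.nd (nat_lit 46254) (PT.nd (nat_lit 78) (PT.lf (nat_lit 5016) (nat_lit 6) (nat_lit 66) (nat_lit 1) (nat_lit 155) (nat_lit 146) (nat_lit 149)) (PT.lf (nat_lit 4484) (nat_lit 6) (nat_lit 59) (nat_lit 1) (nat_lit 156) (nat_lit 146) (nat_lit 148))) (PT.nd (nat_lit 78) (PT.lf (nat_lit 4408) (nat_lit 3) (nat_lit 58) (nat_lit 3) (nat_lit 147) (nat_lit 147) (nat_lit 156)) (PT.lf (nat_lit 4940) (nat_lit 6) (nat_lit 65) (nat_lit 3) (nat_lit 148) (nat_lit 147) (nat_lit 155))))) (PT.nd (nat_lit 234) (PT.nd (nat_lit 78) (PT.lf (nat_lit 5396) (nat_lit 6) (nat_lit 71) (nat_lit 3) (nat_lit 149) (nat_lit 147) (nat_lit 154)) (PT.nd (nat_lit 78) (PT.lf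 (nat_lit 5776) (nat_lit 6) (nat_lit 76) (nat_lit 3) (nat_lit 150) (nat_lit 147) (nat_lit 153)) (PT.lf (nat_lit 5852) (nat_lit 6) (nat_lit 77) (nat_lit 3) (nat_lit 151) (nat_lit 147) (nat_lit 152)))) (PT.nd (nat_lit 156) (PT.nd (nat_lit 78) (PT.lf (nat_lit 5852) (nat_lit 6) (nat_lit 77) (nat_lit 1) (nat_lit 152) (nat_lit 147) (nat_lit 151)) (PT.lf (nat_lit 5776) (nat_lit 6) (nat_lit 76) (nat_lit 1) (nat_lit 153) (nat_lit 147) (nat_lit 150))) (PT.nd (nat_lit 78) (PT.lf (nat_lit 5396) (nat_lit 6) (nat_lit 71) (nat_lit 1) (nat_lit 154) (nat_lit 147) (nat_lit 149)) (PT.lf (nat_lit 4940) (nat_lit 6) (nat_lit 65) (nat_lit 1) (nat_lit 155) (nat_lit 147) (nat_lit 148))))))) (PT.nd (nat_lit 92898) (PT.nd (nat_lit 46488) (PT.nd (nat_lit 46254) (PT.nd (nat_lit 46098) (PT.lf (nat_lit 4408) (nat_lit 3) (nat_lit 58) (nat_lit 0) (nat_lit 156) (nat_lit 147) (nat_lit 147)) (PT.nd (nat_lit 78) (PT.lf (nat_lit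 4484) (nat_lit 6) (nat_lit 59) (nat_lit 5) (nat_lit 146) (nat_lit 148) (nat_lit 156)) (PT.lf (nat_lit 4940) (nat_lit 6) (nat_lit 65) (nat_lit 5) (nat_lit 147) (nat_lit 148) (nat_lit 155)))) (PT.nd (nat_lit 78) (PT.lf (nat_lit 5320) (nat_lit 3) (nat_lit 70) (nat_lit 3) (nat_lit 148) (nat_lit 148) (nat_lit 154)) (PT.nd (nat_lit 78) (PT.lf (nat_lit 5700) (nat_lit 6) (nat_lit 75) (nat_lit 3) (nat_lit 149) (nat_lit 148) (nat_lit 153)) (PT.lf (nat_lit 6004) (nat_lit 6) (nat_lit 79) (nat_lit 3) (nat_lit 150) (nat_lit 148) (nat_lit 152))))) (PT.nd (nat_lit 234) (PT.nd (nat_lit 78) (PT.lf (nat_lit 6080) (nat_lit 3) (nat_lit 80) (nat_lit 1) (nat_lit 151) (nat_lit 148) (nat_lit 151)) (PT.nd (nat_lit 78) (PT.lf (nat_lit 6004) (nat_lit 6) (nat_lit 79) (nat_lit 1) (nat_lit 152) (nat_lit 148) (nat_lit 150)) (PT.lf (nat_lit 5700) (nat_lit 6) (nat_lit 75) (nat_lit 1) (nat_lit 153) (nat_lit 148) (nat_lit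 149)))) (PT.nd (nat_lit 156) (PT.nd (nat_lit 78) (PT.lf (nat_lit 5320) (nat_lit 3) (nat_lit 70) (nat_lit 0) (nat_lit 154) (nat_lit 148) (nat_lit 148)) (PT.lf (nat_lit 4940) (nat_lit 6) (nat_lit 65) (nat_lit 0) (nat_lit 155) (nat_lit 148) (nat_lit 147))) (PT.nd (nat_lit 45942) (PT.lf (nat_lit 4484) (nat_lit 6) (nat_lit 59) (nat_lit 0) (nat_lit 156) (nat_lit 148) (nat_lit 146)) (PT.lf (nat_lit 4028) (nat_lit 6) (nat_lit 53) (nat_lit 5) (nat_lit 144) (nat_lit 149) (nat_lit 157)))))) (PT.nd (nat_lit 546) (PT.nd (nat_lit 234) (PT.nd (nat_lit 78) (PT.lf (nat_lit 4560) (nat_lit 6) (nat_lit 60) (nat_lit 5) (nat_lit 145) (nat_lit 149) (nat_lit 156)) (PT.nd (nat_lit 78) (PT.lf (nat_lit 5016) (nat_lit 6) (nat_lit 66) (nat_lit 5) (nat_lit 146) (nat_lit 149) (nat_lit 155)) (PT.lf (nat_lit 5396) (nat_lit 6) (nat_lit 71) (nat_lit 5) (nat_lit 147) (nat_lit 149) (nat_lit 154)))) (PT.nd (nat_lit 156) (PT.nd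 (nat_lit 78) (PT.lf (nat_lit 5700) (nat_lit 6) (nat_lit 75) (nat_lit 5) (nat_lit 148) (nat_lit 149) (nat_lit 153)) (PT.lf (nat_lit 5928) (nat_lit 3) (nat_lit 78) (nat_lit 3) (nat_lit 149) (nat_lit 149) (nat_lit 152))) (PT.nd (nat_lit 78) (PT.lf (nat_lit 6156) (nat_lit 6) (nat_lit 81) (nat_lit 3) (nat_lit 150) (nat_lit 149) (nat_lit 151)) (PT.lf (nat_lit 6156) (nat_lit 6) (nat_lit 81) (nat_lit 1) (nat_lit 151) (nat_lit 149) (nat_lit 150))))) (PT.nd (nat_lit 234) (PT.nd (nat_lit 78) (PT.lf (nat_lit 5928) (nat_lit 3) (nat_lit 78) (nat_lit 0) (nat_lit 152) (nat_lit 149) (nat_lit 149)) (PT.nd (nat_lit 78) (PT.lf (nat_lit 5700) (nat_lit 6) (nat_lit 75) (nat_lit 0) (nat_lit 153) (nat_lit 149) (nat_lit 148)) (PT.lf (nat_lit 5396) (nat_lit 6) (nat_lit 71) (nat_lit 0) (nat_lit 154) (nat_lit 149) (nat_lit 147)))) (PT.nd (nat_lit 156) (PT.nd (nat_lit 78) (PT.lf (nat_lit 5016) (nat_lit 6) (nat_lit 66)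 (nat_lit 0) (nat_lit 155) (nat_lit 149) (nat_lit 146)) (PT.lf (nat_lit 4560) (nat_lit 6) (nat_lit 60) (nat_lit 0) (nat_lit 156) (nat_lit 149) (nat_lit 145))) (PT.nd (nat_lit 45786) (PT.lf (nat_lit 4028) (nat_lit 6) (nat_lit 53) (nat_lit 0) (nat_lit 157) (nat_lit 149) (nat_lit 144)) (PT.lf (nat_lit 4104) (nat_lit 6) (nat_lit 54) (nat_lit 5) (nat_lit 143) (nat_lit 150) (nat_lit 157))))))))
noncomputable def pc3 : PT := (PT.nd (nat_lit 47736) (PT.nd (nat_lit 1014) (PT.nd (nat_lit 468) (PT.nd (nat_lit 234) (PT.nd (nat_lit 78) (PT.lf (nat_lit 4636) (nat_lit 6) (nat_lit 61) (nat_lit 5) (nat_lit 144) (nat_lit 150) (nat_lit 156)) (PT.nd (nat_lit 78) (PT.lf (nat_lit 5092) (nat_lit 6) (nat_lit 67) (nat_lit 5) (nat_lit 145) (nat_lit 150) (nat_lit 155)) (PT.lf (nat_lit 5472) (nat_lit 6) (nat_lit 72) (nat_lit 5) (nat_lit 146) (nat_lit 150) (nat_lit 154)))) (PT.nd (nat_lit 78) (PT.lf (nat_lit 5776) (nat_lit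 6) (nat_lit 76) (nat_lit 5) (nat_lit 147) (nat_lit 150) (nat_lit 153)) (PT.nd (nat_lit 78) (PT.lf (nat_lit 6004) (nat_lit 6) (nat_lit 79) (nat_lit 5) (nat_lit 148) (nat_lit 150) (nat_lit 152)) (PT.lf (nat_lit 6156) (nat_lit 6) (nat_lit 81) (nat_lit 5) (nat_lit 149) (nat_lit 150) (nat_lit 151))))) (PT.nd (nat_lit 234) (PT.nd (nat_lit 78) (PT.lf (nat_lit 6232) (nat_lit 1) (nat_lit 82) (nat_lit 0) (nat_lit 150) (nat_lit 150) (nat_lit 150)) (PT.nd (nat_lit 78) (PT.lf (nat_lit 6156) (nat_lit 6) (nat_lit 81) (nat_lit 0) (nat_lit 151) (nat_lit 150) (nat_lit 149)) (PT.lf (nat_lit 6004) (nat_lit 6) (nat_lit 79) (nat_lit 0) (nat_lit 152) (nat_lit 150) (nat_lit 148)))) (PT.nd (nat_lit 156) (PT.nd (nat_lit 78) (PT.lf (nat_lit 5776) (nat_lit 6) (nat_lit 76) (nat_lit 0) (nat_lit 153) (nat_lit 150) (nat_lit 147)) (PT.lf (nat_lit 5472) (nat_lit 6) (nat_lit 72) (nat_lit 0) (nat_lit 154) (nat_lit 150) (nat_lit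 146))) (PT.nd (nat_lit 78) (PT.lf (nat_lit 5092) (nat_lit 6) (nat_lit 67) (nat_lit 0) (nat_lit 155) (nat_lit 150) (nat_lit 145)) (PT.lf (nat_lit 4636) (nat_lit 6) (nat_lit 61) (nat_lit 0) (nat_lit 156) (nat_lit 150) (nat_lit 144)))))) (PT.nd (nat_lit 46176) (PT.nd (nat_lit 45864) (PT.nd (nat_lit 45708) (PT.lf (nat_lit 4104) (nat_lit 6) (nat_lit 54) (nat_lit 0) (nat_lit 157) (nat_lit 150) (nat_lit 143)) (PT.nd (nat_lit 78) (PT.lf (nat_lit 3724) (nat_lit 6) (nat_lit 49) (nat_lit 5) (nat_lit 142) (nat_lit 151) (nat_lit 157)) (PT.lf (nat_lit 4180) (nat_lit 6) (nat_lit 55) (nat_lit 5) (nat_lit 143) (nat_lit 151) (nat_lit 156)))) (PT.nd (nat_lit 156) (PT.nd (nat_lit 78) (PT.lf (nat_lit 4712) (nat_lit 6) (nat_lit 62) (nat_lit 5) (nat_lit 144) (nat_lit 151) (nat_lit 155)) (PT.lf (nat_lit 5168) (nat_lit 6) (nat_lit 68) (nat_lit 5) (nat_lit 145) (nat_lit 151) (nat_lit 154))) (PT.nd (nat_lit 78) (PT.lf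 (nat_lit 5548) (nat_lit 6) (nat_lit 73) (nat_lit 5) (nat_lit 146) (nat_lit 151) (nat_lit 153)) (PT.lf (nat_lit 5852) (nat_lit 6) (nat_lit 77) (nat_lit 5) (nat_lit 147) (nat_lit 151) (nat_lit 152))))) (PT.nd (nat_lit 234) (PT.nd (nat_lit 78) (PT.lf (nat_lit 6080) (nat_lit 3) (nat_lit 80) (nat_lit 4) (nat_lit 148) (nat_lit 151) (nat_lit 151)) (PT.nd (nat_lit 78) (PT.lf (nat_lit 6156) (nat_lit 6) (nat_lit 81) (nat_lit 4) (nat_lit 149) (nat_lit 151) (nat_lit 150)) (PT.lf (nat_lit 6156) (nat_lit 6) (nat_lit 81) (nat_lit 2) (nat_lit 150) (nat_lit 151) (nat_lit 149)))) (PT.nd (nat_lit 156) (PT.nd (nat_lit 78) (PT.lf (nat_lit 6080) (nat_lit 3) (nat_lit 80) (nat_lit 0) (nat_lit 151) (nat_lit 151) (nat_lit 148)) (PT.lf (nat_lit 5852) (nat_lit 6) (nat_lit 77) (nat_lit 0) (nat_lit 152) (nat_lit 151) (nat_lit 147))) (PT.nd (nat_lit 78) (PT.lf (nat_lit 5548) (nat_lit 6) (nat_lit 73) (nat_lit 0) (nat_lit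 153) (nat_lit 151) (nat_lit 146)) (PT.lf (nat_lit 5168) (nat_lit 6) (nat_lit 68) (nat_lit 0) (nat_lit 154) (nat_lit 151) (nat_lit 145))))))) (PT.nd (nat_lit 46566) (PT.nd (nat_lit 46020) (PT.nd (nat_lit 45786) (PT.nd (nat_lit 78) (PT.lf (nat_lit 4712) (nat_lit 6) (nat_lit 62) (nat_lit 0) (nat_lit 155) (nat_lit 151) (nat_lit 144)) (PT.nd (nat_lit 78) (PT.lf (nat_lit 4180) (nat_lit 6) (nat_lit 55) (nat_lit 0) (nat_lit 156) (nat_lit 151) (nat_lit 143)) (PT.lf (nat_lit 3724) (nat_lit 6) (nat_lit 49) (nat_lit 0) (nat_lit 157) (nat_lit 151) (nat_lit 142)))) (PT.nd (nat_lit 78) (PT.lf (nat_lit 3496) (nat_lit 6) (nat_lit 46) (nat_lit 5) (nat_lit 141) (nat_lit 152) (nat_lit 157)) (PT.nd (nat_lit 78) (PT.lf (nat_lit 3800) (nat_lit 6) (nat_lit 50) (nat_lit 5) (nat_lit 142) (nat_lit 152) (nat_lit 156)) (PT.lf (nat_lit 4256) (nat_lit 6) (nat_lit 56) (nat_lit 5) (nat_lit 143) (nat_lit 152) (nat_lit 155)))))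 (PT.nd (nat_lit 234) (PT.nd (nat_lit 78) (PT.lf (nat_lit 4788) (nat_lit 6) (nat_lit 63) (nat_lit 5) (nat_lit 144) (nat_lit 152) (nat_lit 154)) (PT.nd (nat_lit 78) (PT.lf (nat_lit 5244) (nat_lit 6) (nat_lit 69) (nat_lit 5) (nat_lit 145) (nat_lit 152) (nat_lit 153)) (PT.lf (nat_lit 5624) (nat_lit 3) (nat_lit 74) (nat_lit 4) (nat_lit 146) (nat_lit 152) (nat_lit 152)))) (PT.nd (nat_lit 156) (PT.nd (nat_lit 78) (PT.lf (nat_lit 5852) (nat_lit 6) (nat_lit 77) (nat_lit 4) (nat_lit 147) (nat_lit 152) (nat_lit 151)) (PT.lf (nat_lit 6004) (nat_lit 6) (nat_lit 79) (nat_lit 4) (nat_lit 148) (nat_lit 152) (nat_lit 150))) (PT.nd (nat_lit 78) (PT.lf (nat_lit 5928) (nat_lit 3) (nat_lit 78) (nat_lit 2) (nat_lit 149) (nat_lit 152) (nat_lit 149)) (PT.lf (nat_lit 6004) (nat_lit 6) (nat_lit 79) (nat_lit 2) (nat_lit 150) (nat_lit 152) (nat_lit 148)))))) (PT.nd (nat_lit 45942) (PT.nd (nat_lit 234) (PT.nd (nat_lit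 78) (PT.lf (nat_lit 5852) (nat_lit 6) (nat_lit 77) (nat_lit 2) (nat_lit 151) (nat_lit 152) (nat_lit 147)) (PT.nd (nat_lit 78) (PT.lf (nat_lit 5624) (nat_lit 3) (nat_lit 74) (nat_lit 0) (nat_lit 152) (nat_lit 152) (nat_lit 146)) (PT.lf (nat_lit 5244) (nat_lit 6) (nat_lit 69) (nat_lit 0) (nat_lit 153) (nat_lit 152) (nat_lit 145)))) (PT.nd (nat_lit 156) (PT.nd (nat_lit 78) (PT.lf (nat_lit 4788) (nat_lit 6) (nat_lit 63) (nat_lit 0) (nat_lit 154) (nat_lit 152) (nat_lit 144)) (PT.lf (nat_lit 4256) (nat_lit 6) (nat_lit 56) (nat_lit 0) (nat_lit 155) (nat_lit 152) (nat_lit 143))) (PT.nd (nat_lit 78) (PT.lf (nat_lit 3800) (nat_lit 6) (nat_lit 50) (nat_lit 0) (nat_lit 156) (nat_lit 152) (nat_lit 142)) (PT.lf (nat_lit 3496) (nat_lit 6) (nat_lit 46) (nat_lit 0) (nat_lit 157) (nat_lit 152) (nat_lit 141))))) (PT.nd (nat_lit 234) (PT.nd (nat_lit 78) (PT.lf (nat_lit 3040) (nat_lit 6) (nat_lit 40) (nat_lit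 5) (nat_lit 139) (nat_lit 153) (nat_lit 158)) (PT.nd (nat_lit 78) (PT.lf (nat_lit 3268) (nat_lit 6) (nat_lit 43) (nat_lit 5) (nat_lit 140) (nat_lit 153) (nat_lit 157)) (PT.lf (nat_lit 3572) (nat_lit 6) (nat_lit 47) (nat_lit 5) (nat_lit 141) (nat_lit 153) (nat_lit 156)))) (PT.nd (nat_lit 156) (PT.nd (nat_lit 78) (PT.lf (nat_lit 3876) (nat_lit 6) (nat_lit 51) (nat_lit 5) (nat_lit 142) (nat_lit 153) (nat_lit 155)) (PT.lf (nat_lit 4332) (nat_lit 6) (nat_lit 57) (nat_lit 5) (nat_lit 143) (nat_lit 153) (nat_lit 154))) (PT.nd (nat_lit 78) (PT.lf (nat_lit 4864) (nat_lit 3) (nat_lit 64) (nat_lit 4) (nat_lit 144) (nat_lit 153) (nat_lit 153)) (PT.lf (nat_lit 5244) (nat_lit 6) (nat_lit 69) (nat_lit 4) (nat_lit 145) (nat_lit 153) (nat_lit 152))))))))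
noncomputable def pc4 : PT := (PT.nd (nat_lit 47268) (PT.nd (nat_lit 46254) (PT.nd (nat_lit 468) (PT.nd (nat_lit 234) (PT.nd (nat_lit 78) (PT.lf (nat_lit 5548) (nat_lit 6) (nat_lit 73) (nat_lit 4) (nat_lit 146) (nat_lit 153) (nat_lit 151)) (PT.nd (nat_lit 78) (PT.lf (nat_lit 5776) (nat_lit 6) (nat_lit 76) (nat_lit 4) (nat_lit 147) (nat_lit 153) (nat_lit 150)) (PT.lf (nat_lit 5700) (nat_lit 6) (nat_lit 75) (nat_lit 4) (nat_lit 148) (nat_lit 153) (nat_lit 149)))) (PT.nd (nat_lit 78) (PT.lf (nat_lit 5700) (nat_lit 6) (nat_lit 75) (nat_lit 2) (nat_lit 149) (nat_lit 153) (nat_lit 148)) (PT.nd (nat_lit 78) (PT.lf (nat_lit 5776) (nat_lit 6) (nat_lit 76) (nat_lit 2) (nat_lit 150) (nat_lit 153) (nat_lit 147)) (PT.lf (nat_lit 5548) (nat_lit 6) (nat_lit 73) (nat_lit 2) (nat_lit 151) (nat_lit 153) (nat_lit 146))))) (PT.nd (nat_lit 234) (PT.nd (nat_lit 78) (PT.lf (nat_lit 5244) (nat_lit 6) (nat_lit 69)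 (nat_lit 2) (nat_lit 152) (nat_lit 153) (nat_lit 145)) (PT.nd (nat_lit 78) (PT.lf (nat_lit 4864) (nat_lit 3) (nat_lit 64) (nat_lit 0) (nat_lit 153) (nat_lit 153) (nat_lit 144)) (PT.lf (nat_lit 4332) (nat_lit 6) (nat_lit 57) (nat_lit 0) (nat_lit 154) (nat_lit 153) (nat_lit 143)))) (PT.nd (nat_lit 156) (PT.nd (nat_lit 78) (PT.lf (nat_lit 3876) (nat_lit 6) (nat_lit 51) (nat_lit 0) (nat_lit 155) (nat_lit 153) (nat_lit 142)) (PT.lf (nat_lit 3572) (nat_lit 6) (nat_lit 47) (nat_lit 0) (nat_lit 156) (nat_lit 153) (nat_lit 141))) (PT.nd (nat_lit 78) (PT.lf (nat_lit 3268) (nat_lit 6) (nat_lit 43) (nat_lit 0) (nat_lit 157) (nat_lit 153) (nat_lit 140)) (PT.lf (nat_lit 3040) (nat_lit 6) (nat_lit 40) (nat_lit 0) (nat_lit 158) (nat_lit 153) (nat_lit 139)))))) (PT.nd (nat_lit 468) (PT.nd (nat_lit 234) (PT.nd (nat_lit 78) (PT.lf (nat_lit 2812) (nat_lit 6) (nat_lit 37) (nat_lit 5) (nat_lit 138) (nat_lit 154)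 (nat_lit 158)) (PT.nd (nat_lit 78) (PT.lf (nat_lit 3116) (nat_lit 6) (nat_lit 41) (nat_lit 5) (nat_lit 139) (nat_lit 154) (nat_lit 157)) (PT.lf (nat_lit 3344) (nat_lit 6) (nat_lit 44) (nat_lit 5) (nat_lit 140) (nat_lit 154) (nat_lit 156)))) (PT.nd (nat_lit 78) (PT.lf (nat_lit 3648) (nat_lit 6) (nat_lit 48) (nat_lit 5) (nat_lit 141) (nat_lit 154) (nat_lit 155)) (PT.nd (nat_lit 78) (PT.lf (nat_lit 3952) (nat_lit 3) (nat_lit 52) (nat_lit 4) (nat_lit 142) (nat_lit 154) (nat_lit 154)) (PT.lf (nat_lit 4332) (nat_lit 6) (nat_lit 57) (nat_lit 4) (nat_lit 143) (nat_lit 154) (nat_lit 153))))) (PT.nd (nat_lit 234) (PT.nd (nat_lit 78) (PT.lf (nat_lit 4788) (nat_lit 6) (nat_lit 63) (nat_lit 4) (nat_lit 144) (nat_lit 154) (nat_lit 152)) (PT.nd (nat_lit 78) (PT.lf (nat_lit 5168) (nat_lit 6) (nat_lit 68) (nat_lit 4) (nat_lit 145) (nat_lit 154) (nat_lit 151)) (PT.lf (nat_lit 5472) (nat_lit 6) (nat_lit 72)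 (nat_lit 4) (nat_lit 146) (nat_lit 154) (nat_lit 150)))) (PT.nd (nat_lit 156) (PT.nd (nat_lit 78) (PT.lf (nat_lit 5396) (nat_lit 6) (nat_lit 71) (nat_lit 4) (nat_lit 147) (nat_lit 154) (nat_lit 149)) (PT.lf (nat_lit 5320) (nat_lit 3) (nat_lit 70) (nat_lit 2) (nat_lit 148) (nat_lit 154) (nat_lit 148))) (PT.nd (nat_lit 78) (PT.lf (nat_lit 5396) (nat_lit 6) (nat_lit 71) (nat_lit 2) (nat_lit 149) (nat_lit 154) (nat_lit 147)) (PT.lf (nat_lit 5472) (nat_lit 6) (nat_lit 72) (nat_lit 2) (nat_lit 150) (nat_lit 154) (nat_lit 146))))))) (PT.nd (nat_lit 46098) (PT.nd (nat_lit 468) (PT.nd (nat_lit 234) (PT.nd (nat_lit 78) (PT.lf (nat_lit 5168) (nat_lit 6) (nat_lit 68) (nat_lit 2) (nat_lit 151) (nat_lit 154) (nat_lit 145)) (PT.nd (nat_lit 78) (PT.lf (nat_lit 4788) (nat_lit 6) (nat_lit 63) (nat_lit 2) (nat_lit 152) (nat_lit 154) (nat_lit 144)) (PT.lf (nat_lit 4332) (nat_lit 6) (nat_lit 57) (nat_lit 2)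 (nat_lit 153) (nat_lit 154) (nat_lit 143)))) (PT.nd (nat_lit 78) (PT.lf (nat_lit 3952) (nat_lit 3) (nat_lit 52) (nat_lit 0) (nat_lit 154) (nat_lit 154) (nat_lit 142)) (PT.nd (nat_lit 78) (PT.lf (nat_lit 3648) (nat_lit 6) (nat_lit 48) (nat_lit 0) (nat_lit 155) (nat_lit 154) (nat_lit 141)) (PT.lf (nat_lit 3344) (nat_lit 6) (nat_lit 44) (nat_lit 0) (nat_lit 156) (nat_lit 154) (nat_lit 140))))) (PT.nd (nat_lit 45318) (PT.nd (nat_lit 78) (PT.lf (nat_lit 3116) (nat_lit 6) (nat_lit 41) (nat_lit 0) (nat_lit 157) (nat_lit 154) (nat_lit 139)) (PT.nd (nat_lit 45162) (PT.lf (nat_lit 2812) (nat_lit 6) (nat_lit 37) (nat_lit 0) (nat_lit 158) (nat_lit 154) (nat_lit 138)) (PT.lf (nat_lit 2432) (nat_lit 6) (nat_lit 32) (nat_lit 5) (nat_lit 136) (nat_lit 155) (nat_lit 159)))) (PT.nd (nat_lit 156) (PT.nd (nat_lit 78) (PT.lf (nat_lit 2660) (nat_lit 6) (nat_lit 35) (nat_lit 5) (nat_lit 137) (nat_lit 155) (nat_lit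 158)) (PT.lf (nat_lit 2888) (nat_lit 6) (nat_lit 38) (nat_lit 5) (nat_lit 138) (nat_lit 155) (nat_lit 157))) (PT.nd (nat_lit 78) (PT.lf (nat_lit 3192) (nat_lit 6) (nat_lit 42) (nat_lit 5) (nat_lit 139) (nat_lit 155) (nat_lit 156)) (PT.lf (nat_lit 3420) (nat_lit 3) (nat_lit 45) (nat_lit 4) (nat_lit 140) (nat_lit 155) (nat_lit 155)))))) (PT.nd (nat_lit 546) (PT.nd (nat_lit 234) (PT.nd (nat_lit 78) (PT.lf (nat_lit 3648) (nat_lit 6) (nat_lit 48) (nat_lit 4) (nat_lit 141) (nat_lit 155) (nat_lit 154)) (PT.nd (nat_lit 78) (PT.lf (nat_lit 3876) (nat_lit 6) (nat_lit 51) (nat_lit 4) (nat_lit 142) (nat_lit 155) (nat_lit 153)) (PT.lf (nat_lit 4256) (nat_lit 6) (nat_lit 56) (nat_lit 4) (nat_lit 143) (nat_lit 155) (nat_lit 152)))) (PT.nd (nat_lit 156) (PT.nd (nat_lit 78) (PT.lf (nat_lit 4712) (nat_lit 6) (nat_lit 62) (nat_lit 4) (nat_lit 144) (nat_lit 155) (nat_lit 151)) (PT.lf (nat_lit 5092) (nat_lit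 6) (nat_lit 67) (nat_lit 4) (nat_lit 145) (nat_lit 155) (nat_lit 150))) (PT.nd (nat_lit 78) (PT.lf (nat_lit 5016) (nat_lit 6) (nat_lit 66) (nat_lit 4) (nat_lit 146) (nat_lit 155) (nat_lit 149)) (PT.lf (nat_lit 4940) (nat_lit 6) (nat_lit 65) (nat_lit 4) (nat_lit 147) (nat_lit 155) (nat_lit 148))))) (PT.nd (nat_lit 234) (PT.nd (nat_lit 78) (PT.lf (nat_lit 4940) (nat_lit 6) (nat_lit 65) (nat_lit 2) (nat_lit 148) (nat_lit 155) (nat_lit 147)) (PT.nd (nat_lit 78) (PT.lf (nat_lit 5016) (nat_lit 6) (nat_lit 66) (nat_lit 2) (nat_lit 149) (nat_lit 155) (nat_lit 146)) (PT.lf (nat_lit 5092) (nat_lit 6) (nat_lit 67) (nat_lit 2) (nat_lit 150) (nat_lit 155) (nat_lit 145)))) (PT.nd (nat_lit 156) (PT.nd (nat_lit 78) (PT.lf (nat_lit 4712) (nat_lit 6) (nat_lit 62) (nat_lit 2) (nat_lit 151) (nat_lit 155) (nat_lit 144)) (PT.lf (nat_lit 4256) (nat_lit 6) (nat_lit 56) (nat_lit 2) (nat_lit 152) (nat_lit 155) (nat_lit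 143))) (PT.nd (nat_lit 78) (PT.lf (nat_lit 3876) (nat_lit 6) (nat_lit 51) (nat_lit 2) (nat_lit 153) (nat_lit 155) (nat_lit 142)) (PT.lf (nat_lit 3648) (nat_lit 6) (nat_lit 48) (nat_lit 2) (nat_lit 154) (nat_lit 155) (nat_lit 141))))))))
noncomputable def pc5 : PT := (PT.nd (nat_lit 47034) (PT.nd (nat_lit 45942) (PT.nd (nat_lit 45396) (PT.nd (nat_lit 234) (PT.nd (nat_lit 78) (PT.lf (nat_lit 3420) (nat_lit 3) (nat_lit 45) (nat_lit 0) (nat_lit 155) (nat_lit 155) (nat_lit 140)) (PT.nd (nat_lit 78) (PT.lf (nat_lit 3192) (nat_lit 6) (nat_lit 42) (nat_lit 0) (nat_lit 156) (nat_lit 155) (nat_lit 139)) (PT.lf (nat_lit 2888) (nat_lit 6) (nat_lit 38) (nat_lit 0) (nat_lit 157) (nat_lit 155) (nat_lit 138)))) (PT.nd (nat_lit 78) (PT.lf (nat_lit 2660) (nat_lit 6) (nat_lit 35) (nat_lit 0) (nat_lit 158) (nat_lit 155) (nat_lit 137)) (PT.nd (nat_lit 45006) (PT.lf (nat_lit 2432) (nat_lit 6) (nat_lit 32) (nat_lit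 0) (nat_lit 159) (nat_lit 155) (nat_lit 136)) (PT.lf (nat_lit 2280) (nat_lit 6) (nat_lit 30) (nat_lit 5) (nat_lit 135) (nat_lit 156) (nat_lit 159))))) (PT.nd (nat_lit 234) (PT.nd (nat_lit 78) (PT.lf (nat_lit 2508) (nat_lit 6) (nat_lit 33) (nat_lit 5) (nat_lit 136) (nat_lit 156) (nat_lit 158)) (PT.nd (nat_lit 78) (PT.lf (nat_lit 2736) (nat_lit 6) (nat_lit 36) (nat_lit 5) (nat_lit 137) (nat_lit 156) (nat_lit 157)) (PT.lf (nat_lit 2964) (nat_lit 3) (nat_lit 39) (nat_lit 4) (nat_lit 138) (nat_lit 156) (nat_lit 156)))) (PT.nd (nat_lit 156) (PT.nd (nat_lit 78) (PT.lf (nat_lit 3192) (nat_lit 6) (nat_lit 42) (nat_lit 4) (nat_lit 139) (nat_lit 156) (nat_lit 155)) (PT.lf (nat_lit 3344) (nat_lit 6) (nat_lit 44) (nat_lit 4) (nat_lit 140) (nat_lit 156) (nat_lit 154))) (PT.nd (nat_lit 78) (PT.lf (nat_lit 3572) (nat_lit 6) (nat_lit 47) (nat_lit 4) (nat_lit 141) (nat_lit 156) (nat_lit 153)) (PT.lf (nat_lit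 3800) (nat_lit 6) (nat_lit 50) (nat_lit 4) (nat_lit 142) (nat_lit 156) (nat_lit 152)))))) (PT.nd (nat_lit 546) (PT.nd (nat_lit 234) (PT.nd (nat_lit 78) (PT.lf (nat_lit 4180) (nat_lit 6) (nat_lit 55) (nat_lit 4) (nat_lit 143) (nat_lit 156) (nat_lit 151)) (PT.nd (nat_lit 78) (PT.lf (nat_lit 4636) (nat_lit 6) (nat_lit 61) (nat_lit 4) (nat_lit 144) (nat_lit 156) (nat_lit 150)) (PT.lf (nat_lit 4560) (nat_lit 6) (nat_lit 60) (nat_lit 4) (nat_lit 145) (nat_lit 156) (nat_lit 149)))) (PT.nd (nat_lit 156) (PT.nd (nat_lit 78) (PT.lf (nat_lit 4484) (nat_lit 6) (nat_lit 59) (nat_lit 4) (nat_lit 146) (nat_lit 156) (nat_lit 148)) (PT.lf (nat_lit 4408) (nat_lit 3) (nat_lit 58) (nat_lit 2) (nat_lit 147) (nat_lit 156) (nat_lit 147))) (PT.nd (nat_lit 78) (PT.lf (nat_lit 4484) (nat_lit 6) (nat_lit 59) (nat_lit 2) (nat_lit 148) (nat_lit 156) (nat_lit 146)) (PT.lf (nat_lit 4560) (nat_lit 6) (nat_lit 60) (nat_lit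 2) (nat_lit 149) (nat_lit 156) (nat_lit 145))))) (PT.nd (nat_lit 234) (PT.nd (nat_lit 78) (PT.lf (nat_lit 4636) (nat_lit 6) (nat_lit 61) (nat_lit 2) (nat_lit 150) (nat_lit 156) (nat_lit 144)) (PT.nd (nat_lit 78) (PT.lf (nat_lit 4180) (nat_lit 6) (nat_lit 55) (nat_lit 2) (nat_lit 151) (nat_lit 156) (nat_lit 143)) (PT.lf (nat_lit 3800) (nat_lit 6) (nat_lit 50) (nat_lit 2) (nat_lit 152) (nat_lit 156) (nat_lit 142)))) (PT.nd (nat_lit 156) (PT.nd (nat_lit 78) (PT.lf (nat_lit 3572) (nat_lit 6) (nat_lit 47) (nat_lit 2) (nat_lit 153) (nat_lit 156) (nat_lit 141)) (PT.lf (nat_lit 3344) (nat_lit 6) (nat_lit 44) (nat_lit 2) (nat_lit 154) (nat_lit 156) (nat_lit 140))) (PT.nd (nat_lit 78) (PT.lf (nat_lit 3192) (nat_lit 6) (nat_lit 42) (nat_lit 2) (nat_lit 155) (nat_lit 156) (nat_lit 139)) (PT.lf (nat_lit 2964) (nat_lit 3) (nat_lit 39) (nat_lit 0) (nat_lit 156) (nat_lit 156) (nat_lit 138))))))) (PT.nd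 (nat_lit 45786) (PT.nd (nat_lit 45240) (PT.nd (nat_lit 45006) (PT.nd (nat_lit 78) (PT.lf (nat_lit 2736) (nat_lit 6) (nat_lit 36) (nat_lit 0) (nat_lit 157) (nat_lit 156) (nat_lit 137)) (PT.nd (nat_lit 78) (PT.lf (nat_lit 2508) (nat_lit 6) (nat_lit 33) (nat_lit 0) (nat_lit 158) (nat_lit 156) (nat_lit 136)) (PT.lf (nat_lit 2280) (nat_lit 6) (nat_lit 30) (nat_lit 0) (nat_lit 159) (nat_lit 156) (nat_lit 135)))) (PT.nd (nat_lit 78) (PT.lf (nat_lit 1976) (nat_lit 6) (nat_lit 26) (nat_lit 5) (nat_lit 133) (nat_lit 157) (nat_lit 160)) (PT.nd (nat_lit 78) (PT.lf (nat_lit 2128) (nat_lit 6) (nat_lit 28) (nat_lit 5) (nat_lit 134) (nat_lit 157) (nat_lit 159)) (PT.lf (nat_lit 2356) (nat_lit 6) (nat_lit 31) (nat_lit 5) (nat_lit 135) (nat_lit 157) (nat_lit 158))))) (PT.nd (nat_lit 234) (PT.nd (nat_lit 78) (PT.lf (nat_lit 2584) (nat_lit 3) (nat_lit 34) (nat_lit 4) (nat_lit 136) (nat_lit 157) (nat_lit 157))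 (PT.nd (nat_lit 78) (PT.lf (nat_lit 2736) (nat_lit 6) (nat_lit 36) (nat_lit 4) (nat_lit 137) (nat_lit 157) (nat_lit 156)) (PT.lf (nat_lit 2888) (nat_lit 6) (nat_lit 38) (nat_lit 4) (nat_lit 138) (nat_lit 157) (nat_lit 155)))) (PT.nd (nat_lit 156) (PT.nd (nat_lit 78) (PT.lf (nat_lit 3116) (nat_lit 6) (nat_lit 41) (nat_lit 4) (nat_lit 139) (nat_lit 157) (nat_lit 154)) (PT.lf (nat_lit 3268) (nat_lit 6) (nat_lit 43) (nat_lit 4) (nat_lit 140) (nat_lit 157) (nat_lit 153))) (PT.nd (nat_lit 78) (PT.lf (nat_lit 3496) (nat_lit 6) (nat_lit 46) (nat_lit 4) (nat_lit 141) (nat_lit 157) (nat_lit 152)) (PT.lf (nat_lit 3724) (nat_lit 6) (nat_lit 49) (nat_lit 4) (nat_lit 142) (nat_lit 157) (nat_lit 151)))))) (PT.nd (nat_lit 858) (PT.nd (nat_lit 546) (PT.nd (nat_lit 78) (PT.lf (nat_lit 4104) (nat_lit 6) (nat_lit 54) (nat_lit 4) (nat_lit 143) (nat_lit 157) (nat_lit 150)) (PT.nd (nat_lit 390) (PT.lf (nat_lit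 4028) (nat_lit 6) (nat_lit 53) (nat_lit 4) (nat_lit 144) (nat_lit 157) (nat_lit 149)) (PT.lf (nat_lit 4028) (nat_lit 6) (nat_lit 53) (nat_lit 2) (nat_lit 149) (nat_lit 157) (nat_lit 144)))) (PT.nd (nat_lit 156) (PT.nd (nat_lit 78) (PT.lf (nat_lit 4104) (nat_lit 6) (nat_lit 54) (nat_lit 2) (nat_lit 150) (nat_lit 157) (nat_lit 143)) (PT.lf (nat_lit 3724) (nat_lit 6) (nat_lit 49) (nat_lit 2) (nat_lit 151) (nat_lit 157) (nat_lit 142))) (PT.nd (nat_lit 78) (PT.lf (nat_lit 3496) (nat_lit 6) (nat_lit 46) (nat_lit 2) (nat_lit 152) (nat_lit 157) (nat_lit 141)) (PT.lf (nat_lit 3268) (nat_lit 6) (nat_lit 43) (nat_lit 2) (nat_lit 153) (nat_lit 157) (nat_lit 140))))) (PT.nd (nat_lit 234) (PT.nd (nat_lit 78) (PT.lf (nat_lit 3116) (nat_lit 6) (nat_lit 41) (nat_lit 2) (nat_lit 154) (nat_lit 157) (nat_lit 139)) (PT.nd (nat_lit 78) (PT.lf (nat_lit 2888) (nat_lit 6) (nat_lit 38) (nat_lit 2) (nat_lit 155) (nat_lit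 157) (nat_lit 138)) (PT.lf (nat_lit 2736) (nat_lit 6) (nat_lit 36) (nat_lit 2) (nat_lit 156) (nat_lit 157) (nat_lit 137)))) (PT.nd (nat_lit 156) (PT.nd (nat_lit 78) (PT.lf (nat_lit 2584) (nat_lit 3) (nat_lit 34) (nat_lit 0) (nat_lit 157) (nat_lit 157) (nat_lit 136)) (PT.lf (nat_lit 2356) (nat_lit 6) (nat_lit 31) (nat_lit 0) (nat_lit 158) (nat_lit 157) (nat_lit 135))) (PT.nd (nat_lit 78) (PT.lf (nat_lit 2128) (nat_lit 6) (nat_lit 28) (nat_lit 0) (nat_lit 159) (nat_lit 157) (nat_lit 134)) (PT.lf (nat_lit 1976) (nat_lit 6) (nat_lit 26) (nat_lit 0) (nat_lit 160) (nat_lit 157) (nat_lit 133))))))))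
noncomputable def pc6 : PT := (PT.nd (nat_lit 48906) (PT.nd (nat_lit 2028) (PT.nd (nat_lit 468) (PT.nd (nat_lit 234) (PT.nd (nat_lit 78) (PT.lf (nat_lit 1672) (nat_lit 6) (nat_lit 22) (nat_lit 5) (nat_lit 131) (nat_lit 158) (nat_lit 161)) (PT.nd (nat_lit 78) (PT.lf (nat_lit 1824) (nat_lit 6) (nat_lit 24) (nat_lit 5) (nat_lit 132) (nat_lit 158) (nat_lit 160)) (PT.lf (nat_lit 2052) (nat_lit 6) (nat_lit 27) (nat_lit 5) (nat_lit 133) (nat_lit 158) (nat_lit 159)))) (PT.nd (nat_lit 78) (PT.lf (nat_lit 2204) (nat_lit 3) (nat_lit 29) (nat_lit 4) (nat_lit 134) (nat_lit 158) (nat_lit 158)) (PT.nd (nat_lit 78) (PT.lf (nat_lit 2356) (nat_lit 6) (nat_lit 31) (nat_lit 4) (nat_lit 135) (nat_lit 158) (nat_lit 157)) (PT.lf (nat_lit 2508) (nat_lit 6) (nat_lit 33) (nat_lit 4) (nat_lit 136) (nat_lit 158) (nat_lit 156))))) (PT.nd (nat_lit 1248) (PT.nd (nat_lit 78) (PT.lf (nat_lit 2660) (nat_lit 6) (nat_lit 35)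 (nat_lit 4) (nat_lit 137) (nat_lit 158) (nat_lit 155)) (PT.nd (nat_lit 78) (PT.lf (nat_lit 2812) (nat_lit 6) (nat_lit 37) (nat_lit 4) (nat_lit 138) (nat_lit 158) (nat_lit 154)) (PT.lf (nat_lit 3040) (nat_lit 6) (nat_lit 40) (nat_lit 4) (nat_lit 139) (nat_lit 158) (nat_lit 153)))) (PT.nd (nat_lit 156) (PT.nd (nat_lit 78) (PT.lf (nat_lit 3040) (nat_lit 6) (nat_lit 40) (nat_lit 2) (nat_lit 153) (nat_lit 158) (nat_lit 139)) (PT.lf (nat_lit 2812) (nat_lit 6) (nat_lit 37) (nat_lit 2) (nat_lit 154) (nat_lit 158) (nat_lit 138))) (PT.nd (nat_lit 78) (PT.lf (nat_lit 2660) (nat_lit 6) (nat_lit 35) (nat_lit 2) (nat_lit 155) (nat_lit 158) (nat_lit 137)) (PT.lf (nat_lit 2508) (nat_lit 6) (nat_lit 33) (nat_lit 2) (nat_lit 156) (nat_lit 158) (nat_lit 136)))))) (PT.nd (nat_lit 44928) (PT.nd (nat_lit 234) (PT.nd (nat_lit 78) (PT.lf (nat_lit 2356) (nat_lit 6) (nat_lit 31) (nat_lit 2) (nat_lit 157) (nat_lit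 158) (nat_lit 135)) (PT.nd (nat_lit 78) (PT.lf (nat_lit 2204) (nat_lit 3) (nat_lit 29) (nat_lit 0) (nat_lit 158) (nat_lit 158) (nat_lit 134)) (PT.lf (nat_lit 2052) (nat_lit 6) (nat_lit 27) (nat_lit 0) (nat_lit 159) (nat_lit 158) (nat_lit 133)))) (PT.nd (nat_lit 44538) (PT.nd (nat_lit 78) (PT.lf (nat_lit 1824) (nat_lit 6) (nat_lit 24) (nat_lit 0) (nat_lit 160) (nat_lit 158) (nat_lit 132)) (PT.lf (nat_lit 1672) (nat_lit 6) (nat_lit 22) (nat_lit 0) (nat_lit 161) (nat_lit 158) (nat_lit 131))) (PT.nd (nat_lit 78) (PT.lf (nat_lit 1520) (nat_lit 6) (nat_lit 20) (nat_lit 5) (nat_lit 130) (nat_lit 159) (nat_lit 161)) (PT.lf (nat_lit 1748) (nat_lit 6) (nat_lit 23) (nat_lit 5) (nat_lit 131) (nat_lit 159) (nat_lit 160))))) (PT.nd (nat_lit 234) (PT.nd (nat_lit 78) (PT.lf (nat_lit 1900) (nat_lit 3) (nat_lit 25) (nat_lit 4) (nat_lit 132) (nat_lit 159) (nat_lit 159)) (PT.nd (nat_lit 78) (PT.lf (nat_lit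 2052) (nat_lit 6) (nat_lit 27) (nat_lit 4) (nat_lit 133) (nat_lit 159) (nat_lit 158)) (PT.lf (nat_lit 2128) (nat_lit 6) (nat_lit 28) (nat_lit 4) (nat_lit 134) (nat_lit 159) (nat_lit 157)))) (PT.nd (nat_lit 1560) (PT.nd (nat_lit 78) (PT.lf (nat_lit 2280) (nat_lit 6) (nat_lit 30) (nat_lit 4) (nat_lit 135) (nat_lit 159) (nat_lit 156)) (PT.lf (nat_lit 2432) (nat_lit 6) (nat_lit 32) (nat_lit 4) (nat_lit 136) (nat_lit 159) (nat_lit 155))) (PT.nd (nat_lit 78) (PT.lf (nat_lit 2432) (nat_lit 6) (nat_lit 32) (nat_lit 2) (nat_lit 155) (nat_lit 159) (nat_lit 136)) (PT.lf (nat_lit 2280) (nat_lit 6) (nat_lit 30) (nat_lit 2) (nat_lit 156) (nat_lit 159) (nat_lit 135))))))) (PT.nd (nat_lit 47034) (PT.nd (nat_lit 44694) (PT.nd (nat_lit 234) (PT.nd (nat_lit 78) (PT.lf (nat_lit 2128) (nat_lit 6) (nat_lit 28) (nat_lit 2) (nat_lit 157) (nat_lit 159) (nat_lit 134)) (PT.nd (nat_lit 78) (PT.lf (nat_lit 2052) (nat_lit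 6) (nat_lit 27) (nat_lit 2) (nat_lit 158) (nat_lit 159) (nat_lit 133)) (PT.lf (nat_lit 1900) (nat_lit 3) (nat_lit 25) (nat_lit 0) (nat_lit 159) (nat_lit 159) (nat_lit 132)))) (PT.nd (nat_lit 78) (PT.lf (nat_lit 1748) (nat_lit 6) (nat_lit 23) (nat_lit 0) (nat_lit 160) (nat_lit 159) (nat_lit 131)) (PT.nd (nat_lit 44304) (PT.lf (nat_lit 1520) (nat_lit 6) (nat_lit 20) (nat_lit 0) (nat_lit 161) (nat_lit 159) (nat_lit 130)) (PT.lf (nat_lit 1292) (nat_lit 6) (nat_lit 17) (nat_lit 5) (nat_lit 128) (nat_lit 160) (nat_lit 162))))) (PT.nd (nat_lit 234) (PT.nd (nat_lit 78) (PT.lf (nat_lit 1444) (nat_lit 6) (nat_lit 19) (nat_lit 5) (nat_lit 129) (nat_lit 160) (nat_lit 161)) (PT.nd (nat_lit 78) (PT.lf (nat_lit 1596) (nat_lit 3) (nat_lit 21) (nat_lit 4) (nat_lit 130) (nat_lit 160) (nat_lit 160)) (PT.lf (nat_lit 1748) (nat_lit 6) (nat_lit 23) (nat_lit 4) (nat_lit 131) (nat_lit 160) (nat_lit 159)))) (PT.nd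 (nat_lit 1950) (PT.nd (nat_lit 78) (PT.lf (nat_lit 1824) (nat_lit 6) (nat_lit 24) (nat_lit 4) (nat_lit 132) (nat_lit 160) (nat_lit 158)) (PT.lf (nat_lit 1976) (nat_lit 6) (nat_lit 26) (nat_lit 4) (nat_lit 133) (nat_lit 160) (nat_lit 157))) (PT.nd (nat_lit 78) (PT.lf (nat_lit 1976) (nat_lit 6) (nat_lit 26) (nat_lit 2) (nat_lit 157) (nat_lit 160) (nat_lit 133)) (PT.lf (nat_lit 1824) (nat_lit 6) (nat_lit 24) (nat_lit 2) (nat_lit 158) (nat_lit 160) (nat_lit 132)))))) (PT.nd (nat_lit 44538) (PT.nd (nat_lit 234) (PT.nd (nat_lit 78) (PT.lf (nat_lit 1748) (nat_lit 6) (nat_lit 23) (nat_lit 2) (nat_lit 159) (nat_lit 160) (nat_lit 131)) (PT.nd (nat_lit 78) (PT.lf (nat_lit 1596) (nat_lit 3) (nat_lit 21) (nat_lit 0) (nat_lit 160) (nat_lit 160) (nat_lit 130)) (PT.lf (nat_lit 1444) (nat_lit 6) (nat_lit 19) (nat_lit 0) (nat_lit 161) (nat_lit 160) (nat_lit 129)))) (PT.nd (nat_lit 44148) (PT.nd (nat_lit 44070)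 (PT.lf (nat_lit 1292) (nat_lit 6) (nat_lit 17) (nat_lit 0) (nat_lit 162) (nat_lit 160) (nat_lit 128)) (PT.lf (nat_lit 1064) (nat_lit 6) (nat_lit 14) (nat_lit 5) (nat_lit 126) (nat_lit 161) (nat_lit 163))) (PT.nd (nat_lit 78) (PT.lf (nat_lit 1216) (nat_lit 6) (nat_lit 16) (nat_lit 5) (nat_lit 127) (nat_lit 161) (nat_lit 162)) (PT.lf (nat_lit 1368) (nat_lit 3) (nat_lit 18) (nat_lit 4) (nat_lit 128) (nat_lit 161) (nat_lit 161))))) (PT.nd (nat_lit 2262) (PT.nd (nat_lit 78) (PT.lf (nat_lit 1444) (nat_lit 6) (nat_lit 19) (nat_lit 4) (nat_lit 129) (nat_lit 161) (nat_lit 160)) (PT.nd (nat_lit 78) (PT.lf (nat_lit 1520) (nat_lit 6) (nat_lit 20) (nat_lit 4) (nat_lit 130) (nat_lit 161) (nat_lit 159)) (PT.lf (nat_lit 1672) (nat_lit 6) (nat_lit 22) (nat_lit 4) (nat_lit 131) (nat_lit 161) (nat_lit 158)))) (PT.nd (nat_lit 156) (PT.nd (nat_lit 78) (PT.lf (nat_lit 1672) (nat_lit 6) (nat_lit 22) (nat_lit 2)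 (nat_lit 158) (nat_lit 161) (nat_lit 131)) (PT.lf (nat_lit 1520) (nat_lit 6) (nat_lit 20) (nat_lit 2) (nat_lit 159) (nat_lit 161) (nat_lit 130))) (PT.nd (nat_lit 78) (PT.lf (nat_lit 1444) (nat_lit 6) (nat_lit 19) (nat_lit 2) (nat_lit 160) (nat_lit 161) (nat_lit 129)) (PT.lf (nat_lit 1368) (nat_lit 3) (nat_lit 18) (nat_lit 0) (nat_lit 161) (nat_lit 161) (nat_lit 128))))))))
noncomputable def pc7 : PT := (PT.nd (nat_lit 140634) (PT.nd (nat_lit 90714) (PT.nd (nat_lit 44226) (PT.nd (nat_lit 43992) (PT.nd (nat_lit 78) (PT.lf (nat_lit 1216) (nat_lit 6) (nat_lit 16) (nat_lit 0) (nat_lit 162) (nat_lit 161) (nat_lit 127)) (PT.nd (nat_lit 43836) (PT.lf (nat_lit 1064) (nat_lit 6) (nat_lit 14) (nat_lit 0) (nat_lit 163) (nat_lit 161) (nat_lit 126)) (PT.lf (nat_lit 836) (nat_lit 6) (nat_lit 11) (nat_lit 5) (nat_lit 124) (nat_lit 162) (nat_lit 164)))) (PT.nd (nat_lit 78) (PT.lf (nat_lit 988) (nat_lit 6)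 (nat_lit 13) (nat_lit 5) (nat_lit 125) (nat_lit 162) (nat_lit 163)) (PT.nd (nat_lit 78) (PT.lf (nat_lit 1140) (nat_lit 3) (nat_lit 15) (nat_lit 4) (nat_lit 126) (nat_lit 162) (nat_lit 162)) (PT.lf (nat_lit 1216) (nat_lit 6) (nat_lit 16) (nat_lit 4) (nat_lit 127) (nat_lit 162) (nat_lit 161))))) (PT.nd (nat_lit 2652) (PT.nd (nat_lit 2496) (PT.lf (nat_lit 1292) (nat_lit 6) (nat_lit 17) (nat_lit 4) (nat_lit 128) (nat_lit 162) (nat_lit 160)) (PT.nd (nat_lit 78) (PT.lf (nat_lit 1292) (nat_lit 6) (nat_lit 17) (nat_lit 2) (nat_lit 160) (nat_lit 162) (nat_lit 128)) (PT.lf (nat_lit 1216) (nat_lit 6) (nat_lit 16) (nat_lit 2) (nat_lit 161) (nat_lit 162) (nat_lit 127)))) (PT.nd (nat_lit 156) (PT.nd (nat_lit 78) (PT.lf (nat_lit 1140) (nat_lit 3) (nat_lit 15) (nat_lit 0) (nat_lit 162) (nat_lit 162) (nat_lit 126)) (PT.lf (nat_lit 988) (nat_lit 6) (nat_lit 13) (nat_lit 0) (nat_lit 163) (nat_lit 162) (nat_lit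 125))) (PT.nd (nat_lit 43602) (PT.lf (nat_lit 836) (nat_lit 6) (nat_lit 11) (nat_lit 0) (nat_lit 164) (nat_lit 162) (nat_lit 124)) (PT.lf (nat_lit 608) (nat_lit 6) (nat_lit 8) (nat_lit 5) (nat_lit 122) (nat_lit 163) (nat_lit 165)))))) (PT.nd (nat_lit 3198) (PT.nd (nat_lit 234) (PT.nd (nat_lit 78) (PT.lf (nat_lit 760) (nat_lit 6) (nat_lit 10) (nat_lit 5) (nat_lit 123) (nat_lit 163) (nat_lit 164)) (PT.nd (nat_lit 78) (PT.lf (nat_lit 912) (nat_lit 3) (nat_lit 12) (nat_lit 4) (nat_lit 124) (nat_lit 163) (nat_lit 163)) (PT.lf (nat_lit 988) (nat_lit 6) (nat_lit 13) (nat_lit 4) (nat_lit 125) (nat_lit 163) (nat_lit 162)))) (PT.nd (nat_lit 2808) (PT.nd (nat_lit 2730) (PT.lf (nat_lit 1064) (nat_lit 6) (nat_lit 14) (nat_lit 4) (nat_lit 126) (nat_lit 163) (nat_lit 161)) (PT.lf (nat_lit 1064) (nat_lit 6) (nat_lit 14) (nat_lit 2) (nat_lit 161) (nat_lit 163) (nat_lit 126))) (PT.nd (nat_lit 78) (PT.lf (nat_lit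 988) (nat_lit 6) (nat_lit 13) (nat_lit 2) (nat_lit 162) (nat_lit 163) (nat_lit 125)) (PT.lf (nat_lit 912) (nat_lit 3) (nat_lit 12) (nat_lit 0) (nat_lit 163) (nat_lit 163) (nat_lit 124))))) (PT.nd (nat_lit 43524) (PT.nd (nat_lit 78) (PT.lf (nat_lit 760) (nat_lit 6) (nat_lit 10) (nat_lit 0) (nat_lit 164) (nat_lit 163) (nat_lit 123)) (PT.nd (nat_lit 43368) (PT.lf (nat_lit 608) (nat_lit 6) (nat_lit 8) (nat_lit 0) (nat_lit 165) (nat_lit 163) (nat_lit 122)) (PT.lf (nat_lit 380) (nat_lit 6) (nat_lit 5) (nat_lit 5) (nat_lit 120) (nat_lit 164) (nat_lit 166)))) (PT.nd (nat_lit 156) (PT.nd (nat_lit 78) (PT.lf (nat_lit 532) (nat_lit 6) (nat_lit 7) (nat_lit 5) (nat_lit 121) (nat_lit 164) (nat_lit 165)) (PT.lf (nat_lit 684) (nat_lit 3) (nat_lit 9) (nat_lit 4) (nat_lit 122) (nat_lit 164) (nat_lit 164))) (PT.nd (nat_lit 78) (PT.lf (nat_lit 760) (nat_lit 6) (nat_lit 10) (nat_lit 4) (nat_lit 123) (nat_lit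 164) (nat_lit 163)) (PT.lf (nat_lit 836) (nat_lit 6) (nat_lit 11) (nat_lit 4) (nat_lit 124) (nat_lit 164) (nat_lit 162))))))) (PT.nd (nat_lit 47190) (PT.nd (nat_lit 43524) (PT.nd (nat_lit 234) (PT.nd (nat_lit 78) (PT.lf (nat_lit 836) (nat_lit 6) (nat_lit 11) (nat_lit 2) (nat_lit 162) (nat_lit 164) (nat_lit 124)) (PT.nd (nat_lit 78) (PT.lf (nat_lit 760) (nat_lit 6) (nat_lit 10) (nat_lit 2) (nat_lit 163) (nat_lit 164) (nat_lit 123)) (PT.lf (nat_lit 684) (nat_lit 3) (nat_lit 9) (nat_lit 0) (nat_lit 164) (nat_lit 164) (nat_lit 122)))) (PT.nd (nat_lit 78) (PT.lf (nat_lit 532) (nat_lit 6) (nat_lit 7) (nat_lit 0) (nat_lit 165) (nat_lit 164) (nat_lit 121)) (PT.nd (nat_lit 43134) (PT.lf (nat_lit 380) (nat_lit 6) (nat_lit 5) (nat_lit 0) (nat_lit 166) (nat_lit 164) (nat_lit 120)) (PT.lf (nat_lit 152) (nat_lit 6) (nat_lit 2) (nat_lit 5) (nat_lit 118) (nat_lit 165) (nat_lit 167))))) (PT.nd (nat_lit 234)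 (PT.nd (nat_lit 78) (PT.lf (nat_lit 304) (nat_lit 6) (nat_lit 4) (nat_lit 5) (nat_lit 119) (nat_lit 165) (nat_lit 166)) (PT.nd (nat_lit 78) (PT.lf (nat_lit 456) (nat_lit 3) (nat_lit 6) (nat_lit 4) (nat_lit 120) (nat_lit 165) (nat_lit 165)) (PT.lf (nat_lit 532) (nat_lit 6) (nat_lit 7) (nat_lit 4) (nat_lit 121) (nat_lit 165) (nat_lit 164)))) (PT.nd (nat_lit 3276) (PT.nd (nat_lit 3198) (PT.lf (nat_lit 608) (nat_lit 6) (nat_lit 8) (nat_lit 4) (nat_lit 122) (nat_lit 165) (nat_lit 163)) (PT.lf (nat_lit 608) (nat_lit 6) (nat_lit 8) (nat_lit 2) (nat_lit 163) (nat_lit 165) (nat_lit 122))) (PT.nd (nat_lit 78) (PT.lf (nat_lit 532) (nat_lit 6) (nat_lit 7) (nat_lit 2) (nat_lit 164) (nat_lit 165) (nat_lit 121)) (PT.lf (nat_lit 456) (nat_lit 3) (nat_lit 6) (nat_lit 0) (nat_lit 165) (nat_lit 165) (nat_lit 120)))))) (PT.nd (nat_lit 46800) (PT.nd (nat_lit 43134) (PT.nd (nat_lit 78) (PT.lf (nat_lit 304) (nat_lit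 6) (nat_lit 4) (nat_lit 0) (nat_lit 166) (nat_lit 165) (nat_lit 119)) (PT.nd (nat_lit 42978) (PT.lf (nat_lit 152) (nat_lit 6) (nat_lit 2) (nat_lit 0) (nat_lit 167) (nat_lit 165) (nat_lit 118)) (PT.lf (nat_lit 76) (nat_lit 6) (nat_lit 1) (nat_lit 5) (nat_lit 117) (nat_lit 166) (nat_lit 167)))) (PT.nd (nat_lit 156) (PT.nd (nat_lit 78) (PT.lf (nat_lit 228) (nat_lit 3) (nat_lit 3) (nat_lit 4) (nat_lit 118) (nat_lit 166) (nat_lit 166)) (PT.lf (nat_lit 304) (nat_lit 6) (nat_lit 4) (nat_lit 4) (nat_lit 119) (nat_lit 166) (nat_lit 165))) (PT.nd (nat_lit 3432) (PT.lf (nat_lit 380) (nat_lit 6) (nat_lit 5) (nat_lit 4) (nat_lit 120) (nat_lit 166) (nat_lit 164)) (PT.lf (nat_lit 380) (nat_lit 6) (nat_lit 5) (nat_lit 2) (nat_lit 164) (nat_lit 166) (nat_lit 120))))) (PT.nd (nat_lit 43134) (PT.nd (nat_lit 78) (PT.lf (nat_lit 304) (nat_lit 6) (nat_lit 4) (nat_lit 2) (nat_lit 165) (nat_lit 166) (nat_lit 119))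 (PT.nd (nat_lit 78) (PT.lf (nat_lit 228) (nat_lit 3) (nat_lit 3) (nat_lit 0) (nat_lit 166) (nat_lit 166) (nat_lit 118)) (PT.lf (nat_lit 76) (nat_lit 6) (nat_lit 1) (nat_lit 0) (nat_lit 167) (nat_lit 166) (nat_lit 117)))) (PT.nd (nat_lit 3744) (PT.nd (nat_lit 78) (PT.lf (nat_lit 76) (nat_lit 6) (nat_lit 1) (nat_lit 4) (nat_lit 117) (nat_lit 167) (nat_lit 166)) (PT.lf (nat_lit 152) (nat_lit 6) (nat_lit 2) (nat_lit 4) (nat_lit 118) (nat_lit 167) (nat_lit 165))) (PT.nd (nat_lit 78) (PT.lf (nat_lit 152) (nat_lit 6) (nat_lit 2) (nat_lit 2) (nat_lit 165) (nat_lit 167) (nat_lit 118)) (PT.lf (nat_lit 76) (nat_lit 6) (nat_lit 1) (nat_lit 2) (nat_lit 166) (nat_lit 167) (nat_lit 117))))))))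
noncomputable def xc0 : XT := (XT.nd (nat_lit 187200) (nat_lit 0) (nat_lit 0) (XT.nd (nat_lit 140166) (nat_lit 0) (nat_lit 0) (XT.nd (nat_lit 93444) (nat_lit 0) (nat_lit 0) (XT.nd (nat_lit 46800) (nat_lit 0) (nat_lit 0) (XT.nd (nat_lit 78) (nat_lit 0) (nat_lit 0) (XT.lf (nat_lit 0) (nat_lit 711443137922) (nat_lit 76) (nat_lit 6614706292) (nat_lit 76) (nat_lit 6614706292) (nat_lit 2) (nat_lit 4) (nat_lit 3) (nat_lit 5) (nat_lit 3) (nat_lit 4) (nat_lit 396) (nat_lit 252) (nat_lit 252)) (XT.nd (nat_lit 46644) (nat_lit 0) (nat_lit 0) (XT.lf (nat_lit 0) (nat_lit 1539780214358) (nat_lit 76) (nat_lit 12734472819) (nat_lit 76) (nat_lit 12700582857) (nat_lit 2) (nat_lit 4) (nat_lit 3) (nat_lit 5) (nat_lit 3) (nat_lit 4) (nat_lit 397) (nat_lit 252) (nat_lit 251)) (XT.lf (nat_lit 0) (nat_lit 607034130495) (nat_lit 76) (nat_lit 7164721190) (nat_lit 76) (nat_lit 7164721190) (nat_lit 2) (nat_lit 4) (nat_lit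 3) (nat_lit 5) (nat_lit 3) (nat_lit 4) (nat_lit 394) (nat_lit 253) (nat_lit 253)))) (XT.nd (nat_lit 78) (nat_lit 0) (nat_lit 0) (XT.lf (nat_lit 0) (nat_lit 1314501801230) (nat_lit 76) (nat_lit 13798241577) (nat_lit 76) (nat_lit 13761640417) (nat_lit 2) (nat_lit 4) (nat_lit 3) (nat_lit 5) (nat_lit 3) (nat_lit 4) (nat_lit 395) (nat_lit 253) (nat_lit 252)) (XT.nd (nat_lit 78) (nat_lit 0) (nat_lit 0) (XT.lf (nat_lit 0) (nat_lit 1422808730619) (nat_lit 76) (nat_lit 13304411001) (nat_lit 76) (nat_lit 13233919879) (nat_lit 2) (nat_lit 4) (nat_lit 3) (nat_lit 5) (nat_lit 3) (nat_lit 4) (nat_lit 396) (nat_lit 253) (nat_lit 251)) (XT.lf (nat_lit 0) (nat_lit 1539630867996) (nat_lit 76) (nat_lit 12845024249) (nat_lit 76) (nat_lit 12743153533) (nat_lit 2) (nat_lit 4) (nat_lit 3) (nat_lit 5) (nat_lit 3) (nat_lit 4) (nat_lit 397) (nat_lit 253) (nat_lit 250))))) (XT.nd (nat_lit 234) (nat_lit 0) (nat_lit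 0) (XT.nd (nat_lit 78) (nat_lit 0) (nat_lit 0) (XT.lf (nat_lit 0) (nat_lit 517287140032) (nat_lit 76) (nat_lit 7755764450) (nat_lit 76) (nat_lit 7755764450) (nat_lit 2) (nat_lit 4) (nat_lit 3) (nat_lit 5) (nat_lit 3) (nat_lit 4) (nat_lit 392) (nat_lit 254) (nat_lit 254)) (XT.nd (nat_lit 78) (nat_lit 0) (nat_lit 0) (XT.lf (nat_lit 0) (nat_lit 1120912948179) (nat_lit 76) (nat_lit 14940690522) (nat_lit 76) (nat_lit 14901161270) (nat_lit 2) (nat_lit 4) (nat_lit 3) (nat_lit 5) (nat_lit 3) (nat_lit 4) (nat_lit 393) (nat_lit 254) (nat_lit 253)) (XT.lf (nat_lit 0) (nat_lit 1213984512146) (nat_lit 76) (nat_lit 14410440670) (nat_lit 76) (nat_lit 14334310258) (nat_lit 2) (nat_lit 4) (nat_lit 3) (nat_lit 5) (nat_lit 3) (nat_lit 4) (nat_lit 394) (nat_lit 254) (nat_lit 252)))) (XT.nd (nat_lit 78) (nat_lit 0) (nat_lit 0) (XT.lf (nat_lit 0) (nat_lit 1314340507159) (nat_lit 76) (nat_lit 13917637121) (nat_lit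 76) (nat_lit 13807616748) (nat_lit 2) (nat_lit 4) (nat_lit 3) (nat_lit 5) (nat_lit 3) (nat_lit 4) (nat_lit 395) (nat_lit 254) (nat_lit 251)) (XT.nd (nat_lit 78) (nat_lit 0) (nat_lit 0) (XT.lf (nat_lit 0) (nat_lit 1422575635412) (nat_lit 76) (nat_lit 13459359560) (nat_lit 76) (nat_lit 13317959592) (nat_lit 2) (nat_lit 4) (nat_lit 3) (nat_lit 5) (nat_lit 3) (nat_lit 4) (nat_lit 396) (nat_lit 254) (nat_lit 250)) (XT.lf (nat_lit 0) (nat_lit 1539331290256) (nat_lit 76) (nat_lit 13032892267) (nat_lit 76) (nat_lit 12862437118) (nat_lit 2) (nat_lit 4) (nat_lit 3) (nat_lit 5) (nat_lit 3) (nat_lit 4) (nat_lit 397) (nat_lit 254) (nat_lit 249)))))) (XT.nd (nat_lit 468) (nat_lit 0) (nat_lit 0) (XT.nd (nat_lit 234) (nat_lit 0) (nat_lit 0) (XT.nd (nat_lit 78) (nat_lit 0) (nat_lit 0) (XT.lf (nat_lit 0) (nat_lit 440091818279) (nat_lit 76) (nat_lit 8391542448) (nat_lit 76) (nat_lit 8391542448) (nat_lit 2)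 (nat_lit 4) (nat_lit 3) (nat_lit 5) (nat_lit 3) (nat_lit 4) (nat_lit 390) (nat_lit 255) (nat_lit 255)) (XT.nd (nat_lit 78) (nat_lit 0) (nat_lit 0) (XT.lf (nat_lit 0) (nat_lit 954456871250) (nat_lit 76) (nat_lit 16169030143) (nat_lit 76) (nat_lit 16126338550) (nat_lit 2) (nat_lit 4) (nat_lit 3) (nat_lit 5) (nat_lit 3) (nat_lit 4) (nat_lit 391) (nat_lit 255) (nat_lit 254)) (XT.lf (nat_lit 0) (nat_lit 1034483831312) (nat_lit 76) (nat_lit 15599007052) (nat_lit 76) (nat_lit 15516786208) (nat_lit 2) (nat_lit 4) (nat_lit 3) (nat_lit 5) (nat_lit 3) (nat_lit 4) (nat_lit 392) (nat_lit 255) (nat_lit 253)))) (XT.nd (nat_lit 78) (nat_lit 0) (nat_lit 0) (XT.lf (nat_lit 0) (nat_lit 1120738750582) (nat_lit 76) (nat_lit 15069637710) (nat_lit 76) (nat_lit 14950815707) (nat_lit 2) (nat_lit 4) (nat_lit 3) (nat_lit 5) (nat_lit 3) (nat_lit 4) (nat_lit 393) (nat_lit 255) (nat_lit 252)) (XT.nd (nat_lit 78) (nat_lit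 0) (nat_lit 0) (XT.lf (nat_lit 0) (nat_lit 1213732769323) (nat_lit 76) (nat_lit 14577785114) (nat_lit 76) (nat_lit 14425073148) (nat_lit 2) (nat_lit 4) (nat_lit 3) (nat_lit 5) (nat_lit 3) (nat_lit 4) (nat_lit 394) (nat_lit 255) (nat_lit 251)) (XT.lf (nat_lit 0) (nat_lit 1314016963201) (nat_lit 76) (nat_lit 14120534580) (nat_lit 76) (nat_lit 13936443020) (nat_lit 2) (nat_lit 4) (nat_lit 3) (nat_lit 5) (nat_lit 3) (nat_lit 4) (nat_lit 395) (nat_lit 255) (nat_lit 250))))) (XT.nd (nat_lit 46332) (nat_lit 0) (nat_lit 0) (XT.nd (nat_lit 78) (nat_lit 0) (nat_lit 0) (XT.lf (nat_lit 0) (nat_lit 1422185608920) (nat_lit 76) (nat_lit 13695176477) (nat_lit 76) (nat_lit 13482029737) (nat_lit 2) (nat_lit 4) (nat_lit 3) (nat_lit 5) (nat_lit 3) (nat_lit 4) (nat_lit 396) (nat_lit 255) (nat_lit 249)) (XT.nd (nat_lit 46176) (nat_lit 0) (nat_lit 0) (XT.lf (nat_lit 0) (nat_lit 1538879705863) (nat_lit 76) (nat_lit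 13299190164) (nat_lit 76) (nat_lit 13059140479) (nat_lit 2) (nat_lit 4) (nat_lit 3) (nat_lit 5) (nat_lit 3) (nat_lit 4) (nat_lit 397) (nat_lit 255) (nat_lit 248)) (XT.lf (nat_lit 0) (nat_lit 373637389946) (nat_lit 76) (nat_lit 9075997567) (nat_lit 76) (nat_lit 9075997567) (nat_lit 2) (nat_lit 4) (nat_lit 3) (nat_lit 5) (nat_lit 3) (nat_lit 4) (nat_lit 388) (nat_lit 256) (nat_lit 256)))) (XT.nd (nat_lit 78) (nat_lit 0) (nat_lit 0) (XT.lf (nat_lit 0) (nat_lit 811223989552) (nat_lit 76) (nat_lit 17490917076) (nat_lit 76) (nat_lit 17444810157) (nat_lit 2) (nat_lit 4) (nat_lit 3) (nat_lit 5) (nat_lit 3) (nat_lit 4) (nat_lit 389) (nat_lit 256) (nat_lit 255)) (XT.nd (nat_lit 78) (nat_lit 0) (nat_lit 0) (XT.lf (nat_lit 0) (nat_lit 880085951907) (nat_lit 76) (nat_lit 16877561300) (nat_lit 76) (nat_lit 16788762789) (nat_lit 2) (nat_lit 4) (nat_lit 3) (nat_lit 5) (nat_lit 3) (nat_lit 4) (nat_lit 390)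 (nat_lit 256) (nat_lit 254)) (XT.lf (nat_lit 0) (nat_lit 954268737846) (nat_lit 76) (nat_lit 16308293106) (nat_lit 76) (nat_lit 16179965342) (nat_lit 2) (nat_lit 4) (nat_lit 3) (nat_lit 5) (nat_lit 3) (nat_lit 4) (nat_lit 391) (nat_lit 256) (nat_lit 253))))))) (XT.nd (nat_lit 46878) (nat_lit 0) (nat_lit 0) (XT.nd (nat_lit 46410) (nat_lit 0) (nat_lit 0) (XT.nd (nat_lit 234) (nat_lit 0) (nat_lit 0) (XT.nd (nat_lit 78) (nat_lit 0) (nat_lit 0) (XT.lf (nat_lit 0) (nat_lit 1034211949063) (nat_lit 76) (nat_lit 15779739052) (nat_lit 76) (nat_lit 15614810129) (nat_lit 2) (nat_lit 4) (nat_lit 3) (nat_lit 5) (nat_lit 3) (nat_lit 4) (nat_lit 392) (nat_lit 256) (nat_lit 252)) (XT.nd (nat_lit 78) (nat_lit 0) (nat_lit 0) (XT.lf (nat_lit 0) (nat_lit 1120389323107) (nat_lit 76) (nat_lit 15288766966) (nat_lit 76) (nat_lit 15089948081) (nat_lit 2) (nat_lit 4) (nat_lit 3) (nat_lit 5) (nat_lit 3) (nat_lit 4)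 (nat_lit 393) (nat_lit 256) (nat_lit 251)) (XT.lf (nat_lit 0) (nat_lit 1213311540712) (nat_lit 76) (nat_lit 14832467384) (nat_lit 76) (nat_lit 14602268904) (nat_lit 2) (nat_lit 4) (nat_lit 3) (nat_lit 5) (nat_lit 3) (nat_lit 4) (nat_lit 394) (nat_lit 256) (nat_lit 250)))) (XT.nd (nat_lit 78) (nat_lit 0) (nat_lit 0) (XT.lf (nat_lit 0) (nat_lit 1313529252057) (nat_lit 76) (nat_lit 14408136309) (nat_lit 76) (nat_lit 14148882649) (nat_lit 2) (nat_lit 4) (nat_lit 3) (nat_lit 5) (nat_lit 3) (nat_lit 4) (nat_lit 395) (nat_lit 256) (nat_lit 249)) (XT.nd (nat_lit 78) (nat_lit 0) (nat_lit 0) (XT.lf (nat_lit 0) (nat_lit 1421636339875) (nat_lit 76) (nat_lit 14013259186) (nat_lit 76) (nat_lit 13727102581) (nat_lit 2) (nat_lit 4) (nat_lit 3) (nat_lit 5) (nat_lit 3) (nat_lit 4) (nat_lit 396) (nat_lit 256) (nat_lit 248)) (XT.lf (nat_lit 0) (nat_lit 1538273438762) (nat_lit 76) (nat_lit 13645496002) (nat_lit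 76) (nat_lit 13334429263) (nat_lit 2) (nat_lit 4) (nat_lit 3) (nat_lit 5) (nat_lit 3) (nat_lit 4) (nat_lit 397) (nat_lit 256) (nat_lit 247))))) (XT.nd (nat_lit 234) (nat_lit 0) (nat_lit 0) (XT.nd (nat_lit 78) (nat_lit 0) (nat_lit 0) (XT.lf (nat_lit 0) (nat_lit 316369795926) (nat_lit 76) (nat_lit 9813335709) (nat_lit 76) (nat_lit 9813335709) (nat_lit 2) (nat_lit 4) (nat_lit 3) (nat_lit 5) (nat_lit 3) (nat_lit 4) (nat_lit 386) (nat_lit 257) (nat_lit 257)) (XT.nd (nat_lit 78) (nat_lit 0) (nat_lit 0) (XT.lf (nat_lit 0) (nat_lit 687859364650) (nat_lit 76) (nat_lit 18914508448) (nat_lit 76) (nat_lit 18864712975) (nat_lit 2) (nat_lit 4) (nat_lit 3) (nat_lit 5) (nat_lit 3) (nat_lit 4) (nat_lit 387) (nat_lit 257) (nat_lit 256)) (XT.lf (nat_lit 0) (nat_lit 747169280468) (nat_lit 76) (nat_lit 18254029651) (nat_lit 76) (nat_lit 18158127258) (nat_lit 2) (nat_lit 4) (nat_lit 3) (nat_lit 5) (nat_lit 3)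 (nat_lit 4) (nat_lit 388) (nat_lit 257) (nat_lit 255)))) (XT.nd (nat_lit 78) (nat_lit 0) (nat_lit 0) (XT.lf (nat_lit 0) (nat_lit 811020805475) (nat_lit 76) (nat_lit 17641321077) (nat_lit 76) (nat_lit 17502727092) (nat_lit 2) (nat_lit 4) (nat_lit 3) (nat_lit 5) (nat_lit 3) (nat_lit 4) (nat_lit 389) (nat_lit 257) (nat_lit 254)) (XT.nd (nat_lit 78) (nat_lit 0) (nat_lit 0) (XT.lf (nat_lit 0) (nat_lit 879792319078) (nat_lit 76) (nat_lit 17072751860) (nat_lit 76) (nat_lit 16894628623) (nat_lit 2) (nat_lit 4) (nat_lit 3) (nat_lit 5) (nat_lit 3) (nat_lit 4) (nat_lit 390) (nat_lit 257) (nat_lit 253)) (XT.lf (nat_lit 0) (nat_lit 953891356172) (nat_lit 76) (nat_lit 16544952702) (nat_lit 76) (nat_lit 16330228306) (nat_lit 2) (nat_lit 4) (nat_lit 3) (nat_lit 5) (nat_lit 3) (nat_lit 4) (nat_lit 391) (nat_lit 257) (nat_lit 252)))))) (XT.nd (nat_lit 46254) (nat_lit 0) (nat_lit 0) (XT.nd (nat_lit 234) (nat_lit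 0) (nat_lit 0) (XT.nd (nat_lit 78) (nat_lit 0) (nat_lit 0) (XT.lf (nat_lit 0) (nat_lit 1033757022163) (nat_lit 76) (nat_lit 16054795904) (nat_lit 76) (nat_lit 15806181546) (nat_lit 2) (nat_lit 4) (nat_lit 3) (nat_lit 5) (nat_lit 3) (nat_lit 4) (nat_lit 392) (nat_lit 257) (nat_lit 251)) (XT.nd (nat_lit 78) (nat_lit 0) (nat_lit 0) (XT.lf (nat_lit 0) (nat_lit 1119862595071) (nat_lit 76) (nat_lit 15599376833) (nat_lit 76) (nat_lit 15319382880) (nat_lit 2) (nat_lit 4) (nat_lit 3) (nat_lit 5) (nat_lit 3) (nat_lit 4) (nat_lit 393) (nat_lit 257) (nat_lit 250)) (XT.lf (nat_lit 0) (nat_lit 1212718330143) (nat_lit 76) (nat_lit 15175996710) (nat_lit 76) (nat_lit 14866947576) (nat_lit 2) (nat_lit 4) (nat_lit 3) (nat_lit 5) (nat_lit 3) (nat_lit 4) (nat_lit 394) (nat_lit 257) (nat_lit 249)))) (XT.nd (nat_lit 78) (nat_lit 0) (nat_lit 0) (XT.lf (nat_lit 0) (nat_lit 1312874483587) (nat_lit 76) (nat_lit 14782146614)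 (nat_lit 76) (nat_lit 14446194536) (nat_lit 2) (nat_lit 4) (nat_lit 3) (nat_lit 5) (nat_lit 3) (nat_lit 4) (nat_lit 395) (nat_lit 257) (nat_lit 248)) (XT.nd (nat_lit 78) (nat_lit 0) (nat_lit 0) (XT.lf (nat_lit 0) (nat_lit 1420924573349) (nat_lit 76) (nat_lit 14415492621) (nat_lit 76) (nat_lit 14054630408) (nat_lit 2) (nat_lit 4) (nat_lit 3) (nat_lit 5) (nat_lit 3) (nat_lit 4) (nat_lit 396) (nat_lit 257) (nat_lit 247)) (XT.lf (nat_lit 0) (nat_lit 1537508896258) (nat_lit 76) (nat_lit 14073861964) (nat_lit 76) (nat_lit 13689934813) (nat_lit 2) (nat_lit 4) (nat_lit 3) (nat_lit 5) (nat_lit 3) (nat_lit 4) (nat_lit 397) (nat_lit 257) (nat_lit 246))))) (XT.nd (nat_lit 234) (nat_lit 0) (nat_lit 0) (XT.nd (nat_lit 78) (nat_lit 0) (nat_lit 0) (XT.lf (nat_lit 0) (nat_lit 266954940972) (nat_lit 76) (nat_lit 10608054774) (nat_lit 76) (nat_lit 10608054774) (nat_lit 2) (nat_lit 4) (nat_lit 3) (nat_lit 5)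 (nat_lit 3) (nat_lit 4) (nat_lit 384) (nat_lit 258) (nat_lit 258)) (XT.nd (nat_lit 78) (nat_lit 0) (nat_lit 0) (XT.lf (nat_lit 0) (nat_lit 581483326386) (nat_lit 76) (nat_lit 20448517895) (nat_lit 76) (nat_lit 20394738784) (nat_lit 2) (nat_lit 4) (nat_lit 3) (nat_lit 5) (nat_lit 3) (nat_lit 4) (nat_lit 385) (nat_lit 258) (nat_lit 257)) (XT.lf (nat_lit 0) (nat_lit 632625652474) (nat_lit 76) (nat_lit 19736868695) (nat_lit 76) (nat_lit 19633294111) (nat_lit 2) (nat_lit 4) (nat_lit 3) (nat_lit 5) (nat_lit 3) (nat_lit 4) (nat_lit 386) (nat_lit 258) (nat_lit 256)))) (XT.nd (nat_lit 156) (nat_lit 0) (nat_lit 0) (XT.nd (nat_lit 78) (nat_lit 0) (nat_lit 0) (XT.lf (nat_lit 0) (nat_lit 687639925847) (nat_lit 76) (nat_lit 19076944769) (nat_lit 76) (nat_lit 18927263265) (nat_lit 2) (nat_lit 4) (nat_lit 3) (nat_lit 5) (nat_lit 3) (nat_lit 4) (nat_lit 387) (nat_lit 258) (nat_lit 255)) (XT.lf (nat_lit 0)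 (nat_lit 746852157013) (nat_lit 76) (nat_lit 18464835455) (nat_lit 76) (nat_lit 18272462360) (nat_lit 2) (nat_lit 4) (nat_lit 3) (nat_lit 5) (nat_lit 3) (nat_lit 4) (nat_lit 388) (nat_lit 258) (nat_lit 254))) (XT.nd (nat_lit 78) (nat_lit 0) (nat_lit 0) (XT.lf (nat_lit 0) (nat_lit 810613233267) (nat_lit 76) (nat_lit 17896913441) (nat_lit 76) (nat_lit 17665011093) (nat_lit 2) (nat_lit 4) (nat_lit 3) (nat_lit 5) (nat_lit 3) (nat_lit 4) (nat_lit 389) (nat_lit 258) (nat_lit 253)) (XT.lf (nat_lit 0) (nat_lit 879300998026) (nat_lit 76) (nat_lit 17369813261) (nat_lit 76) (nat_lit 17101309753) (nat_lit 2) (nat_lit 4) (nat_lit 3) (nat_lit 5) (nat_lit 3) (nat_lit 4) (nat_lit 390) (nat_lit 258) (nat_lit 252))))))))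
noncomputable def xc1 : XT := (XT.nd (nat_lit 93054) (nat_lit 0) (nat_lit 0) (XT.nd (nat_lit 46566) (nat_lit 0) (nat_lit 0) (XT.nd (nat_lit 468) (nat_lit 0) (nat_lit 0) (XT.nd (nat_lit 234) (nat_lit 0) (nat_lit 0) (XT.nd (nat_lit 78) (nat_lit 0) (nat_lit 0) (XT.lf (nat_lit 0) (nat_lit 953322489894) (nat_lit 76) (nat_lit 16880411359) (nat_lit 76) (nat_lit 16578017889) (nat_lit 2) (nat_lit 4) (nat_lit 3) (nat_lit 5) (nat_lit 3) (nat_lit 4) (nat_lit 391) (nat_lit 258) (nat_lit 251)) (XT.nd (nat_lit 78) (nat_lit 0) (nat_lit 0) (XT.lf (nat_lit 0) (nat_lit 1033116354749) (nat_lit 76) (nat_lit 16425807576) (nat_lit 76) (nat_lit 16092034511) (nat_lit 2) (nat_lit 4) (nat_lit 3) (nat_lit 5) (nat_lit 3) (nat_lit 4) (nat_lit 392) (nat_lit 258) (nat_lit 250)) (XT.lf (nat_lit 0) (nat_lit 1119155445124) (nat_lit 76) (nat_lit 16003307963) (nat_lit 76) (nat_lit 15640479718) (nat_lit 2) (nat_lit 4) (nat_lit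 3) (nat_lit 5) (nat_lit 3) (nat_lit 4) (nat_lit 393) (nat_lit 258) (nat_lit 249)))) (XT.nd (nat_lit 78) (nat_lit 0) (nat_lit 0) (XT.lf (nat_lit 0) (nat_lit 1211949622295) (nat_lit 76) (nat_lit 15610408819) (nat_lit 76) (nat_lit 15220677630) (nat_lit 2) (nat_lit 4) (nat_lit 3) (nat_lit 5) (nat_lit 3) (nat_lit 4) (nat_lit 394) (nat_lit 258) (nat_lit 248)) (XT.nd (nat_lit 78) (nat_lit 0) (nat_lit 0) (XT.lf (nat_lit 0) (nat_lit 1312048777683) (nat_lit 76) (nat_lit 15244781853) (nat_lit 76) (nat_lit 14830140530) (nat_lit 2) (nat_lit 4) (nat_lit 3) (nat_lit 5) (nat_lit 3) (nat_lit 4) (nat_lit 395) (nat_lit 258) (nat_lit 247)) (XT.lf (nat_lit 0) (nat_lit 1420046091467) (nat_lit 76) (nat_lit 14904260387) (nat_lit 76) (nat_lit 14466554125) (nat_lit 2) (nat_lit 4) (nat_lit 3) (nat_lit 5) (nat_lit 3) (nat_lit 4) (nat_lit 396) (nat_lit 258) (nat_lit 246))))) (XT.nd (nat_lit 45864) (nat_lit 0) (nat_lit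 0) (XT.nd (nat_lit 45708) (nat_lit 0) (nat_lit 0) (XT.lf (nat_lit 0) (nat_lit 1536581547729) (nat_lit 76) (nat_lit 14586826515) (nat_lit 76) (nat_lit 14127763828) (nat_lit 2) (nat_lit 4) (nat_lit 3) (nat_lit 5) (nat_lit 3) (nat_lit 4) (nat_lit 397) (nat_lit 258) (nat_lit 245)) (XT.nd (nat_lit 78) (nat_lit 0) (nat_lit 0) (XT.lf (nat_lit 0) (nat_lit 224247174189) (nat_lit 76) (nat_lit 11464974369) (nat_lit 76) (nat_lit 11464974369) (nat_lit 2) (nat_lit 4) (nat_lit 3) (nat_lit 5) (nat_lit 3) (nat_lit 4) (nat_lit 382) (nat_lit 259) (nat_lit 259)) (XT.lf (nat_lit 0) (nat_lit 489623402445) (nat_lit 76) (nat_lit 22102273787) (nat_lit 76) (nat_lit 22044192347) (nat_lit 2) (nat_lit 4) (nat_lit 3) (nat_lit 5) (nat_lit 3) (nat_lit 4) (nat_lit 383) (nat_lit 259) (nat_lit 258)))) (XT.nd (nat_lit 78) (nat_lit 0) (nat_lit 0) (XT.lf (nat_lit 0) (nat_lit 533786827416) (nat_lit 76) (nat_lit 21335122608) (nat_lit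 76) (nat_lit 21223262057) (nat_lit 2) (nat_lit 4) (nat_lit 3) (nat_lit 5) (nat_lit 3) (nat_lit 4) (nat_lit 384) (nat_lit 259) (nat_lit 257)) (XT.nd (nat_lit 78) (nat_lit 0) (nat_lit 0) (XT.lf (nat_lit 0) (nat_lit 581246332478) (nat_lit 76) (nat_lit 20623949121) (nat_lit 76) (nat_lit 20462293097) (nat_lit 2) (nat_lit 4) (nat_lit 3) (nat_lit 5) (nat_lit 3) (nat_lit 4) (nat_lit 385) (nat_lit 259) (nat_lit 256)) (XT.lf (nat_lit 0) (nat_lit 632283159143) (nat_lit 76) (nat_lit 19964538964) (nat_lit 76) (nat_lit 19756776021) (nat_lit 2) (nat_lit 4) (nat_lit 3) (nat_lit 5) (nat_lit 3) (nat_lit 4) (nat_lit 386) (nat_lit 259) (nat_lit 255)))))) (XT.nd (nat_lit 468) (nat_lit 0) (nat_lit 0) (XT.nd (nat_lit 234) (nat_lit 0) (nat_lit 0) (XT.nd (nat_lit 78) (nat_lit 0) (nat_lit 0) (XT.lf (nat_lit 0) (nat_lit 687199747863) (nat_lit 76) (nat_lit 19352984522) (nat_lit 76) (nat_lit 19102529986) (nat_lit 2)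 (nat_lit 4) (nat_lit 3) (nat_lit 5) (nat_lit 3) (nat_lit 4) (nat_lit 387) (nat_lit 259) (nat_lit 254)) (XT.nd (nat_lit 78) (nat_lit 0) (nat_lit 0) (XT.lf (nat_lit 0) (nat_lit 746321530277) (nat_lit 76) (nat_lit 18785661768) (nat_lit 76) (nat_lit 18495677980) (nat_lit 2) (nat_lit 4) (nat_lit 3) (nat_lit 5) (nat_lit 3) (nat_lit 4) (nat_lit 388) (nat_lit 259) (nat_lit 253)) (XT.lf (nat_lit 0) (nat_lit 809998857687) (nat_lit 76) (nat_lit 18259208790) (nat_lit 76) (nat_lit 17932623843) (nat_lit 2) (nat_lit 4) (nat_lit 3) (nat_lit 5) (nat_lit 3) (nat_lit 4) (nat_lit 389) (nat_lit 259) (nat_lit 252)))) (XT.nd (nat_lit 78) (nat_lit 0) (nat_lit 0) (XT.lf (nat_lit 0) (nat_lit 878609077219) (nat_lit 76) (nat_lit 17770505866) (nat_lit 76) (nat_lit 17410030956) (nat_lit 2) (nat_lit 4) (nat_lit 3) (nat_lit 5) (nat_lit 3) (nat_lit 4) (nat_lit 390) (nat_lit 259) (nat_lit 251)) (XT.nd (nat_lit 78) (nat_lit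 0) (nat_lit 0) (XT.lf (nat_lit 0) (nat_lit 952558767951) (nat_lit 76) (nat_lit 17316656979) (nat_lit 76) (nat_lit 16924802475) (nat_lit 2) (nat_lit 4) (nat_lit 3) (nat_lit 5) (nat_lit 3) (nat_lit 4) (nat_lit 391) (nat_lit 259) (nat_lit 250)) (XT.lf (nat_lit 0) (nat_lit 1032286150273) (nat_lit 76) (nat_lit 16894972654) (nat_lit 76) (nat_lit 16474062969) (nat_lit 2) (nat_lit 4) (nat_lit 3) (nat_lit 5) (nat_lit 3) (nat_lit 4) (nat_lit 392) (nat_lit 259) (nat_lit 249))))) (XT.nd (nat_lit 234) (nat_lit 0) (nat_lit 0) (XT.nd (nat_lit 78) (nat_lit 0) (nat_lit 0) (XT.lf (nat_lit 0) (nat_lit 1118263682747) (nat_lit 76) (nat_lit 16502954021) (nat_lit 76) (nat_lit 16055141392) (nat_lit 2) (nat_lit 4) (nat_lit 3) (nat_lit 5) (nat_lit 3) (nat_lit 4) (nat_lit 393) (nat_lit 259) (nat_lit 248)) (XT.nd (nat_lit 78) (nat_lit 0) (nat_lit 0) (XT.lf (nat_lit 0) (nat_lit 1211000861862) (nat_lit 76) (nat_lit 16138278007)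 (nat_lit 76) (nat_lit 15665555243) (nat_lit 2) (nat_lit 4) (nat_lit 3) (nat_lit 5) (nat_lit 3) (nat_lit 4) (nat_lit 394) (nat_lit 259) (nat_lit 247)) (XT.lf (nat_lit 0) (nat_lit 1311047241272) (nat_lit 76) (nat_lit 15798783568) (nat_lit 76) (nat_lit 15302995866) (nat_lit 2) (nat_lit 4) (nat_lit 3) (nat_lit 5) (nat_lit 3) (nat_lit 4) (nat_lit 395) (nat_lit 259) (nat_lit 246)))) (XT.nd (nat_lit 45630) (nat_lit 0) (nat_lit 0) (XT.nd (nat_lit 78) (nat_lit 0) (nat_lit 0) (XT.lf (nat_lit 0) (nat_lit 1418995688409) (nat_lit 76) (nat_lit 15482458886) (nat_lit 76) (nat_lit 14965314759) (nat_lit 2) (nat_lit 4) (nat_lit 3) (nat_lit 5) (nat_lit 3) (nat_lit 4) (nat_lit 396) (nat_lit 259) (nat_lit 245)) (XT.lf (nat_lit 0) (nat_lit 1535485897777) (nat_lit 76) (nat_lit 15187429444) (nat_lit 76) (nat_lit 14650510850) (nat_lit 2) (nat_lit 4) (nat_lit 3) (nat_lit 5) (nat_lit 3) (nat_lit 4) (nat_lit 397) (nat_lit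 259) (nat_lit 244))) (XT.nd (nat_lit 78) (nat_lit 0) (nat_lit 0) (XT.lf (nat_lit 0) (nat_lit 187262254999) (nat_lit 76) (nat_lit 12389266980) (nat_lit 76) (nat_lit 12389266980) (nat_lit 2) (nat_lit 4) (nat_lit 3) (nat_lit 5) (nat_lit 3) (nat_lit 4) (nat_lit 380) (nat_lit 260) (nat_lit 260)) (XT.lf (nat_lit 0) (nat_lit 410155937490) (nat_lit 76) (nat_lit 23885780159) (nat_lit 76) (nat_lit 23823052204) (nat_lit 2) (nat_lit 4) (nat_lit 3) (nat_lit 5) (nat_lit 3) (nat_lit 4) (nat_lit 381) (nat_lit 260) (nat_lit 259))))))) (XT.nd (nat_lit 936) (nat_lit 0) (nat_lit 0) (XT.nd (nat_lit 468) (nat_lit 0) (nat_lit 0) (XT.nd (nat_lit 234) (nat_lit 0) (nat_lit 0) (XT.nd (nat_lit 78) (nat_lit 0) (nat_lit 0) (XT.lf (nat_lit 0) (nat_lit 448361449488) (nat_lit 76) (nat_lit 23058482843) (nat_lit 76) (nat_lit 22937673448) (nat_lit 2) (nat_lit 4) (nat_lit 3) (nat_lit 5) (nat_lit 3) (nat_lit 4) (nat_lit 382)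 (nat_lit 260) (nat_lit 258)) (XT.nd (nat_lit 78) (nat_lit 0) (nat_lit 0) (XT.lf (nat_lit 0) (nat_lit 489367449025) (nat_lit 76) (nat_lit 22291739511) (nat_lit 76) (nat_lit 22117151005) (nat_lit 2) (nat_lit 4) (nat_lit 3) (nat_lit 5) (nat_lit 3) (nat_lit 4) (nat_lit 383) (nat_lit 260) (nat_lit 257)) (XT.lf (nat_lit 0) (nat_lit 533416934618) (nat_lit 76) (nat_lit 21581006498) (nat_lit 76) (nat_lit 21356622519) (nat_lit 2) (nat_lit 4) (nat_lit 3) (nat_lit 5) (nat_lit 3) (nat_lit 4) (nat_lit 384) (nat_lit 260) (nat_lit 256)))) (XT.nd (nat_lit 78) (nat_lit 0) (nat_lit 0) (XT.lf (nat_lit 0) (nat_lit 580770940256) (nat_lit 76) (nat_lit 20922072054) (nat_lit 76) (nat_lit 20651581156) (nat_lit 2) (nat_lit 4) (nat_lit 3) (nat_lit 5) (nat_lit 3) (nat_lit 4) (nat_lit 385) (nat_lit 260) (nat_lit 255)) (XT.nd (nat_lit 78) (nat_lit 0) (nat_lit 0) (XT.lf (nat_lit 0) (nat_lit 631710082268) (nat_lit 76) (nat_lit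 20311031382) (nat_lit 76) (nat_lit 19997848891) (nat_lit 2) (nat_lit 4) (nat_lit 3) (nat_lit 5) (nat_lit 3) (nat_lit 4) (nat_lit 386) (nat_lit 260) (nat_lit 254)) (XT.lf (nat_lit 0) (nat_lit 686536222236) (nat_lit 76) (nat_lit 19744263499) (nat_lit 76) (nat_lit 19391551756) (nat_lit 2) (nat_lit 4) (nat_lit 3) (nat_lit 5) (nat_lit 3) (nat_lit 4) (nat_lit 387) (nat_lit 260) (nat_lit 253))))) (XT.nd (nat_lit 234) (nat_lit 0) (nat_lit 0) (XT.nd (nat_lit 78) (nat_lit 0) (nat_lit 0) (XT.lf (nat_lit 0) (nat_lit 745574255805) (nat_lit 76) (nat_lit 19218409781) (nat_lit 76) (nat_lit 18829096879) (nat_lit 2) (nat_lit 4) (nat_lit 3) (nat_lit 5) (nat_lit 3) (nat_lit 4) (nat_lit 388) (nat_lit 260) (nat_lit 252)) (XT.nd (nat_lit 78) (nat_lit 0) (nat_lit 0) (XT.lf (nat_lit 0) (nat_lit 809174037989) (nat_lit 76) (nat_lit 18730354059) (nat_lit 76) (nat_lit 18307151195) (nat_lit 2) (nat_lit 4) (nat_lit 3)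 (nat_lit 5) (nat_lit 3) (nat_lit 4) (nat_lit 389) (nat_lit 260) (nat_lit 251)) (XT.lf (nat_lit 0) (nat_lit 877712456385) (nat_lit 76) (nat_lit 18277204150) (nat_lit 76) (nat_lit 17822621691) (nat_lit 2) (nat_lit 4) (nat_lit 3) (nat_lit 5) (nat_lit 3) (nat_lit 4) (nat_lit 390) (nat_lit 260) (nat_lit 250)))) (XT.nd (nat_lit 78) (nat_lit 0) (nat_lit 0) (XT.lf (nat_lit 0) (nat_lit 951595664584) (nat_lit 76) (nat_lit 17856274721) (nat_lit 76) (nat_lit 17372637082) (nat_lit 2) (nat_lit 4) (nat_lit 3) (nat_lit 5) (nat_lit 3) (nat_lit 4) (nat_lit 391) (nat_lit 260) (nat_lit 249)) (XT.nd (nat_lit 78) (nat_lit 0) (nat_lit 0) (XT.lf (nat_lit 0) (nat_lit 1031261489005) (nat_lit 76) (nat_lit 17465071376) (nat_lit 76) (nat_lit 16954530792) (nat_lit 2) (nat_lit 4) (nat_lit 3) (nat_lit 5) (nat_lit 3) (nat_lit 4) (nat_lit 392) (nat_lit 260) (nat_lit 248)) (XT.lf (nat_lit 0) (nat_lit 1117182023423) (nat_lit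 76) (nat_lit 17101275873) (nat_lit 76) (nat_lit 16565825155) (nat_lit 2) (nat_lit 4) (nat_lit 3) (nat_lit 5) (nat_lit 3) (nat_lit 4) (nat_lit 393) (nat_lit 260) (nat_lit 247)))))) (XT.nd (nat_lit 45786) (nat_lit 0) (nat_lit 0) (XT.nd (nat_lit 234) (nat_lit 0) (nat_lit 0) (XT.nd (nat_lit 78) (nat_lit 0) (nat_lit 0) (XT.lf (nat_lit 0) (nat_lit 1209866426560) (nat_lit 76) (nat_lit 16762732386) (nat_lit 76) (nat_lit 16204216729) (nat_lit 2) (nat_lit 4) (nat_lit 3) (nat_lit 5) (nat_lit 3) (nat_lit 4) (nat_lit 394) (nat_lit 260) (nat_lit 246)) (XT.nd (nat_lit 78) (nat_lit 0) (nat_lit 0) (XT.lf (nat_lit 0) (nat_lit 1309863939323) (nat_lit 76) (nat_lit 16447434732) (nat_lit 76) (nat_lit 15867562650) (nat_lit 2) (nat_lit 4) (nat_lit 3) (nat_lit 5) (nat_lit 3) (nat_lit 4) (nat_lit 395) (nat_lit 260) (nat_lit 245)) (XT.lf (nat_lit 0) (nat_lit 1417767139566) (nat_lit 76) (nat_lit 16153514480) (nat_lit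 76) (nat_lit 15553867930) (nat_lit 2) (nat_lit 4) (nat_lit 3) (nat_lit 5) (nat_lit 3) (nat_lit 4) (nat_lit 396) (nat_lit 260) (nat_lit 244)))) (XT.nd (nat_lit 45396) (nat_lit 0) (nat_lit 0) (XT.lf (nat_lit 0) (nat_lit 1534215453660) (nat_lit 76) (nat_lit 15879229880) (nat_lit 76) (nat_lit 15261273639) (nat_lit 2) (nat_lit 4) (nat_lit 3) (nat_lit 5) (nat_lit 3) (nat_lit 4) (nat_lit 397) (nat_lit 260) (nat_lit 243)) (XT.nd (nat_lit 78) (nat_lit 0) (nat_lit 0) (XT.lf (nat_lit 0) (nat_lit 155154163790) (nat_lit 76) (nat_lit 13386490867) (nat_lit 76) (nat_lit 13386490867) (nat_lit 2) (nat_lit 4) (nat_lit 3) (nat_lit 5) (nat_lit 3) (nat_lit 4) (nat_lit 378) (nat_lit 261) (nat_lit 261)) (XT.lf (nat_lit 0) (nat_lit 341256017814) (nat_lit 76) (nat_lit 25809780833) (nat_lit 76) (nat_lit 25742034642) (nat_lit 2) (nat_lit 4) (nat_lit 3) (nat_lit 5) (nat_lit 3) (nat_lit 4) (nat_lit 379) (nat_lit 261)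 (nat_lit 260))))) (XT.nd (nat_lit 234) (nat_lit 0) (nat_lit 0) (XT.nd (nat_lit 78) (nat_lit 0) (nat_lit 0) (XT.lf (nat_lit 0) (nat_lit 374380979197) (nat_lit 76) (nat_lit 24917350793) (nat_lit 76) (nat_lit 24786876647) (nat_lit 2) (nat_lit 4) (nat_lit 3) (nat_lit 5) (nat_lit 3) (nat_lit 4) (nat_lit 380) (nat_lit 261) (nat_lit 259)) (XT.nd (nat_lit 78) (nat_lit 0) (nat_lit 0) (XT.lf (nat_lit 0) (nat_lit 409879507797) (nat_lit 76) (nat_lit 24090403141) (nat_lit 76) (nat_lit 23901847554) (nat_lit 2) (nat_lit 4) (nat_lit 3) (nat_lit 5) (nat_lit 3) (nat_lit 4) (nat_lit 381) (nat_lit 261) (nat_lit 258)) (XT.lf (nat_lit 0) (nat_lit 447961965266) (nat_lit 76) (nat_lit 23324037445) (nat_lit 76) (nat_lit 23081702747) (nat_lit 2) (nat_lit 4) (nat_lit 3) (nat_lit 5) (nat_lit 3) (nat_lit 4) (nat_lit 382) (nat_lit 261) (nat_lit 257)))) (XT.nd (nat_lit 156) (nat_lit 0) (nat_lit 0) (XT.nd (nat_lit 78) (nat_lit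 0) (nat_lit 0) (XT.lf (nat_lit 0) (nat_lit 488854025424) (nat_lit 76) (nat_lit 22613712279) (nat_lit 76) (nat_lit 22321582108) (nat_lit 2) (nat_lit 4) (nat_lit 3) (nat_lit 5) (nat_lit 3) (nat_lit 4) (nat_lit 383) (nat_lit 261) (nat_lit 256)) (XT.lf (nat_lit 0) (nat_lit 532798011593) (nat_lit 76) (nat_lit 21955218309) (nat_lit 76) (nat_lit 21616981219) (nat_lit 2) (nat_lit 4) (nat_lit 3) (nat_lit 5) (nat_lit 3) (nat_lit 4) (nat_lit 384) (nat_lit 261) (nat_lit 255))) (XT.nd (nat_lit 78) (nat_lit 0) (nat_lit 0) (XT.lf (nat_lit 0) (nat_lit 580054332578) (nat_lit 76) (nat_lit 21344653349) (nat_lit 76) (nat_lit 20963724667) (nat_lit 2) (nat_lit 4) (nat_lit 3) (nat_lit 5) (nat_lit 3) (nat_lit 4) (nat_lit 385) (nat_lit 261) (nat_lit 254)) (XT.lf (nat_lit 0) (nat_lit 630903025838) (nat_lit 76) (nat_lit 20778399236) (nat_lit 76) (nat_lit 20357941302) (nat_lit 2) (nat_lit 4) (nat_lit 3) (nat_lit 5)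 (nat_lit 3) (nat_lit 4) (nat_lit 386) (nat_lit 261) (nat_lit 253))))))))
noncomputable def xc2 : XT := (XT.nd (nat_lit 47034) (nat_lit 0) (nat_lit 0) (XT.nd (nat_lit 46098) (nat_lit 0) (nat_lit 0) (XT.nd (nat_lit 468) (nat_lit 0) (nat_lit 0) (XT.nd (nat_lit 234) (nat_lit 0) (nat_lit 0) (XT.nd (nat_lit 78) (nat_lit 0) (nat_lit 0) (XT.lf (nat_lit 0) (nat_lit 685645416962) (nat_lit 76) (nat_lit 20253100390) (nat_lit 76) (nat_lit 19796041296) (nat_lit 2) (nat_lit 4) (nat_lit 3) (nat_lit 5) (nat_lit 3) (nat_lit 4) (nat_lit 387) (nat_lit 261) (nat_lit 252)) (XT.nd (nat_lit 78) (nat_lit 0) (nat_lit 0) (XT.lf (nat_lit 0) (nat_lit 744605905304) (nat_lit 76) (nat_lit 19765643929) (nat_lit 76) (nat_lit 19274694873) (nat_lit 2) (nat_lit 4) (nat_lit 3) (nat_lit 5) (nat_lit 3) (nat_lit 4) (nat_lit 388) (nat_lit 261) (nat_lit 251)) (XT.lf (nat_lit 0) (nat_lit 808133886352) (nat_lit 76) (nat_lit 19313141221)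 (nat_lit 76) (nat_lit 18790812571) (nat_lit 2) (nat_lit 4) (nat_lit 3) (nat_lit 5) (nat_lit 3) (nat_lit 4) (nat_lit 389) (nat_lit 261) (nat_lit 250)))) (XT.nd (nat_lit 78) (nat_lit 0) (nat_lit 0) (XT.lf (nat_lit 0) (nat_lit 876605822216) (nat_lit 76) (nat_lit 18892910770) (nat_lit 76) (nat_lit 18341526939) (nat_lit 2) (nat_lit 4) (nat_lit 3) (nat_lit 5) (nat_lit 3) (nat_lit 4) (nat_lit 390) (nat_lit 261) (nat_lit 249)) (XT.nd (nat_lit 78) (nat_lit 0) (nat_lit 0) (XT.lf (nat_lit 0) (nat_lit 950427472514) (nat_lit 76) (nat_lit 18502462321) (nat_lit 76) (nat_lit 17924175546) (nat_lit 2) (nat_lit 4) (nat_lit 3) (nat_lit 5) (nat_lit 3) (nat_lit 4) (nat_lit 391) (nat_lit 261) (nat_lit 248)) (XT.lf (nat_lit 0) (nat_lit 1030036298879) (nat_lit 76) (nat_lit 18139482106) (nat_lit 76) (nat_lit 17536285196) (nat_lit 2) (nat_lit 4) (nat_lit 3) (nat_lit 5) (nat_lit 3) (nat_lit 4) (nat_lit 392) (nat_lit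 261) (nat_lit 247))))) (XT.nd (nat_lit 234) (nat_lit 0) (nat_lit 0) (XT.nd (nat_lit 78) (nat_lit 0) (nat_lit 0) (XT.lf (nat_lit 0) (nat_lit 1115904057319) (nat_lit 76) (nat_lit 17801819129) (nat_lit 76) (nat_lit 17175557281) (nat_lit 2) (nat_lit 4) (nat_lit 3) (nat_lit 5) (nat_lit 3) (nat_lit 4) (nat_lit 393) (nat_lit 261) (nat_lit 246)) (XT.nd (nat_lit 78) (nat_lit 0) (nat_lit 0) (XT.lf (nat_lit 0) (nat_lit 1208539593809) (nat_lit 76) (nat_lit 17487472427) (nat_lit 76) (nat_lit 16839854154) (nat_lit 2) (nat_lit 4) (nat_lit 3) (nat_lit 5) (nat_lit 3) (nat_lit 4) (nat_lit 394) (nat_lit 261) (nat_lit 245)) (XT.lf (nat_lit 0) (nat_lit 1308491859677) (nat_lit 76) (nat_lit 17194579203) (nat_lit 76) (nat_lit 16527186462) (nat_lit 2) (nat_lit 4) (nat_lit 3) (nat_lit 5) (nat_lit 3) (nat_lit 4) (nat_lit 395) (nat_lit 261) (nat_lit 244)))) (XT.nd (nat_lit 78) (nat_lit 0) (nat_lit 0) (XT.lf (nat_lit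 0) (nat_lit 1416353164647) (nat_lit 76) (nat_lit 16921403794) (nat_lit 76) (nat_lit 16235701361) (nat_lit 2) (nat_lit 4) (nat_lit 3) (nat_lit 5) (nat_lit 3) (nat_lit 4) (nat_lit 396) (nat_lit 261) (nat_lit 243)) (XT.nd (nat_lit 45240) (nat_lit 0) (nat_lit 0) (XT.lf (nat_lit 0) (nat_lit 1532762686822) (nat_lit 76) (nat_lit 16666327382) (nat_lit 76) (nat_lit 15963671531) (nat_lit 2) (nat_lit 4) (nat_lit 3) (nat_lit 5) (nat_lit 3) (nat_lit 4) (nat_lit 397) (nat_lit 261) (nat_lit 242)) (XT.lf (nat_lit 0) (nat_lit 127195207791) (nat_lit 76) (nat_lit 14462624925) (nat_lit 76) (nat_lit 14462624925) (nat_lit 2) (nat_lit 4) (nat_lit 3) (nat_lit 5) (nat_lit 3) (nat_lit 4) (nat_lit 376) (nat_lit 262) (nat_lit 262)))))) (XT.nd (nat_lit 468) (nat_lit 0) (nat_lit 0) (XT.nd (nat_lit 234) (nat_lit 0) (nat_lit 0) (XT.nd (nat_lit 78) (nat_lit 0) (nat_lit 0) (XT.lf (nat_lit 0) (nat_lit 281354514777) (nat_lit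 76) (nat_lit 27885827242) (nat_lit 76) (nat_lit 27812661355) (nat_lit 2) (nat_lit 4) (nat_lit 3) (nat_lit 5) (nat_lit 3) (nat_lit 4) (nat_lit 377) (nat_lit 262) (nat_lit 261)) (XT.nd (nat_lit 78) (nat_lit 0) (nat_lit 0) (XT.lf (nat_lit 0) (nat_lit 310153314314) (nat_lit 76) (nat_lit 26922903914) (nat_lit 76) (nat_lit 26781991836) (nat_lit 2) (nat_lit 4) (nat_lit 3) (nat_lit 5) (nat_lit 3) (nat_lit 4) (nat_lit 378) (nat_lit 262) (nat_lit 260)) (XT.lf (nat_lit 0) (nat_lit 340957473745) (nat_lit 76) (nat_lit 26030773654) (nat_lit 76) (nat_lit 25827133621) (nat_lit 2) (nat_lit 4) (nat_lit 3) (nat_lit 5) (nat_lit 3) (nat_lit 4) (nat_lit 379) (nat_lit 262) (nat_lit 259)))) (XT.nd (nat_lit 78) (nat_lit 0) (nat_lit 0) (XT.lf (nat_lit 0) (nat_lit 373949536237) (nat_lit 76) (nat_lit 25204149763) (nat_lit 76) (nat_lit 24942428290) (nat_lit 2) (nat_lit 4) (nat_lit 3) (nat_lit 5) (nat_lit 3) (nat_lit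 4) (nat_lit 380) (nat_lit 262) (nat_lit 258)) (XT.nd (nat_lit 78) (nat_lit 0) (nat_lit 0) (XT.lf (nat_lit 0) (nat_lit 409325010308) (nat_lit 76) (nat_lit 24438133730) (nat_lit 76) (nat_lit 24122633146) (nat_lit 2) (nat_lit 4) (nat_lit 3) (nat_lit 5) (nat_lit 3) (nat_lit 4) (nat_lit 381) (nat_lit 262) (nat_lit 257)) (XT.lf (nat_lit 0) (nat_lit 447293528398) (nat_lit 76) (nat_lit 23728186200) (nat_lit 76) (nat_lit 23362890143) (nat_lit 2) (nat_lit 4) (nat_lit 3) (nat_lit 5) (nat_lit 3) (nat_lit 4) (nat_lit 382) (nat_lit 262) (nat_lit 256))))) (XT.nd (nat_lit 234) (nat_lit 0) (nat_lit 0) (XT.nd (nat_lit 78) (nat_lit 0) (nat_lit 0) (XT.lf (nat_lit 0) (nat_lit 488080089133) (nat_lit 76) (nat_lit 23070100078) (nat_lit 76) (nat_lit 22658697101) (nat_lit 2) (nat_lit 4) (nat_lit 3) (nat_lit 5) (nat_lit 3) (nat_lit 4) (nat_lit 383) (nat_lit 262) (nat_lit 255)) (XT.nd (nat_lit 78) (nat_lit 0) (nat_lit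 0) (XT.lf (nat_lit 0) (nat_lit 531926390649) (nat_lit 76) (nat_lit 22459975592) (nat_lit 76) (nat_lit 22005881023) (nat_lit 2) (nat_lit 4) (nat_lit 3) (nat_lit 5) (nat_lit 3) (nat_lit 4) (nat_lit 384) (nat_lit 262) (nat_lit 254)) (XT.lf (nat_lit 0) (nat_lit 579092262882) (nat_lit 76) (nat_lit 21894197192) (nat_lit 76) (nat_lit 21400573371) (nat_lit 2) (nat_lit 4) (nat_lit 3) (nat_lit 5) (nat_lit 3) (nat_lit 4) (nat_lit 385) (nat_lit 262) (nat_lit 253)))) (XT.nd (nat_lit 78) (nat_lit 0) (nat_lit 0) (XT.lf (nat_lit 0) (nat_lit 629857207297) (nat_lit 76) (nat_lit 21369412115) (nat_lit 76) (nat_lit 20839187135) (nat_lit 2) (nat_lit 4) (nat_lit 3) (nat_lit 5) (nat_lit 3) (nat_lit 4) (nat_lit 386) (nat_lit 262) (nat_lit 252)) (XT.nd (nat_lit 78) (nat_lit 0) (nat_lit 0) (XT.lf (nat_lit 0) (nat_lit 684522053195) (nat_lit 76) (nat_lit 20882510525) (nat_lit 76) (nat_lit 20318395582) (nat_lit 2) (nat_lit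 4) (nat_lit 3) (nat_lit 5) (nat_lit 3) (nat_lit 4) (nat_lit 387) (nat_lit 262) (nat_lit 251)) (XT.lf (nat_lit 0) (nat_lit 743410740402) (nat_lit 76) (nat_lit 20430607078) (nat_lit 76) (nat_lit 19835112541) (nat_lit 2) (nat_lit 4) (nat_lit 3) (nat_lit 5) (nat_lit 3) (nat_lit 4) (nat_lit 388) (nat_lit 262) (nat_lit 250))))))) (XT.nd (nat_lit 46020) (nat_lit 0) (nat_lit 0) (XT.nd (nat_lit 468) (nat_lit 0) (nat_lit 0) (XT.nd (nat_lit 234) (nat_lit 0) (nat_lit 0) (XT.nd (nat_lit 78) (nat_lit 0) (nat_lit 0) (XT.lf (nat_lit 0) (nat_lit 806872238917) (nat_lit 76) (nat_lit 20011023829) (nat_lit 76) (nat_lit 19386474112) (nat_lit 2) (nat_lit 4) (nat_lit 3) (nat_lit 5) (nat_lit 3) (nat_lit 4) (nat_lit 389) (nat_lit 262) (nat_lit 249)) (XT.nd (nat_lit 78) (nat_lit 0) (nat_lit 0) (XT.lf (nat_lit 0) (nat_lit 875282616879) (nat_lit 76) (nat_lit 19621274358) (nat_lit 76) (nat_lit 18969821696) (nat_lit 2)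 (nat_lit 4) (nat_lit 3) (nat_lit 5) (nat_lit 3) (nat_lit 4) (nat_lit 390) (nat_lit 262) (nat_lit 248)) (XT.lf (nat_lit 0) (nat_lit 949047269121) (nat_lit 76) (nat_lit 19259049039) (nat_lit 76) (nat_lit 18582686242) (nat_lit 2) (nat_lit 4) (nat_lit 3) (nat_lit 5) (nat_lit 3) (nat_lit 4) (nat_lit 391) (nat_lit 262) (nat_lit 247)))) (XT.nd (nat_lit 78) (nat_lit 0) (nat_lit 0) (XT.lf (nat_lit 0) (nat_lit 1028603319508) (nat_lit 76) (nat_lit 18922201350) (nat_lit 76) (nat_lit 18222773615) (nat_lit 2) (nat_lit 4) (nat_lit 3) (nat_lit 5) (nat_lit 3) (nat_lit 4) (nat_lit 392) (nat_lit 262) (nat_lit 246)) (XT.nd (nat_lit 78) (nat_lit 0) (nat_lit 0) (XT.lf (nat_lit 0) (nat_lit 1114422211301) (nat_lit 76) (nat_lit 18608735159) (nat_lit 76) (nat_lit 17887950998) (nat_lit 2) (nat_lit 4) (nat_lit 3) (nat_lit 5) (nat_lit 3) (nat_lit 4) (nat_lit 393) (nat_lit 262) (nat_lit 245)) (XT.lf (nat_lit 0) (nat_lit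 1207012500897) (nat_lit 76) (nat_lit 18316792886) (nat_lit 76) (nat_lit 17576234258) (nat_lit 2) (nat_lit 4) (nat_lit 3) (nat_lit 5) (nat_lit 3) (nat_lit 4) (nat_lit 394) (nat_lit 262) (nat_lit 244))))) (XT.nd (nat_lit 45318) (nat_lit 0) (nat_lit 0) (XT.nd (nat_lit 78) (nat_lit 0) (nat_lit 0) (XT.lf (nat_lit 0) (nat_lit 1306922871492) (nat_lit 76) (nat_lit 18044644505) (nat_lit 76) (nat_lit 17285776185) (nat_lit 2) (nat_lit 4) (nat_lit 3) (nat_lit 5) (nat_lit 3) (nat_lit 4) (nat_lit 395) (nat_lit 262) (nat_lit 243)) (XT.nd (nat_lit 45162) (nat_lit 0) (nat_lit 0) (XT.lf (nat_lit 0) (nat_lit 1414745384542) (nat_lit 76) (nat_lit 17790677283) (nat_lit 76) (nat_lit 17014855545) (nat_lit 2) (nat_lit 4) (nat_lit 3) (nat_lit 5) (nat_lit 3) (nat_lit 4) (nat_lit 396) (nat_lit 262) (nat_lit 242)) (XT.lf (nat_lit 0) (nat_lit 102758951041) (nat_lit 76) (nat_lit 15624105759) (nat_lit 76) (nat_lit 15624105759)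 (nat_lit 2) (nat_lit 4) (nat_lit 3) (nat_lit 5) (nat_lit 3) (nat_lit 4) (nat_lit 374) (nat_lit 263) (nat_lit 263)))) (XT.nd (nat_lit 78) (nat_lit 0) (nat_lit 0) (XT.lf (nat_lit 0) (nat_lit 229101229473) (nat_lit 76) (nat_lit 30126350436) (nat_lit 76) (nat_lit 30047331279) (nat_lit 2) (nat_lit 4) (nat_lit 3) (nat_lit 5) (nat_lit 3) (nat_lit 4) (nat_lit 375) (nat_lit 263) (nat_lit 262)) (XT.nd (nat_lit 78) (nat_lit 0) (nat_lit 0) (XT.lf (nat_lit 0) (nat_lit 254223001254) (nat_lit 76) (nat_lit 29087165803) (nat_lit 76) (nat_lit 28934980759) (nat_lit 2) (nat_lit 4) (nat_lit 3) (nat_lit 5) (nat_lit 3) (nat_lit 4) (nat_lit 376) (nat_lit 263) (nat_lit 261)) (XT.lf (nat_lit 0) (nat_lit 281032087183) (nat_lit 76) (nat_lit 28124499488) (nat_lit 76) (nat_lit 27904568252) (nat_lit 2) (nat_lit 4) (nat_lit 3) (nat_lit 5) (nat_lit 3) (nat_lit 4) (nat_lit 377) (nat_lit 263) (nat_lit 260)))))) (XT.nd (nat_lit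 468) (nat_lit 0) (nat_lit 0) (XT.nd (nat_lit 234) (nat_lit 0) (nat_lit 0) (XT.nd (nat_lit 78) (nat_lit 0) (nat_lit 0) (XT.lf (nat_lit 0) (nat_lit 309687355917) (nat_lit 76) (nat_lit 27232646802) (nat_lit 76) (nat_lit 26949987611) (nat_lit 2) (nat_lit 4) (nat_lit 3) (nat_lit 5) (nat_lit 3) (nat_lit 4) (nat_lit 378) (nat_lit 263) (nat_lit 259)) (XT.nd (nat_lit 78) (nat_lit 0) (nat_lit 0) (XT.lf (nat_lit 0) (nat_lit 340358616457) (nat_lit 76) (nat_lit 26406322691) (nat_lit 76) (nat_lit 26065582060) (nat_lit 2) (nat_lit 4) (nat_lit 3) (nat_lit 5) (nat_lit 3) (nat_lit 4) (nat_lit 379) (nat_lit 263) (nat_lit 258)) (XT.lf (nat_lit 0) (nat_lit 373227624420) (nat_lit 76) (nat_lit 25640630419) (nat_lit 76) (nat_lit 25246110678) (nat_lit 2) (nat_lit 4) (nat_lit 3) (nat_lit 5) (nat_lit 3) (nat_lit 4) (nat_lit 380) (nat_lit 263) (nat_lit 257)))) (XT.nd (nat_lit 78) (nat_lit 0) (nat_lit 0) (XT.lf (nat_lit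 0) (nat_lit 408489159113) (nat_lit 76) (nat_lit 24931032553) (nat_lit 76) (nat_lit 24486717338) (nat_lit 2) (nat_lit 4) (nat_lit 3) (nat_lit 5) (nat_lit 3) (nat_lit 4) (nat_lit 381) (nat_lit 263) (nat_lit 256)) (XT.nd (nat_lit 78) (nat_lit 0) (nat_lit 0) (XT.lf (nat_lit 0) (nat_lit 446352177779) (nat_lit 76) (nat_lit 24273324066) (nat_lit 76) (nat_lit 23782901931) (nat_lit 2) (nat_lit 4) (nat_lit 3) (nat_lit 5) (nat_lit 3) (nat_lit 4) (nat_lit 382) (nat_lit 263) (nat_lit 255)) (XT.lf (nat_lit 0) (nat_lit 487041053861) (nat_lit 76) (nat_lit 23663607428) (nat_lit 76) (nat_lit 23130493701) (nat_lit 2) (nat_lit 4) (nat_lit 3) (nat_lit 5) (nat_lit 3) (nat_lit 4) (nat_lit 383) (nat_lit 263) (nat_lit 254))))) (XT.nd (nat_lit 234) (nat_lit 0) (nat_lit 0) (XT.nd (nat_lit 78) (nat_lit 0) (nat_lit 0) (XT.lf (nat_lit 0) (nat_lit 530796906625) (nat_lit 76) (nat_lit 23098269502) (nat_lit 76) (nat_lit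 22525626523) (nat_lit 2) (nat_lit 4) (nat_lit 3) (nat_lit 5) (nat_lit 3) (nat_lit 4) (nat_lit 384) (nat_lit 263) (nat_lit 253)) (XT.nd (nat_lit 78) (nat_lit 0) (nat_lit 0) (XT.lf (nat_lit 0) (nat_lit 577879030014) (nat_lit 76) (nat_lit 22573960138) (nat_lit 76) (nat_lit 21964715999) (nat_lit 2) (nat_lit 4) (nat_lit 3) (nat_lit 5) (nat_lit 3) (nat_lit 4) (nat_lit 385) (nat_lit 263) (nat_lit 252)) (XT.lf (nat_lit 0) (nat_lit 628566429203) (nat_lit 76) (nat_lit 22087572317) (nat_lit 76) (nat_lit 21444438217) (nat_lit 2) (nat_lit 4) (nat_lit 3) (nat_lit 5) (nat_lit 3) (nat_lit 4) (nat_lit 386) (nat_lit 263) (nat_lit 251)))) (XT.nd (nat_lit 156) (nat_lit 0) (nat_lit 0) (XT.nd (nat_lit 78) (nat_lit 0) (nat_lit 0) (XT.lf (nat_lit 0) (nat_lit 683159473964) (nat_lit 76) (nat_lit 21636223742) (nat_lit 76) (nat_lit 20961710046) (nat_lit 2) (nat_lit 4) (nat_lit 3) (nat_lit 5) (nat_lit 3) (nat_lit 4)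 (nat_lit 387) (nat_lit 263) (nat_lit 250)) (XT.lf (nat_lit 0) (nat_lit 741981678638) (nat_lit 76) (nat_lit 21217239753) (nat_lit 76) (nat_lit 20513670878) (nat_lit 2) (nat_lit 4) (nat_lit 3) (nat_lit 5) (nat_lit 3) (nat_lit 4) (nat_lit 388) (nat_lit 263) (nat_lit 249))) (XT.nd (nat_lit 78) (nat_lit 0) (nat_lit 0) (XT.lf (nat_lit 0) (nat_lit 805381619252) (nat_lit 76) (nat_lit 20828137484) (nat_lit 76) (nat_lit 20097665664) (nat_lit 2) (nat_lit 4) (nat_lit 3) (nat_lit 5) (nat_lit 3) (nat_lit 4) (nat_lit 389) (nat_lit 263) (nat_lit 248)) (XT.lf (nat_lit 0) (nat_lit 873734999158) (nat_lit 76) (nat_lit 20466611142) (nat_lit 76) (nat_lit 19711229188) (nat_lit 2) (nat_lit 4) (nat_lit 3) (nat_lit 5) (nat_lit 3) (nat_lit 4) (nat_lit 390) (nat_lit 263) (nat_lit 247))))))))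
noncomputable def xc3 : XT := (XT.nd (nat_lit 46878) (nat_lit 0) (nat_lit 0) (XT.nd (nat_lit 45864) (nat_lit 0) (nat_lit 0) (XT.nd (nat_lit 45396) (nat_lit 0) (nat_lit 0) (XT.nd (nat_lit 234) (nat_lit 0) (nat_lit 0) (XT.nd (nat_lit 78) (nat_lit 0) (nat_lit 0) (XT.lf (nat_lit 0) (nat_lit 947446875422) (nat_lit 76) (nat_lit 20130518350) (nat_lit 76) (nat_lit 19352071457) (nat_lit 2) (nat_lit 4) (nat_lit 3) (nat_lit 5) (nat_lit 3) (nat_lit 4) (nat_lit 391) (nat_lit 263) (nat_lit 246)) (XT.nd (nat_lit 78) (nat_lit 0) (nat_lit 0) (XT.lf (nat_lit 0) (nat_lit 1026954059163) (nat_lit 76) (nat_lit 19817867446) (nat_lit 76) (nat_lit 19018064128) (nat_lit 2) (nat_lit 4) (nat_lit 3) (nat_lit 5) (nat_lit 3) (nat_lit 4) (nat_lit 392) (nat_lit 263) (nat_lit 245)) (XT.lf (nat_lit 0) (nat_lit 1112727704061) (nat_lit 76) (nat_lit 19526805685) (nat_lit 76) (nat_lit 18707227899) (nat_lit 2) (nat_lit 4) (nat_lit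 3) (nat_lit 5) (nat_lit 3) (nat_lit 4) (nat_lit 393) (nat_lit 263) (nat_lit 244)))) (XT.nd (nat_lit 78) (nat_lit 0) (nat_lit 0) (XT.lf (nat_lit 0) (nat_lit 1205276098384) (nat_lit 76) (nat_lit 19255608255) (nat_lit 76) (nat_lit 18417720777) (nat_lit 2) (nat_lit 4) (nat_lit 3) (nat_lit 5) (nat_lit 3) (nat_lit 4) (nat_lit 394) (nat_lit 263) (nat_lit 243)) (XT.nd (nat_lit 78) (nat_lit 0) (nat_lit 0) (XT.lf (nat_lit 0) (nat_lit 1305147677059) (nat_lit 76) (nat_lit 19002668061) (nat_lit 76) (nat_lit 18147827165) (nat_lit 2) (nat_lit 4) (nat_lit 3) (nat_lit 5) (nat_lit 3) (nat_lit 4) (nat_lit 395) (nat_lit 263) (nat_lit 242)) (XT.lf (nat_lit 0) (nat_lit 1412934271666) (nat_lit 76) (nat_lit 18766486199) (nat_lit 76) (nat_lit 17895947693) (nat_lit 2) (nat_lit 4) (nat_lit 3) (nat_lit 5) (nat_lit 3) (nat_lit 4) (nat_lit 396) (nat_lit 263) (nat_lit 241))))) (XT.nd (nat_lit 234) (nat_lit 0) (nat_lit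 0) (XT.nd (nat_lit 78) (nat_lit 0) (nat_lit 0) (XT.lf (nat_lit 0) (nat_lit 81305564438) (nat_lit 76) (nat_lit 16877867244) (nat_lit 76) (nat_lit 16877867244) (nat_lit 2) (nat_lit 4) (nat_lit 3) (nat_lit 5) (nat_lit 3) (nat_lit 4) (nat_lit 372) (nat_lit 264) (nat_lit 264)) (XT.nd (nat_lit 78) (nat_lit 0) (nat_lit 0) (XT.lf (nat_lit 0) (nat_lit 183333266029) (nat_lit 76) (nat_lit 32544737805) (nat_lit 76) (nat_lit 32459397115) (nat_lit 2) (nat_lit 4) (nat_lit 3) (nat_lit 5) (nat_lit 3) (nat_lit 4) (nat_lit 373) (nat_lit 264) (nat_lit 263)) (XT.lf (nat_lit 0) (nat_lit 205337094608) (nat_lit 76) (nat_lit 31423080748) (nat_lit 76) (nat_lit 31258720900) (nat_lit 2) (nat_lit 4) (nat_lit 3) (nat_lit 5) (nat_lit 3) (nat_lit 4) (nat_lit 374) (nat_lit 264) (nat_lit 262)))) (XT.nd (nat_lit 78) (nat_lit 0) (nat_lit 0) (XT.lf (nat_lit 0) (nat_lit 228753007671) (nat_lit 76) (nat_lit 30384116462) (nat_lit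 76) (nat_lit 30146590727) (nat_lit 2) (nat_lit 4) (nat_lit 3) (nat_lit 5) (nat_lit 3) (nat_lit 4) (nat_lit 375) (nat_lit 264) (nat_lit 261)) (XT.nd (nat_lit 78) (nat_lit 0) (nat_lit 0) (XT.lf (nat_lit 0) (nat_lit 253719766186) (nat_lit 76) (nat_lit 29421688122) (nat_lit 76) (nat_lit 29116416196) (nat_lit 2) (nat_lit 4) (nat_lit 3) (nat_lit 5) (nat_lit 3) (nat_lit 4) (nat_lit 376) (nat_lit 264) (nat_lit 260)) (XT.lf (nat_lit 0) (nat_lit 280385321312) (nat_lit 76) (nat_lit 28530092448) (nat_lit 76) (nat_lit 28162092567) (nat_lit 2) (nat_lit 4) (nat_lit 3) (nat_lit 5) (nat_lit 3) (nat_lit 4) (nat_lit 377) (nat_lit 264) (nat_lit 259)))))) (XT.nd (nat_lit 468) (nat_lit 0) (nat_lit 0) (XT.nd (nat_lit 234) (nat_lit 0) (nat_lit 0) (XT.nd (nat_lit 78) (nat_lit 0) (nat_lit 0) (XT.lf (nat_lit 0) (nat_lit 308907691156) (nat_lit 76) (nat_lit 27704045910) (nat_lit 76) (nat_lit 27277964589) (nat_lit 2)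 (nat_lit 4) (nat_lit 3) (nat_lit 5) (nat_lit 3) (nat_lit 4) (nat_lit 378) (nat_lit 264) (nat_lit 258)) (XT.nd (nat_lit 78) (nat_lit 0) (nat_lit 0) (XT.lf (nat_lit 0) (nat_lit 339455897167) (nat_lit 76) (nat_lit 26938653419) (nat_lit 76) (nat_lit 26458792987) (nat_lit 2) (nat_lit 4) (nat_lit 3) (nat_lit 5) (nat_lit 3) (nat_lit 4) (nat_lit 379) (nat_lit 264) (nat_lit 257)) (XT.lf (nat_lit 0) (nat_lit 372210965751) (nat_lit 76) (nat_lit 26229379314) (nat_lit 76) (nat_lit 25699723409) (nat_lit 2) (nat_lit 4) (nat_lit 3) (nat_lit 5) (nat_lit 3) (nat_lit 4) (nat_lit 380) (nat_lit 264) (nat_lit 256)))) (XT.nd (nat_lit 78) (nat_lit 0) (nat_lit 0) (XT.lf (nat_lit 0) (nat_lit 407367001020) (nat_lit 76) (nat_lit 25572020491) (nat_lit 76) (nat_lit 24996257666) (nat_lit 2) (nat_lit 4) (nat_lit 3) (nat_lit 5) (nat_lit 3) (nat_lit 4) (nat_lit 381) (nat_lit 264) (nat_lit 255)) (XT.nd (nat_lit 78) (nat_lit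 0) (nat_lit 0) (XT.lf (nat_lit 0) (nat_lit 445132335033) (nat_lit 76) (nat_lit 24962681488) (nat_lit 76) (nat_lit 24344227071) (nat_lit 2) (nat_lit 4) (nat_lit 3) (nat_lit 5) (nat_lit 3) (nat_lit 4) (nat_lit 382) (nat_lit 264) (nat_lit 254)) (XT.lf (nat_lit 0) (nat_lit 485730762363) (nat_lit 76) (nat_lit 24397751409) (nat_lit 76) (nat_lit 23739767740) (nat_lit 2) (nat_lit 4) (nat_lit 3) (nat_lit 5) (nat_lit 3) (nat_lit 4) (nat_lit 383) (nat_lit 264) (nat_lit 253))))) (XT.nd (nat_lit 234) (nat_lit 0) (nat_lit 0) (XT.nd (nat_lit 78) (nat_lit 0) (nat_lit 0) (XT.lf (nat_lit 0) (nat_lit 529402866283) (nat_lit 76) (nat_lit 23873882520) (nat_lit 76) (nat_lit 23179297691) (nat_lit 2) (nat_lit 4) (nat_lit 3) (nat_lit 5) (nat_lit 3) (nat_lit 4) (nat_lit 384) (nat_lit 264) (nat_lit 252)) (XT.nd (nat_lit 78) (nat_lit 0) (nat_lit 0) (XT.lf (nat_lit 0) (nat_lit 576407444445) (nat_lit 76) (nat_lit 23387970411)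 (nat_lit 76) (nat_lit 22659495621) (nat_lit 2) (nat_lit 4) (nat_lit 3) (nat_lit 5) (nat_lit 3) (nat_lit 4) (nat_lit 385) (nat_lit 264) (nat_lit 251)) (XT.lf (nat_lit 0) (nat_lit 627023042498) (nat_lit 76) (nat_lit 22937135606) (nat_lit 76) (nat_lit 22177281220) (nat_lit 2) (nat_lit 4) (nat_lit 3) (nat_lit 5) (nat_lit 3) (nat_lit 4) (nat_lit 386) (nat_lit 264) (nat_lit 250)))) (XT.nd (nat_lit 156) (nat_lit 0) (nat_lit 0) (XT.nd (nat_lit 78) (nat_lit 0) (nat_lit 0) (XT.lf (nat_lit 0) (nat_lit 681549604727) (nat_lit 76) (nat_lit 22518706489) (nat_lit 76) (nat_lit 21729796923) (nat_lit 2) (nat_lit 4) (nat_lit 3) (nat_lit 5) (nat_lit 3) (nat_lit 4) (nat_lit 387) (nat_lit 264) (nat_lit 249)) (XT.lf (nat_lit 0) (nat_lit 740310251500) (nat_lit 76) (nat_lit 22130203480) (nat_lit 76) (nat_lit 21314390970) (nat_lit 2) (nat_lit 4) (nat_lit 3) (nat_lit 5) (nat_lit 3) (nat_lit 4) (nat_lit 388) (nat_lit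 264) (nat_lit 248))) (XT.nd (nat_lit 78) (nat_lit 0) (nat_lit 0) (XT.lf (nat_lit 0) (nat_lit 803653194058) (nat_lit 76) (nat_lit 21769324340) (nat_lit 76) (nat_lit 20928601696) (nat_lit 2) (nat_lit 4) (nat_lit 3) (nat_lit 5) (nat_lit 3) (nat_lit 4) (nat_lit 389) (nat_lit 264) (nat_lit 247)) (XT.lf (nat_lit 0) (nat_lit 871953797986) (nat_lit 76) (nat_lit 21433930526) (nat_lit 76) (nat_lit 20570142942) (nat_lit 2) (nat_lit 4) (nat_lit 3) (nat_lit 5) (nat_lit 3) (nat_lit 4) (nat_lit 390) (nat_lit 264) (nat_lit 246))))))) (XT.nd (nat_lit 45708) (nat_lit 0) (nat_lit 0) (XT.nd (nat_lit 45240) (nat_lit 0) (nat_lit 0) (XT.nd (nat_lit 234) (nat_lit 0) (nat_lit 0) (XT.nd (nat_lit 78) (nat_lit 0) (nat_lit 0) (XT.lf (nat_lit 0) (nat_lit 945616807603) (nat_lit 76) (nat_lit 21122034518) (nat_lit 76) (nat_lit 20236890510) (nat_lit 2) (nat_lit 4) (nat_lit 3) (nat_lit 5) (nat_lit 3) (nat_lit 4) (nat_lit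 391) (nat_lit 264) (nat_lit 245)) (XT.nd (nat_lit 78) (nat_lit 0) (nat_lit 0) (XT.lf (nat_lit 0) (nat_lit 1025078744449) (nat_lit 76) (nat_lit 20831788044) (nat_lit 76) (nat_lit 19926869569) (nat_lit 2) (nat_lit 4) (nat_lit 3) (nat_lit 5) (nat_lit 3) (nat_lit 4) (nat_lit 392) (nat_lit 264) (nat_lit 244)) (XT.lf (nat_lit 0) (nat_lit 1110810494074) (nat_lit 76) (nat_lit 20561471125) (nat_lit 76) (nat_lit 19638242958) (nat_lit 2) (nat_lit 4) (nat_lit 3) (nat_lit 5) (nat_lit 3) (nat_lit 4) (nat_lit 393) (nat_lit 264) (nat_lit 243)))) (XT.nd (nat_lit 78) (nat_lit 0) (nat_lit 0) (XT.lf (nat_lit 0) (nat_lit 1203320096477) (nat_lit 76) (nat_lit 20309481883) (nat_lit 76) (nat_lit 19369300297) (nat_lit 2) (nat_lit 4) (nat_lit 3) (nat_lit 5) (nat_lit 3) (nat_lit 4) (nat_lit 394) (nat_lit 264) (nat_lit 242)) (XT.nd (nat_lit 78) (nat_lit 0) (nat_lit 0) (XT.lf (nat_lit 0) (nat_lit 1303155756709) (nat_lit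 76) (nat_lit 20074327049) (nat_lit 76) (nat_lit 19118447852) (nat_lit 2) (nat_lit 4) (nat_lit 3) (nat_lit 5) (nat_lit 3) (nat_lit 4) (nat_lit 395) (nat_lit 264) (nat_lit 241)) (XT.lf (nat_lit 0) (nat_lit 1410909093497) (nat_lit 76) (nat_lit 19854613111) (nat_lit 76) (nat_lit 18884199091) (nat_lit 2) (nat_lit 4) (nat_lit 3) (nat_lit 5) (nat_lit 3) (nat_lit 4) (nat_lit 396) (nat_lit 264) (nat_lit 240))))) (XT.nd (nat_lit 234) (nat_lit 0) (nat_lit 0) (XT.nd (nat_lit 78) (nat_lit 0) (nat_lit 0) (XT.lf (nat_lit 0) (nat_lit 62369249402) (nat_lit 76) (nat_lit 18231382825) (nat_lit 76) (nat_lit 18231382825) (nat_lit 2) (nat_lit 4) (nat_lit 3) (nat_lit 5) (nat_lit 3) (nat_lit 4) (nat_lit 370) (nat_lit 265) (nat_lit 265)) (XT.nd (nat_lit 78) (nat_lit 0) (nat_lit 0) (XT.lf (nat_lit 0) (nat_lit 143047885299) (nat_lit 76) (nat_lit 35155415024) (nat_lit 76) (nat_lit 35063247078) (nat_lit 2) (nat_lit 4)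 (nat_lit 3) (nat_lit 5) (nat_lit 3) (nat_lit 4) (nat_lit 371) (nat_lit 265) (nat_lit 264)) (XT.lf (nat_lit 0) (nat_lit 162415856804) (nat_lit 76) (nat_lit 33944593258) (nat_lit 76) (nat_lit 33767084622) (nat_lit 2) (nat_lit 4) (nat_lit 3) (nat_lit 5) (nat_lit 3) (nat_lit 4) (nat_lit 372) (nat_lit 265) (nat_lit 263)))) (XT.nd (nat_lit 78) (nat_lit 0) (nat_lit 0) (XT.lf (nat_lit 0) (nat_lit 182957186483) (nat_lit 76) (nat_lit 32823125113) (nat_lit 76) (nat_lit 32566597319) (nat_lit 2) (nat_lit 4) (nat_lit 3) (nat_lit 5) (nat_lit 3) (nat_lit 4) (nat_lit 373) (nat_lit 265) (nat_lit 262)) (XT.nd (nat_lit 78) (nat_lit 0) (nat_lit 0) (XT.lf (nat_lit 0) (nat_lit 204793600734) (nat_lit 76) (nat_lit 31784364852) (nat_lit 76) (nat_lit 31454671172) (nat_lit 2) (nat_lit 4) (nat_lit 3) (nat_lit 5) (nat_lit 3) (nat_lit 4) (nat_lit 374) (nat_lit 265) (nat_lit 261)) (XT.lf (nat_lit 0) (nat_lit 228054500531)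 (nat_lit 76) (nat_lit 30822156858) (nat_lit 76) (nat_lit 30424716987) (nat_lit 2) (nat_lit 4) (nat_lit 3) (nat_lit 5) (nat_lit 3) (nat_lit 4) (nat_lit 375) (nat_lit 265) (nat_lit 260)))))) (XT.nd (nat_lit 468) (nat_lit 0) (nat_lit 0) (XT.nd (nat_lit 234) (nat_lit 0) (nat_lit 0) (XT.nd (nat_lit 78) (nat_lit 0) (nat_lit 0) (XT.lf (nat_lit 0) (nat_lit 252877728243) (nat_lit 76) (nat_lit 29930799159) (nat_lit 76) (nat_lit 29470631332) (nat_lit 2) (nat_lit 4) (nat_lit 3) (nat_lit 5) (nat_lit 3) (nat_lit 4) (nat_lit 376) (nat_lit 265) (nat_lit 259)) (XT.nd (nat_lit 78) (nat_lit 0) (nat_lit 0) (XT.lf (nat_lit 0) (nat_lit 279410384478) (nat_lit 76) (nat_lit 29105009635) (nat_lit 76) (nat_lit 28586760368) (nat_lit 2) (nat_lit 4) (nat_lit 3) (nat_lit 5) (nat_lit 3) (nat_lit 4) (nat_lit 377) (nat_lit 265) (nat_lit 258)) (XT.lf (nat_lit 0) (nat_lit 307809699793) (nat_lit 76) (nat_lit 28339894717) (nat_lit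 76) (nat_lit 27767866339) (nat_lit 2) (nat_lit 4) (nat_lit 3) (nat_lit 5) (nat_lit 3) (nat_lit 4) (nat_lit 378) (nat_lit 265) (nat_lit 257)))) (XT.nd (nat_lit 78) (nat_lit 0) (nat_lit 0) (XT.lf (nat_lit 0) (nat_lit 338243966426) (nat_lit 76) (nat_lit 27630920392) (nat_lit 76) (nat_lit 27009096541) (nat_lit 2) (nat_lit 4) (nat_lit 3) (nat_lit 5) (nat_lit 3) (nat_lit 4) (nat_lit 379) (nat_lit 265) (nat_lit 256)) (XT.nd (nat_lit 78) (nat_lit 0) (nat_lit 0) (XT.lf (nat_lit 0) (nat_lit 370893535586) (nat_lit 76) (nat_lit 26973885330) (nat_lit 76) (nat_lit 26305954560) (nat_lit 2) (nat_lit 4) (nat_lit 3) (nat_lit 5) (nat_lit 3) (nat_lit 4) (nat_lit 380) (nat_lit 265) (nat_lit 255)) (XT.lf (nat_lit 0) (nat_lit 405951886202) (nat_lit 76) (nat_lit 26364895990) (nat_lit 76) (nat_lit 25654273628) (nat_lit 2) (nat_lit 4) (nat_lit 3) (nat_lit 5) (nat_lit 3) (nat_lit 4) (nat_lit 381) (nat_lit 265) (nat_lit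 254))))) (XT.nd (nat_lit 234) (nat_lit 0) (nat_lit 0) (XT.nd (nat_lit 78) (nat_lit 0) (nat_lit 0) (XT.lf (nat_lit 0) (nat_lit 443626771464) (nat_lit 76) (nat_lit 25800343547) (nat_lit 76) (nat_lit 25050191933) (nat_lit 2) (nat_lit 4) (nat_lit 3) (nat_lit 5) (nat_lit 3) (nat_lit 4) (nat_lit 382) (nat_lit 265) (nat_lit 253)) (XT.nd (nat_lit 78) (nat_lit 0) (nat_lit 0) (XT.lf (nat_lit 0) (nat_lit 484141449949) (nat_lit 76) (nat_lit 25276882505) (nat_lit 76) (nat_lit 24490129731) (nat_lit 2) (nat_lit 4) (nat_lit 3) (nat_lit 5) (nat_lit 3) (nat_lit 4) (nat_lit 383) (nat_lit 265) (nat_lit 252)) (XT.lf (nat_lit 0) (nat_lit 527736008642) (nat_lit 76) (nat_lit 24791410871) (nat_lit 76) (nat_lit 23970768135) (nat_lit 2) (nat_lit 4) (nat_lit 3) (nat_lit 5) (nat_lit 3) (nat_lit 4) (nat_lit 384) (nat_lit 265) (nat_lit 251)))) (XT.nd (nat_lit 156) (nat_lit 0) (nat_lit 0) (XT.nd (nat_lit 78) (nat_lit 0)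 (nat_lit 0) (XT.lf (nat_lit 0) (nat_lit 574668785669) (nat_lit 76) (nat_lit 24341051778) (nat_lit 76) (nat_lit 23489029447) (nat_lit 2) (nat_lit 4) (nat_lit 3) (nat_lit 5) (nat_lit 3) (nat_lit 4) (nat_lit 385) (nat_lit 265) (nat_lit 250)) (XT.lf (nat_lit 0) (nat_lit 625217901189) (nat_lit 76) (nat_lit 23923136431) (nat_lit 76) (nat_lit 23042058919) (nat_lit 2) (nat_lit 4) (nat_lit 3) (nat_lit 5) (nat_lit 3) (nat_lit 4) (nat_lit 386) (nat_lit 265) (nat_lit 249))) (XT.nd (nat_lit 78) (nat_lit 0) (nat_lit 0) (XT.lf (nat_lit 0) (nat_lit 679682905517) (nat_lit 76) (nat_lit 23535188293) (nat_lit 76) (nat_lit 22627207837) (nat_lit 2) (nat_lit 4) (nat_lit 3) (nat_lit 5) (nat_lit 3) (nat_lit 4) (nat_lit 387) (nat_lit 265) (nat_lit 248)) (XT.lf (nat_lit 0) (nat_lit 738386554233) (nat_lit 76) (nat_lit 23174908414) (nat_lit 76) (nat_lit 22242017824) (nat_lit 2) (nat_lit 4) (nat_lit 3) (nat_lit 5) (nat_lit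 3) (nat_lit 4) (nat_lit 388) (nat_lit 265) (nat_lit 247))))))))
noncomputable def xc4 : XT := (XT.nd (nat_lit 46488) (nat_lit 0) (nat_lit 0) (XT.nd (nat_lit 45552) (nat_lit 0) (nat_lit 0) (XT.nd (nat_lit 468) (nat_lit 0) (nat_lit 0) (XT.nd (nat_lit 234) (nat_lit 0) (nat_lit 0) (XT.nd (nat_lit 78) (nat_lit 0) (nat_lit 0) (XT.lf (nat_lit 0) (nat_lit 801676720813) (nat_lit 76) (nat_lit 22840161802) (nat_lit 76) (nat_lit 21884206273) (nat_lit 2) (nat_lit 4) (nat_lit 3) (nat_lit 5) (nat_lit 3) (nat_lit 4) (nat_lit 389) (nat_lit 265) (nat_lit 246)) (XT.nd (nat_lit 78) (nat_lit 0) (nat_lit 0) (XT.lf (nat_lit 0) (nat_lit 869928458094) (nat_lit 76) (nat_lit 22528964772) (nat_lit 76) (nat_lit 21551652818) (nat_lit 2) (nat_lit 4) (nat_lit 3) (nat_lit 5) (nat_lit 3) (nat_lit 4) (nat_lit 390) (nat_lit 265) (nat_lit 245)) (XT.lf (nat_lit 0) (nat_lit 943546220817) (nat_lit 76) (nat_lit 22239473194) (nat_lit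 76) (nat_lit 21242386773) (nat_lit 2) (nat_lit 4) (nat_lit 3) (nat_lit 5) (nat_lit 3) (nat_lit 4) (nat_lit 391) (nat_lit 265) (nat_lit 244)))) (XT.nd (nat_lit 78) (nat_lit 0) (nat_lit 0) (XT.lf (nat_lit 0) (nat_lit 1022966262389) (nat_lit 76) (nat_lit 21969971563) (nat_lit 76) (nat_lit 20954575450) (nat_lit 2) (nat_lit 4) (nat_lit 3) (nat_lit 5) (nat_lit 3) (nat_lit 4) (nat_lit 392) (nat_lit 265) (nat_lit 243)) (XT.nd (nat_lit 78) (nat_lit 0) (nat_lit 0) (XT.lf (nat_lit 0) (nat_lit 1108659220095) (nat_lit 76) (nat_lit 21718862832) (nat_lit 76) (nat_lit 20686513300) (nat_lit 2) (nat_lit 4) (nat_lit 3) (nat_lit 5) (nat_lit 3) (nat_lit 4) (nat_lit 393) (nat_lit 265) (nat_lit 242)) (XT.lf (nat_lit 0) (nat_lit 1201132904055) (nat_lit 76) (nat_lit 21484658949) (nat_lit 76) (nat_lit 20436611807) (nat_lit 2) (nat_lit 4) (nat_lit 3) (nat_lit 5) (nat_lit 3) (nat_lit 4) (nat_lit 394) (nat_lit 265)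 (nat_lit 241))))) (XT.nd (nat_lit 44850) (nat_lit 0) (nat_lit 0) (XT.nd (nat_lit 78) (nat_lit 0) (nat_lit 0) (XT.lf (nat_lit 0) (nat_lit 1300935306468) (nat_lit 76) (nat_lit 21265972039) (nat_lit 76) (nat_lit 20203390073) (nat_lit 2) (nat_lit 4) (nat_lit 3) (nat_lit 5) (nat_lit 3) (nat_lit 4) (nat_lit 395) (nat_lit 265) (nat_lit 240)) (XT.nd (nat_lit 44694) (nat_lit 0) (nat_lit 0) (XT.lf (nat_lit 0) (nat_lit 1408657848980) (nat_lit 76) (nat_lit 21061506180) (nat_lit 76) (nat_lit 19985466044) (nat_lit 2) (nat_lit 4) (nat_lit 3) (nat_lit 5) (nat_lit 3) (nat_lit 4) (nat_lit 396) (nat_lit 265) (nat_lit 239)) (XT.lf (nat_lit 0) (nat_lit 45547438025) (nat_lit 76) (nat_lit 19692710839) (nat_lit 76) (nat_lit 19692710839) (nat_lit 2) (nat_lit 4) (nat_lit 3) (nat_lit 5) (nat_lit 3) (nat_lit 4) (nat_lit 368) (nat_lit 266) (nat_lit 266)))) (XT.nd (nat_lit 78) (nat_lit 0) (nat_lit 0) (XT.lf (nat_lit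 0) (nat_lit 107379197252) (nat_lit 76) (nat_lit 37973933783) (nat_lit 76) (nat_lit 37874392402) (nat_lit 2) (nat_lit 4) (nat_lit 3) (nat_lit 5) (nat_lit 3) (nat_lit 4) (nat_lit 369) (nat_lit 266) (nat_lit 265)) (XT.nd (nat_lit 78) (nat_lit 0) (nat_lit 0) (XT.lf (nat_lit 0) (nat_lit 124527604967) (nat_lit 76) (nat_lit 36666733120) (nat_lit 76) (nat_lit 36475023794) (nat_lit 2) (nat_lit 4) (nat_lit 3) (nat_lit 5) (nat_lit 3) (nat_lit 4) (nat_lit 370) (nat_lit 266) (nat_lit 264)) (XT.lf (nat_lit 0) (nat_lit 142641719390) (nat_lit 76) (nat_lit 35456073316) (nat_lit 76) (nat_lit 35179023299) (nat_lit 2) (nat_lit 4) (nat_lit 3) (nat_lit 5) (nat_lit 3) (nat_lit 4) (nat_lit 371) (nat_lit 266) (nat_lit 263)))))) (XT.nd (nat_lit 468) (nat_lit 0) (nat_lit 0) (XT.nd (nat_lit 234) (nat_lit 0) (nat_lit 0) (XT.nd (nat_lit 78) (nat_lit 0) (nat_lit 0) (XT.lf (nat_lit 0) (nat_lit 161828883420) (nat_lit 76)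 (nat_lit 34334780090) (nat_lit 76) (nat_lit 33978710915) (nat_lit 2) (nat_lit 4) (nat_lit 3) (nat_lit 5) (nat_lit 3) (nat_lit 4) (nat_lit 372) (nat_lit 266) (nat_lit 262)) (XT.nd (nat_lit 78) (nat_lit 0) (nat_lit 0) (XT.lf (nat_lit 0) (nat_lit 182202798771) (nat_lit 76) (nat_lit 33296208741) (nat_lit 76) (nat_lit 32866973679) (nat_lit 2) (nat_lit 4) (nat_lit 3) (nat_lit 5) (nat_lit 3) (nat_lit 4) (nat_lit 373) (nat_lit 266) (nat_lit 261)) (XT.lf (nat_lit 0) (nat_lit 203884199756) (nat_lit 76) (nat_lit 32334204772) (nat_lit 76) (nat_lit 31837223519) (nat_lit 2) (nat_lit 4) (nat_lit 3) (nat_lit 5) (nat_lit 3) (nat_lit 4) (nat_lit 374) (nat_lit 266) (nat_lit 260)))) (XT.nd (nat_lit 78) (nat_lit 0) (nat_lit 0) (XT.lf (nat_lit 0) (nat_lit 227001568751) (nat_lit 76) (nat_lit 31443067420) (nat_lit 76) (nat_lit 30883358212) (nat_lit 2) (nat_lit 4) (nat_lit 3) (nat_lit 5) (nat_lit 3) (nat_lit 4)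 (nat_lit 375) (nat_lit 266) (nat_lit 259)) (XT.nd (nat_lit 78) (nat_lit 0) (nat_lit 0) (XT.lf (nat_lit 0) (nat_lit 251691897571) (nat_lit 76) (nat_lit 30617515870) (nat_lit 76) (nat_lit 29999725222) (nat_lit 2) (nat_lit 4) (nat_lit 3) (nat_lit 5) (nat_lit 3) (nat_lit 4) (nat_lit 376) (nat_lit 266) (nat_lit 258)) (XT.lf (nat_lit 0) (nat_lit 278101499278) (nat_lit 76) (nat_lit 29852657965) (nat_lit 76) (nat_lit 29181088206) (nat_lit 2) (nat_lit 4) (nat_lit 3) (nat_lit 5) (nat_lit 3) (nat_lit 4) (nat_lit 377) (nat_lit 266) (nat_lit 257))))) (XT.nd (nat_lit 234) (nat_lit 0) (nat_lit 0) (XT.nd (nat_lit 78) (nat_lit 0) (nat_lit 0) (XT.lf (nat_lit 0) (nat_lit 306386875215) (nat_lit 76) (nat_lit 29143961214) (nat_lit 76) (nat_lit 28422595982) (nat_lit 2) (nat_lit 4) (nat_lit 3) (nat_lit 5) (nat_lit 3) (nat_lit 4) (nat_lit 378) (nat_lit 266) (nat_lit 256)) (XT.nd (nat_lit 78) (nat_lit 0) (nat_lit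 0) (XT.lf (nat_lit 0) (nat_lit 336715642423) (nat_lit 76) (nat_lit 28487225932) (nat_lit 76) (nat_lit 27719753780) (nat_lit 2) (nat_lit 4) (nat_lit 3) (nat_lit 5) (nat_lit 3) (nat_lit 4) (nat_lit 379) (nat_lit 266) (nat_lit 255)) (XT.lf (nat_lit 0) (nat_lit 369267526931) (nat_lit 76) (nat_lit 27878560354) (nat_lit 76) (nat_lit 27068396610) (nat_lit 2) (nat_lit 4) (nat_lit 3) (nat_lit 5) (nat_lit 3) (nat_lit 4) (nat_lit 380) (nat_lit 266) (nat_lit 254)))) (XT.nd (nat_lit 78) (nat_lit 0) (nat_lit 0) (XT.lf (nat_lit 0) (nat_lit 404235428795) (nat_lit 76) (nat_lit 27314357574) (nat_lit 76) (nat_lit 26464664578) (nat_lit 2) (nat_lit 4) (nat_lit 3) (nat_lit 5) (nat_lit 3) (nat_lit 4) (nat_lit 381) (nat_lit 266) (nat_lit 253)) (XT.nd (nat_lit 78) (nat_lit 0) (nat_lit 0) (XT.lf (nat_lit 0) (nat_lit 441826565211) (nat_lit 76) (nat_lit 26791274167) (nat_lit 76) (nat_lit 25904980012) (nat_lit 2) (nat_lit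 4) (nat_lit 3) (nat_lit 5) (nat_lit 3) (nat_lit 4) (nat_lit 382) (nat_lit 266) (nat_lit 252)) (XT.lf (nat_lit 0) (nat_lit 482263698470) (nat_lit 76) (nat_lit 26306210381) (nat_lit 76) (nat_lit 25386026264) (nat_lit 2) (nat_lit 4) (nat_lit 3) (nat_lit 5) (nat_lit 3) (nat_lit 4) (nat_lit 383) (nat_lit 266) (nat_lit 251))))))) (XT.nd (nat_lit 936) (nat_lit 0) (nat_lit 0) (XT.nd (nat_lit 468) (nat_lit 0) (nat_lit 0) (XT.nd (nat_lit 234) (nat_lit 0) (nat_lit 0) (XT.nd (nat_lit 78) (nat_lit 0) (nat_lit 0) (XT.lf (nat_lit 0) (nat_lit 525786456028) (nat_lit 76) (nat_lit 25856291762) (nat_lit 76) (nat_lit 24904728050) (nat_lit 2) (nat_lit 4) (nat_lit 3) (nat_lit 5) (nat_lit 3) (nat_lit 4) (nat_lit 384) (nat_lit 266) (nat_lit 250)) (XT.nd (nat_lit 78) (nat_lit 0) (nat_lit 0) (XT.lf (nat_lit 0) (nat_lit 572652750522) (nat_lit 76) (nat_lit 25438852128) (nat_lit 76) (nat_lit 24458233235) (nat_lit 2)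 (nat_lit 4) (nat_lit 3) (nat_lit 5) (nat_lit 3) (nat_lit 4) (nat_lit 385) (nat_lit 266) (nat_lit 249)) (XT.lf (nat_lit 0) (nat_lit 623140308141) (nat_lit 76) (nat_lit 25051417760) (nat_lit 76) (nat_lit 24043895923) (nat_lit 2) (nat_lit 4) (nat_lit 3) (nat_lit 5) (nat_lit 3) (nat_lit 4) (nat_lit 386) (nat_lit 266) (nat_lit 248)))) (XT.nd (nat_lit 78) (nat_lit 0) (nat_lit 0) (XT.lf (nat_lit 0) (nat_lit 677548314412) (nat_lit 76) (nat_lit 24691692752) (nat_lit 76) (nat_lit 23659260781) (nat_lit 2) (nat_lit 4) (nat_lit 3) (nat_lit 5) (nat_lit 3) (nat_lit 4) (nat_lit 387) (nat_lit 266) (nat_lit 247)) (XT.nd (nat_lit 78) (nat_lit 0) (nat_lit 0) (XT.lf (nat_lit 0) (nat_lit 736199187151) (nat_lit 76) (nat_lit 24357545400) (nat_lit 76) (nat_lit 23302048490) (nat_lit 2) (nat_lit 4) (nat_lit 3) (nat_lit 5) (nat_lit 3) (nat_lit 4) (nat_lit 388) (nat_lit 266) (nat_lit 246)) (XT.lf (nat_lit 0) (nat_lit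 799440487084) (nat_lit 76) (nat_lit 24046995572) (nat_lit 76) (nat_lit 22970142237) (nat_lit 2) (nat_lit 4) (nat_lit 3) (nat_lit 5) (nat_lit 3) (nat_lit 4) (nat_lit 389) (nat_lit 266) (nat_lit 245))))) (XT.nd (nat_lit 234) (nat_lit 0) (nat_lit 0) (XT.nd (nat_lit 78) (nat_lit 0) (nat_lit 0) (XT.lf (nat_lit 0) (nat_lit 867646977470) (nat_lit 76) (nat_lit 23758202972) (nat_lit 76) (nat_lit 22661575170) (nat_lit 2) (nat_lit 4) (nat_lit 3) (nat_lit 5) (nat_lit 3) (nat_lit 4) (nat_lit 390) (nat_lit 266) (nat_lit 244)) (XT.nd (nat_lit 78) (nat_lit 0) (nat_lit 0) (XT.lf (nat_lit 0) (nat_lit 941222844920) (nat_lit 76) (nat_lit 23489456237) (nat_lit 76) (nat_lit 22374518743) (nat_lit 2) (nat_lit 4) (nat_lit 3) (nat_lit 5) (nat_lit 3) (nat_lit 4) (nat_lit 391) (nat_lit 266) (nat_lit 243)) (XT.lf (nat_lit 0) (nat_lit 1020604094573) (nat_lit 76) (nat_lit 23239162794) (nat_lit 76) (nat_lit 22107271881)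 (nat_lit 2) (nat_lit 4) (nat_lit 3) (nat_lit 5) (nat_lit 3) (nat_lit 4) (nat_lit 392) (nat_lit 266) (nat_lit 242)))) (XT.nd (nat_lit 78) (nat_lit 0) (nat_lit 0) (XT.lf (nat_lit 0) (nat_lit 1106261133835) (nat_lit 76) (nat_lit 23005839422) (nat_lit 76) (nat_lit 21858250899) (nat_lit 2) (nat_lit 4) (nat_lit 3) (nat_lit 5) (nat_lit 3) (nat_lit 4) (nat_lit 393) (nat_lit 266) (nat_lit 241)) (XT.nd (nat_lit 78) (nat_lit 0) (nat_lit 0) (XT.lf (nat_lit 0) (nat_lit 1198701559976) (nat_lit 76) (nat_lit 22788103464) (nat_lit 76) (nat_lit 21625980117) (nat_lit 2) (nat_lit 4) (nat_lit 3) (nat_lit 5) (nat_lit 3) (nat_lit 4) (nat_lit 394) (nat_lit 266) (nat_lit 240)) (XT.lf (nat_lit 0) (nat_lit 1298473168113) (nat_lit 76) (nat_lit 22584664632) (nat_lit 76) (nat_lit 21409083115) (nat_lit 2) (nat_lit 4) (nat_lit 3) (nat_lit 5) (nat_lit 3) (nat_lit 4) (nat_lit 395) (nat_lit 266) (nat_lit 239)))))) (XT.nd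 (nat_lit 44928) (nat_lit 0) (nat_lit 0) (XT.nd (nat_lit 44694) (nat_lit 0) (nat_lit 0) (XT.nd (nat_lit 44538) (nat_lit 0) (nat_lit 0) (XT.lf (nat_lit 0) (nat_lit 1406167197406) (nat_lit 76) (nat_lit 22394317365) (nat_lit 76) (nat_lit 21206274579) (nat_lit 2) (nat_lit 4) (nat_lit 3) (nat_lit 5) (nat_lit 3) (nat_lit 4) (nat_lit 396) (nat_lit 266) (nat_lit 238)) (XT.nd (nat_lit 78) (nat_lit 0) (nat_lit 0) (XT.lf (nat_lit 0) (nat_lit 30491514849) (nat_lit 76) (nat_lit 21270543162) (nat_lit 76) (nat_lit 21270543162) (nat_lit 2) (nat_lit 4) (nat_lit 3) (nat_lit 5) (nat_lit 3) (nat_lit 4) (nat_lit 366) (nat_lit 267) (nat_lit 267)) (XT.lf (nat_lit 0) (nat_lit 75578141682) (nat_lit 76) (nat_lit 41017065870) (nat_lit 76) (nat_lit 40909561178) (nat_lit 2) (nat_lit 4) (nat_lit 3) (nat_lit 5) (nat_lit 3) (nat_lit 4) (nat_lit 367) (nat_lit 267) (nat_lit 266)))) (XT.nd (nat_lit 78) (nat_lit 0) (nat_lit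 0) (XT.lf (nat_lit 0) (nat_lit 90867110706) (nat_lit 76) (nat_lit 39605706545) (nat_lit 76) (nat_lit 39398660472) (nat_lit 2) (nat_lit 4) (nat_lit 3) (nat_lit 5) (nat_lit 3) (nat_lit 4) (nat_lit 368) (nat_lit 267) (nat_lit 265)) (XT.nd (nat_lit 78) (nat_lit 0) (nat_lit 0) (XT.lf (nat_lit 0) (nat_lit 106940538070) (nat_lit 76) (nat_lit 38298644739) (nat_lit 76) (nat_lit 37999430720) (nat_lit 2) (nat_lit 4) (nat_lit 3) (nat_lit 5) (nat_lit 3) (nat_lit 4) (nat_lit 369) (nat_lit 267) (nat_lit 264)) (XT.lf (nat_lit 0) (nat_lit 123893673713) (nat_lit 76) (nat_lit 37088134899) (nat_lit 76) (nat_lit 36703580190) (nat_lit 2) (nat_lit 4) (nat_lit 3) (nat_lit 5) (nat_lit 3) (nat_lit 4) (nat_lit 370) (nat_lit 267) (nat_lit 263))))) (XT.nd (nat_lit 234) (nat_lit 0) (nat_lit 0) (XT.nd (nat_lit 78) (nat_lit 0) (nat_lit 0) (XT.lf (nat_lit 0) (nat_lit 141826980661) (nat_lit 76) (nat_lit 35967003634) (nat_lit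 76) (nat_lit 35503429768) (nat_lit 2) (nat_lit 4) (nat_lit 3) (nat_lit 5) (nat_lit 3) (nat_lit 4) (nat_lit 371) (nat_lit 267) (nat_lit 262)) (XT.nd (nat_lit 78) (nat_lit 0) (nat_lit 0) (XT.lf (nat_lit 0) (nat_lit 160846730364) (nat_lit 76) (nat_lit 34928607204) (nat_lit 76) (nat_lit 34391867451) (nat_lit 2) (nat_lit 4) (nat_lit 3) (nat_lit 5) (nat_lit 3) (nat_lit 4) (nat_lit 372) (nat_lit 267) (nat_lit 261)) (XT.lf (nat_lit 0) (nat_lit 181065632448) (nat_lit 76) (nat_lit 33966792147) (nat_lit 76) (nat_lit 33362306203) (nat_lit 2) (nat_lit 4) (nat_lit 3) (nat_lit 5) (nat_lit 3) (nat_lit 4) (nat_lit 373) (nat_lit 267) (nat_lit 260)))) (XT.nd (nat_lit 156) (nat_lit 0) (nat_lit 0) (XT.nd (nat_lit 78) (nat_lit 0) (nat_lit 0) (XT.lf (nat_lit 0) (nat_lit 202603502631) (nat_lit 76) (nat_lit 33075858820) (nat_lit 76) (nat_lit 32408644920) (nat_lit 2) (nat_lit 4) (nat_lit 3) (nat_lit 5) (nat_lit 3)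 (nat_lit 4) (nat_lit 374) (nat_lit 267) (nat_lit 259)) (XT.lf (nat_lit 0) (nat_lit 225587972734) (nat_lit 76) (nat_lit 32250527617) (nat_lit 76) (nat_lit 31525232278) (nat_lit 2) (nat_lit 4) (nat_lit 3) (nat_lit 5) (nat_lit 3) (nat_lit 4) (nat_lit 375) (nat_lit 267) (nat_lit 258))) (XT.nd (nat_lit 78) (nat_lit 0) (nat_lit 0) (XT.lf (nat_lit 0) (nat_lit 250155247027) (nat_lit 76) (nat_lit 31485907687) (nat_lit 76) (nat_lit 30706833236) (nat_lit 2) (nat_lit 4) (nat_lit 3) (nat_lit 5) (nat_lit 3) (nat_lit 4) (nat_lit 376) (nat_lit 267) (nat_lit 257)) (XT.lf (nat_lit 0) (nat_lit 276450909355) (nat_lit 76) (nat_lit 30777467948) (nat_lit 76) (nat_lit 29948598025) (nat_lit 2) (nat_lit 4) (nat_lit 3) (nat_lit 5) (nat_lit 3) (nat_lit 4) (nat_lit 377) (nat_lit 267) (nat_lit 256))))))))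
noncomputable def xc5 : XT := (XT.nd (nat_lit 46254) (nat_lit 0) (nat_lit 0) (XT.nd (nat_lit 936) (nat_lit 0) (nat_lit 0) (XT.nd (nat_lit 468) (nat_lit 0) (nat_lit 0) (XT.nd (nat_lit 234) (nat_lit 0) (nat_lit 0) (XT.nd (nat_lit 78) (nat_lit 0) (nat_lit 0) (XT.lf (nat_lit 0) (nat_lit 304630785867) (nat_lit 76) (nat_lit 30121010240) (nat_lit 76) (nat_lit 29246033397) (nat_lit 2) (nat_lit 4) (nat_lit 3) (nat_lit 5) (nat_lit 3) (nat_lit 4) (nat_lit 378) (nat_lit 267) (nat_lit 255)) (XT.nd (nat_lit 78) (nat_lit 0) (nat_lit 0) (XT.lf (nat_lit 0) (nat_lit 334861868423) (nat_lit 76) (nat_lit 29512644442) (nat_lit 76) (nat_lit 28594976006) (nat_lit 2) (nat_lit 4) (nat_lit 3) (nat_lit 5) (nat_lit 3) (nat_lit 4) (nat_lit 379) (nat_lit 267) (nat_lit 254)) (XT.lf (nat_lit 0) (nat_lit 367323304178) (nat_lit 76) (nat_lit 28948765424) (nat_lit 76) (nat_lit 27991567736) (nat_lit 2) (nat_lit 4) (nat_lit 3)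 (nat_lit 5) (nat_lit 3) (nat_lit 4) (nat_lit 380) (nat_lit 267) (nat_lit 253)))) (XT.nd (nat_lit 78) (nat_lit 0) (nat_lit 0) (XT.lf (nat_lit 0) (nat_lit 402207457198) (nat_lit 76) (nat_lit 28426031680) (nat_lit 76) (nat_lit 27432232833) (nat_lit 2) (nat_lit 4) (nat_lit 3) (nat_lit 5) (nat_lit 3) (nat_lit 4) (nat_lit 381) (nat_lit 267) (nat_lit 252)) (XT.nd (nat_lit 78) (nat_lit 0) (nat_lit 0) (XT.lf (nat_lit 0) (nat_lit 439721048388) (nat_lit 76) (nat_lit 27941345530) (nat_lit 76) (nat_lit 26913656721) (nat_lit 2) (nat_lit 4) (nat_lit 3) (nat_lit 5) (nat_lit 3) (nat_lit 4) (nat_lit 382) (nat_lit 267) (nat_lit 251)) (XT.lf (nat_lit 0) (nat_lit 480086380511) (nat_lit 76) (nat_lit 27491834758) (nat_lit 76) (nat_lit 26432766354) (nat_lit 2) (nat_lit 4) (nat_lit 3) (nat_lit 5) (nat_lit 3) (nat_lit 4) (nat_lit 383) (nat_lit 267) (nat_lit 250))))) (XT.nd (nat_lit 234) (nat_lit 0) (nat_lit 0) (XT.nd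 (nat_lit 78) (nat_lit 0) (nat_lit 0) (XT.lf (nat_lit 0) (nat_lit 523542655536) (nat_lit 76) (nat_lit 27074835598) (nat_lit 76) (nat_lit 25986712014) (nat_lit 2) (nat_lit 4) (nat_lit 3) (nat_lit 5) (nat_lit 3) (nat_lit 4) (nat_lit 384) (nat_lit 267) (nat_lit 249)) (XT.nd (nat_lit 78) (nat_lit 0) (nat_lit 0) (XT.lf (nat_lit 0) (nat_lit 570347392129) (nat_lit 76) (nat_lit 26687876943) (nat_lit 76) (nat_lit 25572850414) (nat_lit 2) (nat_lit 4) (nat_lit 3) (nat_lit 5) (nat_lit 3) (nat_lit 4) (nat_lit 385) (nat_lit 267) (nat_lit 248)) (XT.lf (nat_lit 0) (nat_lit 620777951692) (nat_lit 76) (nat_lit 26328665704) (nat_lit 76) (nat_lit 25188729041) (nat_lit 2) (nat_lit 4) (nat_lit 3) (nat_lit 5) (nat_lit 3) (nat_lit 4) (nat_lit 386) (nat_lit 267) (nat_lit 247)))) (XT.nd (nat_lit 78) (nat_lit 0) (nat_lit 0) (XT.lf (nat_lit 0) (nat_lit 675133181985) (nat_lit 76) (nat_lit 25995073224) (nat_lit 76) (nat_lit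 24832071622) (nat_lit 2) (nat_lit 4) (nat_lit 3) (nat_lit 5) (nat_lit 3) (nat_lit 4) (nat_lit 387) (nat_lit 267) (nat_lit 246)) (XT.nd (nat_lit 78) (nat_lit 0) (nat_lit 0) (XT.lf (nat_lit 0) (nat_lit 733735188077) (nat_lit 76) (nat_lit 25685122657) (nat_lit 76) (nat_lit 24500764630) (nat_lit 2) (nat_lit 4) (nat_lit 3) (nat_lit 5) (nat_lit 3) (nat_lit 4) (nat_lit 388) (nat_lit 267) (nat_lit 245)) (XT.lf (nat_lit 0) (nat_lit 796931241115) (nat_lit 76) (nat_lit 25396977258) (nat_lit 76) (nat_lit 24192844764) (nat_lit 2) (nat_lit 4) (nat_lit 3) (nat_lit 5) (nat_lit 3) (nat_lit 4) (nat_lit 389) (nat_lit 267) (nat_lit 244)))))) (XT.nd (nat_lit 468) (nat_lit 0) (nat_lit 0) (XT.nd (nat_lit 234) (nat_lit 0) (nat_lit 0) (XT.nd (nat_lit 78) (nat_lit 0) (nat_lit 0) (XT.lf (nat_lit 0) (nat_lit 865095836229) (nat_lit 76) (nat_lit 25128929501) (nat_lit 76) (nat_lit 23906487315) (nat_lit 2) (nat_lit 4)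 (nat_lit 3) (nat_lit 5) (nat_lit 3) (nat_lit 4) (nat_lit 390) (nat_lit 267) (nat_lit 243)) (XT.nd (nat_lit 78) (nat_lit 0) (nat_lit 0) (XT.lf (nat_lit 0) (nat_lit 938632911759) (nat_lit 76) (nat_lit 24879390954) (nat_lit 76) (nat_lit 23639995349) (nat_lit 2) (nat_lit 4) (nat_lit 3) (nat_lit 5) (nat_lit 3) (nat_lit 4) (nat_lit 391) (nat_lit 267) (nat_lit 242)) (XT.lf (nat_lit 0) (nat_lit 1017978242968) (nat_lit 76) (nat_lit 24646882870) (nat_lit 76) (nat_lit 23391789655) (nat_lit 2) (nat_lit 4) (nat_lit 3) (nat_lit 5) (nat_lit 3) (nat_lit 4) (nat_lit 392) (nat_lit 267) (nat_lit 241)))) (XT.nd (nat_lit 78) (nat_lit 0) (nat_lit 0) (XT.lf (nat_lit 0) (nat_lit 1103602024412) (nat_lit 76) (nat_lit 24430027422) (nat_lit 76) (nat_lit 23160399384) (nat_lit 2) (nat_lit 4) (nat_lit 3) (nat_lit 5) (nat_lit 3) (nat_lit 4) (nat_lit 393) (nat_lit 267) (nat_lit 240)) (XT.nd (nat_lit 78) (nat_lit 0) (nat_lit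 0) (XT.lf (nat_lit 0) (nat_lit 1196011656276) (nat_lit 76) (nat_lit 24227539543) (nat_lit 76) (nat_lit 22944453334) (nat_lit 2) (nat_lit 4) (nat_lit 3) (nat_lit 5) (nat_lit 3) (nat_lit 4) (nat_lit 394) (nat_lit 267) (nat_lit 239)) (XT.lf (nat_lit 0) (nat_lit 1295754751194) (nat_lit 76) (nat_lit 24038219303) (nat_lit 76) (nat_lit 22742671825) (nat_lit 2) (nat_lit 4) (nat_lit 3) (nat_lit 5) (nat_lit 3) (nat_lit 4) (nat_lit 395) (nat_lit 267) (nat_lit 238))))) (XT.nd (nat_lit 44538) (nat_lit 0) (nat_lit 0) (XT.nd (nat_lit 44382) (nat_lit 0) (nat_lit 0) (XT.lf (nat_lit 0) (nat_lit 1403422379359) (nat_lit 76) (nat_lit 23860944806) (nat_lit 76) (nat_lit 22553859116) (nat_lit 2) (nat_lit 4) (nat_lit 3) (nat_lit 5) (nat_lit 3) (nat_lit 4) (nat_lit 396) (nat_lit 267) (nat_lit 237)) (XT.nd (nat_lit 78) (nat_lit 0) (nat_lit 0) (XT.lf (nat_lit 0) (nat_lit 16898841680) (nat_lit 76) (nat_lit 22974257479)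 (nat_lit 76) (nat_lit 22974257479) (nat_lit 2) (nat_lit 4) (nat_lit 3) (nat_lit 5) (nat_lit 3) (nat_lit 4) (nat_lit 364) (nat_lit 268) (nat_lit 268)) (XT.lf (nat_lit 0) (nat_lit 46995285205) (nat_lit 76) (nat_lit 44302904206) (nat_lit 76) (nat_lit 44186799139) (nat_lit 2) (nat_lit 4) (nat_lit 3) (nat_lit 5) (nat_lit 3) (nat_lit 4) (nat_lit 365) (nat_lit 268) (nat_lit 267)))) (XT.nd (nat_lit 156) (nat_lit 0) (nat_lit 0) (XT.nd (nat_lit 78) (nat_lit 0) (nat_lit 0) (XT.lf (nat_lit 0) (nat_lit 60737043127) (nat_lit 76) (nat_lit 42778993981) (nat_lit 76) (nat_lit 42555384222) (nat_lit 2) (nat_lit 4) (nat_lit 3) (nat_lit 5) (nat_lit 3) (nat_lit 4) (nat_lit 366) (nat_lit 268) (nat_lit 266)) (XT.lf (nat_lit 0) (nat_lit 75104389764) (nat_lit 76) (nat_lit 41367753703) (nat_lit 76) (nat_lit 41044602563) (nat_lit 2) (nat_lit 4) (nat_lit 3) (nat_lit 5) (nat_lit 3) (nat_lit 4) (nat_lit 367) (nat_lit 268)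 (nat_lit 265))) (XT.nd (nat_lit 78) (nat_lit 0) (nat_lit 0) (XT.lf (nat_lit 0) (nat_lit 90182464951) (nat_lit 76) (nat_lit 40060820466) (nat_lit 76) (nat_lit 39645501381) (nat_lit 2) (nat_lit 4) (nat_lit 3) (nat_lit 5) (nat_lit 3) (nat_lit 4) (nat_lit 368) (nat_lit 268) (nat_lit 264)) (XT.lf (nat_lit 0) (nat_lit 106060620243) (nat_lit 76) (nat_lit 38850449482) (nat_lit 76) (nat_lit 38349789707) (nat_lit 2) (nat_lit 4) (nat_lit 3) (nat_lit 5) (nat_lit 3) (nat_lit 4) (nat_lit 369) (nat_lit 268) (nat_lit 263))))))) (XT.nd (nat_lit 936) (nat_lit 0) (nat_lit 0) (XT.nd (nat_lit 468) (nat_lit 0) (nat_lit 0) (XT.nd (nat_lit 234) (nat_lit 0) (nat_lit 0) (XT.nd (nat_lit 78) (nat_lit 0) (nat_lit 0) (XT.lf (nat_lit 0) (nat_lit 122832948412) (nat_lit 76) (nat_lit 37729468182) (nat_lit 76) (nat_lit 37149789249) (nat_lit 2) (nat_lit 4) (nat_lit 3) (nat_lit 5) (nat_lit 3) (nat_lit 4) (nat_lit 370) (nat_lit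 268) (nat_lit 262)) (XT.nd (nat_lit 78) (nat_lit 0) (nat_lit 0) (XT.lf (nat_lit 0) (nat_lit 140598841033) (nat_lit 76) (nat_lit 36691233713) (nat_lit 76) (nat_lit 36038388893) (nat_lit 2) (nat_lit 4) (nat_lit 3) (nat_lit 5) (nat_lit 3) (nat_lit 4) (nat_lit 371) (nat_lit 268) (nat_lit 261)) (XT.lf (nat_lit 0) (nat_lit 159463577469) (nat_lit 76) (nat_lit 35729593575) (nat_lit 76) (nat_lit 35009002564) (nat_lit 2) (nat_lit 4) (nat_lit 3) (nat_lit 5) (nat_lit 3) (nat_lit 4) (nat_lit 372) (nat_lit 268) (nat_lit 260)))) (XT.nd (nat_lit 78) (nat_lit 0) (nat_lit 0) (XT.lf (nat_lit 0) (nat_lit 179538948751) (nat_lit 76) (nat_lit 34838849160) (nat_lit 76) (nat_lit 34055530193) (nat_lit 2) (nat_lit 4) (nat_lit 3) (nat_lit 5) (nat_lit 3) (nat_lit 4) (nat_lit 373) (nat_lit 268) (nat_lit 259)) (XT.nd (nat_lit 78) (nat_lit 0) (nat_lit 0) (XT.lf (nat_lit 0) (nat_lit 200943920042) (nat_lit 76) (nat_lit 34013721982)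 (nat_lit 76) (nat_lit 33172321576) (nat_lit 2) (nat_lit 4) (nat_lit 3) (nat_lit 5) (nat_lit 3) (nat_lit 4) (nat_lit 374) (nat_lit 268) (nat_lit 258)) (XT.lf (nat_lit 0) (nat_lit 223805335617) (nat_lit 76) (nat_lit 33249322399) (nat_lit 76) (nat_lit 32354142881) (nat_lit 2) (nat_lit 4) (nat_lit 3) (nat_lit 5) (nat_lit 3) (nat_lit 4) (nat_lit 375) (nat_lit 268) (nat_lit 257))))) (XT.nd (nat_lit 234) (nat_lit 0) (nat_lit 0) (XT.nd (nat_lit 78) (nat_lit 0) (nat_lit 0) (XT.lf (nat_lit 0) (nat_lit 248258670531) (nat_lit 76) (nat_lit 32541120635) (nat_lit 76) (nat_lit 31596145644) (nat_lit 2) (nat_lit 4) (nat_lit 3) (nat_lit 5) (nat_lit 3) (nat_lit 4) (nat_lit 376) (nat_lit 268) (nat_lit 256)) (XT.nd (nat_lit 78) (nat_lit 0) (nat_lit 0) (XT.lf (nat_lit 0) (nat_lit 274448833435) (nat_lit 76) (nat_lit 31884919939) (nat_lit 76) (nat_lit 30893838029) (nat_lit 2) (nat_lit 4) (nat_lit 3) (nat_lit 5)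 (nat_lit 3) (nat_lit 4) (nat_lit 377) (nat_lit 268) (nat_lit 255)) (XT.lf (nat_lit 0) (nat_lit 302531025294) (nat_lit 76) (nat_lit 31276831715) (nat_lit 76) (nat_lit 30243058213) (nat_lit 2) (nat_lit 4) (nat_lit 3) (nat_lit 5) (nat_lit 3) (nat_lit 4) (nat_lit 378) (nat_lit 268) (nat_lit 254)))) (XT.nd (nat_lit 78) (nat_lit 0) (nat_lit 0) (XT.lf (nat_lit 0) (nat_lit 332671659098) (nat_lit 76) (nat_lit 30713252477) (nat_lit 76) (nat_lit 29639949722) (nat_lit 2) (nat_lit 4) (nat_lit 3) (nat_lit 5) (nat_lit 3) (nat_lit 4) (nat_lit 379) (nat_lit 268) (nat_lit 253)) (XT.nd (nat_lit 78) (nat_lit 0) (nat_lit 0) (XT.lf (nat_lit 0) (nat_lit 365049346009) (nat_lit 76) (nat_lit 30190842495) (nat_lit 76) (nat_lit 29080938581) (nat_lit 2) (nat_lit 4) (nat_lit 3) (nat_lit 5) (nat_lit 3) (nat_lit 4) (nat_lit 380) (nat_lit 268) (nat_lit 252)) (XT.lf (nat_lit 0) (nat_lit 399855953802) (nat_lit 76) (nat_lit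 29706506008) (nat_lit 76) (nat_lit 28562712131) (nat_lit 2) (nat_lit 4) (nat_lit 3) (nat_lit 5) (nat_lit 3) (nat_lit 4) (nat_lit 381) (nat_lit 268) (nat_lit 251)))))) (XT.nd (nat_lit 468) (nat_lit 0) (nat_lit 0) (XT.nd (nat_lit 234) (nat_lit 0) (nat_lit 0) (XT.nd (nat_lit 78) (nat_lit 0) (nat_lit 0) (XT.lf (nat_lit 0) (nat_lit 437297743857) (nat_lit 76) (nat_lit 29257372872) (nat_lit 76) (nat_lit 28082199401) (nat_lit 2) (nat_lit 4) (nat_lit 3) (nat_lit 5) (nat_lit 3) (nat_lit 4) (nat_lit 382) (nat_lit 268) (nat_lit 250)) (XT.nd (nat_lit 78) (nat_lit 0) (nat_lit 0) (XT.lf (nat_lit 0) (nat_lit 477596593447) (nat_lit 76) (nat_lit 28840781558) (nat_lit 76) (nat_lit 27636552907) (nat_lit 2) (nat_lit 4) (nat_lit 3) (nat_lit 5) (nat_lit 3) (nat_lit 4) (nat_lit 383) (nat_lit 268) (nat_lit 249)) (XT.lf (nat_lit 0) (nat_lit 520991310571) (nat_lit 76) (nat_lit 28454263378) (nat_lit 76) (nat_lit 27223131782)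 (nat_lit 2) (nat_lit 4) (nat_lit 3) (nat_lit 5) (nat_lit 3) (nat_lit 4) (nat_lit 384) (nat_lit 268) (nat_lit 248)))) (XT.nd (nat_lit 78) (nat_lit 0) (nat_lit 0) (XT.lf (nat_lit 0) (nat_lit 567739049107) (nat_lit 76) (nat_lit 28095527852) (nat_lit 76) (nat_lit 26839486122) (nat_lit 2) (nat_lit 4) (nat_lit 3) (nat_lit 5) (nat_lit 3) (nat_lit 4) (nat_lit 385) (nat_lit 268) (nat_lit 247)) (XT.nd (nat_lit 78) (nat_lit 0) (nat_lit 0) (XT.lf (nat_lit 0) (nat_lit 618116832692) (nat_lit 76) (nat_lit 27762449141) (nat_lit 76) (nat_lit 26483342472) (nat_lit 2) (nat_lit 4) (nat_lit 3) (nat_lit 5) (nat_lit 3) (nat_lit 4) (nat_lit 386) (nat_lit 268) (nat_lit 246)) (XT.lf (nat_lit 0) (nat_lit 672423196339) (nat_lit 76) (nat_lit 27453053445) (nat_lit 76) (nat_lit 26152590351) (nat_lit 2) (nat_lit 4) (nat_lit 3) (nat_lit 5) (nat_lit 3) (nat_lit 4) (nat_lit 387) (nat_lit 268) (nat_lit 245))))) (XT.nd (nat_lit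 234) (nat_lit 0) (nat_lit 0) (XT.nd (nat_lit 78) (nat_lit 0) (nat_lit 0) (XT.lf (nat_lit 0) (nat_lit 730979955536) (nat_lit 76) (nat_lit 27165507308) (nat_lit 76) (nat_lit 25845269747) (nat_lit 2) (nat_lit 4) (nat_lit 3) (nat_lit 5) (nat_lit 3) (nat_lit 4) (nat_lit 388) (nat_lit 268) (nat_lit 244)) (XT.nd (nat_lit 78) (nat_lit 0) (nat_lit 0) (XT.lf (nat_lit 0) (nat_lit 794134113301) (nat_lit 76) (nat_lit 26898106753) (nat_lit 76) (nat_lit 25559559499) (nat_lit 2) (nat_lit 4) (nat_lit 3) (nat_lit 5) (nat_lit 3) (nat_lit 4) (nat_lit 389) (nat_lit 268) (nat_lit 243)) (XT.lf (nat_lit 0) (nat_lit 862259916496) (nat_lit 76) (nat_lit 26649267183) (nat_lit 76) (nat_lit 25293766511) (nat_lit 2) (nat_lit 4) (nat_lit 3) (nat_lit 5) (nat_lit 3) (nat_lit 4) (nat_lit 390) (nat_lit 268) (nat_lit 242)))) (XT.nd (nat_lit 156) (nat_lit 0) (nat_lit 0) (XT.nd (nat_lit 78) (nat_lit 0) (nat_lit 0) (XT.lf (nat_lit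 0) (nat_lit 935761073582) (nat_lit 76) (nat_lit 26417513995) (nat_lit 76) (nat_lit 25046315713) (nat_lit 2) (nat_lit 4) (nat_lit 3) (nat_lit 5) (nat_lit 3) (nat_lit 4) (nat_lit 391) (nat_lit 268) (nat_lit 241)) (XT.lf (nat_lit 0) (nat_lit 1015073146973) (nat_lit 76) (nat_lit 26201473836) (nat_lit 76) (nat_lit 24815740730) (nat_lit 2) (nat_lit 4) (nat_lit 3) (nat_lit 5) (nat_lit 3) (nat_lit 4) (nat_lit 392) (nat_lit 268) (nat_lit 240))) (XT.nd (nat_lit 78) (nat_lit 0) (nat_lit 0) (XT.lf (nat_lit 0) (nat_lit 1100666134140) (nat_lit 76) (nat_lit 25999866467) (nat_lit 76) (nat_lit 24600675191) (nat_lit 2) (nat_lit 4) (nat_lit 3) (nat_lit 5) (nat_lit 3) (nat_lit 4) (nat_lit 393) (nat_lit 268) (nat_lit 239)) (XT.lf (nat_lit 0) (nat_lit 1193047252785) (nat_lit 76) (nat_lit 25811497179) (nat_lit 76) (nat_lit 24399844634) (nat_lit 2) (nat_lit 4) (nat_lit 3) (nat_lit 5) (nat_lit 3) (nat_lit 4) (nat_lit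 394) (nat_lit 268) (nat_lit 238))))))))
noncomputable def xc6 : XT := (XT.nd (nat_lit 46098) (nat_lit 0) (nat_lit 0) (XT.nd (nat_lit 45084) (nat_lit 0) (nat_lit 0) (XT.nd (nat_lit 44616) (nat_lit 0) (nat_lit 0) (XT.nd (nat_lit 44382) (nat_lit 0) (nat_lit 0) (XT.nd (nat_lit 78) (nat_lit 0) (nat_lit 0) (XT.lf (nat_lit 0) (nat_lit 1292763946575) (nat_lit 76) (nat_lit 25635249709) (nat_lit 76) (nat_lit 24212058952) (nat_lit 2) (nat_lit 4) (nat_lit 3) (nat_lit 5) (nat_lit 3) (nat_lit 4) (nat_lit 395) (nat_lit 268) (nat_lit 237)) (XT.nd (nat_lit 44226) (nat_lit 0) (nat_lit 0) (XT.lf (nat_lit 0) (nat_lit 1400407129250) (nat_lit 76) (nat_lit 25470079628) (nat_lit 76) (nat_lit 24036205341) (nat_lit 2) (nat_lit 4) (nat_lit 3) (nat_lit 5) (nat_lit 3) (nat_lit 4) (nat_lit 396) (nat_lit 268) (nat_lit 236)) (XT.lf (nat_lit 0) (nat_lit 4505897886) (nat_lit 76) (nat_lit 24813973509) (nat_lit 76) (nat_lit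 24813973509) (nat_lit 2) (nat_lit 4) (nat_lit 3) (nat_lit 5) (nat_lit 3) (nat_lit 4) (nat_lit 362) (nat_lit 269) (nat_lit 269)))) (XT.nd (nat_lit 78) (nat_lit 0) (nat_lit 0) (XT.lf (nat_lit 0) (nat_lit 21066029583) (nat_lit 76) (nat_lit 47850971476) (nat_lit 76) (nat_lit 47725578004) (nat_lit 2) (nat_lit 4) (nat_lit 3) (nat_lit 5) (nat_lit 3) (nat_lit 4) (nat_lit 363) (nat_lit 269) (nat_lit 268)) (XT.nd (nat_lit 78) (nat_lit 0) (nat_lit 0) (XT.lf (nat_lit 0) (nat_lit 33532017863) (nat_lit 76) (nat_lit 46205455227) (nat_lit 76) (nat_lit 45963956688) (nat_lit 2) (nat_lit 4) (nat_lit 3) (nat_lit 5) (nat_lit 3) (nat_lit 4) (nat_lit 364) (nat_lit 269) (nat_lit 267)) (XT.lf (nat_lit 0) (nat_lit 46483633135) (nat_lit 76) (nat_lit 44681647065) (nat_lit 76) (nat_lit 44332643834) (nat_lit 2) (nat_lit 4) (nat_lit 3) (nat_lit 5) (nat_lit 3) (nat_lit 4) (nat_lit 365) (nat_lit 269) (nat_lit 266))))) (XT.nd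 (nat_lit 234) (nat_lit 0) (nat_lit 0) (XT.nd (nat_lit 78) (nat_lit 0) (nat_lit 0) (XT.lf (nat_lit 0) (nat_lit 59997625711) (nat_lit 76) (nat_lit 43270517015) (nat_lit 76) (nat_lit 42821972403) (nat_lit 2) (nat_lit 4) (nat_lit 3) (nat_lit 5) (nat_lit 3) (nat_lit 4) (nat_lit 366) (nat_lit 269) (nat_lit 265)) (XT.nd (nat_lit 78) (nat_lit 0) (nat_lit 0) (XT.lf (nat_lit 0) (nat_lit 74154078512) (nat_lit 76) (nat_lit 41963702826) (nat_lit 76) (nat_lit 41422990268) (nat_lit 2) (nat_lit 4) (nat_lit 3) (nat_lit 5) (nat_lit 3) (nat_lit 4) (nat_lit 367) (nat_lit 269) (nat_lit 264)) (XT.lf (nat_lit 0) (nat_lit 89036881626) (nat_lit 76) (nat_lit 40753460412) (nat_lit 76) (nat_lit 40127407164) (nat_lit 2) (nat_lit 4) (nat_lit 3) (nat_lit 5) (nat_lit 3) (nat_lit 4) (nat_lit 368) (nat_lit 269) (nat_lit 263)))) (XT.nd (nat_lit 78) (nat_lit 0) (nat_lit 0) (XT.lf (nat_lit 0) (nat_lit 104734229444) (nat_lit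 76) (nat_lit 39632617968) (nat_lit 76) (nat_lit 38927545562) (nat_lit 2) (nat_lit 4) (nat_lit 3) (nat_lit 5) (nat_lit 3) (nat_lit 4) (nat_lit 369) (nat_lit 269) (nat_lit 262)) (XT.nd (nat_lit 78) (nat_lit 0) (nat_lit 0) (XT.lf (nat_lit 0) (nat_lit 121339143285) (nat_lit 76) (nat_lit 38594533464) (nat_lit 76) (nat_lit 37816295171) (nat_lit 2) (nat_lit 4) (nat_lit 3) (nat_lit 5) (nat_lit 3) (nat_lit 4) (nat_lit 370) (nat_lit 269) (nat_lit 261)) (XT.lf (nat_lit 0) (nat_lit 138950022639) (nat_lit 76) (nat_lit 37633055287) (nat_lit 76) (nat_lit 36787070803) (nat_lit 2) (nat_lit 4) (nat_lit 3) (nat_lit 5) (nat_lit 3) (nat_lit 4) (nat_lit 371) (nat_lit 269) (nat_lit 260)))))) (XT.nd (nat_lit 468) (nat_lit 0) (nat_lit 0) (XT.nd (nat_lit 234) (nat_lit 0) (nat_lit 0) (XT.nd (nat_lit 78) (nat_lit 0) (nat_lit 0) (XT.lf (nat_lit 0) (nat_lit 157671228273) (nat_lit 76) (nat_lit 36742485791) (nat_lit 76)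 (nat_lit 35833773351) (nat_lit 2) (nat_lit 4) (nat_lit 3) (nat_lit 5) (nat_lit 3) (nat_lit 4) (nat_lit 372) (nat_lit 269) (nat_lit 259)) (XT.nd (nat_lit 78) (nat_lit 0) (nat_lit 0) (XT.lf (nat_lit 0) (nat_lit 177613700664) (nat_lit 76) (nat_lit 35917547525) (nat_lit 76) (nat_lit 34950753645) (nat_lit 2) (nat_lit 4) (nat_lit 3) (nat_lit 5) (nat_lit 3) (nat_lit 4) (nat_lit 373) (nat_lit 269) (nat_lit 258)) (XT.lf (nat_lit 0) (nat_lit 198895617427) (nat_lit 76) (nat_lit 35153351966) (nat_lit 76) (nat_lit 34132778976) (nat_lit 2) (nat_lit 4) (nat_lit 3) (nat_lit 5) (nat_lit 3) (nat_lit 4) (nat_lit 374) (nat_lit 269) (nat_lit 257)))) (XT.nd (nat_lit 78) (nat_lit 0) (nat_lit 0) (XT.lf (nat_lit 0) (nat_lit 221643093623) (nat_lit 76) (nat_lit 34445370549) (nat_lit 76) (nat_lit 33375002086) (nat_lit 2) (nat_lit 4) (nat_lit 3) (nat_lit 5) (nat_lit 3) (nat_lit 4) (nat_lit 375) (nat_lit 269) (nat_lit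 256)) (XT.nd (nat_lit 78) (nat_lit 0) (nat_lit 0) (XT.lf (nat_lit 0) (nat_lit 245990929113) (nat_lit 76) (nat_lit 33789407828) (nat_lit 76) (nat_lit 32672932446) (nat_lit 2) (nat_lit 4) (nat_lit 3) (nat_lit 5) (nat_lit 3) (nat_lit 4) (nat_lit 376) (nat_lit 269) (nat_lit 255)) (XT.lf (nat_lit 0) (nat_lit 272083407364) (nat_lit 76) (nat_lit 33181576617) (nat_lit 76) (nat_lit 32022409642) (nat_lit 2) (nat_lit 4) (nat_lit 3) (nat_lit 5) (nat_lit 3) (nat_lit 4) (nat_lit 377) (nat_lit 269) (nat_lit 254))))) (XT.nd (nat_lit 234) (nat_lit 0) (nat_lit 0) (XT.nd (nat_lit 78) (nat_lit 0) (nat_lit 0) (XT.lf (nat_lit 0) (nat_lit 300075150472) (nat_lit 76) (nat_lit 32618274952) (nat_lit 76) (nat_lit 31419578725) (nat_lit 2) (nat_lit 4) (nat_lit 3) (nat_lit 5) (nat_lit 3) (nat_lit 4) (nat_lit 378) (nat_lit 269) (nat_lit 253)) (XT.nd (nat_lit 78) (nat_lit 0) (nat_lit 0) (XT.lf (nat_lit 0) (nat_lit 330132035431)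 (nat_lit 76) (nat_lit 32096164750) (nat_lit 76) (nat_lit 30860867364) (nat_lit 2) (nat_lit 4) (nat_lit 3) (nat_lit 5) (nat_lit 3) (nat_lit 4) (nat_lit 379) (nat_lit 269) (nat_lit 252)) (XT.lf (nat_lit 0) (nat_lit 362432177115) (nat_lit 76) (nat_lit 31612152025) (nat_lit 76) (nat_lit 30342964676) (nat_lit 2) (nat_lit 4) (nat_lit 3) (nat_lit 5) (nat_lit 3) (nat_lit 4) (nat_lit 380) (nat_lit 269) (nat_lit 251)))) (XT.nd (nat_lit 156) (nat_lit 0) (nat_lit 0) (XT.nd (nat_lit 78) (nat_lit 0) (nat_lit 0) (XT.lf (nat_lit 0) (nat_lit 397166983773) (nat_lit 76) (nat_lit 31163368552) (nat_lit 76) (nat_lit 29862801609) (nat_lit 2) (nat_lit 4) (nat_lit 3) (nat_lit 5) (nat_lit 3) (nat_lit 4) (nat_lit 381) (nat_lit 269) (nat_lit 250)) (XT.lf (nat_lit 0) (nat_lit 434542291295) (nat_lit 76) (nat_lit 30747154875) (nat_lit 76) (nat_lit 29417532751) (nat_lit 2) (nat_lit 4) (nat_lit 3) (nat_lit 5) (nat_lit 3)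 (nat_lit 4) (nat_lit 382) (nat_lit 269) (nat_lit 249))) (XT.nd (nat_lit 78) (nat_lit 0) (nat_lit 0) (XT.lf (nat_lit 0) (nat_lit 474779582984) (nat_lit 76) (nat_lit 30361044541) (nat_lit 76) (nat_lit 29004519473) (nat_lit 2) (nat_lit 4) (nat_lit 3) (nat_lit 5) (nat_lit 3) (nat_lit 4) (nat_lit 383) (nat_lit 269) (nat_lit 248)) (XT.lf (nat_lit 0) (nat_lit 518117302051) (nat_lit 76) (nat_lit 30002749490) (nat_lit 76) (nat_lit 28621314287) (nat_lit 2) (nat_lit 4) (nat_lit 3) (nat_lit 5) (nat_lit 3) (nat_lit 4) (nat_lit 384) (nat_lit 269) (nat_lit 247))))))) (XT.nd (nat_lit 44928) (nat_lit 0) (nat_lit 0) (XT.nd (nat_lit 468) (nat_lit 0) (nat_lit 0) (XT.nd (nat_lit 234) (nat_lit 0) (nat_lit 0) (XT.nd (nat_lit 78) (nat_lit 0) (nat_lit 0) (XT.lf (nat_lit 0) (nat_lit 564812264609) (nat_lit 76) (nat_lit 29670146491) (nat_lit 76) (nat_lit 28265646350) (nat_lit 2) (nat_lit 4) (nat_lit 3) (nat_lit 5)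 (nat_lit 3) (nat_lit 4) (nat_lit 385) (nat_lit 269) (nat_lit 246)) (XT.nd (nat_lit 78) (nat_lit 0) (nat_lit 0) (XT.lf (nat_lit 0) (nat_lit 615141181548) (nat_lit 76) (nat_lit 29361264565) (nat_lit 76) (nat_lit 27935407999) (nat_lit 2) (nat_lit 4) (nat_lit 3) (nat_lit 5) (nat_lit 3) (nat_lit 4) (nat_lit 386) (nat_lit 269) (nat_lit 245)) (XT.lf (nat_lit 0) (nat_lit 669402298300) (nat_lit 76) (nat_lit 29074273299) (nat_lit 76) (nat_lit 27628642265) (nat_lit 2) (nat_lit 4) (nat_lit 3) (nat_lit 5) (nat_lit 3) (nat_lit 4) (nat_lit 387) (nat_lit 269) (nat_lit 244)))) (XT.nd (nat_lit 78) (nat_lit 0) (nat_lit 0) (XT.lf (nat_lit 0) (nat_lit 727917162224) (nat_lit 76) (nat_lit 28807472004) (nat_lit 76) (nat_lit 27343531279) (nat_lit 2) (nat_lit 4) (nat_lit 3) (nat_lit 5) (nat_lit 3) (nat_lit 4) (nat_lit 388) (nat_lit 269) (nat_lit 243)) (XT.nd (nat_lit 78) (nat_lit 0) (nat_lit 0) (XT.lf (nat_lit 0)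 (nat_lit 791032528070) (nat_lit 76) (nat_lit 28559279637) (nat_lit 76) (nat_lit 27078385492) (nat_lit 2) (nat_lit 4) (nat_lit 3) (nat_lit 5) (nat_lit 3) (nat_lit 4) (nat_lit 389) (nat_lit 269) (nat_lit 242)) (XT.lf (nat_lit 0) (nat_lit 859122412820) (nat_lit 76) (nat_lit 28328225426) (nat_lit 76) (nat_lit 26831633672) (nat_lit 2) (nat_lit 4) (nat_lit 3) (nat_lit 5) (nat_lit 3) (nat_lit 4) (nat_lit 390) (nat_lit 269) (nat_lit 241))))) (XT.nd (nat_lit 234) (nat_lit 0) (nat_lit 0) (XT.nd (nat_lit 78) (nat_lit 0) (nat_lit 0) (XT.lf (nat_lit 0) (nat_lit 932590312088) (nat_lit 76) (nat_lit 28112940163) (nat_lit 76) (nat_lit 26601813585) (nat_lit 2) (nat_lit 4) (nat_lit 3) (nat_lit 5) (nat_lit 3) (nat_lit 4) (nat_lit 391) (nat_lit 269) (nat_lit 240)) (XT.nd (nat_lit 78) (nat_lit 0) (nat_lit 0) (XT.lf (nat_lit 0) (nat_lit 1011871591202) (nat_lit 76) (nat_lit 27912148082) (nat_lit 76) (nat_lit 26387563334)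 (nat_lit 2) (nat_lit 4) (nat_lit 3) (nat_lit 5) (nat_lit 3) (nat_lit 4) (nat_lit 392) (nat_lit 269) (nat_lit 239)) (XT.lf (nat_lit 0) (nat_lit 1097436065151) (nat_lit 76) (nat_lit 27724659305) (nat_lit 76) (nat_lit 26187613288) (nat_lit 2) (nat_lit 4) (nat_lit 3) (nat_lit 5) (nat_lit 3) (nat_lit 4) (nat_lit 393) (nat_lit 269) (nat_lit 238)))) (XT.nd (nat_lit 78) (nat_lit 0) (nat_lit 0) (XT.lf (nat_lit 0) (nat_lit 1189790782668) (nat_lit 76) (nat_lit 27549362787) (nat_lit 76) (nat_lit 26000778558) (nat_lit 2) (nat_lit 4) (nat_lit 3) (nat_lit 5) (nat_lit 3) (nat_lit 4) (nat_lit 394) (nat_lit 269) (nat_lit 237)) (XT.nd (nat_lit 78) (nat_lit 0) (nat_lit 0) (XT.lf (nat_lit 0) (nat_lit 1289483030968) (nat_lit 76) (nat_lit 27385219733) (nat_lit 76) (nat_lit 25825951975) (nat_lit 2) (nat_lit 4) (nat_lit 3) (nat_lit 5) (nat_lit 3) (nat_lit 4) (nat_lit 395) (nat_lit 269) (nat_lit 236)) (XT.lf (nat_lit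 0) (nat_lit 1397103578931) (nat_lit 76) (nat_lit 27231257445) (nat_lit 76) (nat_lit 25662097529) (nat_lit 2) (nat_lit 4) (nat_lit 3) (nat_lit 5) (nat_lit 3) (nat_lit 4) (nat_lit 396) (nat_lit 269) (nat_lit 235)))))) (XT.nd (nat_lit 468) (nat_lit 0) (nat_lit 0) (XT.nd (nat_lit 234) (nat_lit 0) (nat_lit 0) (XT.nd (nat_lit 78) (nat_lit 76) (nat_lit 0) (XT.lf (nat_lit 0) (nat_lit 19990992311) (nat_lit 152) (nat_lit 6696217542) (nat_lit 0) (nat_lit 19990992311) (nat_lit 3) (nat_lit 5) (nat_lit 5) (nat_lit 4) (nat_lit 3) (nat_lit 4) (nat_lit 360) (nat_lit 270) (nat_lit 270)) (XT.nd (nat_lit 78) (nat_lit 76) (nat_lit 0) (XT.lf (nat_lit 0) (nat_lit 49022408569) (nat_lit 152) (nat_lit 2615631477) (nat_lit 0) (nat_lit 48886983619) (nat_lit 3) (nat_lit 5) (nat_lit 5) (nat_lit 4) (nat_lit 3) (nat_lit 4) (nat_lit 361) (nat_lit 270) (nat_lit 269)) (XT.lf (nat_lit 0) (nat_lit 8724877034) (nat_lit 76) (nat_lit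 49905442510) (nat_lit 76) (nat_lit 49644624087) (nat_lit 2) (nat_lit 4) (nat_lit 3) (nat_lit 5) (nat_lit 3) (nat_lit 4) (nat_lit 362) (nat_lit 270) (nat_lit 268)))) (XT.nd (nat_lit 78) (nat_lit 0) (nat_lit 0) (XT.lf (nat_lit 0) (nat_lit 20513445347) (nat_lit 76) (nat_lit 48260013764) (nat_lit 76) (nat_lit 47883090274) (nat_lit 2) (nat_lit 4) (nat_lit 3) (nat_lit 5) (nat_lit 3) (nat_lit 4) (nat_lit 363) (nat_lit 270) (nat_lit 267)) (XT.nd (nat_lit 78) (nat_lit 0) (nat_lit 0) (XT.lf (nat_lit 0) (nat_lit 32733447054) (nat_lit 76) (nat_lit 46736300105) (nat_lit 76) (nat_lit 46251871923) (nat_lit 2) (nat_lit 4) (nat_lit 3) (nat_lit 5) (nat_lit 3) (nat_lit 4) (nat_lit 364) (nat_lit 270) (nat_lit 266)) (XT.lf (nat_lit 0) (nat_lit 45457296982) (nat_lit 76) (nat_lit 45325272118) (nat_lit 76) (nat_lit 44741302556) (nat_lit 2) (nat_lit 4) (nat_lit 3) (nat_lit 5) (nat_lit 3) (nat_lit 4) (nat_lit 365)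 (nat_lit 270) (nat_lit 265))))) (XT.nd (nat_lit 234) (nat_lit 0) (nat_lit 0) (XT.nd (nat_lit 78) (nat_lit 0) (nat_lit 0) (XT.lf (nat_lit 0) (nat_lit 58760395720) (nat_lit 76) (nat_lit 44018568157) (nat_lit 76) (nat_lit 43342430649) (nat_lit 2) (nat_lit 4) (nat_lit 3) (nat_lit 5) (nat_lit 3) (nat_lit 4) (nat_lit 366) (nat_lit 270) (nat_lit 264)) (XT.nd (nat_lit 78) (nat_lit 0) (nat_lit 0) (XT.lf (nat_lit 0) (nat_lit 72721576449) (nat_lit 76) (nat_lit 42808444790) (nat_lit 76) (nat_lit 42046966592) (nat_lit 2) (nat_lit 4) (nat_lit 3) (nat_lit 5) (nat_lit 3) (nat_lit 4) (nat_lit 367) (nat_lit 270) (nat_lit 263)) (XT.lf (nat_lit 0) (nat_lit 87423572089) (nat_lit 76) (nat_lit 41687730916) (nat_lit 76) (nat_lit 40847233560) (nat_lit 2) (nat_lit 4) (nat_lit 3) (nat_lit 5) (nat_lit 3) (nat_lit 4) (nat_lit 368) (nat_lit 270) (nat_lit 262)))) (XT.nd (nat_lit 156) (nat_lit 0) (nat_lit 0) (XT.nd (nat_lit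 78) (nat_lit 0) (nat_lit 0) (XT.lf (nat_lit 0) (nat_lit 102953505579) (nat_lit 76) (nat_lit 40649785268) (nat_lit 76) (nat_lit 39736122025) (nat_lit 2) (nat_lit 4) (nat_lit 3) (nat_lit 5) (nat_lit 3) (nat_lit 4) (nat_lit 369) (nat_lit 270) (nat_lit 261)) (XT.lf (nat_lit 0) (nat_lit 119403406154) (nat_lit 76) (nat_lit 39688457056) (nat_lit 76) (nat_lit 38707047621) (nat_lit 2) (nat_lit 4) (nat_lit 3) (nat_lit 5) (nat_lit 3) (nat_lit 4) (nat_lit 370) (nat_lit 270) (nat_lit 260))) (XT.nd (nat_lit 78) (nat_lit 0) (nat_lit 0) (XT.lf (nat_lit 0) (nat_lit 136870754706) (nat_lit 76) (nat_lit 38798049521) (nat_lit 76) (nat_lit 37753912131) (nat_lit 2) (nat_lit 4) (nat_lit 3) (nat_lit 5) (nat_lit 3) (nat_lit 4) (nat_lit 371) (nat_lit 270) (nat_lit 259)) (XT.lf (nat_lit 0) (nat_lit 155459061449) (nat_lit 76) (nat_lit 37973286173) (nat_lit 76) (nat_lit 36871067344) (nat_lit 2) (nat_lit 4) (nat_lit 3)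 (nat_lit 5) (nat_lit 3) (nat_lit 4) (nat_lit 372) (nat_lit 270) (nat_lit 258))))))))
noncomputable def xc7 : XT := (XT.nd (nat_lit 45786) (nat_lit 0) (nat_lit 0) (XT.nd (nat_lit 936) (nat_lit 0) (nat_lit 0) (XT.nd (nat_lit 468) (nat_lit 0) (nat_lit 0) (XT.nd (nat_lit 234) (nat_lit 0) (nat_lit 0) (XT.nd (nat_lit 78) (nat_lit 0) (nat_lit 0) (XT.lf (nat_lit 0) (nat_lit 175278479311) (nat_lit 76) (nat_lit 37209279527) (nat_lit 76) (nat_lit 36053281587) (nat_lit 2) (nat_lit 4) (nat_lit 3) (nat_lit 5) (nat_lit 3) (nat_lit 4) (nat_lit 373) (nat_lit 270) (nat_lit 257)) (XT.nd (nat_lit 78) (nat_lit 0) (nat_lit 0) (XT.lf (nat_lit 0) (nat_lit 196446456695) (nat_lit 76) (nat_lit 36501502135) (nat_lit 76) (nat_lit 35295708722) (nat_lit 2) (nat_lit 4) (nat_lit 3) (nat_lit 5) (nat_lit 3) (nat_lit 4) (nat_lit 374) (nat_lit 270) (nat_lit 256)) (XT.lf (nat_lit 0) (nat_lit 219088433467) (nat_lit 76) (nat_lit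 35845759761) (nat_lit 76) (nat_lit 34593859428) (nat_lit 2) (nat_lit 4) (nat_lit 3) (nat_lit 5) (nat_lit 3) (nat_lit 4) (nat_lit 375) (nat_lit 270) (nat_lit 255)))) (XT.nd (nat_lit 78) (nat_lit 0) (nat_lit 0) (XT.lf (nat_lit 0) (nat_lit 243338584304) (nat_lit 76) (nat_lit 35238166524) (nat_lit 76) (nat_lit 33943574599) (nat_lit 2) (nat_lit 4) (nat_lit 3) (nat_lit 5) (nat_lit 3) (nat_lit 4) (nat_lit 376) (nat_lit 270) (nat_lit 254)) (XT.nd (nat_lit 78) (nat_lit 0) (nat_lit 0) (XT.lf (nat_lit 0) (nat_lit 269340613804) (nat_lit 76) (nat_lit 34675121872) (nat_lit 76) (nat_lit 33341000695) (nat_lit 2) (nat_lit 4) (nat_lit 3) (nat_lit 5) (nat_lit 3) (nat_lit 4) (nat_lit 377) (nat_lit 270) (nat_lit 253)) (XT.lf (nat_lit 0) (nat_lit 297248608066) (nat_lit 76) (nat_lit 34153289244) (nat_lit 76) (nat_lit 32782566908) (nat_lit 2) (nat_lit 4) (nat_lit 3) (nat_lit 5) (nat_lit 3) (nat_lit 4) (nat_lit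 378) (nat_lit 270) (nat_lit 252))))) (XT.nd (nat_lit 234) (nat_lit 0) (nat_lit 0) (XT.nd (nat_lit 78) (nat_lit 0) (nat_lit 0) (XT.lf (nat_lit 0) (nat_lit 327227947799) (nat_lit 76) (nat_lit 33669576298) (nat_lit 76) (nat_lit 32264963999) (nat_lit 2) (nat_lit 4) (nat_lit 3) (nat_lit 5) (nat_lit 3) (nat_lit 4) (nat_lit 379) (nat_lit 270) (nat_lit 251)) (XT.nd (nat_lit 78) (nat_lit 0) (nat_lit 0) (XT.lf (nat_lit 0) (nat_lit 359456288348) (nat_lit 76) (nat_lit 33221116587) (nat_lit 76) (nat_lit 31785124694) (nat_lit 2) (nat_lit 4) (nat_lit 3) (nat_lit 5) (nat_lit 3) (nat_lit 4) (nat_lit 380) (nat_lit 270) (nat_lit 250)) (XT.lf (nat_lit 0) (nat_lit 394124612473) (nat_lit 76) (nat_lit 32805252573) (nat_lit 76) (nat_lit 31340205499) (nat_lit 2) (nat_lit 4) (nat_lit 3) (nat_lit 5) (nat_lit 3) (nat_lit 4) (nat_lit 381) (nat_lit 270) (nat_lit 249)))) (XT.nd (nat_lit 78) (nat_lit 0) (nat_lit 0) (XT.lf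 (nat_lit 0) (nat_lit 431438362093) (nat_lit 76) (nat_lit 32419519875) (nat_lit 76) (nat_lit 30927569857) (nat_lit 2) (nat_lit 4) (nat_lit 3) (nat_lit 5) (nat_lit 3) (nat_lit 4) (nat_lit 382) (nat_lit 270) (nat_lit 248)) (XT.nd (nat_lit 78) (nat_lit 0) (nat_lit 0) (XT.lf (nat_lit 0) (nat_lit 471618655726) (nat_lit 76) (nat_lit 32061632671) (nat_lit 76) (nat_lit 30544772519) (nat_lit 2) (nat_lit 4) (nat_lit 3) (nat_lit 5) (nat_lit 3) (nat_lit 4) (nat_lit 383) (nat_lit 270) (nat_lit 247)) (XT.lf (nat_lit 0) (nat_lit 514903598816) (nat_lit 76) (nat_lit 31729470147) (nat_lit 76) (nat_lit 30189545056) (nat_lit 2) (nat_lit 4) (nat_lit 3) (nat_lit 5) (nat_lit 3) (nat_lit 4) (nat_lit 384) (nat_lit 270) (nat_lit 246)))))) (XT.nd (nat_lit 468) (nat_lit 0) (nat_lit 0) (XT.nd (nat_lit 234) (nat_lit 0) (nat_lit 0) (XT.nd (nat_lit 78) (nat_lit 0) (nat_lit 0) (XT.lf (nat_lit 0) (nat_lit 561549694727) (nat_lit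 76) (nat_lit 31421063933) (nat_lit 76) (nat_lit 29859782417) (nat_lit 2) (nat_lit 4) (nat_lit 3) (nat_lit 5) (nat_lit 3) (nat_lit 4) (nat_lit 385) (nat_lit 270) (nat_lit 245)) (XT.nd (nat_lit 78) (nat_lit 0) (nat_lit 0) (XT.lf (nat_lit 0) (nat_lit 611833364771) (nat_lit 76) (nat_lit 31134586437) (nat_lit 76) (nat_lit 29553530453) (nat_lit 2) (nat_lit 4) (nat_lit 3) (nat_lit 5) (nat_lit 3) (nat_lit 4) (nat_lit 386) (nat_lit 270) (nat_lit 244)) (XT.lf (nat_lit 0) (nat_lit 666052586250) (nat_lit 76) (nat_lit 30868340014) (nat_lit 76) (nat_lit 29268974338) (nat_lit 2) (nat_lit 4) (nat_lit 3) (nat_lit 5) (nat_lit 3) (nat_lit 4) (nat_lit 387) (nat_lit 270) (nat_lit 243)))) (XT.nd (nat_lit 78) (nat_lit 0) (nat_lit 0) (XT.lf (nat_lit 0) (nat_lit 724528658255) (nat_lit 76) (nat_lit 30620746907) (nat_lit 76) (nat_lit 29004427812) (nat_lit 2) (nat_lit 4) (nat_lit 3) (nat_lit 5) (nat_lit 3) (nat_lit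 4) (nat_lit 388) (nat_lit 270) (nat_lit 242)) (XT.nd (nat_lit 78) (nat_lit 0) (nat_lit 0) (XT.lf (nat_lit 0) (nat_lit 787608105657) (nat_lit 76) (nat_lit 30390339898) (nat_lit 76) (nat_lit 28758323194) (nat_lit 2) (nat_lit 4) (nat_lit 3) (nat_lit 5) (nat_lit 3) (nat_lit 4) (nat_lit 389) (nat_lit 270) (nat_lit 241)) (XT.lf (nat_lit 0) (nat_lit 855664732588) (nat_lit 76) (nat_lit 30175753613) (nat_lit 76) (nat_lit 28529202084) (nat_lit 2) (nat_lit 4) (nat_lit 3) (nat_lit 5) (nat_lit 3) (nat_lit 4) (nat_lit 390) (nat_lit 270) (nat_lit 240))))) (XT.nd (nat_lit 234) (nat_lit 0) (nat_lit 0) (XT.nd (nat_lit 78) (nat_lit 0) (nat_lit 0) (XT.lf (nat_lit 0) (nat_lit 929101837580) (nat_lit 76) (nat_lit 29975716428) (nat_lit 76) (nat_lit 28315706729) (nat_lit 2) (nat_lit 4) (nat_lit 3) (nat_lit 5) (nat_lit 3) (nat_lit 4) (nat_lit 391) (nat_lit 270) (nat_lit 239)) (XT.nd (nat_lit 78) (nat_lit 0) (nat_lit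 0) (XT.lf (nat_lit 0) (nat_lit 1008354603475) (nat_lit 76) (nat_lit 29789042939) (nat_lit 76) (nat_lit 28116571971) (nat_lit 2) (nat_lit 4) (nat_lit 3) (nat_lit 5) (nat_lit 3) (nat_lit 4) (nat_lit 392) (nat_lit 270) (nat_lit 238)) (XT.lf (nat_lit 0) (nat_lit 1093892676295) (nat_lit 76) (nat_lit 29614626931) (nat_lit 76) (nat_lit 27930617752) (nat_lit 2) (nat_lit 4) (nat_lit 3) (nat_lit 5) (nat_lit 3) (nat_lit 4) (nat_lit 393) (nat_lit 270) (nat_lit 237)))) (XT.nd (nat_lit 156) (nat_lit 0) (nat_lit 0) (XT.nd (nat_lit 78) (nat_lit 0) (nat_lit 0) (XT.lf (nat_lit 0) (nat_lit 1186222948323) (nat_lit 76) (nat_lit 29451434829) (nat_lit 76) (nat_lit 27756742121) (nat_lit 2) (nat_lit 4) (nat_lit 3) (nat_lit 5) (nat_lit 3) (nat_lit 4) (nat_lit 394) (nat_lit 270) (nat_lit 236)) (XT.lf (nat_lit 0) (nat_lit 1285892561911) (nat_lit 76) (nat_lit 29298499569) (nat_lit 76) (nat_lit 27593914703) (nat_lit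 2) (nat_lit 4) (nat_lit 3) (nat_lit 5) (nat_lit 3) (nat_lit 4) (nat_lit 395) (nat_lit 270) (nat_lit 235))) (XT.nd (nat_lit 43914) (nat_lit 0) (nat_lit 76) (XT.lf (nat_lit 0) (nat_lit 1393492151806) (nat_lit 76) (nat_lit 29154914867) (nat_lit 76) (nat_lit 27441170596) (nat_lit 2) (nat_lit 4) (nat_lit 3) (nat_lit 5) (nat_lit 3) (nat_lit 4) (nat_lit 396) (nat_lit 270) (nat_lit 234)) (XT.lf (nat_lit 0) (nat_lit 11646434995) (nat_lit 152) (nat_lit 17011435725) (nat_lit 0) (nat_lit 11646434995) (nat_lit 3) (nat_lit 5) (nat_lit 5) (nat_lit 4) (nat_lit 3) (nat_lit 4) (nat_lit 358) (nat_lit 271) (nat_lit 271))))))) (XT.nd (nat_lit 936) (nat_lit 0) (nat_lit 0) (XT.nd (nat_lit 468) (nat_lit 0) (nat_lit 0) (XT.nd (nat_lit 234) (nat_lit 76) (nat_lit 0) (XT.nd (nat_lit 78) (nat_lit 0) (nat_lit 0) (XT.lf (nat_lit 0) (nat_lit 31465513982) (nat_lit 152) (nat_lit 23948646879) (nat_lit 0) (nat_lit 31319255036)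 (nat_lit 3) (nat_lit 5) (nat_lit 5) (nat_lit 4) (nat_lit 3) (nat_lit 4) (nat_lit 359) (nat_lit 271) (nat_lit 270)) (XT.nd (nat_lit 78) (nat_lit 0) (nat_lit 0) (XT.lf (nat_lit 0) (nat_lit 39976645489) (nat_lit 152) (nat_lit 13692389474) (nat_lit 0) (nat_lit 39694961592) (nat_lit 3) (nat_lit 5) (nat_lit 5) (nat_lit 4) (nat_lit 3) (nat_lit 4) (nat_lit 360) (nat_lit 271) (nat_lit 269)) (XT.lf (nat_lit 0) (nat_lit 48876700845) (nat_lit 152) (nat_lit 3193321414) (nat_lit 0) (nat_lit 48469623476) (nat_lit 3) (nat_lit 5) (nat_lit 5) (nat_lit 4) (nat_lit 3) (nat_lit 4) (nat_lit 361) (nat_lit 271) (nat_lit 268)))) (XT.nd (nat_lit 78) (nat_lit 0) (nat_lit 0) (XT.lf (nat_lit 0) (nat_lit 7862420561) (nat_lit 76) (nat_lit 50478754977) (nat_lit 76) (nat_lit 49955572542) (nat_lit 2) (nat_lit 4) (nat_lit 3) (nat_lit 5) (nat_lit 3) (nat_lit 4) (nat_lit 362) (nat_lit 271) (nat_lit 267)) (XT.nd (nat_lit 78)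 (nat_lit 0) (nat_lit 0) (XT.lf (nat_lit 0) (nat_lit 19405002301) (nat_lit 76) (nat_lit 48955128821) (nat_lit 76) (nat_lit 48324441694) (nat_lit 2) (nat_lit 4) (nat_lit 3) (nat_lit 5) (nat_lit 3) (nat_lit 4) (nat_lit 363) (nat_lit 271) (nat_lit 266)) (XT.lf (nat_lit 0) (nat_lit 31397238664) (nat_lit 76) (nat_lit 47544195338) (nat_lit 76) (nat_lit 46813966829) (nat_lit 2) (nat_lit 4) (nat_lit 3) (nat_lit 5) (nat_lit 3) (nat_lit 4) (nat_lit 364) (nat_lit 271) (nat_lit 265))))) (XT.nd (nat_lit 234) (nat_lit 0) (nat_lit 0) (XT.nd (nat_lit 78) (nat_lit 0) (nat_lit 0) (XT.lf (nat_lit 0) (nat_lit 43910194754) (nat_lit 76) (nat_lit 46237593440) (nat_lit 76) (nat_lit 45415196985) (nat_lit 2) (nat_lit 4) (nat_lit 3) (nat_lit 5) (nat_lit 3) (nat_lit 4) (nat_lit 365) (nat_lit 271) (nat_lit 264)) (XT.nd (nat_lit 78) (nat_lit 0) (nat_lit 0) (XT.lf (nat_lit 0) (nat_lit 57018021421) (nat_lit 76) (nat_lit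 45027580301) (nat_lit 76) (nat_lit 44119843156) (nat_lit 2) (nat_lit 4) (nat_lit 3) (nat_lit 5) (nat_lit 3) (nat_lit 4) (nat_lit 366) (nat_lit 271) (nat_lit 263)) (XT.lf (nat_lit 0) (nat_lit 70798394675) (nat_lit 76) (nat_lit 43906985474) (nat_lit 76) (nat_lit 42920229171) (nat_lit 2) (nat_lit 4) (nat_lit 3) (nat_lit 5) (nat_lit 3) (nat_lit 4) (nat_lit 367) (nat_lit 271) (nat_lit 262)))) (XT.nd (nat_lit 78) (nat_lit 0) (nat_lit 0) (XT.lf (nat_lit 0) (nat_lit 85332975988) (nat_lit 76) (nat_lit 42869168396) (nat_lit 76) (nat_lit 41809246207) (nat_lit 2) (nat_lit 4) (nat_lit 3) (nat_lit 5) (nat_lit 3) (nat_lit 4) (nat_lit 368) (nat_lit 271) (nat_lit 261)) (XT.nd (nat_lit 78) (nat_lit 0) (nat_lit 0) (XT.lf (nat_lit 0) (nat_lit 100707896211) (nat_lit 76) (nat_lit 41907979040) (nat_lit 76) (nat_lit 40780310659) (nat_lit 2) (nat_lit 4) (nat_lit 3) (nat_lit 5) (nat_lit 3) (nat_lit 4) (nat_lit 369)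 (nat_lit 271) (nat_lit 260)) (XT.lf (nat_lit 0) (nat_lit 117014265983) (nat_lit 76) (nat_lit 41017721469) (nat_lit 76) (nat_lit 39827325134) (nat_lit 2) (nat_lit 4) (nat_lit 3) (nat_lit 5) (nat_lit 3) (nat_lit 4) (nat_lit 370) (nat_lit 271) (nat_lit 259)))))) (XT.nd (nat_lit 468) (nat_lit 0) (nat_lit 0) (XT.nd (nat_lit 234) (nat_lit 0) (nat_lit 0) (XT.nd (nat_lit 78) (nat_lit 0) (nat_lit 0) (XT.lf (nat_lit 0) (nat_lit 134348715644) (nat_lit 76) (nat_lit 40193120083) (nat_lit 76) (nat_lit 38944642308) (nat_lit 2) (nat_lit 4) (nat_lit 3) (nat_lit 5) (nat_lit 3) (nat_lit 4) (nat_lit 371) (nat_lit 271) (nat_lit 258)) (XT.nd (nat_lit 78) (nat_lit 0) (nat_lit 0) (XT.lf (nat_lit 0) (nat_lit 152813967858) (nat_lit 76) (nat_lit 39429288356) (nat_lit 76) (nat_lit 38127031469) (nat_lit 2) (nat_lit 4) (nat_lit 3) (nat_lit 5) (nat_lit 3) (nat_lit 4) (nat_lit 372) (nat_lit 271) (nat_lit 257)) (XT.lf (nat_lit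 0) (nat_lit 172519446342) (nat_lit 76) (nat_lit 38721699876) (nat_lit 76) (nat_lit 37369647516) (nat_lit 2) (nat_lit 4) (nat_lit 3) (nat_lit 5) (nat_lit 3) (nat_lit 4) (nat_lit 373) (nat_lit 271) (nat_lit 256)))) (XT.nd (nat_lit 78) (nat_lit 0) (nat_lit 0) (XT.lf (nat_lit 0) (nat_lit 193581924302) (nat_lit 76) (nat_lit 38066161527) (nat_lit 76) (nat_lit 36668002247) (nat_lit 2) (nat_lit 4) (nat_lit 3) (nat_lit 5) (nat_lit 3) (nat_lit 4) (nat_lit 374) (nat_lit 271) (nat_lit 255)) (XT.nd (nat_lit 78) (nat_lit 0) (nat_lit 0) (XT.lf (nat_lit 0) (nat_lit 216126216422) (nat_lit 76) (nat_lit 37458788637) (nat_lit 76) (nat_lit 36017937765) (nat_lit 2) (nat_lit 4) (nat_lit 3) (nat_lit 5) (nat_lit 3) (nat_lit 4) (nat_lit 375) (nat_lit 271) (nat_lit 254)) (XT.lf (nat_lit 0) (nat_lit 240285918506) (nat_lit 76) (nat_lit 36895981960) (nat_lit 76) (nat_lit 35415601836) (nat_lit 2) (nat_lit 4) (nat_lit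 3) (nat_lit 5) (nat_lit 3) (nat_lit 4) (nat_lit 376) (nat_lit 271) (nat_lit 253))))) (XT.nd (nat_lit 234) (nat_lit 0) (nat_lit 0) (XT.nd (nat_lit 78) (nat_lit 0) (nat_lit 0) (XT.lf (nat_lit 0) (nat_lit 266204199161) (nat_lit 76) (nat_lit 36374406344) (nat_lit 76) (nat_lit 34857425061) (nat_lit 2) (nat_lit 4) (nat_lit 3) (nat_lit 5) (nat_lit 3) (nat_lit 4) (nat_lit 377) (nat_lit 271) (nat_lit 252)) (XT.nd (nat_lit 78) (nat_lit 0) (nat_lit 0) (XT.lf (nat_lit 0) (nat_lit 294034648198) (nat_lit 76) (nat_lit 35890970972) (nat_lit 76) (nat_lit 34340099727) (nat_lit 2) (nat_lit 4) (nat_lit 3) (nat_lit 5) (nat_lit 3) (nat_lit 4) (nat_lit 378) (nat_lit 271) (nat_lit 251)) (XT.lf (nat_lit 0) (nat_lit 323942186795) (nat_lit 76) (nat_lit 35442811041) (nat_lit 76) (nat_lit 33860560201) (nat_lit 2) (nat_lit 4) (nat_lit 3) (nat_lit 5) (nat_lit 3) (nat_lit 4) (nat_lit 379) (nat_lit 271) (nat_lit 250))))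 (XT.nd (nat_lit 156) (nat_lit 0) (nat_lit 0) (XT.nd (nat_lit 78) (nat_lit 0) (nat_lit 0) (XT.lf (nat_lit 0) (nat_lit 356104044811) (nat_lit 76) (nat_lit 35027270788) (nat_lit 76) (nat_lit 33415964768) (nat_lit 2) (nat_lit 4) (nat_lit 3) (nat_lit 5) (nat_lit 3) (nat_lit 4) (nat_lit 380) (nat_lit 271) (nat_lit 249)) (XT.lf (nat_lit 0) (nat_lit 390710811035) (nat_lit 76) (nat_lit 34641887754) (nat_lit 76) (nat_lit 33003678789) (nat_lit 2) (nat_lit 4) (nat_lit 3) (nat_lit 5) (nat_lit 3) (nat_lit 4) (nat_lit 381) (nat_lit 271) (nat_lit 248))) (XT.nd (nat_lit 78) (nat_lit 0) (nat_lit 0) (XT.lf (nat_lit 0) (nat_lit 427967562599) (nat_lit 76) (nat_lit 34284378185) (nat_lit 76) (nat_lit 32621259087) (nat_lit 2) (nat_lit 4) (nat_lit 3) (nat_lit 5) (nat_lit 3) (nat_lit 4) (nat_lit 382) (nat_lit 271) (nat_lit 247)) (XT.lf (nat_lit 0) (nat_lit 468095080254) (nat_lit 76) (nat_lit 33952623509) (nat_lit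 76) (nat_lit 32266439471) (nat_lit 2) (nat_lit 4) (nat_lit 3) (nat_lit 5) (nat_lit 3) (nat_lit 4) (nat_lit 383) (nat_lit 271) (nat_lit 246))))))))
noncomputable def xc8 : XT := (XT.nd (nat_lit 45552) (nat_lit 0) (nat_lit 0) (XT.nd (nat_lit 936) (nat_lit 0) (nat_lit 0) (XT.nd (nat_lit 468) (nat_lit 0) (nat_lit 0) (XT.nd (nat_lit 234) (nat_lit 0) (nat_lit 0) (XT.nd (nat_lit 78) (nat_lit 0) (nat_lit 0) (XT.lf (nat_lit 0) (nat_lit 511331156696) (nat_lit 76) (nat_lit 33644657769) (nat_lit 76) (nat_lit 31937117307) (nat_lit 2) (nat_lit 4) (nat_lit 3) (nat_lit 5) (nat_lit 3) (nat_lit 4) (nat_lit 384) (nat_lit 271) (nat_lit 245)) (XT.nd (nat_lit 78) (nat_lit 0) (nat_lit 0) (XT.lf (nat_lit 0) (nat_lit 557932005713) (nat_lit 76) (nat_lit 33358655986) (nat_lit 76) (nat_lit 31631341055) (nat_lit 2) (nat_lit 4) (nat_lit 3) (nat_lit 5) (nat_lit 3) (nat_lit 4) (nat_lit 385) (nat_lit 271) (nat_lit 244))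 (XT.lf (nat_lit 0) (nat_lit 608173780484) (nat_lit 76) (nat_lit 33092923332) (nat_lit 76) (nat_lit 31347298710) (nat_lit 2) (nat_lit 4) (nat_lit 3) (nat_lit 5) (nat_lit 3) (nat_lit 4) (nat_lit 386) (nat_lit 271) (nat_lit 243)))) (XT.nd (nat_lit 78) (nat_lit 0) (nat_lit 0) (XT.lf (nat_lit 0) (nat_lit 662354210043) (nat_lit 76) (nat_lit 32845885096) (nat_lit 76) (nat_lit 31083307055) (nat_lit 2) (nat_lit 4) (nat_lit 3) (nat_lit 5) (nat_lit 3) (nat_lit 4) (nat_lit 387) (nat_lit 271) (nat_lit 242)) (XT.nd (nat_lit 78) (nat_lit 0) (nat_lit 0) (XT.lf (nat_lit 0) (nat_lit 720794363604) (nat_lit 76) (nat_lit 32616077348) (nat_lit 76) (nat_lit 30837801698) (nat_lit 2) (nat_lit 4) (nat_lit 3) (nat_lit 5) (nat_lit 3) (nat_lit 4) (nat_lit 388) (nat_lit 271) (nat_lit 241)) (XT.lf (nat_lit 0) (nat_lit 783840553188) (nat_lit 76) (nat_lit 32402138265) (nat_lit 76) (nat_lit 30609327790) (nat_lit 2) (nat_lit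 4) (nat_lit 3) (nat_lit 5) (nat_lit 3) (nat_lit 4) (nat_lit 389) (nat_lit 271) (nat_lit 240))))) (XT.nd (nat_lit 234) (nat_lit 0) (nat_lit 0) (XT.nd (nat_lit 78) (nat_lit 0) (nat_lit 0) (XT.lf (nat_lit 0) (nat_lit 851866385843) (nat_lit 76) (nat_lit 32202800058) (nat_lit 76) (nat_lit 30396531413) (nat_lit 2) (nat_lit 4) (nat_lit 3) (nat_lit 5) (nat_lit 3) (nat_lit 4) (nat_lit 390) (nat_lit 271) (nat_lit 239)) (XT.nd (nat_lit 78) (nat_lit 0) (nat_lit 0) (XT.lf (nat_lit 0) (nat_lit 925274977616) (nat_lit 76) (nat_lit 32016881464) (nat_lit 76) (nat_lit 30198151551) (nat_lit 2) (nat_lit 4) (nat_lit 3) (nat_lit 5) (nat_lit 3) (nat_lit 4) (nat_lit 391) (nat_lit 271) (nat_lit 238)) (XT.lf (nat_lit 0) (nat_lit 1004501342383) (nat_lit 76) (nat_lit 31843280745) (nat_lit 76) (nat_lit 30013012619) (nat_lit 2) (nat_lit 4) (nat_lit 3) (nat_lit 5) (nat_lit 3) (nat_lit 4) (nat_lit 392) (nat_lit 271) (nat_lit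 237)))) (XT.nd (nat_lit 78) (nat_lit 0) (nat_lit 0) (XT.lf (nat_lit 0) (nat_lit 1090014969713) (nat_lit 76) (nat_lit 31680969154) (nat_lit 76) (nat_lit 29840017499) (nat_lit 2) (nat_lit 4) (nat_lit 3) (nat_lit 5) (nat_lit 3) (nat_lit 4) (nat_lit 393) (nat_lit 271) (nat_lit 236)) (XT.nd (nat_lit 78) (nat_lit 0) (nat_lit 0) (XT.lf (nat_lit 0) (nat_lit 1182322607028) (nat_lit 76) (nat_lit 31528984845) (nat_lit 76) (nat_lit 29678141033) (nat_lit 2) (nat_lit 4) (nat_lit 3) (nat_lit 5) (nat_lit 3) (nat_lit 4) (nat_lit 394) (nat_lit 271) (nat_lit 235)) (XT.lf (nat_lit 0) (nat_lit 1281971262549) (nat_lit 76) (nat_lit 31386427171) (nat_lit 76) (nat_lit 29526423954) (nat_lit 2) (nat_lit 4) (nat_lit 3) (nat_lit 5) (nat_lit 3) (nat_lit 4) (nat_lit 395) (nat_lit 271) (nat_lit 234)))))) (XT.nd (nat_lit 44148) (nat_lit 0) (nat_lit 0) (XT.nd (nat_lit 43914) (nat_lit 0) (nat_lit 76) (XT.nd (nat_lit 43758)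 (nat_lit 0) (nat_lit 76) (XT.lf (nat_lit 0) (nat_lit 1389551446827) (nat_lit 76) (nat_lit 31252451345) (nat_lit 76) (nat_lit 29383967198) (nat_lit 2) (nat_lit 4) (nat_lit 3) (nat_lit 5) (nat_lit 3) (nat_lit 4) (nat_lit 396) (nat_lit 271) (nat_lit 233)) (XT.nd (nat_lit 78) (nat_lit 0) (nat_lit 0) (XT.lf (nat_lit 0) (nat_lit 4052912569) (nat_lit 152) (nat_lit 26756713391) (nat_lit 0) (nat_lit 4052912569) (nat_lit 3) (nat_lit 5) (nat_lit 5) (nat_lit 4) (nat_lit 3) (nat_lit 4) (nat_lit 356) (nat_lit 272) (nat_lit 272)) (XT.lf (nat_lit 0) (nat_lit 15568242693) (nat_lit 152) (nat_lit 43974762295) (nat_lit 0) (nat_lit 15410283031) (nat_lit 3) (nat_lit 5) (nat_lit 5) (nat_lit 4) (nat_lit 3) (nat_lit 4) (nat_lit 357) (nat_lit 272) (nat_lit 271)))) (XT.nd (nat_lit 78) (nat_lit 0) (nat_lit 0) (XT.lf (nat_lit 0) (nat_lit 23287103727) (nat_lit 152) (nat_lit 34346822191) (nat_lit 0) (nat_lit 22982885119)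 (nat_lit 3) (nat_lit 5) (nat_lit 5) (nat_lit 4) (nat_lit 3) (nat_lit 4) (nat_lit 358) (nat_lit 272) (nat_lit 270)) (XT.nd (nat_lit 78) (nat_lit 0) (nat_lit 0) (XT.lf (nat_lit 0) (nat_lit 31308149640) (nat_lit 152) (nat_lit 24572552011) (nat_lit 0) (nat_lit 30868506081) (nat_lit 3) (nat_lit 5) (nat_lit 5) (nat_lit 4) (nat_lit 3) (nat_lit 4) (nat_lit 359) (nat_lit 272) (nat_lit 269)) (XT.lf (nat_lit 0) (nat_lit 39678912554) (nat_lit 152) (nat_lit 14594030152) (nat_lit 0) (nat_lit 39113875524) (nat_lit 3) (nat_lit 5) (nat_lit 5) (nat_lit 4) (nat_lit 3) (nat_lit 4) (nat_lit 360) (nat_lit 272) (nat_lit 268))))) (XT.nd (nat_lit 234) (nat_lit 0) (nat_lit 0) (XT.nd (nat_lit 78) (nat_lit 76) (nat_lit 0) (XT.lf (nat_lit 0) (nat_lit 48448996992) (nat_lit 152) (nat_lit 4352124635) (nat_lit 0) (nat_lit 47767854894) (nat_lit 3) (nat_lit 5) (nat_lit 5) (nat_lit 4) (nat_lit 3) (nat_lit 4) (nat_lit 361)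 (nat_lit 272) (nat_lit 267)) (XT.nd (nat_lit 78) (nat_lit 0) (nat_lit 0) (XT.lf (nat_lit 0) (nat_lit 6419315499) (nat_lit 76) (nat_lit 51351281829) (nat_lit 76) (nat_lit 50562635039) (nat_lit 2) (nat_lit 4) (nat_lit 3) (nat_lit 5) (nat_lit 3) (nat_lit 4) (nat_lit 362) (nat_lit 272) (nat_lit 266)) (XT.lf (nat_lit 0) (nat_lit 17734131895) (nat_lit 76) (nat_lit 49940435848) (nat_lit 76) (nat_lit 49052247678) (nat_lit 2) (nat_lit 4) (nat_lit 3) (nat_lit 5) (nat_lit 3) (nat_lit 4) (nat_lit 363) (nat_lit 272) (nat_lit 265)))) (XT.nd (nat_lit 78) (nat_lit 0) (nat_lit 0) (XT.lf (nat_lit 0) (nat_lit 29515474421) (nat_lit 76) (nat_lit 48633928453) (nat_lit 76) (nat_lit 47653572337) (nat_lit 2) (nat_lit 4) (nat_lit 3) (nat_lit 5) (nat_lit 3) (nat_lit 4) (nat_lit 364) (nat_lit 272) (nat_lit 264)) (XT.nd (nat_lit 78) (nat_lit 0) (nat_lit 0) (XT.lf (nat_lit 0) (nat_lit 41833158438) (nat_lit 76) (nat_lit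 47424017378) (nat_lit 76) (nat_lit 46358320571) (nat_lit 2) (nat_lit 4) (nat_lit 3) (nat_lit 5) (nat_lit 3) (nat_lit 4) (nat_lit 365) (nat_lit 272) (nat_lit 263)) (XT.lf (nat_lit 0) (nat_lit 54760177631) (nat_lit 76) (nat_lit 46303532779) (nat_lit 76) (nat_lit 45158816815) (nat_lit 2) (nat_lit 4) (nat_lit 3) (nat_lit 5) (nat_lit 3) (nat_lit 4) (nat_lit 366) (nat_lit 272) (nat_lit 262))))))) (XT.nd (nat_lit 936) (nat_lit 0) (nat_lit 0) (XT.nd (nat_lit 468) (nat_lit 0) (nat_lit 0) (XT.nd (nat_lit 234) (nat_lit 0) (nat_lit 0) (XT.nd (nat_lit 78) (nat_lit 0) (nat_lit 0) (XT.lf (nat_lit 0) (nat_lit 68373136557) (nat_lit 76) (nat_lit 45265834748) (nat_lit 76) (nat_lit 44047952897) (nat_lit 2) (nat_lit 4) (nat_lit 3) (nat_lit 5) (nat_lit 3) (nat_lit 4) (nat_lit 367) (nat_lit 272) (nat_lit 261)) (XT.nd (nat_lit 78) (nat_lit 0) (nat_lit 0) (XT.lf (nat_lit 0) (nat_lit 82752704603) (nat_lit 76) (nat_lit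 44304773962) (nat_lit 76) (nat_lit 43019145920) (nat_lit 2) (nat_lit 4) (nat_lit 3) (nat_lit 5) (nat_lit 3) (nat_lit 4) (nat_lit 368) (nat_lit 272) (nat_lit 260)) (XT.lf (nat_lit 0) (nat_lit 97984094025) (nat_lit 76) (nat_lit 43414655247) (nat_lit 76) (nat_lit 42066299250) (nat_lit 2) (nat_lit 4) (nat_lit 3) (nat_lit 5) (nat_lit 3) (nat_lit 4) (nat_lit 369) (nat_lit 272) (nat_lit 259)))) (XT.nd (nat_lit 78) (nat_lit 0) (nat_lit 0) (XT.lf (nat_lit 0) (nat_lit 114157564906) (nat_lit 76) (nat_lit 42590203826) (nat_lit 76) (nat_lit 41183766389) (nat_lit 2) (nat_lit 4) (nat_lit 3) (nat_lit 5) (nat_lit 3) (nat_lit 4) (nat_lit 370) (nat_lit 272) (nat_lit 258)) (XT.nd (nat_lit 78) (nat_lit 0) (nat_lit 0) (XT.lf (nat_lit 0) (nat_lit 131368960038) (nat_lit 76) (nat_lit 41826534060) (nat_lit 76) (nat_lit 40366317511) (nat_lit 2) (nat_lit 4) (nat_lit 3) (nat_lit 5) (nat_lit 3) (nat_lit 4) (nat_lit 371)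 (nat_lit 272) (nat_lit 257)) (XT.lf (nat_lit 0) (nat_lit 149720272874) (nat_lit 76) (nat_lit 41119120498) (nat_lit 76) (nat_lit 39609108477) (nat_lit 2) (nat_lit 4) (nat_lit 3) (nat_lit 5) (nat_lit 3) (nat_lit 4) (nat_lit 372) (nat_lit 272) (nat_lit 256))))) (XT.nd (nat_lit 234) (nat_lit 0) (nat_lit 0) (XT.nd (nat_lit 78) (nat_lit 0) (nat_lit 0) (XT.lf (nat_lit 0) (nat_lit 169320251933) (nat_lit 76) (nat_lit 40463771061) (nat_lit 76) (nat_lit 38907652120) (nat_lit 2) (nat_lit 4) (nat_lit 3) (nat_lit 5) (nat_lit 3) (nat_lit 4) (nat_lit 373) (nat_lit 272) (nat_lit 255)) (XT.nd (nat_lit 78) (nat_lit 0) (nat_lit 0) (XT.lf (nat_lit 0) (nat_lit 190285045241) (nat_lit 76) (nat_lit 39856602197) (nat_lit 76) (nat_lit 38257791663) (nat_lit 2) (nat_lit 4) (nat_lit 3) (nat_lit 5) (nat_lit 3) (nat_lit 4) (nat_lit 374) (nat_lit 272) (nat_lit 254)) (XT.lf (nat_lit 0) (nat_lit 212738888608) (nat_lit 76)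 (nat_lit 39294015866) (nat_lit 76) (nat_lit 37655676081) (nat_lit 2) (nat_lit 4) (nat_lit 3) (nat_lit 5) (nat_lit 3) (nat_lit 4) (nat_lit 375) (nat_lit 272) (nat_lit 253)))) (XT.nd (nat_lit 78) (nat_lit 0) (nat_lit 0) (XT.lf (nat_lit 0) (nat_lit 236814841848) (nat_lit 76) (nat_lit 38772678226) (nat_lit 76) (nat_lit 37097737281) (nat_lit 2) (nat_lit 4) (nat_lit 3) (nat_lit 5) (nat_lit 3) (nat_lit 4) (nat_lit 376) (nat_lit 272) (nat_lit 252)) (XT.nd (nat_lit 78) (nat_lit 0) (nat_lit 0) (XT.lf (nat_lit 0) (nat_lit 262655577277) (nat_lit 76) (nat_lit 38289499866) (nat_lit 76) (nat_lit 36580668959) (nat_lit 2) (nat_lit 4) (nat_lit 3) (nat_lit 5) (nat_lit 3) (nat_lit 4) (nat_lit 377) (nat_lit 272) (nat_lit 251)) (XT.lf (nat_lit 0) (nat_lit 290414225177) (nat_lit 76) (nat_lit 37841617509) (nat_lit 76) (nat_lit 36101407007) (nat_lit 2) (nat_lit 4) (nat_lit 3) (nat_lit 5) (nat_lit 3) (nat_lit 4)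 (nat_lit 378) (nat_lit 272) (nat_lit 250)))))) (XT.nd (nat_lit 468) (nat_lit 0) (nat_lit 0) (XT.nd (nat_lit 234) (nat_lit 0) (nat_lit 0) (XT.nd (nat_lit 78) (nat_lit 0) (nat_lit 0) (XT.lf (nat_lit 0) (nat_lit 320255281241) (nat_lit 76) (nat_lit 37426377036) (nat_lit 76) (nat_lit 35657111354) (nat_lit 2) (nat_lit 4) (nat_lit 3) (nat_lit 5) (nat_lit 3) (nat_lit 4) (nat_lit 379) (nat_lit 272) (nat_lit 249)) (XT.nd (nat_lit 78) (nat_lit 0) (nat_lit 0) (XT.lf (nat_lit 0) (nat_lit 352355581357) (nat_lit 76) (nat_lit 37041317763) (nat_lit 76) (nat_lit 35245149137) (nat_lit 2) (nat_lit 4) (nat_lit 3) (nat_lit 5) (nat_lit 3) (nat_lit 4) (nat_lit 380) (nat_lit 272) (nat_lit 248)) (XT.lf (nat_lit 0) (nat_lit 386905349524) (nat_lit 76) (nat_lit 36684157858) (nat_lit 76) (nat_lit 34863079097) (nat_lit 2) (nat_lit 4) (nat_lit 3) (nat_lit 5) (nat_lit 3) (nat_lit 4) (nat_lit 381) (nat_lit 272) (nat_lit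 247)))) (XT.nd (nat_lit 78) (nat_lit 0) (nat_lit 0) (XT.lf (nat_lit 0) (nat_lit 424109325110) (nat_lit 76) (nat_lit 36352780817) (nat_lit 76) (nat_lit 34508637118) (nat_lit 2) (nat_lit 4) (nat_lit 3) (nat_lit 5) (nat_lit 3) (nat_lit 4) (nat_lit 382) (nat_lit 272) (nat_lit 246)) (XT.nd (nat_lit 78) (nat_lit 0) (nat_lit 0) (XT.lf (nat_lit 0) (nat_lit 464187976119) (nat_lit 76) (nat_lit 36045222925) (nat_lit 76) (nat_lit 34179722800) (nat_lit 2) (nat_lit 4) (nat_lit 3) (nat_lit 5) (nat_lit 3) (nat_lit 4) (nat_lit 383) (nat_lit 272) (nat_lit 245)) (XT.lf (nat_lit 0) (nat_lit 507378805667) (nat_lit 76) (nat_lit 35759661616) (nat_lit 76) (nat_lit 33874387024) (nat_lit 2) (nat_lit 4) (nat_lit 3) (nat_lit 5) (nat_lit 3) (nat_lit 4) (nat_lit 384) (nat_lit 272) (nat_lit 244))))) (XT.nd (nat_lit 234) (nat_lit 0) (nat_lit 0) (XT.nd (nat_lit 78) (nat_lit 0) (nat_lit 0) (XT.lf (nat_lit 0) (nat_lit 553937759410)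 (nat_lit 76) (nat_lit 35494404675) (nat_lit 76) (nat_lit 33590820390) (nat_lit 2) (nat_lit 4) (nat_lit 3) (nat_lit 5) (nat_lit 3) (nat_lit 4) (nat_lit 385) (nat_lit 272) (nat_lit 243)) (XT.nd (nat_lit 78) (nat_lit 0) (nat_lit 0) (XT.lf (nat_lit 0) (nat_lit 604140742261) (nat_lit 76) (nat_lit 35247880208) (nat_lit 76) (nat_lit 33327342506) (nat_lit 2) (nat_lit 4) (nat_lit 3) (nat_lit 5) (nat_lit 3) (nat_lit 4) (nat_lit 386) (nat_lit 272) (nat_lit 242)) (XT.lf (nat_lit 0) (nat_lit 658285253377) (nat_lit 76) (nat_lit 35018627332) (nat_lit 76) (nat_lit 33082392019) (nat_lit 2) (nat_lit 4) (nat_lit 3) (nat_lit 5) (nat_lit 3) (nat_lit 4) (nat_lit 387) (nat_lit 272) (nat_lit 241)))) (XT.nd (nat_lit 156) (nat_lit 0) (nat_lit 0) (XT.nd (nat_lit 78) (nat_lit 0) (nat_lit 0) (XT.lf (nat_lit 0) (nat_lit 716692149120) (nat_lit 76) (nat_lit 34805287509) (nat_lit 76) (nat_lit 32854517372) (nat_lit 2) (nat_lit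 4) (nat_lit 3) (nat_lit 5) (nat_lit 3) (nat_lit 4) (nat_lit 388) (nat_lit 272) (nat_lit 240)) (XT.lf (nat_lit 0) (nat_lit 779707544427) (nat_lit 76) (nat_lit 34606596504) (nat_lit 76) (nat_lit 32642368197) (nat_lit 2) (nat_lit 4) (nat_lit 3) (nat_lit 5) (nat_lit 3) (nat_lit 4) (nat_lit 389) (nat_lit 272) (nat_lit 239))) (XT.nd (nat_lit 78) (nat_lit 0) (nat_lit 0) (XT.lf (nat_lit 0) (nat_lit 847704863863) (nat_lit 76) (nat_lit 34421376888) (nat_lit 76) (nat_lit 32444687313) (nat_lit 2) (nat_lit 4) (nat_lit 3) (nat_lit 5) (nat_lit 3) (nat_lit 4) (nat_lit 390) (nat_lit 272) (nat_lit 238)) (XT.lf (nat_lit 0) (nat_lit 921087054507) (nat_lit 76) (nat_lit 34248531065) (nat_lit 76) (nat_lit 32260303277) (nat_lit 2) (nat_lit 4) (nat_lit 3) (nat_lit 5) (nat_lit 3) (nat_lit 4) (nat_lit 391) (nat_lit 272) (nat_lit 237))))))))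
noncomputable def xc9 : XT := (XT.nd (nat_lit 45474) (nat_lit 0) (nat_lit 0) (XT.nd (nat_lit 44460) (nat_lit 0) (nat_lit 0) (XT.nd (nat_lit 43992) (nat_lit 0) (nat_lit 76) (XT.nd (nat_lit 234) (nat_lit 0) (nat_lit 0) (XT.nd (nat_lit 78) (nat_lit 0) (nat_lit 0) (XT.lf (nat_lit 0) (nat_lit 1000288973785) (nat_lit 76) (nat_lit 34087034762) (nat_lit 76) (nat_lit 32088123445) (nat_lit 2) (nat_lit 4) (nat_lit 3) (nat_lit 5) (nat_lit 3) (nat_lit 4) (nat_lit 392) (nat_lit 272) (nat_lit 236)) (XT.nd (nat_lit 78) (nat_lit 0) (nat_lit 0) (XT.lf (nat_lit 0) (nat_lit 1085779966403) (nat_lit 76) (nat_lit 33935930964) (nat_lit 76) (nat_lit 31927127490) (nat_lit 2) (nat_lit 4) (nat_lit 3) (nat_lit 5) (nat_lit 3) (nat_lit 4) (nat_lit 393) (nat_lit 272) (nat_lit 235)) (XT.lf (nat_lit 0) (nat_lit 1178066645651) (nat_lit 76) (nat_lit 33794324241) (nat_lit 76) (nat_lit 31776361363) (nat_lit 2) (nat_lit 4) (nat_lit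 3) (nat_lit 5) (nat_lit 3) (nat_lit 4) (nat_lit 394) (nat_lit 272) (nat_lit 234)))) (XT.nd (nat_lit 78) (nat_lit 0) (nat_lit 0) (XT.lf (nat_lit 0) (nat_lit 1277695895554) (nat_lit 76) (nat_lit 33661375443) (nat_lit 76) (nat_lit 31634931634) (nat_lit 2) (nat_lit 4) (nat_lit 3) (nat_lit 5) (nat_lit 3) (nat_lit 4) (nat_lit 395) (nat_lit 272) (nat_lit 233)) (XT.nd (nat_lit 43602) (nat_lit 0) (nat_lit 228) (XT.lf (nat_lit 0) (nat_lit 1385258111668) (nat_lit 76) (nat_lit 33536296724) (nat_lit 76) (nat_lit 31502000202) (nat_lit 2) (nat_lit 4) (nat_lit 3) (nat_lit 5) (nat_lit 3) (nat_lit 4) (nat_lit 396) (nat_lit 272) (nat_lit 232)) (XT.lf (nat_lit 0) (nat_lit 24443349201) (nat_lit 76) (nat_lit 2884583005) (nat_lit 76) (nat_lit 2884583005) (nat_lit 5) (nat_lit 4) (nat_lit 6) (nat_lit 5) (nat_lit 6) (nat_lit 4) (nat_lit 354) (nat_lit 273) (nat_lit 273))))) (XT.nd (nat_lit 234) (nat_lit 0) (nat_lit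 0) (XT.nd (nat_lit 78) (nat_lit 0) (nat_lit 0) (XT.lf (nat_lit 0) (nat_lit 1026225764) (nat_lit 152) (nat_lit 63019341072) (nat_lit 0) (nat_lit 855629329) (nat_lit 3) (nat_lit 5) (nat_lit 5) (nat_lit 4) (nat_lit 3) (nat_lit 4) (nat_lit 355) (nat_lit 273) (nat_lit 272)) (XT.nd (nat_lit 78) (nat_lit 0) (nat_lit 0) (XT.lf (nat_lit 0) (nat_lit 8099597574) (nat_lit 152) (nat_lit 53863293583) (nat_lit 0) (nat_lit 7771041477) (nat_lit 3) (nat_lit 5) (nat_lit 5) (nat_lit 4) (nat_lit 3) (nat_lit 4) (nat_lit 356) (nat_lit 273) (nat_lit 271)) (XT.lf (nat_lit 0) (nat_lit 15398289203) (nat_lit 152) (nat_lit 44648579837) (nat_lit 0) (nat_lit 14923474160) (nat_lit 3) (nat_lit 5) (nat_lit 5) (nat_lit 4) (nat_lit 3) (nat_lit 4) (nat_lit 357) (nat_lit 273) (nat_lit 270)))) (XT.nd (nat_lit 78) (nat_lit 0) (nat_lit 0) (XT.lf (nat_lit 0) (nat_lit 22965552158) (nat_lit 152) (nat_lit 35320594124) (nat_lit 0) (nat_lit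 22355312165) (nat_lit 3) (nat_lit 5) (nat_lit 5) (nat_lit 4) (nat_lit 3) (nat_lit 4) (nat_lit 358) (nat_lit 273) (nat_lit 269)) (XT.nd (nat_lit 78) (nat_lit 0) (nat_lit 0) (XT.lf (nat_lit 0) (nat_lit 30846229479) (nat_lit 152) (nat_lit 25824059490) (nat_lit 0) (nat_lit 30110596013) (nat_lit 3) (nat_lit 5) (nat_lit 5) (nat_lit 4) (nat_lit 3) (nat_lit 4) (nat_lit 359) (nat_lit 273) (nat_lit 268)) (XT.lf (nat_lit 0) (nat_lit 39087021475) (nat_lit 152) (nat_lit 16102700174) (nat_lit 0) (nat_lit 38235282943) (nat_lit 3) (nat_lit 5) (nat_lit 5) (nat_lit 4) (nat_lit 3) (nat_lit 4) (nat_lit 360) (nat_lit 273) (nat_lit 267)))))) (XT.nd (nat_lit 468) (nat_lit 0) (nat_lit 0) (XT.nd (nat_lit 234) (nat_lit 0) (nat_lit 0) (XT.nd (nat_lit 78) (nat_lit 76) (nat_lit 0) (XT.lf (nat_lit 0) (nat_lit 47736762470) (nat_lit 152) (nat_lit 6098908123) (nat_lit 0) (nat_lit 46777519246) (nat_lit 3) (nat_lit 5) (nat_lit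 5) (nat_lit 4) (nat_lit 3) (nat_lit 4) (nat_lit 361) (nat_lit 273) (nat_lit 266)) (XT.nd (nat_lit 78) (nat_lit 0) (nat_lit 0) (XT.lf (nat_lit 0) (nat_lit 4387010116) (nat_lit 76) (nat_lit 52528193594) (nat_lit 76) (nat_lit 51469408988) (nat_lit 2) (nat_lit 4) (nat_lit 3) (nat_lit 5) (nat_lit 3) (nat_lit 4) (nat_lit 362) (nat_lit 273) (nat_lit 265)) (XT.lf (nat_lit 0) (nat_lit 15490932674) (nat_lit 76) (nat_lit 51221773702) (nat_lit 76) (nat_lit 50070821151) (nat_lit 2) (nat_lit 4) (nat_lit 3) (nat_lit 5) (nat_lit 3) (nat_lit 4) (nat_lit 363) (nat_lit 273) (nat_lit 264)))) (XT.nd (nat_lit 78) (nat_lit 0) (nat_lit 0) (XT.lf (nat_lit 0) (nat_lit 27077003128) (nat_lit 76) (nat_lit 50011957130) (nat_lit 76) (nat_lit 48775663888) (nat_lit 2) (nat_lit 4) (nat_lit 3) (nat_lit 5) (nat_lit 3) (nat_lit 4) (nat_lit 364) (nat_lit 273) (nat_lit 263)) (XT.nd (nat_lit 78) (nat_lit 0) (nat_lit 0) (XT.lf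 (nat_lit 0) (nat_lit 39213879671) (nat_lit 76) (nat_lit 48891574594) (nat_lit 76) (nat_lit 47576262195) (nat_lit 2) (nat_lit 4) (nat_lit 3) (nat_lit 5) (nat_lit 3) (nat_lit 4) (nat_lit 365) (nat_lit 273) (nat_lit 262)) (XT.lf (nat_lit 0) (nat_lit 51973484536) (nat_lit 76) (nat_lit 47853986791) (nat_lit 76) (nat_lit 46465508505) (nat_lit 2) (nat_lit 4) (nat_lit 3) (nat_lit 5) (nat_lit 3) (nat_lit 4) (nat_lit 366) (nat_lit 273) (nat_lit 261))))) (XT.nd (nat_lit 234) (nat_lit 0) (nat_lit 0) (XT.nd (nat_lit 78) (nat_lit 0) (nat_lit 0) (XT.lf (nat_lit 0) (nat_lit 65431430196) (nat_lit 76) (nat_lit 46893045052) (nat_lit 76) (nat_lit 45436820574) (nat_lit 2) (nat_lit 4) (nat_lit 3) (nat_lit 5) (nat_lit 3) (nat_lit 4) (nat_lit 367) (nat_lit 273) (nat_lit 260)) (XT.nd (nat_lit 78) (nat_lit 0) (nat_lit 0) (XT.lf (nat_lit 0) (nat_lit 79667467440) (nat_lit 76) (nat_lit 46003054907) (nat_lit 76) (nat_lit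 44484102475) (nat_lit 2) (nat_lit 4) (nat_lit 3) (nat_lit 5) (nat_lit 3) (nat_lit 4) (nat_lit 368) (nat_lit 273) (nat_lit 259)) (XT.lf (nat_lit 0) (nat_lit 94765957970) (nat_lit 76) (nat_lit 45178742342) (nat_lit 76) (nat_lit 43601708470) (nat_lit 2) (nat_lit 4) (nat_lit 3) (nat_lit 5) (nat_lit 3) (nat_lit 4) (nat_lit 369) (nat_lit 273) (nat_lit 258)))) (XT.nd (nat_lit 156) (nat_lit 0) (nat_lit 0) (XT.nd (nat_lit 78) (nat_lit 0) (nat_lit 0) (XT.lf (nat_lit 0) (nat_lit 110816374323) (nat_lit 76) (nat_lit 44415222540) (nat_lit 76) (nat_lit 42784409557) (nat_lit 2) (nat_lit 4) (nat_lit 3) (nat_lit 5) (nat_lit 3) (nat_lit 4) (nat_lit 370) (nat_lit 273) (nat_lit 257)) (XT.lf (nat_lit 0) (nat_lit 127913830076) (nat_lit 76) (nat_lit 43707970941) (nat_lit 76) (nat_lit 42027362484) (nat_lit 2) (nat_lit 4) (nat_lit 3) (nat_lit 5) (nat_lit 3) (nat_lit 4) (nat_lit 371) (nat_lit 273) (nat_lit 256)))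 (XT.nd (nat_lit 78) (nat_lit 0) (nat_lit 0) (XT.lf (nat_lit 0) (nat_lit 146159643487) (nat_lit 76) (nat_lit 43052796422) (nat_lit 76) (nat_lit 41326081046) (nat_lit 2) (nat_lit 4) (nat_lit 3) (nat_lit 5) (nat_lit 3) (nat_lit 4) (nat_lit 372) (nat_lit 273) (nat_lit 255)) (XT.lf (nat_lit 0) (nat_lit 165661937894) (nat_lit 76) (nat_lit 42445816469) (nat_lit 76) (nat_lit 40676409501) (nat_lit 2) (nat_lit 4) (nat_lit 3) (nat_lit 5) (nat_lit 3) (nat_lit 4) (nat_lit 373) (nat_lit 273) (nat_lit 254))))))) (XT.nd (nat_lit 936) (nat_lit 0) (nat_lit 0) (XT.nd (nat_lit 468) (nat_lit 0) (nat_lit 0) (XT.nd (nat_lit 234) (nat_lit 0) (nat_lit 0) (XT.nd (nat_lit 78) (nat_lit 0) (nat_lit 0) (XT.lf (nat_lit 0) (nat_lit 186536282450) (nat_lit 76) (nat_lit 41883434164) (nat_lit 76) (nat_lit 40074497944) (nat_lit 2) (nat_lit 4) (nat_lit 3) (nat_lit 5) (nat_lit 3) (nat_lit 4) (nat_lit 374) (nat_lit 273) (nat_lit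 253)) (XT.nd (nat_lit 78) (nat_lit 0) (nat_lit 0) (XT.lf (nat_lit 0) (nat_lit 208906376973) (nat_lit 76) (nat_lit 41362316870) (nat_lit 76) (nat_lit 39516779491) (nat_lit 2) (nat_lit 4) (nat_lit 3) (nat_lit 5) (nat_lit 3) (nat_lit 4) (nat_lit 375) (nat_lit 273) (nat_lit 252)) (XT.lf (nat_lit 0) (nat_lit 232904784986) (nat_lit 76) (nat_lit 40879376485) (nat_lit 76) (nat_lit 38999949144) (nat_lit 2) (nat_lit 4) (nat_lit 3) (nat_lit 5) (nat_lit 3) (nat_lit 4) (nat_lit 376) (nat_lit 273) (nat_lit 251)))) (XT.nd (nat_lit 78) (nat_lit 0) (nat_lit 0) (XT.lf (nat_lit 0) (nat_lit 258673719279) (nat_lit 76) (nat_lit 40431751141) (nat_lit 76) (nat_lit 38520944204) (nat_lit 2) (nat_lit 4) (nat_lit 3) (nat_lit 5) (nat_lit 3) (nat_lit 4) (nat_lit 377) (nat_lit 273) (nat_lit 250)) (XT.nd (nat_lit 78) (nat_lit 0) (nat_lit 0) (XT.lf (nat_lit 0) (nat_lit 286365884647) (nat_lit 76) (nat_lit 40016788242) (nat_lit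 76) (nat_lit 38076926125) (nat_lit 2) (nat_lit 4) (nat_lit 3) (nat_lit 5) (nat_lit 3) (nat_lit 4) (nat_lit 378) (nat_lit 273) (nat_lit 249)) (XT.lf (nat_lit 0) (nat_lit 316145382810) (nat_lit 76) (nat_lit 39632028749) (nat_lit 76) (nat_lit 37665263687) (nat_lit 2) (nat_lit 4) (nat_lit 3) (nat_lit 5) (nat_lit 3) (nat_lit 4) (nat_lit 379) (nat_lit 273) (nat_lit 248))))) (XT.nd (nat_lit 234) (nat_lit 0) (nat_lit 0) (XT.nd (nat_lit 78) (nat_lit 0) (nat_lit 0) (XT.lf (nat_lit 0) (nat_lit 348188684869) (nat_lit 76) (nat_lit 39275192605) (nat_lit 76) (nat_lit 37283517410) (nat_lit 2) (nat_lit 4) (nat_lit 3) (nat_lit 5) (nat_lit 3) (nat_lit 4) (nat_lit 380) (nat_lit 273) (nat_lit 247)) (XT.nd (nat_lit 78) (nat_lit 0) (nat_lit 0) (XT.lf (nat_lit 0) (nat_lit 382685677058) (nat_lit 76) (nat_lit 38944165228) (nat_lit 76) (nat_lit 36929425093) (nat_lit 2) (nat_lit 4) (nat_lit 3) (nat_lit 5) (nat_lit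 3) (nat_lit 4) (nat_lit 381) (nat_lit 273) (nat_lit 246)) (XT.lf (nat_lit 0) (nat_lit 419840785998) (nat_lit 76) (nat_lit 38636984971) (nat_lit 76) (nat_lit 36600888412) (nat_lit 2) (nat_lit 4) (nat_lit 3) (nat_lit 5) (nat_lit 3) (nat_lit 4) (nat_lit 382) (nat_lit 273) (nat_lit 245)))) (XT.nd (nat_lit 78) (nat_lit 0) (nat_lit 0) (XT.lf (nat_lit 0) (nat_lit 459874190112) (nat_lit 76) (nat_lit 38351831509) (nat_lit 76) (nat_lit 36295960482) (nat_lit 2) (nat_lit 4) (nat_lit 3) (nat_lit 5) (nat_lit 3) (nat_lit 4) (nat_lit 383) (nat_lit 273) (nat_lit 244)) (XT.nd (nat_lit 78) (nat_lit 0) (nat_lit 0) (XT.lf (nat_lit 0) (nat_lit 503023124386) (nat_lit 76) (nat_lit 38087015042) (nat_lit 76) (nat_lit 36012834323) (nat_lit 2) (nat_lit 4) (nat_lit 3) (nat_lit 5) (nat_lit 3) (nat_lit 4) (nat_lit 384) (nat_lit 273) (nat_lit 243)) (XT.lf (nat_lit 0) (nat_lit 549543286211) (nat_lit 76) (nat_lit 37840966289)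 (nat_lit 76) (nat_lit 35749832151) (nat_lit 2) (nat_lit 4) (nat_lit 3) (nat_lit 5) (nat_lit 3) (nat_lit 4) (nat_lit 385) (nat_lit 273) (nat_lit 242)))))) (XT.nd (nat_lit 468) (nat_lit 0) (nat_lit 0) (XT.nd (nat_lit 234) (nat_lit 0) (nat_lit 0) (XT.nd (nat_lit 78) (nat_lit 0) (nat_lit 0) (XT.lf (nat_lit 0) (nat_lit 599710350618) (nat_lit 76) (nat_lit 37612227182) (nat_lit 76) (nat_lit 35505395435) (nat_lit 2) (nat_lit 4) (nat_lit 3) (nat_lit 5) (nat_lit 3) (nat_lit 4) (nat_lit 386) (nat_lit 273) (nat_lit 241)) (XT.nd (nat_lit 78) (nat_lit 0) (nat_lit 0) (XT.lf (nat_lit 0) (nat_lit 653821603915) (nat_lit 76) (nat_lit 37399442230) (nat_lit 76) (nat_lit 35278075659) (nat_lit 2) (nat_lit 4) (nat_lit 3) (nat_lit 5) (nat_lit 3) (nat_lit 4) (nat_lit 387) (nat_lit 273) (nat_lit 240)) (XT.lf (nat_lit 0) (nat_lit 712197705381) (nat_lit 76) (nat_lit 37201350486) (nat_lit 76) (nat_lit 35066525744) (nat_lit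 2) (nat_lit 4) (nat_lit 3) (nat_lit 5) (nat_lit 3) (nat_lit 4) (nat_lit 388) (nat_lit 273) (nat_lit 239)))) (XT.nd (nat_lit 78) (nat_lit 0) (nat_lit 0) (XT.lf (nat_lit 0) (nat_lit 775184587470) (nat_lit 76) (nat_lit 37016778072) (nat_lit 76) (nat_lit 34869492062) (nat_lit 2) (nat_lit 4) (nat_lit 3) (nat_lit 5) (nat_lit 3) (nat_lit 4) (nat_lit 389) (nat_lit 273) (nat_lit 238)) (XT.nd (nat_lit 78) (nat_lit 0) (nat_lit 0) (XT.lf (nat_lit 0) (nat_lit 843155505778) (nat_lit 76) (nat_lit 36844631227) (nat_lit 76) (nat_lit 34685807004) (nat_lit 2) (nat_lit 4) (nat_lit 3) (nat_lit 5) (nat_lit 3) (nat_lit 4) (nat_lit 390) (nat_lit 273) (nat_lit 237)) (XT.lf (nat_lit 0) (nat_lit 916513250932) (nat_lit 76) (nat_lit 36683889820) (nat_lit 76) (nat_lit 34514382068) (nat_lit 2) (nat_lit 4) (nat_lit 3) (nat_lit 5) (nat_lit 3) (nat_lit 4) (nat_lit 391) (nat_lit 273) (nat_lit 236))))) (XT.nd (nat_lit 234)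 (nat_lit 0) (nat_lit 0) (XT.nd (nat_lit 78) (nat_lit 0) (nat_lit 0) (XT.lf (nat_lit 0) (nat_lit 995692535498) (nat_lit 76) (nat_lit 36533601309) (nat_lit 76) (nat_lit 34354201401) (nat_lit 2) (nat_lit 4) (nat_lit 3) (nat_lit 5) (nat_lit 3) (nat_lit 4) (nat_lit 392) (nat_lit 273) (nat_lit 235)) (XT.nd (nat_lit 78) (nat_lit 0) (nat_lit 0) (XT.lf (nat_lit 0) (nat_lit 1081162570049) (nat_lit 76) (nat_lit 36392875098) (nat_lit 76) (nat_lit 34204315784) (nat_lit 2) (nat_lit 4) (nat_lit 3) (nat_lit 5) (nat_lit 3) (nat_lit 4) (nat_lit 393) (nat_lit 273) (nat_lit 234)) (XT.lf (nat_lit 0) (nat_lit 1173429843679) (nat_lit 76) (nat_lit 36260877251) (nat_lit 76) (nat_lit 34063837007) (nat_lit 2) (nat_lit 4) (nat_lit 3) (nat_lit 5) (nat_lit 3) (nat_lit 4) (nat_lit 394) (nat_lit 273) (nat_lit 233)))) (XT.nd (nat_lit 43524) (nat_lit 0) (nat_lit 228) (XT.nd (nat_lit 78) (nat_lit 0) (nat_lit 0) (XT.lf (nat_lit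 0) (nat_lit 1273041125418) (nat_lit 76) (nat_lit 36136825560) (nat_lit 76) (nat_lit 33931932603) (nat_lit 2) (nat_lit 4) (nat_lit 3) (nat_lit 5) (nat_lit 3) (nat_lit 4) (nat_lit 395) (nat_lit 273) (nat_lit 232)) (XT.lf (nat_lit 0) (nat_lit 1380586704342) (nat_lit 76) (nat_lit 36019984904) (nat_lit 76) (nat_lit 33807820917) (nat_lit 2) (nat_lit 4) (nat_lit 3) (nat_lit 5) (nat_lit 3) (nat_lit 4) (nat_lit 396) (nat_lit 273) (nat_lit 231))) (XT.nd (nat_lit 78) (nat_lit 0) (nat_lit 0) (XT.lf (nat_lit 0) (nat_lit 7678764879) (nat_lit 76) (nat_lit 9280584091) (nat_lit 76) (nat_lit 9280584091) (nat_lit 5) (nat_lit 4) (nat_lit 6) (nat_lit 5) (nat_lit 6) (nat_lit 4) (nat_lit 352) (nat_lit 274) (nat_lit 274)) (XT.lf (nat_lit 0) (nat_lit 31660801802) (nat_lit 76) (nat_lit 12413823182) (nat_lit 76) (nat_lit 12220366824) (nat_lit 5) (nat_lit 4) (nat_lit 6) (nat_lit 5) (nat_lit 6) (nat_lit 4) (nat_lit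 353) (nat_lit 274) (nat_lit 273))))))))
noncomputable def xc10 : XT := (XT.nd (nat_lit 1872) (nat_lit 0) (nat_lit 0) (XT.nd (nat_lit 936) (nat_lit 0) (nat_lit 0) (XT.nd (nat_lit 468) (nat_lit 76) (nat_lit 0) (XT.nd (nat_lit 234) (nat_lit 0) (nat_lit 0) (XT.nd (nat_lit 78) (nat_lit 152) (nat_lit 0) (XT.lf (nat_lit 0) (nat_lit 48533330619) (nat_lit 76) (nat_lit 6136633281) (nat_lit 76) (nat_lit 5764050667) (nat_lit 5) (nat_lit 4) (nat_lit 6) (nat_lit 5) (nat_lit 6) (nat_lit 4) (nat_lit 354) (nat_lit 274) (nat_lit 272)) (XT.nd (nat_lit 78) (nat_lit 0) (nat_lit 0) (XT.lf (nat_lit 0) (nat_lit 842675995) (nat_lit 152) (nat_lit 63747064017) (nat_lit 0) (nat_lit 329875748) (nat_lit 3) (nat_lit 5) (nat_lit 5) (nat_lit 4) (nat_lit 3) (nat_lit 4) (nat_lit 355) (nat_lit 274) (nat_lit 271)) (XT.lf (nat_lit 0) (nat_lit 7752321879) (nat_lit 152) (nat_lit 54914967270) (nat_lit 0) (nat_lit 7093262686) (nat_lit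 3) (nat_lit 5) (nat_lit 5) (nat_lit 4) (nat_lit 3) (nat_lit 4) (nat_lit 356) (nat_lit 274) (nat_lit 270)))) (XT.nd (nat_lit 78) (nat_lit 0) (nat_lit 0) (XT.lf (nat_lit 0) (nat_lit 14899415429) (nat_lit 152) (nat_lit 46000207915) (nat_lit 0) (nat_lit 14104931286) (nat_lit 3) (nat_lit 5) (nat_lit 5) (nat_lit 4) (nat_lit 3) (nat_lit 4) (nat_lit 357) (nat_lit 274) (nat_lit 269)) (XT.nd (nat_lit 78) (nat_lit 0) (nat_lit 0) (XT.lf (nat_lit 0) (nat_lit 22326309793) (nat_lit 152) (nat_lit 36949957747) (nat_lit 0) (nat_lit 21406432177) (nat_lit 3) (nat_lit 5) (nat_lit 5) (nat_lit 4) (nat_lit 3) (nat_lit 4) (nat_lit 358) (nat_lit 274) (nat_lit 268)) (XT.lf (nat_lit 0) (nat_lit 30077016195) (nat_lit 152) (nat_lit 27710585656) (nat_lit 0) (nat_lit 29041033513) (nat_lit 3) (nat_lit 5) (nat_lit 5) (nat_lit 4) (nat_lit 3) (nat_lit 4) (nat_lit 359) (nat_lit 274) (nat_lit 267))))) (XT.nd (nat_lit 234) (nat_lit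 0) (nat_lit 0) (XT.nd (nat_lit 78) (nat_lit 76) (nat_lit 0) (XT.lf (nat_lit 0) (nat_lit 38197464749) (nat_lit 152) (nat_lit 18227339807) (nat_lit 0) (nat_lit 37053977375) (nat_lit 3) (nat_lit 5) (nat_lit 5) (nat_lit 4) (nat_lit 3) (nat_lit 4) (nat_lit 360) (nat_lit 274) (nat_lit 266)) (XT.nd (nat_lit 78) (nat_lit 76) (nat_lit 0) (XT.lf (nat_lit 0) (nat_lit 46735776630) (nat_lit 152) (nat_lit 8444023187) (nat_lit 0) (nat_lit 45492747875) (nat_lit 3) (nat_lit 5) (nat_lit 5) (nat_lit 4) (nat_lit 3) (nat_lit 4) (nat_lit 361) (nat_lit 274) (nat_lit 265)) (XT.lf (nat_lit 0) (nat_lit 1753461120) (nat_lit 76) (nat_lit 54016464564) (nat_lit 76) (nat_lit 52681267863) (nat_lit 2) (nat_lit 4) (nat_lit 3) (nat_lit 5) (nat_lit 3) (nat_lit 4) (nat_lit 362) (nat_lit 274) (nat_lit 264)))) (XT.nd (nat_lit 78) (nat_lit 0) (nat_lit 0) (XT.lf (nat_lit 0) (nat_lit 12662111606) (nat_lit 76) (nat_lit 52806735495)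 (nat_lit 76) (nat_lit 51386198104) (nat_lit 2) (nat_lit 4) (nat_lit 3) (nat_lit 5) (nat_lit 3) (nat_lit 4) (nat_lit 363) (nat_lit 274) (nat_lit 263)) (XT.nd (nat_lit 78) (nat_lit 0) (nat_lit 0) (XT.lf (nat_lit 0) (nat_lit 24067374585) (nat_lit 76) (nat_lit 51686447462) (nat_lit 76) (nat_lit 50186890913) (nat_lit 2) (nat_lit 4) (nat_lit 3) (nat_lit 5) (nat_lit 3) (nat_lit 4) (nat_lit 364) (nat_lit 274) (nat_lit 262)) (XT.lf (nat_lit 0) (nat_lit 36036836801) (nat_lit 76) (nat_lit 50648961722) (nat_lit 76) (nat_lit 49076239287) (nat_lit 2) (nat_lit 4) (nat_lit 3) (nat_lit 5) (nat_lit 3) (nat_lit 4) (nat_lit 365) (nat_lit 274) (nat_lit 261)))))) (XT.nd (nat_lit 468) (nat_lit 0) (nat_lit 0) (XT.nd (nat_lit 234) (nat_lit 0) (nat_lit 0) (XT.nd (nat_lit 78) (nat_lit 0) (nat_lit 0) (XT.lf (nat_lit 0) (nat_lit 48641428399) (nat_lit 76) (nat_lit 49688130212) (nat_lit 76) (nat_lit 48047661585) (nat_lit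 2) (nat_lit 4) (nat_lit 3) (nat_lit 5) (nat_lit 3) (nat_lit 4) (nat_lit 366) (nat_lit 274) (nat_lit 260)) (XT.nd (nat_lit 78) (nat_lit 0) (nat_lit 0) (XT.lf (nat_lit 0) (nat_lit 61955843257) (nat_lit 76) (nat_lit 48798259114) (nat_lit 76) (nat_lit 47095062532) (nat_lit 2) (nat_lit 4) (nat_lit 3) (nat_lit 5) (nat_lit 3) (nat_lit 4) (nat_lit 367) (nat_lit 274) (nat_lit 259)) (XT.lf (nat_lit 0) (nat_lit 76058981610) (nat_lit 76) (nat_lit 47974075119) (nat_lit 76) (nat_lit 46212797097) (nat_lit 2) (nat_lit 4) (nat_lit 3) (nat_lit 5) (nat_lit 3) (nat_lit 4) (nat_lit 368) (nat_lit 274) (nat_lit 258)))) (XT.nd (nat_lit 78) (nat_lit 0) (nat_lit 0) (XT.lf (nat_lit 0) (nat_lit 91034417611) (nat_lit 76) (nat_lit 47210694173) (nat_lit 76) (nat_lit 45395637040) (nat_lit 2) (nat_lit 4) (nat_lit 3) (nat_lit 5) (nat_lit 3) (nat_lit 4) (nat_lit 369) (nat_lit 274) (nat_lit 257)) (XT.nd (nat_lit 78) (nat_lit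 0) (nat_lit 0) (XT.lf (nat_lit 0) (nat_lit 106970894585) (nat_lit 76) (nat_lit 46503592538) (nat_lit 76) (nat_lit 44638739932) (nat_lit 2) (nat_lit 4) (nat_lit 3) (nat_lit 5) (nat_lit 3) (nat_lit 4) (nat_lit 370) (nat_lit 274) (nat_lit 256)) (XT.lf (nat_lit 0) (nat_lit 123962850914) (nat_lit 76) (nat_lit 45848579981) (nat_lit 76) (nat_lit 43937620456) (nat_lit 2) (nat_lit 4) (nat_lit 3) (nat_lit 5) (nat_lit 3) (nat_lit 4) (nat_lit 371) (nat_lit 274) (nat_lit 255))))) (XT.nd (nat_lit 234) (nat_lit 0) (nat_lit 0) (XT.nd (nat_lit 78) (nat_lit 0) (nat_lit 0) (XT.lf (nat_lit 0) (nat_lit 142110979673) (nat_lit 76) (nat_lit 45241774947) (nat_lit 76) (nat_lit 43288123829) (nat_lit 2) (nat_lit 4) (nat_lit 3) (nat_lit 5) (nat_lit 3) (nat_lit 4) (nat_lit 372) (nat_lit 274) (nat_lit 254)) (XT.nd (nat_lit 78) (nat_lit 0) (nat_lit 0) (XT.lf (nat_lit 0) (nat_lit 161522825328) (nat_lit 76) (nat_lit 44679581554)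 (nat_lit 76) (nat_lit 42686401184) (nat_lit 2) (nat_lit 4) (nat_lit 3) (nat_lit 5) (nat_lit 3) (nat_lit 4) (nat_lit 373) (nat_lit 274) (nat_lit 253)) (XT.lf (nat_lit 0) (nat_lit 182313421039) (nat_lit 76) (nat_lit 44158668285) (nat_lit 76) (nat_lit 42128886756) (nat_lit 2) (nat_lit 4) (nat_lit 3) (nat_lit 5) (nat_lit 3) (nat_lit 4) (nat_lit 374) (nat_lit 274) (nat_lit 252)))) (XT.nd (nat_lit 78) (nat_lit 0) (nat_lit 0) (XT.lf (nat_lit 0) (nat_lit 204605970335) (nat_lit 76) (nat_lit 43675948247) (nat_lit 76) (nat_lit 41612276756) (nat_lit 2) (nat_lit 4) (nat_lit 3) (nat_lit 5) (nat_lit 3) (nat_lit 4) (nat_lit 375) (nat_lit 274) (nat_lit 251)) (XT.nd (nat_lit 78) (nat_lit 0) (nat_lit 0) (XT.lf (nat_lit 0) (nat_lit 228532577214) (nat_lit 76) (nat_lit 43228560877) (nat_lit 76) (nat_lit 41133509791) (nat_lit 2) (nat_lit 4) (nat_lit 3) (nat_lit 5) (nat_lit 3) (nat_lit 4) (nat_lit 376) (nat_lit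 274) (nat_lit 250)) (XT.lf (nat_lit 0) (nat_lit 254235028973) (nat_lit 76) (nat_lit 42813854991) (nat_lit 76) (nat_lit 40689748724) (nat_lit 2) (nat_lit 4) (nat_lit 3) (nat_lit 5) (nat_lit 3) (nat_lit 4) (nat_lit 377) (nat_lit 274) (nat_lit 249))))))) (XT.nd (nat_lit 936) (nat_lit 0) (nat_lit 0) (XT.nd (nat_lit 468) (nat_lit 0) (nat_lit 0) (XT.nd (nat_lit 234) (nat_lit 0) (nat_lit 0) (XT.nd (nat_lit 78) (nat_lit 0) (nat_lit 0) (XT.lf (nat_lit 0) (nat_lit 281865636440) (nat_lit 76) (nat_lit 42429373071) (nat_lit 76) (nat_lit 40278363860) (nat_lit 2) (nat_lit 4) (nat_lit 3) (nat_lit 5) (nat_lit 3) (nat_lit 4) (nat_lit 378) (nat_lit 274) (nat_lit 248)) (XT.nd (nat_lit 78) (nat_lit 0) (nat_lit 0) (XT.lf (nat_lit 0) (nat_lit 311588136547) (nat_lit 76) (nat_lit 42072836708) (nat_lit 76) (nat_lit 39896917363) (nat_lit 2) (nat_lit 4) (nat_lit 3) (nat_lit 5) (nat_lit 3) (nat_lit 4) (nat_lit 379)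 (nat_lit 274) (nat_lit 247)) (XT.lf (nat_lit 0) (nat_lit 343578662628) (nat_lit 76) (nat_lit 41742133092) (nat_lit 76) (nat_lit 39543148808) (nat_lit 2) (nat_lit 4) (nat_lit 3) (nat_lit 5) (nat_lit 3) (nat_lit 4) (nat_lit 380) (nat_lit 274) (nat_lit 246)))) (XT.nd (nat_lit 78) (nat_lit 0) (nat_lit 0) (XT.lf (nat_lit 0) (nat_lit 378026788170) (nat_lit 76) (nat_lit 41435302498) (nat_lit 76) (nat_lit 39214961789) (nat_lit 2) (nat_lit 4) (nat_lit 3) (nat_lit 5) (nat_lit 3) (nat_lit 4) (nat_lit 381) (nat_lit 274) (nat_lit 245)) (XT.nd (nat_lit 78) (nat_lit 0) (nat_lit 0) (XT.lf (nat_lit 0) (nat_lit 415136650215) (nat_lit 76) (nat_lit 41150526672) (nat_lit 76) (nat_lit 38910411496) (nat_lit 2) (nat_lit 4) (nat_lit 3) (nat_lit 5) (nat_lit 3) (nat_lit 4) (nat_lit 382) (nat_lit 274) (nat_lit 244)) (XT.lf (nat_lit 0) (nat_lit 455128159056) (nat_lit 76) (nat_lit 40886118053) (nat_lit 76) (nat_lit 38627693184)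 (nat_lit 2) (nat_lit 4) (nat_lit 3) (nat_lit 5) (nat_lit 3) (nat_lit 4) (nat_lit 383) (nat_lit 274) (nat_lit 243))))) (XT.nd (nat_lit 234) (nat_lit 0) (nat_lit 0) (XT.nd (nat_lit 78) (nat_lit 0) (nat_lit 0) (XT.lf (nat_lit 0) (nat_lit 498238301411) (nat_lit 76) (nat_lit 40640509774) (nat_lit 76) (nat_lit 38365131487) (nat_lit 2) (nat_lit 4) (nat_lit 3) (nat_lit 5) (nat_lit 3) (nat_lit 4) (nat_lit 384) (nat_lit 274) (nat_lit 242)) (XT.nd (nat_lit 78) (nat_lit 0) (nat_lit 0) (XT.lf (nat_lit 0) (nat_lit 544722544792) (nat_lit 76) (nat_lit 40412246379) (nat_lit 76) (nat_lit 38121170482) (nat_lit 2) (nat_lit 4) (nat_lit 3) (nat_lit 5) (nat_lit 3) (nat_lit 4) (nat_lit 385) (nat_lit 274) (nat_lit 241)) (XT.lf (nat_lit 0) (nat_lit 594856351381) (nat_lit 76) (nat_lit 40199975197) (nat_lit 76) (nat_lit 37894364476) (nat_lit 2) (nat_lit 4) (nat_lit 3) (nat_lit 5) (nat_lit 3) (nat_lit 4) (nat_lit 386)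 (nat_lit 274) (nat_lit 240)))) (XT.nd (nat_lit 78) (nat_lit 0) (nat_lit 0) (XT.lf (nat_lit 0) (nat_lit 648936810401) (nat_lit 76) (nat_lit 40002438324) (nat_lit 76) (nat_lit 37683369433) (nat_lit 2) (nat_lit 4) (nat_lit 3) (nat_lit 5) (nat_lit 3) (nat_lit 4) (nat_lit 387) (nat_lit 274) (nat_lit 239)) (XT.nd (nat_lit 78) (nat_lit 0) (nat_lit 0) (XT.lf (nat_lit 0) (nat_lit 707284398649) (nat_lit 76) (nat_lit 39818465171) (nat_lit 76) (nat_lit 37486935011) (nat_lit 2) (nat_lit 4) (nat_lit 3) (nat_lit 5) (nat_lit 3) (nat_lit 4) (nat_lit 388) (nat_lit 274) (nat_lit 238)) (XT.lf (nat_lit 0) (nat_lit 770244879609) (nat_lit 76) (nat_lit 39646965527) (nat_lit 76) (nat_lit 37303897155) (nat_lit 2) (nat_lit 4) (nat_lit 3) (nat_lit 5) (nat_lit 3) (nat_lit 4) (nat_lit 389) (nat_lit 274) (nat_lit 237)))))) (XT.nd (nat_lit 468) (nat_lit 0) (nat_lit 0) (XT.nd (nat_lit 234) (nat_lit 0) (nat_lit 0) (XT.nd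 (nat_lit 78) (nat_lit 0) (nat_lit 0) (XT.lf (nat_lit 0) (nat_lit 838191352427) (nat_lit 76) (nat_lit 39486923098) (nat_lit 76) (nat_lit 37133171197) (nat_lit 2) (nat_lit 4) (nat_lit 3) (nat_lit 5) (nat_lit 3) (nat_lit 4) (nat_lit 390) (nat_lit 274) (nat_lit 236)) (XT.nd (nat_lit 78) (nat_lit 0) (nat_lit 0) (XT.lf (nat_lit 0) (nat_lit 911526462869) (nat_lit 76) (nat_lit 39337389484) (nat_lit 76) (nat_lit 36973745426) (nat_lit 2) (nat_lit 4) (nat_lit 3) (nat_lit 5) (nat_lit 3) (nat_lit 4) (nat_lit 391) (nat_lit 274) (nat_lit 235)) (XT.lf (nat_lit 0) (nat_lit 990684789368) (nat_lit 76) (nat_lit 39197478560) (nat_lit 76) (nat_lit 36824675097) (nat_lit 2) (nat_lit 4) (nat_lit 3) (nat_lit 5) (nat_lit 3) (nat_lit 4) (nat_lit 392) (nat_lit 274) (nat_lit 234)))) (XT.nd (nat_lit 78) (nat_lit 0) (nat_lit 0) (XT.lf (nat_lit 0) (nat_lit 1076135418301) (nat_lit 76) (nat_lit 39066361224) (nat_lit 76) (nat_lit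 36685076831) (nat_lit 2) (nat_lit 4) (nat_lit 3) (nat_lit 5) (nat_lit 3) (nat_lit 4) (nat_lit 393) (nat_lit 274) (nat_lit 233)) (XT.nd (nat_lit 78) (nat_lit 0) (nat_lit 0) (XT.lf (nat_lit 0) (nat_lit 1168384723767) (nat_lit 76) (nat_lit 38943260485) (nat_lit 76) (nat_lit 36554123379) (nat_lit 2) (nat_lit 4) (nat_lit 3) (nat_lit 5) (nat_lit 3) (nat_lit 4) (nat_lit 394) (nat_lit 274) (nat_lit 232)) (XT.lf (nat_lit 0) (nat_lit 1267979368316) (nat_lit 76) (nat_lit 38827446857) (nat_lit 76) (nat_lit 36431038720) (nat_lit 2) (nat_lit 4) (nat_lit 3) (nat_lit 5) (nat_lit 3) (nat_lit 4) (nat_lit 395) (nat_lit 274) (nat_lit 231))))) (XT.nd (nat_lit 43446) (nat_lit 0) (nat_lit 152) (XT.nd (nat_lit 43290) (nat_lit 0) (nat_lit 304) (XT.lf (nat_lit 0) (nat_lit 1375509542435) (nat_lit 76) (nat_lit 38718234036) (nat_lit 76) (nat_lit 36315093463) (nat_lit 2) (nat_lit 4) (nat_lit 3) (nat_lit 5) (nat_lit 3)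 (nat_lit 4) (nat_lit 396) (nat_lit 274) (nat_lit 230)) (XT.nd (nat_lit 78) (nat_lit 0) (nat_lit 0) (XT.lf (nat_lit 0) (nat_lit 7673462735) (nat_lit 152) (nat_lit 7508109443) (nat_lit 0) (nat_lit 7673462735) (nat_lit 6) (nat_lit 5) (nat_lit 8) (nat_lit 4) (nat_lit 6) (nat_lit 4) (nat_lit 350) (nat_lit 275) (nat_lit 275)) (XT.lf (nat_lit 0) (nat_lit 24358318745) (nat_lit 152) (nat_lit 457955420) (nat_lit 0) (nat_lit 24149385880) (nat_lit 6) (nat_lit 5) (nat_lit 8) (nat_lit 4) (nat_lit 6) (nat_lit 4) (nat_lit 351) (nat_lit 275) (nat_lit 274)))) (XT.nd (nat_lit 156) (nat_lit 76) (nat_lit 0) (XT.nd (nat_lit 78) (nat_lit 0) (nat_lit 0) (XT.lf (nat_lit 0) (nat_lit 14975892552) (nat_lit 76) (nat_lit 18958032836) (nat_lit 76) (nat_lit 18555643613) (nat_lit 5) (nat_lit 4) (nat_lit 6) (nat_lit 5) (nat_lit 6) (nat_lit 4) (nat_lit 352) (nat_lit 275) (nat_lit 273)) (XT.lf (nat_lit 0) (nat_lit 30925796812)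 (nat_lit 76) (nat_lit 12984698748) (nat_lit 76) (nat_lit 12403183269) (nat_lit 5) (nat_lit 4) (nat_lit 6) (nat_lit 5) (nat_lit 6) (nat_lit 4) (nat_lit 353) (nat_lit 275) (nat_lit 272))) (XT.nd (nat_lit 78) (nat_lit 76) (nat_lit 0) (XT.lf (nat_lit 0) (nat_lit 47471133236) (nat_lit 76) (nat_lit 6868630064) (nat_lit 76) (nat_lit 6121256940) (nat_lit 5) (nat_lit 4) (nat_lit 6) (nat_lit 5) (nat_lit 6) (nat_lit 4) (nat_lit 354) (nat_lit 275) (nat_lit 271)) (XT.lf (nat_lit 0) (nat_lit 316883987) (nat_lit 152) (nat_lit 251332843) (nat_lit 76) (nat_lit 64387697691) (nat_lit 4) (nat_lit 5) (nat_lit 6) (nat_lit 5) (nat_lit 5) (nat_lit 4) (nat_lit 355) (nat_lit 275) (nat_lit 270))))))))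
noncomputable def xc11 : XT := (XT.nd (nat_lit 1950) (nat_lit 0) (nat_lit 0) (XT.nd (nat_lit 936) (nat_lit 0) (nat_lit 0) (XT.nd (nat_lit 468) (nat_lit 76) (nat_lit 0) (XT.nd (nat_lit 234) (nat_lit 0) (nat_lit 0) (XT.nd (nat_lit 78) (nat_lit 0) (nat_lit 0) (XT.lf (nat_lit 0) (nat_lit 7061940124) (nat_lit 152) (nat_lit 56674679984) (nat_lit 0) (nat_lit 6068472300) (nat_lit 3) (nat_lit 5) (nat_lit 5) (nat_lit 4) (nat_lit 3) (nat_lit 4) (nat_lit 356) (nat_lit 275) (nat_lit 269)) (XT.nd (nat_lit 78) (nat_lit 0) (nat_lit 0) (XT.lf (nat_lit 0) (nat_lit 14068665083) (nat_lit 152) (nat_lit 48037656175) (nat_lit 0) (nat_lit 12949803786) (nat_lit 3) (nat_lit 5) (nat_lit 5) (nat_lit 4) (nat_lit 3) (nat_lit 4) (nat_lit 357) (nat_lit 275) (nat_lit 268)) (XT.lf (nat_lit 0) (nat_lit 21365588528) (nat_lit 152) (nat_lit 39244568551) (nat_lit 0) (nat_lit 20130622164) (nat_lit 3) (nat_lit 5) (nat_lit 5) (nat_lit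 4) (nat_lit 3) (nat_lit 4) (nat_lit 358) (nat_lit 275) (nat_lit 267)))) (XT.nd (nat_lit 78) (nat_lit 0) (nat_lit 0) (XT.lf (nat_lit 0) (nat_lit 28995951487) (nat_lit 152) (nat_lit 30243309925) (nat_lit 0) (nat_lit 27653480432) (nat_lit 3) (nat_lit 5) (nat_lit 5) (nat_lit 4) (nat_lit 3) (nat_lit 4) (nat_lit 359) (nat_lit 275) (nat_lit 266)) (XT.nd (nat_lit 78) (nat_lit 0) (nat_lit 0) (XT.lf (nat_lit 0) (nat_lit 37004970927) (nat_lit 152) (nat_lit 20980539507) (nat_lit 0) (nat_lit 35562958490) (nat_lit 3) (nat_lit 5) (nat_lit 5) (nat_lit 4) (nat_lit 3) (nat_lit 4) (nat_lit 360) (nat_lit 275) (nat_lit 265)) (XT.lf (nat_lit 0) (nat_lit 45440107703) (nat_lit 152) (nat_lit 11401366805) (nat_lit 0) (nat_lit 43905927321) (nat_lit 3) (nat_lit 5) (nat_lit 5) (nat_lit 4) (nat_lit 3) (nat_lit 4) (nat_lit 361) (nat_lit 275) (nat_lit 264))))) (XT.nd (nat_lit 234) (nat_lit 0) (nat_lit 0) (XT.nd (nat_lit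 78) (nat_lit 76) (nat_lit 0) (XT.lf (nat_lit 0) (nat_lit 54351347811) (nat_lit 152) (nat_lit 1449026350) (nat_lit 0) (nat_lit 52731826738) (nat_lit 3) (nat_lit 5) (nat_lit 5) (nat_lit 4) (nat_lit 3) (nat_lit 4) (nat_lit 362) (nat_lit 275) (nat_lit 263)) (XT.nd (nat_lit 78) (nat_lit 0) (nat_lit 0) (XT.lf (nat_lit 0) (nat_lit 9230905306) (nat_lit 76) (nat_lit 54704713594) (nat_lit 76) (nat_lit 53006173363) (nat_lit 2) (nat_lit 4) (nat_lit 3) (nat_lit 5) (nat_lit 3) (nat_lit 4) (nat_lit 363) (nat_lit 275) (nat_lit 262)) (XT.lf (nat_lit 0) (nat_lit 20468753957) (nat_lit 76) (nat_lit 53667322357) (nat_lit 76) (nat_lit 51895616240) (nat_lit 2) (nat_lit 4) (nat_lit 3) (nat_lit 5) (nat_lit 3) (nat_lit 4) (nat_lit 364) (nat_lit 275) (nat_lit 261)))) (XT.nd (nat_lit 78) (nat_lit 0) (nat_lit 0) (XT.lf (nat_lit 0) (nat_lit 32283202906) (nat_lit 76) (nat_lit 52706592910) (nat_lit 76) (nat_lit 50867140601)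 (nat_lit 2) (nat_lit 4) (nat_lit 3) (nat_lit 5) (nat_lit 3) (nat_lit 4) (nat_lit 365) (nat_lit 275) (nat_lit 260)) (XT.nd (nat_lit 78) (nat_lit 0) (nat_lit 0) (XT.lf (nat_lit 0) (nat_lit 44744263703) (nat_lit 76) (nat_lit 51816832040) (nat_lit 76) (nat_lit 49914651777) (nat_lit 2) (nat_lit 4) (nat_lit 3) (nat_lit 5) (nat_lit 3) (nat_lit 4) (nat_lit 366) (nat_lit 275) (nat_lit 259)) (XT.lf (nat_lit 0) (nat_lit 57925779669) (nat_lit 76) (nat_lit 50992767092) (nat_lit 76) (nat_lit 49032505388) (nat_lit 2) (nat_lit 4) (nat_lit 3) (nat_lit 5) (nat_lit 3) (nat_lit 4) (nat_lit 367) (nat_lit 275) (nat_lit 258)))))) (XT.nd (nat_lit 468) (nat_lit 0) (nat_lit 0) (XT.nd (nat_lit 234) (nat_lit 0) (nat_lit 0) (XT.nd (nat_lit 78) (nat_lit 0) (nat_lit 0) (XT.lf (nat_lit 0) (nat_lit 71905863493) (nat_lit 76) (nat_lit 50229514716) (nat_lit 76) (nat_lit 48215473902) (nat_lit 2) (nat_lit 4) (nat_lit 3) (nat_lit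 5) (nat_lit 3) (nat_lit 4) (nat_lit 368) (nat_lit 275) (nat_lit 257)) (XT.nd (nat_lit 78) (nat_lit 0) (nat_lit 0) (XT.lf (nat_lit 0) (nat_lit 86767360116) (nat_lit 76) (nat_lit 49522551937) (nat_lit 76) (nat_lit 47458715649) (nat_lit 2) (nat_lit 4) (nat_lit 3) (nat_lit 5) (nat_lit 3) (nat_lit 4) (nat_lit 369) (nat_lit 275) (nat_lit 256)) (XT.lf (nat_lit 0) (nat_lit 102598337666) (nat_lit 76) (nat_lit 48867689345) (nat_lit 76) (nat_lit 46757746137) (nat_lit 2) (nat_lit 4) (nat_lit 3) (nat_lit 5) (nat_lit 3) (nat_lit 4) (nat_lit 370) (nat_lit 275) (nat_lit 255)))) (XT.nd (nat_lit 78) (nat_lit 0) (nat_lit 0) (XT.lf (nat_lit 0) (nat_lit 119492609343) (nat_lit 76) (nat_lit 48261046272) (nat_lit 76) (nat_lit 46108411473) (nat_lit 2) (nat_lit 4) (nat_lit 3) (nat_lit 5) (nat_lit 3) (nat_lit 4) (nat_lit 371) (nat_lit 275) (nat_lit 254)) (XT.nd (nat_lit 78) (nat_lit 0) (nat_lit 0) (XT.lf (nat_lit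 0) (nat_lit 137550289349) (nat_lit 76) (nat_lit 47699027797) (nat_lit 76) (nat_lit 45506863746) (nat_lit 2) (nat_lit 4) (nat_lit 3) (nat_lit 5) (nat_lit 3) (nat_lit 4) (nat_lit 372) (nat_lit 275) (nat_lit 253)) (XT.lf (nat_lit 0) (nat_lit 156878386160) (nat_lit 76) (nat_lit 47178303440) (nat_lit 76) (nat_lit 44949538230) (nat_lit 2) (nat_lit 4) (nat_lit 3) (nat_lit 5) (nat_lit 3) (nat_lit 4) (nat_lit 373) (nat_lit 275) (nat_lit 252))))) (XT.nd (nat_lit 234) (nat_lit 0) (nat_lit 0) (XT.nd (nat_lit 78) (nat_lit 0) (nat_lit 0) (XT.lf (nat_lit 0) (nat_lit 177591436644) (nat_lit 76) (nat_lit 46695787428) (nat_lit 76) (nat_lit 44433132255) (nat_lit 2) (nat_lit 4) (nat_lit 3) (nat_lit 5) (nat_lit 3) (nat_lit 4) (nat_lit 374) (nat_lit 275) (nat_lit 251)) (XT.nd (nat_lit 78) (nat_lit 0) (nat_lit 0) (XT.lf (nat_lit 0) (nat_lit 199812184805) (nat_lit 76) (nat_lit 46248620405) (nat_lit 76) (nat_lit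 43954585637) (nat_lit 2) (nat_lit 4) (nat_lit 3) (nat_lit 5) (nat_lit 3) (nat_lit 4) (nat_lit 375) (nat_lit 275) (nat_lit 250)) (XT.lf (nat_lit 0) (nat_lit 223672309150) (nat_lit 76) (nat_lit 45834152493) (nat_lit 76) (nat_lit 43511062545) (nat_lit 2) (nat_lit 4) (nat_lit 3) (nat_lit 5) (nat_lit 3) (nat_lit 4) (nat_lit 376) (nat_lit 275) (nat_lit 249)))) (XT.nd (nat_lit 156) (nat_lit 0) (nat_lit 0) (XT.nd (nat_lit 78) (nat_lit 0) (nat_lit 0) (XT.lf (nat_lit 0) (nat_lit 249313203009) (nat_lit 76) (nat_lit 45449927586) (nat_lit 76) (nat_lit 43099934694) (nat_lit 2) (nat_lit 4) (nat_lit 3) (nat_lit 5) (nat_lit 3) (nat_lit 4) (nat_lit 377) (nat_lit 275) (nat_lit 248)) (XT.lf (nat_lit 0) (nat_lit 276886812419) (nat_lit 76) (nat_lit 45093668797) (nat_lit 76) (nat_lit 42718765770) (nat_lit 2) (nat_lit 4) (nat_lit 3) (nat_lit 5) (nat_lit 3) (nat_lit 4) (nat_lit 378) (nat_lit 275) (nat_lit 247)))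 (XT.nd (nat_lit 78) (nat_lit 0) (nat_lit 0) (XT.lf (nat_lit 0) (nat_lit 306556536548) (nat_lit 76) (nat_lit 44763264960) (nat_lit 76) (nat_lit 42365296995) (nat_lit 2) (nat_lit 4) (nat_lit 3) (nat_lit 5) (nat_lit 3) (nat_lit 4) (nat_lit 379) (nat_lit 275) (nat_lit 246)) (XT.lf (nat_lit 0) (nat_lit 338498195983) (nat_lit 76) (nat_lit 44456758129) (nat_lit 76) (nat_lit 42037433738) (nat_lit 2) (nat_lit 4) (nat_lit 3) (nat_lit 5) (nat_lit 3) (nat_lit 4) (nat_lit 380) (nat_lit 275) (nat_lit 245))))))) (XT.nd (nat_lit 936) (nat_lit 0) (nat_lit 0) (XT.nd (nat_lit 468) (nat_lit 0) (nat_lit 0) (XT.nd (nat_lit 234) (nat_lit 0) (nat_lit 0) (XT.nd (nat_lit 78) (nat_lit 0) (nat_lit 0) (XT.lf (nat_lit 0) (nat_lit 372901074630) (nat_lit 76) (nat_lit 44172331966) (nat_lit 76) (nat_lit 41733233107) (nat_lit 2) (nat_lit 4) (nat_lit 3) (nat_lit 5) (nat_lit 3) (nat_lit 4) (nat_lit 381) (nat_lit 275) (nat_lit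 244)) (XT.nd (nat_lit 78) (nat_lit 0) (nat_lit 0) (XT.lf (nat_lit 0) (nat_lit 409969041402) (nat_lit 76) (nat_lit 43908300982) (nat_lit 76) (nat_lit 41450892432) (nat_lit 2) (nat_lit 4) (nat_lit 3) (nat_lit 5) (nat_lit 3) (nat_lit 4) (nat_lit 382) (nat_lit 275) (nat_lit 243)) (XT.lf (nat_lit 0) (nat_lit 449921758324) (nat_lit 76) (nat_lit 43663100550) (nat_lit 76) (nat_lit 41188738581) (nat_lit 2) (nat_lit 4) (nat_lit 3) (nat_lit 5) (nat_lit 3) (nat_lit 4) (nat_lit 383) (nat_lit 275) (nat_lit 242)))) (XT.nd (nat_lit 78) (nat_lit 0) (nat_lit 0) (XT.lf (nat_lit 0) (nat_lit 492995982235) (nat_lit 76) (nat_lit 43435277630) (nat_lit 76) (nat_lit 40945218052) (nat_lit 2) (nat_lit 4) (nat_lit 3) (nat_lit 5) (nat_lit 3) (nat_lit 4) (nat_lit 384) (nat_lit 275) (nat_lit 241)) (XT.nd (nat_lit 78) (nat_lit 0) (nat_lit 0) (XT.lf (nat_lit 0) (nat_lit 539446967797) (nat_lit 76) (nat_lit 43223482161) (nat_lit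 76) (nat_lit 40718887758) (nat_lit 2) (nat_lit 4) (nat_lit 3) (nat_lit 5) (nat_lit 3) (nat_lit 4) (nat_lit 385) (nat_lit 275) (nat_lit 240)) (XT.lf (nat_lit 0) (nat_lit 589549980109) (nat_lit 76) (nat_lit 43026459057) (nat_lit 76) (nat_lit 40508406484) (nat_lit 2) (nat_lit 4) (nat_lit 3) (nat_lit 5) (nat_lit 3) (nat_lit 4) (nat_lit 386) (nat_lit 275) (nat_lit 239))))) (XT.nd (nat_lit 234) (nat_lit 0) (nat_lit 0) (XT.nd (nat_lit 78) (nat_lit 0) (nat_lit 0) (XT.lf (nat_lit 0) (nat_lit 643601925911) (nat_lit 76) (nat_lit 42843040776) (nat_lit 76) (nat_lit 40312526934) (nat_lit 2) (nat_lit 4) (nat_lit 3) (nat_lit 5) (nat_lit 3) (nat_lit 4) (nat_lit 387) (nat_lit 275) (nat_lit 238)) (XT.nd (nat_lit 78) (nat_lit 0) (nat_lit 0) (XT.lf (nat_lit 0) (nat_lit 701923113030) (nat_lit 76) (nat_lit 42672140393) (nat_lit 76) (nat_lit 40130088339) (nat_lit 2) (nat_lit 4) (nat_lit 3) (nat_lit 5) (nat_lit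 3) (nat_lit 4) (nat_lit 388) (nat_lit 275) (nat_lit 237)) (XT.lf (nat_lit 0) (nat_lit 764859148501) (nat_lit 76) (nat_lit 42512745165) (nat_lit 76) (nat_lit 39960009582) (nat_lit 2) (nat_lit 4) (nat_lit 3) (nat_lit 5) (nat_lit 3) (nat_lit 4) (nat_lit 389) (nat_lit 275) (nat_lit 236)))) (XT.nd (nat_lit 78) (nat_lit 0) (nat_lit 0) (XT.lf (nat_lit 0) (nat_lit 832782986607) (nat_lit 76) (nat_lit 42363910529) (nat_lit 76) (nat_lit 39801282789) (nat_lit 2) (nat_lit 4) (nat_lit 3) (nat_lit 5) (nat_lit 3) (nat_lit 4) (nat_lit 390) (nat_lit 275) (nat_lit 235)) (XT.nd (nat_lit 78) (nat_lit 0) (nat_lit 0) (XT.lf (nat_lit 0) (nat_lit 906097138982) (nat_lit 76) (nat_lit 42224754501) (nat_lit 76) (nat_lit 39652967356) (nat_lit 2) (nat_lit 4) (nat_lit 3) (nat_lit 5) (nat_lit 3) (nat_lit 4) (nat_lit 391) (nat_lit 275) (nat_lit 234)) (XT.lf (nat_lit 0) (nat_lit 985236059863) (nat_lit 76) (nat_lit 42094452453)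 (nat_lit 76) (nat_lit 39514184378) (nat_lit 2) (nat_lit 4) (nat_lit 3) (nat_lit 5) (nat_lit 3) (nat_lit 4) (nat_lit 392) (nat_lit 275) (nat_lit 233)))))) (XT.nd (nat_lit 43524) (nat_lit 0) (nat_lit 76) (XT.nd (nat_lit 234) (nat_lit 0) (nat_lit 0) (XT.nd (nat_lit 78) (nat_lit 0) (nat_lit 0) (XT.lf (nat_lit 0) (nat_lit 1070668720631) (nat_lit 76) (nat_lit 41972232225) (nat_lit 76) (nat_lit 39384111437) (nat_lit 2) (nat_lit 4) (nat_lit 3) (nat_lit 5) (nat_lit 3) (nat_lit 4) (nat_lit 393) (nat_lit 275) (nat_lit 232)) (XT.nd (nat_lit 78) (nat_lit 0) (nat_lit 0) (XT.lf (nat_lit 0) (nat_lit 1162901388908) (nat_lit 76) (nat_lit 41857369548) (nat_lit 76) (nat_lit 39261977729) (nat_lit 2) (nat_lit 4) (nat_lit 3) (nat_lit 5) (nat_lit 3) (nat_lit 4) (nat_lit 394) (nat_lit 275) (nat_lit 231)) (XT.lf (nat_lit 0) (nat_lit 1262480628653) (nat_lit 76) (nat_lit 41749183755) (nat_lit 76) (nat_lit 39147059501)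 (nat_lit 2) (nat_lit 4) (nat_lit 3) (nat_lit 5) (nat_lit 3) (nat_lit 4) (nat_lit 395) (nat_lit 275) (nat_lit 230)))) (XT.nd (nat_lit 43134) (nat_lit 0) (nat_lit 304) (XT.lf (nat_lit 0) (nat_lit 1369996539063) (nat_lit 76) (nat_lit 41647033745) (nat_lit 76) (nat_lit 39038675754) (nat_lit 2) (nat_lit 4) (nat_lit 3) (nat_lit 5) (nat_lit 3) (nat_lit 4) (nat_lit 396) (nat_lit 275) (nat_lit 229)) (XT.nd (nat_lit 78) (nat_lit 152) (nat_lit 0) (XT.lf (nat_lit 0) (nat_lit 18545300560) (nat_lit 76) (nat_lit 714287505) (nat_lit 76) (nat_lit 714287505) (nat_lit 8) (nat_lit 4) (nat_lit 9) (nat_lit 5) (nat_lit 9) (nat_lit 4) (nat_lit 348) (nat_lit 276) (nat_lit 276)) (XT.lf (nat_lit 0) (nat_lit 6838176559) (nat_lit 152) (nat_lit 29264491127) (nat_lit 0) (nat_lit 6612529064) (nat_lit 6) (nat_lit 5) (nat_lit 8) (nat_lit 4) (nat_lit 6) (nat_lit 4) (nat_lit 349) (nat_lit 276) (nat_lit 275))))) (XT.nd (nat_lit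 234) (nat_lit 152) (nat_lit 0) (XT.nd (nat_lit 78) (nat_lit 76) (nat_lit 0) (XT.lf (nat_lit 0) (nat_lit 15369806214) (nat_lit 152) (nat_lit 15415195114) (nat_lit 0) (nat_lit 14935225853) (nat_lit 6) (nat_lit 5) (nat_lit 8) (nat_lit 4) (nat_lit 6) (nat_lit 4) (nat_lit 350) (nat_lit 276) (nat_lit 274)) (XT.nd (nat_lit 78) (nat_lit 76) (nat_lit 0) (XT.lf (nat_lit 0) (nat_lit 24193452494) (nat_lit 152) (nat_lit 1226354080) (nat_lit 0) (nat_lit 23565415777) (nat_lit 6) (nat_lit 5) (nat_lit 8) (nat_lit 4) (nat_lit 6) (nat_lit 4) (nat_lit 351) (nat_lit 276) (nat_lit 273)) (XT.lf (nat_lit 0) (nat_lit 13828719378) (nat_lit 76) (nat_lit 19748589362) (nat_lit 76) (nat_lit 18941426387) (nat_lit 5) (nat_lit 4) (nat_lit 6) (nat_lit 5) (nat_lit 6) (nat_lit 4) (nat_lit 352) (nat_lit 276) (nat_lit 272)))) (XT.nd (nat_lit 156) (nat_lit 152) (nat_lit 0) (XT.nd (nat_lit 78) (nat_lit 0) (nat_lit 0) (XT.lf (nat_lit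 0) (nat_lit 29451431245) (nat_lit 76) (nat_lit 13936376491) (nat_lit 76) (nat_lit 12963355872) (nat_lit 5) (nat_lit 4) (nat_lit 6) (nat_lit 5) (nat_lit 6) (nat_lit 4) (nat_lit 353) (nat_lit 276) (nat_lit 271)) (XT.lf (nat_lit 0) (nat_lit 45693811750) (nat_lit 76) (nat_lit 7969494119) (nat_lit 76) (nat_lit 6842901606) (nat_lit 5) (nat_lit 4) (nat_lit 6) (nat_lit 5) (nat_lit 6) (nat_lit 4) (nat_lit 354) (nat_lit 276) (nat_lit 270))) (XT.nd (nat_lit 78) (nat_lit 152) (nat_lit 0) (XT.lf (nat_lit 0) (nat_lit 62652112037) (nat_lit 76) (nat_lit 1812582943) (nat_lit 76) (nat_lit 543794232) (nat_lit 5) (nat_lit 4) (nat_lit 6) (nat_lit 5) (nat_lit 6) (nat_lit 4) (nat_lit 355) (nat_lit 276) (nat_lit 269)) (XT.lf (nat_lit 0) (nat_lit 6024361158) (nat_lit 152) (nat_lit 59152859651) (nat_lit 0) (nat_lit 4690597485) (nat_lit 3) (nat_lit 5) (nat_lit 5) (nat_lit 4) (nat_lit 3) (nat_lit 4) (nat_lit 356) (nat_lit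 276) (nat_lit 268))))))))
noncomputable def xc12 : XT := (XT.nd (nat_lit 1872) (nat_lit 0) (nat_lit 0) (XT.nd (nat_lit 936) (nat_lit 0) (nat_lit 0) (XT.nd (nat_lit 468) (nat_lit 76) (nat_lit 0) (XT.nd (nat_lit 234) (nat_lit 0) (nat_lit 0) (XT.nd (nat_lit 78) (nat_lit 0) (nat_lit 0) (XT.lf (nat_lit 0) (nat_lit 12901115198) (nat_lit 152) (nat_lit 50772998385) (nat_lit 0) (nat_lit 11451246458) (nat_lit 3) (nat_lit 5) (nat_lit 5) (nat_lit 4) (nat_lit 3) (nat_lit 4) (nat_lit 357) (nat_lit 276) (nat_lit 267)) (XT.nd (nat_lit 78) (nat_lit 0) (nat_lit 0) (XT.lf (nat_lit 0) (nat_lit 20077695201) (nat_lit 152) (nat_lit 42218024227) (nat_lit 0) (nat_lit 18520321769) (nat_lit 3) (nat_lit 5) (nat_lit 5) (nat_lit 4) (nat_lit 3) (nat_lit 4) (nat_lit 358) (nat_lit 276) (nat_lit 266)) (XT.lf (nat_lit 0) (nat_lit 27596629046) (nat_lit 152) (nat_lit 33437241033) (nat_lit 0) (nat_lit 25939714234) (nat_lit 3)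 (nat_lit 5) (nat_lit 5) (nat_lit 4) (nat_lit 3) (nat_lit 4) (nat_lit 359) (nat_lit 276) (nat_lit 265)))) (XT.nd (nat_lit 78) (nat_lit 0) (nat_lit 0) (XT.lf (nat_lit 0) (nat_lit 35502473381) (nat_lit 152) (nat_lit 24378614533) (nat_lit 0) (nat_lit 33753390622) (nat_lit 3) (nat_lit 5) (nat_lit 5) (nat_lit 4) (nat_lit 3) (nat_lit 4) (nat_lit 360) (nat_lit 276) (nat_lit 264)) (XT.nd (nat_lit 78) (nat_lit 0) (nat_lit 0) (XT.lf (nat_lit 0) (nat_lit 43842077652) (nat_lit 152) (nat_lit 14988463976) (nat_lit 0) (nat_lit 42007654203) (nat_lit 3) (nat_lit 5) (nat_lit 5) (nat_lit 4) (nat_lit 3) (nat_lit 4) (nat_lit 361) (nat_lit 276) (nat_lit 263)) (XT.lf (nat_lit 0) (nat_lit 52664861736) (nat_lit 152) (nat_lit 5211144027) (nat_lit 0) (nat_lit 50751419130) (nat_lit 3) (nat_lit 5) (nat_lit 5) (nat_lit 4) (nat_lit 3) (nat_lit 4) (nat_lit 362) (nat_lit 276) (nat_lit 262))))) (XT.nd (nat_lit 234) (nat_lit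 0) (nat_lit 0) (XT.nd (nat_lit 78) (nat_lit 0) (nat_lit 0) (XT.lf (nat_lit 0) (nat_lit 5176980700) (nat_lit 76) (nat_lit 56926955276) (nat_lit 76) (nat_lit 54940346783) (nat_lit 2) (nat_lit 4) (nat_lit 3) (nat_lit 5) (nat_lit 3) (nat_lit 4) (nat_lit 363) (nat_lit 276) (nat_lit 261)) (XT.nd (nat_lit 78) (nat_lit 0) (nat_lit 0) (XT.lf (nat_lit 0) (nat_lit 16259816085) (nat_lit 76) (nat_lit 55966320332) (nat_lit 76) (nat_lit 53911965647) (nat_lit 2) (nat_lit 4) (nat_lit 3) (nat_lit 5) (nat_lit 3) (nat_lit 4) (nat_lit 364) (nat_lit 276) (nat_lit 260)) (XT.lf (nat_lit 0) (nat_lit 27930734232) (nat_lit 76) (nat_lit 55076661526) (nat_lit 76) (nat_lit 52959578886) (nat_lit 2) (nat_lit 4) (nat_lit 3) (nat_lit 5) (nat_lit 3) (nat_lit 4) (nat_lit 365) (nat_lit 276) (nat_lit 259)))) (XT.nd (nat_lit 78) (nat_lit 0) (nat_lit 0) (XT.lf (nat_lit 0) (nat_lit 40258896137) (nat_lit 76) (nat_lit 54252706805)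 (nat_lit 76) (nat_lit 52077542726) (nat_lit 2) (nat_lit 4) (nat_lit 3) (nat_lit 5) (nat_lit 3) (nat_lit 4) (nat_lit 366) (nat_lit 276) (nat_lit 258)) (XT.nd (nat_lit 78) (nat_lit 0) (nat_lit 0) (XT.lf (nat_lit 0) (nat_lit 53317357575) (nat_lit 76) (nat_lit 53489573477) (nat_lit 76) (nat_lit 51260630286) (nat_lit 2) (nat_lit 4) (nat_lit 3) (nat_lit 5) (nat_lit 3) (nat_lit 4) (nat_lit 367) (nat_lit 276) (nat_lit 257)) (XT.lf (nat_lit 0) (nat_lit 67183502021) (nat_lit 76) (nat_lit 52782739268) (nat_lit 76) (nat_lit 50504000604) (nat_lit 2) (nat_lit 4) (nat_lit 3) (nat_lit 5) (nat_lit 3) (nat_lit 4) (nat_lit 368) (nat_lit 276) (nat_lit 256)))))) (XT.nd (nat_lit 468) (nat_lit 0) (nat_lit 0) (XT.nd (nat_lit 234) (nat_lit 0) (nat_lit 0) (XT.nd (nat_lit 78) (nat_lit 0) (nat_lit 0) (XT.lf (nat_lit 0) (nat_lit 81939499219) (nat_lit 76) (nat_lit 52128015531) (nat_lit 76) (nat_lit 49803169948) (nat_lit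 2) (nat_lit 4) (nat_lit 3) (nat_lit 5) (nat_lit 3) (nat_lit 4) (nat_lit 369) (nat_lit 276) (nat_lit 255)) (XT.nd (nat_lit 78) (nat_lit 0) (nat_lit 0) (XT.lf (nat_lit 0) (nat_lit 97672792116) (nat_lit 76) (nat_lit 51521522423) (nat_lit 76) (nat_lit 49153985247) (nat_lit 2) (nat_lit 4) (nat_lit 3) (nat_lit 5) (nat_lit 3) (nat_lit 4) (nat_lit 370) (nat_lit 276) (nat_lit 254)) (XT.lf (nat_lit 0) (nat_lit 114476615041) (nat_lit 76) (nat_lit 50959665910) (nat_lit 76) (nat_lit 48552599482) (nat_lit 2) (nat_lit 4) (nat_lit 3) (nat_lit 5) (nat_lit 3) (nat_lit 4) (nat_lit 371) (nat_lit 276) (nat_lit 253)))) (XT.nd (nat_lit 78) (nat_lit 0) (nat_lit 0) (XT.lf (nat_lit 0) (nat_lit 132450546203) (nat_lit 76) (nat_lit 50439116472) (nat_lit 76) (nat_lit 47995448885) (nat_lit 2) (nat_lit 4) (nat_lit 3) (nat_lit 5) (nat_lit 3) (nat_lit 4) (nat_lit 372) (nat_lit 276) (nat_lit 252)) (XT.nd (nat_lit 78) (nat_lit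 0) (nat_lit 0) (XT.lf (nat_lit 0) (nat_lit 151701097787) (nat_lit 76) (nat_lit 49956789371) (nat_lit 76) (nat_lit 47479231822) (nat_lit 2) (nat_lit 4) (nat_lit 3) (nat_lit 5) (nat_lit 3) (nat_lit 4) (nat_lit 373) (nat_lit 276) (nat_lit 251)) (XT.lf (nat_lit 0) (nat_lit 172342347136) (nat_lit 76) (nat_lit 49509826373) (nat_lit 76) (nat_lit 47000889229) (nat_lit 2) (nat_lit 4) (nat_lit 3) (nat_lit 5) (nat_lit 3) (nat_lit 4) (nat_lit 374) (nat_lit 276) (nat_lit 250))))) (XT.nd (nat_lit 234) (nat_lit 0) (nat_lit 0) (XT.nd (nat_lit 78) (nat_lit 0) (nat_lit 0) (XT.lf (nat_lit 0) (nat_lit 194496612764) (nat_lit 76) (nat_lit 49095578808) (nat_lit 76) (nat_lit 46557586484) (nat_lit 2) (nat_lit 4) (nat_lit 3) (nat_lit 5) (nat_lit 3) (nat_lit 4) (nat_lit 375) (nat_lit 276) (nat_lit 249)) (XT.nd (nat_lit 78) (nat_lit 0) (nat_lit 0) (XT.lf (nat_lit 0) (nat_lit 218295179208) (nat_lit 76) (nat_lit 48711591876)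 (nat_lit 76) (nat_lit 46146696607) (nat_lit 2) (nat_lit 4) (nat_lit 3) (nat_lit 5) (nat_lit 3) (nat_lit 4) (nat_lit 376) (nat_lit 276) (nat_lit 248)) (XT.lf (nat_lit 0) (nat_lit 243879075011) (nat_lit 76) (nat_lit 48355590099) (nat_lit 76) (nat_lit 45765784696) (nat_lit 2) (nat_lit 4) (nat_lit 3) (nat_lit 5) (nat_lit 3) (nat_lit 4) (nat_lit 377) (nat_lit 276) (nat_lit 247)))) (XT.nd (nat_lit 78) (nat_lit 0) (nat_lit 0) (XT.lf (nat_lit 0) (nat_lit 271399908443) (nat_lit 76) (nat_lit 48025463837) (nat_lit 76) (nat_lit 45412593495) (nat_lit 2) (nat_lit 4) (nat_lit 3) (nat_lit 5) (nat_lit 3) (nat_lit 4) (nat_lit 378) (nat_lit 276) (nat_lit 246)) (XT.nd (nat_lit 78) (nat_lit 0) (nat_lit 0) (XT.lf (nat_lit 0) (nat_lit 301020765925) (nat_lit 76) (nat_lit 47719256785) (nat_lit 76) (nat_lit 45085030018) (nat_lit 2) (nat_lit 4) (nat_lit 3) (nat_lit 5) (nat_lit 3) (nat_lit 4) (nat_lit 379) (nat_lit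 276) (nat_lit 245)) (XT.lf (nat_lit 0) (nat_lit 332917178465) (nat_lit 76) (nat_lit 47435154383) (nat_lit 76) (nat_lit 44781153149) (nat_lit 2) (nat_lit 4) (nat_lit 3) (nat_lit 5) (nat_lit 3) (nat_lit 4) (nat_lit 380) (nat_lit 276) (nat_lit 244))))))) (XT.nd (nat_lit 936) (nat_lit 0) (nat_lit 0) (XT.nd (nat_lit 468) (nat_lit 0) (nat_lit 0) (XT.nd (nat_lit 234) (nat_lit 0) (nat_lit 0) (XT.nd (nat_lit 78) (nat_lit 0) (nat_lit 0) (XT.lf (nat_lit 0) (nat_lit 367278161839) (nat_lit 76) (nat_lit 47171473063) (nat_lit 76) (nat_lit 44499162136) (nat_lit 2) (nat_lit 4) (nat_lit 3) (nat_lit 5) (nat_lit 3) (nat_lit 4) (nat_lit 381) (nat_lit 276) (nat_lit 243)) (XT.nd (nat_lit 78) (nat_lit 0) (nat_lit 0) (XT.lf (nat_lit 0) (nat_lit 404307336692) (nat_lit 76) (nat_lit 46926650267) (nat_lit 76) (nat_lit 44237385922) (nat_lit 2) (nat_lit 4) (nat_lit 3) (nat_lit 5) (nat_lit 3) (nat_lit 4) (nat_lit 382)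 (nat_lit 276) (nat_lit 242)) (XT.lf (nat_lit 0) (nat_lit 444224135169) (nat_lit 76) (nat_lit 46699235194) (nat_lit 76) (nat_lit 43994273239) (nat_lit 2) (nat_lit 4) (nat_lit 3) (nat_lit 5) (nat_lit 3) (nat_lit 4) (nat_lit 383) (nat_lit 276) (nat_lit 241)))) (XT.nd (nat_lit 78) (nat_lit 0) (nat_lit 0) (XT.lf (nat_lit 0) (nat_lit 487265101262) (nat_lit 76) (nat_lit 46487880199) (nat_lit 76) (nat_lit 43768383420) (nat_lit 2) (nat_lit 4) (nat_lit 3) (nat_lit 5) (nat_lit 3) (nat_lit 4) (nat_lit 384) (nat_lit 276) (nat_lit 240)) (XT.nd (nat_lit 78) (nat_lit 0) (nat_lit 0) (XT.lf (nat_lit 0) (nat_lit 533685292548) (nat_lit 76) (nat_lit 46291332808) (nat_lit 76) (nat_lit 43558377859) (nat_lit 2) (nat_lit 4) (nat_lit 3) (nat_lit 5) (nat_lit 3) (nat_lit 4) (nat_lit 385) (nat_lit 276) (nat_lit 239)) (XT.lf (nat_lit 0) (nat_lit 583759791641) (nat_lit 76) (nat_lit 46108428296) (nat_lit 76) (nat_lit 43363012078)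 (nat_lit 2) (nat_lit 4) (nat_lit 3) (nat_lit 5) (nat_lit 3) (nat_lit 4) (nat_lit 386) (nat_lit 276) (nat_lit 238))))) (XT.nd (nat_lit 234) (nat_lit 0) (nat_lit 0) (XT.nd (nat_lit 78) (nat_lit 0) (nat_lit 0) (XT.lf (nat_lit 0) (nat_lit 637785336315) (nat_lit 76) (nat_lit 45938082784) (nat_lit 76) (nat_lit 43181128355) (nat_lit 2) (nat_lit 4) (nat_lit 3) (nat_lit 5) (nat_lit 3) (nat_lit 4) (nat_lit 387) (nat_lit 276) (nat_lit 237)) (XT.nd (nat_lit 78) (nat_lit 0) (nat_lit 0) (XT.lf (nat_lit 0) (nat_lit 696082077944) (nat_lit 76) (nat_lit 45779286818) (nat_lit 76) (nat_lit 43011648858) (nat_lit 2) (nat_lit 4) (nat_lit 3) (nat_lit 5) (nat_lit 3) (nat_lit 4) (nat_lit 388) (nat_lit 276) (nat_lit 236)) (XT.lf (nat_lit 0) (nat_lit 758995478702) (nat_lit 76) (nat_lit 45631099383) (nat_lit 76) (nat_lit 42853569267) (nat_lit 2) (nat_lit 4) (nat_lit 3) (nat_lit 5) (nat_lit 3) (nat_lit 4) (nat_lit 389)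 (nat_lit 276) (nat_lit 235)))) (XT.nd (nat_lit 78) (nat_lit 0) (nat_lit 0) (XT.lf (nat_lit 0) (nat_lit 826898358741) (nat_lit 76) (nat_lit 45492642333) (nat_lit 76) (nat_lit 42705952812) (nat_lit 2) (nat_lit 4) (nat_lit 3) (nat_lit 5) (nat_lit 3) (nat_lit 4) (nat_lit 390) (nat_lit 276) (nat_lit 234)) (XT.nd (nat_lit 78) (nat_lit 0) (nat_lit 0) (XT.lf (nat_lit 0) (nat_lit 900193105499) (nat_lit 76) (nat_lit 45363095181) (nat_lit 76) (nat_lit 42567924730) (nat_lit 2) (nat_lit 4) (nat_lit 3) (nat_lit 5) (nat_lit 3) (nat_lit 4) (nat_lit 391) (nat_lit 276) (nat_lit 233)) (XT.lf (nat_lit 0) (nat_lit 979314058215) (nat_lit 76) (nat_lit 45241690241) (nat_lit 76) (nat_lit 42438667077) (nat_lit 2) (nat_lit 4) (nat_lit 3) (nat_lit 5) (nat_lit 3) (nat_lit 4) (nat_lit 392) (nat_lit 276) (nat_lit 232)))))) (XT.nd (nat_lit 43368) (nat_lit 0) (nat_lit 228) (XT.nd (nat_lit 234) (nat_lit 0) (nat_lit 0) (XT.nd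 (nat_lit 78) (nat_lit 0) (nat_lit 0) (XT.lf (nat_lit 0) (nat_lit 1064730081795) (nat_lit 76) (nat_lit 45127708075) (nat_lit 76) (nat_lit 42317413880) (nat_lit 2) (nat_lit 4) (nat_lit 3) (nat_lit 5) (nat_lit 3) (nat_lit 4) (nat_lit 393) (nat_lit 276) (nat_lit 231)) (XT.nd (nat_lit 78) (nat_lit 0) (nat_lit 0) (XT.lf (nat_lit 0) (nat_lit 1156947345266) (nat_lit 76) (nat_lit 45020473234) (nat_lit 76) (nat_lit 42203446603) (nat_lit 2) (nat_lit 4) (nat_lit 3) (nat_lit 5) (nat_lit 3) (nat_lit 4) (nat_lit 394) (nat_lit 276) (nat_lit 230)) (XT.lf (nat_lit 0) (nat_lit 1256512321302) (nat_lit 76) (nat_lit 44919350252) (nat_lit 76) (nat_lit 42096089884) (nat_lit 2) (nat_lit 4) (nat_lit 3) (nat_lit 5) (nat_lit 3) (nat_lit 4) (nat_lit 395) (nat_lit 276) (nat_lit 229)))) (XT.nd (nat_lit 42978) (nat_lit 0) (nat_lit 456) (XT.lf (nat_lit 0) (nat_lit 1364015024576) (nat_lit 76) (nat_lit 44823739881) (nat_lit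 76) (nat_lit 41994707536) (nat_lit 2) (nat_lit 4) (nat_lit 3) (nat_lit 5) (nat_lit 3) (nat_lit 4) (nat_lit 396) (nat_lit 276) (nat_lit 228)) (XT.nd (nat_lit 78) (nat_lit 0) (nat_lit 0) (XT.lf (nat_lit 0) (nat_lit 763166750) (nat_lit 76) (nat_lit 8374277290) (nat_lit 76) (nat_lit 8374277290) (nat_lit 8) (nat_lit 4) (nat_lit 9) (nat_lit 5) (nat_lit 9) (nat_lit 4) (nat_lit 346) (nat_lit 277) (nat_lit 277)) (XT.lf (nat_lit 0) (nat_lit 18833707383) (nat_lit 76) (nat_lit 9403861454) (nat_lit 76) (nat_lit 9147977195) (nat_lit 8) (nat_lit 4) (nat_lit 9) (nat_lit 5) (nat_lit 9) (nat_lit 4) (nat_lit 347) (nat_lit 277) (nat_lit 276))))) (XT.nd (nat_lit 234) (nat_lit 76) (nat_lit 0) (XT.nd (nat_lit 78) (nat_lit 152) (nat_lit 0) (XT.lf (nat_lit 0) (nat_lit 36687758477) (nat_lit 76) (nat_lit 1881557781) (nat_lit 76) (nat_lit 1388743652) (nat_lit 8) (nat_lit 4) (nat_lit 9) (nat_lit 5) (nat_lit 9) (nat_lit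 4) (nat_lit 348) (nat_lit 277) (nat_lit 275)) (XT.nd (nat_lit 78) (nat_lit 0) (nat_lit 0) (XT.lf (nat_lit 0) (nat_lit 6660121008) (nat_lit 152) (nat_lit 30094361680) (nat_lit 0) (nat_lit 5981841353) (nat_lit 6) (nat_lit 5) (nat_lit 8) (nat_lit 4) (nat_lit 6) (nat_lit 4) (nat_lit 349) (nat_lit 277) (nat_lit 274)) (XT.lf (nat_lit 0) (nat_lit 15004003669) (nat_lit 152) (nat_lit 16614488099) (nat_lit 0) (nat_lit 14132267657) (nat_lit 6) (nat_lit 5) (nat_lit 8) (nat_lit 4) (nat_lit 6) (nat_lit 4) (nat_lit 350) (nat_lit 277) (nat_lit 273)))) (XT.nd (nat_lit 156) (nat_lit 0) (nat_lit 0) (XT.nd (nat_lit 78) (nat_lit 76) (nat_lit 0) (XT.lf (nat_lit 0) (nat_lit 23653810142) (nat_lit 152) (nat_lit 2767704873) (nat_lit 0) (nat_lit 22602947873) (nat_lit 6) (nat_lit 5) (nat_lit 8) (nat_lit 4) (nat_lit 6) (nat_lit 4) (nat_lit 351) (nat_lit 277) (nat_lit 272)) (XT.lf (nat_lit 0) (nat_lit 11909212174) (nat_lit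 76) (nat_lit 20937522541) (nat_lit 76) (nat_lit 19720802627) (nat_lit 5) (nat_lit 4) (nat_lit 6) (nat_lit 5) (nat_lit 6) (nat_lit 4) (nat_lit 352) (nat_lit 277) (nat_lit 271))) (XT.nd (nat_lit 78) (nat_lit 0) (nat_lit 0) (XT.lf (nat_lit 0) (nat_lit 27228968122) (nat_lit 76) (nat_lit 15274495982) (nat_lit 76) (nat_lit 13904204174) (nat_lit 5) (nat_lit 4) (nat_lit 6) (nat_lit 5) (nat_lit 6) (nat_lit 4) (nat_lit 353) (nat_lit 277) (nat_lit 270)) (XT.lf (nat_lit 0) (nat_lit 43190833887) (nat_lit 76) (nat_lit 9445749083) (nat_lit 76) (nat_lit 7933261078) (nat_lit 5) (nat_lit 4) (nat_lit 6) (nat_lit 5) (nat_lit 6) (nat_lit 4) (nat_lit 354) (nat_lit 277) (nat_lit 269))))))))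
noncomputable def xc13 : XT := (XT.nd (nat_lit 1950) (nat_lit 0) (nat_lit 0) (XT.nd (nat_lit 936) (nat_lit 0) (nat_lit 0) (XT.nd (nat_lit 468) (nat_lit 76) (nat_lit 0) (XT.nd (nat_lit 234) (nat_lit 0) (nat_lit 0) (XT.nd (nat_lit 78) (nat_lit 152) (nat_lit 0) (XT.lf (nat_lit 0) (nat_lit 59889398304) (nat_lit 76) (nat_lit 3416741123) (nat_lit 76) (nat_lit 1772589972) (nat_lit 5) (nat_lit 4) (nat_lit 6) (nat_lit 5) (nat_lit 6) (nat_lit 4) (nat_lit 355) (nat_lit 277) (nat_lit 268)) (XT.nd (nat_lit 78) (nat_lit 0) (nat_lit 0) (XT.lf (nat_lit 0) (nat_lit 4633436365) (nat_lit 152) (nat_lit 62364191781) (nat_lit 0) (nat_lit 2951473059) (nat_lit 3) (nat_lit 5) (nat_lit 5) (nat_lit 4) (nat_lit 3) (nat_lit 4) (nat_lit 356) (nat_lit 277) (nat_lit 267)) (XT.lf (nat_lit 0) (nat_lit 11389846962) (nat_lit 152) (nat_lit 54222443981) (nat_lit 0) (nat_lit 9600378964) (nat_lit 3) (nat_lit 5) (nat_lit 5) (nat_lit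 4) (nat_lit 3) (nat_lit 4) (nat_lit 357) (nat_lit 277) (nat_lit 266)))) (XT.nd (nat_lit 78) (nat_lit 0) (nat_lit 0) (XT.lf (nat_lit 0) (nat_lit 18454997851) (nat_lit 152) (nat_lit 45887945254) (nat_lit 0) (nat_lit 16565988472) (nat_lit 3) (nat_lit 5) (nat_lit 5) (nat_lit 4) (nat_lit 3) (nat_lit 4) (nat_lit 358) (nat_lit 277) (nat_lit 265)) (XT.nd (nat_lit 78) (nat_lit 0) (nat_lit 0) (XT.lf (nat_lit 0) (nat_lit 25870756591) (nat_lit 152) (nat_lit 37311305978) (nat_lit 0) (nat_lit 23889579267) (nat_lit 3) (nat_lit 5) (nat_lit 5) (nat_lit 4) (nat_lit 3) (nat_lit 4) (nat_lit 359) (nat_lit 277) (nat_lit 264)) (XT.lf (nat_lit 0) (nat_lit 33681068421) (nat_lit 152) (nat_lit 28441701624) (nat_lit 0) (nat_lit 31614550406) (nat_lit 3) (nat_lit 5) (nat_lit 5) (nat_lit 4) (nat_lit 3) (nat_lit 4) (nat_lit 360) (nat_lit 277) (nat_lit 263))))) (XT.nd (nat_lit 234) (nat_lit 0) (nat_lit 0) (XT.nd (nat_lit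 78) (nat_lit 76) (nat_lit 0) (XT.lf (nat_lit 0) (nat_lit 41932216669) (nat_lit 152) (nat_lit 19226571573) (nat_lit 0) (nat_lit 39786679496) (nat_lit 3) (nat_lit 5) (nat_lit 5) (nat_lit 4) (nat_lit 3) (nat_lit 4) (nat_lit 361) (nat_lit 277) (nat_lit 262)) (XT.nd (nat_lit 78) (nat_lit 76) (nat_lit 0) (XT.lf (nat_lit 0) (nat_lit 50673097028) (nat_lit 152) (nat_lit 9611307648) (nat_lit 0) (nat_lit 48454393968) (nat_lit 3) (nat_lit 5) (nat_lit 5) (nat_lit 4) (nat_lit 3) (nat_lit 4) (nat_lit 362) (nat_lit 277) (nat_lit 261)) (XT.lf (nat_lit 0) (nat_lit 476314532) (nat_lit 76) (nat_lit 59486629381) (nat_lit 76) (nat_lit 57200180130) (nat_lit 2) (nat_lit 4) (nat_lit 3) (nat_lit 5) (nat_lit 3) (nat_lit 4) (nat_lit 363) (nat_lit 277) (nat_lit 260)))) (XT.nd (nat_lit 78) (nat_lit 0) (nat_lit 0) (XT.lf (nat_lit 0) (nat_lit 11415619114) (nat_lit 76) (nat_lit 58597065078) (nat_lit 76) (nat_lit 56247887872)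 (nat_lit 2) (nat_lit 4) (nat_lit 3) (nat_lit 5) (nat_lit 3) (nat_lit 4) (nat_lit 364) (nat_lit 277) (nat_lit 259)) (XT.nd (nat_lit 78) (nat_lit 0) (nat_lit 0) (XT.lf (nat_lit 0) (nat_lit 22953638370) (nat_lit 76) (nat_lit 57773212421) (nat_lit 76) (nat_lit 55365953775) (nat_lit 2) (nat_lit 4) (nat_lit 3) (nat_lit 5) (nat_lit 3) (nat_lit 4) (nat_lit 365) (nat_lit 277) (nat_lit 258)) (XT.lf (nat_lit 0) (nat_lit 35158745746) (nat_lit 76) (nat_lit 57010189321) (nat_lit 76) (nat_lit 54549151564) (nat_lit 2) (nat_lit 4) (nat_lit 3) (nat_lit 5) (nat_lit 3) (nat_lit 4) (nat_lit 366) (nat_lit 277) (nat_lit 257)))))) (XT.nd (nat_lit 468) (nat_lit 0) (nat_lit 0) (XT.nd (nat_lit 234) (nat_lit 0) (nat_lit 0) (XT.nd (nat_lit 78) (nat_lit 0) (nat_lit 0) (XT.lf (nat_lit 0) (nat_lit 48103267806) (nat_lit 76) (nat_lit 56303474158) (nat_lit 76) (nat_lit 53792640928) (nat_lit 2) (nat_lit 4) (nat_lit 3) (nat_lit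 5) (nat_lit 3) (nat_lit 4) (nat_lit 367) (nat_lit 277) (nat_lit 256)) (XT.nd (nat_lit 78) (nat_lit 0) (nat_lit 0) (XT.lf (nat_lit 0) (nat_lit 61863912827) (nat_lit 76) (nat_lit 55648878992) (nat_lit 76) (nat_lit 53091938843) (nat_lit 2) (nat_lit 4) (nat_lit 3) (nat_lit 5) (nat_lit 3) (nat_lit 4) (nat_lit 368) (nat_lit 277) (nat_lit 255)) (XT.lf (nat_lit 0) (nat_lit 76522225373) (nat_lit 76) (nat_lit 55042524740) (nat_lit 76) (nat_lit 52442892998) (nat_lit 2) (nat_lit 4) (nat_lit 3) (nat_lit 5) (nat_lit 3) (nat_lit 4) (nat_lit 369) (nat_lit 277) (nat_lit 254)))) (XT.nd (nat_lit 78) (nat_lit 0) (nat_lit 0) (XT.lf (nat_lit 0) (nat_lit 92165069518) (nat_lit 76) (nat_lit 54480818191) (nat_lit 76) (nat_lit 51841657197) (nat_lit 2) (nat_lit 4) (nat_lit 3) (nat_lit 5) (nat_lit 3) (nat_lit 4) (nat_lit 370) (nat_lit 277) (nat_lit 253)) (XT.nd (nat_lit 78) (nat_lit 0) (nat_lit 0) (XT.lf (nat_lit 0)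 (nat_lit 108885143599) (nat_lit 76) (nat_lit 53960430715) (nat_lit 76) (nat_lit 51284668562) (nat_lit 2) (nat_lit 4) (nat_lit 3) (nat_lit 5) (nat_lit 3) (nat_lit 4) (nat_lit 371) (nat_lit 277) (nat_lit 252)) (XT.lf (nat_lit 0) (nat_lit 126781529534) (nat_lit 76) (nat_lit 53478278532) (nat_lit 76) (nat_lit 50768626417) (nat_lit 2) (nat_lit 4) (nat_lit 3) (nat_lit 5) (nat_lit 3) (nat_lit 4) (nat_lit 372) (nat_lit 277) (nat_lit 251))))) (XT.nd (nat_lit 234) (nat_lit 0) (nat_lit 0) (XT.nd (nat_lit 78) (nat_lit 0) (nat_lit 0) (XT.lf (nat_lit 0) (nat_lit 145960279982) (nat_lit 76) (nat_lit 53031504447) (nat_lit 76) (nat_lit 50290472736) (nat_lit 2) (nat_lit 4) (nat_lit 3) (nat_lit 5) (nat_lit 3) (nat_lit 4) (nat_lit 373) (nat_lit 277) (nat_lit 250)) (XT.nd (nat_lit 78) (nat_lit 0) (nat_lit 0) (XT.lf (nat_lit 0) (nat_lit 166535046798) (nat_lit 76) (nat_lit 52617460907) (nat_lit 76) (nat_lit 49847374016)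 (nat_lit 2) (nat_lit 4) (nat_lit 3) (nat_lit 5) (nat_lit 3) (nat_lit 4) (nat_lit 374) (nat_lit 277) (nat_lit 249)) (XT.lf (nat_lit 0) (nat_lit 188627754525) (nat_lit 76) (nat_lit 52233694322) (nat_lit 76) (nat_lit 49436704487) (nat_lit 2) (nat_lit 4) (nat_lit 3) (nat_lit 5) (nat_lit 3) (nat_lit 4) (nat_lit 375) (nat_lit 277) (nat_lit 248)))) (XT.nd (nat_lit 156) (nat_lit 0) (nat_lit 0) (XT.nd (nat_lit 78) (nat_lit 0) (nat_lit 0) (XT.lf (nat_lit 0) (nat_lit 212369322913) (nat_lit 76) (nat_lit 51877930520) (nat_lit 76) (nat_lit 49056030550) (nat_lit 2) (nat_lit 4) (nat_lit 3) (nat_lit 5) (nat_lit 3) (nat_lit 4) (nat_lit 376) (nat_lit 277) (nat_lit 247)) (XT.lf (nat_lit 0) (nat_lit 237900442737) (nat_lit 76) (nat_lit 51548061270) (nat_lit 76) (nat_lit 48703096362) (nat_lit 2) (nat_lit 4) (nat_lit 3) (nat_lit 5) (nat_lit 3) (nat_lit 4) (nat_lit 377) (nat_lit 277) (nat_lit 246))) (XT.nd (nat_lit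 78) (nat_lit 0) (nat_lit 0) (XT.lf (nat_lit 0) (nat_lit 265372409523) (nat_lit 76) (nat_lit 51242131792) (nat_lit 76) (nat_lit 48375810459) (nat_lit 2) (nat_lit 4) (nat_lit 3) (nat_lit 5) (nat_lit 3) (nat_lit 4) (nat_lit 378) (nat_lit 277) (nat_lit 245)) (XT.lf (nat_lit 0) (nat_lit 294948020111) (nat_lit 76) (nat_lit 50958329170) (nat_lit 76) (nat_lit 48072233369) (nat_lit 2) (nat_lit 4) (nat_lit 3) (nat_lit 5) (nat_lit 3) (nat_lit 4) (nat_lit 379) (nat_lit 277) (nat_lit 244))))))) (XT.nd (nat_lit 936) (nat_lit 0) (nat_lit 0) (XT.nd (nat_lit 468) (nat_lit 0) (nat_lit 0) (XT.nd (nat_lit 234) (nat_lit 0) (nat_lit 0) (XT.nd (nat_lit 78) (nat_lit 0) (nat_lit 0) (XT.lf (nat_lit 0) (nat_lit 326802537377) (nat_lit 76) (nat_lit 50694971611) (nat_lit 76) (nat_lit 47790566119) (nat_lit 2) (nat_lit 4) (nat_lit 3) (nat_lit 5) (nat_lit 3) (nat_lit 4) (nat_lit 380) (nat_lit 277) (nat_lit 243)) (XT.nd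 (nat_lit 78) (nat_lit 0) (nat_lit 0) (XT.lf (nat_lit 0) (nat_lit 361124728833) (nat_lit 76) (nat_lit 50450498478) (nat_lit 76) (nat_lit 47529139567) (nat_lit 2) (nat_lit 4) (nat_lit 3) (nat_lit 5) (nat_lit 3) (nat_lit 4) (nat_lit 381) (nat_lit 277) (nat_lit 242)) (XT.lf (nat_lit 0) (nat_lit 398117985241) (nat_lit 76) (nat_lit 50223461041) (nat_lit 76) (nat_lit 47286404520) (nat_lit 2) (nat_lit 4) (nat_lit 3) (nat_lit 5) (nat_lit 3) (nat_lit 4) (nat_lit 382) (nat_lit 277) (nat_lit 241)))) (XT.nd (nat_lit 78) (nat_lit 0) (nat_lit 0) (XT.lf (nat_lit 0) (nat_lit 438001525900) (nat_lit 76) (nat_lit 50012513893) (nat_lit 76) (nat_lit 47060922548) (nat_lit 2) (nat_lit 4) (nat_lit 3) (nat_lit 5) (nat_lit 3) (nat_lit 4) (nat_lit 383) (nat_lit 277) (nat_lit 240)) (XT.nd (nat_lit 78) (nat_lit 0) (nat_lit 0) (XT.lf (nat_lit 0) (nat_lit 481011697717) (nat_lit 76) (nat_lit 49816406977) (nat_lit 76) (nat_lit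 46851357462) (nat_lit 2) (nat_lit 4) (nat_lit 3) (nat_lit 5) (nat_lit 3) (nat_lit 4) (nat_lit 384) (nat_lit 277) (nat_lit 239)) (XT.lf (nat_lit 0) (nat_lit 527403375784) (nat_lit 76) (nat_lit 49633978178) (nat_lit 76) (nat_lit 46656467394) (nat_lit 2) (nat_lit 4) (nat_lit 3) (nat_lit 5) (nat_lit 3) (nat_lit 4) (nat_lit 385) (nat_lit 277) (nat_lit 238))))) (XT.nd (nat_lit 234) (nat_lit 0) (nat_lit 0) (XT.nd (nat_lit 78) (nat_lit 0) (nat_lit 0) (XT.lf (nat_lit 0) (nat_lit 577451473748) (nat_lit 76) (nat_lit 49464146435) (nat_lit 76) (nat_lit 46475097439) (nat_lit 2) (nat_lit 4) (nat_lit 3) (nat_lit 5) (nat_lit 3) (nat_lit 4) (nat_lit 386) (nat_lit 277) (nat_lit 237)) (XT.nd (nat_lit 78) (nat_lit 0) (nat_lit 0) (XT.lf (nat_lit 0) (nat_lit 631452572933) (nat_lit 76) (nat_lit 49305905340) (nat_lit 76) (nat_lit 46306172814) (nat_lit 2) (nat_lit 4) (nat_lit 3) (nat_lit 5) (nat_lit 3) (nat_lit 4)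 (nat_lit 387) (nat_lit 277) (nat_lit 236)) (XT.lf (nat_lit 0) (nat_lit 689726679850) (nat_lit 76) (nat_lit 49158317166) (nat_lit 76) (nat_lit 46148692484) (nat_lit 2) (nat_lit 4) (nat_lit 3) (nat_lit 5) (nat_lit 3) (nat_lit 4) (nat_lit 388) (nat_lit 277) (nat_lit 235)))) (XT.nd (nat_lit 78) (nat_lit 0) (nat_lit 0) (XT.lf (nat_lit 0) (nat_lit 752619122540) (nat_lit 76) (nat_lit 49020507318) (nat_lit 76) (nat_lit 46001723231) (nat_lit 2) (nat_lit 4) (nat_lit 3) (nat_lit 5) (nat_lit 3) (nat_lit 4) (nat_lit 389) (nat_lit 277) (nat_lit 234)) (XT.nd (nat_lit 78) (nat_lit 0) (nat_lit 0) (XT.lf (nat_lit 0) (nat_lit 820502596962) (nat_lit 76) (nat_lit 48891659144) (nat_lit 76) (nat_lit 45864394127) (nat_lit 2) (nat_lit 4) (nat_lit 3) (nat_lit 5) (nat_lit 3) (nat_lit 4) (nat_lit 390) (nat_lit 277) (nat_lit 233)) (XT.lf (nat_lit 0) (nat_lit 893779375555) (nat_lit 76) (nat_lit 48771009100) (nat_lit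 76) (nat_lit 45735891369) (nat_lit 2) (nat_lit 4) (nat_lit 3) (nat_lit 5) (nat_lit 3) (nat_lit 4) (nat_lit 391) (nat_lit 277) (nat_lit 232)))))) (XT.nd (nat_lit 43212) (nat_lit 0) (nat_lit 304) (XT.nd (nat_lit 234) (nat_lit 0) (nat_lit 0) (XT.nd (nat_lit 78) (nat_lit 0) (nat_lit 0) (XT.lf (nat_lit 0) (nat_lit 972883691082) (nat_lit 76) (nat_lit 48657842221) (nat_lit 76) (nat_lit 45615453461) (nat_lit 2) (nat_lit 4) (nat_lit 3) (nat_lit 5) (nat_lit 3) (nat_lit 4) (nat_lit 392) (nat_lit 277) (nat_lit 231)) (XT.nd (nat_lit 78) (nat_lit 0) (nat_lit 0) (XT.lf (nat_lit 0) (nat_lit 1058284309856) (nat_lit 76) (nat_lit 48551487891) (nat_lit 76) (nat_lit 45502366694) (nat_lit 2) (nat_lit 4) (nat_lit 3) (nat_lit 5) (nat_lit 3) (nat_lit 4) (nat_lit 393) (nat_lit 277) (nat_lit 230)) (XT.lf (nat_lit 0) (nat_lit 1150487309620) (nat_lit 76) (nat_lit 48451315861) (nat_lit 76) (nat_lit 45395960927) (nat_lit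 2) (nat_lit 4) (nat_lit 3) (nat_lit 5) (nat_lit 3) (nat_lit 4) (nat_lit 394) (nat_lit 277) (nat_lit 229)))) (XT.nd (nat_lit 78) (nat_lit 0) (nat_lit 0) (XT.lf (nat_lit 0) (nat_lit 1250039078519) (nat_lit 76) (nat_lit 48356732518) (nat_lit 76) (nat_lit 45295605606) (nat_lit 2) (nat_lit 4) (nat_lit 3) (nat_lit 5) (nat_lit 3) (nat_lit 4) (nat_lit 395) (nat_lit 277) (nat_lit 228)) (XT.nd (nat_lit 42822) (nat_lit 0) (nat_lit 532) (XT.lf (nat_lit 0) (nat_lit 1357529552961) (nat_lit 76) (nat_lit 48267177370) (nat_lit 76) (nat_lit 45200706033) (nat_lit 2) (nat_lit 4) (nat_lit 3) (nat_lit 5) (nat_lit 3) (nat_lit 4) (nat_lit 396) (nat_lit 277) (nat_lit 227)) (XT.lf (nat_lit 0) (nat_lit 114385823) (nat_lit 152) (nat_lit 15190786032) (nat_lit 0) (nat_lit 114385823) (nat_lit 9) (nat_lit 5) (nat_lit 11) (nat_lit 4) (nat_lit 9) (nat_lit 4) (nat_lit 344) (nat_lit 278) (nat_lit 278))))) (XT.nd (nat_lit 234)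 (nat_lit 152) (nat_lit 0) (XT.nd (nat_lit 78) (nat_lit 76) (nat_lit 0) (XT.lf (nat_lit 0) (nat_lit 9138043268) (nat_lit 152) (nat_lit 14846047994) (nat_lit 0) (nat_lit 8861688268) (nat_lit 9) (nat_lit 5) (nat_lit 11) (nat_lit 4) (nat_lit 9) (nat_lit 4) (nat_lit 345) (nat_lit 278) (nat_lit 277)) (XT.nd (nat_lit 78) (nat_lit 0) (nat_lit 0) (XT.lf (nat_lit 0) (nat_lit 1091263444) (nat_lit 76) (nat_lit 17237775973) (nat_lit 76) (nat_lit 16705536714) (nat_lit 8) (nat_lit 4) (nat_lit 9) (nat_lit 5) (nat_lit 9) (nat_lit 4) (nat_lit 346) (nat_lit 278) (nat_lit 276)) (XT.lf (nat_lit 0) (nat_lit 17995794683) (nat_lit 76) (nat_lit 10090181358) (nat_lit 76) (nat_lit 9321012229) (nat_lit 8) (nat_lit 4) (nat_lit 9) (nat_lit 5) (nat_lit 9) (nat_lit 4) (nat_lit 347) (nat_lit 278) (nat_lit 275)))) (XT.nd (nat_lit 156) (nat_lit 0) (nat_lit 0) (XT.nd (nat_lit 78) (nat_lit 152) (nat_lit 0) (XT.lf (nat_lit 0)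 (nat_lit 35476843329) (nat_lit 76) (nat_lit 2750376306) (nat_lit 76) (nat_lit 1761827668) (nat_lit 8) (nat_lit 4) (nat_lit 9) (nat_lit 5) (nat_lit 9) (nat_lit 4) (nat_lit 348) (nat_lit 278) (nat_lit 274)) (XT.lf (nat_lit 0) (nat_lit 6077307267) (nat_lit 152) (nat_lit 31759020537) (nat_lit 0) (nat_lit 4942376017) (nat_lit 6) (nat_lit 5) (nat_lit 8) (nat_lit 4) (nat_lit 6) (nat_lit 4) (nat_lit 349) (nat_lit 278) (nat_lit 273))) (XT.nd (nat_lit 78) (nat_lit 0) (nat_lit 0) (XT.lf (nat_lit 0) (nat_lit 14247350120) (nat_lit 152) (nat_lit 18621204764) (nat_lit 0) (nat_lit 12933292613) (nat_lit 6) (nat_lit 5) (nat_lit 8) (nat_lit 4) (nat_lit 6) (nat_lit 4) (nat_lit 350) (nat_lit 278) (nat_lit 272)) (XT.lf (nat_lit 0) (nat_lit 22736193806) (nat_lit 152) (nat_lit 5091141731) (nat_lit 0) (nat_lit 21256278654) (nat_lit 6) (nat_lit 5) (nat_lit 8) (nat_lit 4) (nat_lit 6) (nat_lit 4) (nat_lit 351) (nat_lit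 278) (nat_lit 271))))))))
noncomputable def xc14 : XT := (XT.nd (nat_lit 1950) (nat_lit 0) (nat_lit 0) (XT.nd (nat_lit 936) (nat_lit 76) (nat_lit 0) (XT.nd (nat_lit 468) (nat_lit 0) (nat_lit 0) (XT.nd (nat_lit 234) (nat_lit 152) (nat_lit 0) (XT.nd (nat_lit 78) (nat_lit 0) (nat_lit 0) (XT.lf (nat_lit 0) (nat_lit 9205996082) (nat_lit 76) (nat_lit 22531877902) (nat_lit 76) (nat_lit 20898390857) (nat_lit 5) (nat_lit 4) (nat_lit 6) (nat_lit 5) (nat_lit 6) (nat_lit 4) (nat_lit 352) (nat_lit 278) (nat_lit 270)) (XT.nd (nat_lit 78) (nat_lit 0) (nat_lit 0) (XT.lf (nat_lit 0) (nat_lit 24245237290) (nat_lit 76) (nat_lit 17006986817) (nat_lit 76) (nat_lit 15231303574) (nat_lit 5) (nat_lit 4) (nat_lit 6) (nat_lit 5) (nat_lit 6) (nat_lit 4) (nat_lit 353) (nat_lit 278) (nat_lit 269)) (XT.lf (nat_lit 0) (nat_lit 39947367185) (nat_lit 76) (nat_lit 11306143135) (nat_lit 76) (nat_lit 9398796746) (nat_lit 5)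 (nat_lit 4) (nat_lit 6) (nat_lit 5) (nat_lit 6) (nat_lit 4) (nat_lit 354) (nat_lit 278) (nat_lit 268)))) (XT.nd (nat_lit 78) (nat_lit 152) (nat_lit 0) (XT.lf (nat_lit 0) (nat_lit 56405435426) (nat_lit 76) (nat_lit 5395564079) (nat_lit 76) (nat_lit 3366307370) (nat_lit 5) (nat_lit 4) (nat_lit 6) (nat_lit 5) (nat_lit 6) (nat_lit 4) (nat_lit 355) (nat_lit 278) (nat_lit 267)) (XT.nd (nat_lit 78) (nat_lit 0) (nat_lit 0) (XT.lf (nat_lit 0) (nat_lit 2880923227) (nat_lit 152) (nat_lit 66327706491) (nat_lit 0) (nat_lit 840793097) (nat_lit 3) (nat_lit 5) (nat_lit 5) (nat_lit 4) (nat_lit 3) (nat_lit 4) (nat_lit 356) (nat_lit 278) (nat_lit 266)) (XT.lf (nat_lit 0) (nat_lit 9525904711) (nat_lit 152) (nat_lit 58406434122) (nat_lit 0) (nat_lit 7386233200) (nat_lit 3) (nat_lit 5) (nat_lit 5) (nat_lit 4) (nat_lit 3) (nat_lit 4) (nat_lit 357) (nat_lit 278) (nat_lit 265))))) (XT.nd (nat_lit 234) (nat_lit 0)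 (nat_lit 0) (XT.nd (nat_lit 78) (nat_lit 0) (nat_lit 0) (XT.lf (nat_lit 0) (nat_lit 16487880494) (nat_lit 152) (nat_lit 50276079313) (nat_lit 0) (nat_lit 14256041037) (nat_lit 3) (nat_lit 5) (nat_lit 5) (nat_lit 4) (nat_lit 3) (nat_lit 4) (nat_lit 358) (nat_lit 278) (nat_lit 264)) (XT.nd (nat_lit 78) (nat_lit 0) (nat_lit 0) (XT.lf (nat_lit 0) (nat_lit 23808106729) (nat_lit 152) (nat_lit 41888462183) (nat_lit 0) (nat_lit 21490926583) (nat_lit 3) (nat_lit 5) (nat_lit 5) (nat_lit 4) (nat_lit 3) (nat_lit 4) (nat_lit 359) (nat_lit 278) (nat_lit 263)) (XT.lf (nat_lit 0) (nat_lit 31529962536) (nat_lit 152) (nat_lit 33193878335) (nat_lit 0) (nat_lit 29133763231) (nat_lit 3) (nat_lit 5) (nat_lit 5) (nat_lit 4) (nat_lit 3) (nat_lit 4) (nat_lit 360) (nat_lit 278) (nat_lit 262)))) (XT.nd (nat_lit 78) (nat_lit 0) (nat_lit 0) (XT.lf (nat_lit 0) (nat_lit 39699207058) (nat_lit 152) (nat_lit 24140804308)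 (nat_lit 0) (nat_lit 37229841867) (nat_lit 3) (nat_lit 5) (nat_lit 5) (nat_lit 4) (nat_lit 3) (nat_lit 4) (nat_lit 361) (nat_lit 278) (nat_lit 261)) (XT.nd (nat_lit 78) (nat_lit 0) (nat_lit 0) (XT.lf (nat_lit 0) (nat_lit 48364250635) (nat_lit 152) (nat_lit 14675592257) (nat_lit 0) (nat_lit 45827139253) (nat_lit 3) (nat_lit 5) (nat_lit 5) (nat_lit 4) (nat_lit 3) (nat_lit 4) (nat_lit 362) (nat_lit 278) (nat_lit 260)) (XT.lf (nat_lit 0) (nat_lit 57576441673) (nat_lit 152) (nat_lit 4742152036) (nat_lit 0) (nat_lit 54976602335) (nat_lit 3) (nat_lit 5) (nat_lit 5) (nat_lit 4) (nat_lit 3) (nat_lit 4) (nat_lit 363) (nat_lit 278) (nat_lit 259)))))) (XT.nd (nat_lit 468) (nat_lit 0) (nat_lit 0) (XT.nd (nat_lit 234) (nat_lit 0) (nat_lit 0) (XT.nd (nat_lit 78) (nat_lit 0) (nat_lit 0) (XT.lf (nat_lit 0) (nat_lit 5907456692) (nat_lit 76) (nat_lit 61575146195) (nat_lit 76) (nat_lit 58917225417) (nat_lit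 2) (nat_lit 4) (nat_lit 3) (nat_lit 5) (nat_lit 3) (nat_lit 4) (nat_lit 364) (nat_lit 278) (nat_lit 258)) (XT.nd (nat_lit 78) (nat_lit 0) (nat_lit 0) (XT.lf (nat_lit 0) (nat_lit 17322421419) (nat_lit 76) (nat_lit 60812225157) (nat_lit 76) (nat_lit 58100525269) (nat_lit 2) (nat_lit 4) (nat_lit 3) (nat_lit 5) (nat_lit 3) (nat_lit 4) (nat_lit 365) (nat_lit 278) (nat_lit 257)) (XT.lf (nat_lit 0) (nat_lit 29413589417) (nat_lit 76) (nat_lit 60105620223) (nat_lit 76) (nat_lit 57344124862) (nat_lit 2) (nat_lit 4) (nat_lit 3) (nat_lit 5) (nat_lit 3) (nat_lit 4) (nat_lit 366) (nat_lit 278) (nat_lit 256)))) (XT.nd (nat_lit 78) (nat_lit 0) (nat_lit 0) (XT.lf (nat_lit 0) (nat_lit 42252612052) (nat_lit 76) (nat_lit 59451144104) (nat_lit 76) (nat_lit 56643541823) (nat_lit 2) (nat_lit 4) (nat_lit 3) (nat_lit 5) (nat_lit 3) (nat_lit 4) (nat_lit 367) (nat_lit 278) (nat_lit 255)) (XT.nd (nat_lit 78) (nat_lit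 0) (nat_lit 0) (XT.lf (nat_lit 0) (nat_lit 55915572421) (nat_lit 76) (nat_lit 58844918422) (nat_lit 76) (nat_lit 55994624549) (nat_lit 2) (nat_lit 4) (nat_lit 3) (nat_lit 5) (nat_lit 3) (nat_lit 4) (nat_lit 368) (nat_lit 278) (nat_lit 254)) (XT.lf (nat_lit 0) (nat_lit 70483436215) (nat_lit 76) (nat_lit 58283350729) (nat_lit 76) (nat_lit 55393527604) (nat_lit 2) (nat_lit 4) (nat_lit 3) (nat_lit 5) (nat_lit 3) (nat_lit 4) (nat_lit 369) (nat_lit 278) (nat_lit 253))))) (XT.nd (nat_lit 234) (nat_lit 0) (nat_lit 0) (XT.nd (nat_lit 78) (nat_lit 0) (nat_lit 0) (XT.lf (nat_lit 0) (nat_lit 86042531516) (nat_lit 76) (nat_lit 57763113217) (nat_lit 76) (nat_lit 54836688932) (nat_lit 2) (nat_lit 4) (nat_lit 3) (nat_lit 5) (nat_lit 3) (nat_lit 4) (nat_lit 370) (nat_lit 278) (nat_lit 252)) (XT.nd (nat_lit 78) (nat_lit 0) (nat_lit 0) (XT.lf (nat_lit 0) (nat_lit 102685060370) (nat_lit 76) (nat_lit 57281122996)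 (nat_lit 76) (nat_lit 54320808749) (nat_lit 2) (nat_lit 4) (nat_lit 3) (nat_lit 5) (nat_lit 3) (nat_lit 4) (nat_lit 371) (nat_lit 278) (nat_lit 251)) (XT.lf (nat_lit 0) (nat_lit 120509645169) (nat_lit 76) (nat_lit 56834523829) (nat_lit 76) (nat_lit 53842829987) (nat_lit 2) (nat_lit 4) (nat_lit 3) (nat_lit 5) (nat_lit 3) (nat_lit 4) (nat_lit 372) (nat_lit 278) (nat_lit 250)))) (XT.nd (nat_lit 156) (nat_lit 0) (nat_lit 0) (XT.nd (nat_lit 78) (nat_lit 0) (nat_lit 0) (XT.lf (nat_lit 0) (nat_lit 139621913085) (nat_lit 76) (nat_lit 56420669201) (nat_lit 76) (nat_lit 53399920179) (nat_lit 2) (nat_lit 4) (nat_lit 3) (nat_lit 5) (nat_lit 3) (nat_lit 4) (nat_lit 373) (nat_lit 278) (nat_lit 249)) (XT.lf (nat_lit 0) (nat_lit 160135122000) (nat_lit 76) (nat_lit 56037106641) (nat_lit 76) (nat_lit 52989454675) (nat_lit 2) (nat_lit 4) (nat_lit 3) (nat_lit 5) (nat_lit 3) (nat_lit 4) (nat_lit 374) (nat_lit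 278) (nat_lit 248))) (XT.nd (nat_lit 78) (nat_lit 0) (nat_lit 0) (XT.lf (nat_lit 0) (nat_lit 182170831670) (nat_lit 76) (nat_lit 55681563186) (nat_lit 76) (nat_lit 52609001085) (nat_lit 2) (nat_lit 4) (nat_lit 3) (nat_lit 5) (nat_lit 3) (nat_lit 4) (nat_lit 375) (nat_lit 278) (nat_lit 247)) (XT.lf (nat_lit 0) (nat_lit 205859624080) (nat_lit 76) (nat_lit 55351931911) (nat_lit 76) (nat_lit 52256304871) (nat_lit 2) (nat_lit 4) (nat_lit 3) (nat_lit 5) (nat_lit 3) (nat_lit 4) (nat_lit 376) (nat_lit 278) (nat_lit 246))))))) (XT.nd (nat_lit 936) (nat_lit 0) (nat_lit 0) (XT.nd (nat_lit 468) (nat_lit 0) (nat_lit 0) (XT.nd (nat_lit 234) (nat_lit 0) (nat_lit 0) (XT.nd (nat_lit 78) (nat_lit 0) (nat_lit 0) (XT.lf (nat_lit 0) (nat_lit 231341877258) (nat_lit 76) (nat_lit 55046259446) (nat_lit 76) (nat_lit 51929275981) (nat_lit 2) (nat_lit 4) (nat_lit 3) (nat_lit 5) (nat_lit 3) (nat_lit 4) (nat_lit 377)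 (nat_lit 278) (nat_lit 245)) (XT.nd (nat_lit 78) (nat_lit 0) (nat_lit 0) (XT.lf (nat_lit 0) (nat_lit 258768597149) (nat_lit 76) (nat_lit 54762734398) (nat_lit 76) (nat_lit 51625976466) (nat_lit 2) (nat_lit 4) (nat_lit 3) (nat_lit 5) (nat_lit 3) (nat_lit 4) (nat_lit 378) (nat_lit 278) (nat_lit 244)) (XT.lf (nat_lit 0) (nat_lit 288302312463) (nat_lit 76) (nat_lit 54499676619) (nat_lit 76) (nat_lit 51344608994) (nat_lit 2) (nat_lit 4) (nat_lit 3) (nat_lit 5) (nat_lit 3) (nat_lit 4) (nat_lit 379) (nat_lit 278) (nat_lit 243)))) (XT.nd (nat_lit 78) (nat_lit 0) (nat_lit 0) (XT.lf (nat_lit 0) (nat_lit 320118037810) (nat_lit 76) (nat_lit 54255527248) (nat_lit 76) (nat_lit 51083506205) (nat_lit 2) (nat_lit 4) (nat_lit 3) (nat_lit 5) (nat_lit 3) (nat_lit 4) (nat_lit 380) (nat_lit 278) (nat_lit 242)) (XT.nd (nat_lit 78) (nat_lit 0) (nat_lit 0) (XT.lf (nat_lit 0) (nat_lit 354404310822) (nat_lit 76) (nat_lit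 54028839474) (nat_lit 76) (nat_lit 50841120821) (nat_lit 2) (nat_lit 4) (nat_lit 3) (nat_lit 5) (nat_lit 3) (nat_lit 4) (nat_lit 381) (nat_lit 278) (nat_lit 241)) (XT.lf (nat_lit 0) (nat_lit 391364309412) (nat_lit 76) (nat_lit 53818269962) (nat_lit 76) (nat_lit 50616016485) (nat_lit 2) (nat_lit 4) (nat_lit 3) (nat_lit 5) (nat_lit 3) (nat_lit 4) (nat_lit 382) (nat_lit 278) (nat_lit 240))))) (XT.nd (nat_lit 234) (nat_lit 0) (nat_lit 0) (XT.nd (nat_lit 78) (nat_lit 0) (nat_lit 0) (XT.lf (nat_lit 0) (nat_lit 431217055795) (nat_lit 76) (nat_lit 53622570892) (nat_lit 76) (nat_lit 50406859245) (nat_lit 2) (nat_lit 4) (nat_lit 3) (nat_lit 5) (nat_lit 3) (nat_lit 4) (nat_lit 383) (nat_lit 278) (nat_lit 239)) (XT.nd (nat_lit 78) (nat_lit 0) (nat_lit 0) (XT.lf (nat_lit 0) (nat_lit 474198714392) (nat_lit 76) (nat_lit 53440582567) (nat_lit 76) (nat_lit 50212409652) (nat_lit 2) (nat_lit 4) (nat_lit 3)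 (nat_lit 5) (nat_lit 3) (nat_lit 4) (nat_lit 384) (nat_lit 278) (nat_lit 238)) (XT.lf (nat_lit 0) (nat_lit 520563991331) (nat_lit 76) (nat_lit 53271226538) (nat_lit 76) (nat_lit 50031515410) (nat_lit 2) (nat_lit 4) (nat_lit 3) (nat_lit 5) (nat_lit 3) (nat_lit 4) (nat_lit 385) (nat_lit 278) (nat_lit 237)))) (XT.nd (nat_lit 78) (nat_lit 0) (nat_lit 0) (XT.lf (nat_lit 0) (nat_lit 570587643806) (nat_lit 76) (nat_lit 53113499212) (nat_lit 76) (nat_lit 49863104555) (nat_lit 2) (nat_lit 4) (nat_lit 3) (nat_lit 5) (nat_lit 3) (nat_lit 4) (nat_lit 386) (nat_lit 278) (nat_lit 236)) (XT.nd (nat_lit 78) (nat_lit 0) (nat_lit 0) (XT.lf (nat_lit 0) (nat_lit 624566108278) (nat_lit 76) (nat_lit 52966465910) (nat_lit 76) (nat_lit 49706179096) (nat_lit 2) (nat_lit 4) (nat_lit 3) (nat_lit 5) (nat_lit 3) (nat_lit 4) (nat_lit 387) (nat_lit 278) (nat_lit 235)) (XT.lf (nat_lit 0) (nat_lit 682819257128) (nat_lit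 76) (nat_lit 52829255322) (nat_lit 76) (nat_lit 49559809104) (nat_lit 2) (nat_lit 4) (nat_lit 3) (nat_lit 5) (nat_lit 3) (nat_lit 4) (nat_lit 388) (nat_lit 278) (nat_lit 234)))))) (XT.nd (nat_lit 468) (nat_lit 0) (nat_lit 0) (XT.nd (nat_lit 234) (nat_lit 0) (nat_lit 0) (XT.nd (nat_lit 78) (nat_lit 0) (nat_lit 0) (XT.lf (nat_lit 0) (nat_lit 745692294201) (nat_lit 76) (nat_lit 52701054350) (nat_lit 76) (nat_lit 49423127201) (nat_lit 2) (nat_lit 4) (nat_lit 3) (nat_lit 5) (nat_lit 3) (nat_lit 4) (nat_lit 389) (nat_lit 278) (nat_lit 233)) (XT.nd (nat_lit 78) (nat_lit 0) (nat_lit 0) (XT.lf (nat_lit 0) (nat_lit 813557800458) (nat_lit 76) (nat_lit 52581103283) (nat_lit 76) (nat_lit 49295323421) (nat_lit 2) (nat_lit 4) (nat_lit 3) (nat_lit 5) (nat_lit 3) (nat_lit 4) (nat_lit 390) (nat_lit 278) (nat_lit 232)) (XT.lf (nat_lit 0) (nat_lit 886817941862) (nat_lit 76) (nat_lit 52468691301) (nat_lit 76)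 (nat_lit 49175640409) (nat_lit 2) (nat_lit 4) (nat_lit 3) (nat_lit 5) (nat_lit 3) (nat_lit 4) (nat_lit 391) (nat_lit 278) (nat_lit 231)))) (XT.nd (nat_lit 78) (nat_lit 0) (nat_lit 0) (XT.lf (nat_lit 0) (nat_lit 965906852584) (nat_lit 76) (nat_lit 52363152259) (nat_lit 76) (nat_lit 49063368930) (nat_lit 2) (nat_lit 4) (nat_lit 3) (nat_lit 5) (nat_lit 3) (nat_lit 4) (nat_lit 392) (nat_lit 278) (nat_lit 230)) (XT.nd (nat_lit 78) (nat_lit 0) (nat_lit 0) (XT.lf (nat_lit 0) (nat_lit 1051293207650) (nat_lit 76) (nat_lit 52263860739) (nat_lit 76) (nat_lit 48957843674) (nat_lit 2) (nat_lit 4) (nat_lit 3) (nat_lit 5) (nat_lit 3) (nat_lit 4) (nat_lit 393) (nat_lit 278) (nat_lit 229)) (XT.lf (nat_lit 0) (nat_lit 1143483000276) (nat_lit 76) (nat_lit 52170228348) (nat_lit 76) (nat_lit 48858439305) (nat_lit 2) (nat_lit 4) (nat_lit 3) (nat_lit 5) (nat_lit 3) (nat_lit 4) (nat_lit 394) (nat_lit 278) (nat_lit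 228))))) (XT.nd (nat_lit 42822) (nat_lit 0) (nat_lit 532) (XT.nd (nat_lit 78) (nat_lit 0) (nat_lit 0) (XT.lf (nat_lit 0) (nat_lit 1243022540344) (nat_lit 76) (nat_lit 52081700228) (nat_lit 76) (nat_lit 48764566760) (nat_lit 2) (nat_lit 4) (nat_lit 3) (nat_lit 5) (nat_lit 3) (nat_lit 4) (nat_lit 395) (nat_lit 278) (nat_lit 227)) (XT.nd (nat_lit 42666) (nat_lit 0) (nat_lit 760) (XT.lf (nat_lit 0) (nat_lit 1350501691796) (nat_lit 76) (nat_lit 51997751766) (nat_lit 76) (nat_lit 48675669757) (nat_lit 2) (nat_lit 4) (nat_lit 3) (nat_lit 5) (nat_lit 3) (nat_lit 4) (nat_lit 396) (nat_lit 278) (nat_lit 226)) (XT.lf (nat_lit 0) (nat_lit 5576585867) (nat_lit 152) (nat_lit 2476720319) (nat_lit 0) (nat_lit 5576585867) (nat_lit 12) (nat_lit 5) (nat_lit 14) (nat_lit 4) (nat_lit 12) (nat_lit 4) (nat_lit 342) (nat_lit 279) (nat_lit 279)))) (XT.nd (nat_lit 156) (nat_lit 0) (nat_lit 0) (XT.nd (nat_lit 78)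 (nat_lit 152) (nat_lit 0) (XT.lf (nat_lit 0) (nat_lit 12606959211) (nat_lit 76) (nat_lit 8341886892) (nat_lit 76) (nat_lit 8028500322) (nat_lit 11) (nat_lit 4) (nat_lit 12) (nat_lit 5) (nat_lit 12) (nat_lit 4) (nat_lit 343) (nat_lit 279) (nat_lit 278)) (XT.lf (nat_lit 0) (nat_lit 9618149) (nat_lit 76) (nat_lit 289492811) (nat_lit 152) (nat_lit 30551435751) (nat_lit 9) (nat_lit 5) (nat_lit 10) (nat_lit 5) (nat_lit 11) (nat_lit 4) (nat_lit 344) (nat_lit 279) (nat_lit 277))) (XT.nd (nat_lit 78) (nat_lit 0) (nat_lit 0) (XT.lf (nat_lit 0) (nat_lit 8988451787) (nat_lit 152) (nat_lit 15722029796) (nat_lit 0) (nat_lit 8157749127) (nat_lit 9) (nat_lit 5) (nat_lit 11) (nat_lit 4) (nat_lit 9) (nat_lit 4) (nat_lit 345) (nat_lit 279) (nat_lit 276)) (XT.lf (nat_lit 0) (nat_lit 17962955626) (nat_lit 152) (nat_lit 209594766) (nat_lit 0) (nat_lit 16895323097) (nat_lit 9) (nat_lit 5) (nat_lit 11) (nat_lit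 4) (nat_lit 9) (nat_lit 4) (nat_lit 346) (nat_lit 279) (nat_lit 275))))))))
noncomputable def xc15 : XT := (XT.nd (nat_lit 1950) (nat_lit 0) (nat_lit 0) (XT.nd (nat_lit 936) (nat_lit 76) (nat_lit 0) (XT.nd (nat_lit 468) (nat_lit 152) (nat_lit 0) (XT.nd (nat_lit 234) (nat_lit 76) (nat_lit 0) (XT.nd (nat_lit 78) (nat_lit 152) (nat_lit 0) (XT.lf (nat_lit 0) (nat_lit 16315003875) (nat_lit 76) (nat_lit 11211003987) (nat_lit 76) (nat_lit 9923991949) (nat_lit 8) (nat_lit 4) (nat_lit 9) (nat_lit 5) (nat_lit 9) (nat_lit 4) (nat_lit 347) (nat_lit 279) (nat_lit 274)) (XT.nd (nat_lit 78) (nat_lit 152) (nat_lit 0) (XT.lf (nat_lit 0) (nat_lit 33450679883) (nat_lit 76) (nat_lit 4040179140) (nat_lit 76) (nat_lit 2550037927) (nat_lit 8) (nat_lit 4) (nat_lit 9) (nat_lit 5) (nat_lit 9) (nat_lit 4) (nat_lit 348) (nat_lit 279) (nat_lit 273)) (XT.lf (nat_lit 0) (nat_lit 5086281625) (nat_lit 152) (nat_lit 34268332343)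 (nat_lit 0) (nat_lit 3487973261) (nat_lit 6) (nat_lit 5) (nat_lit 8) (nat_lit 4) (nat_lit 6) (nat_lit 4) (nat_lit 349) (nat_lit 279) (nat_lit 272)))) (XT.nd (nat_lit 78) (nat_lit 76) (nat_lit 0) (XT.lf (nat_lit 0) (nat_lit 13095361692) (nat_lit 152) (nat_lit 21447236763) (nat_lit 0) (nat_lit 11331195683) (nat_lit 6) (nat_lit 5) (nat_lit 8) (nat_lit 4) (nat_lit 6) (nat_lit 4) (nat_lit 350) (nat_lit 279) (nat_lit 271)) (XT.nd (nat_lit 78) (nat_lit 76) (nat_lit 0) (XT.lf (nat_lit 0) (nat_lit 21435165762) (nat_lit 152) (nat_lit 8210433167) (nat_lit 0) (nat_lit 19517427859) (nat_lit 6) (nat_lit 5) (nat_lit 8) (nat_lit 4) (nat_lit 6) (nat_lit 4) (nat_lit 351) (nat_lit 279) (nat_lit 270)) (XT.lf (nat_lit 0) (nat_lit 5703052043) (nat_lit 76) (nat_lit 24541103478) (nat_lit 76) (nat_lit 22481169378) (nat_lit 5) (nat_lit 4) (nat_lit 6) (nat_lit 5) (nat_lit 6) (nat_lit 4) (nat_lit 352) (nat_lit 279)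 (nat_lit 269))))) (XT.nd (nat_lit 234) (nat_lit 152) (nat_lit 0) (XT.nd (nat_lit 78) (nat_lit 0) (nat_lit 0) (XT.lf (nat_lit 0) (nat_lit 20482557382) (nat_lit 76) (nat_lit 19144115609) (nat_lit 76) (nat_lit 16952518363) (nat_lit 5) (nat_lit 4) (nat_lit 6) (nat_lit 5) (nat_lit 6) (nat_lit 4) (nat_lit 353) (nat_lit 279) (nat_lit 268)) (XT.nd (nat_lit 78) (nat_lit 0) (nat_lit 0) (XT.lf (nat_lit 0) (nat_lit 35944191101) (nat_lit 76) (nat_lit 13561700832) (nat_lit 76) (nat_lit 11248193265) (nat_lit 5) (nat_lit 4) (nat_lit 6) (nat_lit 5) (nat_lit 6) (nat_lit 4) (nat_lit 354) (nat_lit 279) (nat_lit 267)) (XT.lf (nat_lit 0) (nat_lit 52179577696) (nat_lit 76) (nat_lit 7760778169) (nat_lit 76) (nat_lit 5334390676) (nat_lit 5) (nat_lit 4) (nat_lit 6) (nat_lit 5) (nat_lit 6) (nat_lit 4) (nat_lit 355) (nat_lit 279) (nat_lit 266)))) (XT.nd (nat_lit 78) (nat_lit 76) (nat_lit 0) (XT.lf (nat_lit 0) (nat_lit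 797563121) (nat_lit 152) (nat_lit 895901543) (nat_lit 76) (nat_lit 68473856628) (nat_lit 4) (nat_lit 5) (nat_lit 6) (nat_lit 5) (nat_lit 5) (nat_lit 4) (nat_lit 356) (nat_lit 279) (nat_lit 265)) (XT.nd (nat_lit 78) (nat_lit 0) (nat_lit 0) (XT.lf (nat_lit 0) (nat_lit 7298242860) (nat_lit 152) (nat_lit 63349762824) (nat_lit 0) (nat_lit 4795688301) (nat_lit 3) (nat_lit 5) (nat_lit 5) (nat_lit 4) (nat_lit 3) (nat_lit 4) (nat_lit 357) (nat_lit 279) (nat_lit 264)) (XT.lf (nat_lit 0) (nat_lit 14164686138) (nat_lit 152) (nat_lit 55408430161) (nat_lit 0) (nat_lit 11576790889) (nat_lit 3) (nat_lit 5) (nat_lit 5) (nat_lit 4) (nat_lit 3) (nat_lit 4) (nat_lit 358) (nat_lit 279) (nat_lit 263)))))) (XT.nd (nat_lit 468) (nat_lit 76) (nat_lit 0) (XT.nd (nat_lit 234) (nat_lit 0) (nat_lit 0) (XT.nd (nat_lit 78) (nat_lit 0) (nat_lit 0) (XT.lf (nat_lit 0) (nat_lit 21396456350) (nat_lit 152) (nat_lit 47195833536)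 (nat_lit 0) (nat_lit 18729541944) (nat_lit 3) (nat_lit 5) (nat_lit 5) (nat_lit 4) (nat_lit 3) (nat_lit 4) (nat_lit 359) (nat_lit 279) (nat_lit 262)) (XT.nd (nat_lit 78) (nat_lit 0) (nat_lit 0) (XT.lf (nat_lit 0) (nat_lit 29036408432) (nat_lit 152) (nat_lit 38663305712) (nat_lit 0) (nat_lit 26296328139) (nat_lit 3) (nat_lit 5) (nat_lit 5) (nat_lit 4) (nat_lit 3) (nat_lit 4) (nat_lit 360) (nat_lit 279) (nat_lit 261)) (XT.lf (nat_lit 0) (nat_lit 37129816172) (nat_lit 152) (nat_lit 29760283559) (nat_lit 0) (nat_lit 34321989687) (nat_lit 3) (nat_lit 5) (nat_lit 5) (nat_lit 4) (nat_lit 3) (nat_lit 4) (nat_lit 361) (nat_lit 279) (nat_lit 260)))) (XT.nd (nat_lit 78) (nat_lit 0) (nat_lit 0) (XT.lf (nat_lit 0) (nat_lit 45724640506) (nat_lit 152) (nat_lit 20434008428) (nat_lit 0) (nat_lit 42854086066) (nat_lit 3) (nat_lit 5) (nat_lit 5) (nat_lit 4) (nat_lit 3) (nat_lit 4) (nat_lit 362) (nat_lit 279)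 (nat_lit 259)) (XT.nd (nat_lit 78) (nat_lit 0) (nat_lit 0) (XT.lf (nat_lit 0) (nat_lit 54871813726) (nat_lit 152) (nat_lit 10629213503) (nat_lit 0) (nat_lit 51943177846) (nat_lit 3) (nat_lit 5) (nat_lit 5) (nat_lit 4) (nat_lit 3) (nat_lit 4) (nat_lit 363) (nat_lit 279) (nat_lit 258)) (XT.lf (nat_lit 0) (nat_lit 64625541303) (nat_lit 152) (nat_lit 287796297) (nat_lit 0) (nat_lit 61643126312) (nat_lit 3) (nat_lit 5) (nat_lit 5) (nat_lit 4) (nat_lit 3) (nat_lit 4) (nat_lit 364) (nat_lit 279) (nat_lit 257))))) (XT.nd (nat_lit 234) (nat_lit 0) (nat_lit 0) (XT.nd (nat_lit 78) (nat_lit 0) (nat_lit 0) (XT.lf (nat_lit 0) (nat_lit 11003713206) (nat_lit 76) (nat_lit 64211708699) (nat_lit 76) (nat_lit 61179498235) (nat_lit 2) (nat_lit 4) (nat_lit 3) (nat_lit 5) (nat_lit 3) (nat_lit 4) (nat_lit 365) (nat_lit 279) (nat_lit 256)) (XT.nd (nat_lit 78) (nat_lit 0) (nat_lit 0) (XT.lf (nat_lit 0) (nat_lit 22989381779)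 (nat_lit 76) (nat_lit 63557342807) (nat_lit 76) (nat_lit 60479025424) (nat_lit 2) (nat_lit 4) (nat_lit 3) (nat_lit 5) (nat_lit 3) (nat_lit 4) (nat_lit 366) (nat_lit 279) (nat_lit 255)) (XT.lf (nat_lit 0) (nat_lit 35730719762) (nat_lit 76) (nat_lit 62951236172) (nat_lit 76) (nat_lit 59830227197) (nat_lit 2) (nat_lit 4) (nat_lit 3) (nat_lit 5) (nat_lit 3) (nat_lit 4) (nat_lit 367) (nat_lit 279) (nat_lit 254)))) (XT.nd (nat_lit 156) (nat_lit 0) (nat_lit 0) (XT.nd (nat_lit 78) (nat_lit 0) (nat_lit 0) (XT.lf (nat_lit 0) (nat_lit 49303231378) (nat_lit 76) (nat_lit 62389797050) (nat_lit 76) (nat_lit 59229258822) (nat_lit 2) (nat_lit 4) (nat_lit 3) (nat_lit 5) (nat_lit 3) (nat_lit 4) (nat_lit 368) (nat_lit 279) (nat_lit 253)) (XT.lf (nat_lit 0) (nat_lit 63787346328) (nat_lit 76) (nat_lit 61869698394) (nat_lit 76) (nat_lit 58672559007) (nat_lit 2) (nat_lit 4) (nat_lit 3) (nat_lit 5) (nat_lit 3) (nat_lit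 4) (nat_lit 369) (nat_lit 279) (nat_lit 252))) (XT.nd (nat_lit 78) (nat_lit 0) (nat_lit 0) (XT.lf (nat_lit 0) (nat_lit 79268896402) (nat_lit 76) (nat_lit 61387858137) (nat_lit 76) (nat_lit 58156828788) (nat_lit 2) (nat_lit 4) (nat_lit 3) (nat_lit 5) (nat_lit 3) (nat_lit 4) (nat_lit 370) (nat_lit 279) (nat_lit 251)) (XT.lf (nat_lit 0) (nat_lit 95839624120) (nat_lit 76) (nat_lit 60941420932) (nat_lit 76) (nat_lit 57679011988) (nat_lit 2) (nat_lit 4) (nat_lit 3) (nat_lit 5) (nat_lit 3) (nat_lit 4) (nat_lit 371) (nat_lit 279) (nat_lit 250))))))) (XT.nd (nat_lit 936) (nat_lit 0) (nat_lit 0) (XT.nd (nat_lit 468) (nat_lit 0) (nat_lit 0) (XT.nd (nat_lit 234) (nat_lit 0) (nat_lit 0) (XT.nd (nat_lit 78) (nat_lit 0) (nat_lit 0) (XT.lf (nat_lit 0) (nat_lit 113597726387) (nat_lit 76) (nat_lit 60527741222) (nat_lit 76) (nat_lit 57236277098) (nat_lit 2) (nat_lit 4) (nat_lit 3) (nat_lit 5) (nat_lit 3) (nat_lit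 4) (nat_lit 372) (nat_lit 279) (nat_lit 249)) (XT.nd (nat_lit 78) (nat_lit 0) (nat_lit 0) (XT.lf (nat_lit 0) (nat_lit 132648436402) (nat_lit 76) (nat_lit 60144367575) (nat_lit 76) (nat_lit 56826000506) (nat_lit 2) (nat_lit 4) (nat_lit 3) (nat_lit 5) (nat_lit 3) (nat_lit 4) (nat_lit 373) (nat_lit 279) (nat_lit 248)) (XT.lf (nat_lit 0) (nat_lit 153104647260) (nat_lit 76) (nat_lit 59789028144) (nat_lit 76) (nat_lit 56445750941) (nat_lit 2) (nat_lit 4) (nat_lit 3) (nat_lit 5) (nat_lit 3) (nat_lit 4) (nat_lit 374) (nat_lit 279) (nat_lit 247)))) (XT.nd (nat_lit 78) (nat_lit 0) (nat_lit 0) (XT.lf (nat_lit 0) (nat_lit 175087580952) (nat_lit 76) (nat_lit 59459617216) (nat_lit 76) (nat_lit 56093275074) (nat_lit 2) (nat_lit 4) (nat_lit 3) (nat_lit 5) (nat_lit 3) (nat_lit 4) (nat_lit 375) (nat_lit 279) (nat_lit 246)) (XT.nd (nat_lit 78) (nat_lit 0) (nat_lit 0) (XT.lf (nat_lit 0) (nat_lit 198727506716)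 (nat_lit 76) (nat_lit 59154182725) (nat_lit 76) (nat_lit 55766484159) (nat_lit 2) (nat_lit 4) (nat_lit 3) (nat_lit 5) (nat_lit 3) (nat_lit 4) (nat_lit 376) (nat_lit 279) (nat_lit 245)) (XT.lf (nat_lit 0) (nat_lit 224164512999) (nat_lit 76) (nat_lit 58870914690) (nat_lit 76) (nat_lit 55463441656) (nat_lit 2) (nat_lit 4) (nat_lit 3) (nat_lit 5) (nat_lit 3) (nat_lit 4) (nat_lit 377) (nat_lit 279) (nat_lit 244))))) (XT.nd (nat_lit 234) (nat_lit 0) (nat_lit 0) (XT.nd (nat_lit 78) (nat_lit 0) (nat_lit 0) (XT.lf (nat_lit 0) (nat_lit 251549337617) (nat_lit 76) (nat_lit 58608134485) (nat_lit 76) (nat_lit 55182351759) (nat_lit 2) (nat_lit 4) (nat_lit 3) (nat_lit 5) (nat_lit 3) (nat_lit 4) (nat_lit 378) (nat_lit 279) (nat_lit 243)) (XT.nd (nat_lit 78) (nat_lit 0) (nat_lit 0) (XT.lf (nat_lit 0) (nat_lit 281044261012) (nat_lit 76) (nat_lit 58364284894) (nat_lit 76) (nat_lit 54921548749) (nat_lit 2) (nat_lit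 4) (nat_lit 3) (nat_lit 5) (nat_lit 3) (nat_lit 4) (nat_lit 379) (nat_lit 279) (nat_lit 242)) (XT.lf (nat_lit 0) (nat_lit 312824067915) (nat_lit 76) (nat_lit 58137920882) (nat_lit 76) (nat_lit 54679487127) (nat_lit 2) (nat_lit 4) (nat_lit 3) (nat_lit 5) (nat_lit 3) (nat_lit 4) (nat_lit 380) (nat_lit 279) (nat_lit 241)))) (XT.nd (nat_lit 78) (nat_lit 0) (nat_lit 0) (XT.lf (nat_lit 0) (nat_lit 347077083108) (nat_lit 76) (nat_lit 57927701032) (nat_lit 76) (nat_lit 54454732454) (nat_lit 2) (nat_lit 4) (nat_lit 3) (nat_lit 5) (nat_lit 3) (nat_lit 4) (nat_lit 381) (nat_lit 279) (nat_lit 240)) (XT.nd (nat_lit 78) (nat_lit 0) (nat_lit 0) (XT.lf (nat_lit 0) (nat_lit 384006287422) (nat_lit 76) (nat_lit 57732379599) (nat_lit 76) (nat_lit 54245952850) (nat_lit 2) (nat_lit 4) (nat_lit 3) (nat_lit 5) (nat_lit 3) (nat_lit 4) (nat_lit 382) (nat_lit 279) (nat_lit 239)) (XT.lf (nat_lit 0) (nat_lit 423830520585)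 (nat_lit 76) (nat_lit 57550799121) (nat_lit 76) (nat_lit 54051911103) (nat_lit 2) (nat_lit 4) (nat_lit 3) (nat_lit 5) (nat_lit 3) (nat_lit 4) (nat_lit 383) (nat_lit 279) (nat_lit 238)))))) (XT.nd (nat_lit 468) (nat_lit 0) (nat_lit 0) (XT.nd (nat_lit 234) (nat_lit 0) (nat_lit 0) (XT.nd (nat_lit 78) (nat_lit 0) (nat_lit 0) (XT.lf (nat_lit 0) (nat_lit 466785778055) (nat_lit 76) (nat_lit 57381883566) (nat_lit 76) (nat_lit 53871457337) (nat_lit 2) (nat_lit 4) (nat_lit 3) (nat_lit 5) (nat_lit 3) (nat_lit 4) (nat_lit 384) (nat_lit 279) (nat_lit 237)) (XT.nd (nat_lit 78) (nat_lit 0) (nat_lit 0) (XT.lf (nat_lit 0) (nat_lit 513126609504) (nat_lit 76) (nat_lit 57224631953) (nat_lit 76) (nat_lit 53703522194) (nat_lit 2) (nat_lit 4) (nat_lit 3) (nat_lit 5) (nat_lit 3) (nat_lit 4) (nat_lit 385) (nat_lit 279) (nat_lit 236)) (XT.lf (nat_lit 0) (nat_lit 563127627267) (nat_lit 76) (nat_lit 57078112420) (nat_lit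 76) (nat_lit 53547110504) (nat_lit 2) (nat_lit 4) (nat_lit 3) (nat_lit 5) (nat_lit 3) (nat_lit 4) (nat_lit 386) (nat_lit 279) (nat_lit 235)))) (XT.nd (nat_lit 78) (nat_lit 0) (nat_lit 0) (XT.lf (nat_lit 0) (nat_lit 617085133671) (nat_lit 76) (nat_lit 56941456704) (nat_lit 76) (nat_lit 53401295383) (nat_lit 2) (nat_lit 4) (nat_lit 3) (nat_lit 5) (nat_lit 3) (nat_lit 4) (nat_lit 387) (nat_lit 279) (nat_lit 234)) (XT.nd (nat_lit 78) (nat_lit 0) (nat_lit 0) (XT.lf (nat_lit 0) (nat_lit 675318876904) (nat_lit 76) (nat_lit 56813854992) (nat_lit 76) (nat_lit 53265212742) (nat_lit 2) (nat_lit 4) (nat_lit 3) (nat_lit 5) (nat_lit 3) (nat_lit 4) (nat_lit 388) (nat_lit 279) (nat_lit 233)) (XT.lf (nat_lit 0) (nat_lit 738173945813) (nat_lit 76) (nat_lit 56694551128) (nat_lit 76) (nat_lit 53138056164) (nat_lit 2) (nat_lit 4) (nat_lit 3) (nat_lit 5) (nat_lit 3) (nat_lit 4) (nat_lit 389) (nat_lit 279) (nat_lit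 232))))) (XT.nd (nat_lit 234) (nat_lit 0) (nat_lit 0) (XT.nd (nat_lit 78) (nat_lit 0) (nat_lit 0) (XT.lf (nat_lit 0) (nat_lit 806022814880) (nat_lit 76) (nat_lit 56582838123) (nat_lit 76) (nat_lit 53019072129) (nat_lit 2) (nat_lit 4) (nat_lit 3) (nat_lit 5) (nat_lit 3) (nat_lit 4) (nat_lit 390) (nat_lit 279) (nat_lit 231)) (XT.nd (nat_lit 78) (nat_lit 0) (nat_lit 0) (XT.lf (nat_lit 0) (nat_lit 879267551479) (nat_lit 76) (nat_lit 56478053977) (nat_lit 76) (nat_lit 52907555547) (nat_lit 2) (nat_lit 4) (nat_lit 3) (nat_lit 5) (nat_lit 3) (nat_lit 4) (nat_lit 391) (nat_lit 279) (nat_lit 230)) (XT.lf (nat_lit 0) (nat_lit 958342198493) (nat_lit 76) (nat_lit 56379577745) (nat_lit 76) (nat_lit 52802845578) (nat_lit 2) (nat_lit 4) (nat_lit 3) (nat_lit 5) (nat_lit 3) (nat_lit 4) (nat_lit 392) (nat_lit 279) (nat_lit 229)))) (XT.nd (nat_lit 156) (nat_lit 0) (nat_lit 0) (XT.nd (nat_lit 78) (nat_lit 0)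 (nat_lit 0) (XT.lf (nat_lit 0) (nat_lit 1043715346422) (nat_lit 76) (nat_lit 56286825865) (nat_lit 76) (nat_lit 52704321720) (nat_lit 2) (nat_lit 4) (nat_lit 3) (nat_lit 5) (nat_lit 3) (nat_lit 4) (nat_lit 393) (nat_lit 279) (nat_lit 228)) (XT.lf (nat_lit 0) (nat_lit 1135892910217) (nat_lit 76) (nat_lit 56199248696) (nat_lit 76) (nat_lit 52611400126) (nat_lit 2) (nat_lit 4) (nat_lit 3) (nat_lit 5) (nat_lit 3) (nat_lit 4) (nat_lit 394) (nat_lit 279) (nat_lit 227))) (XT.nd (nat_lit 78) (nat_lit 0) (nat_lit 0) (XT.lf (nat_lit 0) (nat_lit 1235421127294) (nat_lit 76) (nat_lit 56116327263) (nat_lit 76) (nat_lit 52523530151) (nat_lit 2) (nat_lit 4) (nat_lit 3) (nat_lit 5) (nat_lit 3) (nat_lit 4) (nat_lit 395) (nat_lit 279) (nat_lit 226)) (XT.lf (nat_lit 0) (nat_lit 1342889794493) (nat_lit 76) (nat_lit 56037570178) (nat_lit 76) (nat_lit 52440191084) (nat_lit 2) (nat_lit 4) (nat_lit 3) (nat_lit 5)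 (nat_lit 3) (nat_lit 4) (nat_lit 396) (nat_lit 279) (nat_lit 225))))))))
noncomputable def xc16 : XT := (XT.nd (nat_lit 1872) (nat_lit 76) (nat_lit 0) (XT.nd (nat_lit 936) (nat_lit 228) (nat_lit 0) (XT.nd (nat_lit 468) (nat_lit 228) (nat_lit 0) (XT.nd (nat_lit 234) (nat_lit 228) (nat_lit 0) (XT.nd (nat_lit 78) (nat_lit 152) (nat_lit 0) (XT.lf (nat_lit 0) (nat_lit 5510280033) (nat_lit 76) (nat_lit 3297936661) (nat_lit 76) (nat_lit 3297936661) (nat_lit 14) (nat_lit 4) (nat_lit 15) (nat_lit 5) (nat_lit 15) (nat_lit 4) (nat_lit 340) (nat_lit 280) (nat_lit 280)) (XT.nd (nat_lit 78) (nat_lit 0) (nat_lit 0) (XT.lf (nat_lit 0) (nat_lit 2162795332) (nat_lit 152) (nat_lit 21695308640) (nat_lit 0) (nat_lit 1824337836) (nat_lit 12) (nat_lit 5) (nat_lit 14) (nat_lit 4) (nat_lit 12) (nat_lit 4) (nat_lit 341) (nat_lit 280) (nat_lit 279)) (XT.lf (nat_lit 0) (nat_lit 11262640670) (nat_lit 152) (nat_lit 5397824782)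 (nat_lit 0) (nat_lit 10610796604) (nat_lit 12) (nat_lit 5) (nat_lit 14) (nat_lit 4) (nat_lit 12) (nat_lit 4) (nat_lit 342) (nat_lit 280) (nat_lit 278)))) (XT.nd (nat_lit 78) (nat_lit 152) (nat_lit 0) (XT.lf (nat_lit 0) (nat_lit 11722809970) (nat_lit 76) (nat_lit 9109674574) (nat_lit 76) (nat_lit 8167657758) (nat_lit 11) (nat_lit 4) (nat_lit 12) (nat_lit 5) (nat_lit 12) (nat_lit 4) (nat_lit 343) (nat_lit 280) (nat_lit 277)) (XT.nd (nat_lit 78) (nat_lit 152) (nat_lit 0) (XT.lf (nat_lit 0) (nat_lit 29587193381) (nat_lit 76) (nat_lit 1253620420) (nat_lit 76) (nat_lit 42925132) (nat_lit 11) (nat_lit 4) (nat_lit 12) (nat_lit 5) (nat_lit 12) (nat_lit 4) (nat_lit 344) (nat_lit 280) (nat_lit 276)) (XT.lf (nat_lit 0) (nat_lit 8412027356) (nat_lit 152) (nat_lit 17479184402) (nat_lit 0) (nat_lit 7022054355) (nat_lit 9) (nat_lit 5) (nat_lit 11) (nat_lit 4) (nat_lit 9) (nat_lit 4) (nat_lit 345) (nat_lit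 280) (nat_lit 275))))) (XT.nd (nat_lit 234) (nat_lit 152) (nat_lit 0) (XT.nd (nat_lit 78) (nat_lit 76) (nat_lit 0) (XT.lf (nat_lit 0) (nat_lit 17201850982) (nat_lit 152) (nat_lit 2327813413) (nat_lit 0) (nat_lit 15592498472) (nat_lit 9) (nat_lit 5) (nat_lit 11) (nat_lit 4) (nat_lit 9) (nat_lit 4) (nat_lit 346) (nat_lit 280) (nat_lit 274)) (XT.nd (nat_lit 78) (nat_lit 0) (nat_lit 0) (XT.lf (nat_lit 0) (nat_lit 13781374715) (nat_lit 76) (nat_lit 12772971253) (nat_lit 76) (nat_lit 10960489568) (nat_lit 8) (nat_lit 4) (nat_lit 9) (nat_lit 5) (nat_lit 9) (nat_lit 4) (nat_lit 347) (nat_lit 280) (nat_lit 273)) (XT.lf (nat_lit 0) (nat_lit 30597261245) (nat_lit 76) (nat_lit 5758609559) (nat_lit 76) (nat_lit 3758045305) (nat_lit 8) (nat_lit 4) (nat_lit 9) (nat_lit 5) (nat_lit 9) (nat_lit 4) (nat_lit 348) (nat_lit 280) (nat_lit 272)))) (XT.nd (nat_lit 78) (nat_lit 0) (nat_lit 0) (XT.lf (nat_lit 0)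 (nat_lit 3681171338) (nat_lit 152) (nat_lit 37637167095) (nat_lit 0) (nat_lit 1610014403) (nat_lit 6) (nat_lit 5) (nat_lit 8) (nat_lit 4) (nat_lit 6) (nat_lit 4) (nat_lit 349) (nat_lit 280) (nat_lit 271)) (XT.nd (nat_lit 78) (nat_lit 0) (nat_lit 0) (XT.lf (nat_lit 0) (nat_lit 11541211788) (nat_lit 152) (nat_lit 25109330952) (nat_lit 0) (nat_lit 9316482960) (nat_lit 6) (nat_lit 5) (nat_lit 8) (nat_lit 4) (nat_lit 6) (nat_lit 4) (nat_lit 350) (nat_lit 280) (nat_lit 270)) (XT.lf (nat_lit 0) (nat_lit 19743016213) (nat_lit 152) (nat_lit 12144063873) (nat_lit 0) (nat_lit 17376091187) (nat_lit 6) (nat_lit 5) (nat_lit 8) (nat_lit 4) (nat_lit 6) (nat_lit 4) (nat_lit 351) (nat_lit 280) (nat_lit 269)))))) (XT.nd (nat_lit 468) (nat_lit 0) (nat_lit 0) (XT.nd (nat_lit 234) (nat_lit 152) (nat_lit 0) (XT.nd (nat_lit 78) (nat_lit 0) (nat_lit 0) (XT.lf (nat_lit 0) (nat_lit 1379621872) (nat_lit 76) (nat_lit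 26977105790) (nat_lit 76) (nat_lit 24478517618) (nat_lit 5) (nat_lit 4) (nat_lit 6) (nat_lit 5) (nat_lit 6) (nat_lit 4) (nat_lit 352) (nat_lit 280) (nat_lit 268)) (XT.nd (nat_lit 78) (nat_lit 0) (nat_lit 0) (XT.lf (nat_lit 0) (nat_lit 15918631034) (nat_lit 76) (nat_lit 21698546826) (nat_lit 76) (nat_lit 19078048333) (nat_lit 5) (nat_lit 4) (nat_lit 6) (nat_lit 5) (nat_lit 6) (nat_lit 4) (nat_lit 353) (nat_lit 280) (nat_lit 267)) (XT.lf (nat_lit 0) (nat_lit 31157583108) (nat_lit 76) (nat_lit 16225788441) (nat_lit 76) (nat_lit 13492410022) (nat_lit 5) (nat_lit 4) (nat_lit 6) (nat_lit 5) (nat_lit 6) (nat_lit 4) (nat_lit 354) (nat_lit 280) (nat_lit 266)))) (XT.nd (nat_lit 78) (nat_lit 152) (nat_lit 0) (XT.lf (nat_lit 0) (nat_lit 47186782996) (nat_lit 76) (nat_lit 10526399475) (nat_lit 76) (nat_lit 7688502606) (nat_lit 5) (nat_lit 4) (nat_lit 6) (nat_lit 5) (nat_lit 6) (nat_lit 4) (nat_lit 355)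 (nat_lit 280) (nat_lit 265)) (XT.nd (nat_lit 78) (nat_lit 152) (nat_lit 0) (XT.lf (nat_lit 0) (nat_lit 64101218549) (nat_lit 76) (nat_lit 4566605771) (nat_lit 76) (nat_lit 1631932559) (nat_lit 5) (nat_lit 4) (nat_lit 6) (nat_lit 5) (nat_lit 6) (nat_lit 4) (nat_lit 356) (nat_lit 280) (nat_lit 264)) (XT.lf (nat_lit 0) (nat_lit 4693660450) (nat_lit 152) (nat_lit 69081723885) (nat_lit 0) (nat_lit 1813392892) (nat_lit 3) (nat_lit 5) (nat_lit 5) (nat_lit 4) (nat_lit 3) (nat_lit 4) (nat_lit 357) (nat_lit 280) (nat_lit 263))))) (XT.nd (nat_lit 234) (nat_lit 0) (nat_lit 0) (XT.nd (nat_lit 78) (nat_lit 0) (nat_lit 0) (XT.lf (nat_lit 0) (nat_lit 11471647706) (nat_lit 152) (nat_lit 61315411728) (nat_lit 0) (nat_lit 8512360989) (nat_lit 3) (nat_lit 5) (nat_lit 5) (nat_lit 4) (nat_lit 3) (nat_lit 4) (nat_lit 358) (nat_lit 280) (nat_lit 262)) (XT.nd (nat_lit 78) (nat_lit 0) (nat_lit 0) (XT.lf (nat_lit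 0) (nat_lit 18621514193) (nat_lit 152) (nat_lit 53264871127) (nat_lit 0) (nat_lit 15589061590) (nat_lit 3) (nat_lit 5) (nat_lit 5) (nat_lit 4) (nat_lit 3) (nat_lit 4) (nat_lit 359) (nat_lit 280) (nat_lit 261)) (XT.lf (nat_lit 0) (nat_lit 26185629492) (nat_lit 152) (nat_lit 44882395177) (nat_lit 0) (nat_lit 23085430697) (nat_lit 3) (nat_lit 5) (nat_lit 5) (nat_lit 4) (nat_lit 3) (nat_lit 4) (nat_lit 360) (nat_lit 280) (nat_lit 260)))) (XT.nd (nat_lit 78) (nat_lit 0) (nat_lit 0) (XT.lf (nat_lit 0) (nat_lit 34208817989) (nat_lit 152) (nat_lit 36118309944) (nat_lit 0) (nat_lit 31045891239) (nat_lit 3) (nat_lit 5) (nat_lit 5) (nat_lit 4) (nat_lit 3) (nat_lit 4) (nat_lit 361) (nat_lit 280) (nat_lit 259)) (XT.nd (nat_lit 78) (nat_lit 0) (nat_lit 0) (XT.lf (nat_lit 0) (nat_lit 42738624505) (nat_lit 152) (nat_lit 26920680110) (nat_lit 0) (nat_lit 39517616315) (nat_lit 3) (nat_lit 5) (nat_lit 5) (nat_lit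 4) (nat_lit 3) (nat_lit 4) (nat_lit 362) (nat_lit 280) (nat_lit 258)) (XT.lf (nat_lit 0) (nat_lit 51825596042) (nat_lit 152) (nat_lit 17235001200) (nat_lit 0) (nat_lit 48550808741) (nat_lit 3) (nat_lit 5) (nat_lit 5) (nat_lit 4) (nat_lit 3) (nat_lit 4) (nat_lit 363) (nat_lit 280) (nat_lit 257))))))) (XT.nd (nat_lit 936) (nat_lit 0) (nat_lit 0) (XT.nd (nat_lit 468) (nat_lit 0) (nat_lit 0) (XT.nd (nat_lit 234) (nat_lit 0) (nat_lit 0) (XT.nd (nat_lit 78) (nat_lit 76) (nat_lit 0) (XT.lf (nat_lit 0) (nat_lit 61523581320) (nat_lit 152) (nat_lit 7003876601) (nat_lit 0) (nat_lit 58198998546) (nat_lit 3) (nat_lit 5) (nat_lit 5) (nat_lit 4) (nat_lit 3) (nat_lit 4) (nat_lit 364) (nat_lit 280) (nat_lit 256)) (XT.nd (nat_lit 78) (nat_lit 0) (nat_lit 0) (XT.lf (nat_lit 0) (nat_lit 3960069532) (nat_lit 76) (nat_lit 67991808132) (nat_lit 76) (nat_lit 64621118439) (nat_lit 2) (nat_lit 4) (nat_lit 3) (nat_lit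 5) (nat_lit 3) (nat_lit 4) (nat_lit 365) (nat_lit 280) (nat_lit 255)) (XT.lf (nat_lit 0) (nat_lit 15848053453) (nat_lit 76) (nat_lit 67385811725) (nat_lit 76) (nat_lit 63972430440) (nat_lit 2) (nat_lit 4) (nat_lit 3) (nat_lit 5) (nat_lit 3) (nat_lit 4) (nat_lit 366) (nat_lit 280) (nat_lit 254)))) (XT.nd (nat_lit 78) (nat_lit 0) (nat_lit 0) (XT.lf (nat_lit 0) (nat_lit 28498942683) (nat_lit 76) (nat_lit 66824491650) (nat_lit 76) (nat_lit 63371581112) (nat_lit 2) (nat_lit 4) (nat_lit 3) (nat_lit 5) (nat_lit 3) (nat_lit 4) (nat_lit 367) (nat_lit 280) (nat_lit 253)) (XT.nd (nat_lit 78) (nat_lit 0) (nat_lit 0) (XT.lf (nat_lit 0) (nat_lit 41987705455) (nat_lit 76) (nat_lit 66304521564) (nat_lit 76) (nat_lit 62815009867) (nat_lit 2) (nat_lit 4) (nat_lit 3) (nat_lit 5) (nat_lit 3) (nat_lit 4) (nat_lit 368) (nat_lit 280) (nat_lit 252)) (XT.lf (nat_lit 0) (nat_lit 56394275178) (nat_lit 76) (nat_lit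 65822820164) (nat_lit 76) (nat_lit 62299418504) (nat_lit 2) (nat_lit 4) (nat_lit 3) (nat_lit 5) (nat_lit 3) (nat_lit 4) (nat_lit 369) (nat_lit 280) (nat_lit 251))))) (XT.nd (nat_lit 234) (nat_lit 0) (nat_lit 0) (XT.nd (nat_lit 78) (nat_lit 0) (nat_lit 0) (XT.lf (nat_lit 0) (nat_lit 71804024117) (nat_lit 76) (nat_lit 65376532922) (nat_lit 76) (nat_lit 61821751668) (nat_lit 2) (nat_lit 4) (nat_lit 3) (nat_lit 5) (nat_lit 3) (nat_lit 4) (nat_lit 370) (nat_lit 280) (nat_lit 250)) (XT.nd (nat_lit 78) (nat_lit 0) (nat_lit 0) (XT.lf (nat_lit 0) (nat_lit 88308269302) (nat_lit 76) (nat_lit 64963015175) (nat_lit 76) (nat_lit 61379178740) (nat_lit 2) (nat_lit 4) (nat_lit 3) (nat_lit 5) (nat_lit 3) (nat_lit 4) (nat_lit 371) (nat_lit 280) (nat_lit 249)) (XT.lf (nat_lit 0) (nat_lit 106004813668) (nat_lit 76) (nat_lit 64579816445) (nat_lit 76) (nat_lit 60969077066) (nat_lit 2) (nat_lit 4) (nat_lit 3) (nat_lit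 5) (nat_lit 3) (nat_lit 4) (nat_lit 372) (nat_lit 280) (nat_lit 248)))) (XT.nd (nat_lit 78) (nat_lit 0) (nat_lit 0) (XT.lf (nat_lit 0) (nat_lit 124998525626) (nat_lit 76) (nat_lit 64224665927) (nat_lit 76) (nat_lit 60589016414) (nat_lit 2) (nat_lit 4) (nat_lit 3) (nat_lit 5) (nat_lit 3) (nat_lit 4) (nat_lit 373) (nat_lit 280) (nat_lit 247)) (XT.nd (nat_lit 78) (nat_lit 0) (nat_lit 0) (XT.lf (nat_lit 0) (nat_lit 145401960507) (nat_lit 76) (nat_lit 63895459024) (nat_lit 76) (nat_lit 60236744572) (nat_lit 2) (nat_lit 4) (nat_lit 3) (nat_lit 5) (nat_lit 3) (nat_lit 4) (nat_lit 374) (nat_lit 280) (nat_lit 246)) (XT.lf (nat_lit 0) (nat_lit 167336027553) (nat_lit 76) (nat_lit 63590244880) (nat_lit 76) (nat_lit 59910174003) (nat_lit 2) (nat_lit 4) (nat_lit 3) (nat_lit 5) (nat_lit 3) (nat_lit 4) (nat_lit 375) (nat_lit 280) (nat_lit 245)))))) (XT.nd (nat_lit 468) (nat_lit 0) (nat_lit 0) (XT.nd (nat_lit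 234) (nat_lit 0) (nat_lit 0) (XT.nd (nat_lit 78) (nat_lit 0) (nat_lit 0) (XT.lf (nat_lit 0) (nat_lit 190930706421) (nat_lit 76) (nat_lit 63307214820) (nat_lit 76) (nat_lit 59607369475) (nat_lit 2) (nat_lit 4) (nat_lit 3) (nat_lit 5) (nat_lit 3) (nat_lit 4) (nat_lit 376) (nat_lit 280) (nat_lit 244)) (XT.nd (nat_lit 78) (nat_lit 0) (nat_lit 0) (XT.lf (nat_lit 0) (nat_lit 216325817431) (nat_lit 76) (nat_lit 63044691627) (nat_lit 76) (nat_lit 59326536591) (nat_lit 2) (nat_lit 4) (nat_lit 3) (nat_lit 5) (nat_lit 3) (nat_lit 4) (nat_lit 377) (nat_lit 280) (nat_lit 243)) (XT.lf (nat_lit 0) (nat_lit 243671850130) (nat_lit 76) (nat_lit 62801119609) (nat_lit 76) (nat_lit 59066011154) (nat_lit 2) (nat_lit 4) (nat_lit 3) (nat_lit 5) (nat_lit 3) (nat_lit 4) (nat_lit 378) (nat_lit 280) (nat_lit 242)))) (XT.nd (nat_lit 78) (nat_lit 0) (nat_lit 0) (XT.lf (nat_lit 0) (nat_lit 273130855081) (nat_lit 76) (nat_lit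 62575055377) (nat_lit 76) (nat_lit 58824249312) (nat_lit 2) (nat_lit 4) (nat_lit 3) (nat_lit 5) (nat_lit 3) (nat_lit 4) (nat_lit 379) (nat_lit 280) (nat_lit 241)) (XT.nd (nat_lit 78) (nat_lit 0) (nat_lit 0) (XT.lf (nat_lit 0) (nat_lit 304877404166) (nat_lit 76) (nat_lit 62365159290) (nat_lit 76) (nat_lit 58599818401) (nat_lit 2) (nat_lit 4) (nat_lit 3) (nat_lit 5) (nat_lit 3) (nat_lit 4) (nat_lit 380) (nat_lit 280) (nat_lit 240)) (XT.lf (nat_lit 0) (nat_lit 339099625082) (nat_lit 76) (nat_lit 62170187520) (nat_lit 76) (nat_lit 58391388461) (nat_lit 2) (nat_lit 4) (nat_lit 3) (nat_lit 5) (nat_lit 3) (nat_lit 4) (nat_lit 381) (nat_lit 280) (nat_lit 239))))) (XT.nd (nat_lit 234) (nat_lit 0) (nat_lit 0) (XT.nd (nat_lit 78) (nat_lit 0) (nat_lit 0) (XT.lf (nat_lit 0) (nat_lit 376000316177) (nat_lit 76) (nat_lit 61988984678) (nat_lit 76) (nat_lit 58197724350) (nat_lit 2) (nat_lit 4) (nat_lit 3)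 (nat_lit 5) (nat_lit 3) (nat_lit 4) (nat_lit 382) (nat_lit 280) (nat_lit 238)) (XT.nd (nat_lit 78) (nat_lit 0) (nat_lit 0) (XT.lf (nat_lit 0) (nat_lit 415798148212) (nat_lit 76) (nat_lit 61820476970) (nat_lit 76) (nat_lit 58017678430) (nat_lit 2) (nat_lit 4) (nat_lit 3) (nat_lit 5) (nat_lit 3) (nat_lit 4) (nat_lit 383) (nat_lit 280) (nat_lit 237)) (XT.lf (nat_lit 0) (nat_lit 458728960192) (nat_lit 76) (nat_lit 61663665831) (nat_lit 76) (nat_lit 57850183762) (nat_lit 2) (nat_lit 4) (nat_lit 3) (nat_lit 5) (nat_lit 3) (nat_lit 4) (nat_lit 384) (nat_lit 280) (nat_lit 236)))) (XT.nd (nat_lit 156) (nat_lit 0) (nat_lit 0) (XT.nd (nat_lit 78) (nat_lit 0) (nat_lit 0) (XT.lf (nat_lit 0) (nat_lit 505047156929) (nat_lit 76) (nat_lit 61517622011) (nat_lit 76) (nat_lit 57694247784) (nat_lit 2) (nat_lit 4) (nat_lit 3) (nat_lit 5) (nat_lit 3) (nat_lit 4) (nat_lit 385) (nat_lit 280) (nat_lit 235)) (XT.lf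 (nat_lit 0) (nat_lit 555027216625) (nat_lit 76) (nat_lit 61381480064) (nat_lit 76) (nat_lit 57548946433) (nat_lit 2) (nat_lit 4) (nat_lit 3) (nat_lit 5) (nat_lit 3) (nat_lit 4) (nat_lit 386) (nat_lit 280) (nat_lit 234))) (XT.nd (nat_lit 78) (nat_lit 0) (nat_lit 0) (XT.lf (nat_lit 0) (nat_lit 608965317412) (nat_lit 76) (nat_lit 61254433224) (nat_lit 76) (nat_lit 57413418663) (nat_lit 2) (nat_lit 4) (nat_lit 3) (nat_lit 5) (nat_lit 3) (nat_lit 4) (nat_lit 387) (nat_lit 280) (nat_lit 233)) (XT.lf (nat_lit 0) (nat_lit 667181092480) (nat_lit 76) (nat_lit 61135728620) (nat_lit 76) (nat_lit 57286861346) (nat_lit 2) (nat_lit 4) (nat_lit 3) (nat_lit 5) (nat_lit 3) (nat_lit 4) (nat_lit 388) (nat_lit 280) (nat_lit 232))))))))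
noncomputable def xc17 : XT := (XT.nd (nat_lit 44226) (nat_lit 0) (nat_lit 0) (XT.nd (nat_lit 43212) (nat_lit 0) (nat_lit 228) (XT.nd (nat_lit 468) (nat_lit 0) (nat_lit 0) (XT.nd (nat_lit 234) (nat_lit 0) (nat_lit 0) (XT.nd (nat_lit 78) (nat_lit 0) (nat_lit 0) (XT.lf (nat_lit 0) (nat_lit 730019524199) (nat_lit 76) (nat_lit 61024662817) (nat_lit 76) (nat_lit 57168524513) (nat_lit 2) (nat_lit 4) (nat_lit 3) (nat_lit 5) (nat_lit 3) (nat_lit 4) (nat_lit 389) (nat_lit 280) (nat_lit 231)) (XT.nd (nat_lit 78) (nat_lit 0) (nat_lit 0) (XT.lf (nat_lit 0) (nat_lit 797852988462) (nat_lit 76) (nat_lit 60920577649) (nat_lit 76) (nat_lit 57057706908) (nat_lit 2) (nat_lit 4) (nat_lit 3) (nat_lit 5) (nat_lit 3) (nat_lit 4) (nat_lit 390) (nat_lit 280) (nat_lit 230)) (XT.lf (nat_lit 0) (nat_lit 871083461352) (nat_lit 76) (nat_lit 60822856313) (nat_lit 76) (nat_lit 56953751836) (nat_lit 2) (nat_lit 4) (nat_lit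 3) (nat_lit 5) (nat_lit 3) (nat_lit 4) (nat_lit 391) (nat_lit 280) (nat_lit 229)))) (XT.nd (nat_lit 78) (nat_lit 0) (nat_lit 0) (XT.lf (nat_lit 0) (nat_lit 950144901229) (nat_lit 76) (nat_lit 60730919721) (nat_lit 76) (nat_lit 56856043265) (nat_lit 2) (nat_lit 4) (nat_lit 3) (nat_lit 5) (nat_lit 3) (nat_lit 4) (nat_lit 392) (nat_lit 280) (nat_lit 228)) (XT.nd (nat_lit 78) (nat_lit 0) (nat_lit 0) (XT.lf (nat_lit 0) (nat_lit 1035505820327) (nat_lit 76) (nat_lit 60644223063) (nat_lit 76) (nat_lit 56764002182) (nat_lit 2) (nat_lit 4) (nat_lit 3) (nat_lit 5) (nat_lit 3) (nat_lit 4) (nat_lit 393) (nat_lit 280) (nat_lit 227)) (XT.lf (nat_lit 0) (nat_lit 1127672061131) (nat_lit 76) (nat_lit 60562252581) (nat_lit 76) (nat_lit 56677083159) (nat_lit 2) (nat_lit 4) (nat_lit 3) (nat_lit 5) (nat_lit 3) (nat_lit 4) (nat_lit 394) (nat_lit 280) (nat_lit 226))))) (XT.nd (nat_lit 42510) (nat_lit 0) (nat_lit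 760) (XT.nd (nat_lit 78) (nat_lit 0) (nat_lit 0) (XT.lf (nat_lit 0) (nat_lit 1227189793956) (nat_lit 76) (nat_lit 60484522524) (nat_lit 76) (nat_lit 56594771119) (nat_lit 2) (nat_lit 4) (nat_lit 3) (nat_lit 5) (nat_lit 3) (nat_lit 4) (nat_lit 395) (nat_lit 280) (nat_lit 225)) (XT.nd (nat_lit 42354) (nat_lit 0) (nat_lit 1140) (XT.lf (nat_lit 0) (nat_lit 1334648753516) (nat_lit 76) (nat_lit 60410572269) (nat_lit 76) (nat_lit 56516578288) (nat_lit 2) (nat_lit 4) (nat_lit 3) (nat_lit 5) (nat_lit 3) (nat_lit 4) (nat_lit 396) (nat_lit 280) (nat_lit 224)) (XT.lf (nat_lit 0) (nat_lit 9895206171) (nat_lit 76) (nat_lit 455531856) (nat_lit 76) (nat_lit 455531856) (nat_lit 17) (nat_lit 4) (nat_lit 18) (nat_lit 5) (nat_lit 18) (nat_lit 4) (nat_lit 338) (nat_lit 281) (nat_lit 281)))) (XT.nd (nat_lit 78) (nat_lit 228) (nat_lit 0) (XT.lf (nat_lit 0) (nat_lit 8207548951) (nat_lit 152) (nat_lit 6830918258)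 (nat_lit 0) (nat_lit 7823738151) (nat_lit 15) (nat_lit 5) (nat_lit 17) (nat_lit 4) (nat_lit 15) (nat_lit 4) (nat_lit 339) (nat_lit 281) (nat_lit 280)) (XT.nd (nat_lit 78) (nat_lit 152) (nat_lit 0) (XT.lf (nat_lit 0) (nat_lit 10572222363) (nat_lit 76) (nat_lit 7195467781) (nat_lit 76) (nat_lit 6456276610) (nat_lit 14) (nat_lit 4) (nat_lit 15) (nat_lit 5) (nat_lit 15) (nat_lit 4) (nat_lit 340) (nat_lit 281) (nat_lit 279)) (XT.lf (nat_lit 0) (nat_lit 2052033220) (nat_lit 152) (nat_lit 22619627659) (nat_lit 0) (nat_lit 1034655059) (nat_lit 12) (nat_lit 5) (nat_lit 14) (nat_lit 4) (nat_lit 12) (nat_lit 4) (nat_lit 341) (nat_lit 281) (nat_lit 278)))))) (XT.nd (nat_lit 468) (nat_lit 228) (nat_lit 0) (XT.nd (nat_lit 234) (nat_lit 228) (nat_lit 0) (XT.nd (nat_lit 78) (nat_lit 76) (nat_lit 0) (XT.lf (nat_lit 0) (nat_lit 10939852113) (nat_lit 152) (nat_lit 6733610600) (nat_lit 0) (nat_lit 9632301202)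 (nat_lit 12) (nat_lit 5) (nat_lit 14) (nat_lit 4) (nat_lit 12) (nat_lit 4) (nat_lit 342) (nat_lit 281) (nat_lit 277)) (XT.nd (nat_lit 78) (nat_lit 0) (nat_lit 0) (XT.lf (nat_lit 0) (nat_lit 9949272086) (nat_lit 76) (nat_lit 10336413222) (nat_lit 76) (nat_lit 8760183839) (nat_lit 11) (nat_lit 4) (nat_lit 12) (nat_lit 5) (nat_lit 12) (nat_lit 4) (nat_lit 343) (nat_lit 281) (nat_lit 276)) (XT.lf (nat_lit 0) (nat_lit 27449224983) (nat_lit 76) (nat_lit 2657321297) (nat_lit 76) (nat_lit 832315550) (nat_lit 11) (nat_lit 4) (nat_lit 12) (nat_lit 5) (nat_lit 12) (nat_lit 4) (nat_lit 344) (nat_lit 281) (nat_lit 275)))) (XT.nd (nat_lit 78) (nat_lit 76) (nat_lit 0) (XT.lf (nat_lit 0) (nat_lit 7405354127) (nat_lit 152) (nat_lit 20127924581) (nat_lit 0) (nat_lit 5447873907) (nat_lit 9) (nat_lit 5) (nat_lit 11) (nat_lit 4) (nat_lit 9) (nat_lit 4) (nat_lit 345) (nat_lit 281) (nat_lit 274)) (XT.nd (nat_lit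 78) (nat_lit 76) (nat_lit 0) (XT.lf (nat_lit 0) (nat_lit 16024177555) (nat_lit 152) (nat_lit 5310872148) (nat_lit 0) (nat_lit 13863568161) (nat_lit 9) (nat_lit 5) (nat_lit 11) (nat_lit 4) (nat_lit 9) (nat_lit 4) (nat_lit 346) (nat_lit 281) (nat_lit 273)) (XT.lf (nat_lit 0) (nat_lit 10379893107) (nat_lit 76) (nat_lit 14785339258) (nat_lit 76) (nat_lit 12436647294) (nat_lit 8) (nat_lit 4) (nat_lit 9) (nat_lit 5) (nat_lit 9) (nat_lit 4) (nat_lit 347) (nat_lit 281) (nat_lit 272))))) (XT.nd (nat_lit 234) (nat_lit 76) (nat_lit 0) (XT.nd (nat_lit 78) (nat_lit 152) (nat_lit 0) (XT.lf (nat_lit 0) (nat_lit 26899678267) (nat_lit 76) (nat_lit 7915850854) (nat_lit 76) (nat_lit 5393008363) (nat_lit 8) (nat_lit 4) (nat_lit 9) (nat_lit 5) (nat_lit 9) (nat_lit 4) (nat_lit 348) (nat_lit 281) (nat_lit 271)) (XT.nd (nat_lit 78) (nat_lit 0) (nat_lit 0) (XT.lf (nat_lit 0) (nat_lit 1139121256) (nat_lit 76) (nat_lit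 725861297) (nat_lit 152) (nat_lit 41170959688) (nat_lit 6) (nat_lit 5) (nat_lit 7) (nat_lit 5) (nat_lit 8) (nat_lit 4) (nat_lit 349) (nat_lit 281) (nat_lit 270)) (XT.lf (nat_lit 0) (nat_lit 9575690630) (nat_lit 152) (nat_lit 29629188630) (nat_lit 0) (nat_lit 6877215404) (nat_lit 6) (nat_lit 5) (nat_lit 8) (nat_lit 4) (nat_lit 6) (nat_lit 4) (nat_lit 350) (nat_lit 281) (nat_lit 269)))) (XT.nd (nat_lit 156) (nat_lit 76) (nat_lit 0) (XT.nd (nat_lit 78) (nat_lit 0) (nat_lit 0) (XT.lf (nat_lit 0) (nat_lit 17649717607) (nat_lit 152) (nat_lit 16915344251) (nat_lit 0) (nat_lit 14819579235) (nat_lit 6) (nat_lit 5) (nat_lit 8) (nat_lit 4) (nat_lit 6) (nat_lit 4) (nat_lit 351) (nat_lit 281) (nat_lit 268)) (XT.lf (nat_lit 0) (nat_lit 26123576840) (nat_lit 152) (nat_lit 3668613818) (nat_lit 0) (nat_lit 23171528147) (nat_lit 6) (nat_lit 5) (nat_lit 8) (nat_lit 4) (nat_lit 6) (nat_lit 4) (nat_lit 352)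 (nat_lit 281) (nat_lit 267))) (XT.nd (nat_lit 78) (nat_lit 0) (nat_lit 0) (XT.lf (nat_lit 0) (nat_lit 10526412758) (nat_lit 76) (nat_lit 24685417836) (nat_lit 76) (nat_lit 21620489218) (nat_lit 5) (nat_lit 4) (nat_lit 6) (nat_lit 5) (nat_lit 6) (nat_lit 4) (nat_lit 353) (nat_lit 281) (nat_lit 266)) (XT.lf (nat_lit 0) (nat_lit 25559178124) (nat_lit 76) (nat_lit 19314193148) (nat_lit 76) (nat_lit 16144746080) (nat_lit 5) (nat_lit 4) (nat_lit 6) (nat_lit 5) (nat_lit 6) (nat_lit 4) (nat_lit 354) (nat_lit 281) (nat_lit 265))))))) (XT.nd (nat_lit 936) (nat_lit 0) (nat_lit 0) (XT.nd (nat_lit 468) (nat_lit 76) (nat_lit 0) (XT.nd (nat_lit 234) (nat_lit 0) (nat_lit 0) (XT.nd (nat_lit 78) (nat_lit 152) (nat_lit 0) (XT.lf (nat_lit 0) (nat_lit 41397464394) (nat_lit 76) (nat_lit 13708816865) (nat_lit 76) (nat_lit 10442593453) (nat_lit 5) (nat_lit 4) (nat_lit 6) (nat_lit 5) (nat_lit 6) (nat_lit 4) (nat_lit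 355) (nat_lit 281) (nat_lit 264)) (XT.nd (nat_lit 78) (nat_lit 152) (nat_lit 0) (XT.lf (nat_lit 0) (nat_lit 58135128078) (nat_lit 76) (nat_lit 7836071941) (nat_lit 76) (nat_lit 4480240804) (nat_lit 5) (nat_lit 4) (nat_lit 6) (nat_lit 5) (nat_lit 6) (nat_lit 4) (nat_lit 356) (nat_lit 281) (nat_lit 263)) (XT.lf (nat_lit 0) (nat_lit 91667317) (nat_lit 76) (nat_lit 1630512472) (nat_lit 152) (nat_lit 74031228880) (nat_lit 3) (nat_lit 5) (nat_lit 4) (nat_lit 5) (nat_lit 5) (nat_lit 4) (nat_lit 357) (nat_lit 281) (nat_lit 262)))) (XT.nd (nat_lit 78) (nat_lit 0) (nat_lit 0) (XT.lf (nat_lit 0) (nat_lit 8392806450) (nat_lit 152) (nat_lit 68032028350) (nat_lit 0) (nat_lit 5044591752) (nat_lit 3) (nat_lit 5) (nat_lit 5) (nat_lit 4) (nat_lit 3) (nat_lit 4) (nat_lit 358) (nat_lit 281) (nat_lit 261)) (XT.nd (nat_lit 78) (nat_lit 0) (nat_lit 0) (XT.lf (nat_lit 0) (nat_lit 15466836155) (nat_lit 152) (nat_lit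 60131539623) (nat_lit 0) (nat_lit 12050875265) (nat_lit 3) (nat_lit 5) (nat_lit 5) (nat_lit 4) (nat_lit 3) (nat_lit 4) (nat_lit 359) (nat_lit 281) (nat_lit 260)) (XT.lf (nat_lit 0) (nat_lit 22960732211) (nat_lit 152) (nat_lit 51888000593) (nat_lit 0) (nat_lit 19482043366) (nat_lit 3) (nat_lit 5) (nat_lit 5) (nat_lit 4) (nat_lit 3) (nat_lit 4) (nat_lit 360) (nat_lit 281) (nat_lit 259))))) (XT.nd (nat_lit 234) (nat_lit 76) (nat_lit 0) (XT.nd (nat_lit 78) (nat_lit 0) (nat_lit 0) (XT.lf (nat_lit 0) (nat_lit 30918902891) (nat_lit 152) (nat_lit 43252560657) (nat_lit 0) (nat_lit 27382132606) (nat_lit 3) (nat_lit 5) (nat_lit 5) (nat_lit 4) (nat_lit 3) (nat_lit 4) (nat_lit 361) (nat_lit 281) (nat_lit 258)) (XT.nd (nat_lit 78) (nat_lit 0) (nat_lit 0) (XT.lf (nat_lit 0) (nat_lit 39388507724) (nat_lit 152) (nat_lit 34174046838) (nat_lit 0) (nat_lit 35797958328) (nat_lit 3) (nat_lit 5) (nat_lit 5) (nat_lit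 4) (nat_lit 3) (nat_lit 4) (nat_lit 362) (nat_lit 281) (nat_lit 257)) (XT.lf (nat_lit 0) (nat_lit 48419736962) (nat_lit 152) (nat_lit 24598660535) (nat_lit 0) (nat_lit 44779392093) (nat_lit 3) (nat_lit 5) (nat_lit 5) (nat_lit 4) (nat_lit 3) (nat_lit 4) (nat_lit 363) (nat_lit 281) (nat_lit 256)))) (XT.nd (nat_lit 78) (nat_lit 76) (nat_lit 0) (XT.lf (nat_lit 0) (nat_lit 58066109000) (nat_lit 152) (nat_lit 14469658720) (nat_lit 0) (nat_lit 54379657211) (nat_lit 3) (nat_lit 5) (nat_lit 5) (nat_lit 4) (nat_lit 3) (nat_lit 4) (nat_lit 364) (nat_lit 281) (nat_lit 255)) (XT.nd (nat_lit 78) (nat_lit 76) (nat_lit 0) (XT.lf (nat_lit 0) (nat_lit 68384787524) (nat_lit 152) (nat_lit 3727017676) (nat_lit 0) (nat_lit 64655644143) (nat_lit 3) (nat_lit 5) (nat_lit 5) (nat_lit 4) (nat_lit 3) (nat_lit 4) (nat_lit 365) (nat_lit 281) (nat_lit 254)) (XT.lf (nat_lit 0) (nat_lit 7947285456) (nat_lit 76) (nat_lit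 71613714201) (nat_lit 76) (nat_lit 67845041568) (nat_lit 2) (nat_lit 4) (nat_lit 3) (nat_lit 5) (nat_lit 3) (nat_lit 4) (nat_lit 366) (nat_lit 281) (nat_lit 253)))))) (XT.nd (nat_lit 468) (nat_lit 0) (nat_lit 0) (XT.nd (nat_lit 234) (nat_lit 0) (nat_lit 0) (XT.nd (nat_lit 78) (nat_lit 0) (nat_lit 0) (XT.lf (nat_lit 0) (nat_lit 20514425842) (nat_lit 76) (nat_lit 71093863161) (nat_lit 76) (nat_lit 67288589369) (nat_lit 2) (nat_lit 4) (nat_lit 3) (nat_lit 5) (nat_lit 3) (nat_lit 4) (nat_lit 367) (nat_lit 281) (nat_lit 252)) (XT.nd (nat_lit 78) (nat_lit 0) (nat_lit 0) (XT.lf (nat_lit 0) (nat_lit 33925643388) (nat_lit 76) (nat_lit 70612290331) (nat_lit 76) (nat_lit 66773126577) (nat_lit 2) (nat_lit 4) (nat_lit 3) (nat_lit 5) (nat_lit 3) (nat_lit 4) (nat_lit 368) (nat_lit 281) (nat_lit 251)) (XT.lf (nat_lit 0) (nat_lit 48260411975) (nat_lit 76) (nat_lit 70166141946) (nat_lit 76) (nat_lit 66295598597)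 (nat_lit 2) (nat_lit 4) (nat_lit 3) (nat_lit 5) (nat_lit 3) (nat_lit 4) (nat_lit 369) (nat_lit 281) (nat_lit 250)))) (XT.nd (nat_lit 78) (nat_lit 0) (nat_lit 0) (XT.lf (nat_lit 0) (nat_lit 63603678381) (nat_lit 76) (nat_lit 69752774163) (nat_lit 76) (nat_lit 65853175634) (nat_lit 2) (nat_lit 4) (nat_lit 3) (nat_lit 5) (nat_lit 3) (nat_lit 4) (nat_lit 370) (nat_lit 281) (nat_lit 249)) (XT.nd (nat_lit 78) (nat_lit 0) (nat_lit 0) (XT.lf (nat_lit 0) (nat_lit 80046365665) (nat_lit 76) (nat_lit 69369737395) (nat_lit 76) (nat_lit 65443235921) (nat_lit 2) (nat_lit 4) (nat_lit 3) (nat_lit 5) (nat_lit 3) (nat_lit 4) (nat_lit 371) (nat_lit 281) (nat_lit 248)) (XT.lf (nat_lit 0) (nat_lit 97685911975) (nat_lit 76) (nat_lit 69014761795) (nat_lit 76) (nat_lit 65063350187) (nat_lit 2) (nat_lit 4) (nat_lit 3) (nat_lit 5) (nat_lit 3) (nat_lit 4) (nat_lit 372) (nat_lit 281) (nat_lit 247))))) (XT.nd (nat_lit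 234) (nat_lit 0) (nat_lit 0) (XT.nd (nat_lit 78) (nat_lit 0) (nat_lit 0) (XT.lf (nat_lit 0) (nat_lit 116626847955) (nat_lit 76) (nat_lit 68685743804) (nat_lit 76) (nat_lit 64711267257) (nat_lit 2) (nat_lit 4) (nat_lit 3) (nat_lit 5) (nat_lit 3) (nat_lit 4) (nat_lit 373) (nat_lit 281) (nat_lit 246)) (XT.nd (nat_lit 78) (nat_lit 0) (nat_lit 0) (XT.lf (nat_lit 0) (nat_lit 136981416188) (nat_lit 76) (nat_lit 68380733686) (nat_lit 76) (nat_lit 64384900714) (nat_lit 2) (nat_lit 4) (nat_lit 3) (nat_lit 5) (nat_lit 3) (nat_lit 4) (nat_lit 374) (nat_lit 281) (nat_lit 245)) (XT.lf (nat_lit 0) (nat_lit 158870236340) (nat_lit 76) (nat_lit 68097923972) (nat_lit 76) (nat_lit 64082316533) (nat_lit 2) (nat_lit 4) (nat_lit 3) (nat_lit 5) (nat_lit 3) (nat_lit 4) (nat_lit 375) (nat_lit 281) (nat_lit 244)))) (XT.nd (nat_lit 156) (nat_lit 0) (nat_lit 0) (XT.nd (nat_lit 78) (nat_lit 0) (nat_lit 0) (XT.lf (nat_lit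 0) (nat_lit 182423019935) (nat_lit 76) (nat_lit 67835638754) (nat_lit 76) (nat_lit 63801721623) (nat_lit 2) (nat_lit 4) (nat_lit 3) (nat_lit 5) (nat_lit 3) (nat_lit 4) (nat_lit 376) (nat_lit 281) (nat_lit 243)) (XT.lf (nat_lit 0) (nat_lit 207779339026) (nat_lit 76) (nat_lit 67592323749) (nat_lit 76) (nat_lit 63541453199) (nat_lit 2) (nat_lit 4) (nat_lit 3) (nat_lit 5) (nat_lit 3) (nat_lit 4) (nat_lit 377) (nat_lit 281) (nat_lit 242))) (XT.nd (nat_lit 78) (nat_lit 0) (nat_lit 0) (XT.lf (nat_lit 0) (nat_lit 235089453280) (nat_lit 76) (nat_lit 67366537091) (nat_lit 76) (nat_lit 63299968931) (nat_lit 2) (nat_lit 4) (nat_lit 3) (nat_lit 5) (nat_lit 3) (nat_lit 4) (nat_lit 378) (nat_lit 281) (nat_lit 241)) (XT.lf (nat_lit 0) (nat_lit 264515200413) (nat_lit 76) (nat_lit 67156940783) (nat_lit 76) (nat_lit 63075837799) (nat_lit 2) (nat_lit 4) (nat_lit 3) (nat_lit 5) (nat_lit 3) (nat_lit 4) (nat_lit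 379) (nat_lit 281) (nat_lit 240))))))))
noncomputable def xc18 : XT := (XT.nd (nat_lit 43992) (nat_lit 0) (nat_lit 0) (XT.nd (nat_lit 936) (nat_lit 0) (nat_lit 0) (XT.nd (nat_lit 468) (nat_lit 0) (nat_lit 0) (XT.nd (nat_lit 234) (nat_lit 0) (nat_lit 0) (XT.nd (nat_lit 78) (nat_lit 0) (nat_lit 0) (XT.lf (nat_lit 0) (nat_lit 296230955221) (nat_lit 76) (nat_lit 66962292775) (nat_lit 76) (nat_lit 62867731621) (nat_lit 2) (nat_lit 4) (nat_lit 3) (nat_lit 5) (nat_lit 3) (nat_lit 4) (nat_lit 380) (nat_lit 281) (nat_lit 239)) (XT.nd (nat_lit 78) (nat_lit 0) (nat_lit 0) (XT.lf (nat_lit 0) (nat_lit 330424662919) (nat_lit 76) (nat_lit 66781439596) (nat_lit 76) (nat_lit 62674417173) (nat_lit 2) (nat_lit 4) (nat_lit 3) (nat_lit 5) (nat_lit 3) (nat_lit 4) (nat_lit 381) (nat_lit 281) (nat_lit 238)) (XT.lf (nat_lit 0) (nat_lit 367298952886) (nat_lit 76) (nat_lit 66613309524) (nat_lit 76) (nat_lit 62494748889)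 (nat_lit 2) (nat_lit 4) (nat_lit 3) (nat_lit 5) (nat_lit 3) (nat_lit 4) (nat_lit 382) (nat_lit 281) (nat_lit 237)))) (XT.nd (nat_lit 78) (nat_lit 0) (nat_lit 0) (XT.lf (nat_lit 0) (nat_lit 407072339431) (nat_lit 76) (nat_lit 66456906232) (nat_lit 76) (nat_lit 62327662068) (nat_lit 2) (nat_lit 4) (nat_lit 3) (nat_lit 5) (nat_lit 3) (nat_lit 4) (nat_lit 383) (nat_lit 281) (nat_lit 236)) (XT.nd (nat_lit 78) (nat_lit 0) (nat_lit 0) (XT.lf (nat_lit 0) (nat_lit 449980516699) (nat_lit 76) (nat_lit 66311302886) (nat_lit 76) (nat_lit 62172166565) (nat_lit 2) (nat_lit 4) (nat_lit 3) (nat_lit 5) (nat_lit 3) (nat_lit 4) (nat_lit 384) (nat_lit 281) (nat_lit 235)) (XT.lf (nat_lit 0) (nat_lit 496277755368) (nat_lit 76) (nat_lit 66175636652) (nat_lit 76) (nat_lit 62027340926) (nat_lit 2) (nat_lit 4) (nat_lit 3) (nat_lit 5) (nat_lit 3) (nat_lit 4) (nat_lit 385) (nat_lit 281) (nat_lit 234))))) (XT.nd (nat_lit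 234) (nat_lit 0) (nat_lit 0) (XT.nd (nat_lit 78) (nat_lit 0) (nat_lit 0) (XT.lf (nat_lit 0) (nat_lit 546238409447) (nat_lit 76) (nat_lit 66049103582) (nat_lit 76) (nat_lit 61892326926) (nat_lit 2) (nat_lit 4) (nat_lit 3) (nat_lit 5) (nat_lit 3) (nat_lit 4) (nat_lit 386) (nat_lit 281) (nat_lit 233)) (XT.nd (nat_lit 78) (nat_lit 0) (nat_lit 0) (XT.lf (nat_lit 0) (nat_lit 600158542069) (nat_lit 76) (nat_lit 65930953849) (nat_lit 76) (nat_lit 61766324480) (nat_lit 2) (nat_lit 4) (nat_lit 3) (nat_lit 5) (nat_lit 3) (nat_lit 4) (nat_lit 387) (nat_lit 281) (nat_lit 232)) (XT.lf (nat_lit 0) (nat_lit 658357679948) (nat_lit 76) (nat_lit 65820487307) (nat_lit 76) (nat_lit 61648586908) (nat_lit 2) (nat_lit 4) (nat_lit 3) (nat_lit 5) (nat_lit 3) (nat_lit 4) (nat_lit 388) (nat_lit 281) (nat_lit 231)))) (XT.nd (nat_lit 78) (nat_lit 0) (nat_lit 0) (XT.lf (nat_lit 0) (nat_lit 721180706862) (nat_lit 76) (nat_lit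 65717049341) (nat_lit 76) (nat_lit 61538416505) (nat_lit 2) (nat_lit 4) (nat_lit 3) (nat_lit 5) (nat_lit 3) (nat_lit 4) (nat_lit 389) (nat_lit 281) (nat_lit 230)) (XT.nd (nat_lit 78) (nat_lit 0) (nat_lit 0) (XT.lf (nat_lit 0) (nat_lit 788999907417) (nat_lit 76) (nat_lit 65620026983) (nat_lit 76) (nat_lit 61435160410) (nat_lit 2) (nat_lit 4) (nat_lit 3) (nat_lit 5) (nat_lit 3) (nat_lit 4) (nat_lit 390) (nat_lit 281) (nat_lit 229)) (XT.lf (nat_lit 0) (nat_lit 862217173170) (nat_lit 76) (nat_lit 65528845287) (nat_lit 76) (nat_lit 61338206736) (nat_lit 2) (nat_lit 4) (nat_lit 3) (nat_lit 5) (nat_lit 3) (nat_lit 4) (nat_lit 391) (nat_lit 281) (nat_lit 228)))))) (XT.nd (nat_lit 42588) (nat_lit 0) (nat_lit 760) (XT.nd (nat_lit 234) (nat_lit 0) (nat_lit 0) (XT.nd (nat_lit 78) (nat_lit 0) (nat_lit 0) (XT.lf (nat_lit 0) (nat_lit 941266384215) (nat_lit 76) (nat_lit 65442963916) (nat_lit 76) (nat_lit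 61246980941) (nat_lit 2) (nat_lit 4) (nat_lit 3) (nat_lit 5) (nat_lit 3) (nat_lit 4) (nat_lit 392) (nat_lit 281) (nat_lit 227)) (XT.nd (nat_lit 78) (nat_lit 0) (nat_lit 0) (XT.lf (nat_lit 0) (nat_lit 1026615980322) (nat_lit 76) (nat_lit 65361873945) (nat_lit 76) (nat_lit 61160942428) (nat_lit 2) (nat_lit 4) (nat_lit 3) (nat_lit 5) (nat_lit 3) (nat_lit 4) (nat_lit 393) (nat_lit 281) (nat_lit 226)) (XT.lf (nat_lit 0) (nat_lit 1118771736875) (nat_lit 76) (nat_lit 65285094840) (nat_lit 76) (nat_lit 61079581340) (nat_lit 2) (nat_lit 4) (nat_lit 3) (nat_lit 5) (nat_lit 3) (nat_lit 4) (nat_lit 394) (nat_lit 281) (nat_lit 225)))) (XT.nd (nat_lit 78) (nat_lit 0) (nat_lit 0) (XT.lf (nat_lit 0) (nat_lit 1218279762060) (nat_lit 76) (nat_lit 65212171613) (nat_lit 76) (nat_lit 61002415537) (nat_lit 2) (nat_lit 4) (nat_lit 3) (nat_lit 5) (nat_lit 3) (nat_lit 4) (nat_lit 395) (nat_lit 281) (nat_lit 224))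 (XT.nd (nat_lit 42198) (nat_lit 0) (nat_lit 1216) (XT.lf (nat_lit 0) (nat_lit 1325729733064) (nat_lit 76) (nat_lit 65142672128) (nat_lit 76) (nat_lit 60928987740) (nat_lit 2) (nat_lit 4) (nat_lit 3) (nat_lit 5) (nat_lit 3) (nat_lit 4) (nat_lit 396) (nat_lit 281) (nat_lit 223)) (XT.lf (nat_lit 0) (nat_lit 992512351) (nat_lit 152) (nat_lit 7705351641) (nat_lit 0) (nat_lit 992512351) (nat_lit 18) (nat_lit 5) (nat_lit 20) (nat_lit 4) (nat_lit 18) (nat_lit 4) (nat_lit 336) (nat_lit 282) (nat_lit 282))))) (XT.nd (nat_lit 234) (nat_lit 228) (nat_lit 0) (XT.nd (nat_lit 78) (nat_lit 152) (nat_lit 0) (XT.lf (nat_lit 0) (nat_lit 1475570011) (nat_lit 76) (nat_lit 9706941270) (nat_lit 76) (nat_lit 9271699823) (nat_lit 17) (nat_lit 4) (nat_lit 18) (nat_lit 5) (nat_lit 18) (nat_lit 4) (nat_lit 337) (nat_lit 282) (nat_lit 281)) (XT.nd (nat_lit 78) (nat_lit 152) (nat_lit 0) (XT.lf (nat_lit 0) (nat_lit 19352778943)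 (nat_lit 76) (nat_lit 1554749861) (nat_lit 76) (nat_lit 716507074) (nat_lit 17) (nat_lit 4) (nat_lit 18) (nat_lit 5) (nat_lit 18) (nat_lit 4) (nat_lit 338) (nat_lit 282) (nat_lit 280)) (XT.lf (nat_lit 0) (nat_lit 8152911803) (nat_lit 152) (nat_lit 7733613498) (nat_lit 0) (nat_lit 6999204968) (nat_lit 15) (nat_lit 5) (nat_lit 17) (nat_lit 4) (nat_lit 15) (nat_lit 4) (nat_lit 339) (nat_lit 282) (nat_lit 279)))) (XT.nd (nat_lit 78) (nat_lit 152) (nat_lit 0) (XT.lf (nat_lit 0) (nat_lit 9224552440) (nat_lit 76) (nat_lit 8258613137) (nat_lit 76) (nat_lit 6775850404) (nat_lit 14) (nat_lit 4) (nat_lit 15) (nat_lit 5) (nat_lit 15) (nat_lit 4) (nat_lit 340) (nat_lit 282) (nat_lit 278)) (XT.nd (nat_lit 78) (nat_lit 0) (nat_lit 0) (XT.lf (nat_lit 0) (nat_lit 1276890287) (nat_lit 76) (nat_lit 217906984) (nat_lit 152) (nat_lit 24259238296) (nat_lit 12) (nat_lit 5) (nat_lit 13) (nat_lit 5) (nat_lit 14)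 (nat_lit 4) (nat_lit 341) (nat_lit 282) (nat_lit 277)) (XT.lf (nat_lit 0) (nat_lit 10182893243) (nat_lit 152) (nat_lit 8968713861) (nat_lit 0) (nat_lit 8211887037) (nat_lit 12) (nat_lit 5) (nat_lit 14) (nat_lit 4) (nat_lit 12) (nat_lit 4) (nat_lit 342) (nat_lit 282) (nat_lit 276))))))) (XT.nd (nat_lit 936) (nat_lit 228) (nat_lit 0) (XT.nd (nat_lit 468) (nat_lit 228) (nat_lit 0) (XT.nd (nat_lit 234) (nat_lit 76) (nat_lit 0) (XT.nd (nat_lit 78) (nat_lit 152) (nat_lit 0) (XT.lf (nat_lit 0) (nat_lit 7275835704) (nat_lit 76) (nat_lit 12029372397) (nat_lit 76) (nat_lit 9809589828) (nat_lit 11) (nat_lit 4) (nat_lit 12) (nat_lit 5) (nat_lit 12) (nat_lit 4) (nat_lit 343) (nat_lit 282) (nat_lit 275)) (XT.nd (nat_lit 78) (nat_lit 152) (nat_lit 0) (XT.lf (nat_lit 0) (nat_lit 24438352941) (nat_lit 76) (nat_lit 4514134388) (nat_lit 76) (nat_lit 2064003334) (nat_lit 11) (nat_lit 4) (nat_lit 12) (nat_lit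 5) (nat_lit 12) (nat_lit 4) (nat_lit 344) (nat_lit 282) (nat_lit 274)) (XT.lf (nat_lit 0) (nat_lit 5962466629) (nat_lit 152) (nat_lit 23683946572) (nat_lit 0) (nat_lit 3425879308) (nat_lit 9) (nat_lit 5) (nat_lit 11) (nat_lit 4) (nat_lit 9) (nat_lit 4) (nat_lit 345) (nat_lit 282) (nat_lit 273)))) (XT.nd (nat_lit 78) (nat_lit 76) (nat_lit 0) (XT.lf (nat_lit 0) (nat_lit 14422956542) (nat_lit 152) (nat_lit 9176448357) (nat_lit 0) (nat_lit 11698286651) (nat_lit 9) (nat_lit 5) (nat_lit 11) (nat_lit 4) (nat_lit 9) (nat_lit 4) (nat_lit 346) (nat_lit 282) (nat_lit 272)) (XT.nd (nat_lit 78) (nat_lit 0) (nat_lit 0) (XT.lf (nat_lit 0) (nat_lit 6090402122) (nat_lit 76) (nat_lit 17260033146) (nat_lit 76) (nat_lit 14361212728) (nat_lit 8) (nat_lit 4) (nat_lit 9) (nat_lit 5) (nat_lit 9) (nat_lit 4) (nat_lit 347) (nat_lit 282) (nat_lit 271)) (XT.lf (nat_lit 0) (nat_lit 22336019347) (nat_lit 76) (nat_lit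 10524686677) (nat_lit 76) (nat_lit 7464615771) (nat_lit 8) (nat_lit 4) (nat_lit 9) (nat_lit 5) (nat_lit 9) (nat_lit 4) (nat_lit 348) (nat_lit 282) (nat_lit 270))))) (XT.nd (nat_lit 234) (nat_lit 76) (nat_lit 0) (XT.nd (nat_lit 78) (nat_lit 152) (nat_lit 0) (XT.lf (nat_lit 0) (nat_lit 39353258816) (nat_lit 76) (nat_lit 3508859921) (nat_lit 76) (nat_lit 299483008) (nat_lit 8) (nat_lit 4) (nat_lit 9) (nat_lit 5) (nat_lit 9) (nat_lit 4) (nat_lit 349) (nat_lit 282) (nat_lit 269)) (XT.nd (nat_lit 78) (nat_lit 0) (nat_lit 0) (XT.lf (nat_lit 0) (nat_lit 7187150687) (nat_lit 152) (nat_lit 35033594139) (nat_lit 0) (nat_lit 3998938099) (nat_lit 6) (nat_lit 5) (nat_lit 8) (nat_lit 4) (nat_lit 6) (nat_lit 4) (nat_lit 350) (nat_lit 282) (nat_lit 268)) (XT.lf (nat_lit 0) (nat_lit 15142865210) (nat_lit 152) (nat_lit 22552548556) (nat_lit 0) (nat_lit 11832742302) (nat_lit 6) (nat_lit 5) (nat_lit 8) (nat_lit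 4) (nat_lit 6) (nat_lit 4) (nat_lit 351) (nat_lit 282) (nat_lit 267)))) (XT.nd (nat_lit 78) (nat_lit 76) (nat_lit 0) (XT.lf (nat_lit 0) (nat_lit 23507175876) (nat_lit 152) (nat_lit 9521372565) (nat_lit 0) (nat_lit 20084173042) (nat_lit 6) (nat_lit 5) (nat_lit 8) (nat_lit 4) (nat_lit 6) (nat_lit 4) (nat_lit 352) (nat_lit 282) (nat_lit 266)) (XT.nd (nat_lit 78) (nat_lit 0) (nat_lit 0) (XT.lf (nat_lit 0) (nat_lit 4273948667) (nat_lit 76) (nat_lit 28122428618) (nat_lit 76) (nat_lit 24594907333) (nat_lit 5) (nat_lit 4) (nat_lit 6) (nat_lit 5) (nat_lit 6) (nat_lit 4) (nat_lit 353) (nat_lit 282) (nat_lit 265)) (XT.lf (nat_lit 0) (nat_lit 19115800415) (nat_lit 76) (nat_lit 22845216612) (nat_lit 76) (nat_lit 19220918985) (nat_lit 5) (nat_lit 4) (nat_lit 6) (nat_lit 5) (nat_lit 6) (nat_lit 4) (nat_lit 354) (nat_lit 282) (nat_lit 264)))))) (XT.nd (nat_lit 468) (nat_lit 76) (nat_lit 0) (XT.nd (nat_lit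 234) (nat_lit 152) (nat_lit 0) (XT.nd (nat_lit 78) (nat_lit 0) (nat_lit 0) (XT.lf (nat_lit 0) (nat_lit 34777314816) (nat_lit 76) (nat_lit 17326889108) (nat_lit 76) (nat_lit 13612983756) (nat_lit 5) (nat_lit 4) (nat_lit 6) (nat_lit 5) (nat_lit 6) (nat_lit 4) (nat_lit 355) (nat_lit 282) (nat_lit 263)) (XT.nd (nat_lit 78) (nat_lit 0) (nat_lit 0) (XT.lf (nat_lit 0) (nat_lit 51351300843) (nat_lit 76) (nat_lit 11534744907) (nat_lit 76) (nat_lit 7737869439) (nat_lit 5) (nat_lit 4) (nat_lit 6) (nat_lit 5) (nat_lit 6) (nat_lit 4) (nat_lit 356) (nat_lit 282) (nat_lit 262)) (XT.lf (nat_lit 0) (nat_lit 68935974711) (nat_lit 76) (nat_lit 5434460189) (nat_lit 76) (nat_lit 1560760540) (nat_lit 5) (nat_lit 4) (nat_lit 6) (nat_lit 5) (nat_lit 6) (nat_lit 4) (nat_lit 357) (nat_lit 282) (nat_lit 261)))) (XT.nd (nat_lit 78) (nat_lit 0) (nat_lit 0) (XT.lf (nat_lit 0) (nat_lit 4909917387) (nat_lit 152) (nat_lit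 75598082200) (nat_lit 0) (nat_lit 1152933435) (nat_lit 3) (nat_lit 5) (nat_lit 5) (nat_lit 4) (nat_lit 3) (nat_lit 4) (nat_lit 358) (nat_lit 282) (nat_lit 260)) (XT.nd (nat_lit 78) (nat_lit 0) (nat_lit 0) (XT.lf (nat_lit 0) (nat_lit 11913727849) (nat_lit 152) (nat_lit 67836530393) (nat_lit 0) (nat_lit 8094015942) (nat_lit 3) (nat_lit 5) (nat_lit 5) (nat_lit 4) (nat_lit 3) (nat_lit 4) (nat_lit 359) (nat_lit 282) (nat_lit 259)) (XT.lf (nat_lit 0) (nat_lit 19342606087) (nat_lit 152) (nat_lit 59721636659) (nat_lit 0) (nat_lit 15464812740) (nat_lit 3) (nat_lit 5) (nat_lit 5) (nat_lit 4) (nat_lit 3) (nat_lit 4) (nat_lit 360) (nat_lit 282) (nat_lit 258))))) (XT.nd (nat_lit 234) (nat_lit 76) (nat_lit 0) (XT.nd (nat_lit 78) (nat_lit 0) (nat_lit 0) (XT.lf (nat_lit 0) (nat_lit 27240575084) (nat_lit 152) (nat_lit 51205312739) (nat_lit 0) (nat_lit 23309002625) (nat_lit 3) (nat_lit 5) (nat_lit 5) (nat_lit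 4) (nat_lit 3) (nat_lit 4) (nat_lit 361) (nat_lit 282) (nat_lit 257)) (XT.nd (nat_lit 78) (nat_lit 0) (nat_lit 0) (XT.lf (nat_lit 0) (nat_lit 35654437618) (nat_lit 152) (nat_lit 42237091526) (nat_lit 0) (nat_lit 31673069687) (nat_lit 3) (nat_lit 5) (nat_lit 5) (nat_lit 4) (nat_lit 3) (nat_lit 4) (nat_lit 362) (nat_lit 282) (nat_lit 256)) (XT.lf (nat_lit 0) (nat_lit 44634053616) (nat_lit 152) (nat_lit 32763828008) (nat_lit 0) (nat_lit 40606578765) (nat_lit 3) (nat_lit 5) (nat_lit 5) (nat_lit 4) (nat_lit 3) (nat_lit 4) (nat_lit 363) (nat_lit 282) (nat_lit 255)))) (XT.nd (nat_lit 156) (nat_lit 76) (nat_lit 0) (XT.nd (nat_lit 78) (nat_lit 0) (nat_lit 0) (XT.lf (nat_lit 0) (nat_lit 54232635617) (nat_lit 152) (nat_lit 22729384325) (nat_lit 0) (nat_lit 50162469174) (nat_lit 3) (nat_lit 5) (nat_lit 5) (nat_lit 4) (nat_lit 3) (nat_lit 4) (nat_lit 364) (nat_lit 282) (nat_lit 254)) (XT.lf (nat_lit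 0) (nat_lit 64507064107) (nat_lit 152) (nat_lit 12074297109) (nat_lit 0) (nat_lit 60397368412) (nat_lit 3) (nat_lit 5) (nat_lit 5) (nat_lit 4) (nat_lit 3) (nat_lit 4) (nat_lit 365) (nat_lit 282) (nat_lit 253))) (XT.nd (nat_lit 78) (nat_lit 76) (nat_lit 0) (XT.lf (nat_lit 0) (nat_lit 75518224588) (nat_lit 152) (nat_lit 735425101) (nat_lit 0) (nat_lit 71371927734) (nat_lit 3) (nat_lit 5) (nat_lit 5) (nat_lit 4) (nat_lit 3) (nat_lit 4) (nat_lit 366) (nat_lit 282) (nat_lit 252)) (XT.lf (nat_lit 0) (nat_lit 11729853582) (nat_lit 76) (nat_lit 75784650686) (nat_lit 76) (nat_lit 71604463870) (nat_lit 2) (nat_lit 4) (nat_lit 3) (nat_lit 5) (nat_lit 3) (nat_lit 4) (nat_lit 367) (nat_lit 282) (nat_lit 251))))))))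
noncomputable def xc19 : XT := (XT.nd (nat_lit 1950) (nat_lit 0) (nat_lit 0) (XT.nd (nat_lit 936) (nat_lit 0) (nat_lit 0) (XT.nd (nat_lit 468) (nat_lit 0) (nat_lit 0) (XT.nd (nat_lit 234) (nat_lit 0) (nat_lit 0) (XT.nd (nat_lit 78) (nat_lit 0) (nat_lit 0) (XT.lf (nat_lit 0) (nat_lit 25069269992) (nat_lit 76) (nat_lit 75338630871) (nat_lit 76) (nat_lit 71127064460) (nat_lit 2) (nat_lit 4) (nat_lit 3) (nat_lit 5) (nat_lit 3) (nat_lit 4) (nat_lit 368) (nat_lit 282) (nat_lit 250)) (XT.nd (nat_lit 78) (nat_lit 0) (nat_lit 0) (XT.lf (nat_lit 0) (nat_lit 39337556047) (nat_lit 76) (nat_lit 74925401944) (nat_lit 76) (nat_lit 70684780352) (nat_lit 2) (nat_lit 4) (nat_lit 3) (nat_lit 5) (nat_lit 3) (nat_lit 4) (nat_lit 369) (nat_lit 282) (nat_lit 249)) (XT.lf (nat_lit 0) (nat_lit 54619264551) (nat_lit 76) (nat_lit 74542515141) (nat_lit 76) (nat_lit 70274990604) (nat_lit 2) (nat_lit 4) (nat_lit 3) (nat_lit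 5) (nat_lit 3) (nat_lit 4) (nat_lit 370) (nat_lit 282) (nat_lit 248)))) (XT.nd (nat_lit 78) (nat_lit 0) (nat_lit 0) (XT.lf (nat_lit 0) (nat_lit 71004953779) (nat_lit 76) (nat_lit 74187701503) (nat_lit 76) (nat_lit 69895266832) (nat_lit 2) (nat_lit 4) (nat_lit 3) (nat_lit 5) (nat_lit 3) (nat_lit 4) (nat_lit 371) (nat_lit 282) (nat_lit 247)) (XT.nd (nat_lit 78) (nat_lit 0) (nat_lit 0) (XT.lf (nat_lit 0) (nat_lit 88591724111) (nat_lit 76) (nat_lit 73858858430) (nat_lit 76) (nat_lit 69543358821) (nat_lit 2) (nat_lit 4) (nat_lit 3) (nat_lit 5) (nat_lit 3) (nat_lit 4) (nat_lit 372) (nat_lit 282) (nat_lit 246)) (XT.lf (nat_lit 0) (nat_lit 107483793444) (nat_lit 76) (nat_lit 73554037223) (nat_lit 76) (nat_lit 69217181189) (nat_lit 2) (nat_lit 4) (nat_lit 3) (nat_lit 5) (nat_lit 3) (nat_lit 4) (nat_lit 373) (nat_lit 282) (nat_lit 245))))) (XT.nd (nat_lit 234) (nat_lit 0) (nat_lit 0) (XT.nd (nat_lit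 78) (nat_lit 0) (nat_lit 0) (XT.lf (nat_lit 0) (nat_lit 127793114783) (nat_lit 76) (nat_lit 73271431535) (nat_lit 76) (nat_lit 68914801033) (nat_lit 2) (nat_lit 4) (nat_lit 3) (nat_lit 5) (nat_lit 3) (nat_lit 4) (nat_lit 374) (nat_lit 282) (nat_lit 244)) (XT.nd (nat_lit 78) (nat_lit 0) (nat_lit 0) (XT.lf (nat_lit 0) (nat_lit 149640039662) (nat_lit 76) (nat_lit 73009366664) (nat_lit 76) (nat_lit 68634426470) (nat_lit 2) (nat_lit 4) (nat_lit 3) (nat_lit 5) (nat_lit 3) (nat_lit 4) (nat_lit 375) (nat_lit 282) (nat_lit 243)) (XT.lf (nat_lit 0) (nat_lit 173154031338) (nat_lit 76) (nat_lit 72766289634) (nat_lit 76) (nat_lit 68374396021) (nat_lit 2) (nat_lit 4) (nat_lit 3) (nat_lit 5) (nat_lit 3) (nat_lit 4) (nat_lit 376) (nat_lit 282) (nat_lit 242)))) (XT.nd (nat_lit 78) (nat_lit 0) (nat_lit 0) (XT.lf (nat_lit 0) (nat_lit 198474431985) (nat_lit 76) (nat_lit 72540759988) (nat_lit 76) (nat_lit 68133168765)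 (nat_lit 2) (nat_lit 4) (nat_lit 3) (nat_lit 5) (nat_lit 3) (nat_lit 4) (nat_lit 377) (nat_lit 282) (nat_lit 241)) (XT.nd (nat_lit 78) (nat_lit 0) (nat_lit 0) (XT.lf (nat_lit 0) (nat_lit 225751288421) (nat_lit 76) (nat_lit 72331441254) (nat_lit 76) (nat_lit 67909315208) (nat_lit 2) (nat_lit 4) (nat_lit 3) (nat_lit 5) (nat_lit 3) (nat_lit 4) (nat_lit 378) (nat_lit 282) (nat_lit 240)) (XT.lf (nat_lit 0) (nat_lit 255146241277) (nat_lit 76) (nat_lit 72137093026) (nat_lit 76) (nat_lit 67701508809) (nat_lit 2) (nat_lit 4) (nat_lit 3) (nat_lit 5) (nat_lit 3) (nat_lit 4) (nat_lit 379) (nat_lit 282) (nat_lit 239)))))) (XT.nd (nat_lit 468) (nat_lit 0) (nat_lit 0) (XT.nd (nat_lit 234) (nat_lit 0) (nat_lit 0) (XT.nd (nat_lit 78) (nat_lit 0) (nat_lit 0) (XT.lf (nat_lit 0) (nat_lit 286833482866) (nat_lit 76) (nat_lit 71956563609) (nat_lit 76) (nat_lit 67508518123) (nat_lit 2) (nat_lit 4) (nat_lit 3) (nat_lit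 5) (nat_lit 3) (nat_lit 4) (nat_lit 380) (nat_lit 282) (nat_lit 238)) (XT.nd (nat_lit 78) (nat_lit 0) (nat_lit 0) (XT.lf (nat_lit 0) (nat_lit 321000789436) (nat_lit 76) (nat_lit 71788783199) (nat_lit 76) (nat_lit 67329199502) (nat_lit 2) (nat_lit 4) (nat_lit 3) (nat_lit 5) (nat_lit 3) (nat_lit 4) (nat_lit 381) (nat_lit 282) (nat_lit 237)) (XT.lf (nat_lit 0) (nat_lit 357850633913) (nat_lit 76) (nat_lit 71632757544) (nat_lit 76) (nat_lit 67162490317) (nat_lit 2) (nat_lit 4) (nat_lit 3) (nat_lit 5) (nat_lit 3) (nat_lit 4) (nat_lit 382) (nat_lit 282) (nat_lit 236)))) (XT.nd (nat_lit 78) (nat_lit 0) (nat_lit 0) (XT.lf (nat_lit 0) (nat_lit 397601385746) (nat_lit 76) (nat_lit 71487562045) (nat_lit 76) (nat_lit 67007402661) (nat_lit 2) (nat_lit 4) (nat_lit 3) (nat_lit 5) (nat_lit 3) (nat_lit 4) (nat_lit 383) (nat_lit 282) (nat_lit 235)) (XT.nd (nat_lit 78) (nat_lit 0) (nat_lit 0) (XT.lf (nat_lit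 0) (nat_lit 440488604946) (nat_lit 76) (nat_lit 71352336285) (nat_lit 76) (nat_lit 66863017497) (nat_lit 2) (nat_lit 4) (nat_lit 3) (nat_lit 5) (nat_lit 3) (nat_lit 4) (nat_lit 384) (nat_lit 282) (nat_lit 234)) (XT.lf (nat_lit 0) (nat_lit 486766437998) (nat_lit 76) (nat_lit 71226278927) (nat_lit 76) (nat_lit 66728479209) (nat_lit 2) (nat_lit 4) (nat_lit 3) (nat_lit 5) (nat_lit 3) (nat_lit 4) (nat_lit 385) (nat_lit 282) (nat_lit 233))))) (XT.nd (nat_lit 234) (nat_lit 0) (nat_lit 0) (XT.nd (nat_lit 78) (nat_lit 0) (nat_lit 0) (XT.lf (nat_lit 0) (nat_lit 536709123912) (nat_lit 76) (nat_lit 71108642964) (nat_lit 76) (nat_lit 66602990532) (nat_lit 2) (nat_lit 4) (nat_lit 3) (nat_lit 5) (nat_lit 3) (nat_lit 4) (nat_lit 386) (nat_lit 282) (nat_lit 232)) (XT.nd (nat_lit 78) (nat_lit 0) (nat_lit 0) (XT.lf (nat_lit 0) (nat_lit 590612619345) (nat_lit 76) (nat_lit 70998731294) (nat_lit 76) (nat_lit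 66485807831) (nat_lit 2) (nat_lit 4) (nat_lit 3) (nat_lit 5) (nat_lit 3) (nat_lit 4) (nat_lit 387) (nat_lit 282) (nat_lit 231)) (XT.lf (nat_lit 0) (nat_lit 648796352419) (nat_lit 76) (nat_lit 70895892588) (nat_lit 76) (nat_lit 66376236690) (nat_lit 2) (nat_lit 4) (nat_lit 3) (nat_lit 5) (nat_lit 3) (nat_lit 4) (nat_lit 388) (nat_lit 282) (nat_lit 230)))) (XT.nd (nat_lit 156) (nat_lit 0) (nat_lit 0) (XT.nd (nat_lit 78) (nat_lit 0) (nat_lit 0) (XT.lf (nat_lit 0) (nat_lit 711605115625) (nat_lit 76) (nat_lit 70799517432) (nat_lit 76) (nat_lit 66273627797) (nat_lit 2) (nat_lit 4) (nat_lit 3) (nat_lit 5) (nat_lit 3) (nat_lit 4) (nat_lit 389) (nat_lit 282) (nat_lit 229)) (XT.lf (nat_lit 0) (nat_lit 779411109042) (nat_lit 76) (nat_lit 70709034714) (nat_lit 76) (nat_lit 66177373100) (nat_lit 2) (nat_lit 4) (nat_lit 3) (nat_lit 5) (nat_lit 3) (nat_lit 4) (nat_lit 390) (nat_lit 282) (nat_lit 228)))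 (XT.nd (nat_lit 78) (nat_lit 0) (nat_lit 0) (XT.lf (nat_lit 0) (nat_lit 852616145965) (nat_lit 76) (nat_lit 70623908240) (nat_lit 76) (nat_lit 66086902201) (nat_lit 2) (nat_lit 4) (nat_lit 3) (nat_lit 5) (nat_lit 3) (nat_lit 4) (nat_lit 391) (nat_lit 282) (nat_lit 227)) (XT.lf (nat_lit 0) (nat_lit 931654034019) (nat_lit 76) (nat_lit 70543633556) (nat_lit 76) (nat_lit 66001678977) (nat_lit 2) (nat_lit 4) (nat_lit 3) (nat_lit 5) (nat_lit 3) (nat_lit 4) (nat_lit 392) (nat_lit 282) (nat_lit 226))))))) (XT.nd (nat_lit 42900) (nat_lit 0) (nat_lit 228) (XT.nd (nat_lit 42432) (nat_lit 0) (nat_lit 836) (XT.nd (nat_lit 234) (nat_lit 0) (nat_lit 0) (XT.nd (nat_lit 78) (nat_lit 0) (nat_lit 0) (XT.lf (nat_lit 0) (nat_lit 1016993145874) (nat_lit 76) (nat_lit 70467734962) (nat_lit 76) (nat_lit 65921198399) (nat_lit 2) (nat_lit 4) (nat_lit 3) (nat_lit 5) (nat_lit 3) (nat_lit 4) (nat_lit 393) (nat_lit 282)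 (nat_lit 225)) (XT.nd (nat_lit 78) (nat_lit 0) (nat_lit 0) (XT.lf (nat_lit 0) (nat_lit 1109139194786) (nat_lit 76) (nat_lit 70395762687) (nat_lit 76) (nat_lit 65844983548) (nat_lit 2) (nat_lit 4) (nat_lit 3) (nat_lit 5) (nat_lit 3) (nat_lit 4) (nat_lit 394) (nat_lit 282) (nat_lit 224)) (XT.lf (nat_lit 0) (nat_lit 1208638231416) (nat_lit 76) (nat_lit 70327290229) (nat_lit 76) (nat_lit 65772582778) (nat_lit 2) (nat_lit 4) (nat_lit 3) (nat_lit 5) (nat_lit 3) (nat_lit 4) (nat_lit 395) (nat_lit 282) (nat_lit 223)))) (XT.nd (nat_lit 42042) (nat_lit 0) (nat_lit 1368) (XT.lf (nat_lit 0) (nat_lit 1316079879683) (nat_lit 76) (nat_lit 70261911825) (nat_lit 76) (nat_lit 65703567049) (nat_lit 2) (nat_lit 4) (nat_lit 3) (nat_lit 5) (nat_lit 3) (nat_lit 4) (nat_lit 396) (nat_lit 282) (nat_lit 222)) (XT.nd (nat_lit 78) (nat_lit 76) (nat_lit 0) (XT.lf (nat_lit 0) (nat_lit 1434598398) (nat_lit 152) (nat_lit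 5862984789) (nat_lit 0) (nat_lit 1434598398) (nat_lit 21) (nat_lit 5) (nat_lit 23) (nat_lit 4) (nat_lit 21) (nat_lit 4) (nat_lit 334) (nat_lit 283) (nat_lit 283)) (XT.lf (nat_lit 0) (nat_lit 5130450252) (nat_lit 76) (nat_lit 6875421107) (nat_lit 76) (nat_lit 6381857306) (nat_lit 20) (nat_lit 4) (nat_lit 21) (nat_lit 5) (nat_lit 21) (nat_lit 4) (nat_lit 335) (nat_lit 283) (nat_lit 282))))) (XT.nd (nat_lit 234) (nat_lit 304) (nat_lit 0) (XT.nd (nat_lit 78) (nat_lit 76) (nat_lit 0) (XT.lf (nat_lit 0) (nat_lit 2214940969) (nat_lit 152) (nat_lit 15868219792) (nat_lit 0) (nat_lit 1309638759) (nat_lit 18) (nat_lit 5) (nat_lit 20) (nat_lit 4) (nat_lit 18) (nat_lit 4) (nat_lit 336) (nat_lit 283) (nat_lit 281)) (XT.nd (nat_lit 78) (nat_lit 0) (nat_lit 0) (XT.lf (nat_lit 0) (nat_lit 565292541) (nat_lit 76) (nat_lit 10610567010) (nat_lit 76) (nat_lit 9302263460) (nat_lit 17) (nat_lit 4) (nat_lit 18)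 (nat_lit 5) (nat_lit 18) (nat_lit 4) (nat_lit 337) (nat_lit 283) (nat_lit 280)) (XT.lf (nat_lit 0) (nat_lit 18037285363) (nat_lit 76) (nat_lit 2651379953) (nat_lit 76) (nat_lit 969927014) (nat_lit 17) (nat_lit 4) (nat_lit 18) (nat_lit 5) (nat_lit 18) (nat_lit 4) (nat_lit 338) (nat_lit 283) (nat_lit 279)))) (XT.nd (nat_lit 78) (nat_lit 152) (nat_lit 0) (XT.lf (nat_lit 0) (nat_lit 7659502931) (nat_lit 152) (nat_lit 9544353283) (nat_lit 0) (nat_lit 5729063280) (nat_lit 15) (nat_lit 5) (nat_lit 17) (nat_lit 4) (nat_lit 15) (nat_lit 4) (nat_lit 339) (nat_lit 283) (nat_lit 278)) (XT.nd (nat_lit 78) (nat_lit 76) (nat_lit 0) (XT.lf (nat_lit 0) (nat_lit 6969564103) (nat_lit 76) (nat_lit 9791609511) (nat_lit 76) (nat_lit 7556488473) (nat_lit 14) (nat_lit 4) (nat_lit 15) (nat_lit 5) (nat_lit 15) (nat_lit 4) (nat_lit 340) (nat_lit 283) (nat_lit 277)) (XT.lf (nat_lit 0) (nat_lit 531548535) (nat_lit 152)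 (nat_lit 1427558936) (nat_lit 76) (nat_lit 23864587850) (nat_lit 13) (nat_lit 5) (nat_lit 15) (nat_lit 5) (nat_lit 14) (nat_lit 4) (nat_lit 341) (nat_lit 283) (nat_lit 276)))))) (XT.nd (nat_lit 468) (nat_lit 228) (nat_lit 0) (XT.nd (nat_lit 234) (nat_lit 228) (nat_lit 0) (XT.nd (nat_lit 78) (nat_lit 76) (nat_lit 0) (XT.lf (nat_lit 0) (nat_lit 8987278378) (nat_lit 152) (nat_lit 12116379621) (nat_lit 0) (nat_lit 6341136840) (nat_lit 12) (nat_lit 5) (nat_lit 14) (nat_lit 4) (nat_lit 12) (nat_lit 4) (nat_lit 342) (nat_lit 283) (nat_lit 275)) (XT.nd (nat_lit 78) (nat_lit 0) (nat_lit 0) (XT.lf (nat_lit 0) (nat_lit 3686658239) (nat_lit 76) (nat_lit 14198584451) (nat_lit 76) (nat_lit 11322094428) (nat_lit 11) (nat_lit 4) (nat_lit 12) (nat_lit 5) (nat_lit 12) (nat_lit 4) (nat_lit 343) (nat_lit 283) (nat_lit 274)) (XT.lf (nat_lit 0) (nat_lit 20536735050) (nat_lit 76) (nat_lit 6835063030) (nat_lit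 76) (nat_lit 3745287374) (nat_lit 11) (nat_lit 4) (nat_lit 12) (nat_lit 5) (nat_lit 12) (nat_lit 4) (nat_lit 344) (nat_lit 283) (nat_lit 273)))) (XT.nd (nat_lit 78) (nat_lit 76) (nat_lit 0) (XT.lf (nat_lit 0) (nat_lit 4074814418) (nat_lit 152) (nat_lit 28168323096) (nat_lit 0) (nat_lit 944088367) (nat_lit 9) (nat_lit 5) (nat_lit 11) (nat_lit 4) (nat_lit 9) (nat_lit 4) (nat_lit 345) (nat_lit 283) (nat_lit 272)) (XT.nd (nat_lit 78) (nat_lit 76) (nat_lit 0) (XT.lf (nat_lit 0) (nat_lit 12388699223) (nat_lit 152) (nat_lit 13947449158) (nat_lit 0) (nat_lit 9083822644) (nat_lit 9) (nat_lit 5) (nat_lit 11) (nat_lit 4) (nat_lit 9) (nat_lit 4) (nat_lit 346) (nat_lit 283) (nat_lit 271)) (XT.lf (nat_lit 0) (nat_lit 887482553) (nat_lit 76) (nat_lit 20211717771) (nat_lit 76) (nat_lit 16745590704) (nat_lit 8) (nat_lit 4) (nat_lit 9) (nat_lit 5) (nat_lit 9) (nat_lit 4) (nat_lit 347) (nat_lit 283) (nat_lit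 270))))) (XT.nd (nat_lit 234) (nat_lit 76) (nat_lit 0) (XT.nd (nat_lit 78) (nat_lit 152) (nat_lit 0) (XT.lf (nat_lit 0) (nat_lit 16879240579) (nat_lit 76) (nat_lit 13600576797) (nat_lit 76) (nat_lit 9985143723) (nat_lit 8) (nat_lit 4) (nat_lit 9) (nat_lit 5) (nat_lit 9) (nat_lit 4) (nat_lit 348) (nat_lit 283) (nat_lit 269)) (XT.nd (nat_lit 78) (nat_lit 152) (nat_lit 0) (XT.lf (nat_lit 0) (nat_lit 33661425235) (nat_lit 76) (nat_lit 6699755129) (nat_lit 76) (nat_lit 2946075751) (nat_lit 8) (nat_lit 4) (nat_lit 9) (nat_lit 5) (nat_lit 9) (nat_lit 4) (nat_lit 349) (nat_lit 283) (nat_lit 268)) (XT.lf (nat_lit 0) (nat_lit 4361437646) (nat_lit 152) (nat_lit 41354573586) (nat_lit 0) (nat_lit 664594584) (nat_lit 6) (nat_lit 5) (nat_lit 8) (nat_lit 4) (nat_lit 6) (nat_lit 4) (nat_lit 350) (nat_lit 283) (nat_lit 267)))) (XT.nd (nat_lit 156) (nat_lit 76) (nat_lit 0) (XT.nd (nat_lit 78) (nat_lit 0) (nat_lit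 0) (XT.lf (nat_lit 0) (nat_lit 12207603602) (nat_lit 152) (nat_lit 29089082444) (nat_lit 0) (nat_lit 8397880615) (nat_lit 6) (nat_lit 5) (nat_lit 8) (nat_lit 4) (nat_lit 6) (nat_lit 4) (nat_lit 351) (nat_lit 283) (nat_lit 266)) (XT.lf (nat_lit 0) (nat_lit 20470480409) (nat_lit 152) (nat_lit 16257493898) (nat_lit 0) (nat_lit 16556238971) (nat_lit 6) (nat_lit 5) (nat_lit 8) (nat_lit 4) (nat_lit 6) (nat_lit 4) (nat_lit 352) (nat_lit 283) (nat_lit 265))) (XT.nd (nat_lit 78) (nat_lit 76) (nat_lit 0) (XT.lf (nat_lit 0) (nat_lit 29199033263) (nat_lit 152) (nat_lit 2783768904) (nat_lit 0) (nat_lit 25188015482) (nat_lit 6) (nat_lit 5) (nat_lit 8) (nat_lit 4) (nat_lit 6) (nat_lit 4) (nat_lit 353) (nat_lit 283) (nat_lit 264)) (XT.lf (nat_lit 0) (nat_lit 11789267002) (nat_lit 76) (nat_lit 26839783415) (nat_lit 76) (nat_lit 22739157910) (nat_lit 5) (nat_lit 4) (nat_lit 6) (nat_lit 5) (nat_lit 6) (nat_lit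 4) (nat_lit 354) (nat_lit 283) (nat_lit 263))))))))
noncomputable def xc20 : XT := (XT.nd (nat_lit 1872) (nat_lit 0) (nat_lit 0) (XT.nd (nat_lit 936) (nat_lit 76) (nat_lit 0) (XT.nd (nat_lit 468) (nat_lit 0) (nat_lit 0) (XT.nd (nat_lit 234) (nat_lit 152) (nat_lit 0) (XT.nd (nat_lit 78) (nat_lit 0) (nat_lit 0) (XT.lf (nat_lit 0) (nat_lit 27287103746) (nat_lit 76) (nat_lit 21402056634) (nat_lit 76) (nat_lit 17218461013) (nat_lit 5) (nat_lit 4) (nat_lit 6) (nat_lit 5) (nat_lit 6) (nat_lit 4) (nat_lit 355) (nat_lit 283) (nat_lit 262)) (XT.nd (nat_lit 78) (nat_lit 0) (nat_lit 0) (XT.lf (nat_lit 0) (nat_lit 43709536388) (nat_lit 76) (nat_lit 15684542730) (nat_lit 76) (nat_lit 11424122928) (nat_lit 5) (nat_lit 4) (nat_lit 6) (nat_lit 5) (nat_lit 6) (nat_lit 4) (nat_lit 356) (nat_lit 283) (nat_lit 261)) (XT.lf (nat_lit 0) (nat_lit 61153883046) (nat_lit 76) (nat_lit 9653360141) (nat_lit 76) (nat_lit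 5321806838) (nat_lit 5) (nat_lit 4) (nat_lit 6) (nat_lit 5) (nat_lit 6) (nat_lit 4) (nat_lit 357) (nat_lit 283) (nat_lit 260)))) (XT.nd (nat_lit 78) (nat_lit 76) (nat_lit 0) (XT.lf (nat_lit 0) (nat_lit 1088653334) (nat_lit 152) (nat_lit 2165678319) (nat_lit 76) (nat_lit 78616427422) (nat_lit 4) (nat_lit 5) (nat_lit 6) (nat_lit 5) (nat_lit 5) (nat_lit 4) (nat_lit 358) (nat_lit 283) (nat_lit 259)) (XT.nd (nat_lit 78) (nat_lit 0) (nat_lit 0) (XT.lf (nat_lit 0) (nat_lit 7941133818) (nat_lit 152) (nat_lit 76425502642) (nat_lit 0) (nat_lit 3695035563) (nat_lit 3) (nat_lit 5) (nat_lit 5) (nat_lit 4) (nat_lit 3) (nat_lit 4) (nat_lit 359) (nat_lit 283) (nat_lit 258)) (XT.lf (nat_lit 0) (nat_lit 15309810373) (nat_lit 152) (nat_lit 68429724923) (nat_lit 0) (nat_lit 11009933007) (nat_lit 3) (nat_lit 5) (nat_lit 5) (nat_lit 4) (nat_lit 3) (nat_lit 4) (nat_lit 360) (nat_lit 283) (nat_lit 257))))) (XT.nd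 (nat_lit 234) (nat_lit 0) (nat_lit 0) (XT.nd (nat_lit 78) (nat_lit 0) (nat_lit 0) (XT.lf (nat_lit 0) (nat_lit 23152037071) (nat_lit 152) (nat_lit 60023693609) (nat_lit 0) (nat_lit 18802364231) (nat_lit 3) (nat_lit 5) (nat_lit 5) (nat_lit 4) (nat_lit 3) (nat_lit 4) (nat_lit 361) (nat_lit 283) (nat_lit 256)) (XT.nd (nat_lit 78) (nat_lit 0) (nat_lit 0) (XT.lf (nat_lit 0) (nat_lit 31514286365) (nat_lit 152) (nat_lit 51157595181) (nat_lit 0) (nat_lit 27118506606) (nat_lit 3) (nat_lit 5) (nat_lit 5) (nat_lit 4) (nat_lit 3) (nat_lit 4) (nat_lit 362) (nat_lit 283) (nat_lit 255)) (XT.lf (nat_lit 0) (nat_lit 40446112326) (nat_lit 152) (nat_lit 41778889796) (nat_lit 0) (nat_lit 36007640975) (nat_lit 3) (nat_lit 5) (nat_lit 5) (nat_lit 4) (nat_lit 3) (nat_lit 4) (nat_lit 363) (nat_lit 283) (nat_lit 254)))) (XT.nd (nat_lit 78) (nat_lit 0) (nat_lit 0) (XT.lf (nat_lit 0) (nat_lit 50000444293) (nat_lit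 152) (nat_lit 31831999941) (nat_lit 0) (nat_lit 45522443690) (nat_lit 3) (nat_lit 5) (nat_lit 5) (nat_lit 4) (nat_lit 3) (nat_lit 4) (nat_lit 364) (nat_lit 283) (nat_lit 253)) (XT.nd (nat_lit 78) (nat_lit 0) (nat_lit 0) (XT.lf (nat_lit 0) (nat_lit 60233900529) (nat_lit 152) (nat_lit 21257981083) (nat_lit 0) (nat_lit 55719298767) (nat_lit 3) (nat_lit 5) (nat_lit 5) (nat_lit 4) (nat_lit 3) (nat_lit 4) (nat_lit 365) (nat_lit 283) (nat_lit 252)) (XT.lf (nat_lit 0) (nat_lit 71207123738) (nat_lit 152) (nat_lit 9994172369) (nat_lit 0) (nat_lit 66658632013) (nat_lit 3) (nat_lit 5) (nat_lit 5) (nat_lit 4) (nat_lit 3) (nat_lit 4) (nat_lit 366) (nat_lit 283) (nat_lit 251)))))) (XT.nd (nat_lit 468) (nat_lit 0) (nat_lit 0) (XT.nd (nat_lit 234) (nat_lit 0) (nat_lit 0) (XT.nd (nat_lit 78) (nat_lit 0) (nat_lit 0) (XT.lf (nat_lit 0) (nat_lit 2093169180) (nat_lit 76) (nat_lit 80924651485) (nat_lit 76) (nat_lit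 76344780165) (nat_lit 2) (nat_lit 4) (nat_lit 3) (nat_lit 5) (nat_lit 3) (nat_lit 4) (nat_lit 367) (nat_lit 283) (nat_lit 250)) (XT.nd (nat_lit 78) (nat_lit 0) (nat_lit 0) (XT.lf (nat_lit 0) (nat_lit 15366103057) (nat_lit 76) (nat_lit 80511551128) (nat_lit 76) (nat_lit 75902624628) (nat_lit 2) (nat_lit 4) (nat_lit 3) (nat_lit 5) (nat_lit 3) (nat_lit 4) (nat_lit 368) (nat_lit 283) (nat_lit 249)) (XT.lf (nat_lit 0) (nat_lit 29572831210) (nat_lit 76) (nat_lit 80128803180) (nat_lit 76) (nat_lit 75492973736) (nat_lit 2) (nat_lit 4) (nat_lit 3) (nat_lit 5) (nat_lit 3) (nat_lit 4) (nat_lit 369) (nat_lit 283) (nat_lit 248)))) (XT.nd (nat_lit 78) (nat_lit 0) (nat_lit 0) (XT.lf (nat_lit 0) (nat_lit 44797541659) (nat_lit 76) (nat_lit 79774139507) (nat_lit 76) (nat_lit 75113399928) (nat_lit 2) (nat_lit 4) (nat_lit 3) (nat_lit 5) (nat_lit 3) (nat_lit 4) (nat_lit 370) (nat_lit 283) (nat_lit 247)) (XT.nd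 (nat_lit 78) (nat_lit 0) (nat_lit 0) (XT.lf (nat_lit 0) (nat_lit 61130454908) (nat_lit 76) (nat_lit 79445458396) (nat_lit 76) (nat_lit 74761653878) (nat_lit 2) (nat_lit 4) (nat_lit 3) (nat_lit 5) (nat_lit 3) (nat_lit 4) (nat_lit 371) (nat_lit 283) (nat_lit 246)) (XT.lf (nat_lit 0) (nat_lit 78668358594) (nat_lit 76) (nat_lit 79140812107) (nat_lit 76) (nat_lit 74435651165) (nat_lit 2) (nat_lit 4) (nat_lit 3) (nat_lit 5) (nat_lit 3) (nat_lit 4) (nat_lit 372) (nat_lit 283) (nat_lit 245))))) (XT.nd (nat_lit 234) (nat_lit 0) (nat_lit 0) (XT.nd (nat_lit 78) (nat_lit 0) (nat_lit 0) (XT.lf (nat_lit 0) (nat_lit 97515181032) (nat_lit 76) (nat_lit 78858395331) (nat_lit 76) (nat_lit 74133459921) (nat_lit 2) (nat_lit 4) (nat_lit 3) (nat_lit 5) (nat_lit 3) (nat_lit 4) (nat_lit 373) (nat_lit 283) (nat_lit 244)) (XT.nd (nat_lit 78) (nat_lit 0) (nat_lit 0) (XT.lf (nat_lit 0) (nat_lit 117782607098) (nat_lit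 76) (nat_lit 78596534485) (nat_lit 76) (nat_lit 73853289383) (nat_lit 2) (nat_lit 4) (nat_lit 3) (nat_lit 5) (nat_lit 3) (nat_lit 4) (nat_lit 374) (nat_lit 283) (nat_lit 243)) (XT.lf (nat_lit 0) (nat_lit 139590740057) (nat_lit 76) (nat_lit 78353677802) (nat_lit 76) (nat_lit 73593479281) (nat_lit 2) (nat_lit 4) (nat_lit 3) (nat_lit 5) (nat_lit 3) (nat_lit 4) (nat_lit 375) (nat_lit 283) (nat_lit 242)))) (XT.nd (nat_lit 78) (nat_lit 0) (nat_lit 0) (XT.lf (nat_lit 0) (nat_lit 163068813289) (nat_lit 76) (nat_lit 78128386131) (nat_lit 76) (nat_lit 73352490000) (nat_lit 2) (nat_lit 4) (nat_lit 3) (nat_lit 5) (nat_lit 3) (nat_lit 4) (nat_lit 376) (nat_lit 283) (nat_lit 241)) (XT.nd (nat_lit 78) (nat_lit 0) (nat_lit 0) (XT.lf (nat_lit 0) (nat_lit 188355956118) (nat_lit 76) (nat_lit 77919324410) (nat_lit 76) (nat_lit 73128893456) (nat_lit 2) (nat_lit 4) (nat_lit 3) (nat_lit 5) (nat_lit 3) (nat_lit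 4) (nat_lit 377) (nat_lit 283) (nat_lit 240)) (XT.lf (nat_lit 0) (nat_lit 215602018277) (nat_lit 76) (nat_lit 77725253755) (nat_lit 76) (nat_lit 72921364630) (nat_lit 2) (nat_lit 4) (nat_lit 3) (nat_lit 5) (nat_lit 3) (nat_lit 4) (nat_lit 378) (nat_lit 283) (nat_lit 239))))))) (XT.nd (nat_lit 936) (nat_lit 0) (nat_lit 0) (XT.nd (nat_lit 468) (nat_lit 0) (nat_lit 0) (XT.nd (nat_lit 234) (nat_lit 0) (nat_lit 0) (XT.nd (nat_lit 78) (nat_lit 0) (nat_lit 0) (XT.lf (nat_lit 0) (nat_lit 244968457915) (nat_lit 76) (nat_lit 77545024117) (nat_lit 76) (nat_lit 72728673724) (nat_lit 2) (nat_lit 4) (nat_lit 3) (nat_lit 5) (nat_lit 3) (nat_lit 4) (nat_lit 379) (nat_lit 283) (nat_lit 238)) (XT.nd (nat_lit 78) (nat_lit 0) (nat_lit 0) (XT.lf (nat_lit 0) (nat_lit 276629298376) (nat_lit 76) (nat_lit 77377567470) (nat_lit 76) (nat_lit 72549678865) (nat_lit 2) (nat_lit 4) (nat_lit 3) (nat_lit 5) (nat_lit 3)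 (nat_lit 4) (nat_lit 380) (nat_lit 283) (nat_lit 237)) (XT.lf (nat_lit 0) (nat_lit 310772159456) (nat_lit 76) (nat_lit 77221891477) (nat_lit 76) (nat_lit 72383319343) (nat_lit 2) (nat_lit 4) (nat_lit 3) (nat_lit 5) (nat_lit 3) (nat_lit 4) (nat_lit 381) (nat_lit 283) (nat_lit 236)))) (XT.nd (nat_lit 78) (nat_lit 0) (nat_lit 0) (XT.lf (nat_lit 0) (nat_lit 347599369220) (nat_lit 76) (nat_lit 77077073615) (nat_lit 76) (nat_lit 72228609323) (nat_lit 2) (nat_lit 4) (nat_lit 3) (nat_lit 5) (nat_lit 3) (nat_lit 4) (nat_lit 382) (nat_lit 283) (nat_lit 235)) (XT.nd (nat_lit 78) (nat_lit 0) (nat_lit 0) (XT.lf (nat_lit 0) (nat_lit 387329162986) (nat_lit 76) (nat_lit 76942255702) (nat_lit 76) (nat_lit 72084632006) (nat_lit 2) (nat_lit 4) (nat_lit 3) (nat_lit 5) (nat_lit 3) (nat_lit 4) (nat_lit 383) (nat_lit 283) (nat_lit 234)) (XT.lf (nat_lit 0) (nat_lit 430196976569) (nat_lit 76) (nat_lit 76816638819)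 (nat_lit 76) (nat_lit 71950534192) (nat_lit 2) (nat_lit 4) (nat_lit 3) (nat_lit 5) (nat_lit 3) (nat_lit 4) (nat_lit 384) (nat_lit 283) (nat_lit 233))))) (XT.nd (nat_lit 234) (nat_lit 0) (nat_lit 0) (XT.nd (nat_lit 78) (nat_lit 0) (nat_lit 0) (XT.lf (nat_lit 0) (nat_lit 476456841457) (nat_lit 76) (nat_lit 76699478568) (nat_lit 76) (nat_lit 71825521229) (nat_lit 2) (nat_lit 4) (nat_lit 3) (nat_lit 5) (nat_lit 3) (nat_lit 4) (nat_lit 385) (nat_lit 283) (nat_lit 232)) (XT.nd (nat_lit 78) (nat_lit 0) (nat_lit 0) (XT.lf (nat_lit 0) (nat_lit 526382890181) (nat_lit 76) (nat_lit 76590080667) (nat_lit 76) (nat_lit 71708852297) (nat_lit 2) (nat_lit 4) (nat_lit 3) (nat_lit 5) (nat_lit 3) (nat_lit 4) (nat_lit 386) (nat_lit 283) (nat_lit 231)) (XT.lf (nat_lit 0) (nat_lit 580270980809) (nat_lit 76) (nat_lit 76487796833) (nat_lit 76) (nat_lit 71599836027) (nat_lit 2) (nat_lit 4) (nat_lit 3) (nat_lit 5)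 (nat_lit 3) (nat_lit 4) (nat_lit 387) (nat_lit 283) (nat_lit 230)))) (XT.nd (nat_lit 78) (nat_lit 0) (nat_lit 0) (XT.lf (nat_lit 0) (nat_lit 638440450175) (nat_lit 76) (nat_lit 76392020937) (nat_lit 76) (nat_lit 71497826395) (nat_lit 2) (nat_lit 4) (nat_lit 3) (nat_lit 5) (nat_lit 3) (nat_lit 4) (nat_lit 388) (nat_lit 283) (nat_lit 229)) (XT.nd (nat_lit 78) (nat_lit 0) (nat_lit 0) (XT.lf (nat_lit 0) (nat_lit 701236006244) (nat_lit 76) (nat_lit 76302185421) (nat_lit 76) (nat_lit 71402218900) (nat_lit 2) (nat_lit 4) (nat_lit 3) (nat_lit 5) (nat_lit 3) (nat_lit 4) (nat_lit 389) (nat_lit 283) (nat_lit 228)) (XT.lf (nat_lit 0) (nat_lit 769029770830) (nat_lit 76) (nat_lit 76217757925) (nat_lit 76) (nat_lit 71312446979) (nat_lit 2) (nat_lit 4) (nat_lit 3) (nat_lit 5) (nat_lit 3) (nat_lit 4) (nat_lit 390) (nat_lit 283) (nat_lit 227)))))) (XT.nd (nat_lit 42276) (nat_lit 0) (nat_lit 1140) (XT.nd (nat_lit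 234) (nat_lit 0) (nat_lit 0) (XT.nd (nat_lit 78) (nat_lit 0) (nat_lit 0) (XT.lf (nat_lit 0) (nat_lit 842223484761) (nat_lit 76) (nat_lit 76138238137) (nat_lit 76) (nat_lit 71227978650) (nat_lit 2) (nat_lit 4) (nat_lit 3) (nat_lit 5) (nat_lit 3) (nat_lit 4) (nat_lit 391) (nat_lit 283) (nat_lit 226)) (XT.nd (nat_lit 78) (nat_lit 0) (nat_lit 0) (XT.lf (nat_lit 0) (nat_lit 921250888564) (nat_lit 76) (nat_lit 76063154831) (nat_lit 76) (nat_lit 71148313361) (nat_lit 2) (nat_lit 4) (nat_lit 3) (nat_lit 5) (nat_lit 3) (nat_lit 4) (nat_lit 392) (nat_lit 283) (nat_lit 225)) (XT.lf (nat_lit 0) (nat_lit 1006580292779) (nat_lit 76) (nat_lit 75992063066) (nat_lit 76) (nat_lit 71072979020) (nat_lit 2) (nat_lit 4) (nat_lit 3) (nat_lit 5) (nat_lit 3) (nat_lit 4) (nat_lit 393) (nat_lit 283) (nat_lit 224)))) (XT.nd (nat_lit 78) (nat_lit 0) (nat_lit 0) (XT.lf (nat_lit 0) (nat_lit 1098717353135) (nat_lit 76)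 (nat_lit 75924541560) (nat_lit 76) (nat_lit 71001529202) (nat_lit 2) (nat_lit 4) (nat_lit 3) (nat_lit 5) (nat_lit 3) (nat_lit 4) (nat_lit 394) (nat_lit 283) (nat_lit 223)) (XT.nd (nat_lit 78) (nat_lit 0) (nat_lit 0) (XT.lf (nat_lit 0) (nat_lit 1198208067028) (nat_lit 76) (nat_lit 75860190185) (nat_lit 76) (nat_lit 70933540501) (nat_lit 2) (nat_lit 4) (nat_lit 3) (nat_lit 5) (nat_lit 3) (nat_lit 4) (nat_lit 395) (nat_lit 283) (nat_lit 222)) (XT.lf (nat_lit 0) (nat_lit 1305642009057) (nat_lit 76) (nat_lit 75798627598) (nat_lit 76) (nat_lit 70868610020) (nat_lit 2) (nat_lit 4) (nat_lit 3) (nat_lit 5) (nat_lit 3) (nat_lit 4) (nat_lit 396) (nat_lit 283) (nat_lit 221))))) (XT.nd (nat_lit 234) (nat_lit 304) (nat_lit 0) (XT.nd (nat_lit 78) (nat_lit 228) (nat_lit 0) (XT.lf (nat_lit 0) (nat_lit 1180765409) (nat_lit 152) (nat_lit 5545479752) (nat_lit 0) (nat_lit 1180765409) (nat_lit 24) (nat_lit 5)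 (nat_lit 26) (nat_lit 4) (nat_lit 24) (nat_lit 4) (nat_lit 332) (nat_lit 284) (nat_lit 284)) (XT.nd (nat_lit 78) (nat_lit 152) (nat_lit 0) (XT.lf (nat_lit 0) (nat_lit 5381957482) (nat_lit 76) (nat_lit 5894183270) (nat_lit 76) (nat_lit 5334481919) (nat_lit 23) (nat_lit 4) (nat_lit 24) (nat_lit 5) (nat_lit 24) (nat_lit 4) (nat_lit 333) (nat_lit 284) (nat_lit 283)) (XT.lf (nat_lit 0) (nat_lit 3165281474) (nat_lit 152) (nat_lit 12172306059) (nat_lit 0) (nat_lit 2138668768) (nat_lit 21) (nat_lit 5) (nat_lit 23) (nat_lit 4) (nat_lit 21) (nat_lit 4) (nat_lit 334) (nat_lit 284) (nat_lit 282)))) (XT.nd (nat_lit 156) (nat_lit 76) (nat_lit 0) (XT.nd (nat_lit 78) (nat_lit 152) (nat_lit 0) (XT.lf (nat_lit 0) (nat_lit 4242416633) (nat_lit 76) (nat_lit 7826263388) (nat_lit 76) (nat_lit 6342647162) (nat_lit 20) (nat_lit 4) (nat_lit 21) (nat_lit 5) (nat_lit 21) (nat_lit 4) (nat_lit 335) (nat_lit 284) (nat_lit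 281)) (XT.lf (nat_lit 0) (nat_lit 2000750027) (nat_lit 152) (nat_lit 17243480527) (nat_lit 0) (nat_lit 184780853) (nat_lit 18) (nat_lit 5) (nat_lit 20) (nat_lit 4) (nat_lit 18) (nat_lit 4) (nat_lit 336) (nat_lit 284) (nat_lit 280))) (XT.nd (nat_lit 78) (nat_lit 76) (nat_lit 0) (XT.lf (nat_lit 0) (nat_lit 10746957611) (nat_lit 152) (nat_lit 1220307749) (nat_lit 0) (nat_lit 8557839048) (nat_lit 18) (nat_lit 5) (nat_lit 20) (nat_lit 4) (nat_lit 18) (nat_lit 4) (nat_lit 337) (nat_lit 284) (nat_lit 279)) (XT.lf (nat_lit 0) (nat_lit 15836136084) (nat_lit 76) (nat_lit 4207452539) (nat_lit 76) (nat_lit 1672825283) (nat_lit 17) (nat_lit 4) (nat_lit 18) (nat_lit 5) (nat_lit 18) (nat_lit 4) (nat_lit 338) (nat_lit 284) (nat_lit 278))))))))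
noncomputable def xc21 : XT := (XT.nd (nat_lit 1950) (nat_lit 76) (nat_lit 0) (XT.nd (nat_lit 936) (nat_lit 304) (nat_lit 0) (XT.nd (nat_lit 468) (nat_lit 304) (nat_lit 0) (XT.nd (nat_lit 234) (nat_lit 228) (nat_lit 0) (XT.nd (nat_lit 78) (nat_lit 76) (nat_lit 0) (XT.lf (nat_lit 0) (nat_lit 6724398430) (nat_lit 152) (nat_lit 12273867923) (nat_lit 0) (nat_lit 4005786322) (nat_lit 15) (nat_lit 5) (nat_lit 17) (nat_lit 4) (nat_lit 15) (nat_lit 4) (nat_lit 339) (nat_lit 284) (nat_lit 277)) (XT.nd (nat_lit 78) (nat_lit 0) (nat_lit 0) (XT.lf (nat_lit 0) (nat_lit 3793894459) (nat_lit 76) (nat_lit 11803541327) (nat_lit 76) (nat_lit 8802816823) (nat_lit 14) (nat_lit 4) (nat_lit 15) (nat_lit 5) (nat_lit 15) (nat_lit 4) (nat_lit 340) (nat_lit 284) (nat_lit 276)) (XT.lf (nat_lit 0) (nat_lit 20899927177) (nat_lit 76) (nat_lit 4138648749) (nat_lit 76) (nat_lit 876709064) (nat_lit 14) (nat_lit 4) (nat_lit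 15) (nat_lit 5) (nat_lit 15) (nat_lit 4) (nat_lit 341) (nat_lit 284) (nat_lit 275)))) (XT.nd (nat_lit 78) (nat_lit 76) (nat_lit 0) (XT.lf (nat_lit 0) (nat_lit 7345922393) (nat_lit 152) (nat_lit 16195260715) (nat_lit 0) (nat_lit 4008964685) (nat_lit 12) (nat_lit 5) (nat_lit 14) (nat_lit 4) (nat_lit 12) (nat_lit 4) (nat_lit 342) (nat_lit 284) (nat_lit 274)) (XT.nd (nat_lit 78) (nat_lit 76) (nat_lit 0) (XT.lf (nat_lit 0) (nat_lit 16030481871) (nat_lit 152) (nat_lit 812659322) (nat_lit 0) (nat_lit 12480238529) (nat_lit 12) (nat_lit 5) (nat_lit 14) (nat_lit 4) (nat_lit 12) (nat_lit 4) (nat_lit 343) (nat_lit 284) (nat_lit 273)) (XT.lf (nat_lit 0) (nat_lit 15721250610) (nat_lit 76) (nat_lit 9633860874) (nat_lit 76) (nat_lit 5886130834) (nat_lit 11) (nat_lit 4) (nat_lit 12) (nat_lit 5) (nat_lit 12) (nat_lit 4) (nat_lit 344) (nat_lit 284) (nat_lit 272))))) (XT.nd (nat_lit 234) (nat_lit 152) (nat_lit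 0) (XT.nd (nat_lit 78) (nat_lit 76) (nat_lit 0) (XT.lf (nat_lit 0) (nat_lit 1768585498) (nat_lit 152) (nat_lit 304987822) (nat_lit 76) (nat_lit 31251191794) (nat_lit 10) (nat_lit 5) (nat_lit 12) (nat_lit 5) (nat_lit 11) (nat_lit 4) (nat_lit 345) (nat_lit 284) (nat_lit 271)) (XT.nd (nat_lit 78) (nat_lit 0) (nat_lit 0) (XT.lf (nat_lit 0) (nat_lit 9909350741) (nat_lit 152) (nat_lit 19652147148) (nat_lit 0) (nat_lit 6004683021) (nat_lit 9) (nat_lit 5) (nat_lit 11) (nat_lit 4) (nat_lit 9) (nat_lit 4) (nat_lit 346) (nat_lit 284) (nat_lit 270)) (XT.lf (nat_lit 0) (nat_lit 18480305503) (nat_lit 152) (nat_lit 5091354539) (nat_lit 0) (nat_lit 14426331775) (nat_lit 9) (nat_lit 5) (nat_lit 11) (nat_lit 4) (nat_lit 9) (nat_lit 4) (nat_lit 347) (nat_lit 284) (nat_lit 269)))) (XT.nd (nat_lit 78) (nat_lit 76) (nat_lit 0) (XT.lf (nat_lit 0) (nat_lit 10497005498) (nat_lit 76) (nat_lit 17161748710) (nat_lit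 76) (nat_lit 12969528679) (nat_lit 8) (nat_lit 4) (nat_lit 9) (nat_lit 5) (nat_lit 9) (nat_lit 4) (nat_lit 348) (nat_lit 284) (nat_lit 268)) (XT.nd (nat_lit 78) (nat_lit 76) (nat_lit 0) (XT.lf (nat_lit 0) (nat_lit 27061546808) (nat_lit 76) (nat_lit 10367413235) (nat_lit 76) (nat_lit 6047187367) (nat_lit 8) (nat_lit 4) (nat_lit 9) (nat_lit 5) (nat_lit 9) (nat_lit 4) (nat_lit 349) (nat_lit 284) (nat_lit 267)) (XT.lf (nat_lit 0) (nat_lit 1165594529) (nat_lit 152) (nat_lit 2049281005) (nat_lit 76) (nat_lit 43346752023) (nat_lit 7) (nat_lit 5) (nat_lit 9) (nat_lit 5) (nat_lit 8) (nat_lit 4) (nat_lit 350) (nat_lit 284) (nat_lit 266)))))) (XT.nd (nat_lit 468) (nat_lit 152) (nat_lit 0) (XT.nd (nat_lit 234) (nat_lit 76) (nat_lit 0) (XT.nd (nat_lit 78) (nat_lit 0) (nat_lit 0) (XT.lf (nat_lit 0) (nat_lit 8826538639) (nat_lit 152) (nat_lit 36563680930) (nat_lit 0) (nat_lit 4494639436) (nat_lit 6) (nat_lit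 5) (nat_lit 8) (nat_lit 4) (nat_lit 6) (nat_lit 4) (nat_lit 351) (nat_lit 284) (nat_lit 265)) (XT.nd (nat_lit 78) (nat_lit 0) (nat_lit 0) (XT.lf (nat_lit 0) (nat_lit 16995495207) (nat_lit 152) (nat_lit 23916895574) (nat_lit 0) (nat_lit 12566819661) (nat_lit 6) (nat_lit 5) (nat_lit 8) (nat_lit 4) (nat_lit 6) (nat_lit 4) (nat_lit 352) (nat_lit 284) (nat_lit 264)) (XT.lf (nat_lit 0) (nat_lit 25637084876) (nat_lit 152) (nat_lit 10614284645) (nat_lit 0) (nat_lit 21118801605) (nat_lit 6) (nat_lit 5) (nat_lit 8) (nat_lit 4) (nat_lit 6) (nat_lit 4) (nat_lit 353) (nat_lit 284) (nat_lit 263)))) (XT.nd (nat_lit 78) (nat_lit 0) (nat_lit 0) (XT.lf (nat_lit 0) (nat_lit 3536161391) (nat_lit 76) (nat_lit 31321565065) (nat_lit 76) (nat_lit 26720311678) (nat_lit 5) (nat_lit 4) (nat_lit 6) (nat_lit 5) (nat_lit 6) (nat_lit 4) (nat_lit 354) (nat_lit 284) (nat_lit 262)) (XT.nd (nat_lit 78) (nat_lit 0) (nat_lit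 0) (XT.lf (nat_lit 0) (nat_lit 18882444749) (nat_lit 76) (nat_lit 25958468582) (nat_lit 76) (nat_lit 21280391014) (nat_lit 5) (nat_lit 4) (nat_lit 6) (nat_lit 5) (nat_lit 6) (nat_lit 4) (nat_lit 355) (nat_lit 284) (nat_lit 261)) (XT.lf (nat_lit 0) (nat_lit 35164550182) (nat_lit 76) (nat_lit 20310056806) (nat_lit 76) (nat_lit 15560845738) (nat_lit 5) (nat_lit 4) (nat_lit 6) (nat_lit 5) (nat_lit 6) (nat_lit 4) (nat_lit 356) (nat_lit 284) (nat_lit 260))))) (XT.nd (nat_lit 234) (nat_lit 0) (nat_lit 0) (XT.nd (nat_lit 78) (nat_lit 152) (nat_lit 0) (XT.lf (nat_lit 0) (nat_lit 52478964240) (nat_lit 76) (nat_lit 14342857669) (nat_lit 76) (nat_lit 9527782248) (nat_lit 5) (nat_lit 4) (nat_lit 6) (nat_lit 5) (nat_lit 6) (nat_lit 4) (nat_lit 357) (nat_lit 284) (nat_lit 259)) (XT.nd (nat_lit 78) (nat_lit 152) (nat_lit 0) (XT.lf (nat_lit 0) (nat_lit 70928290857) (nat_lit 76) (nat_lit 8021509990) (nat_lit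 76) (nat_lit 3145449057) (nat_lit 5) (nat_lit 4) (nat_lit 6) (nat_lit 5) (nat_lit 6) (nat_lit 4) (nat_lit 358) (nat_lit 284) (nat_lit 258)) (XT.lf (nat_lit 0) (nat_lit 2333528206) (nat_lit 76) (nat_lit 1210889942) (nat_lit 152) (nat_lit 84757369425) (nat_lit 3) (nat_lit 5) (nat_lit 4) (nat_lit 5) (nat_lit 5) (nat_lit 4) (nat_lit 359) (nat_lit 284) (nat_lit 257)))) (XT.nd (nat_lit 156) (nat_lit 0) (nat_lit 0) (XT.nd (nat_lit 78) (nat_lit 0) (nat_lit 0) (XT.lf (nat_lit 0) (nat_lit 10838447020) (nat_lit 152) (nat_lit 78063868870) (nat_lit 0) (nat_lit 6091004880) (nat_lit 3) (nat_lit 5) (nat_lit 5) (nat_lit 4) (nat_lit 3) (nat_lit 4) (nat_lit 360) (nat_lit 284) (nat_lit 256)) (XT.lf (nat_lit 0) (nat_lit 18629060477) (nat_lit 152) (nat_lit 69759960340) (nat_lit 0) (nat_lit 13835511418) (nat_lit 3) (nat_lit 5) (nat_lit 5) (nat_lit 4) (nat_lit 3) (nat_lit 4) (nat_lit 361) (nat_lit 284) (nat_lit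 255))) (XT.nd (nat_lit 78) (nat_lit 0) (nat_lit 0) (XT.lf (nat_lit 0) (nat_lit 26943519735) (nat_lit 152) (nat_lit 60988420045) (nat_lit 0) (nat_lit 22107279083) (nat_lit 3) (nat_lit 5) (nat_lit 5) (nat_lit 4) (nat_lit 3) (nat_lit 4) (nat_lit 362) (nat_lit 284) (nat_lit 254)) (XT.lf (nat_lit 0) (nat_lit 35831095661) (nat_lit 152) (nat_lit 51697268487) (nat_lit 0) (nat_lit 30955325758) (nat_lit 3) (nat_lit 5) (nat_lit 5) (nat_lit 4) (nat_lit 3) (nat_lit 4) (nat_lit 363) (nat_lit 284) (nat_lit 253))))))) (XT.nd (nat_lit 936) (nat_lit 0) (nat_lit 0) (XT.nd (nat_lit 468) (nat_lit 0) (nat_lit 0) (XT.nd (nat_lit 234) (nat_lit 76) (nat_lit 0) (XT.nd (nat_lit 78) (nat_lit 0) (nat_lit 0) (XT.lf (nat_lit 0) (nat_lit 45344455374) (nat_lit 152) (nat_lit 41831446991) (nat_lit 0) (nat_lit 40432084312) (nat_lit 3) (nat_lit 5) (nat_lit 5) (nat_lit 4) (nat_lit 3) (nat_lit 4) (nat_lit 364) (nat_lit 284) (nat_lit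 252)) (XT.nd (nat_lit 78) (nat_lit 0) (nat_lit 0) (XT.lf (nat_lit 0) (nat_lit 55539974338) (nat_lit 152) (nat_lit 31332491427) (nat_lit 0) (nat_lit 50593713314) (nat_lit 3) (nat_lit 5) (nat_lit 5) (nat_lit 4) (nat_lit 3) (nat_lit 4) (nat_lit 365) (nat_lit 284) (nat_lit 251)) (XT.lf (nat_lit 0) (nat_lit 66478070444) (nat_lit 152) (nat_lit 20138185765) (nat_lit 0) (nat_lit 61500429824) (nat_lit 3) (nat_lit 5) (nat_lit 5) (nat_lit 4) (nat_lit 3) (nat_lit 4) (nat_lit 366) (nat_lit 284) (nat_lit 250)))) (XT.nd (nat_lit 78) (nat_lit 76) (nat_lit 0) (XT.lf (nat_lit 0) (nat_lit 78223562037) (nat_lit 152) (nat_lit 8182193378) (nat_lit 0) (nat_lit 73216866238) (nat_lit 3) (nat_lit 5) (nat_lit 5) (nat_lit 4) (nat_lit 3) (nat_lit 4) (nat_lit 367) (nat_lit 284) (nat_lit 249)) (XT.nd (nat_lit 78) (nat_lit 0) (nat_lit 0) (XT.lf (nat_lit 0) (nat_lit 4758642333) (nat_lit 76) (nat_lit 86161705442) (nat_lit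 76) (nat_lit 81128106698) (nat_lit 2) (nat_lit 4) (nat_lit 3) (nat_lit 5) (nat_lit 3) (nat_lit 4) (nat_lit 368) (nat_lit 284) (nat_lit 248)) (XT.lf (nat_lit 0) (nat_lit 18908372430) (nat_lit 76) (nat_lit 85807180625) (nat_lit 76) (nat_lit 80748671746) (nat_lit 2) (nat_lit 4) (nat_lit 3) (nat_lit 5) (nat_lit 3) (nat_lit 4) (nat_lit 369) (nat_lit 284) (nat_lit 247))))) (XT.nd (nat_lit 234) (nat_lit 0) (nat_lit 0) (XT.nd (nat_lit 78) (nat_lit 0) (nat_lit 0) (XT.lf (nat_lit 0) (nat_lit 34080306900) (nat_lit 76) (nat_lit 85478649478) (nat_lit 76) (nat_lit 80397075661) (nat_lit 2) (nat_lit 4) (nat_lit 3) (nat_lit 5) (nat_lit 3) (nat_lit 4) (nat_lit 370) (nat_lit 284) (nat_lit 246)) (XT.nd (nat_lit 78) (nat_lit 0) (nat_lit 0) (XT.lf (nat_lit 0) (nat_lit 50364353503) (nat_lit 76) (nat_lit 85174165152) (nat_lit 76) (nat_lit 80071234909) (nat_lit 2) (nat_lit 4) (nat_lit 3) (nat_lit 5) (nat_lit 3)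 (nat_lit 4) (nat_lit 371) (nat_lit 284) (nat_lit 245)) (XT.lf (nat_lit 0) (nat_lit 67857010294) (nat_lit 76) (nat_lit 84891923294) (nat_lit 76) (nat_lit 79769218584) (nat_lit 2) (nat_lit 4) (nat_lit 3) (nat_lit 5) (nat_lit 3) (nat_lit 4) (nat_lit 372) (nat_lit 284) (nat_lit 244)))) (XT.nd (nat_lit 78) (nat_lit 0) (nat_lit 0) (XT.lf (nat_lit 0) (nat_lit 86661937459) (nat_lit 76) (nat_lit 84630251360) (nat_lit 76) (nat_lit 79489236958) (nat_lit 2) (nat_lit 4) (nat_lit 3) (nat_lit 5) (nat_lit 3) (nat_lit 4) (nat_lit 373) (nat_lit 284) (nat_lit 243)) (XT.nd (nat_lit 78) (nat_lit 0) (nat_lit 0) (XT.lf (nat_lit 0) (nat_lit 106890571606) (nat_lit 76) (nat_lit 84387598702) (nat_lit 76) (nat_lit 79229630881) (nat_lit 2) (nat_lit 4) (nat_lit 3) (nat_lit 5) (nat_lit 3) (nat_lit 4) (nat_lit 374) (nat_lit 284) (nat_lit 242)) (XT.lf (nat_lit 0) (nat_lit 128662786121) (nat_lit 76) (nat_lit 84162527377)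 (nat_lit 76) (nat_lit 78988861947) (nat_lit 2) (nat_lit 4) (nat_lit 3) (nat_lit 5) (nat_lit 3) (nat_lit 4) (nat_lit 375) (nat_lit 284) (nat_lit 241)))))) (XT.nd (nat_lit 468) (nat_lit 0) (nat_lit 0) (XT.nd (nat_lit 234) (nat_lit 0) (nat_lit 0) (XT.nd (nat_lit 78) (nat_lit 0) (nat_lit 0) (XT.lf (nat_lit 0) (nat_lit 152107601534) (nat_lit 76) (nat_lit 83953703631) (nat_lit 76) (nat_lit 78765503377) (nat_lit 2) (nat_lit 4) (nat_lit 3) (nat_lit 5) (nat_lit 3) (nat_lit 4) (nat_lit 376) (nat_lit 284) (nat_lit 240)) (XT.nd (nat_lit 78) (nat_lit 0) (nat_lit 0) (XT.lf (nat_lit 0) (nat_lit 177363950086) (nat_lit 76) (nat_lit 83759889989) (nat_lit 76) (nat_lit 78558231564) (nat_lit 2) (nat_lit 4) (nat_lit 3) (nat_lit 5) (nat_lit 3) (nat_lit 4) (nat_lit 377) (nat_lit 284) (nat_lit 239)) (XT.lf (nat_lit 0) (nat_lit 204581499027) (nat_lit 76) (nat_lit 83579937925) (nat_lit 76) (nat_lit 78365818232) (nat_lit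 2) (nat_lit 4) (nat_lit 3) (nat_lit 5) (nat_lit 3) (nat_lit 4) (nat_lit 378) (nat_lit 284) (nat_lit 238)))) (XT.nd (nat_lit 78) (nat_lit 0) (nat_lit 0) (XT.lf (nat_lit 0) (nat_lit 233921537536) (nat_lit 76) (nat_lit 83412781058) (nat_lit 76) (nat_lit 78187123152) (nat_lit 2) (nat_lit 4) (nat_lit 3) (nat_lit 5) (nat_lit 3) (nat_lit 4) (nat_lit 379) (nat_lit 284) (nat_lit 237)) (XT.nd (nat_lit 78) (nat_lit 0) (nat_lit 0) (XT.lf (nat_lit 0) (nat_lit 265557932508) (nat_lit 76) (nat_lit 83257428827) (nat_lit 76) (nat_lit 78021087392) (nat_lit 2) (nat_lit 4) (nat_lit 3) (nat_lit 5) (nat_lit 3) (nat_lit 4) (nat_lit 380) (nat_lit 284) (nat_lit 236)) (XT.lf (nat_lit 0) (nat_lit 299678158875) (nat_lit 76) (nat_lit 83112960627) (nat_lit 76) (nat_lit 77866727035) (nat_lit 2) (nat_lit 4) (nat_lit 3) (nat_lit 5) (nat_lit 3) (nat_lit 4) (nat_lit 381) (nat_lit 284) (nat_lit 235))))) (XT.nd (nat_lit 234)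 (nat_lit 0) (nat_lit 0) (XT.nd (nat_lit 78) (nat_lit 0) (nat_lit 0) (XT.lf (nat_lit 0) (nat_lit 336484410573) (nat_lit 76) (nat_lit 82978520350) (nat_lit 76) (nat_lit 77723127354) (nat_lit 2) (nat_lit 4) (nat_lit 3) (nat_lit 5) (nat_lit 3) (nat_lit 4) (nat_lit 382) (nat_lit 284) (nat_lit 234)) (XT.nd (nat_lit 78) (nat_lit 0) (nat_lit 0) (XT.lf (nat_lit 0) (nat_lit 376194798721) (nat_lit 76) (nat_lit 82853311314) (nat_lit 76) (nat_lit 77589437387) (nat_lit 2) (nat_lit 4) (nat_lit 3) (nat_lit 5) (nat_lit 3) (nat_lit 4) (nat_lit 383) (nat_lit 284) (nat_lit 233)) (XT.lf (nat_lit 0) (nat_lit 419044644140) (nat_lit 76) (nat_lit 82736591538) (nat_lit 76) (nat_lit 77464864898) (nat_lit 2) (nat_lit 4) (nat_lit 3) (nat_lit 5) (nat_lit 3) (nat_lit 4) (nat_lit 384) (nat_lit 284) (nat_lit 232)))) (XT.nd (nat_lit 156) (nat_lit 0) (nat_lit 0) (XT.nd (nat_lit 78) (nat_lit 0) (nat_lit 0) (XT.lf (nat_lit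 0) (nat_lit 465287871838) (nat_lit 76) (nat_lit 82627669350) (nat_lit 76) (nat_lit 77348671679) (nat_lit 2) (nat_lit 4) (nat_lit 3) (nat_lit 5) (nat_lit 3) (nat_lit 4) (nat_lit 385) (nat_lit 284) (nat_lit 231)) (XT.lf (nat_lit 0) (nat_lit 515198515757) (nat_lit 76) (nat_lit 82525899285) (nat_lit 76) (nat_lit 77240169179) (nat_lit 2) (nat_lit 4) (nat_lit 3) (nat_lit 5) (nat_lit 3) (nat_lit 4) (nat_lit 386) (nat_lit 284) (nat_lit 230))) (XT.nd (nat_lit 78) (nat_lit 0) (nat_lit 0) (XT.lf (nat_lit 0) (nat_lit 569072342677) (nat_lit 76) (nat_lit 82430678261) (nat_lit 76) (nat_lit 77138714418) (nat_lit 2) (nat_lit 4) (nat_lit 3) (nat_lit 5) (nat_lit 3) (nat_lit 4) (nat_lit 387) (nat_lit 284) (nat_lit 229)) (XT.lf (nat_lit 0) (nat_lit 627228604905) (nat_lit 76) (nat_lit 82341442005) (nat_lit 76) (nat_lit 77043706184) (nat_lit 2) (nat_lit 4) (nat_lit 3) (nat_lit 5) (nat_lit 3) (nat_lit 4) (nat_lit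 388) (nat_lit 284) (nat_lit 228))))))))
noncomputable def xc22 : XT := (XT.nd (nat_lit 43602) (nat_lit 0) (nat_lit 0) (XT.nd (nat_lit 42588) (nat_lit 0) (nat_lit 532) (XT.nd (nat_lit 468) (nat_lit 0) (nat_lit 0) (XT.nd (nat_lit 234) (nat_lit 0) (nat_lit 0) (XT.nd (nat_lit 78) (nat_lit 0) (nat_lit 0) (XT.lf (nat_lit 0) (nat_lit 690011932144) (nat_lit 76) (nat_lit 82257661711) (nat_lit 76) (nat_lit 76954581464) (nat_lit 2) (nat_lit 4) (nat_lit 3) (nat_lit 5) (nat_lit 3) (nat_lit 4) (nat_lit 389) (nat_lit 284) (nat_lit 227)) (XT.nd (nat_lit 78) (nat_lit 0) (nat_lit 0) (XT.lf (nat_lit 0) (nat_lit 757794373739) (nat_lit 76) (nat_lit 82178840901) (nat_lit 76) (nat_lit 76870812114) (nat_lit 2) (nat_lit 4) (nat_lit 3) (nat_lit 5) (nat_lit 3) (nat_lit 4) (nat_lit 390) (nat_lit 284) (nat_lit 226)) (XT.lf (nat_lit 0) (nat_lit 830977603418) (nat_lit 76) (nat_lit 82104512490) (nat_lit 76) (nat_lit 76791901720)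 (nat_lit 2) (nat_lit 4) (nat_lit 3) (nat_lit 5) (nat_lit 3) (nat_lit 4) (nat_lit 391) (nat_lit 284) (nat_lit 225)))) (XT.nd (nat_lit 78) (nat_lit 0) (nat_lit 0) (XT.lf (nat_lit 0) (nat_lit 909995299580) (nat_lit 76) (nat_lit 82034236014) (nat_lit 76) (nat_lit 76717382667) (nat_lit 2) (nat_lit 4) (nat_lit 3) (nat_lit 5) (nat_lit 3) (nat_lit 4) (nat_lit 392) (nat_lit 284) (nat_lit 224)) (XT.nd (nat_lit 78) (nat_lit 0) (nat_lit 0) (XT.lf (nat_lit 0) (nat_lit 995315715240) (nat_lit 76) (nat_lit 81967595019) (nat_lit 76) (nat_lit 76646813360) (nat_lit 2) (nat_lit 4) (nat_lit 3) (nat_lit 5) (nat_lit 3) (nat_lit 4) (nat_lit 393) (nat_lit 284) (nat_lit 223)) (XT.lf (nat_lit 0) (nat_lit 1087444452860) (nat_lit 76) (nat_lit 81904194595) (nat_lit 76) (nat_lit 76579775611) (nat_lit 2) (nat_lit 4) (nat_lit 3) (nat_lit 5) (nat_lit 3) (nat_lit 4) (nat_lit 394) (nat_lit 284) (nat_lit 222))))) (XT.nd (nat_lit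 41886) (nat_lit 0) (nat_lit 1596) (XT.nd (nat_lit 78) (nat_lit 0) (nat_lit 0) (XT.lf (nat_lit 0) (nat_lit 1186927460514) (nat_lit 76) (nat_lit 81843659036) (nat_lit 76) (nat_lit 76515872158) (nat_lit 2) (nat_lit 4) (nat_lit 3) (nat_lit 5) (nat_lit 3) (nat_lit 4) (nat_lit 395) (nat_lit 284) (nat_lit 221)) (XT.nd (nat_lit 41730) (nat_lit 0) (nat_lit 1976) (XT.lf (nat_lit 0) (nat_lit 1294354267138) (nat_lit 76) (nat_lit 81785629613) (nat_lit 76) (nat_lit 76454724315) (nat_lit 2) (nat_lit 4) (nat_lit 3) (nat_lit 5) (nat_lit 3) (nat_lit 4) (nat_lit 396) (nat_lit 284) (nat_lit 220)) (XT.lf (nat_lit 0) (nat_lit 469851999) (nat_lit 152) (nat_lit 6254059519) (nat_lit 0) (nat_lit 469851999) (nat_lit 28) (nat_lit 5) (nat_lit 30) (nat_lit 4) (nat_lit 28) (nat_lit 4) (nat_lit 330) (nat_lit 285) (nat_lit 285)))) (XT.nd (nat_lit 78) (nat_lit 228) (nat_lit 0) (XT.lf (nat_lit 0) (nat_lit 3341737662) (nat_lit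 152) (nat_lit 6184680301) (nat_lit 152) (nat_lit 5549978969) (nat_lit 26) (nat_lit 4) (nat_lit 28) (nat_lit 5) (nat_lit 28) (nat_lit 4) (nat_lit 331) (nat_lit 285) (nat_lit 284)) (XT.nd (nat_lit 78) (nat_lit 76) (nat_lit 0) (XT.lf (nat_lit 0) (nat_lit 2731928847) (nat_lit 152) (nat_lit 11526097162) (nat_lit 0) (nat_lit 1567750038) (nat_lit 24) (nat_lit 5) (nat_lit 26) (nat_lit 4) (nat_lit 24) (nat_lit 4) (nat_lit 332) (nat_lit 285) (nat_lit 283)) (XT.lf (nat_lit 0) (nat_lit 4516205102) (nat_lit 76) (nat_lit 6900076644) (nat_lit 76) (nat_lit 5217655844) (nat_lit 23) (nat_lit 4) (nat_lit 24) (nat_lit 5) (nat_lit 24) (nat_lit 4) (nat_lit 333) (nat_lit 285) (nat_lit 282)))))) (XT.nd (nat_lit 468) (nat_lit 456) (nat_lit 0) (XT.nd (nat_lit 234) (nat_lit 304) (nat_lit 0) (XT.nd (nat_lit 78) (nat_lit 152) (nat_lit 0) (XT.lf (nat_lit 0) (nat_lit 3028677375) (nat_lit 152) (nat_lit 13513960455) (nat_lit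 0) (nat_lit 969368331) (nat_lit 21) (nat_lit 5) (nat_lit 23) (nat_lit 4) (nat_lit 21) (nat_lit 4) (nat_lit 334) (nat_lit 285) (nat_lit 281)) (XT.nd (nat_lit 78) (nat_lit 76) (nat_lit 0) (XT.lf (nat_lit 0) (nat_lit 2461086972) (nat_lit 76) (nat_lit 9240018769) (nat_lit 76) (nat_lit 6757558318) (nat_lit 20) (nat_lit 4) (nat_lit 21) (nat_lit 5) (nat_lit 21) (nat_lit 4) (nat_lit 335) (nat_lit 285) (nat_lit 280)) (XT.lf (nat_lit 0) (nat_lit 1364930572) (nat_lit 152) (nat_lit 76159635) (nat_lit 76) (nat_lit 18047325334) (nat_lit 19) (nat_lit 5) (nat_lit 21) (nat_lit 5) (nat_lit 20) (nat_lit 4) (nat_lit 336) (nat_lit 285) (nat_lit 279)))) (XT.nd (nat_lit 78) (nat_lit 228) (nat_lit 0) (XT.lf (nat_lit 0) (nat_lit 9896755737) (nat_lit 152) (nat_lit 3884653760) (nat_lit 0) (nat_lit 6813849606) (nat_lit 18) (nat_lit 5) (nat_lit 20) (nat_lit 4) (nat_lit 18) (nat_lit 4) (nat_lit 337) (nat_lit 285) (nat_lit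 278)) (XT.nd (nat_lit 78) (nat_lit 152) (nat_lit 0) (XT.lf (nat_lit 0) (nat_lit 12736287260) (nat_lit 76) (nat_lit 6232188790) (nat_lit 76) (nat_lit 2829367202) (nat_lit 17) (nat_lit 4) (nat_lit 18) (nat_lit 5) (nat_lit 18) (nat_lit 4) (nat_lit 338) (nat_lit 285) (nat_lit 277)) (XT.lf (nat_lit 0) (nat_lit 5342056942) (nat_lit 152) (nat_lit 15938332320) (nat_lit 0) (nat_lit 1819162081) (nat_lit 15) (nat_lit 5) (nat_lit 17) (nat_lit 4) (nat_lit 15) (nat_lit 4) (nat_lit 339) (nat_lit 285) (nat_lit 276))))) (XT.nd (nat_lit 234) (nat_lit 228) (nat_lit 0) (XT.nd (nat_lit 78) (nat_lit 228) (nat_lit 0) (XT.lf (nat_lit 0) (nat_lit 13990071875) (nat_lit 152) (nat_lit 310992460) (nat_lit 0) (nat_lit 10205961833) (nat_lit 15) (nat_lit 5) (nat_lit 17) (nat_lit 4) (nat_lit 15) (nat_lit 4) (nat_lit 340) (nat_lit 285) (nat_lit 275)) (XT.nd (nat_lit 78) (nat_lit 152) (nat_lit 0) (XT.lf (nat_lit 0) (nat_lit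 16479626336) (nat_lit 76) (nat_lit 6788297297) (nat_lit 76) (nat_lit 2762321347) (nat_lit 14) (nat_lit 4) (nat_lit 15) (nat_lit 5) (nat_lit 15) (nat_lit 4) (nat_lit 341) (nat_lit 285) (nat_lit 274)) (XT.lf (nat_lit 0) (nat_lit 5249098735) (nat_lit 152) (nat_lit 21229528288) (nat_lit 0) (nat_lit 1201550291) (nat_lit 12) (nat_lit 5) (nat_lit 14) (nat_lit 4) (nat_lit 12) (nat_lit 4) (nat_lit 342) (nat_lit 285) (nat_lit 273)))) (XT.nd (nat_lit 156) (nat_lit 152) (nat_lit 0) (XT.nd (nat_lit 78) (nat_lit 76) (nat_lit 0) (XT.lf (nat_lit 0) (nat_lit 13789356576) (nat_lit 152) (nat_lit 6126964286) (nat_lit 0) (nat_lit 9544321435) (nat_lit 12) (nat_lit 5) (nat_lit 14) (nat_lit 4) (nat_lit 12) (nat_lit 4) (nat_lit 343) (nat_lit 285) (nat_lit 272)) (XT.lf (nat_lit 0) (nat_lit 9963363418) (nat_lit 76) (nat_lit 12927113390) (nat_lit 76) (nat_lit 8499220195) (nat_lit 11) (nat_lit 4) (nat_lit 12) (nat_lit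 5) (nat_lit 12) (nat_lit 4) (nat_lit 344) (nat_lit 285) (nat_lit 271))) (XT.nd (nat_lit 78) (nat_lit 152) (nat_lit 0) (XT.lf (nat_lit 0) (nat_lit 27043816668) (nat_lit 76) (nat_lit 5517215207) (nat_lit 76) (nat_lit 920008999) (nat_lit 11) (nat_lit 4) (nat_lit 12) (nat_lit 5) (nat_lit 12) (nat_lit 4) (nat_lit 345) (nat_lit 285) (nat_lit 270)) (XT.lf (nat_lit 0) (nat_lit 6970218661) (nat_lit 152) (nat_lit 26324347945) (nat_lit 0) (nat_lit 2442621028) (nat_lit 9) (nat_lit 5) (nat_lit 11) (nat_lit 4) (nat_lit 9) (nat_lit 4) (nat_lit 346) (nat_lit 285) (nat_lit 269))))))) (XT.nd (nat_lit 936) (nat_lit 228) (nat_lit 0) (XT.nd (nat_lit 468) (nat_lit 76) (nat_lit 0) (XT.nd (nat_lit 234) (nat_lit 152) (nat_lit 0) (XT.nd (nat_lit 78) (nat_lit 76) (nat_lit 0) (XT.lf (nat_lit 0) (nat_lit 15424793562) (nat_lit 152) (nat_lit 11991086927) (nat_lit 0) (nat_lit 10758949625) (nat_lit 9) (nat_lit 5) (nat_lit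 11) (nat_lit 4) (nat_lit 9) (nat_lit 4) (nat_lit 347) (nat_lit 285) (nat_lit 268)) (XT.nd (nat_lit 78) (nat_lit 0) (nat_lit 0) (XT.lf (nat_lit 0) (nat_lit 3151493451) (nat_lit 76) (nat_lit 21229305657) (nat_lit 76) (nat_lit 16435455883) (nat_lit 8) (nat_lit 4) (nat_lit 9) (nat_lit 5) (nat_lit 9) (nat_lit 4) (nat_lit 348) (nat_lit 285) (nat_lit 267)) (XT.lf (nat_lit 0) (nat_lit 19514513144) (nat_lit 76) (nat_lit 14533568509) (nat_lit 76) (nat_lit 9621194812) (nat_lit 8) (nat_lit 4) (nat_lit 9) (nat_lit 5) (nat_lit 9) (nat_lit 4) (nat_lit 349) (nat_lit 285) (nat_lit 266)))) (XT.nd (nat_lit 78) (nat_lit 152) (nat_lit 0) (XT.lf (nat_lit 0) (nat_lit 36798458706) (nat_lit 76) (nat_lit 7492065462) (nat_lit 76) (nat_lit 2469947393) (nat_lit 8) (nat_lit 4) (nat_lit 9) (nat_lit 5) (nat_lit 9) (nat_lit 4) (nat_lit 350) (nat_lit 285) (nat_lit 265)) (XT.nd (nat_lit 78) (nat_lit 0) (nat_lit 0) (XT.lf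 (nat_lit 0) (nat_lit 4979634381) (nat_lit 152) (nat_lit 45020637930) (nat_lit 0) (nat_lit 99888449) (nat_lit 6) (nat_lit 5) (nat_lit 8) (nat_lit 4) (nat_lit 6) (nat_lit 4) (nat_lit 351) (nat_lit 285) (nat_lit 264)) (XT.lf (nat_lit 0) (nat_lit 13061627764) (nat_lit 152) (nat_lit 32544966640) (nat_lit 0) (nat_lit 8092274107) (nat_lit 6) (nat_lit 5) (nat_lit 8) (nat_lit 4) (nat_lit 6) (nat_lit 4) (nat_lit 352) (nat_lit 285) (nat_lit 263))))) (XT.nd (nat_lit 234) (nat_lit 0) (nat_lit 0) (XT.nd (nat_lit 78) (nat_lit 76) (nat_lit 0) (XT.lf (nat_lit 0) (nat_lit 21622695966) (nat_lit 152) (nat_lit 19400794660) (nat_lit 0) (nat_lit 16570372193) (nat_lit 6) (nat_lit 5) (nat_lit 8) (nat_lit 4) (nat_lit 6) (nat_lit 4) (nat_lit 353) (nat_lit 285) (nat_lit 262)) (XT.nd (nat_lit 78) (nat_lit 76) (nat_lit 0) (XT.lf (nat_lit 0) (nat_lit 30713571242) (nat_lit 152) (nat_lit 5510230602) (nat_lit 0) (nat_lit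 25584423289) (nat_lit 6) (nat_lit 5) (nat_lit 8) (nat_lit 4) (nat_lit 6) (nat_lit 4) (nat_lit 354) (nat_lit 285) (nat_lit 261)) (XT.lf (nat_lit 0) (nat_lit 9513532438) (nat_lit 76) (nat_lit 31023125912) (nat_lit 76) (nat_lit 25822844457) (nat_lit 5) (nat_lit 4) (nat_lit 6) (nat_lit 5) (nat_lit 6) (nat_lit 4) (nat_lit 355) (nat_lit 285) (nat_lit 260)))) (XT.nd (nat_lit 78) (nat_lit 0) (nat_lit 0) (XT.lf (nat_lit 0) (nat_lit 25665705270) (nat_lit 76) (nat_lit 25438697588) (nat_lit 76) (nat_lit 20172551781) (nat_lit 5) (nat_lit 4) (nat_lit 6) (nat_lit 5) (nat_lit 6) (nat_lit 4) (nat_lit 356) (nat_lit 285) (nat_lit 259)) (XT.nd (nat_lit 78) (nat_lit 0) (nat_lit 0) (XT.lf (nat_lit 0) (nat_lit 42859811364) (nat_lit 76) (nat_lit 19530742388) (nat_lit 76) (nat_lit 14203611069) (nat_lit 5) (nat_lit 4) (nat_lit 6) (nat_lit 5) (nat_lit 6) (nat_lit 4) (nat_lit 357) (nat_lit 285) (nat_lit 258)) (XT.lf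 (nat_lit 0) (nat_lit 61197741719) (nat_lit 76) (nat_lit 13264250206) (nat_lit 76) (nat_lit 7880650820) (nat_lit 5) (nat_lit 4) (nat_lit 6) (nat_lit 5) (nat_lit 6) (nat_lit 4) (nat_lit 358) (nat_lit 285) (nat_lit 257)))))) (XT.nd (nat_lit 468) (nat_lit 76) (nat_lit 0) (XT.nd (nat_lit 234) (nat_lit 0) (nat_lit 0) (XT.nd (nat_lit 78) (nat_lit 152) (nat_lit 0) (XT.lf (nat_lit 0) (nat_lit 80788165552) (nat_lit 76) (nat_lit 6602086274) (nat_lit 76) (nat_lit 1166201641) (nat_lit 5) (nat_lit 4) (nat_lit 6) (nat_lit 5) (nat_lit 6) (nat_lit 4) (nat_lit 359) (nat_lit 285) (nat_lit 256)) (XT.nd (nat_lit 78) (nat_lit 0) (nat_lit 0) (XT.lf (nat_lit 0) (nat_lit 5902019059) (nat_lit 152) (nat_lit 88681159723) (nat_lit 0) (nat_lit 678879156) (nat_lit 3) (nat_lit 5) (nat_lit 5) (nat_lit 4) (nat_lit 3) (nat_lit 4) (nat_lit 360) (nat_lit 285) (nat_lit 255)) (XT.lf (nat_lit 0) (nat_lit 13644842480) (nat_lit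 152) (nat_lit 80471809327) (nat_lit 0) (nat_lit 8379010984) (nat_lit 3) (nat_lit 5) (nat_lit 5) (nat_lit 4) (nat_lit 3) (nat_lit 4) (nat_lit 361) (nat_lit 285) (nat_lit 254)))) (XT.nd (nat_lit 78) (nat_lit 0) (nat_lit 0) (XT.lf (nat_lit 0) (nat_lit 21915051703) (nat_lit 152) (nat_lit 71787822859) (nat_lit 0) (nat_lit 16609690955) (nat_lit 3) (nat_lit 5) (nat_lit 5) (nat_lit 4) (nat_lit 3) (nat_lit 4) (nat_lit 362) (nat_lit 285) (nat_lit 253)) (XT.nd (nat_lit 78) (nat_lit 0) (nat_lit 0) (XT.lf (nat_lit 0) (nat_lit 30761655376) (nat_lit 152) (nat_lit 62577739660) (nat_lit 0) (nat_lit 25419693469) (nat_lit 3) (nat_lit 5) (nat_lit 5) (nat_lit 4) (nat_lit 3) (nat_lit 4) (nat_lit 363) (nat_lit 285) (nat_lit 252)) (XT.lf (nat_lit 0) (nat_lit 40237077817) (nat_lit 152) (nat_lit 52786981458) (nat_lit 0) (nat_lit 34861225947) (nat_lit 3) (nat_lit 5) (nat_lit 5) (nat_lit 4) (nat_lit 3) (nat_lit 4)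 (nat_lit 364) (nat_lit 285) (nat_lit 251))))) (XT.nd (nat_lit 234) (nat_lit 76) (nat_lit 0) (XT.nd (nat_lit 78) (nat_lit 0) (nat_lit 0) (XT.lf (nat_lit 0) (nat_lit 50397469677) (nat_lit 152) (nat_lit 42357528946) (nat_lit 0) (nat_lit 44990238213) (nat_lit 3) (nat_lit 5) (nat_lit 5) (nat_lit 4) (nat_lit 3) (nat_lit 4) (nat_lit 365) (nat_lit 285) (nat_lit 250)) (XT.nd (nat_lit 78) (nat_lit 0) (nat_lit 0) (XT.lf (nat_lit 0) (nat_lit 61303040686) (nat_lit 152) (nat_lit 31227577960) (nat_lit 0) (nat_lit 55866754042) (nat_lit 3) (nat_lit 5) (nat_lit 5) (nat_lit 4) (nat_lit 3) (nat_lit 4) (nat_lit 366) (nat_lit 285) (nat_lit 249)) (XT.lf (nat_lit 0) (nat_lit 73018416450) (nat_lit 152) (nat_lit 19331173236) (nat_lit 0) (nat_lit 67555226861) (nat_lit 3) (nat_lit 5) (nat_lit 5) (nat_lit 4) (nat_lit 3) (nat_lit 4) (nat_lit 367) (nat_lit 285) (nat_lit 248)))) (XT.nd (nat_lit 156) (nat_lit 0) (nat_lit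 0) (XT.nd (nat_lit 78) (nat_lit 76) (nat_lit 0) (XT.lf (nat_lit 0) (nat_lit 85613021418) (nat_lit 152) (nat_lit 6597817560) (nat_lit 0) (nat_lit 80124921695) (nat_lit 3) (nat_lit 5) (nat_lit 5) (nat_lit 4) (nat_lit 3) (nat_lit 4) (nat_lit 368) (nat_lit 285) (nat_lit 247)) (XT.lf (nat_lit 0) (nat_lit 7280982912) (nat_lit 76) (nat_lit 91994183921) (nat_lit 76) (nat_lit 86483019259) (nat_lit 2) (nat_lit 4) (nat_lit 3) (nat_lit 5) (nat_lit 3) (nat_lit 4) (nat_lit 369) (nat_lit 285) (nat_lit 246))) (XT.nd (nat_lit 78) (nat_lit 0) (nat_lit 0) (XT.lf (nat_lit 0) (nat_lit 22404050736) (nat_lit 76) (nat_lit 91689849559) (nat_lit 76) (nat_lit 86157328472) (nat_lit 2) (nat_lit 4) (nat_lit 3) (nat_lit 5) (nat_lit 3) (nat_lit 4) (nat_lit 370) (nat_lit 285) (nat_lit 245)) (XT.lf (nat_lit 0) (nat_lit 38642850445) (nat_lit 76) (nat_lit 91407769663) (nat_lit 76) (nat_lit 85855474108) (nat_lit 2) (nat_lit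 4) (nat_lit 3) (nat_lit 5) (nat_lit 3) (nat_lit 4) (nat_lit 371) (nat_lit 285) (nat_lit 244))))))))
noncomputable def xc23 : XT := (XT.nd (nat_lit 43446) (nat_lit 0) (nat_lit 304) (XT.nd (nat_lit 936) (nat_lit 0) (nat_lit 0) (XT.nd (nat_lit 468) (nat_lit 0) (nat_lit 0) (XT.nd (nat_lit 234) (nat_lit 0) (nat_lit 0) (XT.nd (nat_lit 78) (nat_lit 0) (nat_lit 0) (XT.lf (nat_lit 0) (nat_lit 56093611962) (nat_lit 76) (nat_lit 91146272647) (nat_lit 76) (nat_lit 85575667401) (nat_lit 2) (nat_lit 4) (nat_lit 3) (nat_lit 5) (nat_lit 3) (nat_lit 4) (nat_lit 372) (nat_lit 285) (nat_lit 243)) (XT.nd (nat_lit 78) (nat_lit 0) (nat_lit 0) (XT.lf (nat_lit 0) (nat_lit 74859747208) (nat_lit 76) (nat_lit 90903808901) (nat_lit 76) (nat_lit 85316250236) (nat_lit 2) (nat_lit 4) (nat_lit 3) (nat_lit 5) (nat_lit 3) (nat_lit 4) (nat_lit 373) (nat_lit 285) (nat_lit 242)) (XT.lf (nat_lit 0) (nat_lit 95052462911) (nat_lit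 76) (nat_lit 90678941602) (nat_lit 76) (nat_lit 85075685327) (nat_lit 2) (nat_lit 4) (nat_lit 3) (nat_lit 5) (nat_lit 3) (nat_lit 4) (nat_lit 374) (nat_lit 285) (nat_lit 241)))) (XT.nd (nat_lit 78) (nat_lit 0) (nat_lit 0) (XT.lf (nat_lit 0) (nat_lit 116791419607) (nat_lit 76) (nat_lit 90470338203) (nat_lit 76) (nat_lit 84852547104) (nat_lit 2) (nat_lit 4) (nat_lit 3) (nat_lit 5) (nat_lit 3) (nat_lit 4) (nat_lit 375) (nat_lit 285) (nat_lit 240)) (XT.nd (nat_lit 78) (nat_lit 0) (nat_lit 0) (XT.lf (nat_lit 0) (nat_lit 140205440744) (nat_lit 76) (nat_lit 90276762535) (nat_lit 76) (nat_lit 84645513266) (nat_lit 2) (nat_lit 4) (nat_lit 3) (nat_lit 5) (nat_lit 3) (nat_lit 4) (nat_lit 376) (nat_lit 285) (nat_lit 239)) (XT.lf (nat_lit 0) (nat_lit 165433276078) (nat_lit 76) (nat_lit 90097067484) (nat_lit 76) (nat_lit 84453356946) (nat_lit 2) (nat_lit 4) (nat_lit 3) (nat_lit 5) (nat_lit 3) (nat_lit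 4) (nat_lit 377) (nat_lit 285) (nat_lit 238))))) (XT.nd (nat_lit 234) (nat_lit 0) (nat_lit 0) (XT.nd (nat_lit 78) (nat_lit 0) (nat_lit 0) (XT.lf (nat_lit 0) (nat_lit 192624423890) (nat_lit 76) (nat_lit 89930188190) (nat_lit 76) (nat_lit 84274939441) (nat_lit 2) (nat_lit 4) (nat_lit 3) (nat_lit 5) (nat_lit 3) (nat_lit 4) (nat_lit 378) (nat_lit 285) (nat_lit 237)) (XT.nd (nat_lit 78) (nat_lit 0) (nat_lit 0) (XT.lf (nat_lit 0) (nat_lit 221940016909) (nat_lit 76) (nat_lit 89775135739) (nat_lit 76) (nat_lit 84109203460) (nat_lit 2) (nat_lit 4) (nat_lit 3) (nat_lit 5) (nat_lit 3) (nat_lit 4) (nat_lit 379) (nat_lit 285) (nat_lit 236)) (XT.lf (nat_lit 0) (nat_lit 253553777169) (nat_lit 76) (nat_lit 89630991301) (nat_lit 76) (nat_lit 83955166865) (nat_lit 2) (nat_lit 4) (nat_lit 3) (nat_lit 5) (nat_lit 3) (nat_lit 4) (nat_lit 380) (nat_lit 285) (nat_lit 235)))) (XT.nd (nat_lit 78) (nat_lit 0) (nat_lit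 0) (XT.lf (nat_lit 0) (nat_lit 287653045469) (nat_lit 76) (nat_lit 89496900688) (nat_lit 76) (nat_lit 83811916847) (nat_lit 2) (nat_lit 4) (nat_lit 3) (nat_lit 5) (nat_lit 3) (nat_lit 4) (nat_lit 381) (nat_lit 285) (nat_lit 234)) (XT.nd (nat_lit 78) (nat_lit 0) (nat_lit 0) (XT.lf (nat_lit 0) (nat_lit 324439891549) (nat_lit 76) (nat_lit 89372069287) (nat_lit 76) (nat_lit 83678604516) (nat_lit 2) (nat_lit 4) (nat_lit 3) (nat_lit 5) (nat_lit 3) (nat_lit 4) (nat_lit 382) (nat_lit 285) (nat_lit 233)) (XT.lf (nat_lit 0) (nat_lit 364132311533) (nat_lit 76) (nat_lit 89255757358) (nat_lit 76) (nat_lit 83554439874) (nat_lit 2) (nat_lit 4) (nat_lit 3) (nat_lit 5) (nat_lit 3) (nat_lit 4) (nat_lit 383) (nat_lit 285) (nat_lit 232)))))) (XT.nd (nat_lit 468) (nat_lit 0) (nat_lit 0) (XT.nd (nat_lit 234) (nat_lit 0) (nat_lit 0) (XT.nd (nat_lit 78) (nat_lit 0) (nat_lit 0) (XT.lf (nat_lit 0) (nat_lit 406965519762)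 (nat_lit 76) (nat_lit 89147275645) (nat_lit 76) (nat_lit 83438687130) (nat_lit 2) (nat_lit 4) (nat_lit 3) (nat_lit 5) (nat_lit 3) (nat_lit 4) (nat_lit 384) (nat_lit 285) (nat_lit 231)) (XT.nd (nat_lit 78) (nat_lit 0) (nat_lit 0) (XT.lf (nat_lit 0) (nat_lit 453193342655) (nat_lit 76) (nat_lit 89045981292) (nat_lit 76) (nat_lit 83330660342) (nat_lit 2) (nat_lit 4) (nat_lit 3) (nat_lit 5) (nat_lit 3) (nat_lit 4) (nat_lit 385) (nat_lit 285) (nat_lit 230)) (XT.lf (nat_lit 0) (nat_lit 503089722867) (nat_lit 76) (nat_lit 88951274038) (nat_lit 76) (nat_lit 83229719350) (nat_lit 2) (nat_lit 4) (nat_lit 3) (nat_lit 5) (nat_lit 3) (nat_lit 4) (nat_lit 386) (nat_lit 285) (nat_lit 229)))) (XT.nd (nat_lit 78) (nat_lit 0) (nat_lit 0) (XT.lf (nat_lit 0) (nat_lit 556950342649) (nat_lit 76) (nat_lit 88862592653) (nat_lit 76) (nat_lit 83135265988) (nat_lit 2) (nat_lit 4) (nat_lit 3) (nat_lit 5) (nat_lit 3)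 (nat_lit 4) (nat_lit 387) (nat_lit 285) (nat_lit 228)) (XT.nd (nat_lit 78) (nat_lit 0) (nat_lit 0) (XT.lf (nat_lit 0) (nat_lit 615094376047) (nat_lit 76) (nat_lit 88779411620) (nat_lit 76) (nat_lit 83046740529) (nat_lit 2) (nat_lit 4) (nat_lit 3) (nat_lit 5) (nat_lit 3) (nat_lit 4) (nat_lit 388) (nat_lit 285) (nat_lit 227)) (XT.lf (nat_lit 0) (nat_lit 677866380293) (nat_lit 76) (nat_lit 88701238012) (nat_lit 76) (nat_lit 82963618380) (nat_lit 2) (nat_lit 4) (nat_lit 3) (nat_lit 5) (nat_lit 3) (nat_lit 4) (nat_lit 389) (nat_lit 285) (nat_lit 226))))) (XT.nd (nat_lit 234) (nat_lit 0) (nat_lit 0) (XT.nd (nat_lit 78) (nat_lit 0) (nat_lit 0) (XT.lf (nat_lit 0) (nat_lit 745638337637) (nat_lit 76) (nat_lit 88627608579) (nat_lit 76) (nat_lit 82885406965) (nat_lit 2) (nat_lit 4) (nat_lit 3) (nat_lit 5) (nat_lit 3) (nat_lit 4) (nat_lit 390) (nat_lit 285) (nat_lit 225)) (XT.nd (nat_lit 78) (nat_lit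 0) (nat_lit 0) (XT.lf (nat_lit 0) (nat_lit 818811859676) (nat_lit 76) (nat_lit 88558086999) (nat_lit 76) (nat_lit 82811642808) (nat_lit 2) (nat_lit 4) (nat_lit 3) (nat_lit 5) (nat_lit 3) (nat_lit 4) (nat_lit 391) (nat_lit 285) (nat_lit 224)) (XT.lf (nat_lit 0) (nat_lit 897820567283) (nat_lit 76) (nat_lit 88492261291) (nat_lit 76) (nat_lit 82741888789) (nat_lit 2) (nat_lit 4) (nat_lit 3) (nat_lit 5) (nat_lit 3) (nat_lit 4) (nat_lit 392) (nat_lit 285) (nat_lit 223)))) (XT.nd (nat_lit 156) (nat_lit 0) (nat_lit 0) (XT.nd (nat_lit 78) (nat_lit 0) (nat_lit 0) (XT.lf (nat_lit 0) (nat_lit 983132660205) (nat_lit 76) (nat_lit 88429741378) (nat_lit 76) (nat_lit 82675731550) (nat_lit 2) (nat_lit 4) (nat_lit 3) (nat_lit 5) (nat_lit 3) (nat_lit 4) (nat_lit 393) (nat_lit 285) (nat_lit 222)) (XT.lf (nat_lit 0) (nat_lit 1075253691587) (nat_lit 76) (nat_lit 88370156771) (nat_lit 76) (nat_lit 82612779049)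 (nat_lit 2) (nat_lit 4) (nat_lit 3) (nat_lit 5) (nat_lit 3) (nat_lit 4) (nat_lit 394) (nat_lit 285) (nat_lit 221))) (XT.nd (nat_lit 78) (nat_lit 0) (nat_lit 0) (XT.lf (nat_lit 0) (nat_lit 1174729563837) (nat_lit 76) (nat_lit 88313154376) (nat_lit 76) (nat_lit 82552658233) (nat_lit 2) (nat_lit 4) (nat_lit 3) (nat_lit 5) (nat_lit 3) (nat_lit 4) (nat_lit 395) (nat_lit 285) (nat_lit 220)) (XT.lf (nat_lit 0) (nat_lit 1282149763604) (nat_lit 76) (nat_lit 88258396401) (nat_lit 76) (nat_lit 82495012832) (nat_lit 2) (nat_lit 4) (nat_lit 3) (nat_lit 5) (nat_lit 3) (nat_lit 4) (nat_lit 396) (nat_lit 285) (nat_lit 219))))))) (XT.nd (nat_lit 936) (nat_lit 684) (nat_lit 0) (XT.nd (nat_lit 468) (nat_lit 608) (nat_lit 0) (XT.nd (nat_lit 234) (nat_lit 380) (nat_lit 0) (XT.nd (nat_lit 78) (nat_lit 456) (nat_lit 0) (XT.lf (nat_lit 0) (nat_lit 5551509430) (nat_lit 152) (nat_lit 511102278) (nat_lit 152) (nat_lit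 511102278) (nat_lit 34) (nat_lit 4) (nat_lit 36) (nat_lit 5) (nat_lit 36) (nat_lit 4) (nat_lit 328) (nat_lit 286) (nat_lit 286)) (XT.nd (nat_lit 78) (nat_lit 304) (nat_lit 0) (XT.lf (nat_lit 0) (nat_lit 7157913438) (nat_lit 152) (nat_lit 151226648) (nat_lit 0) (nat_lit 6438162128) (nat_lit 32) (nat_lit 5) (nat_lit 34) (nat_lit 4) (nat_lit 32) (nat_lit 4) (nat_lit 329) (nat_lit 286) (nat_lit 285)) (XT.lf (nat_lit 0) (nat_lit 1393666469) (nat_lit 152) (nat_lit 12932006375) (nat_lit 0) (nat_lit 73487699) (nat_lit 28) (nat_lit 5) (nat_lit 30) (nat_lit 4) (nat_lit 28) (nat_lit 4) (nat_lit 330) (nat_lit 286) (nat_lit 284)))) (XT.nd (nat_lit 78) (nat_lit 228) (nat_lit 0) (XT.lf (nat_lit 0) (nat_lit 2498368988) (nat_lit 152) (nat_lit 7254478387) (nat_lit 152) (nat_lit 5346613199) (nat_lit 26) (nat_lit 4) (nat_lit 28) (nat_lit 5) (nat_lit 28) (nat_lit 4) (nat_lit 331) (nat_lit 286) (nat_lit 283))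 (XT.nd (nat_lit 78) (nat_lit 76) (nat_lit 0) (XT.lf (nat_lit 0) (nat_lit 2681139075) (nat_lit 152) (nat_lit 12834088730) (nat_lit 0) (nat_lit 345882619) (nat_lit 24) (nat_lit 5) (nat_lit 26) (nat_lit 4) (nat_lit 24) (nat_lit 4) (nat_lit 332) (nat_lit 286) (nat_lit 282)) (XT.lf (nat_lit 0) (nat_lit 2779569958) (nat_lit 76) (nat_lit 8358122893) (nat_lit 76) (nat_lit 5543012741) (nat_lit 23) (nat_lit 4) (nat_lit 24) (nat_lit 5) (nat_lit 24) (nat_lit 4) (nat_lit 333) (nat_lit 286) (nat_lit 281))))) (XT.nd (nat_lit 234) (nat_lit 304) (nat_lit 0) (XT.nd (nat_lit 78) (nat_lit 152) (nat_lit 0) (XT.lf (nat_lit 0) (nat_lit 1802007173) (nat_lit 76) (nat_lit 666981266) (nat_lit 152) (nat_lit 15102315492) (nat_lit 21) (nat_lit 5) (nat_lit 22) (nat_lit 5) (nat_lit 23) (nat_lit 4) (nat_lit 334) (nat_lit 286) (nat_lit 280)) (XT.nd (nat_lit 78) (nat_lit 152) (nat_lit 0) (XT.lf (nat_lit 0) (nat_lit 10904469050)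 (nat_lit 152) (nat_lit 216922325) (nat_lit 0) (nat_lit 7408453498) (nat_lit 21) (nat_lit 5) (nat_lit 23) (nat_lit 4) (nat_lit 21) (nat_lit 4) (nat_lit 335) (nat_lit 286) (nat_lit 279)) (XT.lf (nat_lit 0) (nat_lit 338891255) (nat_lit 152) (nat_lit 3164072605) (nat_lit 76) (nat_lit 16066641259) (nat_lit 19) (nat_lit 5) (nat_lit 21) (nat_lit 5) (nat_lit 20) (nat_lit 4) (nat_lit 336) (nat_lit 286) (nat_lit 278)))) (XT.nd (nat_lit 78) (nat_lit 228) (nat_lit 0) (XT.lf (nat_lit 0) (nat_lit 8611389897) (nat_lit 152) (nat_lit 7461627100) (nat_lit 0) (nat_lit 4616427125) (nat_lit 18) (nat_lit 5) (nat_lit 20) (nat_lit 4) (nat_lit 18) (nat_lit 4) (nat_lit 337) (nat_lit 286) (nat_lit 277)) (XT.nd (nat_lit 78) (nat_lit 152) (nat_lit 0) (XT.lf (nat_lit 0) (nat_lit 8719369414) (nat_lit 76) (nat_lit 8737587141) (nat_lit 76) (nat_lit 4446406354) (nat_lit 17) (nat_lit 4) (nat_lit 18) (nat_lit 5) (nat_lit 18)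 (nat_lit 4) (nat_lit 338) (nat_lit 286) (nat_lit 276)) (XT.lf (nat_lit 0) (nat_lit 2646229991) (nat_lit 76) (nat_lit 871665968) (nat_lit 152) (nat_lit 19701404997) (nat_lit 15) (nat_lit 5) (nat_lit 16) (nat_lit 5) (nat_lit 17) (nat_lit 4) (nat_lit 339) (nat_lit 286) (nat_lit 275)))))) (XT.nd (nat_lit 468) (nat_lit 380) (nat_lit 0) (XT.nd (nat_lit 234) (nat_lit 76) (nat_lit 0) (XT.nd (nat_lit 78) (nat_lit 228) (nat_lit 0) (XT.lf (nat_lit 0) (nat_lit 11998793321) (nat_lit 152) (nat_lit 5227486963) (nat_lit 0) (nat_lit 7408873386) (nat_lit 15) (nat_lit 5) (nat_lit 17) (nat_lit 4) (nat_lit 15) (nat_lit 4) (nat_lit 340) (nat_lit 286) (nat_lit 274)) (XT.nd (nat_lit 78) (nat_lit 152) (nat_lit 0) (XT.lf (nat_lit 0) (nat_lit 11118041518) (nat_lit 76) (nat_lit 9932756768) (nat_lit 76) (nat_lit 5118886917) (nat_lit 14) (nat_lit 4) (nat_lit 15) (nat_lit 5) (nat_lit 15) (nat_lit 4) (nat_lit 341) (nat_lit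 286) (nat_lit 273)) (XT.lf (nat_lit 0) (nat_lit 551112619) (nat_lit 76) (nat_lit 2167103723) (nat_lit 152) (nat_lit 25115745878) (nat_lit 12) (nat_lit 5) (nat_lit 13) (nat_lit 5) (nat_lit 14) (nat_lit 4) (nat_lit 342) (nat_lit 286) (nat_lit 272)))) (XT.nd (nat_lit 78) (nat_lit 76) (nat_lit 0) (XT.lf (nat_lit 0) (nat_lit 11091026996) (nat_lit 152) (nat_lit 12405744916) (nat_lit 0) (nat_lit 6126044292) (nat_lit 12) (nat_lit 5) (nat_lit 14) (nat_lit 4) (nat_lit 12) (nat_lit 4) (nat_lit 343) (nat_lit 286) (nat_lit 271)) (XT.nd (nat_lit 78) (nat_lit 0) (nat_lit 0) (XT.lf (nat_lit 0) (nat_lit 3228952661) (nat_lit 76) (nat_lit 16734336147) (nat_lit 76) (nat_lit 11600040430) (nat_lit 11) (nat_lit 4) (nat_lit 12) (nat_lit 5) (nat_lit 12) (nat_lit 4) (nat_lit 344) (nat_lit 286) (nat_lit 270)) (XT.lf (nat_lit 0) (nat_lit 20079752870) (nat_lit 76) (nat_lit 9435954186) (nat_lit 76) (nat_lit 4144887161)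 (nat_lit 11) (nat_lit 4) (nat_lit 12) (nat_lit 5) (nat_lit 12) (nat_lit 4) (nat_lit 345) (nat_lit 286) (nat_lit 269))))) (XT.nd (nat_lit 234) (nat_lit 228) (nat_lit 0) (XT.nd (nat_lit 78) (nat_lit 0) (nat_lit 0) (XT.lf (nat_lit 0) (nat_lit 1902919772) (nat_lit 76) (nat_lit 1677151162) (nat_lit 152) (nat_lit 32352624384) (nat_lit 9) (nat_lit 5) (nat_lit 10) (nat_lit 5) (nat_lit 11) (nat_lit 4) (nat_lit 346) (nat_lit 286) (nat_lit 268)) (XT.nd (nat_lit 78) (nat_lit 0) (nat_lit 0) (XT.lf (nat_lit 0) (nat_lit 11900701674) (nat_lit 152) (nat_lit 19881006899) (nat_lit 0) (nat_lit 6595338082) (nat_lit 9) (nat_lit 5) (nat_lit 11) (nat_lit 4) (nat_lit 9) (nat_lit 4) (nat_lit 347) (nat_lit 286) (nat_lit 267)) (XT.lf (nat_lit 0) (nat_lit 20707726603) (nat_lit 152) (nat_lit 5034365658) (nat_lit 0) (nat_lit 15283839088) (nat_lit 9) (nat_lit 5) (nat_lit 11) (nat_lit 4) (nat_lit 9) (nat_lit 4) (nat_lit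 348) (nat_lit 286) (nat_lit 266)))) (XT.nd (nat_lit 156) (nat_lit 152) (nat_lit 0) (XT.nd (nat_lit 78) (nat_lit 0) (nat_lit 0) (XT.lf (nat_lit 0) (nat_lit 10975601080) (nat_lit 76) (nat_lit 19222909278) (nat_lit 76) (nat_lit 13689277391) (nat_lit 8) (nat_lit 4) (nat_lit 9) (nat_lit 5) (nat_lit 9) (nat_lit 4) (nat_lit 349) (nat_lit 286) (nat_lit 265)) (XT.lf (nat_lit 0) (nat_lit 28086774337) (nat_lit 76) (nat_lit 12265938405) (nat_lit 76) (nat_lit 6630691357) (nat_lit 8) (nat_lit 4) (nat_lit 9) (nat_lit 5) (nat_lit 9) (nat_lit 4) (nat_lit 350) (nat_lit 286) (nat_lit 264))) (XT.nd (nat_lit 78) (nat_lit 76) (nat_lit 0) (XT.lf (nat_lit 0) (nat_lit 788065585) (nat_lit 152) (nat_lit 4113800707) (nat_lit 76) (nat_lit 45432682935) (nat_lit 7) (nat_lit 5) (nat_lit 9) (nat_lit 5) (nat_lit 8) (nat_lit 4) (nat_lit 351) (nat_lit 286) (nat_lit 263)) (XT.lf (nat_lit 0) (nat_lit 8645566275) (nat_lit 152)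 (nat_lit 42192836405) (nat_lit 0) (nat_lit 3106086484) (nat_lit 6) (nat_lit 5) (nat_lit 8) (nat_lit 4) (nat_lit 6) (nat_lit 4) (nat_lit 352) (nat_lit 286) (nat_lit 262))))))))
noncomputable def xc24 : XT := (XT.nd (nat_lit 1872) (nat_lit 0) (nat_lit 0) (XT.nd (nat_lit 936) (nat_lit 76) (nat_lit 0) (XT.nd (nat_lit 468) (nat_lit 152) (nat_lit 0) (XT.nd (nat_lit 234) (nat_lit 76) (nat_lit 0) (XT.nd (nat_lit 78) (nat_lit 0) (nat_lit 0) (XT.lf (nat_lit 0) (nat_lit 17132077562) (nat_lit 152) (nat_lit 29195367156) (nat_lit 0) (nat_lit 11515773591) (nat_lit 6) (nat_lit 5) (nat_lit 8) (nat_lit 4) (nat_lit 6) (nat_lit 4) (nat_lit 353) (nat_lit 286) (nat_lit 261)) (XT.nd (nat_lit 78) (nat_lit 0) (nat_lit 0) (XT.lf (nat_lit 0) (nat_lit 26153918659) (nat_lit 152) (nat_lit 15440638960) (nat_lit 0) (nat_lit 20466481186) (nat_lit 6) (nat_lit 5) (nat_lit 8) (nat_lit 4) (nat_lit 6) (nat_lit 4) (nat_lit 354)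 (nat_lit 286) (nat_lit 260)) (XT.lf (nat_lit 0) (nat_lit 35764552326) (nat_lit 152) (nat_lit 847142316) (nat_lit 0) (nat_lit 30011250501) (nat_lit 6) (nat_lit 5) (nat_lit 8) (nat_lit 4) (nat_lit 6) (nat_lit 4) (nat_lit 355) (nat_lit 286) (nat_lit 259)))) (XT.nd (nat_lit 78) (nat_lit 0) (nat_lit 0) (XT.lf (nat_lit 0) (nat_lit 15156712200) (nat_lit 76) (nat_lit 31100857022) (nat_lit 76) (nat_lit 25286569685) (nat_lit 5) (nat_lit 4) (nat_lit 6) (nat_lit 5) (nat_lit 6) (nat_lit 4) (nat_lit 356) (nat_lit 286) (nat_lit 258)) (XT.nd (nat_lit 78) (nat_lit 0) (nat_lit 0) (XT.lf (nat_lit 0) (nat_lit 32239422031) (nat_lit 76) (nat_lit 25247757319) (nat_lit 76) (nat_lit 19377001915) (nat_lit 5) (nat_lit 4) (nat_lit 6) (nat_lit 5) (nat_lit 6) (nat_lit 4) (nat_lit 357) (nat_lit 286) (nat_lit 257)) (XT.lf (nat_lit 0) (nat_lit 50474207699) (nat_lit 76) (nat_lit 19032057264) (nat_lit 76) (nat_lit 13109016613)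 (nat_lit 5) (nat_lit 4) (nat_lit 6) (nat_lit 5) (nat_lit 6) (nat_lit 4) (nat_lit 358) (nat_lit 286) (nat_lit 256))))) (XT.nd (nat_lit 234) (nat_lit 0) (nat_lit 0) (XT.nd (nat_lit 78) (nat_lit 152) (nat_lit 0) (XT.lf (nat_lit 0) (nat_lit 69969127191) (nat_lit 76) (nat_lit 12416923079) (nat_lit 76) (nat_lit 6445470163) (nat_lit 5) (nat_lit 4) (nat_lit 6) (nat_lit 5) (nat_lit 6) (nat_lit 4) (nat_lit 359) (nat_lit 286) (nat_lit 255)) (XT.nd (nat_lit 78) (nat_lit 76) (nat_lit 0) (XT.lf (nat_lit 0) (nat_lit 632221036) (nat_lit 152) (nat_lit 4720225963) (nat_lit 76) (nat_lit 90196777953) (nat_lit 4) (nat_lit 5) (nat_lit 6) (nat_lit 5) (nat_lit 5) (nat_lit 4) (nat_lit 360) (nat_lit 286) (nat_lit 254)) (XT.lf (nat_lit 0) (nat_lit 8169846971) (nat_lit 152) (nat_lit 92222718193) (nat_lit 0) (nat_lit 2400528112) (nat_lit 3) (nat_lit 5) (nat_lit 5) (nat_lit 4) (nat_lit 3) (nat_lit 4) (nat_lit 361) (nat_lit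 286) (nat_lit 253)))) (XT.nd (nat_lit 78) (nat_lit 0) (nat_lit 0) (XT.lf (nat_lit 0) (nat_lit 16399083940) (nat_lit 152) (nat_lit 83619800084) (nat_lit 0) (nat_lit 10593163922) (nat_lit 3) (nat_lit 5) (nat_lit 5) (nat_lit 4) (nat_lit 3) (nat_lit 4) (nat_lit 362) (nat_lit 286) (nat_lit 252)) (XT.nd (nat_lit 78) (nat_lit 0) (nat_lit 0) (XT.lf (nat_lit 0) (nat_lit 25207750341) (nat_lit 152) (nat_lit 74484780180) (nat_lit 0) (nat_lit 19367940360) (nat_lit 3) (nat_lit 5) (nat_lit 5) (nat_lit 4) (nat_lit 3) (nat_lit 4) (nat_lit 363) (nat_lit 286) (nat_lit 251)) (XT.lf (nat_lit 0) (nat_lit 34648045678) (nat_lit 152) (nat_lit 64763525029) (nat_lit 0) (nat_lit 28776856103) (nat_lit 3) (nat_lit 5) (nat_lit 5) (nat_lit 4) (nat_lit 3) (nat_lit 4) (nat_lit 364) (nat_lit 286) (nat_lit 250)))))) (XT.nd (nat_lit 468) (nat_lit 0) (nat_lit 0) (XT.nd (nat_lit 234) (nat_lit 76) (nat_lit 0) (XT.nd (nat_lit 78)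 (nat_lit 0) (nat_lit 0) (XT.lf (nat_lit 0) (nat_lit 44775912442) (nat_lit 152) (nat_lit 54398427193) (nat_lit 0) (nat_lit 38875667686) (nat_lit 3) (nat_lit 5) (nat_lit 5) (nat_lit 4) (nat_lit 3) (nat_lit 4) (nat_lit 365) (nat_lit 286) (nat_lit 249)) (XT.nd (nat_lit 78) (nat_lit 0) (nat_lit 0) (XT.lf (nat_lit 0) (nat_lit 55651367622) (nat_lit 152) (nat_lit 43328063871) (nat_lit 0) (nat_lit 49724219921) (nat_lit 3) (nat_lit 5) (nat_lit 5) (nat_lit 4) (nat_lit 3) (nat_lit 4) (nat_lit 366) (nat_lit 286) (nat_lit 248)) (XT.lf (nat_lit 0) (nat_lit 67338858358) (nat_lit 152) (nat_lit 31486832910) (nat_lit 0) (nat_lit 61386800524) (nat_lit 3) (nat_lit 5) (nat_lit 5) (nat_lit 4) (nat_lit 3) (nat_lit 4) (nat_lit 367) (nat_lit 286) (nat_lit 247)))) (XT.nd (nat_lit 78) (nat_lit 76) (nat_lit 0) (XT.lf (nat_lit 0) (nat_lit 79907643856) (nat_lit 152) (nat_lit 18804564051) (nat_lit 0) (nat_lit 73932521083)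 (nat_lit 3) (nat_lit 5) (nat_lit 5) (nat_lit 4) (nat_lit 3) (nat_lit 4) (nat_lit 368) (nat_lit 286) (nat_lit 246)) (XT.nd (nat_lit 78) (nat_lit 76) (nat_lit 0) (XT.lf (nat_lit 0) (nat_lit 93432205807) (nat_lit 152) (nat_lit 5206103110) (nat_lit 0) (nat_lit 87435726609) (nat_lit 3) (nat_lit 5) (nat_lit 5) (nat_lit 4) (nat_lit 3) (nat_lit 4) (nat_lit 369) (nat_lit 286) (nat_lit 245)) (XT.lf (nat_lit 0) (nat_lit 9699580538) (nat_lit 76) (nat_lit 98444546861) (nat_lit 76) (nat_lit 92428293195) (nat_lit 2) (nat_lit 4) (nat_lit 3) (nat_lit 5) (nat_lit 3) (nat_lit 4) (nat_lit 370) (nat_lit 286) (nat_lit 244))))) (XT.nd (nat_lit 234) (nat_lit 0) (nat_lit 0) (XT.nd (nat_lit 78) (nat_lit 0) (nat_lit 0) (XT.lf (nat_lit 0) (nat_lit 25896484973) (nat_lit 76) (nat_lit 98183211807) (nat_lit 76) (nat_lit 92148648449) (nat_lit 2) (nat_lit 4) (nat_lit 3) (nat_lit 5) (nat_lit 3) (nat_lit 4) (nat_lit 371) (nat_lit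 286) (nat_lit 243)) (XT.nd (nat_lit 78) (nat_lit 0) (nat_lit 0) (XT.lf (nat_lit 0) (nat_lit 43308454571) (nat_lit 76) (nat_lit 97940922980) (nat_lit 76) (nat_lit 91889406203) (nat_lit 2) (nat_lit 4) (nat_lit 3) (nat_lit 5) (nat_lit 3) (nat_lit 4) (nat_lit 372) (nat_lit 286) (nat_lit 242)) (XT.lf (nat_lit 0) (nat_lit 62038671373) (nat_lit 76) (nat_lit 97716244593) (nat_lit 76) (nat_lit 91649030206) (nat_lit 2) (nat_lit 4) (nat_lit 3) (nat_lit 5) (nat_lit 3) (nat_lit 4) (nat_lit 373) (nat_lit 286) (nat_lit 241)))) (XT.nd (nat_lit 78) (nat_lit 0) (nat_lit 0) (XT.lf (nat_lit 0) (nat_lit 82198129258) (nat_lit 76) (nat_lit 97507845218) (nat_lit 76) (nat_lit 91426096008) (nat_lit 2) (nat_lit 4) (nat_lit 3) (nat_lit 5) (nat_lit 3) (nat_lit 4) (nat_lit 374) (nat_lit 286) (nat_lit 240)) (XT.nd (nat_lit 78) (nat_lit 0) (nat_lit 0) (XT.lf (nat_lit 0) (nat_lit 103906291678) (nat_lit 76) (nat_lit 97314489898)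 (nat_lit 76) (nat_lit 91219282517) (nat_lit 2) (nat_lit 4) (nat_lit 3) (nat_lit 5) (nat_lit 3) (nat_lit 4) (nat_lit 375) (nat_lit 286) (nat_lit 239)) (XT.lf (nat_lit 0) (nat_lit 127291799596) (nat_lit 76) (nat_lit 97135032822) (nat_lit 76) (nat_lit 91027364172) (nat_lit 2) (nat_lit 4) (nat_lit 3) (nat_lit 5) (nat_lit 3) (nat_lit 4) (nat_lit 376) (nat_lit 286) (nat_lit 238))))))) (XT.nd (nat_lit 936) (nat_lit 0) (nat_lit 0) (XT.nd (nat_lit 468) (nat_lit 0) (nat_lit 0) (XT.nd (nat_lit 234) (nat_lit 0) (nat_lit 0) (XT.nd (nat_lit 78) (nat_lit 0) (nat_lit 0) (XT.lf (nat_lit 0) (nat_lit 152493233801) (nat_lit 76) (nat_lit 96968410540) (nat_lit 76) (nat_lit 90849203679) (nat_lit 2) (nat_lit 4) (nat_lit 3) (nat_lit 5) (nat_lit 3) (nat_lit 4) (nat_lit 377) (nat_lit 286) (nat_lit 237)) (XT.nd (nat_lit 78) (nat_lit 0) (nat_lit 0) (XT.lf (nat_lit 0) (nat_lit 179659936124) (nat_lit 76) (nat_lit 96813635663)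 (nat_lit 76) (nat_lit 90683745272) (nat_lit 2) (nat_lit 4) (nat_lit 3) (nat_lit 5) (nat_lit 3) (nat_lit 4) (nat_lit 378) (nat_lit 286) (nat_lit 236)) (XT.lf (nat_lit 0) (nat_lit 208952894431) (nat_lit 76) (nat_lit 96669791005) (nat_lit 76) (nat_lit 90530008457) (nat_lit 2) (nat_lit 4) (nat_lit 3) (nat_lit 5) (nat_lit 3) (nat_lit 4) (nat_lit 379) (nat_lit 286) (nat_lit 235)))) (XT.nd (nat_lit 78) (nat_lit 0) (nat_lit 0) (XT.lf (nat_lit 0) (nat_lit 240545696623) (nat_lit 76) (nat_lit 96536024153) (nat_lit 76) (nat_lit 90387082201) (nat_lit 2) (nat_lit 4) (nat_lit 3) (nat_lit 5) (nat_lit 3) (nat_lit 4) (nat_lit 380) (nat_lit 286) (nat_lit 234)) (XT.nd (nat_lit 78) (nat_lit 0) (nat_lit 0) (XT.lf (nat_lit 0) (nat_lit 274625559306) (nat_lit 76) (nat_lit 96411542416) (nat_lit 76) (nat_lit 90254119533) (nat_lit 2) (nat_lit 4) (nat_lit 3) (nat_lit 5) (nat_lit 3) (nat_lit 4) (nat_lit 381) (nat_lit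 286) (nat_lit 233)) (XT.lf (nat_lit 0) (nat_lit 311394437221) (nat_lit 76) (nat_lit 96295608123) (nat_lit 76) (nat_lit 90130332527) (nat_lit 2) (nat_lit 4) (nat_lit 3) (nat_lit 5) (nat_lit 3) (nat_lit 4) (nat_lit 382) (nat_lit 286) (nat_lit 232))))) (XT.nd (nat_lit 234) (nat_lit 0) (nat_lit 0) (XT.nd (nat_lit 78) (nat_lit 0) (nat_lit 0) (XT.lf (nat_lit 0) (nat_lit 351070220016) (nat_lit 76) (nat_lit 96187534256) (nat_lit 76) (nat_lit 90014987629) (nat_lit 2) (nat_lit 4) (nat_lit 3) (nat_lit 5) (nat_lit 3) (nat_lit 4) (nat_lit 383) (nat_lit 286) (nat_lit 231)) (XT.nd (nat_lit 78) (nat_lit 0) (nat_lit 0) (XT.lf (nat_lit 0) (nat_lit 393888023440) (nat_lit 76) (nat_lit 96086680378) (nat_lit 76) (nat_lit 89907401316) (nat_lit 2) (nat_lit 4) (nat_lit 3) (nat_lit 5) (nat_lit 3) (nat_lit 4) (nat_lit 384) (nat_lit 286) (nat_lit 230)) (XT.lf (nat_lit 0) (nat_lit 440101582625) (nat_lit 76) (nat_lit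 95992448836) (nat_lit 76) (nat_lit 89806936037) (nat_lit 2) (nat_lit 4) (nat_lit 3) (nat_lit 5) (nat_lit 3) (nat_lit 4) (nat_lit 385) (nat_lit 286) (nat_lit 229)))) (XT.nd (nat_lit 78) (nat_lit 0) (nat_lit 0) (XT.lf (nat_lit 0) (nat_lit 489984755699) (nat_lit 76) (nat_lit 95904281221) (nat_lit 76) (nat_lit 89712996444) (nat_lit 2) (nat_lit 4) (nat_lit 3) (nat_lit 5) (nat_lit 3) (nat_lit 4) (nat_lit 386) (nat_lit 286) (nat_lit 228)) (XT.nd (nat_lit 78) (nat_lit 0) (nat_lit 0) (XT.lf (nat_lit 0) (nat_lit 543833146651) (nat_lit 76) (nat_lit 95821655059) (nat_lit 76) (nat_lit 89625025857) (nat_lit 2) (nat_lit 4) (nat_lit 3) (nat_lit 5) (nat_lit 3) (nat_lit 4) (nat_lit 387) (nat_lit 286) (nat_lit 227)) (XT.lf (nat_lit 0) (nat_lit 601965857057) (nat_lit 76) (nat_lit 95744080712) (nat_lit 76) (nat_lit 89542502968) (nat_lit 2) (nat_lit 4) (nat_lit 3) (nat_lit 5) (nat_lit 3) (nat_lit 4) (nat_lit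 388) (nat_lit 286) (nat_lit 226)))))) (XT.nd (nat_lit 468) (nat_lit 0) (nat_lit 0) (XT.nd (nat_lit 234) (nat_lit 0) (nat_lit 0) (XT.nd (nat_lit 78) (nat_lit 0) (nat_lit 0) (XT.lf (nat_lit 0) (nat_lit 664727377052) (nat_lit 76) (nat_lit 95671098481) (nat_lit 76) (nat_lit 89464938755) (nat_lit 2) (nat_lit 4) (nat_lit 3) (nat_lit 5) (nat_lit 3) (nat_lit 4) (nat_lit 389) (nat_lit 286) (nat_lit 225)) (XT.nd (nat_lit 78) (nat_lit 0) (nat_lit 0) (XT.lf (nat_lit 0) (nat_lit 732489626755) (nat_lit 76) (nat_lit 95602275879) (nat_lit 76) (nat_lit 89391873576) (nat_lit 2) (nat_lit 4) (nat_lit 3) (nat_lit 5) (nat_lit 3) (nat_lit 4) (nat_lit 390) (nat_lit 286) (nat_lit 224)) (XT.lf (nat_lit 0) (nat_lit 805654160239) (nat_lit 76) (nat_lit 95537205067) (nat_lit 76) (nat_lit 89322874453) (nat_lit 2) (nat_lit 4) (nat_lit 3) (nat_lit 5) (nat_lit 3) (nat_lit 4) (nat_lit 391) (nat_lit 286) (nat_lit 223)))) (XT.nd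 (nat_lit 78) (nat_lit 0) (nat_lit 0) (XT.lf (nat_lit 0) (nat_lit 884654545109) (nat_lit 76) (nat_lit 95475500442) (nat_lit 76) (nat_lit 89257532502) (nat_lit 2) (nat_lit 4) (nat_lit 3) (nat_lit 5) (nat_lit 3) (nat_lit 4) (nat_lit 392) (nat_lit 286) (nat_lit 222)) (XT.nd (nat_lit 78) (nat_lit 0) (nat_lit 0) (XT.lf (nat_lit 0) (nat_lit 969958931794) (nat_lit 76) (nat_lit 95416796346) (nat_lit 76) (nat_lit 89195460511) (nat_lit 2) (nat_lit 4) (nat_lit 3) (nat_lit 5) (nat_lit 3) (nat_lit 4) (nat_lit 393) (nat_lit 286) (nat_lit 221)) (XT.lf (nat_lit 0) (nat_lit 1062072827770) (nat_lit 76) (nat_lit 95360744902) (nat_lit 76) (nat_lit 89136290648) (nat_lit 2) (nat_lit 4) (nat_lit 3) (nat_lit 5) (nat_lit 3) (nat_lit 4) (nat_lit 394) (nat_lit 286) (nat_lit 220))))) (XT.nd (nat_lit 41574) (nat_lit 0) (nat_lit 1976) (XT.nd (nat_lit 78) (nat_lit 0) (nat_lit 0) (XT.lf (nat_lit 0) (nat_lit 1161542093163)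 (nat_lit 76) (nat_lit 95307013955) (nat_lit 76) (nat_lit 89079672274) (nat_lit 2) (nat_lit 4) (nat_lit 3) (nat_lit 5) (nat_lit 3) (nat_lit 4) (nat_lit 395) (nat_lit 286) (nat_lit 219)) (XT.nd (nat_lit 41418) (nat_lit 0) (nat_lit 2736) (XT.lf (nat_lit 0) (nat_lit 1268956175470) (nat_lit 76) (nat_lit 95255285099) (nat_lit 76) (nat_lit 89025269875) (nat_lit 2) (nat_lit 4) (nat_lit 3) (nat_lit 5) (nat_lit 3) (nat_lit 4) (nat_lit 396) (nat_lit 286) (nat_lit 218)) (XT.lf (nat_lit 0) (nat_lit 2777151302) (nat_lit 152) (nat_lit 1627761746) (nat_lit 152) (nat_lit 1627761746) (nat_lit 38) (nat_lit 4) (nat_lit 40) (nat_lit 5) (nat_lit 40) (nat_lit 4) (nat_lit 326) (nat_lit 287) (nat_lit 287)))) (XT.nd (nat_lit 156) (nat_lit 456) (nat_lit 0) (XT.nd (nat_lit 78) (nat_lit 152) (nat_lit 0) (XT.lf (nat_lit 0) (nat_lit 4529775560) (nat_lit 152) (nat_lit 4346300107) (nat_lit 0) (nat_lit 3713577575) (nat_lit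 36) (nat_lit 5) (nat_lit 38) (nat_lit 4) (nat_lit 36) (nat_lit 4) (nat_lit 327) (nat_lit 287) (nat_lit 286)) (XT.lf (nat_lit 0) (nat_lit 10719367395) (nat_lit 152) (nat_lit 2005448251) (nat_lit 152) (nat_lit 433511390) (nat_lit 34) (nat_lit 4) (nat_lit 36) (nat_lit 5) (nat_lit 36) (nat_lit 4) (nat_lit 328) (nat_lit 287) (nat_lit 285))) (XT.nd (nat_lit 78) (nat_lit 304) (nat_lit 0) (XT.lf (nat_lit 0) (nat_lit 7493631315) (nat_lit 152) (nat_lit 945765532) (nat_lit 0) (nat_lit 5330112192) (nat_lit 32) (nat_lit 5) (nat_lit 34) (nat_lit 4) (nat_lit 32) (nat_lit 4) (nat_lit 329) (nat_lit 287) (nat_lit 284)) (XT.lf (nat_lit 0) (nat_lit 207455808) (nat_lit 76) (nat_lit 1250127445) (nat_lit 152) (nat_lit 12975570854) (nat_lit 28) (nat_lit 5) (nat_lit 29) (nat_lit 5) (nat_lit 30) (nat_lit 4) (nat_lit 330) (nat_lit 287) (nat_lit 283))))))))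
noncomputable def xc25 : XT := (XT.nd (nat_lit 1950) (nat_lit 304) (nat_lit 0) (XT.nd (nat_lit 936) (nat_lit 608) (nat_lit 0) (XT.nd (nat_lit 468) (nat_lit 456) (nat_lit 0) (XT.nd (nat_lit 234) (nat_lit 228) (nat_lit 0) (XT.nd (nat_lit 78) (nat_lit 228) (nat_lit 0) (XT.lf (nat_lit 0) (nat_lit 806633901) (nat_lit 152) (nat_lit 8765712771) (nat_lit 152) (nat_lit 5573377860) (nat_lit 26) (nat_lit 4) (nat_lit 28) (nat_lit 5) (nat_lit 28) (nat_lit 4) (nat_lit 331) (nat_lit 287) (nat_lit 282)) (XT.nd (nat_lit 78) (nat_lit 76) (nat_lit 0) (XT.lf (nat_lit 0) (nat_lit 875340687) (nat_lit 76) (nat_lit 1354670034) (nat_lit 152) (nat_lit 13689165430) (nat_lit 24) (nat_lit 5) (nat_lit 25) (nat_lit 5) (nat_lit 26) (nat_lit 4) (nat_lit 332) (nat_lit 287) (nat_lit 281)) (XT.lf (nat_lit 0) (nat_lit 161760877) (nat_lit 76) (nat_lit 10276962289) (nat_lit 76) (nat_lit 6312480652) (nat_lit 23) (nat_lit 4) (nat_lit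 24) (nat_lit 5) (nat_lit 24) (nat_lit 4) (nat_lit 333) (nat_lit 287) (nat_lit 280)))) (XT.nd (nat_lit 78) (nat_lit 152) (nat_lit 0) (XT.lf (nat_lit 0) (nat_lit 1515858471) (nat_lit 152) (nat_lit 1268368971) (nat_lit 76) (nat_lit 14868625541) (nat_lit 22) (nat_lit 5) (nat_lit 24) (nat_lit 5) (nat_lit 23) (nat_lit 4) (nat_lit 334) (nat_lit 287) (nat_lit 279)) (XT.nd (nat_lit 78) (nat_lit 76) (nat_lit 0) (XT.lf (nat_lit 0) (nat_lit 9723314219) (nat_lit 152) (nat_lit 3706487527) (nat_lit 0) (nat_lit 5193026436) (nat_lit 21) (nat_lit 5) (nat_lit 23) (nat_lit 4) (nat_lit 21) (nat_lit 4) (nat_lit 335) (nat_lit 287) (nat_lit 278)) (XT.lf (nat_lit 0) (nat_lit 12492512729) (nat_lit 76) (nat_lit 6023850708) (nat_lit 76) (nat_lit 1157651695) (nat_lit 20) (nat_lit 4) (nat_lit 21) (nat_lit 5) (nat_lit 21) (nat_lit 4) (nat_lit 336) (nat_lit 287) (nat_lit 277))))) (XT.nd (nat_lit 234) (nat_lit 152) (nat_lit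 0) (XT.nd (nat_lit 78) (nat_lit 152) (nat_lit 0) (XT.lf (nat_lit 0) (nat_lit 6883243107) (nat_lit 152) (nat_lit 11972424648) (nat_lit 0) (nat_lit 1952549841) (nat_lit 18) (nat_lit 5) (nat_lit 20) (nat_lit 4) (nat_lit 18) (nat_lit 4) (nat_lit 337) (nat_lit 287) (nat_lit 276)) (XT.nd (nat_lit 78) (nat_lit 76) (nat_lit 0) (XT.lf (nat_lit 0) (nat_lit 3761578590) (nat_lit 76) (nat_lit 11738494399) (nat_lit 76) (nat_lit 6533525193) (nat_lit 17) (nat_lit 4) (nat_lit 18) (nat_lit 5) (nat_lit 18) (nat_lit 4) (nat_lit 338) (nat_lit 287) (nat_lit 275)) (XT.lf (nat_lit 0) (nat_lit 1309445096) (nat_lit 152) (nat_lit 2774565962) (nat_lit 76) (nat_lit 19276583114) (nat_lit 16) (nat_lit 5) (nat_lit 18) (nat_lit 5) (nat_lit 17) (nat_lit 4) (nat_lit 339) (nat_lit 287) (nat_lit 274)))) (XT.nd (nat_lit 78) (nat_lit 76) (nat_lit 0) (XT.lf (nat_lit 0) (nat_lit 9552566631) (nat_lit 152) (nat_lit 11106152150) (nat_lit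 0) (nat_lit 4129637277) (nat_lit 15) (nat_lit 5) (nat_lit 17) (nat_lit 4) (nat_lit 15) (nat_lit 4) (nat_lit 340) (nat_lit 287) (nat_lit 273)) (XT.nd (nat_lit 78) (nat_lit 0) (nat_lit 0) (XT.lf (nat_lit 0) (nat_lit 4783400368) (nat_lit 76) (nat_lit 13590660995) (nat_lit 76) (nat_lit 7960370609) (nat_lit 14) (nat_lit 4) (nat_lit 15) (nat_lit 5) (nat_lit 15) (nat_lit 4) (nat_lit 341) (nat_lit 287) (nat_lit 272)) (XT.lf (nat_lit 0) (nat_lit 21836890545) (nat_lit 76) (nat_lit 5996512368) (nat_lit 76) (nat_lit 174221026) (nat_lit 14) (nat_lit 4) (nat_lit 15) (nat_lit 5) (nat_lit 15) (nat_lit 4) (nat_lit 342) (nat_lit 287) (nat_lit 271)))))) (XT.nd (nat_lit 468) (nat_lit 228) (nat_lit 0) (XT.nd (nat_lit 234) (nat_lit 152) (nat_lit 0) (XT.nd (nat_lit 78) (nat_lit 76) (nat_lit 0) (XT.lf (nat_lit 0) (nat_lit 7919503028) (nat_lit 152) (nat_lit 19686208802) (nat_lit 0) (nat_lit 2205150642) (nat_lit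 12) (nat_lit 5) (nat_lit 14) (nat_lit 4) (nat_lit 12) (nat_lit 4) (nat_lit 343) (nat_lit 287) (nat_lit 270)) (XT.nd (nat_lit 78) (nat_lit 76) (nat_lit 0) (XT.lf (nat_lit 0) (nat_lit 16626800550) (nat_lit 152) (nat_lit 4377160583) (nat_lit 0) (nat_lit 10755676855) (nat_lit 12) (nat_lit 5) (nat_lit 14) (nat_lit 4) (nat_lit 12) (nat_lit 4) (nat_lit 344) (nat_lit 287) (nat_lit 269)) (XT.lf (nat_lit 0) (nat_lit 12116269224) (nat_lit 76) (nat_lit 13882964265) (nat_lit 76) (nat_lit 7866681952) (nat_lit 11) (nat_lit 4) (nat_lit 12) (nat_lit 5) (nat_lit 12) (nat_lit 4) (nat_lit 345) (nat_lit 287) (nat_lit 268)))) (XT.nd (nat_lit 78) (nat_lit 152) (nat_lit 0) (XT.lf (nat_lit 0) (nat_lit 29675948239) (nat_lit 76) (nat_lit 6311090915) (nat_lit 76) (nat_lit 160402474) (nat_lit 11) (nat_lit 4) (nat_lit 12) (nat_lit 5) (nat_lit 12) (nat_lit 4) (nat_lit 346) (nat_lit 287) (nat_lit 267)) (XT.nd (nat_lit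 78) (nat_lit 0) (nat_lit 0) (XT.lf (nat_lit 0) (nat_lit 7887146332) (nat_lit 152) (nat_lit 28807869534) (nat_lit 0) (nat_lit 1910823894) (nat_lit 9) (nat_lit 5) (nat_lit 11) (nat_lit 4) (nat_lit 9) (nat_lit 4) (nat_lit 347) (nat_lit 287) (nat_lit 266)) (XT.lf (nat_lit 0) (nat_lit 16601785174) (nat_lit 152) (nat_lit 14141850206) (nat_lit 0) (nat_lit 10515718363) (nat_lit 9) (nat_lit 5) (nat_lit 11) (nat_lit 4) (nat_lit 9) (nat_lit 4) (nat_lit 348) (nat_lit 287) (nat_lit 265))))) (XT.nd (nat_lit 234) (nat_lit 152) (nat_lit 0) (XT.nd (nat_lit 78) (nat_lit 0) (nat_lit 0) (XT.lf (nat_lit 0) (nat_lit 1394209657) (nat_lit 76) (nat_lit 24463224229) (nat_lit 76) (nat_lit 18275542258) (nat_lit 8) (nat_lit 4) (nat_lit 9) (nat_lit 5) (nat_lit 9) (nat_lit 4) (nat_lit 349) (nat_lit 287) (nat_lit 264)) (XT.nd (nat_lit 78) (nat_lit 0) (nat_lit 0) (XT.lf (nat_lit 0) (nat_lit 18345408557) (nat_lit 76) (nat_lit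 17584523886) (nat_lit 76) (nat_lit 11302753804) (nat_lit 8) (nat_lit 4) (nat_lit 9) (nat_lit 5) (nat_lit 9) (nat_lit 4) (nat_lit 350) (nat_lit 287) (nat_lit 263)) (XT.lf (nat_lit 0) (nat_lit 36344604609) (nat_lit 76) (nat_lit 10306270760) (nat_lit 76) (nat_lit 3937382057) (nat_lit 8) (nat_lit 4) (nat_lit 9) (nat_lit 5) (nat_lit 9) (nat_lit 4) (nat_lit 351) (nat_lit 287) (nat_lit 262)))) (XT.nd (nat_lit 156) (nat_lit 0) (nat_lit 0) (XT.nd (nat_lit 78) (nat_lit 0) (nat_lit 0) (XT.lf (nat_lit 0) (nat_lit 1258844764) (nat_lit 76) (nat_lit 2501349800) (nat_lit 152) (nat_lit 50455380711) (nat_lit 6) (nat_lit 5) (nat_lit 7) (nat_lit 5) (nat_lit 8) (nat_lit 4) (nat_lit 352) (nat_lit 287) (nat_lit 261)) (XT.lf (nat_lit 0) (nat_lit 12138618592) (nat_lit 152) (nat_lit 40056044044) (nat_lit 0) (nat_lit 5925052621) (nat_lit 6) (nat_lit 5) (nat_lit 8) (nat_lit 4) (nat_lit 6) (nat_lit 4) (nat_lit 353)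 (nat_lit 287) (nat_lit 260))) (XT.nd (nat_lit 78) (nat_lit 0) (nat_lit 0) (XT.lf (nat_lit 0) (nat_lit 21096539152) (nat_lit 152) (nat_lit 26427089795) (nat_lit 0) (nat_lit 14817108828) (nat_lit 6) (nat_lit 5) (nat_lit 8) (nat_lit 4) (nat_lit 6) (nat_lit 4) (nat_lit 354) (nat_lit 287) (nat_lit 259)) (XT.lf (nat_lit 0) (nat_lit 30647987137) (nat_lit 152) (nat_lit 11950050508) (nat_lit 0) (nat_lit 24307571301) (nat_lit 6) (nat_lit 5) (nat_lit 8) (nat_lit 4) (nat_lit 6) (nat_lit 4) (nat_lit 355) (nat_lit 287) (nat_lit 258))))))) (XT.nd (nat_lit 936) (nat_lit 76) (nat_lit 0) (XT.nd (nat_lit 468) (nat_lit 76) (nat_lit 0) (XT.nd (nat_lit 234) (nat_lit 76) (nat_lit 0) (XT.nd (nat_lit 78) (nat_lit 0) (nat_lit 0) (XT.lf (nat_lit 0) (nat_lit 3575295458) (nat_lit 76) (nat_lit 37330088644) (nat_lit 76) (nat_lit 30933204742) (nat_lit 5) (nat_lit 4) (nat_lit 6) (nat_lit 5) (nat_lit 6) (nat_lit 4) (nat_lit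 356) (nat_lit 287) (nat_lit 257)) (XT.nd (nat_lit 78) (nat_lit 0) (nat_lit 0) (XT.lf (nat_lit 0) (nat_lit 20554860602) (nat_lit 76) (nat_lit 31527781068) (nat_lit 76) (nat_lit 25078611919) (nat_lit 5) (nat_lit 4) (nat_lit 6) (nat_lit 5) (nat_lit 6) (nat_lit 4) (nat_lit 357) (nat_lit 287) (nat_lit 256)) (XT.lf (nat_lit 0) (nat_lit 38694141929) (nat_lit 76) (nat_lit 25359110761) (nat_lit 76) (nat_lit 18861529346) (nat_lit 5) (nat_lit 4) (nat_lit 6) (nat_lit 5) (nat_lit 6) (nat_lit 4) (nat_lit 358) (nat_lit 287) (nat_lit 255)))) (XT.nd (nat_lit 78) (nat_lit 76) (nat_lit 0) (XT.lf (nat_lit 0) (nat_lit 58100631477) (nat_lit 76) (nat_lit 18787522638) (nat_lit 76) (nat_lit 12245115051) (nat_lit 5) (nat_lit 4) (nat_lit 6) (nat_lit 5) (nat_lit 6) (nat_lit 4) (nat_lit 359) (nat_lit 287) (nat_lit 254)) (XT.nd (nat_lit 78) (nat_lit 76) (nat_lit 0) (XT.lf (nat_lit 0) (nat_lit 78889330665) (nat_lit 76)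 (nat_lit 11774073955) (nat_lit 76) (nat_lit 5190160654) (nat_lit 5) (nat_lit 4) (nat_lit 6) (nat_lit 5) (nat_lit 6) (nat_lit 4) (nat_lit 360) (nat_lit 287) (nat_lit 253)) (XT.lf (nat_lit 0) (nat_lit 2270081824) (nat_lit 152) (nat_lit 1968676777) (nat_lit 76) (nat_lit 98874905026) (nat_lit 4) (nat_lit 5) (nat_lit 6) (nat_lit 5) (nat_lit 5) (nat_lit 4) (nat_lit 361) (nat_lit 287) (nat_lit 252))))) (XT.nd (nat_lit 234) (nat_lit 0) (nat_lit 0) (XT.nd (nat_lit 78) (nat_lit 0) (nat_lit 0) (XT.lf (nat_lit 0) (nat_lit 10362929231) (nat_lit 152) (nat_lit 96554467140) (nat_lit 0) (nat_lit 4022044489) (nat_lit 3) (nat_lit 5) (nat_lit 5) (nat_lit 4) (nat_lit 3) (nat_lit 4) (nat_lit 362) (nat_lit 287) (nat_lit 251)) (XT.nd (nat_lit 78) (nat_lit 0) (nat_lit 0) (XT.lf (nat_lit 0) (nat_lit 19136468528) (nat_lit 152) (nat_lit 87488950287) (nat_lit 0) (nat_lit 12764204192) (nat_lit 3) (nat_lit 5) (nat_lit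 5) (nat_lit 4) (nat_lit 3) (nat_lit 4) (nat_lit 363) (nat_lit 287) (nat_lit 250)) (XT.lf (nat_lit 0) (nat_lit 28544238769) (nat_lit 152) (nat_lit 77832049812) (nat_lit 0) (nat_lit 22142919252) (nat_lit 3) (nat_lit 5) (nat_lit 5) (nat_lit 4) (nat_lit 3) (nat_lit 4) (nat_lit 364) (nat_lit 287) (nat_lit 249)))) (XT.nd (nat_lit 78) (nat_lit 0) (nat_lit 0) (XT.lf (nat_lit 0) (nat_lit 38641989703) (nat_lit 152) (nat_lit 67526539641) (nat_lit 0) (nat_lit 32213767242) (nat_lit 3) (nat_lit 5) (nat_lit 5) (nat_lit 4) (nat_lit 3) (nat_lit 4) (nat_lit 365) (nat_lit 287) (nat_lit 248)) (XT.nd (nat_lit 78) (nat_lit 0) (nat_lit 0) (XT.lf (nat_lit 0) (nat_lit 49489559855) (nat_lit 152) (nat_lit 56511350081) (nat_lit 0) (nat_lit 43036427260) (nat_lit 3) (nat_lit 5) (nat_lit 5) (nat_lit 4) (nat_lit 3) (nat_lit 4) (nat_lit 366) (nat_lit 287) (nat_lit 247)) (XT.lf (nat_lit 0) (nat_lit 61151231122) (nat_lit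 152) (nat_lit 44721205937) (nat_lit 0) (nat_lit 54675033587) (nat_lit 3) (nat_lit 5) (nat_lit 5) (nat_lit 4) (nat_lit 3) (nat_lit 4) (nat_lit 367) (nat_lit 287) (nat_lit 246)))))) (XT.nd (nat_lit 468) (nat_lit 0) (nat_lit 0) (XT.nd (nat_lit 234) (nat_lit 76) (nat_lit 0) (XT.nd (nat_lit 78) (nat_lit 0) (nat_lit 0) (XT.lf (nat_lit 0) (nat_lit 73696109703) (nat_lit 152) (nat_lit 32086239687) (nat_lit 0) (nat_lit 67198555744) (nat_lit 3) (nat_lit 5) (nat_lit 5) (nat_lit 4) (nat_lit 3) (nat_lit 4) (nat_lit 368) (nat_lit 287) (nat_lit 245)) (XT.nd (nat_lit 78) (nat_lit 0) (nat_lit 0) (XT.lf (nat_lit 0) (nat_lit 87198535620) (nat_lit 152) (nat_lit 18531577458) (nat_lit 0) (nat_lit 80681207193) (nat_lit 3) (nat_lit 5) (nat_lit 5) (nat_lit 4) (nat_lit 3) (nat_lit 4) (nat_lit 369) (nat_lit 287) (nat_lit 244)) (XT.lf (nat_lit 0) (nat_lit 101738523249) (nat_lit 152) (nat_lit 3976895324) (nat_lit 0)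 (nat_lit 95202885130) (nat_lit 3) (nat_lit 5) (nat_lit 5) (nat_lit 4) (nat_lit 3) (nat_lit 4) (nat_lit 370) (nat_lit 287) (nat_lit 243)))) (XT.nd (nat_lit 78) (nat_lit 0) (nat_lit 0) (XT.lf (nat_lit 0) (nat_lit 12049723072) (nat_lit 76) (nat_lit 105540642354) (nat_lit 76) (nat_lit 98988050817) (nat_lit 2) (nat_lit 4) (nat_lit 3) (nat_lit 5) (nat_lit 3) (nat_lit 4) (nat_lit 371) (nat_lit 287) (nat_lit 242)) (XT.nd (nat_lit 78) (nat_lit 0) (nat_lit 0) (XT.lf (nat_lit 0) (nat_lit 29425774226) (nat_lit 76) (nat_lit 105316138885) (nat_lit 76) (nat_lit 98747849738) (nat_lit 2) (nat_lit 4) (nat_lit 3) (nat_lit 5) (nat_lit 3) (nat_lit 4) (nat_lit 372) (nat_lit 287) (nat_lit 241)) (XT.lf (nat_lit 0) (nat_lit 48122733210) (nat_lit 76) (nat_lit 105107928423) (nat_lit 76) (nat_lit 98525104452) (nat_lit 2) (nat_lit 4) (nat_lit 3) (nat_lit 5) (nat_lit 3) (nat_lit 4) (nat_lit 373) (nat_lit 287) (nat_lit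 240))))) (XT.nd (nat_lit 234) (nat_lit 0) (nat_lit 0) (XT.nd (nat_lit 78) (nat_lit 0) (nat_lit 0) (XT.lf (nat_lit 0) (nat_lit 68251396817) (nat_lit 76) (nat_lit 104914777128) (nat_lit 76) (nat_lit 98318494986) (nat_lit 2) (nat_lit 4) (nat_lit 3) (nat_lit 5) (nat_lit 3) (nat_lit 4) (nat_lit 374) (nat_lit 287) (nat_lit 239)) (XT.nd (nat_lit 78) (nat_lit 0) (nat_lit 0) (XT.lf (nat_lit 0) (nat_lit 89931046019) (nat_lit 76) (nat_lit 104735540398) (nat_lit 76) (nat_lit 98126796988) (nat_lit 2) (nat_lit 4) (nat_lit 3) (nat_lit 5) (nat_lit 3) (nat_lit 4) (nat_lit 375) (nat_lit 287) (nat_lit 238)) (XT.lf (nat_lit 0) (nat_lit 113290152809) (nat_lit 76) (nat_lit 104569156092) (nat_lit 76) (nat_lit 97948874470) (nat_lit 2) (nat_lit 4) (nat_lit 3) (nat_lit 5) (nat_lit 3) (nat_lit 4) (nat_lit 376) (nat_lit 287) (nat_lit 237)))) (XT.nd (nat_lit 156) (nat_lit 0) (nat_lit 0) (XT.nd (nat_lit 78) (nat_lit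 0) (nat_lit 0) (XT.lf (nat_lit 0) (nat_lit 138467141524) (nat_lit 76) (nat_lit 104414638227) (nat_lit 76) (nat_lit 97783673076) (nat_lit 2) (nat_lit 4) (nat_lit 3) (nat_lit 5) (nat_lit 3) (nat_lit 4) (nat_lit 377) (nat_lit 287) (nat_lit 236)) (XT.lf (nat_lit 0) (nat_lit 165611209134) (nat_lit 76) (nat_lit 104271071143) (nat_lit 76) (nat_lit 97630213834) (nat_lit 2) (nat_lit 4) (nat_lit 3) (nat_lit 5) (nat_lit 3) (nat_lit 4) (nat_lit 378) (nat_lit 287) (nat_lit 235))) (XT.nd (nat_lit 78) (nat_lit 0) (nat_lit 0) (XT.lf (nat_lit 0) (nat_lit 194883209374) (nat_lit 76) (nat_lit 104137604071) (nat_lit 76) (nat_lit 97487587358) (nat_lit 2) (nat_lit 4) (nat_lit 3) (nat_lit 5) (nat_lit 3) (nat_lit 4) (nat_lit 379) (nat_lit 287) (nat_lit 234)) (XT.lf (nat_lit 0) (nat_lit 226456605949) (nat_lit 76) (nat_lit 104013446095) (nat_lit 76) (nat_lit 97354948452) (nat_lit 2) (nat_lit 4) (nat_lit 3) (nat_lit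 5) (nat_lit 3) (nat_lit 4) (nat_lit 380) (nat_lit 287) (nat_lit 233))))))))
noncomputable def xc26 : XT := (XT.nd (nat_lit 43056) (nat_lit 0) (nat_lit 304) (XT.nd (nat_lit 936) (nat_lit 0) (nat_lit 0) (XT.nd (nat_lit 468) (nat_lit 0) (nat_lit 0) (XT.nd (nat_lit 234) (nat_lit 0) (nat_lit 0) (XT.nd (nat_lit 78) (nat_lit 0) (nat_lit 0) (XT.lf (nat_lit 0) (nat_lit 260518500467) (nat_lit 76) (nat_lit 103897861465) (nat_lit 76) (nat_lit 97231511109) (nat_lit 2) (nat_lit 4) (nat_lit 3) (nat_lit 5) (nat_lit 3) (nat_lit 4) (nat_lit 381) (nat_lit 287) (nat_lit 232)) (XT.nd (nat_lit 78) (nat_lit 0) (nat_lit 0) (XT.lf (nat_lit 0) (nat_lit 297270741193) (nat_lit 76) (nat_lit 103790165235) (nat_lit 76) (nat_lit 97116543847) (nat_lit 2) (nat_lit 4) (nat_lit 3) (nat_lit 5) (nat_lit 3) (nat_lit 4) (nat_lit 382) (nat_lit 287) (nat_lit 231)) (XT.lf (nat_lit 0) (nat_lit 336931119183) (nat_lit 76) (nat_lit 103689719204)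 (nat_lit 76) (nat_lit 97009365381) (nat_lit 2) (nat_lit 4) (nat_lit 3) (nat_lit 5) (nat_lit 3) (nat_lit 4) (nat_lit 383) (nat_lit 287) (nat_lit 230)))) (XT.nd (nat_lit 78) (nat_lit 0) (nat_lit 0) (XT.lf (nat_lit 0) (nat_lit 379734658899) (nat_lit 76) (nat_lit 103595928136) (nat_lit 76) (nat_lit 96909340577) (nat_lit 2) (nat_lit 4) (nat_lit 3) (nat_lit 5) (nat_lit 3) (nat_lit 4) (nat_lit 384) (nat_lit 287) (nat_lit 229)) (XT.nd (nat_lit 78) (nat_lit 0) (nat_lit 0) (XT.lf (nat_lit 0) (nat_lit 425935010947) (nat_lit 76) (nat_lit 103508236234) (nat_lit 76) (nat_lit 96815876696) (nat_lit 2) (nat_lit 4) (nat_lit 3) (nat_lit 5) (nat_lit 3) (nat_lit 4) (nat_lit 385) (nat_lit 287) (nat_lit 228)) (XT.lf (nat_lit 0) (nat_lit 475805955190) (nat_lit 76) (nat_lit 103426123841) (nat_lit 76) (nat_lit 96728419878) (nat_lit 2) (nat_lit 4) (nat_lit 3) (nat_lit 5) (nat_lit 3) (nat_lit 4) (nat_lit 386) (nat_lit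 287) (nat_lit 227))))) (XT.nd (nat_lit 234) (nat_lit 0) (nat_lit 0) (XT.nd (nat_lit 78) (nat_lit 0) (nat_lit 0) (XT.lf (nat_lit 0) (nat_lit 529643023150) (nat_lit 76) (nat_lit 103349104366) (nat_lit 76) (nat_lit 96646451861) (nat_lit 2) (nat_lit 4) (nat_lit 3) (nat_lit 5) (nat_lit 3) (nat_lit 4) (nat_lit 387) (nat_lit 287) (nat_lit 226)) (XT.nd (nat_lit 78) (nat_lit 0) (nat_lit 0) (XT.lf (nat_lit 0) (nat_lit 587765249304) (nat_lit 76) (nat_lit 103276721395) (nat_lit 76) (nat_lit 96569486908) (nat_lit 2) (nat_lit 4) (nat_lit 3) (nat_lit 5) (nat_lit 3) (nat_lit 4) (nat_lit 388) (nat_lit 287) (nat_lit 225)) (XT.lf (nat_lit 0) (nat_lit 650517061660) (nat_lit 76) (nat_lit 103208545995) (nat_lit 76) (nat_lit 96497068931) (nat_lit 2) (nat_lit 4) (nat_lit 3) (nat_lit 5) (nat_lit 3) (nat_lit 4) (nat_lit 389) (nat_lit 287) (nat_lit 224)))) (XT.nd (nat_lit 78) (nat_lit 0) (nat_lit 0) (XT.lf (nat_lit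 0) (nat_lit 718270322807) (nat_lit 76) (nat_lit 103144174161) (nat_lit 76) (nat_lit 96428768786) (nat_lit 2) (nat_lit 4) (nat_lit 3) (nat_lit 5) (nat_lit 3) (nat_lit 4) (nat_lit 390) (nat_lit 287) (nat_lit 223)) (XT.nd (nat_lit 78) (nat_lit 0) (nat_lit 0) (XT.lf (nat_lit 0) (nat_lit 791426533554) (nat_lit 76) (nat_lit 103083224432) (nat_lit 76) (nat_lit 96364181731) (nat_lit 2) (nat_lit 4) (nat_lit 3) (nat_lit 5) (nat_lit 3) (nat_lit 4) (nat_lit 391) (nat_lit 287) (nat_lit 222)) (XT.lf (nat_lit 0) (nat_lit 870419212186) (nat_lit 76) (nat_lit 103025335623) (nat_lit 76) (nat_lit 96302925029) (nat_lit 2) (nat_lit 4) (nat_lit 3) (nat_lit 5) (nat_lit 3) (nat_lit 4) (nat_lit 392) (nat_lit 287) (nat_lit 221)))))) (XT.nd (nat_lit 41652) (nat_lit 0) (nat_lit 1976) (XT.nd (nat_lit 234) (nat_lit 0) (nat_lit 0) (XT.nd (nat_lit 78) (nat_lit 0) (nat_lit 0) (XT.lf (nat_lit 0) (nat_lit 955716463466) (nat_lit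 76) (nat_lit 102970164691) (nat_lit 76) (nat_lit 96244635676) (nat_lit 2) (nat_lit 4) (nat_lit 3) (nat_lit 5) (nat_lit 3) (nat_lit 4) (nat_lit 393) (nat_lit 287) (nat_lit 220)) (XT.nd (nat_lit 78) (nat_lit 0) (nat_lit 0) (XT.lf (nat_lit 0) (nat_lit 1047823752586) (nat_lit 76) (nat_lit 102917384696) (nat_lit 76) (nat_lit 96188968254) (nat_lit 2) (nat_lit 4) (nat_lit 3) (nat_lit 5) (nat_lit 3) (nat_lit 4) (nat_lit 394) (nat_lit 287) (nat_lit 219)) (XT.lf (nat_lit 0) (nat_lit 1147286900518) (nat_lit 76) (nat_lit 102866682867) (nat_lit 76) (nat_lit 96135592883) (nat_lit 2) (nat_lit 4) (nat_lit 3) (nat_lit 5) (nat_lit 3) (nat_lit 4) (nat_lit 395) (nat_lit 287) (nat_lit 218)))) (XT.nd (nat_lit 41262) (nat_lit 0) (nat_lit 2888) (XT.lf (nat_lit 0) (nat_lit 1254695318511) (nat_lit 76) (nat_lit 102817758750) (nat_lit 76) (nat_lit 96084193263) (nat_lit 2) (nat_lit 4) (nat_lit 3) (nat_lit 5) (nat_lit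 3) (nat_lit 4) (nat_lit 396) (nat_lit 287) (nat_lit 217)) (XT.nd (nat_lit 78) (nat_lit 380) (nat_lit 0) (XT.lf (nat_lit 0) (nat_lit 2770148064) (nat_lit 228) (nat_lit 20811100) (nat_lit 0) (nat_lit 2770148064) (nat_lit 45) (nat_lit 5) (nat_lit 48) (nat_lit 4) (nat_lit 45) (nat_lit 4) (nat_lit 324) (nat_lit 288) (nat_lit 288)) (XT.lf (nat_lit 0) (nat_lit 1801275529) (nat_lit 228) (nat_lit 8904567441) (nat_lit 0) (nat_lit 875707013) (nat_lit 40) (nat_lit 5) (nat_lit 43) (nat_lit 4) (nat_lit 40) (nat_lit 4) (nat_lit 325) (nat_lit 288) (nat_lit 287))))) (XT.nd (nat_lit 234) (nat_lit 456) (nat_lit 0) (XT.nd (nat_lit 78) (nat_lit 304) (nat_lit 0) (XT.lf (nat_lit 0) (nat_lit 5181786619) (nat_lit 152) (nat_lit 4338486713) (nat_lit 152) (nat_lit 2555910313) (nat_lit 38) (nat_lit 4) (nat_lit 40) (nat_lit 5) (nat_lit 40) (nat_lit 4) (nat_lit 326) (nat_lit 288) (nat_lit 286)) (XT.nd (nat_lit 78) (nat_lit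 152) (nat_lit 0) (XT.lf (nat_lit 0) (nat_lit 4973188350) (nat_lit 152) (nat_lit 5118754331) (nat_lit 0) (nat_lit 2519757665) (nat_lit 36) (nat_lit 5) (nat_lit 38) (nat_lit 4) (nat_lit 36) (nat_lit 4) (nat_lit 327) (nat_lit 288) (nat_lit 285)) (XT.lf (nat_lit 0) (nat_lit 9566139507) (nat_lit 152) (nat_lit 3389069103) (nat_lit 152) (nat_lit 235880200) (nat_lit 34) (nat_lit 4) (nat_lit 36) (nat_lit 5) (nat_lit 36) (nat_lit 4) (nat_lit 328) (nat_lit 288) (nat_lit 284)))) (XT.nd (nat_lit 78) (nat_lit 304) (nat_lit 0) (XT.lf (nat_lit 0) (nat_lit 7447305196) (nat_lit 152) (nat_lit 2539551680) (nat_lit 0) (nat_lit 3827197407) (nat_lit 32) (nat_lit 5) (nat_lit 34) (nat_lit 4) (nat_lit 32) (nat_lit 4) (nat_lit 329) (nat_lit 288) (nat_lit 283)) (XT.nd (nat_lit 78) (nat_lit 76) (nat_lit 0) (XT.lf (nat_lit 0) (nat_lit 1149825409) (nat_lit 228) (nat_lit 1834327494) (nat_lit 76) (nat_lit 11504656652) (nat_lit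 29) (nat_lit 5) (nat_lit 32) (nat_lit 5) (nat_lit 30) (nat_lit 4) (nat_lit 330) (nat_lit 288) (nat_lit 282)) (XT.lf (nat_lit 0) (nat_lit 9011067028) (nat_lit 152) (nat_lit 1687690042) (nat_lit 0) (nat_lit 4515344853) (nat_lit 28) (nat_lit 5) (nat_lit 30) (nat_lit 4) (nat_lit 28) (nat_lit 4) (nat_lit 331) (nat_lit 288) (nat_lit 281))))))) (XT.nd (nat_lit 936) (nat_lit 456) (nat_lit 0) (XT.nd (nat_lit 468) (nat_lit 456) (nat_lit 0) (XT.nd (nat_lit 234) (nat_lit 304) (nat_lit 0) (XT.nd (nat_lit 78) (nat_lit 228) (nat_lit 0) (XT.lf (nat_lit 0) (nat_lit 1401064183) (nat_lit 228) (nat_lit 2090065025) (nat_lit 76) (nat_lit 12507928425) (nat_lit 25) (nat_lit 5) (nat_lit 28) (nat_lit 5) (nat_lit 26) (nat_lit 4) (nat_lit 332) (nat_lit 288) (nat_lit 280)) (XT.nd (nat_lit 78) (nat_lit 152) (nat_lit 0) (XT.lf (nat_lit 0) (nat_lit 9367576242) (nat_lit 152) (nat_lit 3245426620) (nat_lit 0) (nat_lit 4230229897)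 (nat_lit 24) (nat_lit 5) (nat_lit 26) (nat_lit 4) (nat_lit 24) (nat_lit 4) (nat_lit 333) (nat_lit 288) (nat_lit 279)) (XT.lf (nat_lit 0) (nat_lit 169897177) (nat_lit 152) (nat_lit 5169980465) (nat_lit 76) (nat_lit 12416946033) (nat_lit 22) (nat_lit 5) (nat_lit 24) (nat_lit 5) (nat_lit 23) (nat_lit 4) (nat_lit 334) (nat_lit 288) (nat_lit 278)))) (XT.nd (nat_lit 78) (nat_lit 228) (nat_lit 0) (XT.lf (nat_lit 0) (nat_lit 8112217348) (nat_lit 152) (nat_lit 8107057690) (nat_lit 0) (nat_lit 2520811185) (nat_lit 21) (nat_lit 5) (nat_lit 23) (nat_lit 4) (nat_lit 21) (nat_lit 4) (nat_lit 335) (nat_lit 288) (nat_lit 277)) (XT.nd (nat_lit 78) (nat_lit 152) (nat_lit 0) (XT.lf (nat_lit 0) (nat_lit 7655872169) (nat_lit 76) (nat_lit 9024553223) (nat_lit 76) (nat_lit 3122118143) (nat_lit 20) (nat_lit 4) (nat_lit 21) (nat_lit 5) (nat_lit 21) (nat_lit 4) (nat_lit 336) (nat_lit 288) (nat_lit 276)) (XT.lf (nat_lit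 0) (nat_lit 3488292659) (nat_lit 76) (nat_lit 1233032938) (nat_lit 152) (nat_lit 16229995217) (nat_lit 18) (nat_lit 5) (nat_lit 19) (nat_lit 5) (nat_lit 20) (nat_lit 4) (nat_lit 337) (nat_lit 288) (nat_lit 275))))) (XT.nd (nat_lit 234) (nat_lit 228) (nat_lit 0) (XT.nd (nat_lit 78) (nat_lit 228) (nat_lit 0) (XT.lf (nat_lit 0) (nat_lit 13120053590) (nat_lit 152) (nat_lit 2097124311) (nat_lit 0) (nat_lit 6970451703) (nat_lit 18) (nat_lit 5) (nat_lit 20) (nat_lit 4) (nat_lit 18) (nat_lit 4) (nat_lit 338) (nat_lit 288) (nat_lit 274)) (XT.nd (nat_lit 78) (nat_lit 152) (nat_lit 0) (XT.lf (nat_lit 0) (nat_lit 14424806109) (nat_lit 76) (nat_lit 7742011944) (nat_lit 76) (nat_lit 1357262645) (nat_lit 17) (nat_lit 4) (nat_lit 18) (nat_lit 5) (nat_lit 18) (nat_lit 4) (nat_lit 339) (nat_lit 288) (nat_lit 273)) (XT.lf (nat_lit 0) (nat_lit 6636895645) (nat_lit 152) (nat_lit 17981824554) (nat_lit 0) (nat_lit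 348820995) (nat_lit 15) (nat_lit 5) (nat_lit 17) (nat_lit 4) (nat_lit 15) (nat_lit 4) (nat_lit 340) (nat_lit 288) (nat_lit 272)))) (XT.nd (nat_lit 78) (nat_lit 228) (nat_lit 0) (XT.lf (nat_lit 0) (nat_lit 15261848157) (nat_lit 152) (nat_lit 2479840985) (nat_lit 0) (nat_lit 8781772550) (nat_lit 15) (nat_lit 5) (nat_lit 17) (nat_lit 4) (nat_lit 15) (nat_lit 4) (nat_lit 341) (nat_lit 288) (nat_lit 271)) (XT.nd (nat_lit 78) (nat_lit 152) (nat_lit 0) (XT.lf (nat_lit 0) (nat_lit 14267373977) (nat_lit 76) (nat_lit 10297483374) (nat_lit 76) (nat_lit 3639629104) (nat_lit 14) (nat_lit 4) (nat_lit 15) (nat_lit 5) (nat_lit 15) (nat_lit 4) (nat_lit 342) (nat_lit 288) (nat_lit 270)) (XT.lf (nat_lit 0) (nat_lit 1976433532) (nat_lit 76) (nat_lit 2315711675) (nat_lit 152) (nat_lit 25731942507) (nat_lit 12) (nat_lit 5) (nat_lit 13) (nat_lit 5) (nat_lit 14) (nat_lit 4) (nat_lit 343) (nat_lit 288) (nat_lit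 269)))))) (XT.nd (nat_lit 468) (nat_lit 228) (nat_lit 0) (XT.nd (nat_lit 234) (nat_lit 152) (nat_lit 0) (XT.nd (nat_lit 78) (nat_lit 76) (nat_lit 0) (XT.lf (nat_lit 0) (nat_lit 12857221969) (nat_lit 152) (nat_lit 12908287056) (nat_lit 0) (nat_lit 6214478452) (nat_lit 12) (nat_lit 5) (nat_lit 14) (nat_lit 4) (nat_lit 12) (nat_lit 4) (nat_lit 344) (nat_lit 288) (nat_lit 268)) (XT.nd (nat_lit 78) (nat_lit 0) (nat_lit 0) (XT.lf (nat_lit 0) (nat_lit 3106174716) (nat_lit 76) (nat_lit 18884598098) (nat_lit 76) (nat_lit 12107448453) (nat_lit 11) (nat_lit 4) (nat_lit 12) (nat_lit 5) (nat_lit 12) (nat_lit 4) (nat_lit 345) (nat_lit 288) (nat_lit 267)) (XT.lf (nat_lit 0) (nat_lit 20483547743) (nat_lit 76) (nat_lit 11401249920) (nat_lit 76) (nat_lit 4499650157) (nat_lit 11) (nat_lit 4) (nat_lit 12) (nat_lit 5) (nat_lit 12) (nat_lit 4) (nat_lit 346) (nat_lit 288) (nat_lit 266)))) (XT.nd (nat_lit 78) (nat_lit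 76) (nat_lit 0) (XT.lf (nat_lit 0) (nat_lit 3414215169) (nat_lit 152) (nat_lit 17690257) (nat_lit 76) (nat_lit 35427966228) (nat_lit 10) (nat_lit 5) (nat_lit 12) (nat_lit 5) (nat_lit 11) (nat_lit 4) (nat_lit 347) (nat_lit 288) (nat_lit 265)) (XT.nd (nat_lit 78) (nat_lit 0) (nat_lit 0) (XT.lf (nat_lit 0) (nat_lit 11989439674) (nat_lit 152) (nat_lit 24325797944) (nat_lit 0) (nat_lit 5205127985) (nat_lit 9) (nat_lit 5) (nat_lit 11) (nat_lit 4) (nat_lit 9) (nat_lit 4) (nat_lit 348) (nat_lit 288) (nat_lit 264)) (XT.lf (nat_lit 0) (nat_lit 21144114688) (nat_lit 152) (nat_lit 8989215674) (nat_lit 0) (nat_lit 14265714888) (nat_lit 9) (nat_lit 5) (nat_lit 11) (nat_lit 4) (nat_lit 9) (nat_lit 4) (nat_lit 349) (nat_lit 288) (nat_lit 263))))) (XT.nd (nat_lit 234) (nat_lit 152) (nat_lit 0) (XT.nd (nat_lit 78) (nat_lit 0) (nat_lit 0) (XT.lf (nat_lit 0) (nat_lit 7516634754) (nat_lit 76) (nat_lit 23479339450)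 (nat_lit 76) (nat_lit 16513821029) (nat_lit 8) (nat_lit 4) (nat_lit 9) (nat_lit 5) (nat_lit 9) (nat_lit 4) (nat_lit 350) (nat_lit 288) (nat_lit 262)) (XT.nd (nat_lit 78) (nat_lit 0) (nat_lit 0) (XT.lf (nat_lit 0) (nat_lit 25378678580) (nat_lit 76) (nat_lit 16268190689) (nat_lit 76) (nat_lit 9222006878) (nat_lit 8) (nat_lit 4) (nat_lit 9) (nat_lit 5) (nat_lit 9) (nat_lit 4) (nat_lit 351) (nat_lit 288) (nat_lit 261)) (XT.lf (nat_lit 0) (nat_lit 44405540883) (nat_lit 76) (nat_lit 8609388062) (nat_lit 76) (nat_lit 1488514074) (nat_lit 8) (nat_lit 4) (nat_lit 9) (nat_lit 5) (nat_lit 9) (nat_lit 4) (nat_lit 352) (nat_lit 288) (nat_lit 260)))) (XT.nd (nat_lit 156) (nat_lit 0) (nat_lit 0) (XT.nd (nat_lit 78) (nat_lit 0) (nat_lit 0) (XT.lf (nat_lit 0) (nat_lit 6373828773) (nat_lit 76) (nat_lit 242688461) (nat_lit 152) (nat_lit 51808285477) (nat_lit 6) (nat_lit 5) (nat_lit 7) (nat_lit 5) (nat_lit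 8) (nat_lit 4) (nat_lit 353) (nat_lit 288) (nat_lit 259)) (XT.lf (nat_lit 0) (nat_lit 15511463065) (nat_lit 152) (nat_lit 38534687999) (nat_lit 0) (nat_lit 8602828450) (nat_lit 6) (nat_lit 5) (nat_lit 8) (nat_lit 4) (nat_lit 6) (nat_lit 4) (nat_lit 354) (nat_lit 288) (nat_lit 258))) (XT.nd (nat_lit 78) (nat_lit 0) (nat_lit 0) (XT.lf (nat_lit 0) (nat_lit 25008109493) (nat_lit 152) (nat_lit 24165479600) (nat_lit 0) (nat_lit 18043006811) (nat_lit 6) (nat_lit 5) (nat_lit 8) (nat_lit 4) (nat_lit 6) (nat_lit 4) (nat_lit 355) (nat_lit 288) (nat_lit 257)) (XT.lf (nat_lit 0) (nat_lit 35158943894) (nat_lit 152) (nat_lit 8854408828) (nat_lit 0) (nat_lit 28141555966) (nat_lit 6) (nat_lit 5) (nat_lit 8) (nat_lit 4) (nat_lit 6) (nat_lit 4) (nat_lit 356) (nat_lit 288) (nat_lit 256))))))))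
noncomputable def xc27 : XT := (XT.nd (nat_lit 1950) (nat_lit 0) (nat_lit 0) (XT.nd (nat_lit 936) (nat_lit 76) (nat_lit 0) (XT.nd (nat_lit 468) (nat_lit 0) (nat_lit 0) (XT.nd (nat_lit 234) (nat_lit 152) (nat_lit 0) (XT.nd (nat_lit 78) (nat_lit 0) (nat_lit 0) (XT.lf (nat_lit 0) (nat_lit 7736885230) (nat_lit 76) (nat_lit 38408028592) (nat_lit 76) (nat_lit 31342228399) (nat_lit 5) (nat_lit 4) (nat_lit 6) (nat_lit 5) (nat_lit 6) (nat_lit 4) (nat_lit 357) (nat_lit 288) (nat_lit 255)) (XT.nd (nat_lit 78) (nat_lit 0) (nat_lit 0) (XT.lf (nat_lit 0) (nat_lit 25787736612) (nat_lit 76) (nat_lit 32282904347) (nat_lit 76) (nat_lit 25172277981) (nat_lit 5) (nat_lit 4) (nat_lit 6) (nat_lit 5) (nat_lit 6) (nat_lit 4) (nat_lit 358) (nat_lit 288) (nat_lit 254)) (XT.lf (nat_lit 0) (nat_lit 45112346582) (nat_lit 76) (nat_lit 25751636652) (nat_lit 76) (nat_lit 18599504572) (nat_lit 5) (nat_lit 4) (nat_lit 6)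 (nat_lit 5) (nat_lit 6) (nat_lit 4) (nat_lit 359) (nat_lit 288) (nat_lit 253)))) (XT.nd (nat_lit 78) (nat_lit 152) (nat_lit 0) (XT.lf (nat_lit 0) (nat_lit 65825231345) (nat_lit 76) (nat_lit 18775521699) (nat_lit 76) (nat_lit 11584958402) (nat_lit 5) (nat_lit 4) (nat_lit 6) (nat_lit 5) (nat_lit 6) (nat_lit 4) (nat_lit 360) (nat_lit 288) (nat_lit 252)) (XT.nd (nat_lit 78) (nat_lit 152) (nat_lit 0) (XT.lf (nat_lit 0) (nat_lit 88049133924) (nat_lit 76) (nat_lit 11313219548) (nat_lit 76) (nat_lit 4087071790) (nat_lit 5) (nat_lit 4) (nat_lit 6) (nat_lit 5) (nat_lit 6) (nat_lit 4) (nat_lit 361) (nat_lit 288) (nat_lit 251)) (XT.lf (nat_lit 0) (nat_lit 574988885) (nat_lit 76) (nat_lit 3246516098) (nat_lit 152) (nat_lit 107472645023) (nat_lit 3) (nat_lit 5) (nat_lit 4) (nat_lit 5) (nat_lit 5) (nat_lit 4) (nat_lit 362) (nat_lit 288) (nat_lit 250))))) (XT.nd (nat_lit 234) (nat_lit 0) (nat_lit 0) (XT.nd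 (nat_lit 78) (nat_lit 0) (nat_lit 0) (XT.lf (nat_lit 0) (nat_lit 12511831970) (nat_lit 152) (nat_lit 101667311730) (nat_lit 0) (nat_lit 5569351711) (nat_lit 3) (nat_lit 5) (nat_lit 5) (nat_lit 4) (nat_lit 3) (nat_lit 4) (nat_lit 363) (nat_lit 288) (nat_lit 249)) (XT.nd (nat_lit 78) (nat_lit 0) (nat_lit 0) (XT.lf (nat_lit 0) (nat_lit 21889486381) (nat_lit 152) (nat_lit 92069998919) (nat_lit 0) (nat_lit 14920103178) (nat_lit 3) (nat_lit 5) (nat_lit 5) (nat_lit 4) (nat_lit 3) (nat_lit 4) (nat_lit 364) (nat_lit 288) (nat_lit 248)) (XT.lf (nat_lit 0) (nat_lit 31959352288) (nat_lit 152) (nat_lit 81819662510) (nat_lit 0) (nat_lit 24965058951) (nat_lit 3) (nat_lit 5) (nat_lit 5) (nat_lit 4) (nat_lit 3) (nat_lit 4) (nat_lit 365) (nat_lit 288) (nat_lit 247)))) (XT.nd (nat_lit 78) (nat_lit 0) (nat_lit 0) (XT.lf (nat_lit 0) (nat_lit 42781102970) (nat_lit 152) (nat_lit 70855559768) (nat_lit 0) (nat_lit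 35763744694) (nat_lit 3) (nat_lit 5) (nat_lit 5) (nat_lit 4) (nat_lit 3) (nat_lit 4) (nat_lit 366) (nat_lit 288) (nat_lit 246)) (XT.nd (nat_lit 78) (nat_lit 0) (nat_lit 0) (XT.lf (nat_lit 0) (nat_lit 54418867320) (nat_lit 152) (nat_lit 59112718233) (nat_lit 0) (nat_lit 47380152619) (nat_lit 3) (nat_lit 5) (nat_lit 5) (nat_lit 4) (nat_lit 3) (nat_lit 4) (nat_lit 367) (nat_lit 288) (nat_lit 245)) (XT.lf (nat_lit 0) (nat_lit 66941609867) (nat_lit 152) (nat_lit 46521550694) (nat_lit 0) (nat_lit 59883120699) (nat_lit 3) (nat_lit 5) (nat_lit 5) (nat_lit 4) (nat_lit 3) (nat_lit 4) (nat_lit 368) (nat_lit 288) (nat_lit 244)))))) (XT.nd (nat_lit 468) (nat_lit 0) (nat_lit 0) (XT.nd (nat_lit 234) (nat_lit 76) (nat_lit 0) (XT.nd (nat_lit 78) (nat_lit 0) (nat_lit 0) (XT.lf (nat_lit 0) (nat_lit 80423539457) (nat_lit 152) (nat_lit 33007442827) (nat_lit 0) (nat_lit 73346740596) (nat_lit 3) (nat_lit 5) (nat_lit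 5) (nat_lit 4) (nat_lit 3) (nat_lit 4) (nat_lit 369) (nat_lit 288) (nat_lit 243)) (XT.nd (nat_lit 78) (nat_lit 0) (nat_lit 0) (XT.lf (nat_lit 0) (nat_lit 94944549005) (nat_lit 152) (nat_lit 18490311029) (nat_lit 0) (nat_lit 87850796725) (nat_lit 3) (nat_lit 5) (nat_lit 5) (nat_lit 4) (nat_lit 3) (nat_lit 4) (nat_lit 370) (nat_lit 288) (nat_lit 242)) (XT.lf (nat_lit 0) (nat_lit 110590688938) (nat_lit 152) (nat_lit 2884127852) (nat_lit 0) (nat_lit 103481239049) (nat_lit 3) (nat_lit 5) (nat_lit 5) (nat_lit 4) (nat_lit 3) (nat_lit 4) (nat_lit 371) (nat_lit 288) (nat_lit 241)))) (XT.nd (nat_lit 78) (nat_lit 0) (nat_lit 0) (XT.lf (nat_lit 0) (nat_lit 14363303190) (nat_lit 76) (nat_lit 113315625348) (nat_lit 76) (nat_lit 106191640635) (nat_lit 2) (nat_lit 4) (nat_lit 3) (nat_lit 5) (nat_lit 3) (nat_lit 4) (nat_lit 372) (nat_lit 288) (nat_lit 240)) (XT.nd (nat_lit 78) (nat_lit 0) (nat_lit 0) (XT.lf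 (nat_lit 0) (nat_lit 33029467898) (nat_lit 76) (nat_lit 113122662964) (nat_lit 76) (nat_lit 105985220081) (nat_lit 2) (nat_lit 4) (nat_lit 3) (nat_lit 5) (nat_lit 3) (nat_lit 4) (nat_lit 373) (nat_lit 288) (nat_lit 239)) (XT.lf (nat_lit 0) (nat_lit 53129618287) (nat_lit 76) (nat_lit 112943630260) (nat_lit 76) (nat_lit 105793726108) (nat_lit 2) (nat_lit 4) (nat_lit 3) (nat_lit 5) (nat_lit 3) (nat_lit 4) (nat_lit 374) (nat_lit 288) (nat_lit 238))))) (XT.nd (nat_lit 234) (nat_lit 0) (nat_lit 0) (XT.nd (nat_lit 78) (nat_lit 0) (nat_lit 0) (XT.lf (nat_lit 0) (nat_lit 74782866359) (nat_lit 76) (nat_lit 112777466300) (nat_lit 76) (nat_lit 105616023936) (nat_lit 2) (nat_lit 4) (nat_lit 3) (nat_lit 5) (nat_lit 3) (nat_lit 4) (nat_lit 375) (nat_lit 288) (nat_lit 237)) (XT.nd (nat_lit 78) (nat_lit 0) (nat_lit 0) (XT.lf (nat_lit 0) (nat_lit 98117527660) (nat_lit 76) (nat_lit 112623186410) (nat_lit 76)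 (nat_lit 105451060517) (nat_lit 2) (nat_lit 4) (nat_lit 3) (nat_lit 5) (nat_lit 3) (nat_lit 4) (nat_lit 376) (nat_lit 288) (nat_lit 236)) (XT.lf (nat_lit 0) (nat_lit 123271881663) (nat_lit 76) (nat_lit 112479876339) (nat_lit 76) (nat_lit 105297858288) (nat_lit 2) (nat_lit 4) (nat_lit 3) (nat_lit 5) (nat_lit 3) (nat_lit 4) (nat_lit 377) (nat_lit 288) (nat_lit 235)))) (XT.nd (nat_lit 156) (nat_lit 0) (nat_lit 0) (XT.nd (nat_lit 78) (nat_lit 0) (nat_lit 0) (XT.lf (nat_lit 0) (nat_lit 150394991206) (nat_lit 76) (nat_lit 112346686840) (nat_lit 76) (nat_lit 105155509385) (nat_lit 2) (nat_lit 4) (nat_lit 3) (nat_lit 5) (nat_lit 3) (nat_lit 4) (nat_lit 378) (nat_lit 288) (nat_lit 234)) (XT.lf (nat_lit 0) (nat_lit 179647585829) (nat_lit 76) (nat_lit 112222828644) (nat_lit 76) (nat_lit 105023170259) (nat_lit 2) (nat_lit 4) (nat_lit 3) (nat_lit 5) (nat_lit 3) (nat_lit 4) (nat_lit 379) (nat_lit 288)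 (nat_lit 233))) (XT.nd (nat_lit 78) (nat_lit 0) (nat_lit 0) (XT.lf (nat_lit 0) (nat_lit 211203014239) (nat_lit 76) (nat_lit 112107567776) (nat_lit 76) (nat_lit 104900056678) (nat_lit 2) (nat_lit 4) (nat_lit 3) (nat_lit 5) (nat_lit 3) (nat_lit 4) (nat_lit 380) (nat_lit 288) (nat_lit 232)) (XT.lf (nat_lit 0) (nat_lit 245248271568) (nat_lit 76) (nat_lit 112000221209) (nat_lit 76) (nat_lit 104785439080) (nat_lit 2) (nat_lit 4) (nat_lit 3) (nat_lit 5) (nat_lit 3) (nat_lit 4) (nat_lit 381) (nat_lit 288) (nat_lit 231))))))) (XT.nd (nat_lit 936) (nat_lit 0) (nat_lit 0) (XT.nd (nat_lit 468) (nat_lit 0) (nat_lit 0) (XT.nd (nat_lit 234) (nat_lit 0) (nat_lit 0) (XT.nd (nat_lit 78) (nat_lit 0) (nat_lit 0) (XT.lf (nat_lit 0) (nat_lit 281985107489) (nat_lit 76) (nat_lit 111900152814) (nat_lit 76) (nat_lit 104678638249) (nat_lit 2) (nat_lit 4) (nat_lit 3) (nat_lit 5) (nat_lit 3) (nat_lit 4) (nat_lit 382)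 (nat_lit 288) (nat_lit 230)) (XT.nd (nat_lit 78) (nat_lit 0) (nat_lit 0) (XT.lf (nat_lit 0) (nat_lit 321631221770) (nat_lit 76) (nat_lit 111806769593) (nat_lit 76) (nat_lit 104579021292) (nat_lit 2) (nat_lit 4) (nat_lit 3) (nat_lit 5) (nat_lit 3) (nat_lit 4) (nat_lit 383) (nat_lit 288) (nat_lit 229)) (XT.lf (nat_lit 0) (nat_lit 364421554349) (nat_lit 76) (nat_lit 111719518166) (nat_lit 76) (nat_lit 104485997886) (nat_lit 2) (nat_lit 4) (nat_lit 3) (nat_lit 5) (nat_lit 3) (nat_lit 4) (nat_lit 384) (nat_lit 288) (nat_lit 228)))) (XT.nd (nat_lit 78) (nat_lit 0) (nat_lit 0) (XT.lf (nat_lit 0) (nat_lit 410609677566) (nat_lit 76) (nat_lit 111637881485) (nat_lit 76) (nat_lit 104399016781) (nat_lit 2) (nat_lit 4) (nat_lit 3) (nat_lit 5) (nat_lit 3) (nat_lit 4) (nat_lit 385) (nat_lit 288) (nat_lit 227)) (XT.nd (nat_lit 78) (nat_lit 0) (nat_lit 0) (XT.lf (nat_lit 0) (nat_lit 460469298817) (nat_lit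 76) (nat_lit 111561375779) (nat_lit 76) (nat_lit 104317562533) (nat_lit 2) (nat_lit 4) (nat_lit 3) (nat_lit 5) (nat_lit 3) (nat_lit 4) (nat_lit 386) (nat_lit 288) (nat_lit 226)) (XT.lf (nat_lit 0) (nat_lit 514295882526) (nat_lit 76) (nat_lit 111489547680) (nat_lit 76) (nat_lit 104241152452) (nat_lit 2) (nat_lit 4) (nat_lit 3) (nat_lit 5) (nat_lit 3) (nat_lit 4) (nat_lit 387) (nat_lit 288) (nat_lit 225))))) (XT.nd (nat_lit 234) (nat_lit 0) (nat_lit 0) (XT.nd (nat_lit 78) (nat_lit 0) (nat_lit 0) (XT.lf (nat_lit 0) (nat_lit 572408401041) (nat_lit 76) (nat_lit 111421971541) (nat_lit 76) (nat_lit 104169333735) (nat_lit 2) (nat_lit 4) (nat_lit 3) (nat_lit 5) (nat_lit 3) (nat_lit 4) (nat_lit 388) (nat_lit 288) (nat_lit 224)) (XT.nd (nat_lit 78) (nat_lit 0) (nat_lit 0) (XT.lf (nat_lit 0) (nat_lit 635151224840) (nat_lit 76) (nat_lit 111358246909) (nat_lit 76) (nat_lit 104101680792) (nat_lit 2) (nat_lit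 4) (nat_lit 3) (nat_lit 5) (nat_lit 3) (nat_lit 4) (nat_lit 389) (nat_lit 288) (nat_lit 223)) (XT.lf (nat_lit 0) (nat_lit 702896163251) (nat_lit 76) (nat_lit 111297996157) (nat_lit 76) (nat_lit 104037792715) (nat_lit 2) (nat_lit 4) (nat_lit 3) (nat_lit 5) (nat_lit 3) (nat_lit 4) (nat_lit 390) (nat_lit 288) (nat_lit 222)))) (XT.nd (nat_lit 78) (nat_lit 0) (nat_lit 0) (XT.lf (nat_lit 0) (nat_lit 776044667760) (nat_lit 76) (nat_lit 111240862245) (nat_lit 76) (nat_lit 103977290909) (nat_lit 2) (nat_lit 4) (nat_lit 3) (nat_lit 5) (nat_lit 3) (nat_lit 4) (nat_lit 391) (nat_lit 288) (nat_lit 221)) (XT.nd (nat_lit 78) (nat_lit 0) (nat_lit 0) (XT.lf (nat_lit 0) (nat_lit 855030210987) (nat_lit 76) (nat_lit 111186506600) (nat_lit 76) (nat_lit 103919816843) (nat_lit 2) (nat_lit 4) (nat_lit 3) (nat_lit 5) (nat_lit 3) (nat_lit 4) (nat_lit 392) (nat_lit 288) (nat_lit 220)) (XT.lf (nat_lit 0) (nat_lit 940320855409)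 (nat_lit 76) (nat_lit 111134607116) (nat_lit 76) (nat_lit 103865029933) (nat_lit 2) (nat_lit 4) (nat_lit 3) (nat_lit 5) (nat_lit 3) (nat_lit 4) (nat_lit 393) (nat_lit 288) (nat_lit 219)))))) (XT.nd (nat_lit 41496) (nat_lit 0) (nat_lit 1976) (XT.nd (nat_lit 41262) (nat_lit 0) (nat_lit 3268) (XT.nd (nat_lit 78) (nat_lit 0) (nat_lit 0) (XT.lf (nat_lit 0) (nat_lit 1032422027069) (nat_lit 76) (nat_lit 111084856239) (nat_lit 76) (nat_lit 103812605513) (nat_lit 2) (nat_lit 4) (nat_lit 3) (nat_lit 5) (nat_lit 3) (nat_lit 4) (nat_lit 394) (nat_lit 288) (nat_lit 218)) (XT.nd (nat_lit 78) (nat_lit 0) (nat_lit 0) (XT.lf (nat_lit 0) (nat_lit 1131879510687) (nat_lit 76) (nat_lit 111036959150) (nat_lit 76) (nat_lit 103762232921) (nat_lit 2) (nat_lit 4) (nat_lit 3) (nat_lit 5) (nat_lit 3) (nat_lit 4) (nat_lit 395) (nat_lit 288) (nat_lit 217)) (XT.lf (nat_lit 0) (nat_lit 1239282683944) (nat_lit 76) (nat_lit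 110990632013) (nat_lit 76) (nat_lit 103713613653) (nat_lit 2) (nat_lit 4) (nat_lit 3) (nat_lit 5) (nat_lit 3) (nat_lit 4) (nat_lit 396) (nat_lit 288) (nat_lit 216)))) (XT.nd (nat_lit 78) (nat_lit 380) (nat_lit 0) (XT.lf (nat_lit 0) (nat_lit 1261201542) (nat_lit 228) (nat_lit 2625536136) (nat_lit 0) (nat_lit 1261201542) (nat_lit 50) (nat_lit 5) (nat_lit 53) (nat_lit 4) (nat_lit 50) (nat_lit 4) (nat_lit 322) (nat_lit 289) (nat_lit 289)) (XT.nd (nat_lit 78) (nat_lit 228) (nat_lit 0) (XT.lf (nat_lit 0) (nat_lit 7948271448) (nat_lit 152) (nat_lit 1926182602) (nat_lit 152) (nat_lit 824108171) (nat_lit 48) (nat_lit 4) (nat_lit 50) (nat_lit 5) (nat_lit 50) (nat_lit 4) (nat_lit 323) (nat_lit 289) (nat_lit 288)) (XT.lf (nat_lit 0) (nat_lit 6381469088) (nat_lit 228) (nat_lit 391227447) (nat_lit 0) (nat_lit 4360027451) (nat_lit 45) (nat_lit 5) (nat_lit 48) (nat_lit 4) (nat_lit 45) (nat_lit 4) (nat_lit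 324) (nat_lit 289) (nat_lit 287))))) (XT.nd (nat_lit 234) (nat_lit 608) (nat_lit 0) (XT.nd (nat_lit 78) (nat_lit 304) (nat_lit 0) (XT.lf (nat_lit 0) (nat_lit 1941822496) (nat_lit 152) (nat_lit 430432339) (nat_lit 228) (nat_lit 9230889103) (nat_lit 40) (nat_lit 5) (nat_lit 42) (nat_lit 5) (nat_lit 43) (nat_lit 4) (nat_lit 325) (nat_lit 289) (nat_lit 286)) (XT.nd (nat_lit 78) (nat_lit 152) (nat_lit 0) (XT.lf (nat_lit 0) (nat_lit 4062031161) (nat_lit 152) (nat_lit 5811217532) (nat_lit 152) (nat_lit 2235501316) (nat_lit 38) (nat_lit 4) (nat_lit 40) (nat_lit 5) (nat_lit 40) (nat_lit 4) (nat_lit 326) (nat_lit 289) (nat_lit 285)) (XT.lf (nat_lit 0) (nat_lit 5046443574) (nat_lit 152) (nat_lit 6668240285) (nat_lit 0) (nat_lit 941241341) (nat_lit 36) (nat_lit 5) (nat_lit 38) (nat_lit 4) (nat_lit 36) (nat_lit 4) (nat_lit 327) (nat_lit 289) (nat_lit 284)))) (XT.nd (nat_lit 156) (nat_lit 304) (nat_lit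 0) (XT.nd (nat_lit 78) (nat_lit 152) (nat_lit 0) (XT.lf (nat_lit 0) (nat_lit 7636501254) (nat_lit 152) (nat_lit 5181266348) (nat_lit 152) (nat_lit 428139838) (nat_lit 34) (nat_lit 4) (nat_lit 36) (nat_lit 5) (nat_lit 36) (nat_lit 4) (nat_lit 328) (nat_lit 289) (nat_lit 283)) (XT.lf (nat_lit 0) (nat_lit 7018660559) (nat_lit 152) (nat_lit 4942029750) (nat_lit 0) (nat_lit 1920511612) (nat_lit 32) (nat_lit 5) (nat_lit 34) (nat_lit 4) (nat_lit 32) (nat_lit 4) (nat_lit 329) (nat_lit 289) (nat_lit 282))) (XT.nd (nat_lit 78) (nat_lit 76) (nat_lit 0) (XT.lf (nat_lit 0) (nat_lit 454194175) (nat_lit 228) (nat_lit 4696089586) (nat_lit 76) (nat_lit 9416891689) (nat_lit 29) (nat_lit 5) (nat_lit 32) (nat_lit 5) (nat_lit 30) (nat_lit 4) (nat_lit 330) (nat_lit 289) (nat_lit 281)) (XT.lf (nat_lit 0) (nat_lit 8064531876) (nat_lit 152) (nat_lit 5001742471) (nat_lit 0) (nat_lit 2238781120) (nat_lit 28) (nat_lit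 5) (nat_lit 30) (nat_lit 4) (nat_lit 28) (nat_lit 4) (nat_lit 331) (nat_lit 289) (nat_lit 280))))))))
noncomputable def xc28 : XT := (XT.nd (nat_lit 1872) (nat_lit 304) (nat_lit 0) (XT.nd (nat_lit 936) (nat_lit 532) (nat_lit 0) (XT.nd (nat_lit 468) (nat_lit 456) (nat_lit 0) (XT.nd (nat_lit 234) (nat_lit 304) (nat_lit 0) (XT.nd (nat_lit 78) (nat_lit 152) (nat_lit 0) (XT.lf (nat_lit 0) (nat_lit 177537236) (nat_lit 228) (nat_lit 5893766482) (nat_lit 76) (nat_lit 10030517022) (nat_lit 25) (nat_lit 5) (nat_lit 28) (nat_lit 5) (nat_lit 26) (nat_lit 4) (nat_lit 332) (nat_lit 289) (nat_lit 279)) (XT.nd (nat_lit 78) (nat_lit 76) (nat_lit 0) (XT.lf (nat_lit 0) (nat_lit 7882099252) (nat_lit 152) (nat_lit 7535584118) (nat_lit 0) (nat_lit 1541444663) (nat_lit 24) (nat_lit 5) (nat_lit 26) (nat_lit 4) (nat_lit 24) (nat_lit 4) (nat_lit 333) (nat_lit 289) (nat_lit 278)) (XT.lf (nat_lit 0) (nat_lit 7874433847)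 (nat_lit 76) (nat_lit 8351436012) (nat_lit 76) (nat_lit 1658074631) (nat_lit 23) (nat_lit 4) (nat_lit 24) (nat_lit 5) (nat_lit 24) (nat_lit 4) (nat_lit 334) (nat_lit 289) (nat_lit 277)))) (XT.nd (nat_lit 78) (nat_lit 152) (nat_lit 0) (XT.lf (nat_lit 0) (nat_lit 5427035380) (nat_lit 76) (nat_lit 644660777) (nat_lit 152) (nat_lit 12810114452) (nat_lit 21) (nat_lit 5) (nat_lit 22) (nat_lit 5) (nat_lit 23) (nat_lit 4) (nat_lit 335) (nat_lit 289) (nat_lit 276)) (XT.nd (nat_lit 78) (nat_lit 76) (nat_lit 0) (XT.lf (nat_lit 0) (nat_lit 1872688550) (nat_lit 76) (nat_lit 12528592635) (nat_lit 76) (nat_lit 5554944095) (nat_lit 20) (nat_lit 4) (nat_lit 21) (nat_lit 5) (nat_lit 21) (nat_lit 4) (nat_lit 336) (nat_lit 289) (nat_lit 275)) (XT.lf (nat_lit 0) (nat_lit 2177803453) (nat_lit 152) (nat_lit 2775808624) (nat_lit 76) (nat_lit 16162740845) (nat_lit 19) (nat_lit 5) (nat_lit 21) (nat_lit 5) (nat_lit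 20) (nat_lit 4) (nat_lit 337) (nat_lit 289) (nat_lit 274))))) (XT.nd (nat_lit 234) (nat_lit 228) (nat_lit 0) (XT.nd (nat_lit 78) (nat_lit 152) (nat_lit 0) (XT.lf (nat_lit 0) (nat_lit 10343195120) (nat_lit 152) (nat_lit 8808636342) (nat_lit 0) (nat_lit 3212518467) (nat_lit 18) (nat_lit 5) (nat_lit 20) (nat_lit 4) (nat_lit 18) (nat_lit 4) (nat_lit 338) (nat_lit 289) (nat_lit 273)) (XT.nd (nat_lit 78) (nat_lit 76) (nat_lit 0) (XT.lf (nat_lit 0) (nat_lit 7254941472) (nat_lit 76) (nat_lit 11902944393) (nat_lit 76) (nat_lit 4554538655) (nat_lit 17) (nat_lit 4) (nat_lit 18) (nat_lit 5) (nat_lit 18) (nat_lit 4) (nat_lit 339) (nat_lit 289) (nat_lit 272)) (XT.lf (nat_lit 0) (nat_lit 3310618744) (nat_lit 152) (nat_lit 763238316) (nat_lit 76) (nat_lit 21096108037) (nat_lit 16) (nat_lit 5) (nat_lit 18) (nat_lit 5) (nat_lit 17) (nat_lit 4) (nat_lit 340) (nat_lit 289) (nat_lit 271)))) (XT.nd (nat_lit 78)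 (nat_lit 152) (nat_lit 0) (XT.lf (nat_lit 0) (nat_lit 11746621552) (nat_lit 152) (nat_lit 10610367428) (nat_lit 0) (nat_lit 4378360277) (nat_lit 15) (nat_lit 5) (nat_lit 17) (nat_lit 4) (nat_lit 15) (nat_lit 4) (nat_lit 341) (nat_lit 289) (nat_lit 270)) (XT.nd (nat_lit 78) (nat_lit 76) (nat_lit 0) (XT.lf (nat_lit 0) (nat_lit 5660348506) (nat_lit 76) (nat_lit 15150427198) (nat_lit 76) (nat_lit 7617556050) (nat_lit 14) (nat_lit 4) (nat_lit 15) (nat_lit 5) (nat_lit 15) (nat_lit 4) (nat_lit 342) (nat_lit 289) (nat_lit 269)) (XT.lf (nat_lit 0) (nat_lit 309292174) (nat_lit 152) (nat_lit 7051238739) (nat_lit 76) (nat_lit 22897132867) (nat_lit 13) (nat_lit 5) (nat_lit 15) (nat_lit 5) (nat_lit 14) (nat_lit 4) (nat_lit 343) (nat_lit 289) (nat_lit 268)))))) (XT.nd (nat_lit 468) (nat_lit 228) (nat_lit 0) (XT.nd (nat_lit 234) (nat_lit 152) (nat_lit 0) (XT.nd (nat_lit 78) (nat_lit 76) (nat_lit 0) (XT.lf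 (nat_lit 0) (nat_lit 8581801823) (nat_lit 152) (nat_lit 22518328230) (nat_lit 0) (nat_lit 1128074078) (nat_lit 12) (nat_lit 5) (nat_lit 14) (nat_lit 4) (nat_lit 12) (nat_lit 4) (nat_lit 344) (nat_lit 289) (nat_lit 267)) (XT.nd (nat_lit 78) (nat_lit 76) (nat_lit 0) (XT.lf (nat_lit 0) (nat_lit 17575922068) (nat_lit 152) (nat_lit 6779754505) (nat_lit 0) (nat_lit 9997744204) (nat_lit 12) (nat_lit 5) (nat_lit 14) (nat_lit 4) (nat_lit 12) (nat_lit 4) (nat_lit 345) (nat_lit 289) (nat_lit 266)) (XT.lf (nat_lit 0) (nat_lit 10204647379) (nat_lit 76) (nat_lit 17069114570) (nat_lit 76) (nat_lit 9375705115) (nat_lit 11) (nat_lit 4) (nat_lit 12) (nat_lit 5) (nat_lit 12) (nat_lit 4) (nat_lit 346) (nat_lit 289) (nat_lit 265)))) (XT.nd (nat_lit 78) (nat_lit 152) (nat_lit 0) (XT.lf (nat_lit 0) (nat_lit 28464804419) (nat_lit 76) (nat_lit 9233487529) (nat_lit 76) (nat_lit 1433382156) (nat_lit 11) (nat_lit 4)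 (nat_lit 12) (nat_lit 5) (nat_lit 12) (nat_lit 4) (nat_lit 347) (nat_lit 289) (nat_lit 264)) (XT.nd (nat_lit 78) (nat_lit 0) (nat_lit 0) (XT.lf (nat_lit 0) (nat_lit 6152449467) (nat_lit 76) (nat_lit 701866316) (nat_lit 152) (nat_lit 34955649975) (nat_lit 9) (nat_lit 5) (nat_lit 10) (nat_lit 5) (nat_lit 11) (nat_lit 4) (nat_lit 348) (nat_lit 289) (nat_lit 263)) (XT.lf (nat_lit 0) (nat_lit 15924693643) (nat_lit 152) (nat_lit 20453359420) (nat_lit 0) (nat_lit 8314815127) (nat_lit 9) (nat_lit 5) (nat_lit 11) (nat_lit 4) (nat_lit 9) (nat_lit 4) (nat_lit 349) (nat_lit 289) (nat_lit 262))))) (XT.nd (nat_lit 234) (nat_lit 152) (nat_lit 0) (XT.nd (nat_lit 78) (nat_lit 76) (nat_lit 0) (XT.lf (nat_lit 0) (nat_lit 25591290896) (nat_lit 152) (nat_lit 4320850743) (nat_lit 0) (nat_lit 17900746989) (nat_lit 9) (nat_lit 5) (nat_lit 11) (nat_lit 4) (nat_lit 9) (nat_lit 4) (nat_lit 350) (nat_lit 289) (nat_lit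 261)) (XT.nd (nat_lit 78) (nat_lit 0) (nat_lit 0) (XT.lf (nat_lit 0) (nat_lit 13271333440) (nat_lit 76) (nat_lit 22836302247) (nat_lit 76) (nat_lit 15071068165) (nat_lit 8) (nat_lit 4) (nat_lit 9) (nat_lit 5) (nat_lit 9) (nat_lit 4) (nat_lit 351) (nat_lit 289) (nat_lit 260)) (XT.lf (nat_lit 0) (nat_lit 32180609815) (nat_lit 76) (nat_lit 15235030796) (nat_lit 76) (nat_lit 7400639144) (nat_lit 8) (nat_lit 4) (nat_lit 9) (nat_lit 5) (nat_lit 9) (nat_lit 4) (nat_lit 352) (nat_lit 289) (nat_lit 259)))) (XT.nd (nat_lit 78) (nat_lit 76) (nat_lit 0) (XT.lf (nat_lit 0) (nat_lit 737580290) (nat_lit 152) (nat_lit 6386386845) (nat_lit 76) (nat_lit 51626094945) (nat_lit 7) (nat_lit 5) (nat_lit 9) (nat_lit 5) (nat_lit 8) (nat_lit 4) (nat_lit 353) (nat_lit 289) (nat_lit 258)) (XT.nd (nat_lit 78) (nat_lit 0) (nat_lit 0) (XT.lf (nat_lit 0) (nat_lit 9365593651) (nat_lit 152) (nat_lit 51835182305) (nat_lit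 0) (nat_lit 1786814689) (nat_lit 6) (nat_lit 5) (nat_lit 8) (nat_lit 4) (nat_lit 6) (nat_lit 4) (nat_lit 354) (nat_lit 289) (nat_lit 257)) (XT.lf (nat_lit 0) (nat_lit 18811497896) (nat_lit 152) (nat_lit 37565817319) (nat_lit 0) (nat_lit 11180433687) (nat_lit 6) (nat_lit 5) (nat_lit 8) (nat_lit 4) (nat_lit 6) (nat_lit 4) (nat_lit 355) (nat_lit 289) (nat_lit 256))))))) (XT.nd (nat_lit 936) (nat_lit 76) (nat_lit 0) (XT.nd (nat_lit 468) (nat_lit 152) (nat_lit 0) (XT.nd (nat_lit 234) (nat_lit 0) (nat_lit 0) (XT.nd (nat_lit 78) (nat_lit 76) (nat_lit 0) (XT.lf (nat_lit 0) (nat_lit 28915348795) (nat_lit 152) (nat_lit 22347194152) (nat_lit 0) (nat_lit 21235872320) (nat_lit 6) (nat_lit 5) (nat_lit 8) (nat_lit 4) (nat_lit 6) (nat_lit 4) (nat_lit 356) (nat_lit 289) (nat_lit 255)) (XT.nd (nat_lit 78) (nat_lit 76) (nat_lit 0) (XT.lf (nat_lit 0) (nat_lit 39737021019) (nat_lit 152) (nat_lit 6089128372)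 (nat_lit 0) (nat_lit 32012718373) (nat_lit 6) (nat_lit 5) (nat_lit 8) (nat_lit 4) (nat_lit 6) (nat_lit 4) (nat_lit 357) (nat_lit 289) (nat_lit 254)) (XT.lf (nat_lit 0) (nat_lit 11678509347) (nat_lit 76) (nat_lit 39844467910) (nat_lit 76) (nat_lit 32078659549) (nat_lit 5) (nat_lit 4) (nat_lit 6) (nat_lit 5) (nat_lit 6) (nat_lit 4) (nat_lit 358) (nat_lit 289) (nat_lit 253)))) (XT.nd (nat_lit 78) (nat_lit 0) (nat_lit 0) (XT.lf (nat_lit 0) (nat_lit 30927304892) (nat_lit 76) (nat_lit 33350533945) (nat_lit 76) (nat_lit 25546294366) (nat_lit 5) (nat_lit 4) (nat_lit 6) (nat_lit 5) (nat_lit 6) (nat_lit 4) (nat_lit 359) (nat_lit 289) (nat_lit 252)) (XT.nd (nat_lit 78) (nat_lit 0) (nat_lit 0) (XT.lf (nat_lit 0) (nat_lit 51569991114) (nat_lit 76) (nat_lit 26408987260) (nat_lit 76) (nat_lit 18569163221) (nat_lit 5) (nat_lit 4) (nat_lit 6) (nat_lit 5) (nat_lit 6) (nat_lit 4) (nat_lit 360) (nat_lit 289)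 (nat_lit 251)) (XT.lf (nat_lit 0) (nat_lit 73728895044) (nat_lit 76) (nat_lit 18978692765) (nat_lit 76) (nat_lit 11105920152) (nat_lit 5) (nat_lit 4) (nat_lit 6) (nat_lit 5) (nat_lit 6) (nat_lit 4) (nat_lit 361) (nat_lit 289) (nat_lit 250))))) (XT.nd (nat_lit 234) (nat_lit 0) (nat_lit 0) (XT.nd (nat_lit 78) (nat_lit 152) (nat_lit 0) (XT.lf (nat_lit 0) (nat_lit 97535328703) (nat_lit 76) (nat_lit 11015619084) (nat_lit 76) (nat_lit 3112338531) (nat_lit 5) (nat_lit 4) (nat_lit 6) (nat_lit 5) (nat_lit 6) (nat_lit 4) (nat_lit 362) (nat_lit 289) (nat_lit 249)) (XT.nd (nat_lit 78) (nat_lit 0) (nat_lit 0) (XT.lf (nat_lit 0) (nat_lit 2997068772) (nat_lit 76) (nat_lit 2333954357) (nat_lit 152) (nat_lit 114806369640) (nat_lit 3) (nat_lit 5) (nat_lit 4) (nat_lit 5) (nat_lit 5) (nat_lit 4) (nat_lit 363) (nat_lit 289) (nat_lit 248)) (XT.lf (nat_lit 0) (nat_lit 14644352945) (nat_lit 152) (nat_lit 107561745381)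 (nat_lit 0) (nat_lit 7065606007) (nat_lit 3) (nat_lit 5) (nat_lit 5) (nat_lit 4) (nat_lit 3) (nat_lit 4) (nat_lit 364) (nat_lit 289) (nat_lit 247)))) (XT.nd (nat_lit 78) (nat_lit 0) (nat_lit 0) (XT.lf (nat_lit 0) (nat_lit 24688399382) (nat_lit 152) (nat_lit 97362495789) (nat_lit 0) (nat_lit 17086587505) (nat_lit 3) (nat_lit 5) (nat_lit 5) (nat_lit 4) (nat_lit 3) (nat_lit 4) (nat_lit 365) (nat_lit 289) (nat_lit 246)) (XT.nd (nat_lit 78) (nat_lit 0) (nat_lit 0) (XT.lf (nat_lit 0) (nat_lit 35486243147) (nat_lit 152) (nat_lit 86445695656) (nat_lit 0) (nat_lit 27863074845) (nat_lit 3) (nat_lit 5) (nat_lit 5) (nat_lit 4) (nat_lit 3) (nat_lit 4) (nat_lit 366) (nat_lit 289) (nat_lit 245)) (XT.lf (nat_lit 0) (nat_lit 47101871463) (nat_lit 152) (nat_lit 74746652832) (nat_lit 0) (nat_lit 39458928694) (nat_lit 3) (nat_lit 5) (nat_lit 5) (nat_lit 4) (nat_lit 3) (nat_lit 4) (nat_lit 367) (nat_lit 289)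 (nat_lit 244)))))) (XT.nd (nat_lit 468) (nat_lit 0) (nat_lit 0) (XT.nd (nat_lit 234) (nat_lit 76) (nat_lit 0) (XT.nd (nat_lit 78) (nat_lit 0) (nat_lit 0) (XT.lf (nat_lit 0) (nat_lit 59604117683) (nat_lit 152) (nat_lit 62196039656) (nat_lit 0) (nat_lit 51942865221) (nat_lit 3) (nat_lit 5) (nat_lit 5) (nat_lit 4) (nat_lit 3) (nat_lit 4) (nat_lit 368) (nat_lit 289) (nat_lit 243)) (XT.nd (nat_lit 78) (nat_lit 0) (nat_lit 0) (XT.lf (nat_lit 0) (nat_lit 73067069191) (nat_lit 152) (nat_lit 48719482125) (nat_lit 0) (nat_lit 65388863311) (nat_lit 3) (nat_lit 5) (nat_lit 5) (nat_lit 4) (nat_lit 3) (nat_lit 4) (nat_lit 369) (nat_lit 289) (nat_lit 242)) (XT.lf (nat_lit 0) (nat_lit 87570506442) (nat_lit 152) (nat_lit 34237119156) (nat_lit 0) (nat_lit 79876602952) (nat_lit 3) (nat_lit 5) (nat_lit 5) (nat_lit 4) (nat_lit 3) (nat_lit 4) (nat_lit 370) (nat_lit 289) (nat_lit 241)))) (XT.nd (nat_lit 78) (nat_lit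 76) (nat_lit 0) (XT.lf (nat_lit 0) (nat_lit 103200375729) (nat_lit 152) (nat_lit 18663129340) (nat_lit 0) (nat_lit 95491937415) (nat_lit 3) (nat_lit 5) (nat_lit 5) (nat_lit 4) (nat_lit 3) (nat_lit 4) (nat_lit 371) (nat_lit 289) (nat_lit 240)) (XT.nd (nat_lit 78) (nat_lit 76) (nat_lit 0) (XT.lf (nat_lit 0) (nat_lit 120049298501) (nat_lit 152) (nat_lit 1905222366) (nat_lit 0) (nat_lit 112327402017) (nat_lit 3) (nat_lit 5) (nat_lit 5) (nat_lit 4) (nat_lit 3) (nat_lit 4) (nat_lit 372) (nat_lit 289) (nat_lit 239)) (XT.lf (nat_lit 0) (nat_lit 16669433866) (nat_lit 76) (nat_lit 121807942938) (nat_lit 76) (nat_lit 114073585185) (nat_lit 2) (nat_lit 4) (nat_lit 3) (nat_lit 5) (nat_lit 3) (nat_lit 4) (nat_lit 373) (nat_lit 289) (nat_lit 238))))) (XT.nd (nat_lit 234) (nat_lit 0) (nat_lit 0) (XT.nd (nat_lit 78) (nat_lit 0) (nat_lit 0) (XT.lf (nat_lit 0) (nat_lit 36743183126) (nat_lit 76) (nat_lit 121641983004)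 (nat_lit 76) (nat_lit 113896087039) (nat_lit 2) (nat_lit 4) (nat_lit 3) (nat_lit 5) (nat_lit 3) (nat_lit 4) (nat_lit 374) (nat_lit 289) (nat_lit 237)) (XT.nd (nat_lit 78) (nat_lit 0) (nat_lit 0) (XT.lf (nat_lit 0) (nat_lit 58371985710) (nat_lit 76) (nat_lit 121487923461) (nat_lit 76) (nat_lit 113731343966) (nat_lit 2) (nat_lit 4) (nat_lit 3) (nat_lit 5) (nat_lit 3) (nat_lit 4) (nat_lit 375) (nat_lit 289) (nat_lit 236)) (XT.lf (nat_lit 0) (nat_lit 81684012298) (nat_lit 76) (nat_lit 121344851364) (nat_lit 76) (nat_lit 113578379712) (nat_lit 2) (nat_lit 4) (nat_lit 3) (nat_lit 5) (nat_lit 3) (nat_lit 4) (nat_lit 376) (nat_lit 289) (nat_lit 235)))) (XT.nd (nat_lit 156) (nat_lit 0) (nat_lit 0) (XT.nd (nat_lit 78) (nat_lit 0) (nat_lit 0) (XT.lf (nat_lit 0) (nat_lit 106817408233) (nat_lit 76) (nat_lit 121211918878) (nat_lit 76) (nat_lit 113436287822) (nat_lit 2) (nat_lit 4) (nat_lit 3) (nat_lit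 5) (nat_lit 3) (nat_lit 4) (nat_lit 377) (nat_lit 289) (nat_lit 234)) (XT.lf (nat_lit 0) (nat_lit 133921112159) (nat_lit 76) (nat_lit 121088338256) (nat_lit 76) (nat_lit 113304226270) (nat_lit 2) (nat_lit 4) (nat_lit 3) (nat_lit 5) (nat_lit 3) (nat_lit 4) (nat_lit 378) (nat_lit 289) (nat_lit 233))) (XT.nd (nat_lit 78) (nat_lit 0) (nat_lit 0) (XT.lf (nat_lit 0) (nat_lit 163155738617) (nat_lit 76) (nat_lit 120973377167) (nat_lit 76) (nat_lit 113181412468) (nat_lit 2) (nat_lit 4) (nat_lit 3) (nat_lit 5) (nat_lit 3) (nat_lit 4) (nat_lit 379) (nat_lit 289) (nat_lit 232)) (XT.lf (nat_lit 0) (nat_lit 194694529838) (nat_lit 76) (nat_lit 120866354362) (nat_lit 76) (nat_lit 113067118632) (nat_lit 2) (nat_lit 4) (nat_lit 3) (nat_lit 5) (nat_lit 3) (nat_lit 4) (nat_lit 380) (nat_lit 289) (nat_lit 231))))))))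
noncomputable def xc29 : XT := (XT.nd (nat_lit 42822) (nat_lit 0) (nat_lit 456) (XT.nd (nat_lit 936) (nat_lit 0) (nat_lit 0) (XT.nd (nat_lit 468) (nat_lit 0) (nat_lit 0) (XT.nd (nat_lit 234) (nat_lit 0) (nat_lit 0) (XT.nd (nat_lit 78) (nat_lit 0) (nat_lit 0) (XT.lf (nat_lit 0) (nat_lit 228724382362) (nat_lit 76) (nat_lit 120766635630) (nat_lit 76) (nat_lit 112960667464) (nat_lit 2) (nat_lit 4) (nat_lit 3) (nat_lit 5) (nat_lit 3) (nat_lit 4) (nat_lit 381) (nat_lit 289) (nat_lit 230)) (XT.nd (nat_lit 78) (nat_lit 0) (nat_lit 0) (XT.lf (nat_lit 0) (nat_lit 265446954575) (nat_lit 76) (nat_lit 120673630045) (nat_lit 76) (nat_lit 112861428143) (nat_lit 2) (nat_lit 4) (nat_lit 3) (nat_lit 5) (nat_lit 3) (nat_lit 4) (nat_lit 382) (nat_lit 289) (nat_lit 229)) (XT.lf (nat_lit 0) (nat_lit 305079861719) (nat_lit 76) (nat_lit 120586786465) (nat_lit 76) (nat_lit 112768812584) (nat_lit 2) (nat_lit 4) (nat_lit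 3) (nat_lit 5) (nat_lit 3) (nat_lit 4) (nat_lit 383) (nat_lit 289) (nat_lit 228)))) (XT.nd (nat_lit 78) (nat_lit 0) (nat_lit 0) (XT.lf (nat_lit 0) (nat_lit 347857965467) (nat_lit 76) (nat_lit 120505590259) (nat_lit 76) (nat_lit 112682271953) (nat_lit 2) (nat_lit 4) (nat_lit 3) (nat_lit 5) (nat_lit 3) (nat_lit 4) (nat_lit 384) (nat_lit 289) (nat_lit 227)) (XT.nd (nat_lit 78) (nat_lit 0) (nat_lit 0) (XT.lf (nat_lit 0) (nat_lit 394034765692) (nat_lit 76) (nat_lit 120429560265) (nat_lit 76) (nat_lit 112601293418) (nat_lit 2) (nat_lit 4) (nat_lit 3) (nat_lit 5) (nat_lit 3) (nat_lit 4) (nat_lit 385) (nat_lit 289) (nat_lit 226)) (XT.lf (nat_lit 0) (nat_lit 443883902693) (nat_lit 76) (nat_lit 120358245936) (nat_lit 76) (nat_lit 112525397106) (nat_lit 2) (nat_lit 4) (nat_lit 3) (nat_lit 5) (nat_lit 3) (nat_lit 4) (nat_lit 386) (nat_lit 289) (nat_lit 225))))) (XT.nd (nat_lit 234) (nat_lit 0) (nat_lit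 0) (XT.nd (nat_lit 78) (nat_lit 0) (nat_lit 0) (XT.lf (nat_lit 0) (nat_lit 497700778761) (nat_lit 76) (nat_lit 120291224667) (nat_lit 76) (nat_lit 112454133261) (nat_lit 2) (nat_lit 4) (nat_lit 3) (nat_lit 5) (nat_lit 3) (nat_lit 4) (nat_lit 387) (nat_lit 289) (nat_lit 224)) (XT.nd (nat_lit 78) (nat_lit 0) (nat_lit 0) (XT.lf (nat_lit 0) (nat_lit 555804308720) (nat_lit 76) (nat_lit 120228099296) (nat_lit 76) (nat_lit 112387079579) (nat_lit 2) (nat_lit 4) (nat_lit 3) (nat_lit 5) (nat_lit 3) (nat_lit 4) (nat_lit 388) (nat_lit 289) (nat_lit 223)) (XT.lf (nat_lit 0) (nat_lit 618538809782) (nat_lit 76) (nat_lit 120168495747) (nat_lit 76) (nat_lit 112323838703) (nat_lit 2) (nat_lit 4) (nat_lit 3) (nat_lit 5) (nat_lit 3) (nat_lit 4) (nat_lit 389) (nat_lit 289) (nat_lit 222)))) (XT.nd (nat_lit 78) (nat_lit 0) (nat_lit 0) (XT.lf (nat_lit 0) (nat_lit 686276041955) (nat_lit 76) (nat_lit 120112060812)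 (nat_lit 76) (nat_lit 112264035875) (nat_lit 2) (nat_lit 4) (nat_lit 3) (nat_lit 5) (nat_lit 3) (nat_lit 4) (nat_lit 390) (nat_lit 289) (nat_lit 221)) (XT.nd (nat_lit 78) (nat_lit 0) (nat_lit 0) (XT.lf (nat_lit 0) (nat_lit 759417411059) (nat_lit 76) (nat_lit 120058460064) (nat_lit 76) (nat_lit 112207316706) (nat_lit 2) (nat_lit 4) (nat_lit 3) (nat_lit 5) (nat_lit 3) (nat_lit 4) (nat_lit 391) (nat_lit 289) (nat_lit 220)) (XT.lf (nat_lit 0) (nat_lit 838396347429) (nat_lit 76) (nat_lit 120007375867) (nat_lit 76) (nat_lit 112153345083) (nat_lit 2) (nat_lit 4) (nat_lit 3) (nat_lit 5) (nat_lit 3) (nat_lit 4) (nat_lit 392) (nat_lit 289) (nat_lit 219)))))) (XT.nd (nat_lit 41340) (nat_lit 0) (nat_lit 2432) (XT.nd (nat_lit 234) (nat_lit 0) (nat_lit 0) (XT.nd (nat_lit 78) (nat_lit 0) (nat_lit 0) (XT.lf (nat_lit 0) (nat_lit 923680874392) (nat_lit 76) (nat_lit 119958505501) (nat_lit 76) (nat_lit 112101801174)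 (nat_lit 2) (nat_lit 4) (nat_lit 3) (nat_lit 5) (nat_lit 3) (nat_lit 4) (nat_lit 393) (nat_lit 289) (nat_lit 218)) (XT.nd (nat_lit 78) (nat_lit 0) (nat_lit 0) (XT.lf (nat_lit 0) (nat_lit 1015776381737) (nat_lit 76) (nat_lit 119911559363) (nat_lit 76) (nat_lit 112052379534) (nat_lit 2) (nat_lit 4) (nat_lit 3) (nat_lit 5) (nat_lit 3) (nat_lit 4) (nat_lit 394) (nat_lit 289) (nat_lit 217)) (XT.lf (nat_lit 0) (nat_lit 1115228620619) (nat_lit 76) (nat_lit 119866259255) (nat_lit 76) (nat_lit 112004787293) (nat_lit 2) (nat_lit 4) (nat_lit 3) (nat_lit 5) (nat_lit 3) (nat_lit 4) (nat_lit 395) (nat_lit 289) (nat_lit 216)))) (XT.nd (nat_lit 40950) (nat_lit 0) (nat_lit 3876) (XT.lf (nat_lit 0) (nat_lit 1222626937639) (nat_lit 76) (nat_lit 119822336731) (nat_lit 76) (nat_lit 111958742424) (nat_lit 2) (nat_lit 4) (nat_lit 3) (nat_lit 5) (nat_lit 3) (nat_lit 4) (nat_lit 396) (nat_lit 289) (nat_lit 215))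 (XT.nd (nat_lit 78) (nat_lit 456) (nat_lit 0) (XT.lf (nat_lit 0) (nat_lit 4545724158) (nat_lit 228) (nat_lit 120962066) (nat_lit 228) (nat_lit 120962066) (nat_lit 59) (nat_lit 4) (nat_lit 62) (nat_lit 5) (nat_lit 62) (nat_lit 4) (nat_lit 320) (nat_lit 290) (nat_lit 290)) (XT.lf (nat_lit 0) (nat_lit 2101946841) (nat_lit 228) (nat_lit 4536393999) (nat_lit 228) (nat_lit 3286641594) (nat_lit 53) (nat_lit 4) (nat_lit 56) (nat_lit 5) (nat_lit 56) (nat_lit 4) (nat_lit 321) (nat_lit 290) (nat_lit 289))))) (XT.nd (nat_lit 234) (nat_lit 836) (nat_lit 0) (XT.nd (nat_lit 78) (nat_lit 380) (nat_lit 0) (XT.lf (nat_lit 0) (nat_lit 3504633236) (nat_lit 228) (nat_lit 5589427593) (nat_lit 0) (nat_lit 1212318418) (nat_lit 50) (nat_lit 5) (nat_lit 53) (nat_lit 4) (nat_lit 50) (nat_lit 4) (nat_lit 322) (nat_lit 290) (nat_lit 288)) (XT.nd (nat_lit 78) (nat_lit 228) (nat_lit 0) (XT.lf (nat_lit 0) (nat_lit 7275077761)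 (nat_lit 152) (nat_lit 3378493929) (nat_lit 152) (nat_lit 65739823) (nat_lit 48) (nat_lit 4) (nat_lit 50) (nat_lit 5) (nat_lit 50) (nat_lit 4) (nat_lit 323) (nat_lit 290) (nat_lit 287)) (XT.lf (nat_lit 0) (nat_lit 6888531059) (nat_lit 228) (nat_lit 1442114920) (nat_lit 0) (nat_lit 2833668869) (nat_lit 45) (nat_lit 5) (nat_lit 48) (nat_lit 4) (nat_lit 45) (nat_lit 4) (nat_lit 324) (nat_lit 290) (nat_lit 286)))) (XT.nd (nat_lit 156) (nat_lit 304) (nat_lit 0) (XT.nd (nat_lit 78) (nat_lit 152) (nat_lit 0) (XT.lf (nat_lit 0) (nat_lit 453071919) (nat_lit 152) (nat_lit 2152360382) (nat_lit 228) (nat_lit 9040357321) (nat_lit 40) (nat_lit 5) (nat_lit 42) (nat_lit 5) (nat_lit 43) (nat_lit 4) (nat_lit 325) (nat_lit 290) (nat_lit 285)) (XT.lf (nat_lit 0) (nat_lit 2188400642) (nat_lit 152) (nat_lit 7682443245) (nat_lit 152) (nat_lit 2292397784) (nat_lit 38) (nat_lit 4) (nat_lit 40) (nat_lit 5) (nat_lit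 40) (nat_lit 4) (nat_lit 326) (nat_lit 290) (nat_lit 284))) (XT.nd (nat_lit 78) (nat_lit 152) (nat_lit 0) (XT.lf (nat_lit 0) (nat_lit 3701183775) (nat_lit 76) (nat_lit 1065425847) (nat_lit 152) (nat_lit 7955148545) (nat_lit 36) (nat_lit 5) (nat_lit 37) (nat_lit 5) (nat_lit 38) (nat_lit 4) (nat_lit 327) (nat_lit 290) (nat_lit 283)) (XT.lf (nat_lit 0) (nat_lit 4919017743) (nat_lit 152) (nat_lit 7392660413) (nat_lit 152) (nat_lit 1011429622) (nat_lit 34) (nat_lit 4) (nat_lit 36) (nat_lit 5) (nat_lit 36) (nat_lit 4) (nat_lit 328) (nat_lit 290) (nat_lit 282))))))) (XT.nd (nat_lit 936) (nat_lit 684) (nat_lit 0) (XT.nd (nat_lit 468) (nat_lit 456) (nat_lit 0) (XT.nd (nat_lit 234) (nat_lit 380) (nat_lit 0) (XT.nd (nat_lit 78) (nat_lit 304) (nat_lit 0) (XT.lf (nat_lit 0) (nat_lit 5797117951) (nat_lit 76) (nat_lit 414511013) (nat_lit 152) (nat_lit 7759397314) (nat_lit 32) (nat_lit 5) (nat_lit 33) (nat_lit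 5) (nat_lit 34) (nat_lit 4) (nat_lit 329) (nat_lit 290) (nat_lit 281)) (XT.nd (nat_lit 78) (nat_lit 152) (nat_lit 0) (XT.lf (nat_lit 0) (nat_lit 6256666849) (nat_lit 152) (nat_lit 7753974919) (nat_lit 152) (nat_lit 657722914) (nat_lit 30) (nat_lit 4) (nat_lit 32) (nat_lit 5) (nat_lit 32) (nat_lit 4) (nat_lit 330) (nat_lit 290) (nat_lit 280)) (XT.lf (nat_lit 0) (nat_lit 6230717010) (nat_lit 76) (nat_lit 491494906) (nat_lit 152) (nat_lit 8697158246) (nat_lit 28) (nat_lit 5) (nat_lit 29) (nat_lit 5) (nat_lit 30) (nat_lit 4) (nat_lit 331) (nat_lit 290) (nat_lit 279)))) (XT.nd (nat_lit 78) (nat_lit 228) (nat_lit 0) (XT.lf (nat_lit 0) (nat_lit 5617686271) (nat_lit 152) (nat_lit 9100082341) (nat_lit 152) (nat_lit 1509810535) (nat_lit 26) (nat_lit 4) (nat_lit 28) (nat_lit 5) (nat_lit 28) (nat_lit 4) (nat_lit 332) (nat_lit 290) (nat_lit 278)) (XT.nd (nat_lit 78) (nat_lit 76) (nat_lit 0) (XT.lf (nat_lit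 0) (nat_lit 4333114739) (nat_lit 76) (nat_lit 1663826077) (nat_lit 152) (nat_lit 11101463040) (nat_lit 24) (nat_lit 5) (nat_lit 25) (nat_lit 5) (nat_lit 26) (nat_lit 4) (nat_lit 333) (nat_lit 290) (nat_lit 277)) (XT.lf (nat_lit 0) (nat_lit 2236353406) (nat_lit 76) (nat_lit 11853771694) (nat_lit 76) (nat_lit 3945654250) (nat_lit 23) (nat_lit 4) (nat_lit 24) (nat_lit 5) (nat_lit 24) (nat_lit 4) (nat_lit 334) (nat_lit 290) (nat_lit 276))))) (XT.nd (nat_lit 234) (nat_lit 228) (nat_lit 0) (XT.nd (nat_lit 78) (nat_lit 152) (nat_lit 0) (XT.lf (nat_lit 0) (nat_lit 3640182504) (nat_lit 152) (nat_lit 748132533) (nat_lit 76) (nat_lit 14657999958) (nat_lit 22) (nat_lit 5) (nat_lit 24) (nat_lit 5) (nat_lit 23) (nat_lit 4) (nat_lit 335) (nat_lit 290) (nat_lit 275)) (XT.nd (nat_lit 78) (nat_lit 76) (nat_lit 0) (XT.lf (nat_lit 0) (nat_lit 11741791815) (nat_lit 152) (nat_lit 4734756415) (nat_lit 0) (nat_lit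 3655604490) (nat_lit 21) (nat_lit 5) (nat_lit 23) (nat_lit 4) (nat_lit 21) (nat_lit 4) (nat_lit 336) (nat_lit 290) (nat_lit 274)) (XT.lf (nat_lit 0) (nat_lit 11382767070) (nat_lit 76) (nat_lit 9127154816) (nat_lit 76) (nat_lit 794062709) (nat_lit 20) (nat_lit 4) (nat_lit 21) (nat_lit 5) (nat_lit 21) (nat_lit 4) (nat_lit 337) (nat_lit 290) (nat_lit 273)))) (XT.nd (nat_lit 78) (nat_lit 76) (nat_lit 0) (XT.lf (nat_lit 0) (nat_lit 6016672964) (nat_lit 76) (nat_lit 1094732211) (nat_lit 152) (nat_lit 15455483056) (nat_lit 18) (nat_lit 5) (nat_lit 19) (nat_lit 5) (nat_lit 20) (nat_lit 4) (nat_lit 338) (nat_lit 290) (nat_lit 272)) (XT.nd (nat_lit 78) (nat_lit 76) (nat_lit 0) (XT.lf (nat_lit 0) (nat_lit 15684500748) (nat_lit 152) (nat_lit 913667717) (nat_lit 0) (nat_lit 7328892463) (nat_lit 18) (nat_lit 5) (nat_lit 20) (nat_lit 4) (nat_lit 18) (nat_lit 4) (nat_lit 339) (nat_lit 290) (nat_lit 271))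 (XT.lf (nat_lit 0) (nat_lit 16061265599) (nat_lit 76) (nat_lit 8937171696) (nat_lit 76) (nat_lit 394895814) (nat_lit 17) (nat_lit 4) (nat_lit 18) (nat_lit 5) (nat_lit 18) (nat_lit 4) (nat_lit 340) (nat_lit 290) (nat_lit 270)))))) (XT.nd (nat_lit 468) (nat_lit 304) (nat_lit 0) (XT.nd (nat_lit 234) (nat_lit 152) (nat_lit 0) (XT.nd (nat_lit 78) (nat_lit 76) (nat_lit 0) (XT.lf (nat_lit 0) (nat_lit 7156019345) (nat_lit 76) (nat_lit 585998017) (nat_lit 152) (nat_lit 19232609598) (nat_lit 15) (nat_lit 5) (nat_lit 16) (nat_lit 5) (nat_lit 17) (nat_lit 4) (nat_lit 341) (nat_lit 290) (nat_lit 269)) (XT.nd (nat_lit 78) (nat_lit 76) (nat_lit 0) (XT.lf (nat_lit 0) (nat_lit 16611912194) (nat_lit 152) (nat_lit 3906039166) (nat_lit 0) (nat_lit 8159384932) (nat_lit 15) (nat_lit 5) (nat_lit 17) (nat_lit 4) (nat_lit 15) (nat_lit 4) (nat_lit 342) (nat_lit 290) (nat_lit 268)) (XT.lf (nat_lit 0) (nat_lit 13338083016)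 (nat_lit 76) (nat_lit 12885134413) (nat_lit 76) (nat_lit 4291480715) (nat_lit 14) (nat_lit 4) (nat_lit 15) (nat_lit 5) (nat_lit 15) (nat_lit 4) (nat_lit 343) (nat_lit 290) (nat_lit 267)))) (XT.nd (nat_lit 78) (nat_lit 76) (nat_lit 0) (XT.lf (nat_lit 0) (nat_lit 3861368776) (nat_lit 152) (nat_lit 808520329) (nat_lit 76) (nat_lit 27831561534) (nat_lit 13) (nat_lit 5) (nat_lit 15) (nat_lit 5) (nat_lit 14) (nat_lit 4) (nat_lit 344) (nat_lit 290) (nat_lit 266)) (XT.nd (nat_lit 78) (nat_lit 0) (nat_lit 0) (XT.lf (nat_lit 0) (nat_lit 12685125914) (nat_lit 152) (nat_lit 17689057900) (nat_lit 0) (nat_lit 4261012111) (nat_lit 12) (nat_lit 5) (nat_lit 14) (nat_lit 4) (nat_lit 12) (nat_lit 4) (nat_lit 345) (nat_lit 290) (nat_lit 265)) (XT.lf (nat_lit 0) (nat_lit 22145680968) (nat_lit 152) (nat_lit 1182563949) (nat_lit 0) (nat_lit 13614871247) (nat_lit 12) (nat_lit 5) (nat_lit 14) (nat_lit 4) (nat_lit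 12) (nat_lit 4) (nat_lit 346) (nat_lit 290) (nat_lit 264))))) (XT.nd (nat_lit 234) (nat_lit 76) (nat_lit 0) (XT.nd (nat_lit 78) (nat_lit 152) (nat_lit 0) (XT.lf (nat_lit 0) (nat_lit 16893771815) (nat_lit 76) (nat_lit 15582919305) (nat_lit 76) (nat_lit 6953317067) (nat_lit 11) (nat_lit 4) (nat_lit 12) (nat_lit 5) (nat_lit 12) (nat_lit 4) (nat_lit 347) (nat_lit 290) (nat_lit 263)) (XT.nd (nat_lit 78) (nat_lit 76) (nat_lit 0) (XT.lf (nat_lit 0) (nat_lit 1344926498) (nat_lit 152) (nat_lit 5963977467) (nat_lit 76) (nat_lit 34812019224) (nat_lit 10) (nat_lit 5) (nat_lit 12) (nat_lit 5) (nat_lit 11) (nat_lit 4) (nat_lit 348) (nat_lit 290) (nat_lit 262)) (XT.lf (nat_lit 0) (nat_lit 10146473331) (nat_lit 152) (nat_lit 33110780662) (nat_lit 0) (nat_lit 1760020522) (nat_lit 9) (nat_lit 5) (nat_lit 11) (nat_lit 4) (nat_lit 9) (nat_lit 4) (nat_lit 349) (nat_lit 290) (nat_lit 261)))) (XT.nd (nat_lit 156)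 (nat_lit 76) (nat_lit 0) (XT.nd (nat_lit 78) (nat_lit 0) (nat_lit 0) (XT.lf (nat_lit 0) (nat_lit 19750194165) (nat_lit 152) (nat_lit 17101200225) (nat_lit 0) (nat_lit 11289051180) (nat_lit 9) (nat_lit 5) (nat_lit 11) (nat_lit 4) (nat_lit 9) (nat_lit 4) (nat_lit 350) (nat_lit 290) (nat_lit 260)) (XT.lf (nat_lit 0) (nat_lit 30001117344) (nat_lit 152) (nat_lit 47604035) (nat_lit 0) (nat_lit 21470816788) (nat_lit 9) (nat_lit 5) (nat_lit 11) (nat_lit 4) (nat_lit 9) (nat_lit 4) (nat_lit 351) (nat_lit 290) (nat_lit 259))) (XT.nd (nat_lit 78) (nat_lit 0) (nat_lit 0) (XT.lf (nat_lit 0) (nat_lit 18751222476) (nat_lit 76) (nat_lit 22501525735) (nat_lit 76) (nat_lit 13907190392) (nat_lit 8) (nat_lit 4) (nat_lit 9) (nat_lit 5) (nat_lit 9) (nat_lit 4) (nat_lit 352) (nat_lit 290) (nat_lit 258)) (XT.lf (nat_lit 0) (nat_lit 38845968194) (nat_lit 76) (nat_lit 14452277064) (nat_lit 76) (nat_lit 5798650251)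 (nat_lit 8) (nat_lit 4) (nat_lit 9) (nat_lit 5) (nat_lit 9) (nat_lit 4) (nat_lit 353) (nat_lit 290) (nat_lit 257))))))))
noncomputable def xc30 : XT := (XT.nd (nat_lit 1950) (nat_lit 0) (nat_lit 0) (XT.nd (nat_lit 936) (nat_lit 76) (nat_lit 0) (XT.nd (nat_lit 468) (nat_lit 152) (nat_lit 0) (XT.nd (nat_lit 234) (nat_lit 76) (nat_lit 0) (XT.nd (nat_lit 78) (nat_lit 76) (nat_lit 0) (XT.lf (nat_lit 0) (nat_lit 2763083973) (nat_lit 152) (nat_lit 3044204175) (nat_lit 76) (nat_lit 57544260950) (nat_lit 7) (nat_lit 5) (nat_lit 9) (nat_lit 5) (nat_lit 8) (nat_lit 4) (nat_lit 354) (nat_lit 290) (nat_lit 256)) (XT.nd (nat_lit 78) (nat_lit 0) (nat_lit 0) (XT.lf (nat_lit 0) (nat_lit 12021431686) (nat_lit 152) (nat_lit 52230473074) (nat_lit 0) (nat_lit 3679184828) (nat_lit 6) (nat_lit 5) (nat_lit 8) (nat_lit 4) (nat_lit 6) (nat_lit 4) (nat_lit 355) (nat_lit 290) (nat_lit 255)) (XT.lf (nat_lit 0) (nat_lit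 22081779341) (nat_lit 152) (nat_lit 37097449542) (nat_lit 0) (nat_lit 13694706311) (nat_lit 6) (nat_lit 5) (nat_lit 8) (nat_lit 4) (nat_lit 6) (nat_lit 4) (nat_lit 356) (nat_lit 290) (nat_lit 254)))) (XT.nd (nat_lit 78) (nat_lit 76) (nat_lit 0) (XT.lf (nat_lit 0) (nat_lit 32863170785) (nat_lit 152) (nat_lit 20918642682) (nat_lit 0) (nat_lit 24434592040) (nat_lit 6) (nat_lit 5) (nat_lit 8) (nat_lit 4) (nat_lit 6) (nat_lit 4) (nat_lit 357) (nat_lit 290) (nat_lit 253)) (XT.nd (nat_lit 78) (nat_lit 76) (nat_lit 0) (XT.lf (nat_lit 0) (nat_lit 44429495744) (nat_lit 152) (nat_lit 3598178085) (nat_lit 0) (nat_lit 35962485782) (nat_lit 6) (nat_lit 5) (nat_lit 8) (nat_lit 4) (nat_lit 6) (nat_lit 4) (nat_lit 358) (nat_lit 290) (nat_lit 252)) (XT.lf (nat_lit 0) (nat_lit 15461446901) (nat_lit 76) (nat_lit 41629245019) (nat_lit 76) (nat_lit 33126650597) (nat_lit 5) (nat_lit 4) (nat_lit 6) (nat_lit 5)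 (nat_lit 6) (nat_lit 4) (nat_lit 359) (nat_lit 290) (nat_lit 251))))) (XT.nd (nat_lit 234) (nat_lit 152) (nat_lit 0) (XT.nd (nat_lit 78) (nat_lit 0) (nat_lit 0) (XT.lf (nat_lit 0) (nat_lit 36039134474) (nat_lit 76) (nat_lit 34719705990) (nat_lit 76) (nat_lit 26184162993) (nat_lit 5) (nat_lit 4) (nat_lit 6) (nat_lit 5) (nat_lit 6) (nat_lit 4) (nat_lit 360) (nat_lit 290) (nat_lit 250)) (XT.nd (nat_lit 78) (nat_lit 0) (nat_lit 0) (XT.lf (nat_lit 0) (nat_lit 58137854468) (nat_lit 76) (nat_lit 27319048213) (nat_lit 76) (nat_lit 18752997277) (nat_lit 5) (nat_lit 4) (nat_lit 6) (nat_lit 5) (nat_lit 6) (nat_lit 4) (nat_lit 361) (nat_lit 290) (nat_lit 249)) (XT.lf (nat_lit 0) (nat_lit 81888562263) (nat_lit 76) (nat_lit 19383415938) (nat_lit 76) (nat_lit 10789116910) (nat_lit 5) (nat_lit 4) (nat_lit 6) (nat_lit 5) (nat_lit 6) (nat_lit 4) (nat_lit 362) (nat_lit 290) (nat_lit 248)))) (XT.nd (nat_lit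 78) (nat_lit 152) (nat_lit 0) (XT.lf (nat_lit 0) (nat_lit 107432002792) (nat_lit 76) (nat_lit 10865783196) (nat_lit 76) (nat_lit 2245328527) (nat_lit 5) (nat_lit 4) (nat_lit 6) (nat_lit 5) (nat_lit 6) (nat_lit 4) (nat_lit 363) (nat_lit 290) (nat_lit 247)) (XT.nd (nat_lit 78) (nat_lit 0) (nat_lit 0) (XT.lf (nat_lit 0) (nat_lit 5273940563) (nat_lit 76) (nat_lit 1515626957) (nat_lit 152) (nat_lit 122907128367) (nat_lit 3) (nat_lit 5) (nat_lit 4) (nat_lit 5) (nat_lit 5) (nat_lit 4) (nat_lit 364) (nat_lit 290) (nat_lit 246)) (XT.lf (nat_lit 0) (nat_lit 16786043856) (nat_lit 152) (nat_lit 114247145156) (nat_lit 0) (nat_lit 8531665665) (nat_lit 3) (nat_lit 5) (nat_lit 5) (nat_lit 4) (nat_lit 3) (nat_lit 4) (nat_lit 365) (nat_lit 290) (nat_lit 245)))))) (XT.nd (nat_lit 468) (nat_lit 76) (nat_lit 0) (XT.nd (nat_lit 234) (nat_lit 0) (nat_lit 0) (XT.nd (nat_lit 78) (nat_lit 0) (nat_lit 0) (XT.lf (nat_lit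 0) (nat_lit 27561751588) (nat_lit 152) (nat_lit 103374143734) (nat_lit 0) (nat_lit 19287598929) (nat_lit 3) (nat_lit 5) (nat_lit 5) (nat_lit 4) (nat_lit 3) (nat_lit 4) (nat_lit 366) (nat_lit 290) (nat_lit 244)) (XT.nd (nat_lit 78) (nat_lit 0) (nat_lit 0) (XT.lf (nat_lit 0) (nat_lit 39156883576) (nat_lit 152) (nat_lit 91715655273) (nat_lit 0) (nat_lit 30864421226) (nat_lit 3) (nat_lit 5) (nat_lit 5) (nat_lit 4) (nat_lit 3) (nat_lit 4) (nat_lit 367) (nat_lit 290) (nat_lit 243)) (XT.lf (nat_lit 0) (nat_lit 51640151715) (nat_lit 152) (nat_lit 79202592433) (nat_lit 0) (nat_lit 43330735945) (nat_lit 3) (nat_lit 5) (nat_lit 5) (nat_lit 4) (nat_lit 3) (nat_lit 4) (nat_lit 368) (nat_lit 290) (nat_lit 242)))) (XT.nd (nat_lit 78) (nat_lit 0) (nat_lit 0) (XT.lf (nat_lit 0) (nat_lit 65085530926) (nat_lit 152) (nat_lit 65760803731) (nat_lit 0) (nat_lit 56760417547) (nat_lit 3) (nat_lit 5) (nat_lit 5)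 (nat_lit 4) (nat_lit 3) (nat_lit 4) (nat_lit 369) (nat_lit 290) (nat_lit 241)) (XT.nd (nat_lit 78) (nat_lit 0) (nat_lit 0) (XT.lf (nat_lit 0) (nat_lit 79572697530) (nat_lit 152) (nat_lit 51310634123) (nat_lit 0) (nat_lit 71233049327) (nat_lit 3) (nat_lit 5) (nat_lit 5) (nat_lit 4) (nat_lit 3) (nat_lit 4) (nat_lit 370) (nat_lit 290) (nat_lit 240)) (XT.lf (nat_lit 0) (nat_lit 95187501405) (nat_lit 152) (nat_lit 35766452974) (nat_lit 0) (nat_lit 86834395032) (nat_lit 3) (nat_lit 5) (nat_lit 5) (nat_lit 4) (nat_lit 3) (nat_lit 4) (nat_lit 371) (nat_lit 290) (nat_lit 239))))) (XT.nd (nat_lit 234) (nat_lit 0) (nat_lit 0) (XT.nd (nat_lit 78) (nat_lit 76) (nat_lit 0) (XT.lf (nat_lit 0) (nat_lit 112022474721) (nat_lit 152) (nat_lit 19036146618) (nat_lit 0) (nat_lit 103656907079) (nat_lit 3) (nat_lit 5) (nat_lit 5) (nat_lit 4) (nat_lit 3) (nat_lit 4) (nat_lit 372) (nat_lit 290) (nat_lit 238)) (XT.nd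 (nat_lit 78) (nat_lit 76) (nat_lit 0) (XT.lf (nat_lit 0) (nat_lit 130177380282) (nat_lit 152) (nat_lit 1020572499) (nat_lit 0) (nat_lit 121800274428) (nat_lit 3) (nat_lit 5) (nat_lit 5) (nat_lit 4) (nat_lit 3) (nat_lit 4) (nat_lit 373) (nat_lit 290) (nat_lit 237)) (XT.lf (nat_lit 0) (nat_lit 18994986535) (nat_lit 76) (nat_lit 131061381153) (nat_lit 76) (nat_lit 122673591770) (nat_lit 2) (nat_lit 4) (nat_lit 3) (nat_lit 5) (nat_lit 3) (nat_lit 4) (nat_lit 374) (nat_lit 290) (nat_lit 236)))) (XT.nd (nat_lit 156) (nat_lit 0) (nat_lit 0) (XT.nd (nat_lit 78) (nat_lit 0) (nat_lit 0) (XT.lf (nat_lit 0) (nat_lit 40601154406) (nat_lit 76) (nat_lit 130918529403) (nat_lit 76) (nat_lit 122520847863) (nat_lit 2) (nat_lit 4) (nat_lit 3) (nat_lit 5) (nat_lit 3) (nat_lit 4) (nat_lit 375) (nat_lit 290) (nat_lit 235)) (XT.lf (nat_lit 0) (nat_lit 63892222927) (nat_lit 76) (nat_lit 130785834892) (nat_lit 76)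 (nat_lit 122378993947) (nat_lit 2) (nat_lit 4) (nat_lit 3) (nat_lit 5) (nat_lit 3) (nat_lit 4) (nat_lit 376) (nat_lit 290) (nat_lit 234))) (XT.nd (nat_lit 78) (nat_lit 0) (nat_lit 0) (XT.lf (nat_lit 0) (nat_lit 89006213245) (nat_lit 76) (nat_lit 130662511283) (nat_lit 76) (nat_lit 122247189408) (nat_lit 2) (nat_lit 4) (nat_lit 3) (nat_lit 5) (nat_lit 3) (nat_lit 4) (nat_lit 377) (nat_lit 290) (nat_lit 233)) (XT.lf (nat_lit 0) (nat_lit 116091949007) (nat_lit 76) (nat_lit 130547827768) (nat_lit 76) (nat_lit 122124653180) (nat_lit 2) (nat_lit 4) (nat_lit 3) (nat_lit 5) (nat_lit 3) (nat_lit 4) (nat_lit 378) (nat_lit 290) (nat_lit 232))))))) (XT.nd (nat_lit 936) (nat_lit 0) (nat_lit 0) (XT.nd (nat_lit 468) (nat_lit 0) (nat_lit 0) (XT.nd (nat_lit 234) (nat_lit 0) (nat_lit 0) (XT.nd (nat_lit 78) (nat_lit 0) (nat_lit 0) (XT.lf (nat_lit 0) (nat_lit 145309938275) (nat_lit 76) (nat_lit 130441104742)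 (nat_lit 76) (nat_lit 122010659123) (nat_lit 2) (nat_lit 4) (nat_lit 3) (nat_lit 5) (nat_lit 3) (nat_lit 4) (nat_lit 379) (nat_lit 290) (nat_lit 231)) (XT.nd (nat_lit 78) (nat_lit 0) (nat_lit 0) (XT.lf (nat_lit 0) (nat_lit 176833324691) (nat_lit 76) (nat_lit 130341709772) (nat_lit 76) (nat_lit 121904531717) (nat_lit 2) (nat_lit 4) (nat_lit 3) (nat_lit 5) (nat_lit 3) (nat_lit 4) (nat_lit 380) (nat_lit 290) (nat_lit 230)) (XT.lf (nat_lit 0) (nat_lit 210848913507) (nat_lit 76) (nat_lit 130249053851) (nat_lit 76) (nat_lit 121805642059) (nat_lit 2) (nat_lit 4) (nat_lit 3) (nat_lit 5) (nat_lit 3) (nat_lit 4) (nat_lit 381) (nat_lit 290) (nat_lit 229)))) (XT.nd (nat_lit 78) (nat_lit 0) (nat_lit 0) (XT.lf (nat_lit 0) (nat_lit 247558278582) (nat_lit 76) (nat_lit 130162587906) (nat_lit 76) (nat_lit 121713404136) (nat_lit 2) (nat_lit 4) (nat_lit 3) (nat_lit 5) (nat_lit 3) (nat_lit 4) (nat_lit 382) (nat_lit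 290) (nat_lit 228)) (XT.nd (nat_lit 78) (nat_lit 0) (nat_lit 0) (XT.lf (nat_lit 0) (nat_lit 287178956896) (nat_lit 76) (nat_lit 130081799547) (nat_lit 76) (nat_lit 121627271352) (nat_lit 2) (nat_lit 4) (nat_lit 3) (nat_lit 5) (nat_lit 3) (nat_lit 4) (nat_lit 383) (nat_lit 290) (nat_lit 227)) (XT.lf (nat_lit 0) (nat_lit 329945737652) (nat_lit 76) (nat_lit 130006210028) (nat_lit 76) (nat_lit 121546733292) (nat_lit 2) (nat_lit 4) (nat_lit 3) (nat_lit 5) (nat_lit 3) (nat_lit 4) (nat_lit 384) (nat_lit 290) (nat_lit 226))))) (XT.nd (nat_lit 234) (nat_lit 0) (nat_lit 0) (XT.nd (nat_lit 78) (nat_lit 0) (nat_lit 0) (XT.lf (nat_lit 0) (nat_lit 376112053626) (nat_lit 76) (nat_lit 129935371411) (nat_lit 76) (nat_lit 121471312693) (nat_lit 2) (nat_lit 4) (nat_lit 3) (nat_lit 5) (nat_lit 3) (nat_lit 4) (nat_lit 385) (nat_lit 290) (nat_lit 225)) (XT.nd (nat_lit 78) (nat_lit 0) (nat_lit 0) (XT.lf (nat_lit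 0) (nat_lit 425951482986) (nat_lit 76) (nat_lit 129868863912) (nat_lit 76) (nat_lit 121400562617) (nat_lit 2) (nat_lit 4) (nat_lit 3) (nat_lit 5) (nat_lit 3) (nat_lit 4) (nat_lit 386) (nat_lit 290) (nat_lit 224)) (XT.lf (nat_lit 0) (nat_lit 479759370499) (nat_lit 76) (nat_lit 129806293413) (nat_lit 76) (nat_lit 121334063806) (nat_lit 2) (nat_lit 4) (nat_lit 3) (nat_lit 5) (nat_lit 3) (nat_lit 4) (nat_lit 387) (nat_lit 290) (nat_lit 223)))) (XT.nd (nat_lit 78) (nat_lit 0) (nat_lit 0) (XT.lf (nat_lit 0) (nat_lit 537854577721) (nat_lit 76) (nat_lit 129747289124) (nat_lit 76) (nat_lit 121271422191) (nat_lit 2) (nat_lit 4) (nat_lit 3) (nat_lit 5) (nat_lit 3) (nat_lit 4) (nat_lit 388) (nat_lit 290) (nat_lit 222)) (XT.nd (nat_lit 78) (nat_lit 0) (nat_lit 0) (XT.lf (nat_lit 0) (nat_lit 600581372546) (nat_lit 76) (nat_lit 129691501391) (nat_lit 76) (nat_lit 121212266565) (nat_lit 2) (nat_lit 4) (nat_lit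 3) (nat_lit 5) (nat_lit 3) (nat_lit 4) (nat_lit 389) (nat_lit 290) (nat_lit 221)) (XT.lf (nat_lit 0) (nat_lit 668311469313) (nat_lit 76) (nat_lit 129638599620) (nat_lit 76) (nat_lit 121156246373) (nat_lit 2) (nat_lit 4) (nat_lit 3) (nat_lit 5) (nat_lit 3) (nat_lit 4) (nat_lit 390) (nat_lit 290) (nat_lit 220)))))) (XT.nd (nat_lit 41184) (nat_lit 0) (nat_lit 3268) (XT.nd (nat_lit 234) (nat_lit 0) (nat_lit 0) (XT.nd (nat_lit 78) (nat_lit 0) (nat_lit 0) (XT.lf (nat_lit 0) (nat_lit 741446231560) (nat_lit 76) (nat_lit 129588270320) (nat_lit 76) (nat_lit 121103029647) (nat_lit 2) (nat_lit 4) (nat_lit 3) (nat_lit 5) (nat_lit 3) (nat_lit 4) (nat_lit 391) (nat_lit 290) (nat_lit 219)) (XT.nd (nat_lit 78) (nat_lit 0) (nat_lit 0) (XT.lf (nat_lit 0) (nat_lit 820419050470) (nat_lit 76) (nat_lit 129540215242) (nat_lit 76) (nat_lit 121052301025) (nat_lit 2) (nat_lit 4) (nat_lit 3) (nat_lit 5) (nat_lit 3)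 (nat_lit 4) (nat_lit 392) (nat_lit 290) (nat_lit 218)) (XT.lf (nat_lit 0) (nat_lit 905697913118) (nat_lit 76) (nat_lit 129494149615) (nat_lit 76) (nat_lit 121003759896) (nat_lit 2) (nat_lit 4) (nat_lit 3) (nat_lit 5) (nat_lit 3) (nat_lit 4) (nat_lit 393) (nat_lit 290) (nat_lit 217)))) (XT.nd (nat_lit 78) (nat_lit 0) (nat_lit 0) (XT.lf (nat_lit 0) (nat_lit 997788175727) (nat_lit 76) (nat_lit 129449800458) (nat_lit 76) (nat_lit 120957118607) (nat_lit 2) (nat_lit 4) (nat_lit 3) (nat_lit 5) (nat_lit 3) (nat_lit 4) (nat_lit 394) (nat_lit 290) (nat_lit 216)) (XT.nd (nat_lit 78) (nat_lit 0) (nat_lit 0) (XT.lf (nat_lit 0) (nat_lit 1097235558372) (nat_lit 76) (nat_lit 129406904962) (nat_lit 76) (nat_lit 120912100766) (nat_lit 2) (nat_lit 4) (nat_lit 3) (nat_lit 5) (nat_lit 3) (nat_lit 4) (nat_lit 395) (nat_lit 290) (nat_lit 215)) (XT.lf (nat_lit 0) (nat_lit 1204629378876) (nat_lit 76) (nat_lit 129365208930)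 (nat_lit 76) (nat_lit 120868439600) (nat_lit 2) (nat_lit 4) (nat_lit 3) (nat_lit 5) (nat_lit 3) (nat_lit 4) (nat_lit 396) (nat_lit 290) (nat_lit 214))))) (XT.nd (nat_lit 234) (nat_lit 988) (nat_lit 0) (XT.nd (nat_lit 78) (nat_lit 608) (nat_lit 0) (XT.lf (nat_lit 0) (nat_lit 1809743594) (nat_lit 228) (nat_lit 1330702969) (nat_lit 228) (nat_lit 1330702969) (nat_lit 66) (nat_lit 4) (nat_lit 69) (nat_lit 5) (nat_lit 69) (nat_lit 4) (nat_lit 318) (nat_lit 291) (nat_lit 291)) (XT.nd (nat_lit 78) (nat_lit 304) (nat_lit 0) (XT.lf (nat_lit 0) (nat_lit 3796166116) (nat_lit 304) (nat_lit 3074265170) (nat_lit 0) (nat_lit 2378946889) (nat_lit 62) (nat_lit 5) (nat_lit 66) (nat_lit 4) (nat_lit 62) (nat_lit 4) (nat_lit 319) (nat_lit 291) (nat_lit 290)) (XT.lf (nat_lit 0) (nat_lit 936266930) (nat_lit 304) (nat_lit 810112046) (nat_lit 76) (nat_lit 7838184422) (nat_lit 58) (nat_lit 5) (nat_lit 62) (nat_lit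 5) (nat_lit 59) (nat_lit 4) (nat_lit 320) (nat_lit 291) (nat_lit 289)))) (XT.nd (nat_lit 156) (nat_lit 380) (nat_lit 0) (XT.nd (nat_lit 78) (nat_lit 228) (nat_lit 0) (XT.lf (nat_lit 0) (nat_lit 1451776397) (nat_lit 228) (nat_lit 6125318577) (nat_lit 228) (nat_lit 2368655421) (nat_lit 53) (nat_lit 4) (nat_lit 56) (nat_lit 5) (nat_lit 56) (nat_lit 4) (nat_lit 321) (nat_lit 291) (nat_lit 288)) (XT.lf (nat_lit 0) (nat_lit 3724105690) (nat_lit 152) (nat_lit 447713869) (nat_lit 228) (nat_lit 6165774822) (nat_lit 50) (nat_lit 5) (nat_lit 52) (nat_lit 5) (nat_lit 53) (nat_lit 4) (nat_lit 322) (nat_lit 291) (nat_lit 287))) (XT.nd (nat_lit 78) (nat_lit 152) (nat_lit 0) (XT.lf (nat_lit 0) (nat_lit 342104939) (nat_lit 228) (nat_lit 4841749789) (nat_lit 76) (nat_lit 5576802439) (nat_lit 47) (nat_lit 5) (nat_lit 50) (nat_lit 5) (nat_lit 48) (nat_lit 4) (nat_lit 323) (nat_lit 291) (nat_lit 286)) (XT.lf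 (nat_lit 0) (nat_lit 7064486851) (nat_lit 228) (nat_lit 3200512102) (nat_lit 0) (nat_lit 952175297) (nat_lit 45) (nat_lit 5) (nat_lit 48) (nat_lit 4) (nat_lit 45) (nat_lit 4) (nat_lit 324) (nat_lit 291) (nat_lit 285))))))))
noncomputable def xc31 : XT := (XT.nd (nat_lit 1950) (nat_lit 532) (nat_lit 0) (XT.nd (nat_lit 936) (nat_lit 836) (nat_lit 0) (XT.nd (nat_lit 468) (nat_lit 684) (nat_lit 0) (XT.nd (nat_lit 234) (nat_lit 456) (nat_lit 0) (XT.nd (nat_lit 78) (nat_lit 456) (nat_lit 0) (XT.lf (nat_lit 0) (nat_lit 2515907114) (nat_lit 228) (nat_lit 1726185404) (nat_lit 76) (nat_lit 7466961362) (nat_lit 42) (nat_lit 5) (nat_lit 45) (nat_lit 5) (nat_lit 43) (nat_lit 4) (nat_lit 325) (nat_lit 291) (nat_lit 284)) (XT.nd (nat_lit 78) (nat_lit 304) (nat_lit 0) (XT.lf (nat_lit 0) (nat_lit 9520073671) (nat_lit 228) (nat_lit 435798467) (nat_lit 0) (nat_lit 2283757954) (nat_lit 40) (nat_lit 5) (nat_lit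 43) (nat_lit 4) (nat_lit 40) (nat_lit 4) (nat_lit 326) (nat_lit 291) (nat_lit 283)) (XT.lf (nat_lit 0) (nat_lit 614650678) (nat_lit 76) (nat_lit 3522370187) (nat_lit 152) (nat_lit 8672318869) (nat_lit 36) (nat_lit 5) (nat_lit 37) (nat_lit 5) (nat_lit 38) (nat_lit 4) (nat_lit 327) (nat_lit 291) (nat_lit 282)))) (XT.nd (nat_lit 78) (nat_lit 304) (nat_lit 0) (XT.lf (nat_lit 0) (nat_lit 1397585367) (nat_lit 152) (nat_lit 10036355855) (nat_lit 152) (nat_lit 1989206082) (nat_lit 34) (nat_lit 4) (nat_lit 36) (nat_lit 5) (nat_lit 36) (nat_lit 4) (nat_lit 328) (nat_lit 291) (nat_lit 281)) (XT.nd (nat_lit 78) (nat_lit 152) (nat_lit 0) (XT.lf (nat_lit 0) (nat_lit 1796768683) (nat_lit 76) (nat_lit 3256041871) (nat_lit 152) (nat_lit 9029679965) (nat_lit 32) (nat_lit 5) (nat_lit 33) (nat_lit 5) (nat_lit 34) (nat_lit 4) (nat_lit 329) (nat_lit 291) (nat_lit 280)) (XT.lf (nat_lit 0) (nat_lit 1786157509)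 (nat_lit 152) (nat_lit 10807006932) (nat_lit 152) (nat_lit 2199638705) (nat_lit 30) (nat_lit 4) (nat_lit 32) (nat_lit 5) (nat_lit 32) (nat_lit 4) (nat_lit 330) (nat_lit 291) (nat_lit 279))))) (XT.nd (nat_lit 234) (nat_lit 304) (nat_lit 0) (XT.nd (nat_lit 78) (nat_lit 228) (nat_lit 0) (XT.lf (nat_lit 0) (nat_lit 1246990364) (nat_lit 76) (nat_lit 3764876254) (nat_lit 152) (nat_lit 10544071110) (nat_lit 28) (nat_lit 5) (nat_lit 29) (nat_lit 5) (nat_lit 30) (nat_lit 4) (nat_lit 331) (nat_lit 291) (nat_lit 278)) (XT.nd (nat_lit 78) (nat_lit 76) (nat_lit 0) (XT.lf (nat_lit 0) (nat_lit 125376307) (nat_lit 152) (nat_lit 12610103239) (nat_lit 152) (nat_lit 3642298057) (nat_lit 26) (nat_lit 4) (nat_lit 28) (nat_lit 5) (nat_lit 28) (nat_lit 4) (nat_lit 332) (nat_lit 291) (nat_lit 277)) (XT.lf (nat_lit 0) (nat_lit 3734138798) (nat_lit 228) (nat_lit 1655730024) (nat_lit 76) (nat_lit 11870356286) (nat_lit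 25) (nat_lit 5) (nat_lit 28) (nat_lit 5) (nat_lit 26) (nat_lit 4) (nat_lit 333) (nat_lit 291) (nat_lit 276)))) (XT.nd (nat_lit 78) (nat_lit 228) (nat_lit 0) (XT.lf (nat_lit 0) (nat_lit 11580624421) (nat_lit 152) (nat_lit 4218450638) (nat_lit 0) (nat_lit 2410887994) (nat_lit 24) (nat_lit 5) (nat_lit 26) (nat_lit 4) (nat_lit 24) (nat_lit 4) (nat_lit 334) (nat_lit 291) (nat_lit 275)) (XT.nd (nat_lit 78) (nat_lit 76) (nat_lit 0) (XT.lf (nat_lit 0) (nat_lit 850627078) (nat_lit 152) (nat_lit 7705940938) (nat_lit 76) (nat_lit 10675638227) (nat_lit 22) (nat_lit 5) (nat_lit 24) (nat_lit 5) (nat_lit 23) (nat_lit 4) (nat_lit 335) (nat_lit 291) (nat_lit 274)) (XT.lf (nat_lit 0) (nat_lit 8052437889) (nat_lit 76) (nat_lit 611666676) (nat_lit 152) (nat_lit 11668368462) (nat_lit 21) (nat_lit 5) (nat_lit 22) (nat_lit 5) (nat_lit 23) (nat_lit 4) (nat_lit 336) (nat_lit 291) (nat_lit 273)))))) (XT.nd (nat_lit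 468) (nat_lit 380) (nat_lit 0) (XT.nd (nat_lit 234) (nat_lit 228) (nat_lit 0) (XT.nd (nat_lit 78) (nat_lit 152) (nat_lit 0) (XT.lf (nat_lit 0) (nat_lit 3384297035) (nat_lit 76) (nat_lit 13803748950) (nat_lit 76) (nat_lit 4328489155) (nat_lit 20) (nat_lit 4) (nat_lit 21) (nat_lit 5) (nat_lit 21) (nat_lit 4) (nat_lit 337) (nat_lit 291) (nat_lit 272)) (XT.nd (nat_lit 78) (nat_lit 76) (nat_lit 0) (XT.lf (nat_lit 0) (nat_lit 3489712583) (nat_lit 152) (nat_lit 2533030053) (nat_lit 76) (nat_lit 16769493093) (nat_lit 19) (nat_lit 5) (nat_lit 21) (nat_lit 5) (nat_lit 20) (nat_lit 4) (nat_lit 338) (nat_lit 291) (nat_lit 271)) (XT.lf (nat_lit 0) (nat_lit 11841349162) (nat_lit 152) (nat_lit 9893125589) (nat_lit 0) (nat_lit 2429023613) (nat_lit 18) (nat_lit 5) (nat_lit 20) (nat_lit 4) (nat_lit 18) (nat_lit 4) (nat_lit 339) (nat_lit 291) (nat_lit 270)))) (XT.nd (nat_lit 78) (nat_lit 152) (nat_lit 0) (XT.lf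 (nat_lit 0) (nat_lit 6597212834) (nat_lit 76) (nat_lit 14314947805) (nat_lit 76) (nat_lit 4729781889) (nat_lit 17) (nat_lit 4) (nat_lit 18) (nat_lit 5) (nat_lit 18) (nat_lit 4) (nat_lit 340) (nat_lit 291) (nat_lit 269)) (XT.nd (nat_lit 78) (nat_lit 76) (nat_lit 0) (XT.lf (nat_lit 0) (nat_lit 3341629081) (nat_lit 152) (nat_lit 2894863675) (nat_lit 76) (nat_lit 21000353761) (nat_lit 16) (nat_lit 5) (nat_lit 18) (nat_lit 5) (nat_lit 17) (nat_lit 4) (nat_lit 341) (nat_lit 291) (nat_lit 268)) (XT.lf (nat_lit 0) (nat_lit 11986276382) (nat_lit 152) (nat_lit 14400550731) (nat_lit 0) (nat_lit 2564003955) (nat_lit 15) (nat_lit 5) (nat_lit 17) (nat_lit 4) (nat_lit 15) (nat_lit 4) (nat_lit 342) (nat_lit 291) (nat_lit 267))))) (XT.nd (nat_lit 234) (nat_lit 152) (nat_lit 0) (XT.nd (nat_lit 78) (nat_lit 152) (nat_lit 0) (XT.lf (nat_lit 0) (nat_lit 2331722661) (nat_lit 76) (nat_lit 19011083000) (nat_lit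 76) (nat_lit 9458137948) (nat_lit 14) (nat_lit 4) (nat_lit 15) (nat_lit 5) (nat_lit 15) (nat_lit 4) (nat_lit 343) (nat_lit 291) (nat_lit 266)) (XT.nd (nat_lit 78) (nat_lit 152) (nat_lit 0) (XT.lf (nat_lit 0) (nat_lit 20599322583) (nat_lit 76) (nat_lit 10934697771) (nat_lit 76) (nat_lit 1260759548) (nat_lit 14) (nat_lit 4) (nat_lit 15) (nat_lit 5) (nat_lit 15) (nat_lit 4) (nat_lit 344) (nat_lit 291) (nat_lit 265)) (XT.lf (nat_lit 0) (nat_lit 5126631150) (nat_lit 76) (nat_lit 2147807916) (nat_lit 152) (nat_lit 27671525567) (nat_lit 12) (nat_lit 5) (nat_lit 13) (nat_lit 5) (nat_lit 14) (nat_lit 4) (nat_lit 345) (nat_lit 291) (nat_lit 264)))) (XT.nd (nat_lit 156) (nat_lit 76) (nat_lit 0) (XT.nd (nat_lit 78) (nat_lit 76) (nat_lit 0) (XT.lf (nat_lit 0) (nat_lit 16629274075) (nat_lit 152) (nat_lit 13419394647) (nat_lit 0) (nat_lit 7210511142) (nat_lit 12) (nat_lit 5) (nat_lit 14) (nat_lit 4) (nat_lit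 12) (nat_lit 4) (nat_lit 346) (nat_lit 291) (nat_lit 263)) (XT.lf (nat_lit 0) (nat_lit 4118335888) (nat_lit 76) (nat_lit 22575648403) (nat_lit 76) (nat_lit 13065410917) (nat_lit 11) (nat_lit 4) (nat_lit 12) (nat_lit 5) (nat_lit 12) (nat_lit 4) (nat_lit 347) (nat_lit 291) (nat_lit 262))) (XT.nd (nat_lit 78) (nat_lit 76) (nat_lit 0) (XT.lf (nat_lit 0) (nat_lit 23280212385) (nat_lit 76) (nat_lit 14384658790) (nat_lit 76) (nat_lit 4789722645) (nat_lit 11) (nat_lit 4) (nat_lit 12) (nat_lit 5) (nat_lit 12) (nat_lit 4) (nat_lit 348) (nat_lit 291) (nat_lit 261)) (XT.lf (nat_lit 0) (nat_lit 3890305145) (nat_lit 152) (nat_lit 1698235281) (nat_lit 76) (nat_lit 39779891569) (nat_lit 10) (nat_lit 5) (nat_lit 12) (nat_lit 5) (nat_lit 11) (nat_lit 4) (nat_lit 349) (nat_lit 291) (nat_lit 260))))))) (XT.nd (nat_lit 936) (nat_lit 152) (nat_lit 0) (XT.nd (nat_lit 468) (nat_lit 76) (nat_lit 0) (XT.nd (nat_lit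 234) (nat_lit 152) (nat_lit 0) (XT.nd (nat_lit 78) (nat_lit 76) (nat_lit 0) (XT.lf (nat_lit 0) (nat_lit 13320714374) (nat_lit 152) (nat_lit 31140728348) (nat_lit 0) (nat_lit 4038832203) (nat_lit 9) (nat_lit 5) (nat_lit 11) (nat_lit 4) (nat_lit 9) (nat_lit 4) (nat_lit 350) (nat_lit 291) (nat_lit 259)) (XT.nd (nat_lit 78) (nat_lit 76) (nat_lit 0) (XT.lf (nat_lit 0) (nat_lit 23517731158) (nat_lit 152) (nat_lit 14192523310) (nat_lit 0) (nat_lit 14171814201) (nat_lit 9) (nat_lit 5) (nat_lit 11) (nat_lit 4) (nat_lit 9) (nat_lit 4) (nat_lit 351) (nat_lit 291) (nat_lit 258)) (XT.lf (nat_lit 0) (nat_lit 4037797309) (nat_lit 76) (nat_lit 30451933587) (nat_lit 76) (nat_lit 21046725159) (nat_lit 8) (nat_lit 4) (nat_lit 9) (nat_lit 5) (nat_lit 9) (nat_lit 4) (nat_lit 352) (nat_lit 291) (nat_lit 257)))) (XT.nd (nat_lit 78) (nat_lit 152) (nat_lit 0) (XT.lf (nat_lit 0) (nat_lit 24039199526) (nat_lit 76)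 (nat_lit 22448355019) (nat_lit 76) (nat_lit 12988247082) (nat_lit 8) (nat_lit 4) (nat_lit 9) (nat_lit 5) (nat_lit 9) (nat_lit 4) (nat_lit 353) (nat_lit 291) (nat_lit 256)) (XT.nd (nat_lit 78) (nat_lit 152) (nat_lit 0) (XT.lf (nat_lit 0) (nat_lit 45460941254) (nat_lit 76) (nat_lit 13892447401) (nat_lit 76) (nat_lit 4381506585) (nat_lit 8) (nat_lit 4) (nat_lit 9) (nat_lit 5) (nat_lit 9) (nat_lit 4) (nat_lit 354) (nat_lit 291) (nat_lit 255)) (XT.lf (nat_lit 0) (nat_lit 16184223) (nat_lit 76) (nat_lit 4654153591) (nat_lit 152) (nat_lit 63664859318) (nat_lit 6) (nat_lit 5) (nat_lit 7) (nat_lit 5) (nat_lit 8) (nat_lit 4) (nat_lit 355) (nat_lit 291) (nat_lit 254))))) (XT.nd (nat_lit 234) (nat_lit 76) (nat_lit 0) (XT.nd (nat_lit 78) (nat_lit 0) (nat_lit 0) (XT.lf (nat_lit 0) (nat_lit 14617740307) (nat_lit 152) (nat_lit 53192583918) (nat_lit 0) (nat_lit 5473369549) (nat_lit 6) (nat_lit 5) (nat_lit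 8) (nat_lit 4) (nat_lit 6) (nat_lit 4) (nat_lit 356) (nat_lit 291) (nat_lit 253)) (XT.nd (nat_lit 78) (nat_lit 0) (nat_lit 0) (XT.lf (nat_lit 0) (nat_lit 25361834732) (nat_lit 152) (nat_lit 37087164948) (nat_lit 0) (nat_lit 16179032756) (nat_lit 6) (nat_lit 5) (nat_lit 8) (nat_lit 4) (nat_lit 6) (nat_lit 4) (nat_lit 357) (nat_lit 291) (nat_lit 252)) (XT.lf (nat_lit 0) (nat_lit 36893625414) (nat_lit 152) (nat_lit 19834652099) (nat_lit 0) (nat_lit 27675238977) (nat_lit 6) (nat_lit 5) (nat_lit 8) (nat_lit 4) (nat_lit 6) (nat_lit 4) (nat_lit 358) (nat_lit 291) (nat_lit 251)))) (XT.nd (nat_lit 78) (nat_lit 76) (nat_lit 0) (XT.lf (nat_lit 0) (nat_lit 49281448890) (nat_lit 152) (nat_lit 1332808259) (nat_lit 0) (nat_lit 40030113880) (nat_lit 6) (nat_lit 5) (nat_lit 8) (nat_lit 4) (nat_lit 6) (nat_lit 4) (nat_lit 359) (nat_lit 291) (nat_lit 250)) (XT.nd (nat_lit 78) (nat_lit 0) (nat_lit 0) (XT.lf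 (nat_lit 0) (nat_lit 19140626718) (nat_lit 76) (nat_lit 43756926592) (nat_lit 76) (nat_lit 34475083642) (nat_lit 5) (nat_lit 4) (nat_lit 6) (nat_lit 5) (nat_lit 6) (nat_lit 4) (nat_lit 360) (nat_lit 291) (nat_lit 249)) (XT.lf (nat_lit 0) (nat_lit 41183620848) (nat_lit 76) (nat_lit 36383710221) (nat_lit 76) (nat_lit 27073619179) (nat_lit 5) (nat_lit 4) (nat_lit 6) (nat_lit 5) (nat_lit 6) (nat_lit 4) (nat_lit 361) (nat_lit 291) (nat_lit 248)))))) (XT.nd (nat_lit 468) (nat_lit 0) (nat_lit 0) (XT.nd (nat_lit 234) (nat_lit 152) (nat_lit 0) (XT.nd (nat_lit 78) (nat_lit 0) (nat_lit 0) (XT.lf (nat_lit 0) (nat_lit 64882730619) (nat_lit 76) (nat_lit 28473486655) (nat_lit 76) (nat_lit 19137239972) (nat_lit 5) (nat_lit 4) (nat_lit 6) (nat_lit 5) (nat_lit 6) (nat_lit 4) (nat_lit 362) (nat_lit 291) (nat_lit 247)) (XT.nd (nat_lit 78) (nat_lit 0) (nat_lit 0) (XT.lf (nat_lit 0) (nat_lit 90378395200) (nat_lit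 76) (nat_lit 19979380495) (nat_lit 76) (nat_lit 10618915627) (nat_lit 5) (nat_lit 4) (nat_lit 6) (nat_lit 5) (nat_lit 6) (nat_lit 4) (nat_lit 363) (nat_lit 291) (nat_lit 246)) (XT.lf (nat_lit 0) (nat_lit 117821700012) (nat_lit 76) (nat_lit 10851056298) (nat_lit 76) (nat_lit 1468167183) (nat_lit 5) (nat_lit 4) (nat_lit 6) (nat_lit 5) (nat_lit 6) (nat_lit 4) (nat_lit 364) (nat_lit 291) (nat_lit 245)))) (XT.nd (nat_lit 78) (nat_lit 0) (nat_lit 0) (XT.lf (nat_lit 0) (nat_lit 7442346111) (nat_lit 76) (nat_lit 775214091) (nat_lit 152) (nat_lit 131810556966) (nat_lit 3) (nat_lit 5) (nat_lit 4) (nat_lit 5) (nat_lit 5) (nat_lit 4) (nat_lit 365) (nat_lit 291) (nat_lit 244)) (XT.nd (nat_lit 78) (nat_lit 0) (nat_lit 0) (XT.lf (nat_lit 0) (nat_lit 18960668342) (nat_lit 152) (nat_lit 121741220734) (nat_lit 0) (nat_lit 9986499312) (nat_lit 3) (nat_lit 5) (nat_lit 5) (nat_lit 4) (nat_lit 3) (nat_lit 4)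 (nat_lit 366) (nat_lit 291) (nat_lit 243)) (XT.lf (nat_lit 0) (nat_lit 30536822249) (nat_lit 152) (nat_lit 110120282608) (nat_lit 0) (nat_lit 21545699800) (nat_lit 3) (nat_lit 5) (nat_lit 5) (nat_lit 4) (nat_lit 3) (nat_lit 4) (nat_lit 367) (nat_lit 291) (nat_lit 242))))) (XT.nd (nat_lit 234) (nat_lit 0) (nat_lit 0) (XT.nd (nat_lit 78) (nat_lit 0) (nat_lit 0) (XT.lf (nat_lit 0) (nat_lit 43002518091) (nat_lit 152) (nat_lit 97641988598) (nat_lit 0) (nat_lit 33995698031) (nat_lit 3) (nat_lit 5) (nat_lit 5) (nat_lit 4) (nat_lit 3) (nat_lit 4) (nat_lit 368) (nat_lit 291) (nat_lit 241)) (XT.nd (nat_lit 78) (nat_lit 0) (nat_lit 0) (XT.lf (nat_lit 0) (nat_lit 56431626656) (nat_lit 152) (nat_lit 84232393256) (nat_lit 0) (nat_lit 47410271773) (nat_lit 3) (nat_lit 5) (nat_lit 5) (nat_lit 4) (nat_lit 3) (nat_lit 4) (nat_lit 369) (nat_lit 291) (nat_lit 240)) (XT.lf (nat_lit 0) (nat_lit 70903727848) (nat_lit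 152) (nat_lit 69812032315) (nat_lit 0) (nat_lit 61868914794) (nat_lit 3) (nat_lit 5) (nat_lit 5) (nat_lit 4) (nat_lit 3) (nat_lit 4) (nat_lit 370) (nat_lit 291) (nat_lit 239)))) (XT.nd (nat_lit 156) (nat_lit 0) (nat_lit 0) (XT.nd (nat_lit 78) (nat_lit 0) (nat_lit 0) (XT.lf (nat_lit 0) (nat_lit 86504582266) (nat_lit 152) (nat_lit 54295451784) (nat_lit 0) (nat_lit 77457307944) (nat_lit 3) (nat_lit 5) (nat_lit 5) (nat_lit 4) (nat_lit 3) (nat_lit 4) (nat_lit 371) (nat_lit 291) (nat_lit 238)) (XT.lf (nat_lit 0) (nat_lit 103326639419) (nat_lit 152) (nat_lit 37590701556) (nat_lit 0) (nat_lit 94267826885) (nat_lit 3) (nat_lit 5) (nat_lit 5) (nat_lit 4) (nat_lit 3) (nat_lit 4) (nat_lit 372) (nat_lit 291) (nat_lit 237))) (XT.nd (nat_lit 78) (nat_lit 0) (nat_lit 0) (XT.lf (nat_lit 0) (nat_lit 121469585570) (nat_lit 152) (nat_lit 19598790518) (nat_lit 0) (nat_lit 112400089507) (nat_lit 3) (nat_lit 5)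 (nat_lit 5) (nat_lit 4) (nat_lit 3) (nat_lit 4) (nat_lit 373) (nat_lit 291) (nat_lit 236)) (XT.lf (nat_lit 0) (nat_lit 141040934475) (nat_lit 152) (nat_lit 213099938) (nat_lit 0) (nat_lit 131961546255) (nat_lit 3) (nat_lit 5) (nat_lit 5) (nat_lit 4) (nat_lit 3) (nat_lit 4) (nat_lit 374) (nat_lit 291) (nat_lit 235))))))))
noncomputable def xc32 : XT := (XT.nd (nat_lit 42432) (nat_lit 0) (nat_lit 988) (XT.nd (nat_lit 936) (nat_lit 0) (nat_lit 0) (XT.nd (nat_lit 468) (nat_lit 0) (nat_lit 0) (XT.nd (nat_lit 234) (nat_lit 0) (nat_lit 0) (XT.nd (nat_lit 78) (nat_lit 0) (nat_lit 0) (XT.lf (nat_lit 0) (nat_lit 21365063819) (nat_lit 76) (nat_lit 141125169200) (nat_lit 76) (nat_lit 132036621575) (nat_lit 2) (nat_lit 4) (nat_lit 3) (nat_lit 5) (nat_lit 3) (nat_lit 4) (nat_lit 375) (nat_lit 291) (nat_lit 234)) (XT.nd (nat_lit 78) (nat_lit 0) (nat_lit 0) (XT.lf (nat_lit 0) (nat_lit 44636726722) (nat_lit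 76) (nat_lit 141002083566) (nat_lit 76) (nat_lit 131905055010) (nat_lit 2) (nat_lit 4) (nat_lit 3) (nat_lit 5) (nat_lit 3) (nat_lit 4) (nat_lit 376) (nat_lit 291) (nat_lit 233)) (XT.lf (nat_lit 0) (nat_lit 69732748876) (nat_lit 76) (nat_lit 140887657063) (nat_lit 76) (nat_lit 131782775795) (nat_lit 2) (nat_lit 4) (nat_lit 3) (nat_lit 5) (nat_lit 3) (nat_lit 4) (nat_lit 377) (nat_lit 291) (nat_lit 232)))) (XT.nd (nat_lit 78) (nat_lit 0) (nat_lit 0) (XT.lf (nat_lit 0) (nat_lit 96801847448) (nat_lit 76) (nat_lit 140781211611) (nat_lit 76) (nat_lit 131669059312) (nat_lit 2) (nat_lit 4) (nat_lit 3) (nat_lit 5) (nat_lit 3) (nat_lit 4) (nat_lit 378) (nat_lit 291) (nat_lit 231)) (XT.nd (nat_lit 78) (nat_lit 0) (nat_lit 0) (XT.lf (nat_lit 0) (nat_lit 126004431911) (nat_lit 76) (nat_lit 140682116421) (nat_lit 76) (nat_lit 131563231686) (nat_lit 2) (nat_lit 4) (nat_lit 3) (nat_lit 5) (nat_lit 3) (nat_lit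 4) (nat_lit 379) (nat_lit 291) (nat_lit 230)) (XT.lf (nat_lit 0) (nat_lit 157513554619) (nat_lit 76) (nat_lit 140589784261) (nat_lit 76) (nat_lit 131464665790) (nat_lit 2) (nat_lit 4) (nat_lit 3) (nat_lit 5) (nat_lit 3) (nat_lit 4) (nat_lit 380) (nat_lit 291) (nat_lit 229))))) (XT.nd (nat_lit 234) (nat_lit 0) (nat_lit 0) (XT.nd (nat_lit 78) (nat_lit 0) (nat_lit 0) (XT.lf (nat_lit 0) (nat_lit 191515936297) (nat_lit 76) (nat_lit 140503667980) (nat_lit 76) (nat_lit 131372777529) (nat_lit 2) (nat_lit 4) (nat_lit 3) (nat_lit 5) (nat_lit 3) (nat_lit 4) (nat_lit 381) (nat_lit 291) (nat_lit 228)) (XT.nd (nat_lit 78) (nat_lit 0) (nat_lit 0) (XT.lf (nat_lit 0) (nat_lit 228213072542) (nat_lit 76) (nat_lit 140423257257) (nat_lit 76) (nat_lit 131287022382) (nat_lit 2) (nat_lit 4) (nat_lit 3) (nat_lit 5) (nat_lit 3) (nat_lit 4) (nat_lit 382) (nat_lit 291) (nat_lit 227)) (XT.lf (nat_lit 0) (nat_lit 267822427864)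 (nat_lit 76) (nat_lit 140348075585) (nat_lit 76) (nat_lit 131206892169) (nat_lit 2) (nat_lit 4) (nat_lit 3) (nat_lit 5) (nat_lit 3) (nat_lit 4) (nat_lit 383) (nat_lit 291) (nat_lit 226)))) (XT.nd (nat_lit 78) (nat_lit 0) (nat_lit 0) (XT.lf (nat_lit 0) (nat_lit 310578724369) (nat_lit 76) (nat_lit 140277677443) (nat_lit 76) (nat_lit 131131912044) (nat_lit 2) (nat_lit 4) (nat_lit 3) (nat_lit 5) (nat_lit 3) (nat_lit 4) (nat_lit 384) (nat_lit 291) (nat_lit 225)) (XT.nd (nat_lit 78) (nat_lit 0) (nat_lit 0) (XT.lf (nat_lit 0) (nat_lit 356735332703) (nat_lit 76) (nat_lit 140211645656) (nat_lit 76) (nat_lit 131061637681) (nat_lit 2) (nat_lit 4) (nat_lit 3) (nat_lit 5) (nat_lit 3) (nat_lit 4) (nat_lit 385) (nat_lit 291) (nat_lit 224)) (XT.lf (nat_lit 0) (nat_lit 406565773507) (nat_lit 76) (nat_lit 140149588926) (nat_lit 76) (nat_lit 130995652639) (nat_lit 2) (nat_lit 4) (nat_lit 3) (nat_lit 5) (nat_lit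 3) (nat_lit 4) (nat_lit 386) (nat_lit 291) (nat_lit 223)))))) (XT.nd (nat_lit 468) (nat_lit 0) (nat_lit 0) (XT.nd (nat_lit 234) (nat_lit 0) (nat_lit 0) (XT.nd (nat_lit 78) (nat_lit 0) (nat_lit 0) (XT.lf (nat_lit 0) (nat_lit 460365338283) (nat_lit 76) (nat_lit 140091139508) (nat_lit 76) (nat_lit 130933565896) (nat_lit 2) (nat_lit 4) (nat_lit 3) (nat_lit 5) (nat_lit 3) (nat_lit 4) (nat_lit 387) (nat_lit 291) (nat_lit 222)) (XT.nd (nat_lit 78) (nat_lit 0) (nat_lit 0) (XT.lf (nat_lit 0) (nat_lit 518452839267) (nat_lit 76) (nat_lit 140035951037) (nat_lit 76) (nat_lit 130875009530) (nat_lit 2) (nat_lit 4) (nat_lit 3) (nat_lit 5) (nat_lit 3) (nat_lit 4) (nat_lit 388) (nat_lit 291) (nat_lit 221)) (XT.lf (nat_lit 0) (nat_lit 581172498687) (nat_lit 76) (nat_lit 139983696468) (nat_lit 76) (nat_lit 130819636540) (nat_lit 2) (nat_lit 4) (nat_lit 3) (nat_lit 5) (nat_lit 3) (nat_lit 4) (nat_lit 389) (nat_lit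 291) (nat_lit 220)))) (XT.nd (nat_lit 78) (nat_lit 0) (nat_lit 0) (XT.lf (nat_lit 0) (nat_lit 648895988598) (nat_lit 76) (nat_lit 139934066145) (nat_lit 76) (nat_lit 130767118791) (nat_lit 2) (nat_lit 4) (nat_lit 3) (nat_lit 5) (nat_lit 3) (nat_lit 4) (nat_lit 390) (nat_lit 291) (nat_lit 219)) (XT.nd (nat_lit 78) (nat_lit 0) (nat_lit 0) (XT.lf (nat_lit 0) (nat_lit 722024633385) (nat_lit 76) (nat_lit 139886765963) (nat_lit 76) (nat_lit 130717145066) (nat_lit 2) (nat_lit 4) (nat_lit 3) (nat_lit 5) (nat_lit 3) (nat_lit 4) (nat_lit 391) (nat_lit 291) (nat_lit 218)) (XT.lf (nat_lit 0) (nat_lit 800991787980) (nat_lit 76) (nat_lit 139841515624) (nat_lit 76) (nat_lit 130669419225) (nat_lit 2) (nat_lit 4) (nat_lit 3) (nat_lit 5) (nat_lit 3) (nat_lit 4) (nat_lit 392) (nat_lit 291) (nat_lit 217))))) (XT.nd (nat_lit 234) (nat_lit 0) (nat_lit 0) (XT.nd (nat_lit 78) (nat_lit 0) (nat_lit 0) (XT.lf (nat_lit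 0) (nat_lit 886265405892) (nat_lit 76) (nat_lit 139798046978) (nat_lit 76) (nat_lit 130623658447) (nat_lit 2) (nat_lit 4) (nat_lit 3) (nat_lit 5) (nat_lit 3) (nat_lit 4) (nat_lit 393) (nat_lit 291) (nat_lit 216)) (XT.nd (nat_lit 78) (nat_lit 0) (nat_lit 0) (XT.lf (nat_lit 0) (nat_lit 978350812264) (nat_lit 76) (nat_lit 139756102433) (nat_lit 76) (nat_lit 130579591557) (nat_lit 2) (nat_lit 4) (nat_lit 3) (nat_lit 5) (nat_lit 3) (nat_lit 4) (nat_lit 394) (nat_lit 291) (nat_lit 215)) (XT.lf (nat_lit 0) (nat_lit 1077793698393) (nat_lit 76) (nat_lit 139715433429) (nat_lit 76) (nat_lit 130536957420) (nat_lit 2) (nat_lit 4) (nat_lit 3) (nat_lit 5) (nat_lit 3) (nat_lit 4) (nat_lit 395) (nat_lit 291) (nat_lit 214)))) (XT.nd (nat_lit 40638) (nat_lit 0) (nat_lit 5092) (XT.lf (nat_lit 0) (nat_lit 1185183355457) (nat_lit 76) (nat_lit 139675798964) (nat_lit 76) (nat_lit 130495503387) (nat_lit 2) (nat_lit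 4) (nat_lit 3) (nat_lit 5) (nat_lit 3) (nat_lit 4) (nat_lit 396) (nat_lit 291) (nat_lit 213)) (XT.nd (nat_lit 78) (nat_lit 608) (nat_lit 0) (XT.lf (nat_lit 0) (nat_lit 1838031348) (nat_lit 304) (nat_lit 521103196) (nat_lit 0) (nat_lit 1838031348) (nat_lit 77) (nat_lit 5) (nat_lit 81) (nat_lit 4) (nat_lit 77) (nat_lit 4) (nat_lit 316) (nat_lit 292) (nat_lit 292)) (XT.lf (nat_lit 0) (nat_lit 1122480732) (nat_lit 228) (nat_lit 248233251) (nat_lit 304) (nat_lit 7291412957) (nat_lit 69) (nat_lit 5) (nat_lit 72) (nat_lit 5) (nat_lit 73) (nat_lit 4) (nat_lit 317) (nat_lit 292) (nat_lit 291))))))) (XT.nd (nat_lit 936) (nat_lit 1368) (nat_lit 0) (XT.nd (nat_lit 468) (nat_lit 1064) (nat_lit 0) (XT.nd (nat_lit 234) (nat_lit 836) (nat_lit 0) (XT.nd (nat_lit 78) (nat_lit 608) (nat_lit 0) (XT.lf (nat_lit 0) (nat_lit 3330232273) (nat_lit 228) (nat_lit 4358682136) (nat_lit 228) (nat_lit 1263475343) (nat_lit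 66) (nat_lit 4) (nat_lit 69) (nat_lit 5) (nat_lit 69) (nat_lit 4) (nat_lit 318) (nat_lit 292) (nat_lit 290)) (XT.nd (nat_lit 78) (nat_lit 304) (nat_lit 0) (XT.lf (nat_lit 0) (nat_lit 4924600232) (nat_lit 304) (nat_lit 3680590251) (nat_lit 0) (nat_lit 664544213) (nat_lit 62) (nat_lit 5) (nat_lit 66) (nat_lit 4) (nat_lit 62) (nat_lit 4) (nat_lit 319) (nat_lit 292) (nat_lit 289)) (XT.lf (nat_lit 0) (nat_lit 1812447345) (nat_lit 304) (nat_lit 1759576021) (nat_lit 76) (nat_lit 6041958439) (nat_lit 58) (nat_lit 5) (nat_lit 62) (nat_lit 5) (nat_lit 59) (nat_lit 4) (nat_lit 320) (nat_lit 292) (nat_lit 288)))) (XT.nd (nat_lit 78) (nat_lit 456) (nat_lit 0) (XT.lf (nat_lit 0) (nat_lit 147582648) (nat_lit 228) (nat_lit 8062831177) (nat_lit 228) (nat_lit 1776995563) (nat_lit 53) (nat_lit 4) (nat_lit 56) (nat_lit 5) (nat_lit 56) (nat_lit 4) (nat_lit 321) (nat_lit 292) (nat_lit 287)) (XT.nd (nat_lit 78)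 (nat_lit 228) (nat_lit 0) (XT.lf (nat_lit 0) (nat_lit 2041387600) (nat_lit 152) (nat_lit 2504620675) (nat_lit 228) (nat_lit 5842795926) (nat_lit 50) (nat_lit 5) (nat_lit 52) (nat_lit 5) (nat_lit 53) (nat_lit 4) (nat_lit 322) (nat_lit 292) (nat_lit 286)) (XT.lf (nat_lit 0) (nat_lit 421894862) (nat_lit 228) (nat_lit 6941339049) (nat_lit 76) (nat_lit 3460099351) (nat_lit 47) (nat_lit 5) (nat_lit 50) (nat_lit 5) (nat_lit 48) (nat_lit 4) (nat_lit 323) (nat_lit 292) (nat_lit 285))))) (XT.nd (nat_lit 234) (nat_lit 532) (nat_lit 0) (XT.nd (nat_lit 78) (nat_lit 380) (nat_lit 0) (XT.lf (nat_lit 0) (nat_lit 5592834648) (nat_lit 152) (nat_lit 1338441338) (nat_lit 228) (nat_lit 4359294606) (nat_lit 45) (nat_lit 5) (nat_lit 47) (nat_lit 5) (nat_lit 48) (nat_lit 4) (nat_lit 324) (nat_lit 292) (nat_lit 284)) (XT.nd (nat_lit 78) (nat_lit 152) (nat_lit 0) (XT.lf (nat_lit 0) (nat_lit 2094094547) (nat_lit 228)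 (nat_lit 4627424715) (nat_lit 76) (nat_lit 5072245061) (nat_lit 42) (nat_lit 5) (nat_lit 45) (nat_lit 5) (nat_lit 43) (nat_lit 4) (nat_lit 325) (nat_lit 292) (nat_lit 283)) (XT.lf (nat_lit 0) (nat_lit 8586291664) (nat_lit 152) (nat_lit 276163408) (nat_lit 228) (nat_lit 3473733090) (nat_lit 40) (nat_lit 5) (nat_lit 42) (nat_lit 5) (nat_lit 43) (nat_lit 4) (nat_lit 326) (nat_lit 292) (nat_lit 282)))) (XT.nd (nat_lit 78) (nat_lit 304) (nat_lit 0) (XT.lf (nat_lit 0) (nat_lit 3189885541) (nat_lit 228) (nat_lit 3169467649) (nat_lit 76) (nat_lit 6558038757) (nat_lit 37) (nat_lit 5) (nat_lit 40) (nat_lit 5) (nat_lit 38) (nat_lit 4) (nat_lit 327) (nat_lit 292) (nat_lit 281)) (XT.nd (nat_lit 78) (nat_lit 228) (nat_lit 0) (XT.lf (nat_lit 0) (nat_lit 10225392303) (nat_lit 152) (nat_lit 2854287968) (nat_lit 0) (nat_lit 464636733) (nat_lit 36) (nat_lit 5) (nat_lit 38) (nat_lit 4) (nat_lit 36) (nat_lit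 4) (nat_lit 328) (nat_lit 292) (nat_lit 280)) (XT.lf (nat_lit 0) (nat_lit 3552029034) (nat_lit 228) (nat_lit 2955339734) (nat_lit 76) (nat_lit 7708051868) (nat_lit 33) (nat_lit 5) (nat_lit 36) (nat_lit 5) (nat_lit 34) (nat_lit 4) (nat_lit 329) (nat_lit 292) (nat_lit 279)))))) (XT.nd (nat_lit 468) (nat_lit 608) (nat_lit 0) (XT.nd (nat_lit 234) (nat_lit 380) (nat_lit 0) (XT.nd (nat_lit 78) (nat_lit 304) (nat_lit 0) (XT.lf (nat_lit 0) (nat_lit 10831491520) (nat_lit 152) (nat_lit 3445324089) (nat_lit 0) (nat_lit 662000443) (nat_lit 32) (nat_lit 5) (nat_lit 34) (nat_lit 4) (nat_lit 32) (nat_lit 4) (nat_lit 330) (nat_lit 292) (nat_lit 278)) (XT.nd (nat_lit 78) (nat_lit 76) (nat_lit 0) (XT.lf (nat_lit 0) (nat_lit 2959686596) (nat_lit 228) (nat_lit 4490992791) (nat_lit 76) (nat_lit 8263071767) (nat_lit 29) (nat_lit 5) (nat_lit 32) (nat_lit 5) (nat_lit 30) (nat_lit 4) (nat_lit 331) (nat_lit 292)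 (nat_lit 277)) (XT.lf (nat_lit 0) (nat_lit 10425093167) (nat_lit 152) (nat_lit 6096827327) (nat_lit 0) (nat_lit 26612059) (nat_lit 28) (nat_lit 5) (nat_lit 30) (nat_lit 4) (nat_lit 28) (nat_lit 4) (nat_lit 332) (nat_lit 292) (nat_lit 276)))) (XT.nd (nat_lit 78) (nat_lit 152) (nat_lit 0) (XT.lf (nat_lit 0) (nat_lit 1111243579) (nat_lit 228) (nat_lit 8437940454) (nat_lit 76) (nat_lit 7894818718) (nat_lit 25) (nat_lit 5) (nat_lit 28) (nat_lit 5) (nat_lit 26) (nat_lit 4) (nat_lit 333) (nat_lit 292) (nat_lit 275)) (XT.nd (nat_lit 78) (nat_lit 76) (nat_lit 0) (XT.lf (nat_lit 0) (nat_lit 6812480480) (nat_lit 76) (nat_lit 1881402347) (nat_lit 152) (nat_lit 9713075667) (nat_lit 24) (nat_lit 5) (nat_lit 25) (nat_lit 5) (nat_lit 26) (nat_lit 4) (nat_lit 334) (nat_lit 292) (nat_lit 274)) (XT.lf (nat_lit 0) (nat_lit 3742886953) (nat_lit 76) (nat_lit 13222473043) (nat_lit 76) (nat_lit 2477528435) (nat_lit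 23) (nat_lit 4) (nat_lit 24) (nat_lit 5) (nat_lit 24) (nat_lit 4) (nat_lit 335) (nat_lit 292) (nat_lit 273))))) (XT.nd (nat_lit 234) (nat_lit 380) (nat_lit 0) (XT.nd (nat_lit 78) (nat_lit 152) (nat_lit 0) (XT.lf (nat_lit 0) (nat_lit 5184405335) (nat_lit 152) (nat_lit 356959986) (nat_lit 76) (nat_lit 15015286761) (nat_lit 22) (nat_lit 5) (nat_lit 24) (nat_lit 5) (nat_lit 23) (nat_lit 4) (nat_lit 336) (nat_lit 292) (nat_lit 272)) (XT.nd (nat_lit 78) (nat_lit 76) (nat_lit 0) (XT.lf (nat_lit 0) (nat_lit 13471060284) (nat_lit 152) (nat_lit 5484054387) (nat_lit 0) (nat_lit 2797483112) (nat_lit 21) (nat_lit 5) (nat_lit 23) (nat_lit 4) (nat_lit 21) (nat_lit 4) (nat_lit 337) (nat_lit 292) (nat_lit 271)) (XT.lf (nat_lit 0) (nat_lit 11085519698) (nat_lit 76) (nat_lit 11412229799) (nat_lit 76) (nat_lit 542651650) (nat_lit 20) (nat_lit 4) (nat_lit 21) (nat_lit 5) (nat_lit 21) (nat_lit 4) (nat_lit 338)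 (nat_lit 292) (nat_lit 270)))) (XT.nd (nat_lit 156) (nat_lit 228) (nat_lit 0) (XT.nd (nat_lit 78) (nat_lit 0) (nat_lit 0) (XT.lf (nat_lit 0) (nat_lit 4408598545) (nat_lit 76) (nat_lit 3132698566) (nat_lit 152) (nat_lit 16885058818) (nat_lit 18) (nat_lit 5) (nat_lit 19) (nat_lit 5) (nat_lit 20) (nat_lit 4) (nat_lit 339) (nat_lit 292) (nat_lit 269)) (XT.lf (nat_lit 0) (nat_lit 16371896771) (nat_lit 152) (nat_lit 3857888638) (nat_lit 0) (nat_lit 5687039838) (nat_lit 18) (nat_lit 5) (nat_lit 20) (nat_lit 4) (nat_lit 18) (nat_lit 4) (nat_lit 340) (nat_lit 292) (nat_lit 268))) (XT.nd (nat_lit 78) (nat_lit 152) (nat_lit 0) (XT.lf (nat_lit 0) (nat_lit 13654997361) (nat_lit 76) (nat_lit 12349902361) (nat_lit 76) (nat_lit 1516862672) (nat_lit 17) (nat_lit 4) (nat_lit 18) (nat_lit 5) (nat_lit 18) (nat_lit 4) (nat_lit 341) (nat_lit 292) (nat_lit 267)) (XT.lf (nat_lit 0) (nat_lit 3126841187) (nat_lit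 76) (nat_lit 3749786682) (nat_lit 152) (nat_lit 22375300384) (nat_lit 15) (nat_lit 5) (nat_lit 16) (nat_lit 5) (nat_lit 17) (nat_lit 4) (nat_lit 342) (nat_lit 292) (nat_lit 266))))))))
noncomputable def xc33 : XT := (XT.nd (nat_lit 1950) (nat_lit 76) (nat_lit 0) (XT.nd (nat_lit 936) (nat_lit 380) (nat_lit 0) (XT.nd (nat_lit 468) (nat_lit 228) (nat_lit 0) (XT.nd (nat_lit 234) (nat_lit 152) (nat_lit 0) (XT.nd (nat_lit 78) (nat_lit 152) (nat_lit 0) (XT.lf (nat_lit 0) (nat_lit 16061415314) (nat_lit 152) (nat_lit 9556654721) (nat_lit 0) (nat_lit 5492568862) (nat_lit 15) (nat_lit 5) (nat_lit 17) (nat_lit 4) (nat_lit 15) (nat_lit 4) (nat_lit 343) (nat_lit 292) (nat_lit 265)) (XT.nd (nat_lit 78) (nat_lit 76) (nat_lit 0) (XT.lf (nat_lit 0) (nat_lit 8253624295) (nat_lit 76) (nat_lit 17771555386) (nat_lit 76) (nat_lit 7090678220) (nat_lit 14) (nat_lit 4) (nat_lit 15) (nat_lit 5) (nat_lit 15) (nat_lit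 4) (nat_lit 344) (nat_lit 292) (nat_lit 264)) (XT.lf (nat_lit 0) (nat_lit 1482070882) (nat_lit 152) (nat_lit 7746363998) (nat_lit 76) (nat_lit 26050619976) (nat_lit 13) (nat_lit 5) (nat_lit 15) (nat_lit 5) (nat_lit 14) (nat_lit 4) (nat_lit 345) (nat_lit 292) (nat_lit 263)))) (XT.nd (nat_lit 78) (nat_lit 76) (nat_lit 0) (XT.lf (nat_lit 0) (nat_lit 10532528308) (nat_lit 152) (nat_lit 26904971711) (nat_lit 0) (nat_lit 169997271) (nat_lit 12) (nat_lit 5) (nat_lit 14) (nat_lit 4) (nat_lit 12) (nat_lit 4) (nat_lit 346) (nat_lit 292) (nat_lit 262)) (XT.nd (nat_lit 78) (nat_lit 76) (nat_lit 0) (XT.lf (nat_lit 0) (nat_lit 20471051261) (nat_lit 152) (nat_lit 9619156880) (nat_lit 0) (nat_lit 10023821565) (nat_lit 12) (nat_lit 5) (nat_lit 14) (nat_lit 4) (nat_lit 12) (nat_lit 4) (nat_lit 347) (nat_lit 292) (nat_lit 261)) (XT.lf (nat_lit 0) (nat_lit 9109783152) (nat_lit 76) (nat_lit 22117909479) (nat_lit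 76) (nat_lit 11592255098) (nat_lit 11) (nat_lit 4) (nat_lit 12) (nat_lit 5) (nat_lit 12) (nat_lit 4) (nat_lit 348) (nat_lit 292) (nat_lit 260))))) (XT.nd (nat_lit 234) (nat_lit 76) (nat_lit 0) (XT.nd (nat_lit 78) (nat_lit 152) (nat_lit 0) (XT.lf (nat_lit 0) (nat_lit 29459277889) (nat_lit 76) (nat_lit 13439328904) (nat_lit 76) (nat_lit 2841059074) (nat_lit 11) (nat_lit 4) (nat_lit 12) (nat_lit 5) (nat_lit 12) (nat_lit 4) (nat_lit 349) (nat_lit 292) (nat_lit 259)) (XT.nd (nat_lit 78) (nat_lit 0) (nat_lit 0) (XT.lf (nat_lit 0) (nat_lit 2305948990) (nat_lit 76) (nat_lit 4021590203) (nat_lit 152) (nat_lit 42563830406) (nat_lit 9) (nat_lit 5) (nat_lit 10) (nat_lit 5) (nat_lit 11) (nat_lit 4) (nat_lit 350) (nat_lit 292) (nat_lit 258)) (XT.lf (nat_lit 0) (nat_lit 16411854357) (nat_lit 152) (nat_lit 29672011678) (nat_lit 0) (nat_lit 6194937785) (nat_lit 9) (nat_lit 5) (nat_lit 11) (nat_lit 4) (nat_lit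 9) (nat_lit 4) (nat_lit 351) (nat_lit 292) (nat_lit 257)))) (XT.nd (nat_lit 78) (nat_lit 76) (nat_lit 0) (XT.lf (nat_lit 0) (nat_lit 27274596719) (nat_lit 152) (nat_lit 11661281714) (nat_lit 0) (nat_lit 17002780638) (nat_lit 9) (nat_lit 5) (nat_lit 11) (nat_lit 4) (nat_lit 9) (nat_lit 4) (nat_lit 352) (nat_lit 292) (nat_lit 256)) (XT.nd (nat_lit 78) (nat_lit 0) (nat_lit 0) (XT.lf (nat_lit 0) (nat_lit 7868116698) (nat_lit 76) (nat_lit 31172076446) (nat_lit 76) (nat_lit 20849427486) (nat_lit 8) (nat_lit 4) (nat_lit 9) (nat_lit 5) (nat_lit 9) (nat_lit 4) (nat_lit 353) (nat_lit 292) (nat_lit 255)) (XT.lf (nat_lit 0) (nat_lit 29209831419) (nat_lit 76) (nat_lit 22655323580) (nat_lit 76) (nat_lit 12285607139) (nat_lit 8) (nat_lit 4) (nat_lit 9) (nat_lit 5) (nat_lit 9) (nat_lit 4) (nat_lit 354) (nat_lit 292) (nat_lit 254)))))) (XT.nd (nat_lit 468) (nat_lit 152) (nat_lit 0) (XT.nd (nat_lit 234) (nat_lit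 76) (nat_lit 0) (XT.nd (nat_lit 78) (nat_lit 152) (nat_lit 0) (XT.lf (nat_lit 0) (nat_lit 52104757230) (nat_lit 76) (nat_lit 13532639636) (nat_lit 76) (nat_lit 3119342196) (nat_lit 8) (nat_lit 4) (nat_lit 9) (nat_lit 5) (nat_lit 9) (nat_lit 4) (nat_lit 355) (nat_lit 292) (nat_lit 253)) (XT.nd (nat_lit 78) (nat_lit 0) (nat_lit 0) (XT.lf (nat_lit 0) (nat_lit 2943261095) (nat_lit 76) (nat_lit 3591817594) (nat_lit 152) (nat_lit 67192236598) (nat_lit 6) (nat_lit 5) (nat_lit 7) (nat_lit 5) (nat_lit 8) (nat_lit 4) (nat_lit 356) (nat_lit 292) (nat_lit 252)) (XT.lf (nat_lit 0) (nat_lit 17188560498) (nat_lit 152) (nat_lit 54690508633) (nat_lit 0) (nat_lit 7197118686) (nat_lit 6) (nat_lit 5) (nat_lit 8) (nat_lit 4) (nat_lit 6) (nat_lit 4) (nat_lit 357) (nat_lit 292) (nat_lit 251)))) (XT.nd (nat_lit 78) (nat_lit 76) (nat_lit 0) (XT.lf (nat_lit 0) (nat_lit 28688374997) (nat_lit 152) (nat_lit 37500914071)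 (nat_lit 0) (nat_lit 18663984611) (nat_lit 6) (nat_lit 5) (nat_lit 8) (nat_lit 4) (nat_lit 6) (nat_lit 4) (nat_lit 358) (nat_lit 292) (nat_lit 250)) (XT.nd (nat_lit 78) (nat_lit 76) (nat_lit 0) (XT.lf (nat_lit 0) (nat_lit 41046590898) (nat_lit 152) (nat_lit 19057327904) (nat_lit 0) (nat_lit 30991692572) (nat_lit 6) (nat_lit 5) (nat_lit 8) (nat_lit 4) (nat_lit 6) (nat_lit 4) (nat_lit 359) (nat_lit 292) (nat_lit 249)) (XT.lf (nat_lit 0) (nat_lit 774328542) (nat_lit 76) (nat_lit 53574202967) (nat_lit 76) (nat_lit 43491056550) (nat_lit 5) (nat_lit 4) (nat_lit 6) (nat_lit 5) (nat_lit 6) (nat_lit 4) (nat_lit 360) (nat_lit 292) (nat_lit 248))))) (XT.nd (nat_lit 234) (nat_lit 152) (nat_lit 0) (XT.nd (nat_lit 78) (nat_lit 0) (nat_lit 0) (XT.lf (nat_lit 0) (nat_lit 22765724648) (nat_lit 76) (nat_lit 46226395305) (nat_lit 76) (nat_lit 36117093247) (nat_lit 5) (nat_lit 4) (nat_lit 6) (nat_lit 5) (nat_lit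 6) (nat_lit 4) (nat_lit 361) (nat_lit 292) (nat_lit 247)) (XT.nd (nat_lit 78) (nat_lit 0) (nat_lit 0) (XT.lf (nat_lit 0) (nat_lit 46417058472) (nat_lit 76) (nat_lit 38339698321) (nat_lit 76) (nat_lit 28206178077) (nat_lit 5) (nat_lit 4) (nat_lit 6) (nat_lit 5) (nat_lit 6) (nat_lit 4) (nat_lit 362) (nat_lit 292) (nat_lit 246)) (XT.lf (nat_lit 0) (nat_lit 71868486065) (nat_lit 76) (nat_lit 29867376034) (nat_lit 76) (nat_lit 19711431544) (nat_lit 5) (nat_lit 4) (nat_lit 6) (nat_lit 5) (nat_lit 6) (nat_lit 4) (nat_lit 363) (nat_lit 292) (nat_lit 245)))) (XT.nd (nat_lit 156) (nat_lit 152) (nat_lit 0) (XT.nd (nat_lit 78) (nat_lit 0) (nat_lit 0) (XT.lf (nat_lit 0) (nat_lit 99270830702) (nat_lit 76) (nat_lit 20759222089) (nat_lit 76) (nat_lit 10582514409) (nat_lit 5) (nat_lit 4) (nat_lit 6) (nat_lit 5) (nat_lit 6) (nat_lit 4) (nat_lit 364) (nat_lit 292) (nat_lit 244)) (XT.lf (nat_lit 0) (nat_lit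 128786476648) (nat_lit 76) (nat_lit 10961262241) (nat_lit 76) (nat_lit 765329384) (nat_lit 5) (nat_lit 4) (nat_lit 6) (nat_lit 5) (nat_lit 6) (nat_lit 4) (nat_lit 365) (nat_lit 292) (nat_lit 243))) (XT.nd (nat_lit 78) (nat_lit 0) (nat_lit 0) (XT.lf (nat_lit 0) (nat_lit 9535067737) (nat_lit 76) (nat_lit 98494060) (nat_lit 152) (nat_lit 141558812299) (nat_lit 3) (nat_lit 5) (nat_lit 4) (nat_lit 5) (nat_lit 5) (nat_lit 4) (nat_lit 366) (nat_lit 292) (nat_lit 242)) (XT.lf (nat_lit 0) (nat_lit 21190605638) (nat_lit 152) (nat_lit 130069599295) (nat_lit 0) (nat_lit 11447542364) (nat_lit 3) (nat_lit 5) (nat_lit 5) (nat_lit 4) (nat_lit 3) (nat_lit 4) (nat_lit 367) (nat_lit 292) (nat_lit 241))))))) (XT.nd (nat_lit 936) (nat_lit 0) (nat_lit 0) (XT.nd (nat_lit 468) (nat_lit 76) (nat_lit 0) (XT.nd (nat_lit 234) (nat_lit 0) (nat_lit 0) (XT.nd (nat_lit 78) (nat_lit 0) (nat_lit 0) (XT.lf (nat_lit 0) (nat_lit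 33640030834) (nat_lit 152) (nat_lit 117623498645) (nat_lit 0) (nat_lit 23882432736) (nat_lit 3) (nat_lit 5) (nat_lit 5) (nat_lit 4) (nat_lit 3) (nat_lit 4) (nat_lit 368) (nat_lit 292) (nat_lit 240)) (XT.nd (nat_lit 78) (nat_lit 0) (nat_lit 0) (XT.lf (nat_lit 0) (nat_lit 47054073986) (nat_lit 152) (nat_lit 104243711971) (nat_lit 0) (nat_lit 37283017718) (nat_lit 3) (nat_lit 5) (nat_lit 5) (nat_lit 4) (nat_lit 3) (nat_lit 4) (nat_lit 369) (nat_lit 292) (nat_lit 239)) (XT.lf (nat_lit 0) (nat_lit 61512225722) (nat_lit 152) (nat_lit 89850951648) (nat_lit 0) (nat_lit 51728708185) (nat_lit 3) (nat_lit 5) (nat_lit 5) (nat_lit 4) (nat_lit 3) (nat_lit 4) (nat_lit 370) (nat_lit 292) (nat_lit 238)))) (XT.nd (nat_lit 78) (nat_lit 0) (nat_lit 0) (XT.lf (nat_lit 0) (nat_lit 77100163977) (nat_lit 152) (nat_lit 74359927244) (nat_lit 0) (nat_lit 67305108228) (nat_lit 3) (nat_lit 5) (nat_lit 5) (nat_lit 4)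 (nat_lit 3) (nat_lit 4) (nat_lit 371) (nat_lit 292) (nat_lit 237)) (XT.nd (nat_lit 78) (nat_lit 0) (nat_lit 0) (XT.lf (nat_lit 0) (nat_lit 93910261719) (nat_lit 152) (nat_lit 57678840097) (nat_lit 0) (nat_lit 84104522441) (nat_lit 3) (nat_lit 5) (nat_lit 5) (nat_lit 4) (nat_lit 3) (nat_lit 4) (nat_lit 372) (nat_lit 292) (nat_lit 236)) (XT.lf (nat_lit 0) (nat_lit 112042134343) (nat_lit 152) (nat_lit 39708839319) (nat_lit 0) (nat_lit 102226502907) (nat_lit 3) (nat_lit 5) (nat_lit 5) (nat_lit 4) (nat_lit 3) (nat_lit 4) (nat_lit 373) (nat_lit 292) (nat_lit 235))))) (XT.nd (nat_lit 234) (nat_lit 0) (nat_lit 0) (XT.nd (nat_lit 78) (nat_lit 76) (nat_lit 0) (XT.lf (nat_lit 0) (nat_lit 131603229981) (nat_lit 152) (nat_lit 20343436017) (nat_lit 0) (nat_lit 121778439141) (nat_lit 3) (nat_lit 5) (nat_lit 5) (nat_lit 4) (nat_lit 3) (nat_lit 4) (nat_lit 374) (nat_lit 292) (nat_lit 234)) (XT.nd (nat_lit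 78) (nat_lit 0) (nat_lit 0) (XT.lf (nat_lit 0) (nat_lit 549722300) (nat_lit 76) (nat_lit 152168326643) (nat_lit 76) (nat_lit 142335054873) (nat_lit 2) (nat_lit 4) (nat_lit 3) (nat_lit 5) (nat_lit 3) (nat_lit 4) (nat_lit 375) (nat_lit 292) (nat_lit 233)) (XT.lf (nat_lit 0) (nat_lit 23803417039) (nat_lit 76) (nat_lit 152054138116) (nat_lit 76) (nat_lit 142213013633) (nat_lit 2) (nat_lit 4) (nat_lit 3) (nat_lit 5) (nat_lit 3) (nat_lit 4) (nat_lit 376) (nat_lit 292) (nat_lit 232)))) (XT.nd (nat_lit 78) (nat_lit 0) (nat_lit 0) (XT.lf (nat_lit 0) (nat_lit 48882802003) (nat_lit 76) (nat_lit 151947949676) (nat_lit 76) (nat_lit 142099554163) (nat_lit 2) (nat_lit 4) (nat_lit 3) (nat_lit 5) (nat_lit 3) (nat_lit 4) (nat_lit 377) (nat_lit 292) (nat_lit 231)) (XT.nd (nat_lit 78) (nat_lit 0) (nat_lit 0) (XT.lf (nat_lit 0) (nat_lit 75936495770) (nat_lit 76) (nat_lit 151849132060) (nat_lit 76) (nat_lit 141994004110)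 (nat_lit 2) (nat_lit 4) (nat_lit 3) (nat_lit 5) (nat_lit 3) (nat_lit 4) (nat_lit 378) (nat_lit 292) (nat_lit 230)) (XT.lf (nat_lit 0) (nat_lit 105124816525) (nat_lit 76) (nat_lit 151757099680) (nat_lit 76) (nat_lit 141895737994) (nat_lit 2) (nat_lit 4) (nat_lit 3) (nat_lit 5) (nat_lit 3) (nat_lit 4) (nat_lit 379) (nat_lit 292) (nat_lit 229)))))) (XT.nd (nat_lit 468) (nat_lit 0) (nat_lit 0) (XT.nd (nat_lit 234) (nat_lit 0) (nat_lit 0) (XT.nd (nat_lit 78) (nat_lit 0) (nat_lit 0) (XT.lf (nat_lit 0) (nat_lit 136620732096) (nat_lit 76) (nat_lit 151671307160) (nat_lit 76) (nat_lit 141804173495) (nat_lit 2) (nat_lit 4) (nat_lit 3) (nat_lit 5) (nat_lit 3) (nat_lit 4) (nat_lit 380) (nat_lit 292) (nat_lit 228)) (XT.nd (nat_lit 78) (nat_lit 0) (nat_lit 0) (XT.lf (nat_lit 0) (nat_lit 170610884943) (nat_lit 76) (nat_lit 151591246100) (nat_lit 76) (nat_lit 141718768011) (nat_lit 2) (nat_lit 4) (nat_lit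 3) (nat_lit 5) (nat_lit 3) (nat_lit 4) (nat_lit 381) (nat_lit 292) (nat_lit 227)) (XT.lf (nat_lit 0) (nat_lit 207296698197) (nat_lit 76) (nat_lit 151516442064) (nat_lit 76) (nat_lit 141639015434) (nat_lit 2) (nat_lit 4) (nat_lit 3) (nat_lit 5) (nat_lit 3) (nat_lit 4) (nat_lit 382) (nat_lit 292) (nat_lit 226)))) (XT.nd (nat_lit 78) (nat_lit 0) (nat_lit 0) (XT.lf (nat_lit 0) (nat_lit 246895569267) (nat_lit 76) (nat_lit 151446451769) (nat_lit 76) (nat_lit 141564443156) (nat_lit 2) (nat_lit 4) (nat_lit 3) (nat_lit 5) (nat_lit 3) (nat_lit 4) (nat_lit 383) (nat_lit 292) (nat_lit 225)) (XT.nd (nat_lit 78) (nat_lit 0) (nat_lit 0) (XT.lf (nat_lit 0) (nat_lit 289642158132) (nat_lit 76) (nat_lit 151380860457) (nat_lit 76) (nat_lit 141494609267) (nat_lit 2) (nat_lit 4) (nat_lit 3) (nat_lit 5) (nat_lit 3) (nat_lit 4) (nat_lit 384) (nat_lit 292) (nat_lit 224)) (XT.lf (nat_lit 0) (nat_lit 335789777910)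 (nat_lit 76) (nat_lit 151319279440) (nat_lit 76) (nat_lit 141429099938) (nat_lit 2) (nat_lit 4) (nat_lit 3) (nat_lit 5) (nat_lit 3) (nat_lit 4) (nat_lit 385) (nat_lit 292) (nat_lit 223))))) (XT.nd (nat_lit 234) (nat_lit 0) (nat_lit 0) (XT.nd (nat_lit 78) (nat_lit 0) (nat_lit 0) (XT.lf (nat_lit 0) (nat_lit 385611895977) (nat_lit 76) (nat_lit 151261343792) (nat_lit 76) (nat_lit 141367526965) (nat_lit 2) (nat_lit 4) (nat_lit 3) (nat_lit 5) (nat_lit 3) (nat_lit 4) (nat_lit 386) (nat_lit 292) (nat_lit 222)) (XT.nd (nat_lit 78) (nat_lit 0) (nat_lit 0) (XT.lf (nat_lit 0) (nat_lit 439403754516) (nat_lit 76) (nat_lit 151206710191) (nat_lit 76) (nat_lit 141309525470) (nat_lit 2) (nat_lit 4) (nat_lit 3) (nat_lit 5) (nat_lit 3) (nat_lit 4) (nat_lit 387) (nat_lit 292) (nat_lit 221)) (XT.lf (nat_lit 0) (nat_lit 497484120094) (nat_lit 76) (nat_lit 151155054883) (nat_lit 76) (nat_lit 141254751741) (nat_lit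 2) (nat_lit 4) (nat_lit 3) (nat_lit 5) (nat_lit 3) (nat_lit 4) (nat_lit 388) (nat_lit 292) (nat_lit 220)))) (XT.nd (nat_lit 156) (nat_lit 0) (nat_lit 0) (XT.nd (nat_lit 78) (nat_lit 0) (nat_lit 0) (XT.lf (nat_lit 0) (nat_lit 560197172657) (nat_lit 76) (nat_lit 151106071762) (nat_lit 76) (nat_lit 141202881194) (nat_lit 2) (nat_lit 4) (nat_lit 3) (nat_lit 5) (nat_lit 3) (nat_lit 4) (nat_lit 389) (nat_lit 292) (nat_lit 219)) (XT.lf (nat_lit 0) (nat_lit 627914545108) (nat_lit 76) (nat_lit 151059470558) (nat_lit 76) (nat_lit 141153606447) (nat_lit 2) (nat_lit 4) (nat_lit 3) (nat_lit 5) (nat_lit 3) (nat_lit 4) (nat_lit 390) (nat_lit 292) (nat_lit 218))) (XT.nd (nat_lit 78) (nat_lit 0) (nat_lit 0) (XT.lf (nat_lit 0) (nat_lit 701037525580) (nat_lit 76) (nat_lit 151014975115) (nat_lit 76) (nat_lit 141106635501) (nat_lit 2) (nat_lit 4) (nat_lit 3) (nat_lit 5) (nat_lit 3) (nat_lit 4) (nat_lit 391)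 (nat_lit 292) (nat_lit 217)) (XT.lf (nat_lit 0) (nat_lit 779999435440) (nat_lit 76) (nat_lit 150972321757) (nat_lit 76) (nat_lit 141061690011) (nat_lit 2) (nat_lit 4) (nat_lit 3) (nat_lit 5) (nat_lit 3) (nat_lit 4) (nat_lit 392) (nat_lit 292) (nat_lit 216))))))))
noncomputable def xc34 : XT := (XT.nd (nat_lit 42354) (nat_lit 0) (nat_lit 304) (XT.nd (nat_lit 41418) (nat_lit 0) (nat_lit 1748) (XT.nd (nat_lit 40950) (nat_lit 0) (nat_lit 3800) (XT.nd (nat_lit 40716) (nat_lit 0) (nat_lit 5700) (XT.nd (nat_lit 78) (nat_lit 0) (nat_lit 0) (XT.lf (nat_lit 0) (nat_lit 865268197115) (nat_lit 76) (nat_lit 150931257723) (nat_lit 76) (nat_lit 141018503633) (nat_lit 2) (nat_lit 4) (nat_lit 3) (nat_lit 5) (nat_lit 3) (nat_lit 4) (nat_lit 393) (nat_lit 292) (nat_lit 215)) (XT.nd (nat_lit 78) (nat_lit 0) (nat_lit 0) (XT.lf (nat_lit 0) (nat_lit 957349106971) (nat_lit 76) (nat_lit 150891539670) (nat_lit 76)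 (nat_lit 140976820446) (nat_lit 2) (nat_lit 4) (nat_lit 3) (nat_lit 5) (nat_lit 3) (nat_lit 4) (nat_lit 394) (nat_lit 292) (nat_lit 214)) (XT.lf (nat_lit 0) (nat_lit 1056787829660) (nat_lit 76) (nat_lit 150852932234) (nat_lit 76) (nat_lit 140936393441) (nat_lit 2) (nat_lit 4) (nat_lit 3) (nat_lit 5) (nat_lit 3) (nat_lit 4) (nat_lit 395) (nat_lit 292) (nat_lit 213)))) (XT.nd (nat_lit 78) (nat_lit 608) (nat_lit 0) (XT.lf (nat_lit 0) (nat_lit 783120542) (nat_lit 380) (nat_lit 2394856518) (nat_lit 0) (nat_lit 783120542) (nat_lit 85) (nat_lit 5) (nat_lit 90) (nat_lit 4) (nat_lit 85) (nat_lit 4) (nat_lit 314) (nat_lit 293) (nat_lit 293)) (XT.nd (nat_lit 78) (nat_lit 304) (nat_lit 0) (XT.lf (nat_lit 0) (nat_lit 5076602004) (nat_lit 304) (nat_lit 2494394140) (nat_lit 304) (nat_lit 580788492) (nat_lit 81) (nat_lit 4) (nat_lit 85) (nat_lit 5) (nat_lit 85) (nat_lit 4) (nat_lit 315) (nat_lit 293) (nat_lit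 292)) (XT.lf (nat_lit 0) (nat_lit 5302043403) (nat_lit 304) (nat_lit 1310188092) (nat_lit 0) (nat_lit 1792078900) (nat_lit 77) (nat_lit 5) (nat_lit 81) (nat_lit 4) (nat_lit 77) (nat_lit 4) (nat_lit 316) (nat_lit 293) (nat_lit 291))))) (XT.nd (nat_lit 234) (nat_lit 760) (nat_lit 0) (XT.nd (nat_lit 78) (nat_lit 532) (nat_lit 0) (XT.lf (nat_lit 0) (nat_lit 528550107) (nat_lit 228) (nat_lit 2203644433) (nat_lit 304) (nat_lit 5948924882) (nat_lit 69) (nat_lit 5) (nat_lit 72) (nat_lit 5) (nat_lit 73) (nat_lit 4) (nat_lit 317) (nat_lit 293) (nat_lit 290)) (XT.nd (nat_lit 78) (nat_lit 304) (nat_lit 0) (XT.lf (nat_lit 0) (nat_lit 2460753425) (nat_lit 228) (nat_lit 6365361867) (nat_lit 228) (nat_lit 156606315) (nat_lit 66) (nat_lit 4) (nat_lit 69) (nat_lit 5) (nat_lit 69) (nat_lit 4) (nat_lit 318) (nat_lit 293) (nat_lit 289)) (XT.lf (nat_lit 0) (nat_lit 4390750059) (nat_lit 228) (nat_lit 1402076538)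 (nat_lit 304) (nat_lit 3516647257) (nat_lit 62) (nat_lit 5) (nat_lit 65) (nat_lit 5) (nat_lit 66) (nat_lit 4) (nat_lit 319) (nat_lit 293) (nat_lit 288)))) (XT.nd (nat_lit 78) (nat_lit 456) (nat_lit 0) (XT.lf (nat_lit 0) (nat_lit 2399552376) (nat_lit 304) (nat_lit 3334089530) (nat_lit 76) (nat_lit 3930273083) (nat_lit 58) (nat_lit 5) (nat_lit 62) (nat_lit 5) (nat_lit 59) (nat_lit 4) (nat_lit 320) (nat_lit 293) (nat_lit 287)) (XT.nd (nat_lit 78) (nat_lit 304) (nat_lit 0) (XT.lf (nat_lit 0) (nat_lit 8283850087) (nat_lit 152) (nat_lit 291135487) (nat_lit 228) (nat_lit 1473573944) (nat_lit 56) (nat_lit 5) (nat_lit 58) (nat_lit 5) (nat_lit 59) (nat_lit 4) (nat_lit 321) (nat_lit 293) (nat_lit 286)) (XT.lf (nat_lit 0) (nat_lit 4614869413) (nat_lit 304) (nat_lit 310380497) (nat_lit 76) (nat_lit 5535789631) (nat_lit 52) (nat_lit 5) (nat_lit 56) (nat_lit 5) (nat_lit 53) (nat_lit 4) (nat_lit 322) (nat_lit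 293) (nat_lit 285)))))) (XT.nd (nat_lit 468) (nat_lit 836) (nat_lit 0) (XT.nd (nat_lit 234) (nat_lit 456) (nat_lit 0) (XT.nd (nat_lit 78) (nat_lit 380) (nat_lit 0) (XT.lf (nat_lit 0) (nat_lit 176206857) (nat_lit 228) (nat_lit 9754417163) (nat_lit 76) (nat_lit 977138512) (nat_lit 47) (nat_lit 5) (nat_lit 50) (nat_lit 5) (nat_lit 48) (nat_lit 4) (nat_lit 323) (nat_lit 293) (nat_lit 284)) (XT.nd (nat_lit 78) (nat_lit 228) (nat_lit 0) (XT.lf (nat_lit 0) (nat_lit 2435871351) (nat_lit 152) (nat_lit 4052697386) (nat_lit 228) (nat_lit 4896347094) (nat_lit 45) (nat_lit 5) (nat_lit 47) (nat_lit 5) (nat_lit 48) (nat_lit 4) (nat_lit 324) (nat_lit 293) (nat_lit 283)) (XT.lf (nat_lit 0) (nat_lit 1330421248) (nat_lit 228) (nat_lit 8282339673) (nat_lit 76) (nat_lit 2288015703) (nat_lit 42) (nat_lit 5) (nat_lit 45) (nat_lit 5) (nat_lit 43) (nat_lit 4) (nat_lit 325) (nat_lit 293) (nat_lit 282)))) (XT.nd (nat_lit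 78) (nat_lit 304) (nat_lit 0) (XT.lf (nat_lit 0) (nat_lit 4570668412) (nat_lit 152) (nat_lit 3328258450) (nat_lit 228) (nat_lit 4554319426) (nat_lit 40) (nat_lit 5) (nat_lit 42) (nat_lit 5) (nat_lit 43) (nat_lit 4) (nat_lit 326) (nat_lit 293) (nat_lit 281)) (XT.nd (nat_lit 78) (nat_lit 76) (nat_lit 0) (XT.lf (nat_lit 0) (nat_lit 1890651270) (nat_lit 228) (nat_lit 7732922050) (nat_lit 76) (nat_lit 3424428781) (nat_lit 37) (nat_lit 5) (nat_lit 40) (nat_lit 5) (nat_lit 38) (nat_lit 4) (nat_lit 327) (nat_lit 293) (nat_lit 280)) (XT.lf (nat_lit 0) (nat_lit 5754604595) (nat_lit 76) (nat_lit 2959257657) (nat_lit 152) (nat_lit 4971723033) (nat_lit 36) (nat_lit 5) (nat_lit 37) (nat_lit 5) (nat_lit 38) (nat_lit 4) (nat_lit 328) (nat_lit 293) (nat_lit 279))))) (XT.nd (nat_lit 234) (nat_lit 304) (nat_lit 0) (XT.nd (nat_lit 78) (nat_lit 304) (nat_lit 0) (XT.lf (nat_lit 0) (nat_lit 1694205647) (nat_lit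 228) (nat_lit 8500047678) (nat_lit 76) (nat_lit 4176660298) (nat_lit 33) (nat_lit 5) (nat_lit 36) (nat_lit 5) (nat_lit 34) (nat_lit 4) (nat_lit 329) (nat_lit 293) (nat_lit 278)) (XT.nd (nat_lit 78) (nat_lit 228) (nat_lit 0) (XT.lf (nat_lit 0) (nat_lit 5558433195) (nat_lit 76) (nat_lit 3192739804) (nat_lit 152) (nat_lit 6354296185) (nat_lit 32) (nat_lit 5) (nat_lit 33) (nat_lit 5) (nat_lit 34) (nat_lit 4) (nat_lit 330) (nat_lit 293) (nat_lit 277)) (XT.lf (nat_lit 0) (nat_lit 514754243) (nat_lit 228) (nat_lit 11096686225) (nat_lit 76) (nat_lit 4284242990) (nat_lit 29) (nat_lit 5) (nat_lit 32) (nat_lit 5) (nat_lit 30) (nat_lit 4) (nat_lit 331) (nat_lit 293) (nat_lit 276)))) (XT.nd (nat_lit 78) (nat_lit 228) (nat_lit 0) (XT.lf (nat_lit 0) (nat_lit 3420287660) (nat_lit 76) (nat_lit 4338543659) (nat_lit 152) (nat_lit 8982728908) (nat_lit 28) (nat_lit 5) (nat_lit 29) (nat_lit 5) (nat_lit 30) (nat_lit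 4) (nat_lit 332) (nat_lit 293) (nat_lit 275)) (XT.nd (nat_lit 78) (nat_lit 76) (nat_lit 0) (XT.lf (nat_lit 0) (nat_lit 1428706427) (nat_lit 152) (nat_lit 14204346317) (nat_lit 152) (nat_lit 2019579131) (nat_lit 26) (nat_lit 4) (nat_lit 28) (nat_lit 5) (nat_lit 28) (nat_lit 4) (nat_lit 333) (nat_lit 293) (nat_lit 274)) (XT.lf (nat_lit 0) (nat_lit 5417412522) (nat_lit 228) (nat_lit 1351284035) (nat_lit 76) (nat_lit 11859005555) (nat_lit 25) (nat_lit 5) (nat_lit 28) (nat_lit 5) (nat_lit 26) (nat_lit 4) (nat_lit 334) (nat_lit 293) (nat_lit 273))))))) (XT.nd (nat_lit 936) (nat_lit 532) (nat_lit 0) (XT.nd (nat_lit 468) (nat_lit 380) (nat_lit 0) (XT.nd (nat_lit 234) (nat_lit 228) (nat_lit 0) (XT.nd (nat_lit 78) (nat_lit 228) (nat_lit 0) (XT.lf (nat_lit 0) (nat_lit 13431603525) (nat_lit 152) (nat_lit 4917147666) (nat_lit 0) (nat_lit 1327767011) (nat_lit 24) (nat_lit 5) (nat_lit 26) (nat_lit 4) (nat_lit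 24) (nat_lit 4) (nat_lit 335) (nat_lit 293) (nat_lit 272)) (XT.nd (nat_lit 78) (nat_lit 76) (nat_lit 0) (XT.lf (nat_lit 0) (nat_lit 1359657615) (nat_lit 152) (nat_lit 9538803509) (nat_lit 76) (nat_lit 9903678035) (nat_lit 22) (nat_lit 5) (nat_lit 24) (nat_lit 5) (nat_lit 23) (nat_lit 4) (nat_lit 336) (nat_lit 293) (nat_lit 271)) (XT.lf (nat_lit 0) (nat_lit 6656631849) (nat_lit 76) (nat_lit 2703628879) (nat_lit 152) (nat_lit 12652144559) (nat_lit 21) (nat_lit 5) (nat_lit 22) (nat_lit 5) (nat_lit 23) (nat_lit 4) (nat_lit 337) (nat_lit 293) (nat_lit 270)))) (XT.nd (nat_lit 78) (nat_lit 152) (nat_lit 0) (XT.lf (nat_lit 0) (nat_lit 761460503) (nat_lit 76) (nat_lit 17334959462) (nat_lit 76) (nat_lit 5218331700) (nat_lit 20) (nat_lit 4) (nat_lit 21) (nat_lit 5) (nat_lit 21) (nat_lit 4) (nat_lit 338) (nat_lit 293) (nat_lit 269)) (XT.nd (nat_lit 78) (nat_lit 76) (nat_lit 0) (XT.lf (nat_lit 0) (nat_lit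 2861931829) (nat_lit 152) (nat_lit 6417706757) (nat_lit 76) (nat_lit 15432399259) (nat_lit 19) (nat_lit 5) (nat_lit 21) (nat_lit 5) (nat_lit 20) (nat_lit 4) (nat_lit 339) (nat_lit 293) (nat_lit 268)) (XT.lf (nat_lit 0) (nat_lit 10963896760) (nat_lit 76) (nat_lit 452764538) (nat_lit 152) (nat_lit 14799652860) (nat_lit 18) (nat_lit 5) (nat_lit 19) (nat_lit 5) (nat_lit 20) (nat_lit 4) (nat_lit 340) (nat_lit 293) (nat_lit 267))))) (XT.nd (nat_lit 234) (nat_lit 152) (nat_lit 0) (XT.nd (nat_lit 78) (nat_lit 152) (nat_lit 0) (XT.lf (nat_lit 0) (nat_lit 1742019552) (nat_lit 76) (nat_lit 19038877244) (nat_lit 76) (nat_lit 7053805367) (nat_lit 17) (nat_lit 4) (nat_lit 18) (nat_lit 5) (nat_lit 18) (nat_lit 4) (nat_lit 341) (nat_lit 293) (nat_lit 266)) (XT.nd (nat_lit 78) (nat_lit 76) (nat_lit 0) (XT.lf (nat_lit 0) (nat_lit 1394637714) (nat_lit 152) (nat_lit 9253107391) (nat_lit 76) (nat_lit 18927569498)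 (nat_lit 16) (nat_lit 5) (nat_lit 18) (nat_lit 5) (nat_lit 17) (nat_lit 4) (nat_lit 342) (nat_lit 293) (nat_lit 265)) (XT.lf (nat_lit 0) (nat_lit 8826807245) (nat_lit 76) (nat_lit 1444682609) (nat_lit 152) (nat_lit 21177942354) (nat_lit 15) (nat_lit 5) (nat_lit 16) (nat_lit 5) (nat_lit 17) (nat_lit 4) (nat_lit 343) (nat_lit 293) (nat_lit 264)))) (XT.nd (nat_lit 78) (nat_lit 152) (nat_lit 0) (XT.lf (nat_lit 0) (nat_lit 20017999339) (nat_lit 152) (nat_lit 5180634913) (nat_lit 0) (nat_lit 8266889143) (nat_lit 15) (nat_lit 5) (nat_lit 17) (nat_lit 4) (nat_lit 15) (nat_lit 4) (nat_lit 344) (nat_lit 293) (nat_lit 263)) (XT.nd (nat_lit 78) (nat_lit 76) (nat_lit 0) (XT.lf (nat_lit 0) (nat_lit 13831064290) (nat_lit 76) (nat_lit 16826669517) (nat_lit 76) (nat_lit 4979511041) (nat_lit 14) (nat_lit 4) (nat_lit 15) (nat_lit 5) (nat_lit 15) (nat_lit 4) (nat_lit 345) (nat_lit 293) (nat_lit 262)) (XT.lf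 (nat_lit 0) (nat_lit 4001280278) (nat_lit 152) (nat_lit 3733467496) (nat_lit 76) (nat_lit 30246286500) (nat_lit 13) (nat_lit 5) (nat_lit 15) (nat_lit 5) (nat_lit 14) (nat_lit 4) (nat_lit 346) (nat_lit 293) (nat_lit 261)))))) (XT.nd (nat_lit 468) (nat_lit 228) (nat_lit 0) (XT.nd (nat_lit 234) (nat_lit 152) (nat_lit 0) (XT.nd (nat_lit 78) (nat_lit 76) (nat_lit 0) (XT.lf (nat_lit 0) (nat_lit 13700533592) (nat_lit 152) (nat_lit 24544601542) (nat_lit 0) (nat_lit 2254402175) (nat_lit 12) (nat_lit 5) (nat_lit 14) (nat_lit 4) (nat_lit 12) (nat_lit 4) (nat_lit 347) (nat_lit 293) (nat_lit 260)) (XT.nd (nat_lit 78) (nat_lit 76) (nat_lit 0) (XT.lf (nat_lit 0) (nat_lit 24261886306) (nat_lit 152) (nat_lit 6210200628) (nat_lit 0) (nat_lit 12743139440) (nat_lit 12) (nat_lit 5) (nat_lit 14) (nat_lit 4) (nat_lit 12) (nat_lit 4) (nat_lit 348) (nat_lit 293) (nat_lit 259)) (XT.lf (nat_lit 0) (nat_lit 13835462576)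 (nat_lit 76) (nat_lit 21946506508) (nat_lit 76) (nat_lit 10360523115) (nat_lit 11) (nat_lit 4) (nat_lit 12) (nat_lit 5) (nat_lit 12) (nat_lit 4) (nat_lit 349) (nat_lit 293) (nat_lit 258)))) (XT.nd (nat_lit 78) (nat_lit 152) (nat_lit 0) (XT.lf (nat_lit 0) (nat_lit 35516850463) (nat_lit 76) (nat_lit 12717405096) (nat_lit 76) (nat_lit 1069165660) (nat_lit 11) (nat_lit 4) (nat_lit 12) (nat_lit 5) (nat_lit 12) (nat_lit 4) (nat_lit 350) (nat_lit 293) (nat_lit 257)) (XT.nd (nat_lit 78) (nat_lit 0) (nat_lit 0) (XT.lf (nat_lit 0) (nat_lit 6091836542) (nat_lit 76) (nat_lit 2589978317) (nat_lit 152) (nat_lit 44028257942) (nat_lit 9) (nat_lit 5) (nat_lit 10) (nat_lit 5) (nat_lit 11) (nat_lit 4) (nat_lit 351) (nat_lit 293) (nat_lit 256)) (XT.lf (nat_lit 0) (nat_lit 19461327768) (nat_lit 152) (nat_lit 28650732370) (nat_lit 0) (nat_lit 8262034013) (nat_lit 9) (nat_lit 5) (nat_lit 11) (nat_lit 4) (nat_lit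 9) (nat_lit 4) (nat_lit 352) (nat_lit 293) (nat_lit 255))))) (XT.nd (nat_lit 234) (nat_lit 152) (nat_lit 0) (XT.nd (nat_lit 78) (nat_lit 76) (nat_lit 0) (XT.lf (nat_lit 0) (nat_lit 31064458033) (nat_lit 152) (nat_lit 9450628472) (nat_lit 0) (nat_lit 19818096797) (nat_lit 9) (nat_lit 5) (nat_lit 11) (nat_lit 4) (nat_lit 9) (nat_lit 4) (nat_lit 353) (nat_lit 293) (nat_lit 254)) (XT.nd (nat_lit 78) (nat_lit 0) (nat_lit 0) (XT.lf (nat_lit 0) (nat_lit 11504506710) (nat_lit 76) (nat_lit 32194639005) (nat_lit 76) (nat_lit 20904696769) (nat_lit 8) (nat_lit 4) (nat_lit 9) (nat_lit 5) (nat_lit 9) (nat_lit 4) (nat_lit 354) (nat_lit 293) (nat_lit 253)) (XT.lf (nat_lit 0) (nat_lit 34330822262) (nat_lit 76) (nat_lit 23105523951) (nat_lit 76) (nat_lit 11775228936) (nat_lit 8) (nat_lit 4) (nat_lit 9) (nat_lit 5) (nat_lit 9) (nat_lit 4) (nat_lit 355) (nat_lit 293) (nat_lit 252)))) (XT.nd (nat_lit 156) (nat_lit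 0) (nat_lit 0) (XT.nd (nat_lit 78) (nat_lit 152) (nat_lit 0) (XT.lf (nat_lit 0) (nat_lit 58851104780) (nat_lit 76) (nat_lit 13353930886) (nat_lit 76) (nat_lit 1986272188) (nat_lit 8) (nat_lit 4) (nat_lit 9) (nat_lit 5) (nat_lit 9) (nat_lit 4) (nat_lit 356) (nat_lit 293) (nat_lit 251)) (XT.lf (nat_lit 0) (nat_lit 5687108587) (nat_lit 76) (nat_lit 2649166187) (nat_lit 152) (nat_lit 71225184571) (nat_lit 6) (nat_lit 5) (nat_lit 7) (nat_lit 5) (nat_lit 8) (nat_lit 4) (nat_lit 357) (nat_lit 293) (nat_lit 250))) (XT.nd (nat_lit 78) (nat_lit 0) (nat_lit 0) (XT.lf (nat_lit 0) (nat_lit 19765120789) (nat_lit 152) (nat_lit 56701652961) (nat_lit 0) (nat_lit 8875322658) (nat_lit 6) (nat_lit 5) (nat_lit 8) (nat_lit 4) (nat_lit 6) (nat_lit 4) (nat_lit 358) (nat_lit 293) (nat_lit 249)) (XT.lf (nat_lit 0) (nat_lit 32095922266) (nat_lit 152) (nat_lit 38312009083) (nat_lit 0) (nat_lit 21177876044) (nat_lit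 6) (nat_lit 5) (nat_lit 8) (nat_lit 4) (nat_lit 6) (nat_lit 4) (nat_lit 359) (nat_lit 293) (nat_lit 248))))))))
noncomputable def xc35 : XT := (XT.nd (nat_lit 1950) (nat_lit 0) (nat_lit 0) (XT.nd (nat_lit 936) (nat_lit 76) (nat_lit 0) (XT.nd (nat_lit 468) (nat_lit 152) (nat_lit 0) (XT.nd (nat_lit 234) (nat_lit 0) (nat_lit 0) (XT.nd (nat_lit 78) (nat_lit 76) (nat_lit 0) (XT.lf (nat_lit 0) (nat_lit 45360389715) (nat_lit 152) (nat_lit 18555082550) (nat_lit 0) (nat_lit 34416187852) (nat_lit 6) (nat_lit 5) (nat_lit 8) (nat_lit 4) (nat_lit 6) (nat_lit 4) (nat_lit 360) (nat_lit 293) (nat_lit 247)) (XT.nd (nat_lit 78) (nat_lit 0) (nat_lit 0) (XT.lf (nat_lit 0) (nat_lit 2775022781) (nat_lit 76) (nat_lit 56905430487) (nat_lit 76) (nat_lit 45937010438) (nat_lit 5) (nat_lit 4) (nat_lit 6) (nat_lit 5) (nat_lit 6) (nat_lit 4) (nat_lit 361) (nat_lit 293) (nat_lit 246)) (XT.lf (nat_lit 0) (nat_lit 26382119616)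 (nat_lit 76) (nat_lit 49040517376) (nat_lit 76) (nat_lit 38049673081) (nat_lit 5) (nat_lit 4) (nat_lit 6) (nat_lit 5) (nat_lit 6) (nat_lit 4) (nat_lit 362) (nat_lit 293) (nat_lit 245)))) (XT.nd (nat_lit 78) (nat_lit 0) (nat_lit 0) (XT.lf (nat_lit 0) (nat_lit 51792587035) (nat_lit 76) (nat_lit 40588365341) (nat_lit 76) (nat_lit 29576757855) (nat_lit 5) (nat_lit 4) (nat_lit 6) (nat_lit 5) (nat_lit 6) (nat_lit 4) (nat_lit 363) (nat_lit 293) (nat_lit 244)) (XT.nd (nat_lit 78) (nat_lit 0) (nat_lit 0) (XT.lf (nat_lit 0) (nat_lit 79157005585) (nat_lit 76) (nat_lit 31498887556) (nat_lit 76) (nat_lit 20468054893) (nat_lit 5) (nat_lit 4) (nat_lit 6) (nat_lit 5) (nat_lit 6) (nat_lit 4) (nat_lit 364) (nat_lit 293) (nat_lit 243)) (XT.lf (nat_lit 0) (nat_lit 108637534783) (nat_lit 76) (nat_lit 21718220448) (nat_lit 76) (nat_lit 10669586696) (nat_lit 5) (nat_lit 4) (nat_lit 6) (nat_lit 5) (nat_lit 6) (nat_lit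 4) (nat_lit 365) (nat_lit 293) (nat_lit 242))))) (XT.nd (nat_lit 234) (nat_lit 0) (nat_lit 0) (XT.nd (nat_lit 78) (nat_lit 152) (nat_lit 0) (XT.lf (nat_lit 0) (nat_lit 140408874062) (nat_lit 76) (nat_lit 11188404509) (nat_lit 76) (nat_lit 123288266) (nat_lit 5) (nat_lit 4) (nat_lit 6) (nat_lit 5) (nat_lit 6) (nat_lit 4) (nat_lit 366) (nat_lit 293) (nat_lit 241)) (XT.nd (nat_lit 78) (nat_lit 0) (nat_lit 0) (XT.lf (nat_lit 0) (nat_lit 11062848755) (nat_lit 152) (nat_lit 151681823507) (nat_lit 0) (nat_lit 510107985) (nat_lit 3) (nat_lit 5) (nat_lit 5) (nat_lit 4) (nat_lit 3) (nat_lit 4) (nat_lit 367) (nat_lit 293) (nat_lit 240)) (XT.lf (nat_lit 0) (nat_lit 23497208537) (nat_lit 152) (nat_lit 139265531524) (nat_lit 0) (nat_lit 12931009598) (nat_lit 3) (nat_lit 5) (nat_lit 5) (nat_lit 4) (nat_lit 3) (nat_lit 4) (nat_lit 368) (nat_lit 293) (nat_lit 239)))) (XT.nd (nat_lit 78) (nat_lit 0) (nat_lit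 0) (XT.lf (nat_lit 0) (nat_lit 36897302234) (nat_lit 152) (nat_lit 125913345468) (nat_lit 0) (nat_lit 26318642025) (nat_lit 3) (nat_lit 5) (nat_lit 5) (nat_lit 4) (nat_lit 3) (nat_lit 4) (nat_lit 369) (nat_lit 293) (nat_lit 238)) (XT.nd (nat_lit 78) (nat_lit 0) (nat_lit 0) (XT.lf (nat_lit 0) (nat_lit 51342537806) (nat_lit 152) (nat_lit 111546141272) (nat_lit 0) (nat_lit 40752339386) (nat_lit 3) (nat_lit 5) (nat_lit 5) (nat_lit 4) (nat_lit 3) (nat_lit 4) (nat_lit 370) (nat_lit 293) (nat_lit 237)) (XT.lf (nat_lit 0) (nat_lit 66918516651) (nat_lit 152) (nat_lit 96078779950) (nat_lit 0) (nat_lit 56317634701) (nat_lit 3) (nat_lit 5) (nat_lit 5) (nat_lit 4) (nat_lit 3) (nat_lit 4) (nat_lit 371) (nat_lit 293) (nat_lit 236)))))) (XT.nd (nat_lit 468) (nat_lit 0) (nat_lit 0) (XT.nd (nat_lit 234) (nat_lit 76) (nat_lit 0) (XT.nd (nat_lit 78) (nat_lit 0) (nat_lit 0) (XT.lf (nat_lit 0) (nat_lit 83717540865)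 (nat_lit 152) (nat_lit 79419603063) (nat_lit 0) (nat_lit 73106766759) (nat_lit 3) (nat_lit 5) (nat_lit 5) (nat_lit 4) (nat_lit 3) (nat_lit 4) (nat_lit 372) (nat_lit 293) (nat_lit 235)) (XT.nd (nat_lit 78) (nat_lit 0) (nat_lit 0) (XT.lf (nat_lit 0) (nat_lit 101839160222) (nat_lit 152) (nat_lit 61469889563) (nat_lit 0) (nat_lit 91219226710) (nat_lit 3) (nat_lit 5) (nat_lit 5) (nat_lit 4) (nat_lit 3) (nat_lit 4) (nat_lit 373) (nat_lit 293) (nat_lit 234)) (XT.lf (nat_lit 0) (nat_lit 121390762095) (nat_lit 152) (nat_lit 42123270778) (nat_lit 0) (nat_lit 110762347653) (nat_lit 3) (nat_lit 5) (nat_lit 5) (nat_lit 4) (nat_lit 3) (nat_lit 4) (nat_lit 374) (nat_lit 293) (nat_lit 233)))) (XT.nd (nat_lit 78) (nat_lit 76) (nat_lit 0) (XT.lf (nat_lit 0) (nat_lit 142488207828) (nat_lit 152) (nat_lit 21265100078) (nat_lit 0) (nat_lit 131851940673) (nat_lit 3) (nat_lit 5) (nat_lit 5) (nat_lit 4) (nat_lit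 3) (nat_lit 4) (nat_lit 375) (nat_lit 293) (nat_lit 232)) (XT.nd (nat_lit 78) (nat_lit 0) (nat_lit 0) (XT.lf (nat_lit 0) (nat_lit 1268837227) (nat_lit 76) (nat_lit 164007492201) (nat_lit 76) (nat_lit 153363954015) (nat_lit 2) (nat_lit 4) (nat_lit 3) (nat_lit 5) (nat_lit 3) (nat_lit 4) (nat_lit 376) (nat_lit 293) (nat_lit 231)) (XT.lf (nat_lit 0) (nat_lit 26332817386) (nat_lit 76) (nat_lit 163908931597) (nat_lit 76) (nat_lit 153258660975) (nat_lit 2) (nat_lit 4) (nat_lit 3) (nat_lit 5) (nat_lit 3) (nat_lit 4) (nat_lit 377) (nat_lit 293) (nat_lit 230))))) (XT.nd (nat_lit 234) (nat_lit 0) (nat_lit 0) (XT.nd (nat_lit 78) (nat_lit 0) (nat_lit 0) (XT.lf (nat_lit 0) (nat_lit 53372247445) (nat_lit 76) (nat_lit 163817176791) (nat_lit 76) (nat_lit 153160672432) (nat_lit 2) (nat_lit 4) (nat_lit 3) (nat_lit 5) (nat_lit 3) (nat_lit 4) (nat_lit 378) (nat_lit 293) (nat_lit 229)) (XT.nd (nat_lit 78) (nat_lit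 0) (nat_lit 0) (XT.lf (nat_lit 0) (nat_lit 82547361063) (nat_lit 76) (nat_lit 163731684050) (nat_lit 76) (nat_lit 153069407714) (nat_lit 2) (nat_lit 4) (nat_lit 3) (nat_lit 5) (nat_lit 3) (nat_lit 4) (nat_lit 379) (nat_lit 293) (nat_lit 228)) (XT.lf (nat_lit 0) (nat_lit 114031047802) (nat_lit 76) (nat_lit 163651946753) (nat_lit 76) (nat_lit 152984325991) (nat_lit 2) (nat_lit 4) (nat_lit 3) (nat_lit 5) (nat_lit 3) (nat_lit 4) (nat_lit 380) (nat_lit 293) (nat_lit 227)))) (XT.nd (nat_lit 156) (nat_lit 0) (nat_lit 0) (XT.nd (nat_lit 78) (nat_lit 0) (nat_lit 0) (XT.lf (nat_lit 0) (nat_lit 148009877658) (nat_lit 76) (nat_lit 163577492380) (nat_lit 76) (nat_lit 152904923077) (nat_lit 2) (nat_lit 4) (nat_lit 3) (nat_lit 5) (nat_lit 3) (nat_lit 4) (nat_lit 381) (nat_lit 293) (nat_lit 226)) (XT.lf (nat_lit 0) (nat_lit 184685206660) (nat_lit 76) (nat_lit 163507879720) (nat_lit 76) (nat_lit 152830728435)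 (nat_lit 2) (nat_lit 4) (nat_lit 3) (nat_lit 5) (nat_lit 3) (nat_lit 4) (nat_lit 382) (nat_lit 293) (nat_lit 225))) (XT.nd (nat_lit 78) (nat_lit 0) (nat_lit 0) (XT.lf (nat_lit 0) (nat_lit 224274370091) (nat_lit 76) (nat_lit 163442696255) (nat_lit 76) (nat_lit 152761302394) (nat_lit 2) (nat_lit 4) (nat_lit 3) (nat_lit 5) (nat_lit 3) (nat_lit 4) (nat_lit 383) (nat_lit 293) (nat_lit 224)) (XT.lf (nat_lit 0) (nat_lit 267011970400) (nat_lit 76) (nat_lit 163381555712) (nat_lit 76) (nat_lit 152696233539) (nat_lit 2) (nat_lit 4) (nat_lit 3) (nat_lit 5) (nat_lit 3) (nat_lit 4) (nat_lit 384) (nat_lit 293) (nat_lit 223))))))) (XT.nd (nat_lit 41262) (nat_lit 0) (nat_lit 3192) (XT.nd (nat_lit 468) (nat_lit 0) (nat_lit 0) (XT.nd (nat_lit 234) (nat_lit 0) (nat_lit 0) (XT.nd (nat_lit 78) (nat_lit 0) (nat_lit 0) (XT.lf (nat_lit 0) (nat_lit 313151267441) (nat_lit 76) (nat_lit 163324095777) (nat_lit 76) (nat_lit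 152635136278) (nat_lit 2) (nat_lit 4) (nat_lit 3) (nat_lit 5) (nat_lit 3) (nat_lit 4) (nat_lit 385) (nat_lit 293) (nat_lit 222)) (XT.nd (nat_lit 78) (nat_lit 0) (nat_lit 0) (XT.lf (nat_lit 0) (nat_lit 362965679271) (nat_lit 76) (nat_lit 163269975946) (nat_lit 76) (nat_lit 152577648553) (nat_lit 2) (nat_lit 4) (nat_lit 3) (nat_lit 5) (nat_lit 3) (nat_lit 4) (nat_lit 386) (nat_lit 293) (nat_lit 221)) (XT.lf (nat_lit 0) (nat_lit 416750402404) (nat_lit 76) (nat_lit 163218875509) (nat_lit 76) (nat_lit 152523429695) (nat_lit 2) (nat_lit 4) (nat_lit 3) (nat_lit 5) (nat_lit 3) (nat_lit 4) (nat_lit 387) (nat_lit 293) (nat_lit 220)))) (XT.nd (nat_lit 78) (nat_lit 0) (nat_lit 0) (XT.lf (nat_lit 0) (nat_lit 474824161126) (nat_lit 76) (nat_lit 163170491649) (nat_lit 76) (nat_lit 152472158409) (nat_lit 2) (nat_lit 4) (nat_lit 3) (nat_lit 5) (nat_lit 3) (nat_lit 4) (nat_lit 388) (nat_lit 293) (nat_lit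 219)) (XT.nd (nat_lit 78) (nat_lit 0) (nat_lit 0) (XT.lf (nat_lit 0) (nat_lit 537531096228) (nat_lit 76) (nat_lit 163124537646) (nat_lit 76) (nat_lit 152423530864) (nat_lit 2) (nat_lit 4) (nat_lit 3) (nat_lit 5) (nat_lit 3) (nat_lit 4) (nat_lit 389) (nat_lit 293) (nat_lit 218)) (XT.lf (nat_lit 0) (nat_lit 605242804365) (nat_lit 76) (nat_lit 163080741181) (nat_lit 76) (nat_lit 152377258896) (nat_lit 2) (nat_lit 4) (nat_lit 3) (nat_lit 5) (nat_lit 3) (nat_lit 4) (nat_lit 390) (nat_lit 293) (nat_lit 217))))) (XT.nd (nat_lit 234) (nat_lit 0) (nat_lit 0) (XT.nd (nat_lit 78) (nat_lit 0) (nat_lit 0) (XT.lf (nat_lit 0) (nat_lit 678360540101) (nat_lit 76) (nat_lit 163038842719) (nat_lit 76) (nat_lit 152333068302) (nat_lit 2) (nat_lit 4) (nat_lit 3) (nat_lit 5) (nat_lit 3) (nat_lit 4) (nat_lit 391) (nat_lit 293) (nat_lit 216)) (XT.nd (nat_lit 78) (nat_lit 0) (nat_lit 0) (XT.lf (nat_lit 0) (nat_lit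 757317593723) (nat_lit 76) (nat_lit 162998593973) (nat_lit 76) (nat_lit 152290697211) (nat_lit 2) (nat_lit 4) (nat_lit 3) (nat_lit 5) (nat_lit 3) (nat_lit 4) (nat_lit 392) (nat_lit 293) (nat_lit 215)) (XT.lf (nat_lit 0) (nat_lit 842581858882) (nat_lit 76) (nat_lit 162959756432) (nat_lit 76) (nat_lit 152249894536) (nat_lit 2) (nat_lit 4) (nat_lit 3) (nat_lit 5) (nat_lit 3) (nat_lit 4) (nat_lit 393) (nat_lit 293) (nat_lit 214)))) (XT.nd (nat_lit 78) (nat_lit 0) (nat_lit 0) (XT.lf (nat_lit 0) (nat_lit 934658605298) (nat_lit 76) (nat_lit 162922099946) (nat_lit 76) (nat_lit 152210418482) (nat_lit 2) (nat_lit 4) (nat_lit 3) (nat_lit 5) (nat_lit 3) (nat_lit 4) (nat_lit 394) (nat_lit 293) (nat_lit 213)) (XT.nd (nat_lit 40404) (nat_lit 0) (nat_lit 7448) (XT.lf (nat_lit 0) (nat_lit 1034093472950) (nat_lit 76) (nat_lit 162885401368) (nat_lit 76) (nat_lit 152172035118) (nat_lit 2) (nat_lit 4) (nat_lit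 3) (nat_lit 5) (nat_lit 3) (nat_lit 4) (nat_lit 395) (nat_lit 293) (nat_lit 212)) (XT.lf (nat_lit 0) (nat_lit 3670753854) (nat_lit 380) (nat_lit 45156193) (nat_lit 380) (nat_lit 45156193) (nat_lit 100) (nat_lit 4) (nat_lit 105) (nat_lit 5) (nat_lit 105) (nat_lit 4) (nat_lit 312) (nat_lit 294) (nat_lit 294)))))) (XT.nd (nat_lit 468) (nat_lit 1596) (nat_lit 0) (XT.nd (nat_lit 234) (nat_lit 1140) (nat_lit 0) (XT.nd (nat_lit 78) (nat_lit 760) (nat_lit 0) (XT.lf (nat_lit 0) (nat_lit 1279555200) (nat_lit 380) (nat_lit 4302815756) (nat_lit 380) (nat_lit 2132786951) (nat_lit 90) (nat_lit 4) (nat_lit 95) (nat_lit 5) (nat_lit 95) (nat_lit 4) (nat_lit 313) (nat_lit 294) (nat_lit 293)) (XT.nd (nat_lit 78) (nat_lit 380) (nat_lit 0) (XT.lf (nat_lit 0) (nat_lit 2877991393) (nat_lit 304) (nat_lit 564596961) (nat_lit 380) (nat_lit 4489298335) (nat_lit 85) (nat_lit 5) (nat_lit 89) (nat_lit 5) (nat_lit 90)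 (nat_lit 4) (nat_lit 314) (nat_lit 294) (nat_lit 292)) (XT.lf (nat_lit 0) (nat_lit 1040101232) (nat_lit 380) (nat_lit 3619949299) (nat_lit 76) (nat_lit 3510805870) (nat_lit 80) (nat_lit 5) (nat_lit 85) (nat_lit 5) (nat_lit 81) (nat_lit 4) (nat_lit 315) (nat_lit 294) (nat_lit 291)))) (XT.nd (nat_lit 78) (nat_lit 912) (nat_lit 0) (XT.lf (nat_lit 0) (nat_lit 6312469190) (nat_lit 228) (nat_lit 373011017) (nat_lit 304) (nat_lit 1748533960) (nat_lit 77) (nat_lit 5) (nat_lit 80) (nat_lit 5) (nat_lit 81) (nat_lit 4) (nat_lit 316) (nat_lit 294) (nat_lit 290)) (XT.nd (nat_lit 78) (nat_lit 532) (nat_lit 0) (XT.lf (nat_lit 0) (nat_lit 3840099391) (nat_lit 380) (nat_lit 615269670) (nat_lit 76) (nat_lit 4264647757) (nat_lit 72) (nat_lit 5) (nat_lit 77) (nat_lit 5) (nat_lit 73) (nat_lit 4) (nat_lit 317) (nat_lit 294) (nat_lit 289)) (XT.lf (nat_lit 0) (nat_lit 644451878) (nat_lit 304) (nat_lit 8037970584)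 (nat_lit 76) (nat_lit 350532193) (nat_lit 65) (nat_lit 5) (nat_lit 69) (nat_lit 5) (nat_lit 66) (nat_lit 4) (nat_lit 318) (nat_lit 294) (nat_lit 288))))) (XT.nd (nat_lit 234) (nat_lit 912) (nat_lit 0) (XT.nd (nat_lit 78) (nat_lit 456) (nat_lit 0) (XT.lf (nat_lit 0) (nat_lit 2579287039) (nat_lit 228) (nat_lit 3820551988) (nat_lit 304) (nat_lit 2969299673) (nat_lit 62) (nat_lit 5) (nat_lit 65) (nat_lit 5) (nat_lit 66) (nat_lit 4) (nat_lit 319) (nat_lit 294) (nat_lit 287)) (XT.nd (nat_lit 78) (nat_lit 152) (nat_lit 0) (XT.lf (nat_lit 0) (nat_lit 2701061163) (nat_lit 304) (nat_lit 5542983023) (nat_lit 76) (nat_lit 1490614664) (nat_lit 58) (nat_lit 5) (nat_lit 62) (nat_lit 5) (nat_lit 59) (nat_lit 4) (nat_lit 320) (nat_lit 294) (nat_lit 286)) (XT.lf (nat_lit 0) (nat_lit 5768111159) (nat_lit 152) (nat_lit 2921062090) (nat_lit 228) (nat_lit 1439579783) (nat_lit 56) (nat_lit 5) (nat_lit 58) (nat_lit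 5) (nat_lit 59) (nat_lit 4) (nat_lit 321) (nat_lit 294) (nat_lit 285)))) (XT.nd (nat_lit 156) (nat_lit 456) (nat_lit 0) (XT.nd (nat_lit 78) (nat_lit 152) (nat_lit 0) (XT.lf (nat_lit 0) (nat_lit 4416471524) (nat_lit 304) (nat_lit 3267931007) (nat_lit 76) (nat_lit 2868442904) (nat_lit 52) (nat_lit 5) (nat_lit 56) (nat_lit 5) (nat_lit 53) (nat_lit 4) (nat_lit 322) (nat_lit 294) (nat_lit 284)) (XT.lf (nat_lit 0) (nat_lit 8764467412) (nat_lit 152) (nat_lit 1905640417) (nat_lit 228) (nat_lit 340742555) (nat_lit 50) (nat_lit 5) (nat_lit 52) (nat_lit 5) (nat_lit 53) (nat_lit 4) (nat_lit 323) (nat_lit 294) (nat_lit 283))) (XT.nd (nat_lit 78) (nat_lit 228) (nat_lit 0) (XT.lf (nat_lit 0) (nat_lit 5741128876) (nat_lit 228) (nat_lit 1410183101) (nat_lit 76) (nat_lit 4349087711) (nat_lit 47) (nat_lit 5) (nat_lit 50) (nat_lit 5) (nat_lit 48) (nat_lit 4) (nat_lit 324) (nat_lit 294) (nat_lit 282)) (XT.lf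 (nat_lit 0) (nat_lit 245798144) (nat_lit 228) (nat_lit 674830778) (nat_lit 76) (nat_lit 11108824189) (nat_lit 44) (nat_lit 5) (nat_lit 47) (nat_lit 5) (nat_lit 45) (nat_lit 5) (nat_lit 325) (nat_lit 294) (nat_lit 281))))))))
noncomputable def xc36 : XT := (XT.nd (nat_lit 1872) (nat_lit 684) (nat_lit 0) (XT.nd (nat_lit 936) (nat_lit 760) (nat_lit 0) (XT.nd (nat_lit 468) (nat_lit 760) (nat_lit 0) (XT.nd (nat_lit 234) (nat_lit 380) (nat_lit 0) (XT.nd (nat_lit 78) (nat_lit 380) (nat_lit 0) (XT.lf (nat_lit 0) (nat_lit 6590506623) (nat_lit 228) (nat_lit 220855391) (nat_lit 76) (nat_lit 5781799764) (nat_lit 42) (nat_lit 5) (nat_lit 45) (nat_lit 5) (nat_lit 43) (nat_lit 4) (nat_lit 326) (nat_lit 294) (nat_lit 280)) (XT.nd (nat_lit 78) (nat_lit 0) (nat_lit 0) (XT.lf (nat_lit 0) (nat_lit 77590844) (nat_lit 152) (nat_lit 146722371) (nat_lit 228) (nat_lit 12977996250) (nat_lit 37) (nat_lit 5) (nat_lit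 39) (nat_lit 5) (nat_lit 40) (nat_lit 5) (nat_lit 327) (nat_lit 294) (nat_lit 279)) (XT.lf (nat_lit 0) (nat_lit 6837218524) (nat_lit 228) (nat_lit 24290654) (nat_lit 76) (nat_lit 6988938886) (nat_lit 37) (nat_lit 5) (nat_lit 40) (nat_lit 5) (nat_lit 38) (nat_lit 4) (nat_lit 328) (nat_lit 294) (nat_lit 278)))) (XT.nd (nat_lit 78) (nat_lit 304) (nat_lit 0) (XT.lf (nat_lit 0) (nat_lit 13978638794) (nat_lit 152) (nat_lit 373554692) (nat_lit 0) (nat_lit 198347423) (nat_lit 36) (nat_lit 5) (nat_lit 38) (nat_lit 4) (nat_lit 36) (nat_lit 4) (nat_lit 329) (nat_lit 294) (nat_lit 277)) (XT.nd (nat_lit 78) (nat_lit 76) (nat_lit 0) (XT.lf (nat_lit 0) (nat_lit 6300296657) (nat_lit 228) (nat_lit 1242740813) (nat_lit 76) (nat_lit 7752691866) (nat_lit 33) (nat_lit 5) (nat_lit 36) (nat_lit 5) (nat_lit 34) (nat_lit 4) (nat_lit 330) (nat_lit 294) (nat_lit 276)) (XT.lf (nat_lit 0) (nat_lit 13595472680) (nat_lit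 76) (nat_lit 113734621) (nat_lit 152) (nat_lit 2390571238) (nat_lit 32) (nat_lit 5) (nat_lit 33) (nat_lit 5) (nat_lit 34) (nat_lit 4) (nat_lit 331) (nat_lit 294) (nat_lit 275))))) (XT.nd (nat_lit 234) (nat_lit 228) (nat_lit 0) (XT.nd (nat_lit 78) (nat_lit 304) (nat_lit 0) (XT.lf (nat_lit 0) (nat_lit 4730906361) (nat_lit 228) (nat_lit 4427856947) (nat_lit 76) (nat_lit 7798740563) (nat_lit 29) (nat_lit 5) (nat_lit 32) (nat_lit 5) (nat_lit 30) (nat_lit 4) (nat_lit 332) (nat_lit 294) (nat_lit 274)) (XT.nd (nat_lit 78) (nat_lit 228) (nat_lit 0) (XT.lf (nat_lit 0) (nat_lit 10922075778) (nat_lit 76) (nat_lit 1436028570) (nat_lit 152) (nat_lit 5522847116) (nat_lit 28) (nat_lit 5) (nat_lit 29) (nat_lit 5) (nat_lit 30) (nat_lit 4) (nat_lit 333) (nat_lit 294) (nat_lit 273)) (XT.lf (nat_lit 0) (nat_lit 1793543940) (nat_lit 228) (nat_lit 10301034158) (nat_lit 76) (nat_lit 6775836591) (nat_lit 25) (nat_lit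 5) (nat_lit 28) (nat_lit 5) (nat_lit 26) (nat_lit 4) (nat_lit 334) (nat_lit 294) (nat_lit 272)))) (XT.nd (nat_lit 78) (nat_lit 152) (nat_lit 0) (XT.lf (nat_lit 0) (nat_lit 5366783393) (nat_lit 76) (nat_lit 4183441481) (nat_lit 152) (nat_lit 10381901636) (nat_lit 24) (nat_lit 5) (nat_lit 25) (nat_lit 5) (nat_lit 26) (nat_lit 4) (nat_lit 335) (nat_lit 294) (nat_lit 271)) (XT.nd (nat_lit 78) (nat_lit 76) (nat_lit 0) (XT.lf (nat_lit 0) (nat_lit 1221339096) (nat_lit 76) (nat_lit 16796602964) (nat_lit 76) (nat_lit 3056347082) (nat_lit 23) (nat_lit 4) (nat_lit 24) (nat_lit 5) (nat_lit 24) (nat_lit 4) (nat_lit 336) (nat_lit 294) (nat_lit 270)) (XT.lf (nat_lit 0) (nat_lit 4854702714) (nat_lit 152) (nat_lit 3978671822) (nat_lit 76) (nat_lit 13462951933) (nat_lit 22) (nat_lit 5) (nat_lit 24) (nat_lit 5) (nat_lit 23) (nat_lit 4) (nat_lit 337) (nat_lit 294) (nat_lit 269)))))) (XT.nd (nat_lit 468) (nat_lit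 304) (nat_lit 0) (XT.nd (nat_lit 234) (nat_lit 228) (nat_lit 0) (XT.nd (nat_lit 78) (nat_lit 152) (nat_lit 0) (XT.lf (nat_lit 0) (nat_lit 13237598235) (nat_lit 76) (nat_lit 101353876) (nat_lit 152) (nat_lit 10272331520) (nat_lit 21) (nat_lit 5) (nat_lit 22) (nat_lit 5) (nat_lit 23) (nat_lit 4) (nat_lit 338) (nat_lit 294) (nat_lit 268)) (XT.nd (nat_lit 78) (nat_lit 76) (nat_lit 0) (XT.lf (nat_lit 0) (nat_lit 6720931061) (nat_lit 76) (nat_lit 15946662334) (nat_lit 76) (nat_lit 2355590826) (nat_lit 20) (nat_lit 4) (nat_lit 21) (nat_lit 5) (nat_lit 21) (nat_lit 4) (nat_lit 339) (nat_lit 294) (nat_lit 267)) (XT.lf (nat_lit 0) (nat_lit 6030905160) (nat_lit 152) (nat_lit 1371782497) (nat_lit 76) (nat_lit 19138805586) (nat_lit 19) (nat_lit 5) (nat_lit 21) (nat_lit 5) (nat_lit 20) (nat_lit 4) (nat_lit 340) (nat_lit 294) (nat_lit 266)))) (XT.nd (nat_lit 78) (nat_lit 152) (nat_lit 0) (XT.lf (nat_lit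 0) (nat_lit 15166850947) (nat_lit 152) (nat_lit 11045732114) (nat_lit 0) (nat_lit 1958724235) (nat_lit 18) (nat_lit 5) (nat_lit 20) (nat_lit 4) (nat_lit 18) (nat_lit 4) (nat_lit 341) (nat_lit 294) (nat_lit 265)) (XT.nd (nat_lit 78) (nat_lit 76) (nat_lit 0) (XT.lf (nat_lit 0) (nat_lit 7065111605) (nat_lit 76) (nat_lit 18092977627) (nat_lit 76) (nat_lit 4767218665) (nat_lit 17) (nat_lit 4) (nat_lit 18) (nat_lit 5) (nat_lit 18) (nat_lit 4) (nat_lit 342) (nat_lit 294) (nat_lit 264)) (XT.lf (nat_lit 0) (nat_lit 4061435408) (nat_lit 152) (nat_lit 5108735123) (nat_lit 76) (nat_lit 22643024833) (nat_lit 16) (nat_lit 5) (nat_lit 18) (nat_lit 5) (nat_lit 17) (nat_lit 4) (nat_lit 343) (nat_lit 294) (nat_lit 263))))) (XT.nd (nat_lit 234) (nat_lit 152) (nat_lit 0) (XT.nd (nat_lit 78) (nat_lit 76) (nat_lit 0) (XT.lf (nat_lit 0) (nat_lit 13542618313) (nat_lit 152) (nat_lit 19648304430) (nat_lit 0) (nat_lit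 651638879) (nat_lit 15) (nat_lit 5) (nat_lit 17) (nat_lit 4) (nat_lit 15) (nat_lit 4) (nat_lit 344) (nat_lit 294) (nat_lit 262)) (XT.nd (nat_lit 78) (nat_lit 76) (nat_lit 0) (XT.lf (nat_lit 0) (nat_lit 23909966378) (nat_lit 152) (nat_lit 1187890760) (nat_lit 0) (nat_lit 10930053351) (nat_lit 15) (nat_lit 5) (nat_lit 17) (nat_lit 4) (nat_lit 15) (nat_lit 4) (nat_lit 345) (nat_lit 294) (nat_lit 261)) (XT.lf (nat_lit 0) (nat_lit 19153213058) (nat_lit 76) (nat_lit 16143816195) (nat_lit 76) (nat_lit 3081557250) (nat_lit 14) (nat_lit 4) (nat_lit 15) (nat_lit 5) (nat_lit 15) (nat_lit 4) (nat_lit 346) (nat_lit 294) (nat_lit 260)))) (XT.nd (nat_lit 78) (nat_lit 76) (nat_lit 0) (XT.lf (nat_lit 0) (nat_lit 6379547760) (nat_lit 152) (nat_lit 60432257) (nat_lit 76) (nat_lit 34476360584) (nat_lit 13) (nat_lit 5) (nat_lit 15) (nat_lit 5) (nat_lit 14) (nat_lit 4) (nat_lit 347) (nat_lit 294) (nat_lit 259))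 (XT.nd (nat_lit 78) (nat_lit 0) (nat_lit 0) (XT.lf (nat_lit 0) (nat_lit 16790234560) (nat_lit 152) (nat_lit 22639198552) (nat_lit 0) (nat_lit 4210135969) (nat_lit 12) (nat_lit 5) (nat_lit 14) (nat_lit 4) (nat_lit 12) (nat_lit 4) (nat_lit 348) (nat_lit 294) (nat_lit 258)) (XT.lf (nat_lit 0) (nat_lit 28048817100) (nat_lit 152) (nat_lit 3124636018) (nat_lit 0) (nat_lit 15406462466) (nat_lit 12) (nat_lit 5) (nat_lit 14) (nat_lit 4) (nat_lit 12) (nat_lit 4) (nat_lit 349) (nat_lit 294) (nat_lit 257))))))) (XT.nd (nat_lit 936) (nat_lit 228) (nat_lit 0) (XT.nd (nat_lit 468) (nat_lit 152) (nat_lit 0) (XT.nd (nat_lit 234) (nat_lit 76) (nat_lit 0) (XT.nd (nat_lit 78) (nat_lit 152) (nat_lit 0) (XT.lf (nat_lit 0) (nat_lit 18368994344) (nat_lit 76) (nat_lit 22038273213) (nat_lit 76) (nat_lit 9338274094) (nat_lit 11) (nat_lit 4) (nat_lit 12) (nat_lit 5) (nat_lit 12) (nat_lit 4) (nat_lit 350) (nat_lit 294)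 (nat_lit 256)) (XT.nd (nat_lit 78) (nat_lit 76) (nat_lit 0) (XT.lf (nat_lit 0) (nat_lit 541373849) (nat_lit 152) (nat_lit 11643557249) (nat_lit 76) (nat_lit 40980521743) (nat_lit 10) (nat_lit 5) (nat_lit 12) (nat_lit 5) (nat_lit 11) (nat_lit 4) (nat_lit 351) (nat_lit 294) (nat_lit 255)) (XT.lf (nat_lit 0) (nat_lit 9666813466) (nat_lit 76) (nat_lit 1293970905) (nat_lit 152) (nat_lit 45886699223) (nat_lit 9) (nat_lit 5) (nat_lit 10) (nat_lit 5) (nat_lit 11) (nat_lit 4) (nat_lit 352) (nat_lit 294) (nat_lit 254)))) (XT.nd (nat_lit 78) (nat_lit 76) (nat_lit 0) (XT.lf (nat_lit 0) (nat_lit 22507024338) (nat_lit 152) (nat_lit 28032091164) (nat_lit 0) (nat_lit 10270305723) (nat_lit 9) (nat_lit 5) (nat_lit 11) (nat_lit 4) (nat_lit 9) (nat_lit 4) (nat_lit 353) (nat_lit 294) (nat_lit 253)) (XT.nd (nat_lit 78) (nat_lit 76) (nat_lit 0) (XT.lf (nat_lit 0) (nat_lit 34928124258) (nat_lit 152) (nat_lit 7511586346)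 (nat_lit 0) (nat_lit 22651052864) (nat_lit 9) (nat_lit 5) (nat_lit 11) (nat_lit 4) (nat_lit 9) (nat_lit 4) (nat_lit 354) (nat_lit 294) (nat_lit 252)) (XT.lf (nat_lit 0) (nat_lit 15002834219) (nat_lit 76) (nat_lit 33508890204) (nat_lit 76) (nat_lit 21194455127) (nat_lit 8) (nat_lit 4) (nat_lit 9) (nat_lit 5) (nat_lit 9) (nat_lit 4) (nat_lit 355) (nat_lit 294) (nat_lit 251))))) (XT.nd (nat_lit 234) (nat_lit 0) (nat_lit 0) (XT.nd (nat_lit 78) (nat_lit 152) (nat_lit 0) (XT.lf (nat_lit 0) (nat_lit 39464294498) (nat_lit 76) (nat_lit 23786077051) (nat_lit 76) (nat_lit 11437045970) (nat_lit 8) (nat_lit 4) (nat_lit 9) (nat_lit 5) (nat_lit 9) (nat_lit 4) (nat_lit 356) (nat_lit 294) (nat_lit 250)) (XT.nd (nat_lit 78) (nat_lit 152) (nat_lit 0) (XT.lf (nat_lit 0) (nat_lit 65769384325) (nat_lit 76) (nat_lit 13340866823) (nat_lit 76) (nat_lit 959802407) (nat_lit 8) (nat_lit 4) (nat_lit 9) (nat_lit 5) (nat_lit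 9) (nat_lit 4) (nat_lit 357) (nat_lit 294) (nat_lit 249)) (XT.lf (nat_lit 0) (nat_lit 8292614486) (nat_lit 76) (nat_lit 1806575464) (nat_lit 152) (nat_lit 75772281165) (nat_lit 6) (nat_lit 5) (nat_lit 7) (nat_lit 5) (nat_lit 8) (nat_lit 4) (nat_lit 358) (nat_lit 294) (nat_lit 248)))) (XT.nd (nat_lit 78) (nat_lit 0) (nat_lit 0) (XT.lf (nat_lit 0) (nat_lit 22376401997) (nat_lit 152) (nat_lit 59210953611) (nat_lit 0) (nat_lit 10530508344) (nat_lit 6) (nat_lit 5) (nat_lit 8) (nat_lit 4) (nat_lit 6) (nat_lit 4) (nat_lit 359) (nat_lit 294) (nat_lit 247)) (XT.nd (nat_lit 78) (nat_lit 0) (nat_lit 0) (XT.lf (nat_lit 0) (nat_lit 35617365997) (nat_lit 152) (nat_lit 39500273896) (nat_lit 0) (nat_lit 23747254158) (nat_lit 6) (nat_lit 5) (nat_lit 8) (nat_lit 4) (nat_lit 6) (nat_lit 4) (nat_lit 360) (nat_lit 294) (nat_lit 246)) (XT.lf (nat_lit 0) (nat_lit 49872341216) (nat_lit 152) (nat_lit 18301807752)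 (nat_lit 0) (nat_lit 37979805131) (nat_lit 6) (nat_lit 5) (nat_lit 8) (nat_lit 4) (nat_lit 6) (nat_lit 4) (nat_lit 361) (nat_lit 294) (nat_lit 245)))))) (XT.nd (nat_lit 468) (nat_lit 76) (nat_lit 0) (XT.nd (nat_lit 234) (nat_lit 76) (nat_lit 0) (XT.nd (nat_lit 78) (nat_lit 0) (nat_lit 0) (XT.lf (nat_lit 0) (nat_lit 4659188490) (nat_lit 76) (nat_lit 60639356080) (nat_lit 76) (nat_lit 48726056804) (nat_lit 5) (nat_lit 4) (nat_lit 6) (nat_lit 5) (nat_lit 6) (nat_lit 4) (nat_lit 362) (nat_lit 294) (nat_lit 244)) (XT.nd (nat_lit 78) (nat_lit 0) (nat_lit 0) (XT.lf (nat_lit 0) (nat_lit 30031729820) (nat_lit 76) (nat_lit 52205880205) (nat_lit 76) (nat_lit 40273355753) (nat_lit 5) (nat_lit 4) (nat_lit 6) (nat_lit 5) (nat_lit 6) (nat_lit 4) (nat_lit 363) (nat_lit 294) (nat_lit 243)) (XT.lf (nat_lit 0) (nat_lit 57361031622) (nat_lit 76) (nat_lit 43133695161) (nat_lit 76) (nat_lit 31183369618) (nat_lit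 5) (nat_lit 4) (nat_lit 6) (nat_lit 5) (nat_lit 6) (nat_lit 4) (nat_lit 364) (nat_lit 294) (nat_lit 242)))) (XT.nd (nat_lit 78) (nat_lit 76) (nat_lit 0) (XT.lf (nat_lit 0) (nat_lit 86809045314) (nat_lit 76) (nat_lit 33369039850) (nat_lit 76) (nat_lit 21402231817) (nat_lit 5) (nat_lit 4) (nat_lit 6) (nat_lit 5) (nat_lit 6) (nat_lit 4) (nat_lit 365) (nat_lit 294) (nat_lit 241)) (XT.nd (nat_lit 78) (nat_lit 76) (nat_lit 0) (XT.lf (nat_lit 0) (nat_lit 118550277642) (nat_lit 76) (nat_lit 22854049648) (nat_lit 76) (nat_lit 10871980050) (nat_lit 5) (nat_lit 4) (nat_lit 6) (nat_lit 5) (nat_lit 6) (nat_lit 4) (nat_lit 366) (nat_lit 294) (nat_lit 240)) (XT.lf (nat_lit 0) (nat_lit 454751049) (nat_lit 152) (nat_lit 11063961024) (nat_lit 76) (nat_lit 152310372320) (nat_lit 4) (nat_lit 5) (nat_lit 6) (nat_lit 5) (nat_lit 5) (nat_lit 4) (nat_lit 367) (nat_lit 294) (nat_lit 239))))) (XT.nd (nat_lit 234)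 (nat_lit 0) (nat_lit 0) (XT.nd (nat_lit 78) (nat_lit 0) (nat_lit 0) (XT.lf (nat_lit 0) (nat_lit 12513945589) (nat_lit 152) (nat_lit 162696336319) (nat_lit 0) (nat_lit 1076531294) (nat_lit 3) (nat_lit 5) (nat_lit 5) (nat_lit 4) (nat_lit 3) (nat_lit 4) (nat_lit 368) (nat_lit 294) (nat_lit 238)) (XT.nd (nat_lit 78) (nat_lit 0) (nat_lit 0) (XT.lf (nat_lit 0) (nat_lit 25901123122) (nat_lit 152) (nat_lit 149369706390) (nat_lit 0) (nat_lit 14452170616) (nat_lit 3) (nat_lit 5) (nat_lit 5) (nat_lit 4) (nat_lit 3) (nat_lit 4) (nat_lit 369) (nat_lit 294) (nat_lit 237)) (XT.lf (nat_lit 0) (nat_lit 40334399284) (nat_lit 152) (nat_lit 135026165275) (nat_lit 0) (nat_lit 28874763249) (nat_lit 3) (nat_lit 5) (nat_lit 5) (nat_lit 4) (nat_lit 3) (nat_lit 4) (nat_lit 370) (nat_lit 294) (nat_lit 236)))) (XT.nd (nat_lit 156) (nat_lit 0) (nat_lit 0) (XT.nd (nat_lit 78) (nat_lit 0) (nat_lit 0) (XT.lf (nat_lit 0)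 (nat_lit 55899304601) (nat_lit 152) (nat_lit 119580714213) (nat_lit 0) (nat_lit 44429776409) (nat_lit 3) (nat_lit 5) (nat_lit 5) (nat_lit 4) (nat_lit 3) (nat_lit 4) (nat_lit 371) (nat_lit 294) (nat_lit 235)) (XT.lf (nat_lit 0) (nat_lit 72688075548) (nat_lit 152) (nat_lit 102941824604) (nat_lit 0) (nat_lit 61209387951) (nat_lit 3) (nat_lit 5) (nat_lit 5) (nat_lit 4) (nat_lit 3) (nat_lit 4) (nat_lit 372) (nat_lit 294) (nat_lit 234))) (XT.nd (nat_lit 78) (nat_lit 0) (nat_lit 0) (XT.lf (nat_lit 0) (nat_lit 90800201139) (nat_lit 152) (nat_lit 85010895621) (nat_lit 0) (nat_lit 79313032612) (nat_lit 3) (nat_lit 5) (nat_lit 5) (nat_lit 4) (nat_lit 3) (nat_lit 4) (nat_lit 373) (nat_lit 294) (nat_lit 233)) (XT.lf (nat_lit 0) (nat_lit 110343012488) (nat_lit 152) (nat_lit 65681669907) (nat_lit 0) (nat_lit 98847991248) (nat_lit 3) (nat_lit 5) (nat_lit 5) (nat_lit 4) (nat_lit 3) (nat_lit 4) (nat_lit 374)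 (nat_lit 294) (nat_lit 232))))))))
noncomputable def xc37 : XT := (XT.nd (nat_lit 42120) (nat_lit 0) (nat_lit 1444) (XT.nd (nat_lit 936) (nat_lit 0) (nat_lit 0) (XT.nd (nat_lit 468) (nat_lit 0) (nat_lit 0) (XT.nd (nat_lit 234) (nat_lit 0) (nat_lit 0) (XT.nd (nat_lit 78) (nat_lit 76) (nat_lit 0) (XT.lf (nat_lit 0) (nat_lit 131432318848) (nat_lit 152) (nat_lit 44839603902) (nat_lit 0) (nat_lit 119930026577) (nat_lit 3) (nat_lit 5) (nat_lit 5) (nat_lit 4) (nat_lit 3) (nat_lit 4) (nat_lit 375) (nat_lit 294) (nat_lit 231)) (XT.nd (nat_lit 78) (nat_lit 76) (nat_lit 0) (XT.lf (nat_lit 0) (nat_lit 154193093885) (nat_lit 152) (nat_lit 22361189067) (nat_lit 0) (nat_lit 142684069179) (nat_lit 3) (nat_lit 5) (nat_lit 5) (nat_lit 4) (nat_lit 3) (nat_lit 4) (nat_lit 376) (nat_lit 294) (nat_lit 230)) (XT.lf (nat_lit 0) (nat_lit 1949165486) (nat_lit 76) (nat_lit 176841482717) (nat_lit 76) (nat_lit 165326224273)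 (nat_lit 2) (nat_lit 4) (nat_lit 3) (nat_lit 5) (nat_lit 3) (nat_lit 4) (nat_lit 377) (nat_lit 294) (nat_lit 229)))) (XT.nd (nat_lit 78) (nat_lit 0) (nat_lit 0) (XT.lf (nat_lit 0) (nat_lit 28975388408) (nat_lit 76) (nat_lit 176756267550) (nat_lit 76) (nat_lit 165235237128) (nat_lit 2) (nat_lit 4) (nat_lit 3) (nat_lit 5) (nat_lit 3) (nat_lit 4) (nat_lit 378) (nat_lit 294) (nat_lit 228)) (XT.nd (nat_lit 78) (nat_lit 0) (nat_lit 0) (XT.lf (nat_lit 0) (nat_lit 58138273195) (nat_lit 76) (nat_lit 176676830032) (nat_lit 76) (nat_lit 165150455185) (nat_lit 2) (nat_lit 4) (nat_lit 3) (nat_lit 5) (nat_lit 3) (nat_lit 4) (nat_lit 379) (nat_lit 294) (nat_lit 227)) (XT.lf (nat_lit 0) (nat_lit 89610636943) (nat_lit 76) (nat_lit 176602699421) (nat_lit 76) (nat_lit 165071376033) (nat_lit 2) (nat_lit 4) (nat_lit 3) (nat_lit 5) (nat_lit 3) (nat_lit 4) (nat_lit 380) (nat_lit 294) (nat_lit 226))))) (XT.nd (nat_lit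 234) (nat_lit 0) (nat_lit 0) (XT.nd (nat_lit 78) (nat_lit 0) (nat_lit 0) (XT.lf (nat_lit 0) (nat_lit 123578982548) (nat_lit 76) (nat_lit 176533436425) (nat_lit 76) (nat_lit 164997531054) (nat_lit 2) (nat_lit 4) (nat_lit 3) (nat_lit 5) (nat_lit 3) (nat_lit 4) (nat_lit 381) (nat_lit 294) (nat_lit 225)) (XT.nd (nat_lit 78) (nat_lit 0) (nat_lit 0) (XT.lf (nat_lit 0) (nat_lit 160244603910) (nat_lit 76) (nat_lit 176468630596) (nat_lit 76) (nat_lit 164928482648) (nat_lit 2) (nat_lit 4) (nat_lit 3) (nat_lit 5) (nat_lit 3) (nat_lit 4) (nat_lit 382) (nat_lit 294) (nat_lit 224)) (XT.lf (nat_lit 0) (nat_lit 199824778784) (nat_lit 76) (nat_lit 176407897900) (nat_lit 76) (nat_lit 164863821641) (nat_lit 2) (nat_lit 4) (nat_lit 3) (nat_lit 5) (nat_lit 3) (nat_lit 4) (nat_lit 383) (nat_lit 294) (nat_lit 223)))) (XT.nd (nat_lit 78) (nat_lit 0) (nat_lit 0) (XT.lf (nat_lit 0) (nat_lit 242554056356) (nat_lit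 76) (nat_lit 176350878439) (nat_lit 76) (nat_lit 164803164854) (nat_lit 2) (nat_lit 4) (nat_lit 3) (nat_lit 5) (nat_lit 3) (nat_lit 4) (nat_lit 384) (nat_lit 294) (nat_lit 222)) (XT.nd (nat_lit 78) (nat_lit 0) (nat_lit 0) (XT.lf (nat_lit 0) (nat_lit 288685647160) (nat_lit 76) (nat_lit 176297234320) (nat_lit 76) (nat_lit 164746152842) (nat_lit 2) (nat_lit 4) (nat_lit 3) (nat_lit 5) (nat_lit 3) (nat_lit 4) (nat_lit 385) (nat_lit 294) (nat_lit 221)) (XT.lf (nat_lit 0) (nat_lit 338492923584) (nat_lit 76) (nat_lit 176246647653) (nat_lit 76) (nat_lit 164692447754) (nat_lit 2) (nat_lit 4) (nat_lit 3) (nat_lit 5) (nat_lit 3) (nat_lit 4) (nat_lit 386) (nat_lit 294) (nat_lit 220)))))) (XT.nd (nat_lit 468) (nat_lit 0) (nat_lit 0) (XT.nd (nat_lit 234) (nat_lit 0) (nat_lit 0) (XT.nd (nat_lit 78) (nat_lit 0) (nat_lit 0) (XT.lf (nat_lit 0) (nat_lit 392271039861) (nat_lit 76) (nat_lit 176198818664) (nat_lit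 76) (nat_lit 164641731339) (nat_lit 2) (nat_lit 4) (nat_lit 3) (nat_lit 5) (nat_lit 3) (nat_lit 4) (nat_lit 387) (nat_lit 294) (nat_lit 219)) (XT.nd (nat_lit 78) (nat_lit 0) (nat_lit 0) (XT.lf (nat_lit 0) (nat_lit 450338681123) (nat_lit 76) (nat_lit 176153463922) (nat_lit 76) (nat_lit 164593703054) (nat_lit 2) (nat_lit 4) (nat_lit 3) (nat_lit 5) (nat_lit 3) (nat_lit 4) (nat_lit 388) (nat_lit 294) (nat_lit 218)) (XT.lf (nat_lit 0) (nat_lit 513039951911) (nat_lit 76) (nat_lit 176110314659) (nat_lit 76) (nat_lit 164548078288) (nat_lit 2) (nat_lit 4) (nat_lit 3) (nat_lit 5) (nat_lit 3) (nat_lit 4) (nat_lit 389) (nat_lit 294) (nat_lit 217)))) (XT.nd (nat_lit 78) (nat_lit 0) (nat_lit 0) (XT.lf (nat_lit 0) (nat_lit 580746415311) (nat_lit 76) (nat_lit 176069115175) (nat_lit 76) (nat_lit 164504586672) (nat_lit 2) (nat_lit 4) (nat_lit 3) (nat_lit 5) (nat_lit 3) (nat_lit 4) (nat_lit 390) (nat_lit 294)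 (nat_lit 216)) (XT.nd (nat_lit 78) (nat_lit 0) (nat_lit 0) (XT.lf (nat_lit 0) (nat_lit 653859294810) (nat_lit 76) (nat_lit 176029621325) (nat_lit 76) (nat_lit 164462970477) (nat_lit 2) (nat_lit 4) (nat_lit 3) (nat_lit 5) (nat_lit 3) (nat_lit 4) (nat_lit 391) (nat_lit 294) (nat_lit 215)) (XT.lf (nat_lit 0) (nat_lit 732811851917) (nat_lit 76) (nat_lit 175991599071) (nat_lit 76) (nat_lit 164422983090) (nat_lit 2) (nat_lit 4) (nat_lit 3) (nat_lit 5) (nat_lit 3) (nat_lit 4) (nat_lit 392) (nat_lit 294) (nat_lit 214))))) (XT.nd (nat_lit 40404) (nat_lit 0) (nat_lit 6688) (XT.nd (nat_lit 78) (nat_lit 0) (nat_lit 0) (XT.lf (nat_lit 0) (nat_lit 818071953636) (nat_lit 76) (nat_lit 175954823097) (nat_lit 76) (nat_lit 164384387547) (nat_lit 2) (nat_lit 4) (nat_lit 3) (nat_lit 5) (nat_lit 3) (nat_lit 4) (nat_lit 393) (nat_lit 294) (nat_lit 213)) (XT.nd (nat_lit 78) (nat_lit 0) (nat_lit 0) (XT.lf (nat_lit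 0) (nat_lit 910144845014) (nat_lit 76) (nat_lit 175919075470) (nat_lit 76) (nat_lit 164346955135) (nat_lit 2) (nat_lit 4) (nat_lit 3) (nat_lit 5) (nat_lit 3) (nat_lit 4) (nat_lit 394) (nat_lit 294) (nat_lit 212)) (XT.lf (nat_lit 0) (nat_lit 1009576143186) (nat_lit 76) (nat_lit 175884144353) (nat_lit 76) (nat_lit 164310464031) (nat_lit 2) (nat_lit 4) (nat_lit 3) (nat_lit 5) (nat_lit 3) (nat_lit 4) (nat_lit 395) (nat_lit 294) (nat_lit 211)))) (XT.nd (nat_lit 156) (nat_lit 1140) (nat_lit 0) (XT.nd (nat_lit 78) (nat_lit 836) (nat_lit 0) (XT.lf (nat_lit 0) (nat_lit 2325476610) (nat_lit 684) (nat_lit 633759317) (nat_lit 684) (nat_lit 633759317) (nat_lit 116) (nat_lit 4) (nat_lit 125) (nat_lit 5) (nat_lit 125) (nat_lit 4) (nat_lit 310) (nat_lit 295) (nat_lit 295)) (XT.lf (nat_lit 0) (nat_lit 4131612946) (nat_lit 836) (nat_lit 1544959603) (nat_lit 0) (nat_lit 1670800282) (nat_lit 105) (nat_lit 5)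 (nat_lit 116) (nat_lit 4) (nat_lit 105) (nat_lit 4) (nat_lit 311) (nat_lit 295) (nat_lit 294))) (XT.nd (nat_lit 78) (nat_lit 684) (nat_lit 0) (XT.lf (nat_lit 0) (nat_lit 2096061388) (nat_lit 456) (nat_lit 442417061) (nat_lit 76) (nat_lit 4991929409) (nat_lit 99) (nat_lit 5) (nat_lit 105) (nat_lit 5) (nat_lit 100) (nat_lit 4) (nat_lit 312) (nat_lit 295) (nat_lit 293)) (XT.lf (nat_lit 0) (nat_lit 797965369) (nat_lit 380) (nat_lit 6730205144) (nat_lit 380) (nat_lit 207259302) (nat_lit 90) (nat_lit 4) (nat_lit 95) (nat_lit 5) (nat_lit 95) (nat_lit 4) (nat_lit 313) (nat_lit 295) (nat_lit 292))))))) (XT.nd (nat_lit 936) (nat_lit 1824) (nat_lit 0) (XT.nd (nat_lit 468) (nat_lit 1292) (nat_lit 0) (XT.nd (nat_lit 234) (nat_lit 1140) (nat_lit 0) (XT.nd (nat_lit 78) (nat_lit 608) (nat_lit 0) (XT.lf (nat_lit 0) (nat_lit 2100686940) (nat_lit 304) (nat_lit 3013499750) (nat_lit 380) (nat_lit 2846245027)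 (nat_lit 85) (nat_lit 5) (nat_lit 89) (nat_lit 5) (nat_lit 90) (nat_lit 4) (nat_lit 314) (nat_lit 295) (nat_lit 291)) (XT.nd (nat_lit 78) (nat_lit 228) (nat_lit 0) (XT.lf (nat_lit 0) (nat_lit 2401839767) (nat_lit 380) (nat_lit 4701023339) (nat_lit 76) (nat_lit 1106834222) (nat_lit 80) (nat_lit 5) (nat_lit 85) (nat_lit 5) (nat_lit 81) (nat_lit 4) (nat_lit 315) (nat_lit 295) (nat_lit 290)) (XT.lf (nat_lit 0) (nat_lit 4973560917) (nat_lit 228) (nat_lit 2888603784) (nat_lit 304) (nat_lit 620074753) (nat_lit 77) (nat_lit 5) (nat_lit 80) (nat_lit 5) (nat_lit 81) (nat_lit 4) (nat_lit 316) (nat_lit 295) (nat_lit 289)))) (XT.nd (nat_lit 78) (nat_lit 760) (nat_lit 0) (XT.lf (nat_lit 0) (nat_lit 4708274175) (nat_lit 380) (nat_lit 2300832225) (nat_lit 76) (nat_lit 1769579219) (nat_lit 72) (nat_lit 5) (nat_lit 77) (nat_lit 5) (nat_lit 73) (nat_lit 4) (nat_lit 317) (nat_lit 295) (nat_lit 288)) (XT.nd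 (nat_lit 78) (nat_lit 456) (nat_lit 0) (XT.lf (nat_lit 0) (nat_lit 1223011020) (nat_lit 304) (nat_lit 1065350871) (nat_lit 76) (nat_lit 6812983894) (nat_lit 68) (nat_lit 5) (nat_lit 72) (nat_lit 5) (nat_lit 69) (nat_lit 5) (nat_lit 318) (nat_lit 295) (nat_lit 287)) (XT.lf (nat_lit 0) (nat_lit 155275169) (nat_lit 228) (nat_lit 6583241009) (nat_lit 304) (nat_lit 2711102548) (nat_lit 62) (nat_lit 5) (nat_lit 65) (nat_lit 5) (nat_lit 66) (nat_lit 4) (nat_lit 319) (nat_lit 295) (nat_lit 286))))) (XT.nd (nat_lit 234) (nat_lit 532) (nat_lit 0) (XT.nd (nat_lit 78) (nat_lit 456) (nat_lit 0) (XT.lf (nat_lit 0) (nat_lit 1405414635) (nat_lit 228) (nat_lit 1334176018) (nat_lit 304) (nat_lit 7086000447) (nat_lit 58) (nat_lit 5) (nat_lit 61) (nat_lit 5) (nat_lit 62) (nat_lit 5) (nat_lit 320) (nat_lit 295) (nat_lit 285)) (XT.nd (nat_lit 78) (nat_lit 304) (nat_lit 0) (XT.lf (nat_lit 0) (nat_lit 2600813452)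 (nat_lit 152) (nat_lit 5919531464) (nat_lit 228) (nat_lit 1709785660) (nat_lit 56) (nat_lit 5) (nat_lit 58) (nat_lit 5) (nat_lit 59) (nat_lit 4) (nat_lit 321) (nat_lit 295) (nat_lit 284)) (XT.lf (nat_lit 0) (nat_lit 3749428788) (nat_lit 228) (nat_lit 171008266) (nat_lit 304) (nat_lit 6745788960) (nat_lit 52) (nat_lit 5) (nat_lit 55) (nat_lit 5) (nat_lit 56) (nat_lit 5) (nat_lit 322) (nat_lit 295) (nat_lit 283)))) (XT.nd (nat_lit 78) (nat_lit 380) (nat_lit 0) (XT.lf (nat_lit 0) (nat_lit 4789828432) (nat_lit 152) (nat_lit 5192901760) (nat_lit 228) (nat_lit 1151131130) (nat_lit 50) (nat_lit 5) (nat_lit 52) (nat_lit 5) (nat_lit 53) (nat_lit 4) (nat_lit 323) (nat_lit 295) (nat_lit 282)) (XT.nd (nat_lit 78) (nat_lit 152) (nat_lit 0) (XT.lf (nat_lit 0) (nat_lit 4711525010) (nat_lit 228) (nat_lit 5912774491) (nat_lit 76) (nat_lit 1012057121) (nat_lit 47) (nat_lit 5) (nat_lit 50) (nat_lit 5) (nat_lit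 48) (nat_lit 4) (nat_lit 324) (nat_lit 295) (nat_lit 281)) (XT.lf (nat_lit 0) (nat_lit 6508167274) (nat_lit 152) (nat_lit 4552800803) (nat_lit 228) (nat_lit 1114342031) (nat_lit 45) (nat_lit 5) (nat_lit 47) (nat_lit 5) (nat_lit 48) (nat_lit 4) (nat_lit 325) (nat_lit 295) (nat_lit 280)))))) (XT.nd (nat_lit 468) (nat_lit 836) (nat_lit 0) (XT.nd (nat_lit 234) (nat_lit 380) (nat_lit 0) (XT.nd (nat_lit 78) (nat_lit 380) (nat_lit 0) (XT.lf (nat_lit 0) (nat_lit 5009890385) (nat_lit 228) (nat_lit 5651752215) (nat_lit 76) (nat_lit 2091098681) (nat_lit 42) (nat_lit 5) (nat_lit 45) (nat_lit 5) (nat_lit 43) (nat_lit 4) (nat_lit 326) (nat_lit 295) (nat_lit 279)) (XT.nd (nat_lit 78) (nat_lit 228) (nat_lit 0) (XT.lf (nat_lit 0) (nat_lit 7480380188) (nat_lit 152) (nat_lit 4172582310) (nat_lit 228) (nat_lit 1719181585) (nat_lit 40) (nat_lit 5) (nat_lit 42) (nat_lit 5) (nat_lit 43) (nat_lit 4) (nat_lit 327)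 (nat_lit 295) (nat_lit 278)) (XT.lf (nat_lit 0) (nat_lit 4679890888) (nat_lit 228) (nat_lit 6461791401) (nat_lit 76) (nat_lit 2893422481) (nat_lit 37) (nat_lit 5) (nat_lit 40) (nat_lit 5) (nat_lit 38) (nat_lit 4) (nat_lit 328) (nat_lit 295) (nat_lit 277)))) (XT.nd (nat_lit 78) (nat_lit 304) (nat_lit 0) (XT.lf (nat_lit 0) (nat_lit 7348243463) (nat_lit 76) (nat_lit 4261889052) (nat_lit 152) (nat_lit 3135658437) (nat_lit 36) (nat_lit 5) (nat_lit 37) (nat_lit 5) (nat_lit 38) (nat_lit 4) (nat_lit 329) (nat_lit 295) (nat_lit 276)) (XT.nd (nat_lit 78) (nat_lit 76) (nat_lit 0) (XT.lf (nat_lit 0) (nat_lit 3534903122) (nat_lit 228) (nat_lit 8772576396) (nat_lit 76) (nat_lit 3199716244) (nat_lit 33) (nat_lit 5) (nat_lit 36) (nat_lit 5) (nat_lit 34) (nat_lit 4) (nat_lit 330) (nat_lit 295) (nat_lit 275)) (XT.lf (nat_lit 0) (nat_lit 5643429482) (nat_lit 76) (nat_lit 5081780629) (nat_lit 152) (nat_lit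 5596993127) (nat_lit 32) (nat_lit 5) (nat_lit 33) (nat_lit 5) (nat_lit 34) (nat_lit 4) (nat_lit 331) (nat_lit 295) (nat_lit 274))))) (XT.nd (nat_lit 234) (nat_lit 532) (nat_lit 0) (XT.nd (nat_lit 78) (nat_lit 76) (nat_lit 0) (XT.lf (nat_lit 0) (nat_lit 1320275633) (nat_lit 228) (nat_lit 13144259286) (nat_lit 76) (nat_lit 2733263203) (nat_lit 29) (nat_lit 5) (nat_lit 32) (nat_lit 5) (nat_lit 30) (nat_lit 4) (nat_lit 332) (nat_lit 295) (nat_lit 273)) (XT.nd (nat_lit 78) (nat_lit 0) (nat_lit 0) (XT.lf (nat_lit 0) (nat_lit 1752542621) (nat_lit 76) (nat_lit 6963563729) (nat_lit 152) (nat_lit 9416730665) (nat_lit 28) (nat_lit 5) (nat_lit 29) (nat_lit 5) (nat_lit 30) (nat_lit 4) (nat_lit 333) (nat_lit 295) (nat_lit 272)) (XT.lf (nat_lit 0) (nat_lit 16777015538) (nat_lit 152) (nat_lit 1166471688) (nat_lit 0) (nat_lit 1195565368) (nat_lit 28) (nat_lit 5) (nat_lit 30) (nat_lit 4) (nat_lit 28) (nat_lit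 4) (nat_lit 334) (nat_lit 295) (nat_lit 271)))) (XT.nd (nat_lit 156) (nat_lit 228) (nat_lit 0) (XT.nd (nat_lit 78) (nat_lit 76) (nat_lit 0) (XT.lf (nat_lit 0) (nat_lit 5284831919) (nat_lit 228) (nat_lit 4963635810) (nat_lit 76) (nat_lit 9963429909) (nat_lit 25) (nat_lit 5) (nat_lit 28) (nat_lit 5) (nat_lit 26) (nat_lit 4) (nat_lit 335) (nat_lit 295) (nat_lit 270)) (XT.lf (nat_lit 0) (nat_lit 11689836686) (nat_lit 76) (nat_lit 1816242466) (nat_lit 152) (nat_lit 7860321958) (nat_lit 24) (nat_lit 5) (nat_lit 25) (nat_lit 5) (nat_lit 26) (nat_lit 4) (nat_lit 336) (nat_lit 295) (nat_lit 269))) (XT.nd (nat_lit 78) (nat_lit 152) (nat_lit 0) (XT.lf (nat_lit 0) (nat_lit 7069602065) (nat_lit 76) (nat_lit 15474020725) (nat_lit 76) (nat_lit 61745634) (nat_lit 23) (nat_lit 4) (nat_lit 24) (nat_lit 5) (nat_lit 24) (nat_lit 4) (nat_lit 337) (nat_lit 295) (nat_lit 268)) (XT.lf (nat_lit 0) (nat_lit 1161360897)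 (nat_lit 76) (nat_lit 7003032993) (nat_lit 152) (nat_lit 15768998362) (nat_lit 21) (nat_lit 5) (nat_lit 22) (nat_lit 5) (nat_lit 23) (nat_lit 4) (nat_lit 338) (nat_lit 295) (nat_lit 267))))))))
noncomputable def xc38 : XT := (XT.nd (nat_lit 1950) (nat_lit 228) (nat_lit 0) (XT.nd (nat_lit 936) (nat_lit 532) (nat_lit 0) (XT.nd (nat_lit 468) (nat_lit 304) (nat_lit 0) (XT.nd (nat_lit 234) (nat_lit 152) (nat_lit 0) (XT.nd (nat_lit 78) (nat_lit 228) (nat_lit 0) (XT.lf (nat_lit 0) (nat_lit 17211180453) (nat_lit 152) (nat_lit 5915053475) (nat_lit 0) (nat_lit 2233164761) (nat_lit 21) (nat_lit 5) (nat_lit 23) (nat_lit 4) (nat_lit 21) (nat_lit 4) (nat_lit 339) (nat_lit 295) (nat_lit 266)) (XT.nd (nat_lit 78) (nat_lit 76) (nat_lit 0) (XT.lf (nat_lit 0) (nat_lit 259626629) (nat_lit 152) (nat_lit 14579176071) (nat_lit 76) (nat_lit 12051641099) (nat_lit 19) (nat_lit 5) (nat_lit 21) (nat_lit 5) (nat_lit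 20) (nat_lit 4) (nat_lit 340) (nat_lit 295) (nat_lit 265)) (XT.lf (nat_lit 0) (nat_lit 3393321051) (nat_lit 76) (nat_lit 5693628010) (nat_lit 152) (nat_lit 19448750663) (nat_lit 18) (nat_lit 5) (nat_lit 19) (nat_lit 5) (nat_lit 20) (nat_lit 4) (nat_lit 341) (nat_lit 295) (nat_lit 264)))) (XT.nd (nat_lit 78) (nat_lit 152) (nat_lit 0) (XT.lf (nat_lit 0) (nat_lit 18818891737) (nat_lit 152) (nat_lit 7283262221) (nat_lit 0) (nat_lit 4200521059) (nat_lit 18) (nat_lit 5) (nat_lit 20) (nat_lit 4) (nat_lit 18) (nat_lit 4) (nat_lit 342) (nat_lit 295) (nat_lit 263)) (XT.nd (nat_lit 78) (nat_lit 76) (nat_lit 0) (XT.lf (nat_lit 0) (nat_lit 12074533915) (nat_lit 76) (nat_lit 17423637891) (nat_lit 76) (nat_lit 2704416519) (nat_lit 17) (nat_lit 4) (nat_lit 18) (nat_lit 5) (nat_lit 18) (nat_lit 4) (nat_lit 343) (nat_lit 295) (nat_lit 262)) (XT.lf (nat_lit 0) (nat_lit 6577045266) (nat_lit 152) (nat_lit 1329658849)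 (nat_lit 76) (nat_lit 26341683705) (nat_lit 16) (nat_lit 5) (nat_lit 18) (nat_lit 5) (nat_lit 17) (nat_lit 4) (nat_lit 344) (nat_lit 295) (nat_lit 261))))) (XT.nd (nat_lit 234) (nat_lit 152) (nat_lit 0) (XT.nd (nat_lit 78) (nat_lit 76) (nat_lit 0) (XT.lf (nat_lit 0) (nat_lit 16746886197) (nat_lit 152) (nat_lit 17139432723) (nat_lit 0) (nat_lit 2557300616) (nat_lit 15) (nat_lit 5) (nat_lit 17) (nat_lit 4) (nat_lit 15) (nat_lit 4) (nat_lit 345) (nat_lit 295) (nat_lit 260)) (XT.nd (nat_lit 78) (nat_lit 0) (nat_lit 0) (XT.lf (nat_lit 0) (nat_lit 2578051028) (nat_lit 76) (nat_lit 25248721056) (nat_lit 76) (nat_lit 10982889254) (nat_lit 14) (nat_lit 4) (nat_lit 15) (nat_lit 5) (nat_lit 15) (nat_lit 4) (nat_lit 346) (nat_lit 295) (nat_lit 259)) (XT.lf (nat_lit 0) (nat_lit 24299722182) (nat_lit 76) (nat_lit 15695792271) (nat_lit 76) (nat_lit 1359362116) (nat_lit 14) (nat_lit 4) (nat_lit 15) (nat_lit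 5) (nat_lit 15) (nat_lit 4) (nat_lit 347) (nat_lit 295) (nat_lit 258)))) (XT.nd (nat_lit 78) (nat_lit 0) (nat_lit 0) (XT.lf (nat_lit 0) (nat_lit 3450266671) (nat_lit 76) (nat_lit 5258058046) (nat_lit 152) (nat_lit 35390172571) (nat_lit 12) (nat_lit 5) (nat_lit 13) (nat_lit 5) (nat_lit 14) (nat_lit 4) (nat_lit 348) (nat_lit 295) (nat_lit 257)) (XT.nd (nat_lit 78) (nat_lit 0) (nat_lit 0) (XT.lf (nat_lit 0) (nat_lit 19842693963) (nat_lit 152) (nat_lit 21133315306) (nat_lit 0) (nat_lit 6069050431) (nat_lit 12) (nat_lit 5) (nat_lit 14) (nat_lit 4) (nat_lit 12) (nat_lit 4) (nat_lit 349) (nat_lit 295) (nat_lit 256)) (XT.lf (nat_lit 0) (nat_lit 31875352689) (nat_lit 152) (nat_lit 303292890) (nat_lit 0) (nat_lit 18048334633) (nat_lit 12) (nat_lit 5) (nat_lit 14) (nat_lit 4) (nat_lit 12) (nat_lit 4) (nat_lit 350) (nat_lit 295) (nat_lit 255)))))) (XT.nd (nat_lit 468) (nat_lit 228) (nat_lit 0) (XT.nd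 (nat_lit 234) (nat_lit 76) (nat_lit 0) (XT.nd (nat_lit 78) (nat_lit 152) (nat_lit 0) (XT.lf (nat_lit 0) (nat_lit 22776352337) (nat_lit 76) (nat_lit 22374762869) (nat_lit 76) (nat_lit 8498323959) (nat_lit 11) (nat_lit 4) (nat_lit 12) (nat_lit 5) (nat_lit 12) (nat_lit 4) (nat_lit 351) (nat_lit 295) (nat_lit 254)) (XT.nd (nat_lit 78) (nat_lit 76) (nat_lit 0) (XT.lf (nat_lit 0) (nat_lit 2007107615) (nat_lit 152) (nat_lit 9807628349) (nat_lit 76) (nat_lit 45532670972) (nat_lit 10) (nat_lit 5) (nat_lit 12) (nat_lit 5) (nat_lit 11) (nat_lit 4) (nat_lit 352) (nat_lit 295) (nat_lit 253)) (XT.lf (nat_lit 0) (nat_lit 13087303605) (nat_lit 76) (nat_lit 108731995) (nat_lit 152) (nat_lit 48131178237) (nat_lit 9) (nat_lit 5) (nat_lit 10) (nat_lit 5) (nat_lit 11) (nat_lit 4) (nat_lit 353) (nat_lit 295) (nat_lit 252)))) (XT.nd (nat_lit 78) (nat_lit 76) (nat_lit 0) (XT.lf (nat_lit 0) (nat_lit 25583984046)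 (nat_lit 152) (nat_lit 27779202528) (nat_lit 0) (nat_lit 12247030480) (nat_lit 9) (nat_lit 5) (nat_lit 11) (nat_lit 4) (nat_lit 9) (nat_lit 4) (nat_lit 354) (nat_lit 295) (nat_lit 251)) (XT.nd (nat_lit 78) (nat_lit 76) (nat_lit 0) (XT.lf (nat_lit 0) (nat_lit 38904223977) (nat_lit 152) (nat_lit 5801905912) (nat_lit 0) (nat_lit 25532674407) (nat_lit 9) (nat_lit 5) (nat_lit 11) (nat_lit 4) (nat_lit 9) (nat_lit 4) (nat_lit 355) (nat_lit 295) (nat_lit 250)) (XT.lf (nat_lit 0) (nat_lit 18413252119) (nat_lit 76) (nat_lit 35108222887) (nat_lit 76) (nat_lit 21704639981) (nat_lit 8) (nat_lit 4) (nat_lit 9) (nat_lit 5) (nat_lit 9) (nat_lit 4) (nat_lit 356) (nat_lit 295) (nat_lit 249))))) (XT.nd (nat_lit 234) (nat_lit 76) (nat_lit 0) (XT.nd (nat_lit 78) (nat_lit 152) (nat_lit 0) (XT.lf (nat_lit 0) (nat_lit 44667911357) (nat_lit 76) (nat_lit 24687686795) (nat_lit 76) (nat_lit 11254443392) (nat_lit 8)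 (nat_lit 4) (nat_lit 9) (nat_lit 5) (nat_lit 9) (nat_lit 4) (nat_lit 357) (nat_lit 295) (nat_lit 248)) (XT.nd (nat_lit 78) (nat_lit 152) (nat_lit 0) (XT.lf (nat_lit 0) (nat_lit 72925817755) (nat_lit 76) (nat_lit 13481028373) (nat_lit 76) (nat_lit 20321547) (nat_lit 8) (nat_lit 4) (nat_lit 9) (nat_lit 5) (nat_lit 9) (nat_lit 4) (nat_lit 358) (nat_lit 295) (nat_lit 247)) (XT.lf (nat_lit 0) (nat_lit 10799762681) (nat_lit 76) (nat_lit 1047017124) (nat_lit 152) (nat_lit 80847336831) (nat_lit 6) (nat_lit 5) (nat_lit 7) (nat_lit 5) (nat_lit 8) (nat_lit 4) (nat_lit 359) (nat_lit 295) (nat_lit 246)))) (XT.nd (nat_lit 156) (nat_lit 76) (nat_lit 0) (XT.nd (nat_lit 78) (nat_lit 0) (nat_lit 0) (XT.lf (nat_lit 0) (nat_lit 25049634481) (nat_lit 152) (nat_lit 62210148498) (nat_lit 0) (nat_lit 12183271263) (nat_lit 6) (nat_lit 5) (nat_lit 8) (nat_lit 4) (nat_lit 6) (nat_lit 4) (nat_lit 360) (nat_lit 295)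 (nat_lit 245)) (XT.lf (nat_lit 0) (nat_lit 39284459281) (nat_lit 152) (nat_lit 41051331547) (nat_lit 0) (nat_lit 26397332872) (nat_lit 6) (nat_lit 5) (nat_lit 8) (nat_lit 4) (nat_lit 6) (nat_lit 4) (nat_lit 361) (nat_lit 295) (nat_lit 244))) (XT.nd (nat_lit 78) (nat_lit 76) (nat_lit 0) (XT.lf (nat_lit 0) (nat_lit 54619261850) (nat_lit 152) (nat_lit 18276170649) (nat_lit 0) (nat_lit 41712910264) (nat_lit 6) (nat_lit 5) (nat_lit 8) (nat_lit 4) (nat_lit 6) (nat_lit 4) (nat_lit 362) (nat_lit 295) (nat_lit 243)) (XT.lf (nat_lit 0) (nat_lit 6456961194) (nat_lit 76) (nat_lit 64788765159) (nat_lit 76) (nat_lit 51864612483) (nat_lit 5) (nat_lit 4) (nat_lit 6) (nat_lit 5) (nat_lit 6) (nat_lit 4) (nat_lit 363) (nat_lit 295) (nat_lit 242))))))) (XT.nd (nat_lit 936) (nat_lit 76) (nat_lit 0) (XT.nd (nat_lit 468) (nat_lit 0) (nat_lit 0) (XT.nd (nat_lit 234) (nat_lit 152) (nat_lit 0) (XT.nd (nat_lit 78)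 (nat_lit 0) (nat_lit 0) (XT.lf (nat_lit 0) (nat_lit 33753747488) (nat_lit 76) (nat_lit 55732591911) (nat_lit 76) (nat_lit 42791956745) (nat_lit 5) (nat_lit 4) (nat_lit 6) (nat_lit 5) (nat_lit 6) (nat_lit 4) (nat_lit 364) (nat_lit 295) (nat_lit 241)) (XT.nd (nat_lit 78) (nat_lit 0) (nat_lit 0) (XT.lf (nat_lit 0) (nat_lit 63171654228) (nat_lit 76) (nat_lit 45982762337) (nat_lit 76) (nat_lit 33026865607) (nat_lit 5) (nat_lit 4) (nat_lit 6) (nat_lit 5) (nat_lit 6) (nat_lit 4) (nat_lit 365) (nat_lit 295) (nat_lit 240)) (XT.lf (nat_lit 0) (nat_lit 94885009750) (nat_lit 76) (nat_lit 35481499671) (nat_lit 76) (nat_lit 22511471861) (nat_lit 5) (nat_lit 4) (nat_lit 6) (nat_lit 5) (nat_lit 6) (nat_lit 4) (nat_lit 366) (nat_lit 295) (nat_lit 239)))) (XT.nd (nat_lit 78) (nat_lit 152) (nat_lit 0) (XT.lf (nat_lit 0) (nat_lit 129081745049) (nat_lit 76) (nat_lit 24166574206) (nat_lit 76) (nat_lit 11183462064)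 (nat_lit 5) (nat_lit 4) (nat_lit 6) (nat_lit 5) (nat_lit 6) (nat_lit 4) (nat_lit 367) (nat_lit 295) (nat_lit 238)) (XT.nd (nat_lit 78) (nat_lit 76) (nat_lit 0) (XT.lf (nat_lit 0) (nat_lit 991508966) (nat_lit 152) (nat_lit 10962633883) (nat_lit 76) (nat_lit 164956206795) (nat_lit 4) (nat_lit 5) (nat_lit 6) (nat_lit 5) (nat_lit 5) (nat_lit 4) (nat_lit 368) (nat_lit 295) (nat_lit 237)) (XT.lf (nat_lit 0) (nat_lit 14000374107) (nat_lit 152) (nat_lit 174751795394) (nat_lit 0) (nat_lit 1613283660) (nat_lit 3) (nat_lit 5) (nat_lit 5) (nat_lit 4) (nat_lit 3) (nat_lit 4) (nat_lit 369) (nat_lit 295) (nat_lit 236))))) (XT.nd (nat_lit 234) (nat_lit 0) (nat_lit 0) (XT.nd (nat_lit 78) (nat_lit 0) (nat_lit 0) (XT.lf (nat_lit 0) (nat_lit 28422576742) (nat_lit 152) (nat_lit 160430164540) (nat_lit 0) (nat_lit 16025594137) (nat_lit 3) (nat_lit 5) (nat_lit 5) (nat_lit 4) (nat_lit 3) (nat_lit 4) (nat_lit 370)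 (nat_lit 295) (nat_lit 235)) (XT.nd (nat_lit 78) (nat_lit 0) (nat_lit 0) (XT.lf (nat_lit 0) (nat_lit 43977228792) (nat_lit 152) (nat_lit 145005000756) (nat_lit 0) (nat_lit 31571086782) (nat_lit 3) (nat_lit 5) (nat_lit 5) (nat_lit 4) (nat_lit 3) (nat_lit 4) (nat_lit 371) (nat_lit 295) (nat_lit 234)) (XT.lf (nat_lit 0) (nat_lit 60756505974) (nat_lit 152) (nat_lit 128384895663) (nat_lit 0) (nat_lit 48341883034) (nat_lit 3) (nat_lit 5) (nat_lit 5) (nat_lit 4) (nat_lit 3) (nat_lit 4) (nat_lit 372) (nat_lit 295) (nat_lit 233)))) (XT.nd (nat_lit 78) (nat_lit 0) (nat_lit 0) (XT.lf (nat_lit 0) (nat_lit 78859841041) (nat_lit 152) (nat_lit 110471359751) (nat_lit 0) (nat_lit 66437365388) (nat_lit 3) (nat_lit 5) (nat_lit 5) (nat_lit 4) (nat_lit 3) (nat_lit 4) (nat_lit 373) (nat_lit 295) (nat_lit 232)) (XT.nd (nat_lit 78) (nat_lit 0) (nat_lit 0) (XT.lf (nat_lit 0) (nat_lit 98394513016) (nat_lit 152) (nat_lit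 91158238732) (nat_lit 0) (nat_lit 85964766333) (nat_lit 3) (nat_lit 5) (nat_lit 5) (nat_lit 4) (nat_lit 3) (nat_lit 4) (nat_lit 374) (nat_lit 295) (nat_lit 231)) (XT.lf (nat_lit 0) (nat_lit 119476282919) (nat_lit 152) (nat_lit 70331084483) (nat_lit 0) (nat_lit 107039803800) (nat_lit 3) (nat_lit 5) (nat_lit 5) (nat_lit 4) (nat_lit 3) (nat_lit 4) (nat_lit 375) (nat_lit 295) (nat_lit 230)))))) (XT.nd (nat_lit 468) (nat_lit 0) (nat_lit 0) (XT.nd (nat_lit 234) (nat_lit 0) (nat_lit 0) (XT.nd (nat_lit 78) (nat_lit 76) (nat_lit 0) (XT.lf (nat_lit 0) (nat_lit 142230079755) (nat_lit 152) (nat_lit 47866476828) (nat_lit 0) (nat_lit 129787366899) (nat_lit 3) (nat_lit 5) (nat_lit 5) (nat_lit 4) (nat_lit 3) (nat_lit 4) (nat_lit 376) (nat_lit 295) (nat_lit 229)) (XT.nd (nat_lit 78) (nat_lit 76) (nat_lit 0) (XT.lf (nat_lit 0) (nat_lit 166790740840) (nat_lit 152) (nat_lit 23631292169) (nat_lit 0) (nat_lit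 154342256006) (nat_lit 3) (nat_lit 5) (nat_lit 5) (nat_lit 4) (nat_lit 3) (nat_lit 4) (nat_lit 377) (nat_lit 295) (nat_lit 228)) (XT.lf (nat_lit 0) (nat_lit 2601344680) (nat_lit 76) (nat_lit 190743080432) (nat_lit 76) (nat_lit 178289251173) (nat_lit 2) (nat_lit 4) (nat_lit 3) (nat_lit 5) (nat_lit 3) (nat_lit 4) (nat_lit 378) (nat_lit 295) (nat_lit 227)))) (XT.nd (nat_lit 78) (nat_lit 0) (nat_lit 0) (XT.lf (nat_lit 0) (nat_lit 31752906476) (nat_lit 76) (nat_lit 190669249601) (nat_lit 76) (nat_lit 178210471800) (nat_lit 2) (nat_lit 4) (nat_lit 3) (nat_lit 5) (nat_lit 3) (nat_lit 4) (nat_lit 379) (nat_lit 295) (nat_lit 226)) (XT.nd (nat_lit 78) (nat_lit 0) (nat_lit 0) (XT.lf (nat_lit 0) (nat_lit 63214785972) (nat_lit 76) (nat_lit 190600310366) (nat_lit 76) (nat_lit 178136950583) (nat_lit 2) (nat_lit 4) (nat_lit 3) (nat_lit 5) (nat_lit 3) (nat_lit 4) (nat_lit 380) (nat_lit 295) (nat_lit 225))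 (XT.lf (nat_lit 0) (nat_lit 97173423937) (nat_lit 76) (nat_lit 190535854200) (nat_lit 76) (nat_lit 178068251841) (nat_lit 2) (nat_lit 4) (nat_lit 3) (nat_lit 5) (nat_lit 3) (nat_lit 4) (nat_lit 381) (nat_lit 295) (nat_lit 224))))) (XT.nd (nat_lit 234) (nat_lit 0) (nat_lit 0) (XT.nd (nat_lit 78) (nat_lit 0) (nat_lit 0) (XT.lf (nat_lit 0) (nat_lit 133830056743) (nat_lit 76) (nat_lit 190475499140) (nat_lit 76) (nat_lit 178003968469) (nat_lit 2) (nat_lit 4) (nat_lit 3) (nat_lit 5) (nat_lit 3) (nat_lit 4) (nat_lit 382) (nat_lit 295) (nat_lit 223)) (XT.nd (nat_lit 78) (nat_lit 0) (nat_lit 0) (XT.lf (nat_lit 0) (nat_lit 173401908881) (nat_lit 76) (nat_lit 190418887526) (nat_lit 76) (nat_lit 177943719529) (nat_lit 2) (nat_lit 4) (nat_lit 3) (nat_lit 5) (nat_lit 3) (nat_lit 4) (nat_lit 383) (nat_lit 295) (nat_lit 222)) (XT.lf (nat_lit 0) (nat_lit 216123480215) (nat_lit 76) (nat_lit 190365683882)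 (nat_lit 76) (nat_lit 177887147992) (nat_lit 2) (nat_lit 4) (nat_lit 3) (nat_lit 5) (nat_lit 3) (nat_lit 4) (nat_lit 384) (nat_lit 295) (nat_lit 221)))) (XT.nd (nat_lit 156) (nat_lit 0) (nat_lit 0) (XT.nd (nat_lit 78) (nat_lit 0) (nat_lit 0) (XT.lf (nat_lit 0) (nat_lit 262247935613) (nat_lit 76) (nat_lit 190315572928) (nat_lit 76) (nat_lit 177833918616) (nat_lit 2) (nat_lit 4) (nat_lit 3) (nat_lit 5) (nat_lit 3) (nat_lit 4) (nat_lit 385) (nat_lit 295) (nat_lit 220)) (XT.lf (nat_lit 0) (nat_lit 312048605181) (nat_lit 76) (nat_lit 190268257708) (nat_lit 76) (nat_lit 177783715971) (nat_lit 2) (nat_lit 4) (nat_lit 3) (nat_lit 5) (nat_lit 3) (nat_lit 4) (nat_lit 386) (nat_lit 295) (nat_lit 219))) (XT.nd (nat_lit 78) (nat_lit 0) (nat_lit 0) (XT.lf (nat_lit 0) (nat_lit 365820603998) (nat_lit 76) (nat_lit 190223457838) (nat_lit 76) (nat_lit 177736242557) (nat_lit 2) (nat_lit 4) (nat_lit 3) (nat_lit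 5) (nat_lit 3) (nat_lit 4) (nat_lit 387) (nat_lit 295) (nat_lit 218)) (XT.lf (nat_lit 0) (nat_lit 423882580945) (nat_lit 76) (nat_lit 190180907835) (nat_lit 76) (nat_lit 177691217052) (nat_lit 2) (nat_lit 4) (nat_lit 3) (nat_lit 5) (nat_lit 3) (nat_lit 4) (nat_lit 388) (nat_lit 295) (nat_lit 217))))))))
noncomputable def xc39 : XT := (XT.nd (nat_lit 41964) (nat_lit 0) (nat_lit 760) (XT.nd (nat_lit 40950) (nat_lit 0) (nat_lit 3268) (XT.nd (nat_lit 468) (nat_lit 0) (nat_lit 0) (XT.nd (nat_lit 234) (nat_lit 0) (nat_lit 0) (XT.nd (nat_lit 78) (nat_lit 0) (nat_lit 0) (XT.lf (nat_lit 0) (nat_lit 486578606996) (nat_lit 76) (nat_lit 190140355553) (nat_lit 76) (nat_lit 177648372638) (nat_lit 2) (nat_lit 4) (nat_lit 3) (nat_lit 5) (nat_lit 3) (nat_lit 4) (nat_lit 389) (nat_lit 295) (nat_lit 216)) (XT.nd (nat_lit 78) (nat_lit 0) (nat_lit 0) (XT.lf (nat_lit 0) (nat_lit 554280214160) (nat_lit 76) (nat_lit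 190101560681) (nat_lit 76) (nat_lit 177607455421) (nat_lit 2) (nat_lit 4) (nat_lit 3) (nat_lit 5) (nat_lit 3) (nat_lit 4) (nat_lit 390) (nat_lit 295) (nat_lit 215)) (XT.lf (nat_lit 0) (nat_lit 627388597143) (nat_lit 76) (nat_lit 190064293323) (nat_lit 76) (nat_lit 177568222930) (nat_lit 2) (nat_lit 4) (nat_lit 3) (nat_lit 5) (nat_lit 3) (nat_lit 4) (nat_lit 391) (nat_lit 295) (nat_lit 214)))) (XT.nd (nat_lit 78) (nat_lit 0) (nat_lit 0) (XT.lf (nat_lit 0) (nat_lit 706336990809) (nat_lit 76) (nat_lit 190028332637) (nat_lit 76) (nat_lit 177530442675) (nat_lit 2) (nat_lit 4) (nat_lit 3) (nat_lit 5) (nat_lit 3) (nat_lit 4) (nat_lit 392) (nat_lit 295) (nat_lit 213)) (XT.nd (nat_lit 78) (nat_lit 0) (nat_lit 0) (XT.lf (nat_lit 0) (nat_lit 791593237491) (nat_lit 76) (nat_lit 189993465521) (nat_lit 76) (nat_lit 177493890773) (nat_lit 2) (nat_lit 4) (nat_lit 3) (nat_lit 5) (nat_lit 3) (nat_lit 4) (nat_lit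 393) (nat_lit 295) (nat_lit 212)) (XT.lf (nat_lit 0) (nat_lit 883662559390) (nat_lit 76) (nat_lit 189959485356) (nat_lit 76) (nat_lit 177458350622) (nat_lit 2) (nat_lit 4) (nat_lit 3) (nat_lit 5) (nat_lit 3) (nat_lit 4) (nat_lit 394) (nat_lit 295) (nat_lit 211))))) (XT.nd (nat_lit 40248) (nat_lit 0) (nat_lit 7372) (XT.nd (nat_lit 40092) (nat_lit 0) (nat_lit 9348) (XT.lf (nat_lit 0) (nat_lit 983090552489) (nat_lit 76) (nat_lit 189926190777) (nat_lit 76) (nat_lit 177423611611) (nat_lit 2) (nat_lit 4) (nat_lit 3) (nat_lit 5) (nat_lit 3) (nat_lit 4) (nat_lit 395) (nat_lit 295) (nat_lit 210)) (XT.nd (nat_lit 78) (nat_lit 684) (nat_lit 0) (XT.lf (nat_lit 0) (nat_lit 1475193904) (nat_lit 532) (nat_lit 991138895) (nat_lit 532) (nat_lit 991138895) (nat_lit 134) (nat_lit 4) (nat_lit 141) (nat_lit 5) (nat_lit 141) (nat_lit 4) (nat_lit 308) (nat_lit 296) (nat_lit 296)) (XT.lf (nat_lit 0) (nat_lit 3208206604)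 (nat_lit 684) (nat_lit 3419209827) (nat_lit 0) (nat_lit 417645043) (nat_lit 125) (nat_lit 5) (nat_lit 134) (nat_lit 4) (nat_lit 125) (nat_lit 4) (nat_lit 309) (nat_lit 296) (nat_lit 295)))) (XT.nd (nat_lit 78) (nat_lit 1216) (nat_lit 0) (XT.lf (nat_lit 0) (nat_lit 1270752164) (nat_lit 760) (nat_lit 2769372920) (nat_lit 76) (nat_lit 3155077590) (nat_lit 115) (nat_lit 5) (nat_lit 125) (nat_lit 5) (nat_lit 116) (nat_lit 4) (nat_lit 310) (nat_lit 296) (nat_lit 294)) (XT.nd (nat_lit 78) (nat_lit 456) (nat_lit 0) (XT.lf (nat_lit 0) (nat_lit 5366775196) (nat_lit 760) (nat_lit 1039881784) (nat_lit 836) (nat_lit 960278827) (nat_lit 105) (nat_lit 5) (nat_lit 115) (nat_lit 5) (nat_lit 116) (nat_lit 4) (nat_lit 311) (nat_lit 296) (nat_lit 293)) (XT.lf (nat_lit 0) (nat_lit 4071795857) (nat_lit 456) (nat_lit 1159589304) (nat_lit 76) (nat_lit 2327385663) (nat_lit 99) (nat_lit 5) (nat_lit 105) (nat_lit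 5) (nat_lit 100) (nat_lit 4) (nat_lit 312) (nat_lit 296) (nat_lit 292)))))) (XT.nd (nat_lit 468) (nat_lit 1748) (nat_lit 0) (XT.nd (nat_lit 234) (nat_lit 912) (nat_lit 0) (XT.nd (nat_lit 78) (nat_lit 1064) (nat_lit 0) (XT.lf (nat_lit 0) (nat_lit 1467369171) (nat_lit 380) (nat_lit 212979105) (nat_lit 76) (nat_lit 6093099776) (nat_lit 94) (nat_lit 5) (nat_lit 99) (nat_lit 5) (nat_lit 95) (nat_lit 5) (nat_lit 313) (nat_lit 296) (nat_lit 291)) (XT.nd (nat_lit 78) (nat_lit 380) (nat_lit 0) (XT.lf (nat_lit 0) (nat_lit 822487611) (nat_lit 304) (nat_lit 5743192297) (nat_lit 380) (nat_lit 1443582634) (nat_lit 85) (nat_lit 5) (nat_lit 89) (nat_lit 5) (nat_lit 90) (nat_lit 4) (nat_lit 314) (nat_lit 296) (nat_lit 290)) (XT.lf (nat_lit 0) (nat_lit 1926526141) (nat_lit 304) (nat_lit 1630008387) (nat_lit 380) (nat_lit 4711183992) (nat_lit 80) (nat_lit 5) (nat_lit 84) (nat_lit 5) (nat_lit 85) (nat_lit 5)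 (nat_lit 315) (nat_lit 296) (nat_lit 289)))) (XT.nd (nat_lit 78) (nat_lit 608) (nat_lit 0) (XT.lf (nat_lit 0) (nat_lit 251144113) (nat_lit 304) (nat_lit 5454955036) (nat_lit 76) (nat_lit 2844415574) (nat_lit 76) (nat_lit 5) (nat_lit 80) (nat_lit 5) (nat_lit 77) (nat_lit 5) (nat_lit 316) (nat_lit 296) (nat_lit 288)) (XT.nd (nat_lit 78) (nat_lit 304) (nat_lit 0) (XT.lf (nat_lit 0) (nat_lit 4285386558) (nat_lit 304) (nat_lit 1064850219) (nat_lit 380) (nat_lit 3506818057) (nat_lit 72) (nat_lit 5) (nat_lit 76) (nat_lit 5) (nat_lit 77) (nat_lit 5) (nat_lit 317) (nat_lit 296) (nat_lit 287)) (XT.lf (nat_lit 0) (nat_lit 1570154060) (nat_lit 304) (nat_lit 3687415189) (nat_lit 76) (nat_lit 3931721177) (nat_lit 68) (nat_lit 5) (nat_lit 72) (nat_lit 5) (nat_lit 69) (nat_lit 5) (nat_lit 318) (nat_lit 296) (nat_lit 286))))) (XT.nd (nat_lit 234) (nat_lit 988) (nat_lit 0) (XT.nd (nat_lit 78) (nat_lit 532)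 (nat_lit 0) (XT.lf (nat_lit 0) (nat_lit 6744297749) (nat_lit 228) (nat_lit 113549314) (nat_lit 304) (nat_lit 2691194689) (nat_lit 65) (nat_lit 5) (nat_lit 68) (nat_lit 5) (nat_lit 69) (nat_lit 5) (nat_lit 319) (nat_lit 296) (nat_lit 285)) (XT.nd (nat_lit 78) (nat_lit 228) (nat_lit 0) (XT.lf (nat_lit 0) (nat_lit 2556327696) (nat_lit 304) (nat_lit 1989024524) (nat_lit 76) (nat_lit 5389850449) (nat_lit 61) (nat_lit 5) (nat_lit 65) (nat_lit 5) (nat_lit 62) (nat_lit 5) (nat_lit 320) (nat_lit 296) (nat_lit 284)) (XT.lf (nat_lit 0) (nat_lit 8086810217) (nat_lit 304) (nat_lit 1197226489) (nat_lit 76) (nat_lit 1068290696) (nat_lit 58) (nat_lit 5) (nat_lit 62) (nat_lit 5) (nat_lit 59) (nat_lit 4) (nat_lit 321) (nat_lit 296) (nat_lit 283)))) (XT.nd (nat_lit 156) (nat_lit 380) (nat_lit 0) (XT.nd (nat_lit 78) (nat_lit 380) (nat_lit 0) (XT.lf (nat_lit 0) (nat_lit 3181868898) (nat_lit 228) (nat_lit 512088931)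 (nat_lit 76) (nat_lit 7104993213) (nat_lit 55) (nat_lit 5) (nat_lit 58) (nat_lit 5) (nat_lit 56) (nat_lit 5) (nat_lit 322) (nat_lit 296) (nat_lit 282)) (XT.lf (nat_lit 0) (nat_lit 96851143) (nat_lit 152) (nat_lit 8893403464) (nat_lit 228) (nat_lit 2289085636) (nat_lit 50) (nat_lit 5) (nat_lit 52) (nat_lit 5) (nat_lit 53) (nat_lit 4) (nat_lit 323) (nat_lit 296) (nat_lit 281))) (XT.nd (nat_lit 78) (nat_lit 152) (nat_lit 0) (XT.lf (nat_lit 0) (nat_lit 572598917) (nat_lit 152) (nat_lit 2827166070) (nat_lit 228) (nat_lit 8393521849) (nat_lit 47) (nat_lit 5) (nat_lit 49) (nat_lit 5) (nat_lit 50) (nat_lit 5) (nat_lit 324) (nat_lit 296) (nat_lit 280)) (XT.lf (nat_lit 0) (nat_lit 885951213) (nat_lit 152) (nat_lit 8622752202) (nat_lit 228) (nat_lit 2835609924) (nat_lit 45) (nat_lit 5) (nat_lit 47) (nat_lit 5) (nat_lit 48) (nat_lit 4) (nat_lit 325) (nat_lit 296) (nat_lit 279))))))) (XT.nd (nat_lit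 936) (nat_lit 912) (nat_lit 0) (XT.nd (nat_lit 468) (nat_lit 684) (nat_lit 0) (XT.nd (nat_lit 234) (nat_lit 304) (nat_lit 0) (XT.nd (nat_lit 78) (nat_lit 380) (nat_lit 0) (XT.lf (nat_lit 0) (nat_lit 1001449149) (nat_lit 152) (nat_lit 2107810268) (nat_lit 228) (nat_lit 9825593641) (nat_lit 42) (nat_lit 5) (nat_lit 44) (nat_lit 5) (nat_lit 45) (nat_lit 5) (nat_lit 326) (nat_lit 296) (nat_lit 278)) (XT.nd (nat_lit 78) (nat_lit 228) (nat_lit 0) (XT.lf (nat_lit 0) (nat_lit 848721179) (nat_lit 152) (nat_lit 8666346211) (nat_lit 228) (nat_lit 4051090691) (nat_lit 40) (nat_lit 5) (nat_lit 42) (nat_lit 5) (nat_lit 43) (nat_lit 4) (nat_lit 327) (nat_lit 296) (nat_lit 277)) (XT.lf (nat_lit 0) (nat_lit 436557156) (nat_lit 152) (nat_lit 1729697953) (nat_lit 228) (nat_lit 12077536562) (nat_lit 37) (nat_lit 5) (nat_lit 39) (nat_lit 5) (nat_lit 40) (nat_lit 5) (nat_lit 328) (nat_lit 296) (nat_lit 276))))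 (XT.nd (nat_lit 78) (nat_lit 304) (nat_lit 0) (XT.lf (nat_lit 0) (nat_lit 8860957933) (nat_lit 228) (nat_lit 368283150) (nat_lit 76) (nat_lit 5737045567) (nat_lit 37) (nat_lit 5) (nat_lit 40) (nat_lit 5) (nat_lit 38) (nat_lit 4) (nat_lit 329) (nat_lit 296) (nat_lit 275)) (XT.nd (nat_lit 78) (nat_lit 152) (nat_lit 0) (XT.lf (nat_lit 0) (nat_lit 405859588) (nat_lit 152) (nat_lit 1490359951) (nat_lit 76) (nat_lit 13846539317) (nat_lit 35) (nat_lit 5) (nat_lit 37) (nat_lit 5) (nat_lit 36) (nat_lit 5) (nat_lit 330) (nat_lit 296) (nat_lit 274)) (XT.lf (nat_lit 0) (nat_lit 7366565716) (nat_lit 228) (nat_lit 3173489383) (nat_lit 76) (nat_lit 6029217288) (nat_lit 33) (nat_lit 5) (nat_lit 36) (nat_lit 5) (nat_lit 34) (nat_lit 4) (nat_lit 331) (nat_lit 296) (nat_lit 273))))) (XT.nd (nat_lit 234) (nat_lit 304) (nat_lit 0) (XT.nd (nat_lit 78) (nat_lit 304) (nat_lit 0) (XT.lf (nat_lit 0) (nat_lit 12121967828)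 (nat_lit 76) (nat_lit 2841349511) (nat_lit 152) (nat_lit 2494680306) (nat_lit 32) (nat_lit 5) (nat_lit 33) (nat_lit 5) (nat_lit 34) (nat_lit 4) (nat_lit 332) (nat_lit 296) (nat_lit 272)) (XT.nd (nat_lit 78) (nat_lit 76) (nat_lit 0) (XT.lf (nat_lit 0) (nat_lit 4740124886) (nat_lit 228) (nat_lit 8197155755) (nat_lit 76) (nat_lit 5469768126) (nat_lit 29) (nat_lit 5) (nat_lit 32) (nat_lit 5) (nat_lit 30) (nat_lit 4) (nat_lit 333) (nat_lit 296) (nat_lit 271)) (XT.lf (nat_lit 0) (nat_lit 7630696534) (nat_lit 76) (nat_lit 4941012703) (nat_lit 152) (nat_lit 6853041016) (nat_lit 28) (nat_lit 5) (nat_lit 29) (nat_lit 5) (nat_lit 30) (nat_lit 4) (nat_lit 334) (nat_lit 296) (nat_lit 270)))) (XT.nd (nat_lit 78) (nat_lit 76) (nat_lit 0) (XT.lf (nat_lit 0) (nat_lit 609814572) (nat_lit 228) (nat_lit 16227400078) (nat_lit 76) (nat_lit 3680291524) (nat_lit 25) (nat_lit 5) (nat_lit 28) (nat_lit 5) (nat_lit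 26) (nat_lit 4) (nat_lit 335) (nat_lit 296) (nat_lit 269)) (XT.nd (nat_lit 78) (nat_lit 76) (nat_lit 0) (XT.lf (nat_lit 0) (nat_lit 8577821203) (nat_lit 228) (nat_lit 78249754) (nat_lit 76) (nat_lit 13028616776) (nat_lit 25) (nat_lit 5) (nat_lit 28) (nat_lit 5) (nat_lit 26) (nat_lit 4) (nat_lit 336) (nat_lit 296) (nat_lit 268)) (XT.lf (nat_lit 0) (nat_lit 17328591312) (nat_lit 152) (nat_lit 5265895762) (nat_lit 0) (nat_lit 343521517) (nat_lit 24) (nat_lit 5) (nat_lit 26) (nat_lit 4) (nat_lit 24) (nat_lit 4) (nat_lit 337) (nat_lit 296) (nat_lit 267)))))) (XT.nd (nat_lit 468) (nat_lit 456) (nat_lit 0) (XT.nd (nat_lit 234) (nat_lit 228) (nat_lit 0) (XT.nd (nat_lit 78) (nat_lit 76) (nat_lit 0) (XT.lf (nat_lit 0) (nat_lit 2623581339) (nat_lit 152) (nat_lit 11757997946) (nat_lit 76) (nat_lit 9897332033) (nat_lit 22) (nat_lit 5) (nat_lit 24) (nat_lit 5) (nat_lit 23) (nat_lit 4) (nat_lit 338) (nat_lit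 296) (nat_lit 266)) (XT.nd (nat_lit 78) (nat_lit 0) (nat_lit 0) (XT.lf (nat_lit 0) (nat_lit 6055713145) (nat_lit 76) (nat_lit 5325807613) (nat_lit 152) (nat_lit 14337851492) (nat_lit 21) (nat_lit 5) (nat_lit 22) (nat_lit 5) (nat_lit 23) (nat_lit 4) (nat_lit 339) (nat_lit 296) (nat_lit 265)) (XT.lf (nat_lit 0) (nat_lit 20994471651) (nat_lit 152) (nat_lit 1855663667) (nat_lit 0) (nat_lit 4417239302) (nat_lit 21) (nat_lit 5) (nat_lit 23) (nat_lit 4) (nat_lit 21) (nat_lit 4) (nat_lit 340) (nat_lit 296) (nat_lit 264)))) (XT.nd (nat_lit 78) (nat_lit 76) (nat_lit 0) (XT.lf (nat_lit 0) (nat_lit 2614278461) (nat_lit 152) (nat_lit 11332326190) (nat_lit 76) (nat_lit 14977978340) (nat_lit 19) (nat_lit 5) (nat_lit 21) (nat_lit 5) (nat_lit 20) (nat_lit 4) (nat_lit 341) (nat_lit 296) (nat_lit 263)) (XT.nd (nat_lit 78) (nat_lit 0) (nat_lit 0) (XT.lf (nat_lit 0) (nat_lit 7886179104) (nat_lit 76) (nat_lit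 4154635222) (nat_lit 152) (nat_lit 18666023477) (nat_lit 18) (nat_lit 5) (nat_lit 19) (nat_lit 5) (nat_lit 20) (nat_lit 4) (nat_lit 342) (nat_lit 296) (nat_lit 262)) (XT.lf (nat_lit 0) (nat_lit 22415189011) (nat_lit 152) (nat_lit 3882616903) (nat_lit 0) (nat_lit 6324198963) (nat_lit 18) (nat_lit 5) (nat_lit 20) (nat_lit 4) (nat_lit 18) (nat_lit 4) (nat_lit 343) (nat_lit 296) (nat_lit 261))))) (XT.nd (nat_lit 234) (nat_lit 228) (nat_lit 0) (XT.nd (nat_lit 78) (nat_lit 152) (nat_lit 0) (XT.lf (nat_lit 0) (nat_lit 16850693286) (nat_lit 76) (nat_lit 17002733015) (nat_lit 76) (nat_lit 825279752) (nat_lit 17) (nat_lit 4) (nat_lit 18) (nat_lit 5) (nat_lit 18) (nat_lit 4) (nat_lit 344) (nat_lit 296) (nat_lit 260)) (XT.nd (nat_lit 78) (nat_lit 0) (nat_lit 0) (XT.lf (nat_lit 0) (nat_lit 2225541831) (nat_lit 76) (nat_lit 6790581889) (nat_lit 152) (nat_lit 27876207814) (nat_lit 15) (nat_lit 5) (nat_lit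 16) (nat_lit 5) (nat_lit 17) (nat_lit 4) (nat_lit 345) (nat_lit 296) (nat_lit 259)) (XT.lf (nat_lit 0) (nat_lit 19904931347) (nat_lit 152) (nat_lit 15012013900) (nat_lit 0) (nat_lit 4350988426) (nat_lit 15) (nat_lit 5) (nat_lit 17) (nat_lit 4) (nat_lit 15) (nat_lit 4) (nat_lit 346) (nat_lit 296) (nat_lit 258)))) (XT.nd (nat_lit 156) (nat_lit 76) (nat_lit 0) (XT.nd (nat_lit 78) (nat_lit 76) (nat_lit 0) (XT.lf (nat_lit 0) (nat_lit 6130824813) (nat_lit 76) (nat_lit 25657943537) (nat_lit 76) (nat_lit 10038631770) (nat_lit 14) (nat_lit 4) (nat_lit 15) (nat_lit 5) (nat_lit 15) (nat_lit 4) (nat_lit 347) (nat_lit 296) (nat_lit 257)) (XT.lf (nat_lit 0) (nat_lit 212715419) (nat_lit 152) (nat_lit 15243771864) (nat_lit 76) (nat_lit 29126020712) (nat_lit 13) (nat_lit 5) (nat_lit 15) (nat_lit 5) (nat_lit 14) (nat_lit 4) (nat_lit 348) (nat_lit 296) (nat_lit 256))) (XT.nd (nat_lit 78) (nat_lit 0) (nat_lit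 0) (XT.lf (nat_lit 0) (nat_lit 6742141507) (nat_lit 76) (nat_lit 4222747873) (nat_lit 152) (nat_lit 36583295649) (nat_lit 12) (nat_lit 5) (nat_lit 13) (nat_lit 5) (nat_lit 14) (nat_lit 4) (nat_lit 349) (nat_lit 296) (nat_lit 255)) (XT.lf (nat_lit 0) (nat_lit 22895507833) (nat_lit 152) (nat_lit 19980171263) (nat_lit 0) (nat_lit 7859532956) (nat_lit 12) (nat_lit 5) (nat_lit 14) (nat_lit 4) (nat_lit 12) (nat_lit 4) (nat_lit 350) (nat_lit 296) (nat_lit 254))))))))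
noncomputable def xc40 : XT := (XT.nd (nat_lit 1872) (nat_lit 76) (nat_lit 0) (XT.nd (nat_lit 936) (nat_lit 228) (nat_lit 0) (XT.nd (nat_lit 468) (nat_lit 228) (nat_lit 0) (XT.nd (nat_lit 234) (nat_lit 76) (nat_lit 0) (XT.nd (nat_lit 78) (nat_lit 76) (nat_lit 0) (XT.lf (nat_lit 0) (nat_lit 2381833969) (nat_lit 76) (nat_lit 33437584364) (nat_lit 76) (nat_lit 18355849437) (nat_lit 11) (nat_lit 4) (nat_lit 12) (nat_lit 5) (nat_lit 12) (nat_lit 4) (nat_lit 351) (nat_lit 296) (nat_lit 253)) (XT.nd (nat_lit 78) (nat_lit 76) (nat_lit 0) (XT.lf (nat_lit 0) (nat_lit 27117183471) (nat_lit 76) (nat_lit 22941688170) (nat_lit 76) (nat_lit 7817582826) (nat_lit 11) (nat_lit 4) (nat_lit 12) (nat_lit 5) (nat_lit 12) (nat_lit 4) (nat_lit 352) (nat_lit 296) (nat_lit 252)) (XT.lf (nat_lit 0) (nat_lit 3387175416) (nat_lit 152) (nat_lit 8219627609) (nat_lit 76) (nat_lit 50267283526) (nat_lit 10) (nat_lit 5) (nat_lit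 12) (nat_lit 5) (nat_lit 11) (nat_lit 4) (nat_lit 353) (nat_lit 296) (nat_lit 251)))) (XT.nd (nat_lit 78) (nat_lit 0) (nat_lit 0) (XT.lf (nat_lit 0) (nat_lit 15431734808) (nat_lit 152) (nat_lit 49786662290) (nat_lit 0) (nat_lit 955865269) (nat_lit 9) (nat_lit 5) (nat_lit 11) (nat_lit 4) (nat_lit 9) (nat_lit 4) (nat_lit 354) (nat_lit 296) (nat_lit 250)) (XT.nd (nat_lit 78) (nat_lit 0) (nat_lit 0) (XT.lf (nat_lit 0) (nat_lit 28725008121) (nat_lit 152) (nat_lit 27862087488) (nat_lit 0) (nat_lit 14217105246) (nat_lit 9) (nat_lit 5) (nat_lit 11) (nat_lit 4) (nat_lit 9) (nat_lit 4) (nat_lit 355) (nat_lit 296) (nat_lit 249)) (XT.lf (nat_lit 0) (nat_lit 43029807591) (nat_lit 152) (nat_lit 4285085013) (nat_lit 0) (nat_lit 28492244219) (nat_lit 9) (nat_lit 5) (nat_lit 11) (nat_lit 4) (nat_lit 9) (nat_lit 4) (nat_lit 356) (nat_lit 296) (nat_lit 248))))) (XT.nd (nat_lit 234) (nat_lit 76) (nat_lit 0)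 (XT.nd (nat_lit 78) (nat_lit 76) (nat_lit 0) (XT.lf (nat_lit 0) (nat_lit 21781194972) (nat_lit 76) (nat_lit 36989772922) (nat_lit 76) (nat_lit 22424746127) (nat_lit 8) (nat_lit 4) (nat_lit 9) (nat_lit 5) (nat_lit 9) (nat_lit 4) (nat_lit 357) (nat_lit 296) (nat_lit 247)) (XT.nd (nat_lit 78) (nat_lit 76) (nat_lit 0) (XT.lf (nat_lit 0) (nat_lit 49995865269) (nat_lit 76) (nat_lit 25804268594) (nat_lit 76) (nat_lit 11213812704) (nat_lit 8) (nat_lit 4) (nat_lit 9) (nat_lit 5) (nat_lit 9) (nat_lit 4) (nat_lit 358) (nat_lit 296) (nat_lit 246)) (XT.lf (nat_lit 0) (nat_lit 822152146) (nat_lit 152) (nat_lit 12928589448) (nat_lit 76) (nat_lit 79548363970) (nat_lit 7) (nat_lit 5) (nat_lit 9) (nat_lit 5) (nat_lit 8) (nat_lit 4) (nat_lit 359) (nat_lit 296) (nat_lit 245)))) (XT.nd (nat_lit 78) (nat_lit 0) (nat_lit 0) (XT.lf (nat_lit 0) (nat_lit 13244452746) (nat_lit 76) (nat_lit 355671860) (nat_lit 152)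 (nat_lit 86469164564) (nat_lit 6) (nat_lit 5) (nat_lit 7) (nat_lit 5) (nat_lit 8) (nat_lit 4) (nat_lit 360) (nat_lit 296) (nat_lit 244)) (XT.nd (nat_lit 78) (nat_lit 0) (nat_lit 0) (XT.lf (nat_lit 0) (nat_lit 27810738576) (nat_lit 152) (nat_lit 65697178655) (nat_lit 0) (nat_lit 13852653687) (nat_lit 6) (nat_lit 5) (nat_lit 8) (nat_lit 4) (nat_lit 6) (nat_lit 4) (nat_lit 361) (nat_lit 296) (nat_lit 243)) (XT.lf (nat_lit 0) (nat_lit 43128265409) (nat_lit 152) (nat_lit 42956010550) (nat_lit 0) (nat_lit 29152379430) (nat_lit 6) (nat_lit 5) (nat_lit 8) (nat_lit 4) (nat_lit 6) (nat_lit 4) (nat_lit 362) (nat_lit 296) (nat_lit 242)))))) (XT.nd (nat_lit 468) (nat_lit 152) (nat_lit 0) (XT.nd (nat_lit 234) (nat_lit 0) (nat_lit 0) (XT.nd (nat_lit 78) (nat_lit 76) (nat_lit 0) (XT.lf (nat_lit 0) (nat_lit 59637922600) (nat_lit 152) (nat_lit 18461016596) (nat_lit 0) (nat_lit 45645554130) (nat_lit 6) (nat_lit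 5) (nat_lit 8) (nat_lit 4) (nat_lit 6) (nat_lit 4) (nat_lit 363) (nat_lit 296) (nat_lit 241)) (XT.nd (nat_lit 78) (nat_lit 0) (nat_lit 0) (XT.lf (nat_lit 0) (nat_lit 8195258165) (nat_lit 76) (nat_lit 69370237935) (nat_lit 76) (nat_lit 55362607901) (nat_lit 5) (nat_lit 4) (nat_lit 6) (nat_lit 5) (nat_lit 6) (nat_lit 4) (nat_lit 364) (nat_lit 296) (nat_lit 240)) (XT.lf (nat_lit 0) (nat_lit 37585288099) (nat_lit 76) (nat_lit 59634135897) (nat_lit 76) (nat_lit 45612374783) (nat_lit 5) (nat_lit 4) (nat_lit 6) (nat_lit 5) (nat_lit 6) (nat_lit 4) (nat_lit 365) (nat_lit 296) (nat_lit 239)))) (XT.nd (nat_lit 78) (nat_lit 0) (nat_lit 0) (XT.lf (nat_lit 0) (nat_lit 69272831762) (nat_lit 76) (nat_lit 49145583910) (nat_lit 76) (nat_lit 35110738465) (nat_lit 5) (nat_lit 4) (nat_lit 6) (nat_lit 5) (nat_lit 6) (nat_lit 4) (nat_lit 366) (nat_lit 296) (nat_lit 238)) (XT.nd (nat_lit 78) (nat_lit 0) (nat_lit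 0) (XT.lf (nat_lit 0) (nat_lit 103445667193) (nat_lit 76) (nat_lit 37842427595) (nat_lit 76) (nat_lit 23795467027) (nat_lit 5) (nat_lit 4) (nat_lit 6) (nat_lit 5) (nat_lit 6) (nat_lit 4) (nat_lit 367) (nat_lit 296) (nat_lit 237)) (XT.lf (nat_lit 0) (nat_lit 140306300081) (nat_lit 76) (nat_lit 25657685282) (nat_lit 76) (nat_lit 11599507008) (nat_lit 5) (nat_lit 4) (nat_lit 6) (nat_lit 5) (nat_lit 6) (nat_lit 4) (nat_lit 368) (nat_lit 296) (nat_lit 236))))) (XT.nd (nat_lit 234) (nat_lit 0) (nat_lit 0) (XT.nd (nat_lit 78) (nat_lit 76) (nat_lit 0) (XT.lf (nat_lit 0) (nat_lit 1499823023) (nat_lit 152) (nat_lit 10993927839) (nat_lit 76) (nat_lit 178547940555) (nat_lit 4) (nat_lit 5) (nat_lit 6) (nat_lit 5) (nat_lit 5) (nat_lit 4) (nat_lit 369) (nat_lit 296) (nat_lit 235)) (XT.nd (nat_lit 78) (nat_lit 0) (nat_lit 0) (XT.lf (nat_lit 0) (nat_lit 15536481601) (nat_lit 152) (nat_lit 187908681284) (nat_lit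 0) (nat_lit 2128688826) (nat_lit 3) (nat_lit 5) (nat_lit 5) (nat_lit 4) (nat_lit 3) (nat_lit 4) (nat_lit 370) (nat_lit 296) (nat_lit 234)) (XT.lf (nat_lit 0) (nat_lit 31081639886) (nat_lit 152) (nat_lit 172502302016) (nat_lit 0) (nat_lit 17665366181) (nat_lit 3) (nat_lit 5) (nat_lit 5) (nat_lit 4) (nat_lit 3) (nat_lit 4) (nat_lit 371) (nat_lit 296) (nat_lit 233)))) (XT.nd (nat_lit 78) (nat_lit 0) (nat_lit 0) (XT.lf (nat_lit 0) (nat_lit 47852126544) (nat_lit 152) (nat_lit 155899589995) (nat_lit 0) (nat_lit 34428000126) (nat_lit 3) (nat_lit 5) (nat_lit 5) (nat_lit 4) (nat_lit 3) (nat_lit 4) (nat_lit 372) (nat_lit 296) (nat_lit 232)) (XT.nd (nat_lit 78) (nat_lit 0) (nat_lit 0) (XT.lf (nat_lit 0) (nat_lit 65947322237) (nat_lit 152) (nat_lit 138002158778) (nat_lit 0) (nat_lit 52515924789) (nat_lit 3) (nat_lit 5) (nat_lit 5) (nat_lit 4) (nat_lit 3) (nat_lit 4) (nat_lit 373) (nat_lit 296) (nat_lit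 231)) (XT.lf (nat_lit 0) (nat_lit 85474457755) (nat_lit 152) (nat_lit 118703949515) (nat_lit 0) (nat_lit 72036327871) (nat_lit 3) (nat_lit 5) (nat_lit 5) (nat_lit 4) (nat_lit 3) (nat_lit 4) (nat_lit 374) (nat_lit 296) (nat_lit 230))))))) (XT.nd (nat_lit 936) (nat_lit 0) (nat_lit 0) (XT.nd (nat_lit 468) (nat_lit 0) (nat_lit 0) (XT.nd (nat_lit 234) (nat_lit 76) (nat_lit 0) (XT.nd (nat_lit 78) (nat_lit 0) (nat_lit 0) (XT.lf (nat_lit 0) (nat_lit 106549249457) (nat_lit 152) (nat_lit 97890602445) (nat_lit 0) (nat_lit 93104885836) (nat_lit 3) (nat_lit 5) (nat_lit 5) (nat_lit 4) (nat_lit 3) (nat_lit 4) (nat_lit 375) (nat_lit 296) (nat_lit 229)) (XT.nd (nat_lit 78) (nat_lit 0) (nat_lit 0) (XT.lf (nat_lit 0) (nat_lit 129296584996) (nat_lit 152) (nat_lit 75438779217) (nat_lit 0) (nat_lit 115846449396) (nat_lit 3) (nat_lit 5) (nat_lit 5) (nat_lit 4) (nat_lit 3) (nat_lit 4) (nat_lit 376) (nat_lit 296)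 (nat_lit 228)) (XT.lf (nat_lit 0) (nat_lit 153851263398) (nat_lit 152) (nat_lit 51215431989) (nat_lit 0) (nat_lit 140395783374) (nat_lit 3) (nat_lit 5) (nat_lit 5) (nat_lit 4) (nat_lit 3) (nat_lit 4) (nat_lit 377) (nat_lit 296) (nat_lit 227)))) (XT.nd (nat_lit 78) (nat_lit 76) (nat_lit 0) (XT.lf (nat_lit 0) (nat_lit 180358793869) (nat_lit 152) (nat_lit 25077015000) (nat_lit 0) (nat_lit 166898365303) (nat_lit 3) (nat_lit 5) (nat_lit 5) (nat_lit 4) (nat_lit 3) (nat_lit 4) (nat_lit 378) (nat_lit 296) (nat_lit 226)) (XT.nd (nat_lit 78) (nat_lit 0) (nat_lit 0) (XT.lf (nat_lit 0) (nat_lit 3234903176) (nat_lit 76) (nat_lit 205791860798) (nat_lit 76) (nat_lit 192326850250) (nat_lit 2) (nat_lit 4) (nat_lit 3) (nat_lit 5) (nat_lit 3) (nat_lit 4) (nat_lit 379) (nat_lit 296) (nat_lit 225)) (XT.lf (nat_lit 0) (nat_lit 34687075032) (nat_lit 76) (nat_lit 205727728394) (nat_lit 76) (nat_lit 192258475269)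 (nat_lit 2) (nat_lit 4) (nat_lit 3) (nat_lit 5) (nat_lit 3) (nat_lit 4) (nat_lit 380) (nat_lit 296) (nat_lit 224))))) (XT.nd (nat_lit 234) (nat_lit 0) (nat_lit 0) (XT.nd (nat_lit 78) (nat_lit 0) (nat_lit 0) (XT.lf (nat_lit 0) (nat_lit 68636724441) (nat_lit 76) (nat_lit 205667722997) (nat_lit 76) (nat_lit 192194541561) (nat_lit 2) (nat_lit 4) (nat_lit 3) (nat_lit 5) (nat_lit 3) (nat_lit 4) (nat_lit 381) (nat_lit 296) (nat_lit 223)) (XT.nd (nat_lit 78) (nat_lit 0) (nat_lit 0) (XT.lf (nat_lit 0) (nat_lit 105285034510) (nat_lit 76) (nat_lit 205611489019) (nat_lit 76) (nat_lit 192134670257) (nat_lit 2) (nat_lit 4) (nat_lit 3) (nat_lit 5) (nat_lit 3) (nat_lit 4) (nat_lit 382) (nat_lit 296) (nat_lit 222)) (XT.lf (nat_lit 0) (nat_lit 144849180411) (nat_lit 76) (nat_lit 205558693222) (nat_lit 76) (nat_lit 192078506566) (nat_lit 2) (nat_lit 4) (nat_lit 3) (nat_lit 5) (nat_lit 3) (nat_lit 4) (nat_lit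 383) (nat_lit 296) (nat_lit 221)))) (XT.nd (nat_lit 78) (nat_lit 0) (nat_lit 0) (XT.lf (nat_lit 0) (nat_lit 187563616340) (nat_lit 76) (nat_lit 205509022742) (nat_lit 76) (nat_lit 192025717666) (nat_lit 2) (nat_lit 4) (nat_lit 3) (nat_lit 5) (nat_lit 3) (nat_lit 4) (nat_lit 384) (nat_lit 296) (nat_lit 220)) (XT.nd (nat_lit 78) (nat_lit 0) (nat_lit 0) (XT.lf (nat_lit 0) (nat_lit 233681464881) (nat_lit 76) (nat_lit 205462183235) (nat_lit 76) (nat_lit 191975990733) (nat_lit 2) (nat_lit 4) (nat_lit 3) (nat_lit 5) (nat_lit 3) (nat_lit 4) (nat_lit 385) (nat_lit 296) (nat_lit 219)) (XT.lf (nat_lit 0) (nat_lit 283476016989) (nat_lit 76) (nat_lit 205417897135) (nat_lit 76) (nat_lit 191929031089) (nat_lit 2) (nat_lit 4) (nat_lit 3) (nat_lit 5) (nat_lit 3) (nat_lit 4) (nat_lit 386) (nat_lit 296) (nat_lit 218)))))) (XT.nd (nat_lit 468) (nat_lit 0) (nat_lit 0) (XT.nd (nat_lit 234) (nat_lit 0) (nat_lit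 0) (XT.nd (nat_lit 78) (nat_lit 0) (nat_lit 0) (XT.lf (nat_lit 0) (nat_lit 337242351490) (nat_lit 76) (nat_lit 205375902003) (nat_lit 76) (nat_lit 191884560455) (nat_lit 2) (nat_lit 4) (nat_lit 3) (nat_lit 5) (nat_lit 3) (nat_lit 4) (nat_lit 387) (nat_lit 296) (nat_lit 217)) (XT.nd (nat_lit 78) (nat_lit 0) (nat_lit 0) (XT.lf (nat_lit 0) (nat_lit 395299083701) (nat_lit 76) (nat_lit 205335948982) (nat_lit 76) (nat_lit 191842315301) (nat_lit 2) (nat_lit 4) (nat_lit 3) (nat_lit 5) (nat_lit 3) (nat_lit 4) (nat_lit 388) (nat_lit 296) (nat_lit 216)) (XT.lf (nat_lit 0) (nat_lit 457990253516) (nat_lit 76) (nat_lit 205297801311) (nat_lit 76) (nat_lit 191802045286) (nat_lit 2) (nat_lit 4) (nat_lit 3) (nat_lit 5) (nat_lit 3) (nat_lit 4) (nat_lit 389) (nat_lit 296) (nat_lit 215)))) (XT.nd (nat_lit 78) (nat_lit 0) (nat_lit 0) (XT.lf (nat_lit 0) (nat_lit 525687364164) (nat_lit 76) (nat_lit 205261232932)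 (nat_lit 76) (nat_lit 191763511773) (nat_lit 2) (nat_lit 4) (nat_lit 3) (nat_lit 5) (nat_lit 3) (nat_lit 4) (nat_lit 390) (nat_lit 296) (nat_lit 214)) (XT.nd (nat_lit 78) (nat_lit 0) (nat_lit 0) (XT.lf (nat_lit 0) (nat_lit 598791583707) (nat_lit 76) (nat_lit 205226027141) (nat_lit 76) (nat_lit 191726486414) (nat_lit 2) (nat_lit 4) (nat_lit 3) (nat_lit 5) (nat_lit 3) (nat_lit 4) (nat_lit 391) (nat_lit 296) (nat_lit 213)) (XT.lf (nat_lit 0) (nat_lit 677736122336) (nat_lit 76) (nat_lit 205191975313) (nat_lit 76) (nat_lit 191690749800) (nat_lit 2) (nat_lit 4) (nat_lit 3) (nat_lit 5) (nat_lit 3) (nat_lit 4) (nat_lit 392) (nat_lit 296) (nat_lit 212))))) (XT.nd (nat_lit 40092) (nat_lit 0) (nat_lit 9348) (XT.nd (nat_lit 78) (nat_lit 0) (nat_lit 0) (XT.lf (nat_lit 0) (nat_lit 762988799538) (nat_lit 76) (nat_lit 205158875659) (nat_lit 76) (nat_lit 191656090159) (nat_lit 2) (nat_lit 4) (nat_lit 3)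 (nat_lit 5) (nat_lit 3) (nat_lit 4) (nat_lit 393) (nat_lit 296) (nat_lit 211)) (XT.nd (nat_lit 78) (nat_lit 0) (nat_lit 0) (XT.lf (nat_lit 0) (nat_lit 855054816364) (nat_lit 76) (nat_lit 205126532032) (nat_lit 76) (nat_lit 191622302101) (nat_lit 2) (nat_lit 4) (nat_lit 3) (nat_lit 5) (nat_lit 3) (nat_lit 4) (nat_lit 394) (nat_lit 296) (nat_lit 210)) (XT.lf (nat_lit 0) (nat_lit 954479749210) (nat_lit 76) (nat_lit 205094752767) (nat_lit 76) (nat_lit 191589185398) (nat_lit 2) (nat_lit 4) (nat_lit 3) (nat_lit 5) (nat_lit 3) (nat_lit 4) (nat_lit 395) (nat_lit 296) (nat_lit 209)))) (XT.nd (nat_lit 156) (nat_lit 1216) (nat_lit 0) (XT.nd (nat_lit 78) (nat_lit 532) (nat_lit 0) (XT.lf (nat_lit 0) (nat_lit 1127504862) (nat_lit 380) (nat_lit 1112822687) (nat_lit 380) (nat_lit 1112822687) (nat_lit 148) (nat_lit 4) (nat_lit 153) (nat_lit 5) (nat_lit 153) (nat_lit 4) (nat_lit 306) (nat_lit 297) (nat_lit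 297)) (XT.lf (nat_lit 0) (nat_lit 2432526854) (nat_lit 456) (nat_lit 374911440) (nat_lit 532) (nat_lit 3998274539) (nat_lit 141) (nat_lit 5) (nat_lit 147) (nat_lit 5) (nat_lit 148) (nat_lit 4) (nat_lit 307) (nat_lit 297) (nat_lit 296))) (XT.nd (nat_lit 78) (nat_lit 608) (nat_lit 0) (XT.lf (nat_lit 0) (nat_lit 934752716) (nat_lit 608) (nat_lit 4178343381) (nat_lit 76) (nat_lit 1811659749) (nat_lit 133) (nat_lit 5) (nat_lit 141) (nat_lit 5) (nat_lit 134) (nat_lit 4) (nat_lit 308) (nat_lit 297) (nat_lit 295)) (XT.lf (nat_lit 0) (nat_lit 3193254612) (nat_lit 608) (nat_lit 2660836618) (nat_lit 684) (nat_lit 1209855425) (nat_lit 125) (nat_lit 5) (nat_lit 133) (nat_lit 5) (nat_lit 134) (nat_lit 4) (nat_lit 309) (nat_lit 297) (nat_lit 294))))))))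
noncomputable def xc41 : XT := (XT.nd (nat_lit 1950) (nat_lit 1596) (nat_lit 0) (XT.nd (nat_lit 936) (nat_lit 2204) (nat_lit 0) (XT.nd (nat_lit 468) (nat_lit 1976) (nat_lit 0) (XT.nd (nat_lit 234) (nat_lit 1140) (nat_lit 0) (XT.nd (nat_lit 78) (nat_lit 1216) (nat_lit 0) (XT.lf (nat_lit 0) (nat_lit 3576260204) (nat_lit 760) (nat_lit 3449344681) (nat_lit 76) (nat_lit 198510134) (nat_lit 115) (nat_lit 5) (nat_lit 125) (nat_lit 5) (nat_lit 116) (nat_lit 4) (nat_lit 310) (nat_lit 297) (nat_lit 293)) (XT.nd (nat_lit 78) (nat_lit 380) (nat_lit 0) (XT.lf (nat_lit 0) (nat_lit 1082527439) (nat_lit 836) (nat_lit 2945086189) (nat_lit 76) (nat_lit 3376972759) (nat_lit 104) (nat_lit 5) (nat_lit 115) (nat_lit 5) (nat_lit 105) (nat_lit 5) (nat_lit 311) (nat_lit 297) (nat_lit 292)) (XT.lf (nat_lit 0) (nat_lit 5262672741) (nat_lit 380) (nat_lit 598155781) (nat_lit 456) (nat_lit 1746164489) (nat_lit 99) (nat_lit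 5) (nat_lit 104) (nat_lit 5) (nat_lit 105) (nat_lit 5) (nat_lit 312) (nat_lit 297) (nat_lit 291)))) (XT.nd (nat_lit 78) (nat_lit 760) (nat_lit 0) (XT.lf (nat_lit 0) (nat_lit 2960411318) (nat_lit 380) (nat_lit 1693474778) (nat_lit 76) (nat_lit 3176177074) (nat_lit 94) (nat_lit 5) (nat_lit 99) (nat_lit 5) (nat_lit 95) (nat_lit 5) (nat_lit 313) (nat_lit 297) (nat_lit 290)) (XT.nd (nat_lit 78) (nat_lit 380) (nat_lit 0) (XT.lf (nat_lit 0) (nat_lit 7133144001) (nat_lit 380) (nat_lit 698484315) (nat_lit 456) (nat_lit 245742273) (nat_lit 89) (nat_lit 5) (nat_lit 94) (nat_lit 5) (nat_lit 95) (nat_lit 5) (nat_lit 314) (nat_lit 297) (nat_lit 289)) (XT.lf (nat_lit 0) (nat_lit 4511215208) (nat_lit 380) (nat_lit 195341464) (nat_lit 76) (nat_lit 3638697784) (nat_lit 84) (nat_lit 5) (nat_lit 89) (nat_lit 5) (nat_lit 85) (nat_lit 5) (nat_lit 315) (nat_lit 297) (nat_lit 288))))) (XT.nd (nat_lit 234) (nat_lit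 760) (nat_lit 0) (XT.nd (nat_lit 78) (nat_lit 608) (nat_lit 0) (XT.lf (nat_lit 0) (nat_lit 662038848) (nat_lit 228) (nat_lit 207798492) (nat_lit 304) (nat_lit 7769154955) (nat_lit 76) (nat_lit 5) (nat_lit 79) (nat_lit 5) (nat_lit 80) (nat_lit 5) (nat_lit 316) (nat_lit 297) (nat_lit 287)) (XT.nd (nat_lit 78) (nat_lit 304) (nat_lit 0) (XT.lf (nat_lit 0) (nat_lit 1496494483) (nat_lit 304) (nat_lit 4290306235) (nat_lit 380) (nat_lit 3167937689) (nat_lit 72) (nat_lit 5) (nat_lit 76) (nat_lit 5) (nat_lit 77) (nat_lit 5) (nat_lit 317) (nat_lit 297) (nat_lit 286)) (XT.lf (nat_lit 0) (nat_lit 1666657223) (nat_lit 304) (nat_lit 6912846315) (nat_lit 76) (nat_lit 718870241) (nat_lit 68) (nat_lit 5) (nat_lit 72) (nat_lit 5) (nat_lit 69) (nat_lit 5) (nat_lit 318) (nat_lit 297) (nat_lit 285)))) (XT.nd (nat_lit 78) (nat_lit 532) (nat_lit 0) (XT.lf (nat_lit 0) (nat_lit 3231211509) (nat_lit 228) (nat_lit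 3544352932) (nat_lit 304) (nat_lit 2891581225) (nat_lit 65) (nat_lit 5) (nat_lit 68) (nat_lit 5) (nat_lit 69) (nat_lit 5) (nat_lit 319) (nat_lit 297) (nat_lit 284)) (XT.nd (nat_lit 78) (nat_lit 228) (nat_lit 0) (XT.lf (nat_lit 0) (nat_lit 2126263589) (nat_lit 304) (nat_lit 5986267647) (nat_lit 76) (nat_lit 1952808008) (nat_lit 61) (nat_lit 5) (nat_lit 65) (nat_lit 5) (nat_lit 62) (nat_lit 5) (nat_lit 320) (nat_lit 297) (nat_lit 283)) (XT.lf (nat_lit 0) (nat_lit 4869108615) (nat_lit 228) (nat_lit 2589320195) (nat_lit 304) (nat_lit 3034017392) (nat_lit 58) (nat_lit 5) (nat_lit 61) (nat_lit 5) (nat_lit 62) (nat_lit 5) (nat_lit 321) (nat_lit 297) (nat_lit 282)))))) (XT.nd (nat_lit 468) (nat_lit 988) (nat_lit 0) (XT.nd (nat_lit 234) (nat_lit 532) (nat_lit 0) (XT.nd (nat_lit 78) (nat_lit 456) (nat_lit 0) (XT.lf (nat_lit 0) (nat_lit 2211592944) (nat_lit 228) (nat_lit 5350304718) (nat_lit 76) (nat_lit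 3389149250) (nat_lit 55) (nat_lit 5) (nat_lit 58) (nat_lit 5) (nat_lit 56) (nat_lit 5) (nat_lit 322) (nat_lit 297) (nat_lit 281)) (XT.nd (nat_lit 78) (nat_lit 228) (nat_lit 0) (XT.lf (nat_lit 0) (nat_lit 6247329132) (nat_lit 228) (nat_lit 1547031990) (nat_lit 304) (nat_lit 3648410051) (nat_lit 52) (nat_lit 5) (nat_lit 55) (nat_lit 5) (nat_lit 56) (nat_lit 5) (nat_lit 323) (nat_lit 297) (nat_lit 280)) (XT.lf (nat_lit 0) (nat_lit 1860854381) (nat_lit 228) (nat_lit 5199214576) (nat_lit 76) (nat_lit 4908912389) (nat_lit 49) (nat_lit 5) (nat_lit 52) (nat_lit 5) (nat_lit 50) (nat_lit 5) (nat_lit 324) (nat_lit 297) (nat_lit 279)))) (XT.nd (nat_lit 78) (nat_lit 380) (nat_lit 0) (XT.lf (nat_lit 0) (nat_lit 7160455739) (nat_lit 152) (nat_lit 552264082) (nat_lit 228) (nat_lit 4820185918) (nat_lit 47) (nat_lit 5) (nat_lit 49) (nat_lit 5) (nat_lit 50) (nat_lit 5) (nat_lit 325) (nat_lit 297) (nat_lit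 278)) (XT.nd (nat_lit 78) (nat_lit 152) (nat_lit 0) (XT.lf (nat_lit 0) (nat_lit 978701870) (nat_lit 228) (nat_lit 5779883327) (nat_lit 76) (nat_lit 6376923534) (nat_lit 44) (nat_lit 5) (nat_lit 47) (nat_lit 5) (nat_lit 45) (nat_lit 5) (nat_lit 326) (nat_lit 297) (nat_lit 277)) (XT.lf (nat_lit 0) (nat_lit 7110546471) (nat_lit 228) (nat_lit 6440081733) (nat_lit 76) (nat_lit 229919846) (nat_lit 42) (nat_lit 5) (nat_lit 45) (nat_lit 5) (nat_lit 43) (nat_lit 4) (nat_lit 327) (nat_lit 297) (nat_lit 276))))) (XT.nd (nat_lit 234) (nat_lit 532) (nat_lit 0) (XT.nd (nat_lit 78) (nat_lit 304) (nat_lit 0) (XT.lf (nat_lit 0) (nat_lit 7050394440) (nat_lit 152) (nat_lit 6829132502) (nat_lit 228) (nat_lit 590403729) (nat_lit 40) (nat_lit 5) (nat_lit 42) (nat_lit 5) (nat_lit 43) (nat_lit 4) (nat_lit 328) (nat_lit 297) (nat_lit 275)) (XT.nd (nat_lit 78) (nat_lit 76) (nat_lit 0) (XT.lf (nat_lit 0) (nat_lit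 5835089441) (nat_lit 228) (nat_lit 8761858925) (nat_lit 76) (nat_lit 610372985) (nat_lit 37) (nat_lit 5) (nat_lit 40) (nat_lit 5) (nat_lit 38) (nat_lit 4) (nat_lit 329) (nat_lit 297) (nat_lit 274)) (XT.lf (nat_lit 0) (nat_lit 5443889401) (nat_lit 76) (nat_lit 7474550454) (nat_lit 152) (nat_lit 3076611169) (nat_lit 36) (nat_lit 5) (nat_lit 37) (nat_lit 5) (nat_lit 38) (nat_lit 4) (nat_lit 330) (nat_lit 297) (nat_lit 273)))) (XT.nd (nat_lit 156) (nat_lit 228) (nat_lit 0) (XT.nd (nat_lit 78) (nat_lit 76) (nat_lit 0) (XT.lf (nat_lit 0) (nat_lit 3665958988) (nat_lit 228) (nat_lit 12799727024) (nat_lit 76) (nat_lit 374134689) (nat_lit 33) (nat_lit 5) (nat_lit 36) (nat_lit 5) (nat_lit 34) (nat_lit 4) (nat_lit 331) (nat_lit 297) (nat_lit 272)) (XT.lf (nat_lit 0) (nat_lit 2039921986) (nat_lit 76) (nat_lit 8990402200) (nat_lit 152) (nat_lit 6709863395) (nat_lit 32) (nat_lit 5) (nat_lit 33) (nat_lit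 5) (nat_lit 34) (nat_lit 4) (nat_lit 332) (nat_lit 297) (nat_lit 271))) (XT.nd (nat_lit 78) (nat_lit 152) (nat_lit 0) (XT.lf (nat_lit 0) (nat_lit 338178338) (nat_lit 152) (nat_lit 455398723) (nat_lit 76) (nat_lit 17915055631) (nat_lit 31) (nat_lit 5) (nat_lit 33) (nat_lit 5) (nat_lit 32) (nat_lit 5) (nat_lit 333) (nat_lit 297) (nat_lit 270)) (XT.lf (nat_lit 0) (nat_lit 7960750517) (nat_lit 228) (nat_lit 3710057610) (nat_lit 76) (nat_lit 8065994867) (nat_lit 29) (nat_lit 5) (nat_lit 32) (nat_lit 5) (nat_lit 30) (nat_lit 4) (nat_lit 334) (nat_lit 297) (nat_lit 269))))))) (XT.nd (nat_lit 936) (nat_lit 532) (nat_lit 0) (XT.nd (nat_lit 468) (nat_lit 456) (nat_lit 0) (XT.nd (nat_lit 234) (nat_lit 228) (nat_lit 0) (XT.nd (nat_lit 78) (nat_lit 304) (nat_lit 0) (XT.lf (nat_lit 0) (nat_lit 13160519973) (nat_lit 76) (nat_lit 3124671527) (nat_lit 152) (nat_lit 4557467337) (nat_lit 28) (nat_lit 5) (nat_lit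 29) (nat_lit 5) (nat_lit 30) (nat_lit 4) (nat_lit 335) (nat_lit 297) (nat_lit 268)) (XT.nd (nat_lit 78) (nat_lit 76) (nat_lit 0) (XT.lf (nat_lit 0) (nat_lit 3316194858) (nat_lit 228) (nat_lit 12634409750) (nat_lit 76) (nat_lit 6074818989) (nat_lit 25) (nat_lit 5) (nat_lit 28) (nat_lit 5) (nat_lit 26) (nat_lit 4) (nat_lit 336) (nat_lit 297) (nat_lit 267)) (XT.lf (nat_lit 0) (nat_lit 4591313502) (nat_lit 76) (nat_lit 7205152890) (nat_lit 152) (nat_lit 11495816759) (nat_lit 24) (nat_lit 5) (nat_lit 25) (nat_lit 5) (nat_lit 26) (nat_lit 4) (nat_lit 337) (nat_lit 297) (nat_lit 266)))) (XT.nd (nat_lit 78) (nat_lit 228) (nat_lit 0) (XT.lf (nat_lit 0) (nat_lit 21091979948) (nat_lit 152) (nat_lit 1268298554) (nat_lit 0) (nat_lit 2293398464) (nat_lit 24) (nat_lit 5) (nat_lit 26) (nat_lit 4) (nat_lit 24) (nat_lit 4) (nat_lit 338) (nat_lit 297) (nat_lit 265)) (XT.nd (nat_lit 78) (nat_lit 76) (nat_lit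 0) (XT.lf (nat_lit 0) (nat_lit 5138108003) (nat_lit 152) (nat_lit 8395149631) (nat_lit 76) (nat_lit 12572278456) (nat_lit 22) (nat_lit 5) (nat_lit 24) (nat_lit 5) (nat_lit 23) (nat_lit 4) (nat_lit 339) (nat_lit 297) (nat_lit 264)) (XT.lf (nat_lit 0) (nat_lit 10656633997) (nat_lit 76) (nat_lit 3833604030) (nat_lit 152) (nat_lit 13176351885) (nat_lit 21) (nat_lit 5) (nat_lit 22) (nat_lit 5) (nat_lit 23) (nat_lit 4) (nat_lit 340) (nat_lit 297) (nat_lit 263))))) (XT.nd (nat_lit 234) (nat_lit 228) (nat_lit 0) (XT.nd (nat_lit 78) (nat_lit 152) (nat_lit 0) (XT.lf (nat_lit 0) (nat_lit 1944074634) (nat_lit 76) (nat_lit 22823404564) (nat_lit 76) (nat_lit 4576221849) (nat_lit 20) (nat_lit 4) (nat_lit 21) (nat_lit 5) (nat_lit 21) (nat_lit 4) (nat_lit 341) (nat_lit 297) (nat_lit 262)) (XT.nd (nat_lit 78) (nat_lit 76) (nat_lit 0) (XT.lf (nat_lit 0) (nat_lit 4824348121) (nat_lit 152) (nat_lit 8455318350)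 (nat_lit 76) (nat_lit 17858491945) (nat_lit 19) (nat_lit 5) (nat_lit 21) (nat_lit 5) (nat_lit 20) (nat_lit 4) (nat_lit 342) (nat_lit 297) (nat_lit 261)) (XT.lf (nat_lit 0) (nat_lit 12136236986) (nat_lit 76) (nat_lit 2777058312) (nat_lit 152) (nat_lit 18154309437) (nat_lit 18) (nat_lit 5) (nat_lit 19) (nat_lit 5) (nat_lit 20) (nat_lit 4) (nat_lit 343) (nat_lit 297) (nat_lit 260)))) (XT.nd (nat_lit 78) (nat_lit 228) (nat_lit 0) (XT.lf (nat_lit 0) (nat_lit 26000916079) (nat_lit 152) (nat_lit 778183136) (nat_lit 0) (nat_lit 8362744807) (nat_lit 18) (nat_lit 5) (nat_lit 20) (nat_lit 4) (nat_lit 18) (nat_lit 4) (nat_lit 344) (nat_lit 297) (nat_lit 259)) (XT.nd (nat_lit 78) (nat_lit 76) (nat_lit 0) (XT.lf (nat_lit 0) (nat_lit 876269442) (nat_lit 152) (nat_lit 15915947185) (nat_lit 76) (nat_lit 20574268766) (nat_lit 16) (nat_lit 5) (nat_lit 18) (nat_lit 5) (nat_lit 17) (nat_lit 4) (nat_lit 345)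 (nat_lit 297) (nat_lit 258)) (XT.lf (nat_lit 0) (nat_lit 5583502081) (nat_lit 76) (nat_lit 5813785192) (nat_lit 152) (nat_lit 28363195699) (nat_lit 15) (nat_lit 5) (nat_lit 16) (nat_lit 5) (nat_lit 17) (nat_lit 4) (nat_lit 346) (nat_lit 297) (nat_lit 257)))))) (XT.nd (nat_lit 468) (nat_lit 228) (nat_lit 0) (XT.nd (nat_lit 234) (nat_lit 152) (nat_lit 0) (XT.nd (nat_lit 78) (nat_lit 152) (nat_lit 0) (XT.lf (nat_lit 0) (nat_lit 23056220106) (nat_lit 152) (nat_lit 13213512186) (nat_lit 0) (nat_lit 6061467844) (nat_lit 15) (nat_lit 5) (nat_lit 17) (nat_lit 4) (nat_lit 15) (nat_lit 4) (nat_lit 347) (nat_lit 297) (nat_lit 256)) (XT.nd (nat_lit 78) (nat_lit 76) (nat_lit 0) (XT.lf (nat_lit 0) (nat_lit 9490400625) (nat_lit 76) (nat_lit 26329684640) (nat_lit 76) (nat_lit 9278889129) (nat_lit 14) (nat_lit 4) (nat_lit 15) (nat_lit 5) (nat_lit 15) (nat_lit 4) (nat_lit 348) (nat_lit 297) (nat_lit 255))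 (XT.lf (nat_lit 0) (nat_lit 1630485209) (nat_lit 152) (nat_lit 13760192728) (nat_lit 76) (nat_lit 32688210563) (nat_lit 13) (nat_lit 5) (nat_lit 15) (nat_lit 5) (nat_lit 14) (nat_lit 4) (nat_lit 349) (nat_lit 297) (nat_lit 254)))) (XT.nd (nat_lit 78) (nat_lit 76) (nat_lit 0) (XT.lf (nat_lit 0) (nat_lit 9867121112) (nat_lit 76) (nat_lit 3312321118) (nat_lit 152) (nat_lit 38105560529) (nat_lit 12) (nat_lit 5) (nat_lit 13) (nat_lit 5) (nat_lit 14) (nat_lit 4) (nat_lit 350) (nat_lit 297) (nat_lit 253)) (XT.nd (nat_lit 78) (nat_lit 76) (nat_lit 0) (XT.lf (nat_lit 0) (nat_lit 25983491355) (nat_lit 152) (nat_lit 19140476881) (nat_lit 0) (nat_lit 9607087166) (nat_lit 12) (nat_lit 5) (nat_lit 14) (nat_lit 4) (nat_lit 12) (nat_lit 4) (nat_lit 351) (nat_lit 297) (nat_lit 252)) (XT.lf (nat_lit 0) (nat_lit 4904531563) (nat_lit 76) (nat_lit 34980132106) (nat_lit 76) (nat_lit 18564496049) (nat_lit 11)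 (nat_lit 4) (nat_lit 12) (nat_lit 5) (nat_lit 12) (nat_lit 4) (nat_lit 352) (nat_lit 297) (nat_lit 251))))) (XT.nd (nat_lit 234) (nat_lit 76) (nat_lit 0) (XT.nd (nat_lit 78) (nat_lit 152) (nat_lit 0) (XT.lf (nat_lit 0) (nat_lit 31445957108) (nat_lit 76) (nat_lit 23728450069) (nat_lit 76) (nat_lit 7276488209) (nat_lit 11) (nat_lit 4) (nat_lit 12) (nat_lit 5) (nat_lit 12) (nat_lit 4) (nat_lit 353) (nat_lit 297) (nat_lit 250)) (XT.nd (nat_lit 78) (nat_lit 76) (nat_lit 0) (XT.lf (nat_lit 0) (nat_lit 4703673447) (nat_lit 152) (nat_lit 6843066295) (nat_lit 76) (nat_lit 55224879236) (nat_lit 10) (nat_lit 5) (nat_lit 12) (nat_lit 5) (nat_lit 11) (nat_lit 4) (nat_lit 354) (nat_lit 297) (nat_lit 249)) (XT.lf (nat_lit 0) (nat_lit 17679519288) (nat_lit 152) (nat_lit 51788621901) (nat_lit 0) (nat_lit 1949290350) (nat_lit 9) (nat_lit 5) (nat_lit 11) (nat_lit 4) (nat_lit 9) (nat_lit 4) (nat_lit 355) (nat_lit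 297) (nat_lit 248)))) (XT.nd (nat_lit 156) (nat_lit 76) (nat_lit 0) (XT.nd (nat_lit 78) (nat_lit 0) (nat_lit 0) (XT.lf (nat_lit 0) (nat_lit 31961199229) (nat_lit 152) (nat_lit 28256819883) (nat_lit 0) (nat_lit 16203506869) (nat_lit 9) (nat_lit 5) (nat_lit 11) (nat_lit 4) (nat_lit 9) (nat_lit 4) (nat_lit 356) (nat_lit 297) (nat_lit 247)) (XT.lf (nat_lit 0) (nat_lit 47340887067) (nat_lit 152) (nat_lit 2929526439) (nat_lit 0) (nat_lit 31557765611) (nat_lit 9) (nat_lit 5) (nat_lit 11) (nat_lit 4) (nat_lit 9) (nat_lit 4) (nat_lit 357) (nat_lit 297) (nat_lit 246))) (XT.nd (nat_lit 78) (nat_lit 0) (nat_lit 0) (XT.lf (nat_lit 0) (nat_lit 25148247055) (nat_lit 76) (nat_lit 39154109251) (nat_lit 76) (nat_lit 23347442337) (nat_lit 8) (nat_lit 4) (nat_lit 9) (nat_lit 5) (nat_lit 9) (nat_lit 4) (nat_lit 358) (nat_lit 297) (nat_lit 245)) (XT.lf (nat_lit 0) (nat_lit 55499753458) (nat_lit 76) (nat_lit 27132642022)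 (nat_lit 76) (nat_lit 11304173757) (nat_lit 8) (nat_lit 4) (nat_lit 9) (nat_lit 5) (nat_lit 9) (nat_lit 4) (nat_lit 359) (nat_lit 297) (nat_lit 244))))))))
noncomputable def xc42 : XT := (XT.nd (nat_lit 1872) (nat_lit 0) (nat_lit 0) (XT.nd (nat_lit 936) (nat_lit 76) (nat_lit 0) (XT.nd (nat_lit 468) (nat_lit 152) (nat_lit 0) (XT.nd (nat_lit 234) (nat_lit 76) (nat_lit 0) (XT.nd (nat_lit 78) (nat_lit 76) (nat_lit 0) (XT.lf (nat_lit 0) (nat_lit 1611001279) (nat_lit 152) (nat_lit 12546102077) (nat_lit 76) (nat_lit 86569705808) (nat_lit 7) (nat_lit 5) (nat_lit 9) (nat_lit 5) (nat_lit 8) (nat_lit 4) (nat_lit 360) (nat_lit 297) (nat_lit 243)) (XT.nd (nat_lit 78) (nat_lit 0) (nat_lit 0) (XT.lf (nat_lit 0) (nat_lit 15383186683) (nat_lit 152) (nat_lit 92385398540) (nat_lit 0) (nat_lit 271428737) (nat_lit 6) (nat_lit 5) (nat_lit 8) (nat_lit 4) (nat_lit 6) (nat_lit 4) (nat_lit 361) (nat_lit 297) (nat_lit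 242)) (XT.lf (nat_lit 0) (nat_lit 30684717464) (nat_lit 152) (nat_lit 69675705242) (nat_lit 0) (nat_lit 15556477027) (nat_lit 6) (nat_lit 5) (nat_lit 8) (nat_lit 4) (nat_lit 6) (nat_lit 4) (nat_lit 362) (nat_lit 297) (nat_lit 241)))) (XT.nd (nat_lit 78) (nat_lit 76) (nat_lit 0) (XT.lf (nat_lit 0) (nat_lit 47179563495) (nat_lit 152) (nat_lit 45209854630) (nat_lit 0) (nat_lit 32036061493) (nat_lit 6) (nat_lit 5) (nat_lit 8) (nat_lit 4) (nat_lit 6) (nat_lit 4) (nat_lit 363) (nat_lit 297) (nat_lit 240)) (XT.nd (nat_lit 78) (nat_lit 76) (nat_lit 0) (XT.lf (nat_lit 0) (nat_lit 64965472013) (nat_lit 152) (nat_lit 18842863884) (nat_lit 0) (nat_lit 49807838931) (nat_lit 6) (nat_lit 5) (nat_lit 8) (nat_lit 4) (nat_lit 6) (nat_lit 4) (nat_lit 364) (nat_lit 297) (nat_lit 239)) (XT.lf (nat_lit 0) (nat_lit 9898324014) (nat_lit 76) (nat_lit 74404057556) (nat_lit 76) (nat_lit 59233340143) (nat_lit 5) (nat_lit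 4) (nat_lit 6) (nat_lit 5) (nat_lit 6) (nat_lit 4) (nat_lit 365) (nat_lit 297) (nat_lit 238))))) (XT.nd (nat_lit 234) (nat_lit 152) (nat_lit 0) (XT.nd (nat_lit 78) (nat_lit 0) (nat_lit 0) (XT.lf (nat_lit 0) (nat_lit 41561967809) (nat_lit 76) (nat_lit 63927274718) (nat_lit 76) (nat_lit 48744442183) (nat_lit 5) (nat_lit 4) (nat_lit 6) (nat_lit 5) (nat_lit 6) (nat_lit 4) (nat_lit 366) (nat_lit 297) (nat_lit 237)) (XT.nd (nat_lit 78) (nat_lit 0) (nat_lit 0) (XT.lf (nat_lit 0) (nat_lit 75712673732) (nat_lit 76) (nat_lit 52635015762) (nat_lit 76) (nat_lit 37440965521) (nat_lit 5) (nat_lit 4) (nat_lit 6) (nat_lit 5) (nat_lit 6) (nat_lit 4) (nat_lit 367) (nat_lit 297) (nat_lit 236)) (XT.lf (nat_lit 0) (nat_lit 112552816335) (nat_lit 76) (nat_lit 40460363598) (nat_lit 76) (nat_lit 25255926591) (nat_lit 5) (nat_lit 4) (nat_lit 6) (nat_lit 5) (nat_lit 6) (nat_lit 4) (nat_lit 368) (nat_lit 297) (nat_lit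 235)))) (XT.nd (nat_lit 78) (nat_lit 152) (nat_lit 0) (XT.lf (nat_lit 0) (nat_lit 152300707576) (nat_lit 76) (nat_lit 27331172137) (nat_lit 76) (nat_lit 12117117756) (nat_lit 5) (nat_lit 4) (nat_lit 6) (nat_lit 5) (nat_lit 6) (nat_lit 4) (nat_lit 369) (nat_lit 297) (nat_lit 234)) (XT.nd (nat_lit 78) (nat_lit 76) (nat_lit 0) (XT.lf (nat_lit 0) (nat_lit 1987601510) (nat_lit 152) (nat_lit 11148376261) (nat_lit 76) (nat_lit 193170628009) (nat_lit 4) (nat_lit 5) (nat_lit 6) (nat_lit 5) (nat_lit 5) (nat_lit 4) (nat_lit 370) (nat_lit 297) (nat_lit 233)) (XT.lf (nat_lit 0) (nat_lit 17136119578) (nat_lit 152) (nat_lit 202235564966) (nat_lit 0) (nat_lit 2630210333) (nat_lit 3) (nat_lit 5) (nat_lit 5) (nat_lit 4) (nat_lit 3) (nat_lit 4) (nat_lit 371) (nat_lit 297) (nat_lit 232)))))) (XT.nd (nat_lit 468) (nat_lit 76) (nat_lit 0) (XT.nd (nat_lit 234) (nat_lit 0) (nat_lit 0) (XT.nd (nat_lit 78) (nat_lit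 0) (nat_lit 0) (XT.lf (nat_lit 0) (nat_lit 33898466862) (nat_lit 152) (nat_lit 185648957640) (nat_lit 0) (nat_lit 19385286587) (nat_lit 3) (nat_lit 5) (nat_lit 5) (nat_lit 4) (nat_lit 3) (nat_lit 4) (nat_lit 372) (nat_lit 297) (nat_lit 231)) (XT.nd (nat_lit 78) (nat_lit 0) (nat_lit 0) (XT.lf (nat_lit 0) (nat_lit 51986126099) (nat_lit 152) (nat_lit 167766438178) (nat_lit 0) (nat_lit 37466213388) (nat_lit 3) (nat_lit 5) (nat_lit 5) (nat_lit 4) (nat_lit 3) (nat_lit 4) (nat_lit 373) (nat_lit 297) (nat_lit 230)) (XT.lf (nat_lit 0) (nat_lit 71506283416) (nat_lit 152) (nat_lit 148482036095) (nat_lit 0) (nat_lit 56980136968) (nat_lit 3) (nat_lit 5) (nat_lit 5) (nat_lit 4) (nat_lit 3) (nat_lit 4) (nat_lit 374) (nat_lit 297) (nat_lit 229)))) (XT.nd (nat_lit 78) (nat_lit 0) (nat_lit 0) (XT.lf (nat_lit 0) (nat_lit 92574613820) (nat_lit 152) (nat_lit 127681473452) (nat_lit 0) (nat_lit 78042695393) (nat_lit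 3) (nat_lit 5) (nat_lit 5) (nat_lit 4) (nat_lit 3) (nat_lit 4) (nat_lit 375) (nat_lit 297) (nat_lit 228)) (XT.nd (nat_lit 78) (nat_lit 0) (nat_lit 0) (XT.lf (nat_lit 0) (nat_lit 115315966676) (nat_lit 152) (nat_lit 105241487656) (nat_lit 0) (nat_lit 100778703825) (nat_lit 3) (nat_lit 5) (nat_lit 5) (nat_lit 4) (nat_lit 3) (nat_lit 4) (nat_lit 376) (nat_lit 297) (nat_lit 227)) (XT.lf (nat_lit 0) (nat_lit 139865105558) (nat_lit 152) (nat_lit 81029101013) (nat_lit 0) (nat_lit 125322894165) (nat_lit 3) (nat_lit 5) (nat_lit 5) (nat_lit 4) (nat_lit 3) (nat_lit 4) (nat_lit 377) (nat_lit 297) (nat_lit 226))))) (XT.nd (nat_lit 234) (nat_lit 0) (nat_lit 0) (XT.nd (nat_lit 78) (nat_lit 76) (nat_lit 0) (XT.lf (nat_lit 0) (nat_lit 166367506842) (nat_lit 152) (nat_lit 54900832714) (nat_lit 0) (nat_lit 151820713467) (nat_lit 3) (nat_lit 5) (nat_lit 5) (nat_lit 4) (nat_lit 3) (nat_lit 4) (nat_lit 378) (nat_lit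 297) (nat_lit 225)) (XT.nd (nat_lit 78) (nat_lit 76) (nat_lit 0) (XT.lf (nat_lit 0) (nat_lit 194980221797) (nat_lit 152) (nat_lit 26701848575) (nat_lit 0) (nat_lit 180429185846) (nat_lit 3) (nat_lit 5) (nat_lit 5) (nat_lit 4) (nat_lit 3) (nat_lit 4) (nat_lit 379) (nat_lit 297) (nat_lit 224)) (XT.lf (nat_lit 0) (nat_lit 3858451021) (nat_lit 76) (nat_lit 222074597464) (nat_lit 76) (nat_lit 207519633201) (nat_lit 2) (nat_lit 4) (nat_lit 3) (nat_lit 5) (nat_lit 3) (nat_lit 4) (nat_lit 380) (nat_lit 297) (nat_lit 223)))) (XT.nd (nat_lit 78) (nat_lit 0) (nat_lit 0) (XT.lf (nat_lit 0) (nat_lit 37799777693) (nat_lit 76) (nat_lit 222018713149) (nat_lit 76) (nat_lit 207460111560) (nat_lit 2) (nat_lit 4) (nat_lit 3) (nat_lit 5) (nat_lit 3) (nat_lit 4) (nat_lit 381) (nat_lit 297) (nat_lit 222)) (XT.nd (nat_lit 78) (nat_lit 0) (nat_lit 0) (XT.lf (nat_lit 0) (nat_lit 74440381525) (nat_lit 76) (nat_lit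 221966294988) (nat_lit 76) (nat_lit 207404325505) (nat_lit 2) (nat_lit 4) (nat_lit 3) (nat_lit 5) (nat_lit 3) (nat_lit 4) (nat_lit 382) (nat_lit 297) (nat_lit 221)) (XT.lf (nat_lit 0) (nat_lit 113997392020) (nat_lit 76) (nat_lit 221917032355) (nat_lit 76) (nat_lit 207351944452) (nat_lit 2) (nat_lit 4) (nat_lit 3) (nat_lit 5) (nat_lit 3) (nat_lit 4) (nat_lit 383) (nat_lit 297) (nat_lit 220))))))) (XT.nd (nat_lit 40638) (nat_lit 0) (nat_lit 5852) (XT.nd (nat_lit 468) (nat_lit 0) (nat_lit 0) (XT.nd (nat_lit 234) (nat_lit 0) (nat_lit 0) (XT.nd (nat_lit 78) (nat_lit 0) (nat_lit 0) (XT.lf (nat_lit 0) (nat_lit 156705221092) (nat_lit 76) (nat_lit 221870633323) (nat_lit 76) (nat_lit 207302657993) (nat_lit 2) (nat_lit 4) (nat_lit 3) (nat_lit 5) (nat_lit 3) (nat_lit 4) (nat_lit 384) (nat_lit 297) (nat_lit 219)) (XT.nd (nat_lit 78) (nat_lit 0) (nat_lit 0) (XT.lf (nat_lit 0) (nat_lit 202816952173) (nat_lit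 76) (nat_lit 221826822934) (nat_lit 76) (nat_lit 207256174062) (nat_lit 2) (nat_lit 4) (nat_lit 3) (nat_lit 5) (nat_lit 3) (nat_lit 4) (nat_lit 385) (nat_lit 297) (nat_lit 218)) (XT.lf (nat_lit 0) (nat_lit 252605839966) (nat_lit 76) (nat_lit 221785341573) (nat_lit 76) (nat_lit 207212217198) (nat_lit 2) (nat_lit 4) (nat_lit 3) (nat_lit 5) (nat_lit 3) (nat_lit 4) (nat_lit 386) (nat_lit 297) (nat_lit 217)))) (XT.nd (nat_lit 78) (nat_lit 0) (nat_lit 0) (XT.lf (nat_lit 0) (nat_lit 306366929732) (nat_lit 76) (nat_lit 221745943422) (nat_lit 76) (nat_lit 207170526915) (nat_lit 2) (nat_lit 4) (nat_lit 3) (nat_lit 5) (nat_lit 3) (nat_lit 4) (nat_lit 387) (nat_lit 297) (nat_lit 216)) (XT.nd (nat_lit 78) (nat_lit 0) (nat_lit 0) (XT.lf (nat_lit 0) (nat_lit 364418805706) (nat_lit 76) (nat_lit 221708395013) (nat_lit 76) (nat_lit 207130856161) (nat_lit 2) (nat_lit 4) (nat_lit 3) (nat_lit 5) (nat_lit 3)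 (nat_lit 4) (nat_lit 388) (nat_lit 297) (nat_lit 215)) (XT.lf (nat_lit 0) (nat_lit 427105479005) (nat_lit 76) (nat_lit 221672473835) (nat_lit 76) (nat_lit 207092969849) (nat_lit 2) (nat_lit 4) (nat_lit 3) (nat_lit 5) (nat_lit 3) (nat_lit 4) (nat_lit 389) (nat_lit 297) (nat_lit 214))))) (XT.nd (nat_lit 234) (nat_lit 0) (nat_lit 0) (XT.nd (nat_lit 78) (nat_lit 0) (nat_lit 0) (XT.lf (nat_lit 0) (nat_lit 494798426212) (nat_lit 76) (nat_lit 221637967022) (nat_lit 76) (nat_lit 207056643468) (nat_lit 2) (nat_lit 4) (nat_lit 3) (nat_lit 5) (nat_lit 3) (nat_lit 4) (nat_lit 390) (nat_lit 297) (nat_lit 213)) (XT.nd (nat_lit 78) (nat_lit 0) (nat_lit 0) (XT.lf (nat_lit 0) (nat_lit 567898790718) (nat_lit 76) (nat_lit 221604670090) (nat_lit 76) (nat_lit 207021661751) (nat_lit 2) (nat_lit 4) (nat_lit 3) (nat_lit 5) (nat_lit 3) (nat_lit 4) (nat_lit 391) (nat_lit 297) (nat_lit 212)) (XT.lf (nat_lit 0) (nat_lit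 646839759867) (nat_lit 76) (nat_lit 221572385724) (nat_lit 76) (nat_lit 206987817398) (nat_lit 2) (nat_lit 4) (nat_lit 3) (nat_lit 5) (nat_lit 3) (nat_lit 4) (nat_lit 392) (nat_lit 297) (nat_lit 211)))) (XT.nd (nat_lit 78) (nat_lit 0) (nat_lit 0) (XT.lf (nat_lit 0) (nat_lit 732089131996) (nat_lit 76) (nat_lit 221540922608) (nat_lit 76) (nat_lit 206954909850) (nat_lit 2) (nat_lit 4) (nat_lit 3) (nat_lit 5) (nat_lit 3) (nat_lit 4) (nat_lit 393) (nat_lit 297) (nat_lit 210)) (XT.nd (nat_lit 78) (nat_lit 0) (nat_lit 0) (XT.lf (nat_lit 0) (nat_lit 824152088569) (nat_lit 76) (nat_lit 221510094294) (nat_lit 76) (nat_lit 206922744099) (nat_lit 2) (nat_lit 4) (nat_lit 3) (nat_lit 5) (nat_lit 3) (nat_lit 4) (nat_lit 394) (nat_lit 297) (nat_lit 209)) (XT.lf (nat_lit 0) (nat_lit 923574187848) (nat_lit 76) (nat_lit 221479718097) (nat_lit 76) (nat_lit 206891129534) (nat_lit 2) (nat_lit 4) (nat_lit 3) (nat_lit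 5) (nat_lit 3) (nat_lit 4) (nat_lit 395) (nat_lit 297) (nat_lit 208)))))) (XT.nd (nat_lit 468) (nat_lit 3420) (nat_lit 0) (XT.nd (nat_lit 234) (nat_lit 1748) (nat_lit 0) (XT.nd (nat_lit 78) (nat_lit 836) (nat_lit 0) (XT.lf (nat_lit 0) (nat_lit 1292553669) (nat_lit 228) (nat_lit 993313388) (nat_lit 228) (nat_lit 993313388) (nat_lit 158) (nat_lit 4) (nat_lit 161) (nat_lit 5) (nat_lit 161) (nat_lit 4) (nat_lit 304) (nat_lit 298) (nat_lit 298)) (XT.nd (nat_lit 78) (nat_lit 456) (nat_lit 0) (XT.lf (nat_lit 0) (nat_lit 2246918595) (nat_lit 304) (nat_lit 687171622) (nat_lit 380) (nat_lit 3693385086) (nat_lit 153) (nat_lit 5) (nat_lit 157) (nat_lit 5) (nat_lit 158) (nat_lit 4) (nat_lit 305) (nat_lit 298) (nat_lit 297)) (XT.lf (nat_lit 0) (nat_lit 1102313214) (nat_lit 456) (nat_lit 4651518944) (nat_lit 76) (nat_lit 962540348) (nat_lit 147) (nat_lit 5) (nat_lit 153) (nat_lit 5) (nat_lit 148) (nat_lit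 4) (nat_lit 306) (nat_lit 298) (nat_lit 296)))) (XT.nd (nat_lit 78) (nat_lit 1292) (nat_lit 0) (XT.lf (nat_lit 0) (nat_lit 2018608036) (nat_lit 456) (nat_lit 3838203275) (nat_lit 532) (nat_lit 967870325) (nat_lit 141) (nat_lit 5) (nat_lit 147) (nat_lit 5) (nat_lit 148) (nat_lit 4) (nat_lit 307) (nat_lit 298) (nat_lit 295)) (XT.nd (nat_lit 78) (nat_lit 684) (nat_lit 0) (XT.lf (nat_lit 0) (nat_lit 2110486995) (nat_lit 532) (nat_lit 1526238810) (nat_lit 608) (nat_lit 3316440290) (nat_lit 133) (nat_lit 5) (nat_lit 140) (nat_lit 5) (nat_lit 141) (nat_lit 5) (nat_lit 308) (nat_lit 298) (nat_lit 294)) (XT.lf (nat_lit 0) (nat_lit 1196515545) (nat_lit 684) (nat_lit 4764133847) (nat_lit 76) (nat_lit 1141789442) (nat_lit 124) (nat_lit 5) (nat_lit 133) (nat_lit 5) (nat_lit 125) (nat_lit 5) (nat_lit 309) (nat_lit 298) (nat_lit 293))))) (XT.nd (nat_lit 234) (nat_lit 1520) (nat_lit 0) (XT.nd (nat_lit 78)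 (nat_lit 1216) (nat_lit 0) (XT.lf (nat_lit 0) (nat_lit 2664083456) (nat_lit 684) (nat_lit 3087355074) (nat_lit 760) (nat_lit 1520039685) (nat_lit 115) (nat_lit 5) (nat_lit 124) (nat_lit 5) (nat_lit 125) (nat_lit 5) (nat_lit 310) (nat_lit 298) (nat_lit 292)) (XT.nd (nat_lit 78) (nat_lit 380) (nat_lit 0) (XT.lf (nat_lit 0) (nat_lit 2907911773) (nat_lit 836) (nat_lit 4352805476) (nat_lit 76) (nat_lit 201456955) (nat_lit 104) (nat_lit 5) (nat_lit 115) (nat_lit 5) (nat_lit 105) (nat_lit 5) (nat_lit 311) (nat_lit 298) (nat_lit 291)) (XT.lf (nat_lit 0) (nat_lit 3637790556) (nat_lit 380) (nat_lit 3868293400) (nat_lit 456) (nat_lit 167660083) (nat_lit 99) (nat_lit 5) (nat_lit 104) (nat_lit 5) (nat_lit 105) (nat_lit 5) (nat_lit 312) (nat_lit 298) (nat_lit 290)))) (XT.nd (nat_lit 156) (nat_lit 684) (nat_lit 0) (XT.nd (nat_lit 78) (nat_lit 456) (nat_lit 0) (XT.lf (nat_lit 0) (nat_lit 4248941809) (nat_lit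 304) (nat_lit 9619193) (nat_lit 380) (nat_lit 3648650829) (nat_lit 94) (nat_lit 5) (nat_lit 98) (nat_lit 5) (nat_lit 99) (nat_lit 5) (nat_lit 313) (nat_lit 298) (nat_lit 289)) (XT.lf (nat_lit 0) (nat_lit 766601147) (nat_lit 456) (nat_lit 3240376831) (nat_lit 76) (nat_lit 4155774013) (nat_lit 88) (nat_lit 5) (nat_lit 94) (nat_lit 5) (nat_lit 89) (nat_lit 5) (nat_lit 314) (nat_lit 298) (nat_lit 288))) (XT.nd (nat_lit 78) (nat_lit 380) (nat_lit 0) (XT.lf (nat_lit 0) (nat_lit 5289027773) (nat_lit 380) (nat_lit 2778309514) (nat_lit 76) (nat_lit 374552890) (nat_lit 84) (nat_lit 5) (nat_lit 89) (nat_lit 5) (nat_lit 85) (nat_lit 5) (nat_lit 315) (nat_lit 298) (nat_lit 287)) (XT.lf (nat_lit 0) (nat_lit 1344540359) (nat_lit 380) (nat_lit 2305267890) (nat_lit 76) (nat_lit 5094621145) (nat_lit 79) (nat_lit 5) (nat_lit 84) (nat_lit 5) (nat_lit 80) (nat_lit 5) (nat_lit 316) (nat_lit 298) (nat_lit 286))))))))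
noncomputable def xc43 : XT := (XT.nd (nat_lit 1950) (nat_lit 1216) (nat_lit 0) (XT.nd (nat_lit 936) (nat_lit 1596) (nat_lit 0) (XT.nd (nat_lit 468) (nat_lit 988) (nat_lit 0) (XT.nd (nat_lit 234) (nat_lit 988) (nat_lit 0) (XT.nd (nat_lit 78) (nat_lit 608) (nat_lit 0) (XT.lf (nat_lit 0) (nat_lit 6021291396) (nat_lit 304) (nat_lit 1815357015) (nat_lit 76) (nat_lit 1235629879) (nat_lit 76) (nat_lit 5) (nat_lit 80) (nat_lit 5) (nat_lit 77) (nat_lit 5) (nat_lit 317) (nat_lit 298) (nat_lit 285)) (XT.nd (nat_lit 78) (nat_lit 228) (nat_lit 0) (XT.lf (nat_lit 0) (nat_lit 1580513989) (nat_lit 380) (nat_lit 1335531754) (nat_lit 76) (nat_lit 6509825437) (nat_lit 71) (nat_lit 5) (nat_lit 76) (nat_lit 5) (nat_lit 72) (nat_lit 5) (nat_lit 318) (nat_lit 298) (nat_lit 284)) (XT.lf (nat_lit 0) (nat_lit 6456795161) (nat_lit 304) (nat_lit 882354607) (nat_lit 76) (nat_lit 2467199856) (nat_lit 68) (nat_lit 5)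 (nat_lit 72) (nat_lit 5) (nat_lit 69) (nat_lit 5) (nat_lit 319) (nat_lit 298) (nat_lit 283)))) (XT.nd (nat_lit 78) (nat_lit 684) (nat_lit 0) (XT.lf (nat_lit 0) (nat_lit 1462256889) (nat_lit 304) (nat_lit 453649564) (nat_lit 76) (nat_lit 8300095195) (nat_lit 64) (nat_lit 5) (nat_lit 68) (nat_lit 5) (nat_lit 65) (nat_lit 5) (nat_lit 320) (nat_lit 298) (nat_lit 282)) (XT.nd (nat_lit 78) (nat_lit 456) (nat_lit 0) (XT.lf (nat_lit 0) (nat_lit 6575600294) (nat_lit 304) (nat_lit 112008671) (nat_lit 76) (nat_lit 3966502178) (nat_lit 61) (nat_lit 5) (nat_lit 65) (nat_lit 5) (nat_lit 62) (nat_lit 5) (nat_lit 321) (nat_lit 298) (nat_lit 281)) (XT.lf (nat_lit 0) (nat_lit 200035707) (nat_lit 152) (nat_lit 757105142) (nat_lit 228) (nat_lit 10168610010) (nat_lit 55) (nat_lit 5) (nat_lit 57) (nat_lit 5) (nat_lit 58) (nat_lit 5) (nat_lit 322) (nat_lit 298) (nat_lit 280))))) (XT.nd (nat_lit 234) (nat_lit 380)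 (nat_lit 0) (XT.nd (nat_lit 78) (nat_lit 380) (nat_lit 0) (XT.lf (nat_lit 0) (nat_lit 344198163) (nat_lit 228) (nat_lit 5994514999) (nat_lit 304) (nat_lit 5288871922) (nat_lit 52) (nat_lit 5) (nat_lit 55) (nat_lit 5) (nat_lit 56) (nat_lit 5) (nat_lit 323) (nat_lit 298) (nat_lit 279)) (XT.nd (nat_lit 78) (nat_lit 152) (nat_lit 0) (XT.lf (nat_lit 0) (nat_lit 6594058) (nat_lit 228) (nat_lit 11737572138) (nat_lit 76) (nat_lit 424269088) (nat_lit 49) (nat_lit 5) (nat_lit 52) (nat_lit 5) (nat_lit 50) (nat_lit 5) (nat_lit 324) (nat_lit 298) (nat_lit 278)) (XT.lf (nat_lit 0) (nat_lit 256638674) (nat_lit 152) (nat_lit 5404159348) (nat_lit 228) (nat_lit 7081485695) (nat_lit 47) (nat_lit 5) (nat_lit 49) (nat_lit 5) (nat_lit 50) (nat_lit 5) (nat_lit 325) (nat_lit 298) (nat_lit 277)))) (XT.nd (nat_lit 78) (nat_lit 380) (nat_lit 0) (XT.lf (nat_lit 0) (nat_lit 11818386842) (nat_lit 228) (nat_lit 42895960)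 (nat_lit 76) (nat_lit 1498283690) (nat_lit 47) (nat_lit 5) (nat_lit 50) (nat_lit 5) (nat_lit 48) (nat_lit 4) (nat_lit 326) (nat_lit 298) (nat_lit 276)) (XT.nd (nat_lit 78) (nat_lit 152) (nat_lit 0) (XT.lf (nat_lit 0) (nat_lit 4437607403) (nat_lit 228) (nat_lit 628990209) (nat_lit 76) (nat_lit 8949363999) (nat_lit 44) (nat_lit 5) (nat_lit 47) (nat_lit 5) (nat_lit 45) (nat_lit 5) (nat_lit 327) (nat_lit 298) (nat_lit 275)) (XT.lf (nat_lit 0) (nat_lit 10927064942) (nat_lit 228) (nat_lit 1457643417) (nat_lit 76) (nat_lit 2334642991) (nat_lit 42) (nat_lit 5) (nat_lit 45) (nat_lit 5) (nat_lit 43) (nat_lit 4) (nat_lit 328) (nat_lit 298) (nat_lit 274)))))) (XT.nd (nat_lit 468) (nat_lit 608) (nat_lit 0) (XT.nd (nat_lit 234) (nat_lit 532) (nat_lit 0) (XT.nd (nat_lit 78) (nat_lit 228) (nat_lit 0) (XT.lf (nat_lit 0) (nat_lit 2523751221) (nat_lit 228) (nat_lit 2639456694) (nat_lit 76) (nat_lit 10306657734)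 (nat_lit 39) (nat_lit 5) (nat_lit 42) (nat_lit 5) (nat_lit 40) (nat_lit 5) (nat_lit 329) (nat_lit 298) (nat_lit 273)) (XT.nd (nat_lit 78) (nat_lit 76) (nat_lit 0) (XT.lf (nat_lit 0) (nat_lit 9323758557) (nat_lit 228) (nat_lit 4215218061) (nat_lit 76) (nat_lit 2732811146) (nat_lit 37) (nat_lit 5) (nat_lit 40) (nat_lit 5) (nat_lit 38) (nat_lit 4) (nat_lit 330) (nat_lit 298) (nat_lit 272)) (XT.lf (nat_lit 0) (nat_lit 10898936283) (nat_lit 76) (nat_lit 5929368113) (nat_lit 152) (nat_lit 301581058) (nat_lit 36) (nat_lit 5) (nat_lit 37) (nat_lit 5) (nat_lit 38) (nat_lit 4) (nat_lit 331) (nat_lit 298) (nat_lit 271)))) (XT.nd (nat_lit 78) (nat_lit 304) (nat_lit 0) (XT.lf (nat_lit 0) (nat_lit 6776443405) (nat_lit 228) (nat_lit 8821853077) (nat_lit 76) (nat_lit 2447011586) (nat_lit 33) (nat_lit 5) (nat_lit 36) (nat_lit 5) (nat_lit 34) (nat_lit 4) (nat_lit 332) (nat_lit 298) (nat_lit 270)) (XT.nd (nat_lit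 78) (nat_lit 228) (nat_lit 0) (XT.lf (nat_lit 0) (nat_lit 6987593457) (nat_lit 76) (nat_lit 7608381416) (nat_lit 152) (nat_lit 4428490640) (nat_lit 32) (nat_lit 5) (nat_lit 33) (nat_lit 5) (nat_lit 34) (nat_lit 4) (nat_lit 333) (nat_lit 298) (nat_lit 269)) (XT.lf (nat_lit 0) (nat_lit 2974729057) (nat_lit 228) (nat_lit 15938384277) (nat_lit 76) (nat_lit 1161050991) (nat_lit 29) (nat_lit 5) (nat_lit 32) (nat_lit 5) (nat_lit 30) (nat_lit 4) (nat_lit 334) (nat_lit 298) (nat_lit 268))))) (XT.nd (nat_lit 234) (nat_lit 304) (nat_lit 0) (XT.nd (nat_lit 78) (nat_lit 228) (nat_lit 0) (XT.lf (nat_lit 0) (nat_lit 415622927) (nat_lit 76) (nat_lit 10624532603) (nat_lit 152) (nat_lit 10152830974) (nat_lit 28) (nat_lit 5) (nat_lit 29) (nat_lit 5) (nat_lit 30) (nat_lit 4) (nat_lit 335) (nat_lit 298) (nat_lit 267)) (XT.nd (nat_lit 78) (nat_lit 228) (nat_lit 0) (XT.lf (nat_lit 0) (nat_lit 18430926486) (nat_lit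 76) (nat_lit 1478535688) (nat_lit 152) (nat_lit 2483950047) (nat_lit 28) (nat_lit 5) (nat_lit 29) (nat_lit 5) (nat_lit 30) (nat_lit 4) (nat_lit 336) (nat_lit 298) (nat_lit 266)) (XT.lf (nat_lit 0) (nat_lit 5859949912) (nat_lit 228) (nat_lit 9451762038) (nat_lit 76) (nat_lit 8361305317) (nat_lit 25) (nat_lit 5) (nat_lit 28) (nat_lit 5) (nat_lit 26) (nat_lit 4) (nat_lit 337) (nat_lit 298) (nat_lit 265)))) (XT.nd (nat_lit 156) (nat_lit 152) (nat_lit 0) (XT.nd (nat_lit 78) (nat_lit 76) (nat_lit 0) (XT.lf (nat_lit 0) (nat_lit 8969778999) (nat_lit 76) (nat_lit 5942714849) (nat_lit 152) (nat_lit 10134077516) (nat_lit 24) (nat_lit 5) (nat_lit 25) (nat_lit 5) (nat_lit 26) (nat_lit 4) (nat_lit 338) (nat_lit 298) (nat_lit 264)) (XT.lf (nat_lit 0) (nat_lit 2498678708) (nat_lit 76) (nat_lit 22357652264) (nat_lit 76) (nat_lit 1665347065) (nat_lit 23) (nat_lit 4) (nat_lit 24) (nat_lit 5) (nat_lit 24) (nat_lit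 4) (nat_lit 339) (nat_lit 298) (nat_lit 263))) (XT.nd (nat_lit 78) (nat_lit 76) (nat_lit 0) (XT.lf (nat_lit 0) (nat_lit 7525014117) (nat_lit 152) (nat_lit 5377214148) (nat_lit 76) (nat_lit 15192566785) (nat_lit 22) (nat_lit 5) (nat_lit 24) (nat_lit 5) (nat_lit 23) (nat_lit 4) (nat_lit 340) (nat_lit 298) (nat_lit 262)) (XT.lf (nat_lit 0) (nat_lit 15038368934) (nat_lit 76) (nat_lit 2495686564) (nat_lit 152) (nat_lit 12251269598) (nat_lit 21) (nat_lit 5) (nat_lit 22) (nat_lit 5) (nat_lit 23) (nat_lit 4) (nat_lit 341) (nat_lit 298) (nat_lit 261))))))) (XT.nd (nat_lit 936) (nat_lit 456) (nat_lit 0) (XT.nd (nat_lit 468) (nat_lit 304) (nat_lit 0) (XT.nd (nat_lit 234) (nat_lit 228) (nat_lit 0) (XT.nd (nat_lit 78) (nat_lit 152) (nat_lit 0) (XT.lf (nat_lit 0) (nat_lit 5541350044) (nat_lit 76) (nat_lit 23030036301) (nat_lit 76) (nat_lit 3028350079) (nat_lit 20) (nat_lit 4) (nat_lit 21) (nat_lit 5)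 (nat_lit 21) (nat_lit 4) (nat_lit 342) (nat_lit 298) (nat_lit 260)) (XT.nd (nat_lit 78) (nat_lit 76) (nat_lit 0) (XT.lf (nat_lit 0) (nat_lit 6925768694) (nat_lit 152) (nat_lit 5887921857) (nat_lit 76) (nat_lit 20729451254) (nat_lit 19) (nat_lit 5) (nat_lit 21) (nat_lit 5) (nat_lit 20) (nat_lit 4) (nat_lit 343) (nat_lit 298) (nat_lit 259)) (XT.lf (nat_lit 0) (nat_lit 16209985356) (nat_lit 76) (nat_lit 1533218410) (nat_lit 152) (nat_lit 17887693357) (nat_lit 18) (nat_lit 5) (nat_lit 19) (nat_lit 5) (nat_lit 20) (nat_lit 4) (nat_lit 344) (nat_lit 298) (nat_lit 258)))) (XT.nd (nat_lit 78) (nat_lit 152) (nat_lit 0) (XT.lf (nat_lit 0) (nat_lit 2156430495) (nat_lit 76) (nat_lit 27495016871) (nat_lit 76) (nat_lit 8222967806) (nat_lit 17) (nat_lit 4) (nat_lit 18) (nat_lit 5) (nat_lit 18) (nat_lit 4) (nat_lit 345) (nat_lit 298) (nat_lit 257)) (XT.nd (nat_lit 78) (nat_lit 76) (nat_lit 0) (XT.lf (nat_lit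 0) (nat_lit 2437321221) (nat_lit 152) (nat_lit 14339093604) (nat_lit 76) (nat_lit 23504618369) (nat_lit 16) (nat_lit 5) (nat_lit 18) (nat_lit 5) (nat_lit 17) (nat_lit 4) (nat_lit 346) (nat_lit 298) (nat_lit 256)) (XT.lf (nat_lit 0) (nat_lit 8756448455) (nat_lit 76) (nat_lit 4975695923) (nat_lit 152) (nat_lit 29137816564) (nat_lit 15) (nat_lit 5) (nat_lit 16) (nat_lit 5) (nat_lit 17) (nat_lit 4) (nat_lit 347) (nat_lit 298) (nat_lit 255))))) (XT.nd (nat_lit 234) (nat_lit 152) (nat_lit 0) (XT.nd (nat_lit 78) (nat_lit 152) (nat_lit 0) (XT.lf (nat_lit 0) (nat_lit 26237218272) (nat_lit 152) (nat_lit 11699037239) (nat_lit 0) (nat_lit 7714423975) (nat_lit 15) (nat_lit 5) (nat_lit 17) (nat_lit 4) (nat_lit 15) (nat_lit 4) (nat_lit 348) (nat_lit 298) (nat_lit 254)) (XT.nd (nat_lit 78) (nat_lit 76) (nat_lit 0) (XT.lf (nat_lit 0) (nat_lit 12709431910) (nat_lit 76) (nat_lit 27252165053) (nat_lit 76) (nat_lit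 8681322702) (nat_lit 14) (nat_lit 4) (nat_lit 15) (nat_lit 5) (nat_lit 15) (nat_lit 4) (nat_lit 349) (nat_lit 298) (nat_lit 253)) (XT.lf (nat_lit 0) (nat_lit 2961843570) (nat_lit 152) (nat_lit 12543551969) (nat_lit 76) (nat_lit 36359601595) (nat_lit 13) (nat_lit 5) (nat_lit 15) (nat_lit 5) (nat_lit 14) (nat_lit 4) (nat_lit 350) (nat_lit 298) (nat_lit 252)))) (XT.nd (nat_lit 78) (nat_lit 76) (nat_lit 0) (XT.lf (nat_lit 0) (nat_lit 12873233157) (nat_lit 76) (nat_lit 2507136552) (nat_lit 152) (nat_lit 39949959785) (nat_lit 12) (nat_lit 5) (nat_lit 13) (nat_lit 5) (nat_lit 14) (nat_lit 4) (nat_lit 351) (nat_lit 298) (nat_lit 251)) (XT.nd (nat_lit 78) (nat_lit 76) (nat_lit 0) (XT.lf (nat_lit 0) (nat_lit 29139282199) (nat_lit 152) (nat_lit 18581430324) (nat_lit 0) (nat_lit 11334837586) (nat_lit 12) (nat_lit 5) (nat_lit 14) (nat_lit 4) (nat_lit 12) (nat_lit 4) (nat_lit 352) (nat_lit 298) (nat_lit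 250)) (XT.lf (nat_lit 0) (nat_lit 7296337569) (nat_lit 76) (nat_lit 36807641605) (nat_lit 76) (nat_lit 18969561990) (nat_lit 11) (nat_lit 4) (nat_lit 12) (nat_lit 5) (nat_lit 12) (nat_lit 4) (nat_lit 353) (nat_lit 298) (nat_lit 249)))))) (XT.nd (nat_lit 468) (nat_lit 228) (nat_lit 0) (XT.nd (nat_lit 234) (nat_lit 76) (nat_lit 0) (XT.nd (nat_lit 78) (nat_lit 152) (nat_lit 0) (XT.lf (nat_lit 0) (nat_lit 35812970234) (nat_lit 76) (nat_lit 24727743603) (nat_lit 76) (nat_lit 6858520466) (nat_lit 11) (nat_lit 4) (nat_lit 12) (nat_lit 5) (nat_lit 12) (nat_lit 4) (nat_lit 354) (nat_lit 298) (nat_lit 248)) (XT.nd (nat_lit 78) (nat_lit 76) (nat_lit 0) (XT.lf (nat_lit 0) (nat_lit 5976335634) (nat_lit 152) (nat_lit 5646571679) (nat_lit 76) (nat_lit 60445521348) (nat_lit 10) (nat_lit 5) (nat_lit 12) (nat_lit 5) (nat_lit 11) (nat_lit 4) (nat_lit 355) (nat_lit 298) (nat_lit 247)) (XT.lf (nat_lit 0) (nat_lit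 19962575700) (nat_lit 152) (nat_lit 54233346279) (nat_lit 0) (nat_lit 2891375433) (nat_lit 9) (nat_lit 5) (nat_lit 11) (nat_lit 4) (nat_lit 9) (nat_lit 4) (nat_lit 356) (nat_lit 298) (nat_lit 246)))) (XT.nd (nat_lit 78) (nat_lit 76) (nat_lit 0) (XT.lf (nat_lit 0) (nat_lit 35322442268) (nat_lit 152) (nat_lit 28944804942) (nat_lit 0) (nat_lit 18227696543) (nat_lit 9) (nat_lit 5) (nat_lit 11) (nat_lit 4) (nat_lit 9) (nat_lit 4) (nat_lit 357) (nat_lit 298) (nat_lit 245)) (XT.nd (nat_lit 78) (nat_lit 76) (nat_lit 0) (XT.lf (nat_lit 0) (nat_lit 51872923866) (nat_lit 152) (nat_lit 1707813988) (nat_lit 0) (nat_lit 34756376790) (nat_lit 9) (nat_lit 5) (nat_lit 11) (nat_lit 4) (nat_lit 9) (nat_lit 4) (nat_lit 358) (nat_lit 298) (nat_lit 244)) (XT.lf (nat_lit 0) (nat_lit 28552902159) (nat_lit 76) (nat_lit 41604986084) (nat_lit 76) (nat_lit 24468252572) (nat_lit 8) (nat_lit 4) (nat_lit 9) (nat_lit 5)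 (nat_lit 9) (nat_lit 4) (nat_lit 359) (nat_lit 298) (nat_lit 243))))) (XT.nd (nat_lit 234) (nat_lit 76) (nat_lit 0) (XT.nd (nat_lit 78) (nat_lit 152) (nat_lit 0) (XT.lf (nat_lit 0) (nat_lit 61229359049) (nat_lit 76) (nat_lit 28672279396) (nat_lit 76) (nat_lit 11516854740) (nat_lit 8) (nat_lit 4) (nat_lit 9) (nat_lit 5) (nat_lit 9) (nat_lit 4) (nat_lit 360) (nat_lit 298) (nat_lit 242)) (XT.nd (nat_lit 78) (nat_lit 76) (nat_lit 0) (XT.lf (nat_lit 0) (nat_lit 2359803330) (nat_lit 152) (nat_lit 12335134442) (nat_lit 76) (nat_lit 94058959159) (nat_lit 7) (nat_lit 5) (nat_lit 9) (nat_lit 5) (nat_lit 8) (nat_lit 4) (nat_lit 361) (nat_lit 298) (nat_lit 241)) (XT.lf (nat_lit 0) (nat_lit 17214878472) (nat_lit 152) (nat_lit 98593593659) (nat_lit 0) (nat_lit 844634744) (nat_lit 6) (nat_lit 5) (nat_lit 8) (nat_lit 4) (nat_lit 6) (nat_lit 4) (nat_lit 362) (nat_lit 298) (nat_lit 240)))) (XT.nd (nat_lit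 156) (nat_lit 76) (nat_lit 0) (XT.nd (nat_lit 78) (nat_lit 0) (nat_lit 0) (XT.lf (nat_lit 0) (nat_lit 33696010466) (nat_lit 152) (nat_lit 74154727621) (nat_lit 0) (nat_lit 17311635660) (nat_lit 6) (nat_lit 5) (nat_lit 8) (nat_lit 4) (nat_lit 6) (nat_lit 4) (nat_lit 363) (nat_lit 298) (nat_lit 239)) (XT.lf (nat_lit 0) (nat_lit 51469220801) (nat_lit 152) (nat_lit 47812722592) (nat_lit 0) (nat_lit 35071761663) (nat_lit 6) (nat_lit 5) (nat_lit 8) (nat_lit 4) (nat_lit 6) (nat_lit 4) (nat_lit 364) (nat_lit 298) (nat_lit 238))) (XT.nd (nat_lit 78) (nat_lit 76) (nat_lit 0) (XT.lf (nat_lit 0) (nat_lit 70639832206) (nat_lit 152) (nat_lit 19411477802) (nat_lit 0) (nat_lit 54230257945) (nat_lit 6) (nat_lit 5) (nat_lit 8) (nat_lit 4) (nat_lit 6) (nat_lit 4) (nat_lit 365) (nat_lit 298) (nat_lit 237)) (XT.lf (nat_lit 0) (nat_lit 11588205364) (nat_lit 76) (nat_lit 79914167300) (nat_lit 76) (nat_lit 63493375333)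 (nat_lit 5) (nat_lit 4) (nat_lit 6) (nat_lit 5) (nat_lit 6) (nat_lit 4) (nat_lit 366) (nat_lit 298) (nat_lit 236))))))))
noncomputable def xc44 : XT := (XT.nd (nat_lit 1872) (nat_lit 0) (nat_lit 0) (XT.nd (nat_lit 936) (nat_lit 76) (nat_lit 0) (XT.nd (nat_lit 468) (nat_lit 0) (nat_lit 0) (XT.nd (nat_lit 234) (nat_lit 152) (nat_lit 0) (XT.nd (nat_lit 78) (nat_lit 0) (nat_lit 0) (XT.lf (nat_lit 0) (nat_lit 45718421001) (nat_lit 76) (nat_lit 68631998491) (nat_lit 76) (nat_lit 52200819760) (nat_lit 5) (nat_lit 4) (nat_lit 6) (nat_lit 5) (nat_lit 6) (nat_lit 4) (nat_lit 367) (nat_lit 298) (nat_lit 235)) (XT.nd (nat_lit 78) (nat_lit 0) (nat_lit 0) (XT.lf (nat_lit 0) (nat_lit 82539591118) (nat_lit 76) (nat_lit 56466689056) (nat_lit 76) (nat_lit 40025892950) (nat_lit 5) (nat_lit 4) (nat_lit 6) (nat_lit 5) (nat_lit 6) (nat_lit 4) (nat_lit 368) (nat_lit 298) (nat_lit 234)) (XT.lf (nat_lit 0) (nat_lit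 122269915242) (nat_lit 76) (nat_lit 43346148271) (nat_lit 76) (nat_lit 26896447188) (nat_lit 5) (nat_lit 4) (nat_lit 6) (nat_lit 5) (nat_lit 6) (nat_lit 4) (nat_lit 369) (nat_lit 298) (nat_lit 233)))) (XT.nd (nat_lit 78) (nat_lit 152) (nat_lit 0) (XT.lf (nat_lit 0) (nat_lit 165144832330) (nat_lit 76) (nat_lit 29192624784) (nat_lit 76) (nat_lit 12734678352) (nat_lit 5) (nat_lit 4) (nat_lit 6) (nat_lit 5) (nat_lit 6) (nat_lit 4) (nat_lit 370) (nat_lit 298) (nat_lit 232)) (XT.nd (nat_lit 78) (nat_lit 76) (nat_lit 0) (XT.lf (nat_lit 0) (nat_lit 2461932543) (nat_lit 152) (nat_lit 11418619300) (nat_lit 76) (nat_lit 208914789402) (nat_lit 4) (nat_lit 5) (nat_lit 6) (nat_lit 5) (nat_lit 5) (nat_lit 4) (nat_lit 371) (nat_lit 298) (nat_lit 231)) (XT.lf (nat_lit 0) (nat_lit 18812838575) (nat_lit 152) (nat_lit 217809291146) (nat_lit 0) (nat_lit 3124600412) (nat_lit 3) (nat_lit 5) (nat_lit 5) (nat_lit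 4) (nat_lit 3) (nat_lit 4) (nat_lit 372) (nat_lit 298) (nat_lit 230))))) (XT.nd (nat_lit 234) (nat_lit 0) (nat_lit 0) (XT.nd (nat_lit 78) (nat_lit 0) (nat_lit 0) (XT.lf (nat_lit 0) (nat_lit 36893519611) (nat_lit 152) (nat_lit 199940578865) (nat_lit 0) (nat_lit 21199047710) (nat_lit 3) (nat_lit 5) (nat_lit 5) (nat_lit 4) (nat_lit 3) (nat_lit 4) (nat_lit 373) (nat_lit 298) (nat_lit 229)) (XT.nd (nat_lit 78) (nat_lit 0) (nat_lit 0) (XT.lf (nat_lit 0) (nat_lit 56407215630) (nat_lit 152) (nat_lit 180668961208) (nat_lit 0) (nat_lit 40706971751) (nat_lit 3) (nat_lit 5) (nat_lit 5) (nat_lit 4) (nat_lit 3) (nat_lit 4) (nat_lit 374) (nat_lit 298) (nat_lit 228)) (XT.lf (nat_lit 0) (nat_lit 77469563352) (nat_lit 152) (nat_lit 159880235997) (nat_lit 0) (nat_lit 61763975048) (nat_lit 3) (nat_lit 5) (nat_lit 5) (nat_lit 4) (nat_lit 3) (nat_lit 4) (nat_lit 375) (nat_lit 298) (nat_lit 227)))) (XT.nd (nat_lit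 78) (nat_lit 0) (nat_lit 0) (XT.lf (nat_lit 0) (nat_lit 100205376687) (nat_lit 152) (nat_lit 137451210786) (nat_lit 0) (nat_lit 84494839842) (nat_lit 3) (nat_lit 5) (nat_lit 5) (nat_lit 4) (nat_lit 3) (nat_lit 4) (nat_lit 376) (nat_lit 298) (nat_lit 226)) (XT.nd (nat_lit 78) (nat_lit 0) (nat_lit 0) (XT.lf (nat_lit 0) (nat_lit 124749386382) (nat_lit 152) (nat_lit 113248972833) (nat_lit 0) (nat_lit 109034267555) (nat_lit 3) (nat_lit 5) (nat_lit 5) (nat_lit 4) (nat_lit 3) (nat_lit 4) (nat_lit 377) (nat_lit 298) (nat_lit 225)) (XT.lf (nat_lit 0) (nat_lit 151247038421) (nat_lit 152) (nat_lit 87130101469) (nat_lit 0) (nat_lit 135527677017) (nat_lit 3) (nat_lit 5) (nat_lit 5) (nat_lit 4) (nat_lit 3) (nat_lit 4) (nat_lit 378) (nat_lit 298) (nat_lit 224)))))) (XT.nd (nat_lit 468) (nat_lit 0) (nat_lit 0) (XT.nd (nat_lit 234) (nat_lit 0) (nat_lit 0) (XT.nd (nat_lit 78) (nat_lit 76) (nat_lit 0) (XT.lf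 (nat_lit 0) (nat_lit 179855355925) (nat_lit 152) (nat_lit 58939818197) (nat_lit 0) (nat_lit 164132066210) (nat_lit 3) (nat_lit 5) (nat_lit 5) (nat_lit 4) (nat_lit 3) (nat_lit 4) (nat_lit 379) (nat_lit 298) (nat_lit 223)) (XT.nd (nat_lit 78) (nat_lit 76) (nat_lit 0) (XT.lf (nat_lit 0) (nat_lit 210743869667) (nat_lit 152) (nat_lit 28511069485) (nat_lit 0) (nat_lit 195016942625) (nat_lit 3) (nat_lit 5) (nat_lit 5) (nat_lit 4) (nat_lit 3) (nat_lit 4) (nat_lit 380) (nat_lit 298) (nat_lit 222)) (XT.lf (nat_lit 0) (nat_lit 4479846231) (nat_lit 76) (nat_lit 239685719412) (nat_lit 76) (nat_lit 223955424476) (nat_lit 2) (nat_lit 4) (nat_lit 3) (nat_lit 5) (nat_lit 3) (nat_lit 4) (nat_lit 381) (nat_lit 298) (nat_lit 221)))) (XT.nd (nat_lit 78) (nat_lit 0) (nat_lit 0) (XT.lf (nat_lit 0) (nat_lit 41113314657) (nat_lit 76) (nat_lit 239636834415) (nat_lit 76) (nat_lit 223903421059) (nat_lit 2) (nat_lit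 4) (nat_lit 3) (nat_lit 5) (nat_lit 3) (nat_lit 4) (nat_lit 382) (nat_lit 298) (nat_lit 220)) (XT.nd (nat_lit 78) (nat_lit 0) (nat_lit 0) (XT.lf (nat_lit 0) (nat_lit 80663718295) (nat_lit 76) (nat_lit 239590843229) (nat_lit 76) (nat_lit 223854542447) (nat_lit 2) (nat_lit 4) (nat_lit 3) (nat_lit 5) (nat_lit 3) (nat_lit 4) (nat_lit 383) (nat_lit 298) (nat_lit 219)) (XT.lf (nat_lit 0) (nat_lit 123365429908) (nat_lit 76) (nat_lit 239547473316) (nat_lit 76) (nat_lit 223808498991) (nat_lit 2) (nat_lit 4) (nat_lit 3) (nat_lit 5) (nat_lit 3) (nat_lit 4) (nat_lit 384) (nat_lit 298) (nat_lit 218))))) (XT.nd (nat_lit 234) (nat_lit 0) (nat_lit 0) (XT.nd (nat_lit 78) (nat_lit 0) (nat_lit 0) (XT.lf (nat_lit 0) (nat_lit 169471496674) (nat_lit 76) (nat_lit 239506467667) (nat_lit 76) (nat_lit 223765017839) (nat_lit 2) (nat_lit 4) (nat_lit 3) (nat_lit 5) (nat_lit 3) (nat_lit 4) (nat_lit 385) (nat_lit 298)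 (nat_lit 217)) (XT.nd (nat_lit 78) (nat_lit 0) (nat_lit 0) (XT.lf (nat_lit 0) (nat_lit 219255139731) (nat_lit 76) (nat_lit 239467583286) (nat_lit 76) (nat_lit 223723841326) (nat_lit 2) (nat_lit 4) (nat_lit 3) (nat_lit 5) (nat_lit 3) (nat_lit 4) (nat_lit 386) (nat_lit 298) (nat_lit 216)) (XT.lf (nat_lit 0) (nat_lit 273011373260) (nat_lit 76) (nat_lit 239430589748) (nat_lit 76) (nat_lit 223684725443) (nat_lit 2) (nat_lit 4) (nat_lit 3) (nat_lit 5) (nat_lit 3) (nat_lit 4) (nat_lit 387) (nat_lit 298) (nat_lit 215)))) (XT.nd (nat_lit 78) (nat_lit 0) (nat_lit 0) (XT.lf (nat_lit 0) (nat_lit 331058752718) (nat_lit 76) (nat_lit 239395267830) (nat_lit 76) (nat_lit 223647438392) (nat_lit 2) (nat_lit 4) (nat_lit 3) (nat_lit 5) (nat_lit 3) (nat_lit 4) (nat_lit 388) (nat_lit 298) (nat_lit 214)) (XT.nd (nat_lit 78) (nat_lit 0) (nat_lit 0) (XT.lf (nat_lit 0) (nat_lit 393741262577) (nat_lit 76) (nat_lit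 239361408220) (nat_lit 76) (nat_lit 223611759213) (nat_lit 2) (nat_lit 4) (nat_lit 3) (nat_lit 5) (nat_lit 3) (nat_lit 4) (nat_lit 389) (nat_lit 298) (nat_lit 213)) (XT.lf (nat_lit 0) (nat_lit 461430354747) (nat_lit 76) (nat_lit 239328810266) (nat_lit 76) (nat_lit 223577476473) (nat_lit 2) (nat_lit 4) (nat_lit 3) (nat_lit 5) (nat_lit 3) (nat_lit 4) (nat_lit 390) (nat_lit 298) (nat_lit 212))))))) (XT.nd (nat_lit 40482) (nat_lit 0) (nat_lit 4484) (XT.nd (nat_lit 40014) (nat_lit 0) (nat_lit 9956) (XT.nd (nat_lit 234) (nat_lit 0) (nat_lit 0) (XT.nd (nat_lit 78) (nat_lit 0) (nat_lit 0) (XT.lf (nat_lit 0) (nat_lit 534527149773) (nat_lit 76) (nat_lit 239297280795) (nat_lit 76) (nat_lit 223544387016) (nat_lit 2) (nat_lit 4) (nat_lit 3) (nat_lit 5) (nat_lit 3) (nat_lit 4) (nat_lit 391) (nat_lit 298) (nat_lit 211)) (XT.nd (nat_lit 78) (nat_lit 0) (nat_lit 0) (XT.lf (nat_lit 0) (nat_lit 613464813849)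 (nat_lit 76) (nat_lit 239266632967) (nat_lit 76) (nat_lit 223512294756) (nat_lit 2) (nat_lit 4) (nat_lit 3) (nat_lit 5) (nat_lit 3) (nat_lit 4) (nat_lit 392) (nat_lit 298) (nat_lit 210)) (XT.lf (nat_lit 0) (nat_lit 698711125725) (nat_lit 76) (nat_lit 239236685164) (nat_lit 76) (nat_lit 223481009517) (nat_lit 2) (nat_lit 4) (nat_lit 3) (nat_lit 5) (nat_lit 3) (nat_lit 4) (nat_lit 393) (nat_lit 298) (nat_lit 209)))) (XT.nd (nat_lit 78) (nat_lit 0) (nat_lit 0) (XT.lf (nat_lit 0) (nat_lit 790771248731) (nat_lit 76) (nat_lit 239207259919) (nat_lit 76) (nat_lit 223450345904) (nat_lit 2) (nat_lit 4) (nat_lit 3) (nat_lit 5) (nat_lit 3) (nat_lit 4) (nat_lit 394) (nat_lit 298) (nat_lit 208)) (XT.nd (nat_lit 39624) (nat_lit 0) (nat_lit 12312) (XT.lf (nat_lit 0) (nat_lit 890190724335) (nat_lit 76) (nat_lit 239178182859) (nat_lit 76) (nat_lit 223420122207) (nat_lit 2) (nat_lit 4) (nat_lit 3) (nat_lit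 5) (nat_lit 3) (nat_lit 4) (nat_lit 395) (nat_lit 298) (nat_lit 207)) (XT.lf (nat_lit 0) (nat_lit 1984231190) (nat_lit 76) (nat_lit 625474935) (nat_lit 76) (nat_lit 625474935) (nat_lit 164) (nat_lit 4) (nat_lit 165) (nat_lit 5) (nat_lit 165) (nat_lit 4) (nat_lit 302) (nat_lit 299) (nat_lit 299))))) (XT.nd (nat_lit 234) (nat_lit 1520) (nat_lit 0) (XT.nd (nat_lit 78) (nat_lit 608) (nat_lit 0) (XT.lf (nat_lit 0) (nat_lit 3099844539) (nat_lit 152) (nat_lit 496603451) (nat_lit 228) (nat_lit 2913010368) (nat_lit 161) (nat_lit 5) (nat_lit 163) (nat_lit 5) (nat_lit 164) (nat_lit 4) (nat_lit 303) (nat_lit 299) (nat_lit 298)) (XT.nd (nat_lit 78) (nat_lit 304) (nat_lit 0) (XT.lf (nat_lit 0) (nat_lit 1790417482) (nat_lit 304) (nat_lit 4167014171) (nat_lit 76) (nat_lit 610914783) (nat_lit 157) (nat_lit 5) (nat_lit 161) (nat_lit 5) (nat_lit 158) (nat_lit 4) (nat_lit 304) (nat_lit 299) (nat_lit 297)) (XT.lf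 (nat_lit 0) (nat_lit 1860473782) (nat_lit 304) (nat_lit 4572063547) (nat_lit 380) (nat_lit 214425691) (nat_lit 153) (nat_lit 5) (nat_lit 157) (nat_lit 5) (nat_lit 158) (nat_lit 4) (nat_lit 305) (nat_lit 299) (nat_lit 296)))) (XT.nd (nat_lit 78) (nat_lit 1064) (nat_lit 0) (XT.lf (nat_lit 0) (nat_lit 1451075569) (nat_lit 380) (nat_lit 2794277851) (nat_lit 456) (nat_lit 2499286172) (nat_lit 147) (nat_lit 5) (nat_lit 152) (nat_lit 5) (nat_lit 153) (nat_lit 5) (nat_lit 306) (nat_lit 299) (nat_lit 295)) (XT.nd (nat_lit 78) (nat_lit 532) (nat_lit 0) (XT.lf (nat_lit 0) (nat_lit 1200357429) (nat_lit 456) (nat_lit 641889580) (nat_lit 532) (nat_lit 5021057970) (nat_lit 140) (nat_lit 5) (nat_lit 146) (nat_lit 5) (nat_lit 147) (nat_lit 5) (nat_lit 307) (nat_lit 299) (nat_lit 294)) (XT.lf (nat_lit 0) (nat_lit 1062126434) (nat_lit 532) (nat_lit 5149746174) (nat_lit 608) (nat_lit 789578623) (nat_lit 133)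 (nat_lit 5) (nat_lit 140) (nat_lit 5) (nat_lit 141) (nat_lit 5) (nat_lit 308) (nat_lit 299) (nat_lit 293)))))) (XT.nd (nat_lit 468) (nat_lit 2052) (nat_lit 0) (XT.nd (nat_lit 234) (nat_lit 1216) (nat_lit 0) (XT.nd (nat_lit 78) (nat_lit 1520) (nat_lit 0) (XT.lf (nat_lit 0) (nat_lit 1026951922) (nat_lit 608) (nat_lit 2406699846) (nat_lit 684) (nat_lit 3725734131) (nat_lit 124) (nat_lit 5) (nat_lit 132) (nat_lit 5) (nat_lit 133) (nat_lit 5) (nat_lit 309) (nat_lit 299) (nat_lit 292)) (XT.nd (nat_lit 78) (nat_lit 760) (nat_lit 0) (XT.lf (nat_lit 0) (nat_lit 414569372) (nat_lit 760) (nat_lit 6215808232) (nat_lit 76) (nat_lit 708924204) (nat_lit 114) (nat_lit 5) (nat_lit 124) (nat_lit 5) (nat_lit 115) (nat_lit 5) (nat_lit 310) (nat_lit 299) (nat_lit 291)) (XT.lf (nat_lit 0) (nat_lit 1269364716) (nat_lit 760) (nat_lit 3340211533) (nat_lit 836) (nat_lit 2928606399) (nat_lit 104) (nat_lit 5) (nat_lit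 114) (nat_lit 5) (nat_lit 115) (nat_lit 5) (nat_lit 311) (nat_lit 299) (nat_lit 290)))) (XT.nd (nat_lit 78) (nat_lit 760) (nat_lit 0) (XT.lf (nat_lit 0) (nat_lit 1179478076) (nat_lit 456) (nat_lit 6225998797) (nat_lit 76) (nat_lit 354868325) (nat_lit 98) (nat_lit 5) (nat_lit 104) (nat_lit 5) (nat_lit 99) (nat_lit 5) (nat_lit 312) (nat_lit 299) (nat_lit 289)) (XT.nd (nat_lit 78) (nat_lit 456) (nat_lit 0) (XT.lf (nat_lit 0) (nat_lit 1827843692) (nat_lit 304) (nat_lit 3597381031) (nat_lit 380) (nat_lit 2577340800) (nat_lit 94) (nat_lit 5) (nat_lit 98) (nat_lit 5) (nat_lit 99) (nat_lit 5) (nat_lit 313) (nat_lit 299) (nat_lit 288)) (XT.lf (nat_lit 0) (nat_lit 1572017858) (nat_lit 456) (nat_lit 6057740522) (nat_lit 76) (nat_lit 639204108) (nat_lit 88) (nat_lit 5) (nat_lit 94) (nat_lit 5) (nat_lit 89) (nat_lit 5) (nat_lit 314) (nat_lit 299) (nat_lit 287))))) (XT.nd (nat_lit 234) (nat_lit 1140)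 (nat_lit 0) (XT.nd (nat_lit 78) (nat_lit 608) (nat_lit 0) (XT.lf (nat_lit 0) (nat_lit 2606093144) (nat_lit 304) (nat_lit 3310089641) (nat_lit 380) (nat_lit 2640935486) (nat_lit 84) (nat_lit 5) (nat_lit 88) (nat_lit 5) (nat_lit 89) (nat_lit 5) (nat_lit 315) (nat_lit 299) (nat_lit 286)) (XT.nd (nat_lit 78) (nat_lit 228) (nat_lit 0) (XT.lf (nat_lit 0) (nat_lit 1614176196) (nat_lit 380) (nat_lit 5812698346) (nat_lit 76) (nat_lit 1443770793) (nat_lit 79) (nat_lit 5) (nat_lit 84) (nat_lit 5) (nat_lit 80) (nat_lit 5) (nat_lit 316) (nat_lit 299) (nat_lit 285)) (XT.lf (nat_lit 0) (nat_lit 3504698925) (nat_lit 228) (nat_lit 2594227600) (nat_lit 304) (nat_lit 3109253078) (nat_lit 76) (nat_lit 5) (nat_lit 79) (nat_lit 5) (nat_lit 80) (nat_lit 5) (nat_lit 317) (nat_lit 299) (nat_lit 284)))) (XT.nd (nat_lit 156) (nat_lit 532) (nat_lit 0) (XT.nd (nat_lit 78) (nat_lit 228) (nat_lit 0) (XT.lf (nat_lit 0)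 (nat_lit 1308238870) (nat_lit 380) (nat_lit 5600909386) (nat_lit 76) (nat_lit 2663538667) (nat_lit 71) (nat_lit 5) (nat_lit 76) (nat_lit 5) (nat_lit 72) (nat_lit 5) (nat_lit 318) (nat_lit 299) (nat_lit 283)) (XT.lf (nat_lit 0) (nat_lit 4413878937) (nat_lit 228) (nat_lit 1556417690) (nat_lit 304) (nat_lit 3993649589) (nat_lit 68) (nat_lit 5) (nat_lit 71) (nat_lit 5) (nat_lit 72) (nat_lit 5) (nat_lit 319) (nat_lit 299) (nat_lit 282))) (XT.nd (nat_lit 78) (nat_lit 228) (nat_lit 0) (XT.lf (nat_lit 0) (nat_lit 635616490) (nat_lit 304) (nat_lit 5548603518) (nat_lit 76) (nat_lit 4200100502) (nat_lit 64) (nat_lit 5) (nat_lit 68) (nat_lit 5) (nat_lit 65) (nat_lit 5) (nat_lit 320) (nat_lit 299) (nat_lit 281)) (XT.lf (nat_lit 0) (nat_lit 5205120172) (nat_lit 228) (nat_lit 300730200) (nat_lit 304) (nat_lit 5328792003) (nat_lit 61) (nat_lit 5) (nat_lit 64) (nat_lit 5) (nat_lit 65) (nat_lit 5) (nat_lit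 321) (nat_lit 299) (nat_lit 280))))))))
noncomputable def xc45 : XT := (XT.nd (nat_lit 1950) (nat_lit 912) (nat_lit 0) (XT.nd (nat_lit 936) (nat_lit 1216) (nat_lit 0) (XT.nd (nat_lit 468) (nat_lit 836) (nat_lit 0) (XT.nd (nat_lit 234) (nat_lit 608) (nat_lit 0) (XT.nd (nat_lit 78) (nat_lit 456) (nat_lit 0) (XT.lf (nat_lit 0) (nat_lit 5501938043) (nat_lit 228) (nat_lit 5354365763) (nat_lit 304) (nat_lit 460265716) (nat_lit 58) (nat_lit 5) (nat_lit 61) (nat_lit 5) (nat_lit 62) (nat_lit 5) (nat_lit 322) (nat_lit 299) (nat_lit 279)) (XT.nd (nat_lit 78) (nat_lit 228) (nat_lit 0) (XT.lf (nat_lit 0) (nat_lit 4673556021) (nat_lit 228) (nat_lit 6128199921) (nat_lit 76) (nat_lit 1030177659) (nat_lit 55) (nat_lit 5) (nat_lit 58) (nat_lit 5) (nat_lit 56) (nat_lit 5) (nat_lit 323) (nat_lit 299) (nat_lit 278)) (XT.lf (nat_lit 0) (nat_lit 5784615459) (nat_lit 228) (nat_lit 4527751374) (nat_lit 304) (nat_lit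 2070351734) (nat_lit 52) (nat_lit 5) (nat_lit 55) (nat_lit 5) (nat_lit 56) (nat_lit 5) (nat_lit 324) (nat_lit 299) (nat_lit 277)))) (XT.nd (nat_lit 78) (nat_lit 380) (nat_lit 0) (XT.lf (nat_lit 0) (nat_lit 3384036807) (nat_lit 228) (nat_lit 7247340522) (nat_lit 76) (nat_lit 2340147782) (nat_lit 49) (nat_lit 5) (nat_lit 52) (nat_lit 5) (nat_lit 50) (nat_lit 5) (nat_lit 325) (nat_lit 299) (nat_lit 276)) (XT.nd (nat_lit 78) (nat_lit 228) (nat_lit 0) (XT.lf (nat_lit 0) (nat_lit 5470459114) (nat_lit 152) (nat_lit 3851057906) (nat_lit 228) (nat_lit 4278331419) (nat_lit 47) (nat_lit 5) (nat_lit 49) (nat_lit 5) (nat_lit 50) (nat_lit 5) (nat_lit 326) (nat_lit 299) (nat_lit 275)) (XT.lf (nat_lit 0) (nat_lit 1518233944) (nat_lit 228) (nat_lit 9252744273) (nat_lit 76) (nat_lit 3500924425) (nat_lit 44) (nat_lit 5) (nat_lit 47) (nat_lit 5) (nat_lit 45) (nat_lit 5) (nat_lit 327) (nat_lit 299) (nat_lit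 274))))) (XT.nd (nat_lit 234) (nat_lit 304) (nat_lit 0) (XT.nd (nat_lit 78) (nat_lit 380) (nat_lit 0) (XT.lf (nat_lit 0) (nat_lit 4269838157) (nat_lit 152) (nat_lit 3487769638) (nat_lit 228) (nat_lit 7230217447) (nat_lit 42) (nat_lit 5) (nat_lit 44) (nat_lit 5) (nat_lit 45) (nat_lit 5) (nat_lit 328) (nat_lit 299) (nat_lit 273)) (XT.nd (nat_lit 78) (nat_lit 228) (nat_lit 0) (XT.lf (nat_lit 0) (nat_lit 3242881936) (nat_lit 152) (nat_lit 11393336318) (nat_lit 228) (nat_lit 1117854291) (nat_lit 40) (nat_lit 5) (nat_lit 42) (nat_lit 5) (nat_lit 43) (nat_lit 4) (nat_lit 329) (nat_lit 299) (nat_lit 272)) (XT.lf (nat_lit 0) (nat_lit 1805676921) (nat_lit 152) (nat_lit 3641049232) (nat_lit 228) (nat_lit 11123724823) (nat_lit 37) (nat_lit 5) (nat_lit 39) (nat_lit 5) (nat_lit 40) (nat_lit 5) (nat_lit 330) (nat_lit 299) (nat_lit 271)))) (XT.nd (nat_lit 78) (nat_lit 304) (nat_lit 0) (XT.lf (nat_lit 0)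 (nat_lit 12660418809) (nat_lit 228) (nat_lit 53473247) (nat_lit 76) (nat_lit 4729220951) (nat_lit 37) (nat_lit 5) (nat_lit 40) (nat_lit 5) (nat_lit 38) (nat_lit 4) (nat_lit 331) (nat_lit 299) (nat_lit 270)) (XT.nd (nat_lit 78) (nat_lit 152) (nat_lit 0) (XT.lf (nat_lit 0) (nat_lit 2191972832) (nat_lit 152) (nat_lit 2337220022) (nat_lit 76) (nat_lit 13845199074) (nat_lit 35) (nat_lit 5) (nat_lit 37) (nat_lit 5) (nat_lit 36) (nat_lit 5) (nat_lit 332) (nat_lit 299) (nat_lit 269)) (XT.lf (nat_lit 0) (nat_lit 9733860402) (nat_lit 228) (nat_lit 5239319337) (nat_lit 76) (nat_lit 4394269531) (nat_lit 33) (nat_lit 5) (nat_lit 36) (nat_lit 5) (nat_lit 34) (nat_lit 4) (nat_lit 333) (nat_lit 299) (nat_lit 268)))))) (XT.nd (nat_lit 468) (nat_lit 532) (nat_lit 0) (XT.nd (nat_lit 234) (nat_lit 304) (nat_lit 0) (XT.nd (nat_lit 78) (nat_lit 304) (nat_lit 0) (XT.lf (nat_lit 0) (nat_lit 11648519411) (nat_lit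 76) (nat_lit 6415566195) (nat_lit 152) (nat_lit 2366650355) (nat_lit 32) (nat_lit 5) (nat_lit 33) (nat_lit 5) (nat_lit 34) (nat_lit 4) (nat_lit 334) (nat_lit 299) (nat_lit 267)) (XT.nd (nat_lit 78) (nat_lit 76) (nat_lit 0) (XT.lf (nat_lit 0) (nat_lit 5468314727) (nat_lit 228) (nat_lit 13130878521) (nat_lit 76) (nat_lit 2967537299) (nat_lit 29) (nat_lit 5) (nat_lit 32) (nat_lit 5) (nat_lit 30) (nat_lit 4) (nat_lit 335) (nat_lit 299) (nat_lit 266)) (XT.lf (nat_lit 0) (nat_lit 4354025459) (nat_lit 76) (nat_lit 9718838210) (nat_lit 152) (nat_lit 8707543862) (nat_lit 28) (nat_lit 5) (nat_lit 29) (nat_lit 5) (nat_lit 30) (nat_lit 4) (nat_lit 336) (nat_lit 299) (nat_lit 265)))) (XT.nd (nat_lit 78) (nat_lit 304) (nat_lit 0) (XT.lf (nat_lit 0) (nat_lit 23492942432) (nat_lit 152) (nat_lit 564035388) (nat_lit 0) (nat_lit 27868337) (nat_lit 28) (nat_lit 5) (nat_lit 30) (nat_lit 4) (nat_lit 28) (nat_lit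 4) (nat_lit 337) (nat_lit 299) (nat_lit 264)) (XT.nd (nat_lit 78) (nat_lit 76) (nat_lit 0) (XT.lf (nat_lit 0) (nat_lit 8282157654) (nat_lit 228) (nat_lit 6612737970) (nat_lit 76) (nat_lit 10573848981) (nat_lit 25) (nat_lit 5) (nat_lit 28) (nat_lit 5) (nat_lit 26) (nat_lit 4) (nat_lit 338) (nat_lit 299) (nat_lit 263)) (XT.lf (nat_lit 0) (nat_lit 13126284860) (nat_lit 76) (nat_lit 4841614314) (nat_lit 152) (nat_lit 8988867003) (nat_lit 24) (nat_lit 5) (nat_lit 25) (nat_lit 5) (nat_lit 26) (nat_lit 4) (nat_lit 339) (nat_lit 299) (nat_lit 262))))) (XT.nd (nat_lit 234) (nat_lit 304) (nat_lit 0) (XT.nd (nat_lit 78) (nat_lit 76) (nat_lit 0) (XT.lf (nat_lit 0) (nat_lit 88488456) (nat_lit 152) (nat_lit 22500510840) (nat_lit 76) (nat_lit 5963980054) (nat_lit 22) (nat_lit 5) (nat_lit 24) (nat_lit 5) (nat_lit 23) (nat_lit 4) (nat_lit 340) (nat_lit 299) (nat_lit 261)) (XT.nd (nat_lit 78) (nat_lit 76)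 (nat_lit 0) (XT.lf (nat_lit 0) (nat_lit 9820994562) (nat_lit 152) (nat_lit 2644199018) (nat_lit 76) (nat_lit 17792150843) (nat_lit 22) (nat_lit 5) (nat_lit 24) (nat_lit 5) (nat_lit 23) (nat_lit 4) (nat_lit 341) (nat_lit 299) (nat_lit 260)) (XT.lf (nat_lit 0) (nat_lit 19267162230) (nat_lit 76) (nat_lit 1285357103) (nat_lit 152) (nat_lit 11534534371) (nat_lit 21) (nat_lit 5) (nat_lit 22) (nat_lit 5) (nat_lit 23) (nat_lit 4) (nat_lit 342) (nat_lit 299) (nat_lit 259)))) (XT.nd (nat_lit 156) (nat_lit 152) (nat_lit 0) (XT.nd (nat_lit 78) (nat_lit 76) (nat_lit 0) (XT.lf (nat_lit 0) (nat_lit 8935403452) (nat_lit 76) (nat_lit 23484201356) (nat_lit 76) (nat_lit 1629697716) (nat_lit 20) (nat_lit 4) (nat_lit 21) (nat_lit 5) (nat_lit 21) (nat_lit 4) (nat_lit 343) (nat_lit 299) (nat_lit 258)) (XT.lf (nat_lit 0) (nat_lit 8950571550) (nat_lit 152) (nat_lit 3577901113) (nat_lit 76) (nat_lit 23624329948)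 (nat_lit 19) (nat_lit 5) (nat_lit 21) (nat_lit 5) (nat_lit 20) (nat_lit 4) (nat_lit 344) (nat_lit 299) (nat_lit 257))) (XT.nd (nat_lit 78) (nat_lit 76) (nat_lit 0) (XT.lf (nat_lit 0) (nat_lit 20166977439) (nat_lit 76) (nat_lit 399013256) (nat_lit 152) (nat_lit 17844976971) (nat_lit 18) (nat_lit 5) (nat_lit 19) (nat_lit 5) (nat_lit 20) (nat_lit 4) (nat_lit 345) (nat_lit 299) (nat_lit 256)) (XT.lf (nat_lit 0) (nat_lit 4922100757) (nat_lit 76) (nat_lit 28459498620) (nat_lit 76) (nat_lit 7454649887) (nat_lit 17) (nat_lit 4) (nat_lit 18) (nat_lit 5) (nat_lit 18) (nat_lit 4) (nat_lit 346) (nat_lit 299) (nat_lit 255))))))) (XT.nd (nat_lit 936) (nat_lit 304) (nat_lit 0) (XT.nd (nat_lit 468) (nat_lit 228) (nat_lit 0) (XT.nd (nat_lit 234) (nat_lit 228) (nat_lit 0) (XT.nd (nat_lit 78) (nat_lit 76) (nat_lit 0) (XT.lf (nat_lit 0) (nat_lit 3910556425) (nat_lit 152) (nat_lit 13042694553) (nat_lit 76) (nat_lit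 26486160765) (nat_lit 16) (nat_lit 5) (nat_lit 18) (nat_lit 5) (nat_lit 17) (nat_lit 4) (nat_lit 347) (nat_lit 299) (nat_lit 254)) (XT.nd (nat_lit 78) (nat_lit 0) (nat_lit 0) (XT.lf (nat_lit 0) (nat_lit 11794298185) (nat_lit 76) (nat_lit 4256474432) (nat_lit 152) (nat_lit 30187604929) (nat_lit 15) (nat_lit 5) (nat_lit 16) (nat_lit 5) (nat_lit 17) (nat_lit 4) (nat_lit 348) (nat_lit 299) (nat_lit 253)) (XT.lf (nat_lit 0) (nat_lit 29482029546) (nat_lit 152) (nat_lit 10430265498) (nat_lit 0) (nat_lit 9332982817) (nat_lit 15) (nat_lit 5) (nat_lit 17) (nat_lit 4) (nat_lit 15) (nat_lit 4) (nat_lit 349) (nat_lit 299) (nat_lit 252)))) (XT.nd (nat_lit 78) (nat_lit 152) (nat_lit 0) (XT.lf (nat_lit 0) (nat_lit 15835067837) (nat_lit 76) (nat_lit 28417339665) (nat_lit 76) (nat_lit 8227099474) (nat_lit 14) (nat_lit 4) (nat_lit 15) (nat_lit 5) (nat_lit 15) (nat_lit 4) (nat_lit 350) (nat_lit 299) (nat_lit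 251)) (XT.nd (nat_lit 78) (nat_lit 76) (nat_lit 0) (XT.lf (nat_lit 0) (nat_lit 4228386001) (nat_lit 152) (nat_lit 11560190981) (nat_lit 76) (nat_lit 40174006028) (nat_lit 13) (nat_lit 5) (nat_lit 15) (nat_lit 5) (nat_lit 14) (nat_lit 4) (nat_lit 351) (nat_lit 299) (nat_lit 250)) (XT.lf (nat_lit 0) (nat_lit 15803591087) (nat_lit 76) (nat_lit 1790208973) (nat_lit 152) (nat_lit 42113681546) (nat_lit 12) (nat_lit 5) (nat_lit 13) (nat_lit 5) (nat_lit 14) (nat_lit 4) (nat_lit 352) (nat_lit 299) (nat_lit 249))))) (XT.nd (nat_lit 234) (nat_lit 152) (nat_lit 0) (XT.nd (nat_lit 78) (nat_lit 76) (nat_lit 0) (XT.lf (nat_lit 0) (nat_lit 32393874308) (nat_lit 152) (nat_lit 18275862525) (nat_lit 0) (nat_lit 13063969799) (nat_lit 12) (nat_lit 5) (nat_lit 14) (nat_lit 4) (nat_lit 12) (nat_lit 4) (nat_lit 353) (nat_lit 299) (nat_lit 248)) (XT.nd (nat_lit 78) (nat_lit 0) (nat_lit 0) (XT.lf (nat_lit 0) (nat_lit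 9594245091) (nat_lit 76) (nat_lit 38919861756) (nat_lit 76) (nat_lit 19561120653) (nat_lit 11) (nat_lit 4) (nat_lit 12) (nat_lit 5) (nat_lit 12) (nat_lit 4) (nat_lit 354) (nat_lit 299) (nat_lit 247)) (XT.lf (nat_lit 0) (nat_lit 40265230552) (nat_lit 76) (nat_lit 25935230520) (nat_lit 76) (nat_lit 6549788867) (nat_lit 11) (nat_lit 4) (nat_lit 12) (nat_lit 5) (nat_lit 12) (nat_lit 4) (nat_lit 355) (nat_lit 299) (nat_lit 246)))) (XT.nd (nat_lit 78) (nat_lit 76) (nat_lit 0) (XT.lf (nat_lit 0) (nat_lit 7222933836) (nat_lit 152) (nat_lit 4603150019) (nat_lit 76) (nat_lit 65969307580) (nat_lit 10) (nat_lit 5) (nat_lit 12) (nat_lit 5) (nat_lit 11) (nat_lit 4) (nat_lit 356) (nat_lit 299) (nat_lit 245)) (XT.nd (nat_lit 78) (nat_lit 0) (nat_lit 0) (XT.lf (nat_lit 0) (nat_lit 22304347590) (nat_lit 152) (nat_lit 57115939415) (nat_lit 0) (nat_lit 3796675398) (nat_lit 9) (nat_lit 5) (nat_lit 11) (nat_lit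 4) (nat_lit 9) (nat_lit 4) (nat_lit 357) (nat_lit 299) (nat_lit 244)) (XT.lf (nat_lit 0) (nat_lit 38837835645) (nat_lit 152) (nat_lit 29912172147) (nat_lit 0) (nat_lit 20309977016) (nat_lit 9) (nat_lit 5) (nat_lit 11) (nat_lit 4) (nat_lit 9) (nat_lit 4) (nat_lit 358) (nat_lit 299) (nat_lit 243)))))) (XT.nd (nat_lit 468) (nat_lit 76) (nat_lit 0) (XT.nd (nat_lit 234) (nat_lit 152) (nat_lit 0) (XT.nd (nat_lit 78) (nat_lit 76) (nat_lit 0) (XT.lf (nat_lit 0) (nat_lit 56661274437) (nat_lit 152) (nat_lit 596089856) (nat_lit 0) (nat_lit 38114724665) (nat_lit 9) (nat_lit 5) (nat_lit 11) (nat_lit 4) (nat_lit 9) (nat_lit 4) (nat_lit 359) (nat_lit 299) (nat_lit 242)) (XT.nd (nat_lit 78) (nat_lit 0) (nat_lit 0) (XT.lf (nat_lit 0) (nat_lit 32031231846) (nat_lit 76) (nat_lit 44349149797) (nat_lit 76) (nat_lit 25785293410) (nat_lit 8) (nat_lit 4) (nat_lit 9) (nat_lit 5) (nat_lit 9) (nat_lit 4) (nat_lit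 360) (nat_lit 299) (nat_lit 241)) (XT.lf (nat_lit 0) (nat_lit 67233353620) (nat_lit 76) (nat_lit 30425103253) (nat_lit 76) (nat_lit 11845222222) (nat_lit 8) (nat_lit 4) (nat_lit 9) (nat_lit 5) (nat_lit 9) (nat_lit 4) (nat_lit 361) (nat_lit 299) (nat_lit 240)))) (XT.nd (nat_lit 78) (nat_lit 76) (nat_lit 0) (XT.lf (nat_lit 0) (nat_lit 3080070750) (nat_lit 152) (nat_lit 12280573625) (nat_lit 76) (nat_lit 102066937968) (nat_lit 7) (nat_lit 5) (nat_lit 9) (nat_lit 5) (nat_lit 8) (nat_lit 4) (nat_lit 362) (nat_lit 299) (nat_lit 239)) (XT.nd (nat_lit 78) (nat_lit 0) (nat_lit 0) (XT.lf (nat_lit 0) (nat_lit 19107360976) (nat_lit 152) (nat_lit 105467160744) (nat_lit 0) (nat_lit 1385020774) (nat_lit 6) (nat_lit 5) (nat_lit 8) (nat_lit 4) (nat_lit 6) (nat_lit 4) (nat_lit 363) (nat_lit 299) (nat_lit 238)) (XT.lf (nat_lit 0) (nat_lit 36868813736) (nat_lit 152) (nat_lit 79148290639) (nat_lit 0) (nat_lit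 19134358411) (nat_lit 6) (nat_lit 5) (nat_lit 8) (nat_lit 4) (nat_lit 6) (nat_lit 4) (nat_lit 364) (nat_lit 299) (nat_lit 237))))) (XT.nd (nat_lit 234) (nat_lit 0) (nat_lit 0) (XT.nd (nat_lit 78) (nat_lit 76) (nat_lit 0) (XT.lf (nat_lit 0) (nat_lit 56028538495) (nat_lit 152) (nat_lit 50768467073) (nat_lit 0) (nat_lit 38282865465) (nat_lit 6) (nat_lit 5) (nat_lit 8) (nat_lit 4) (nat_lit 6) (nat_lit 4) (nat_lit 365) (nat_lit 299) (nat_lit 236)) (XT.nd (nat_lit 78) (nat_lit 76) (nat_lit 0) (XT.lf (nat_lit 0) (nat_lit 76700074365) (nat_lit 152) (nat_lit 20159513316) (nat_lit 0) (nat_lit 58944014570) (nat_lit 6) (nat_lit 5) (nat_lit 8) (nat_lit 4) (nat_lit 6) (nat_lit 4) (nat_lit 366) (nat_lit 299) (nat_lit 235)) (XT.lf (nat_lit 0) (nat_lit 13285165281) (nat_lit 76) (nat_lit 85928172716) (nat_lit 76) (nat_lit 68162495546) (nat_lit 5) (nat_lit 4) (nat_lit 6) (nat_lit 5) (nat_lit 6) (nat_lit 4)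 (nat_lit 367) (nat_lit 299) (nat_lit 234)))) (XT.nd (nat_lit 156) (nat_lit 0) (nat_lit 0) (XT.nd (nat_lit 78) (nat_lit 0) (nat_lit 0) (XT.lf (nat_lit 0) (nat_lit 50088768281) (nat_lit 76) (nat_lit 73771513957) (nat_lit 76) (nat_lit 55996931810) (nat_lit 5) (nat_lit 4) (nat_lit 6) (nat_lit 5) (nat_lit 6) (nat_lit 4) (nat_lit 368) (nat_lit 299) (nat_lit 233)) (XT.lf (nat_lit 0) (nat_lit 89802826556) (nat_lit 76) (nat_lit 60658983057) (nat_lit 76) (nat_lit 42876155561) (nat_lit 5) (nat_lit 4) (nat_lit 6) (nat_lit 5) (nat_lit 6) (nat_lit 4) (nat_lit 369) (nat_lit 299) (nat_lit 232))) (XT.nd (nat_lit 78) (nat_lit 0) (nat_lit 0) (XT.lf (nat_lit 0) (nat_lit 132662682672) (nat_lit 76) (nat_lit 46512876129) (nat_lit 76) (nat_lit 28722414052) (nat_lit 5) (nat_lit 4) (nat_lit 6) (nat_lit 5) (nat_lit 6) (nat_lit 4) (nat_lit 370) (nat_lit 299) (nat_lit 231)) (XT.lf (nat_lit 0) (nat_lit 178922320964)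 (nat_lit 76) (nat_lit 31249364393) (nat_lit 76) (nat_lit 13451833258) (nat_lit 5) (nat_lit 4) (nat_lit 6) (nat_lit 5) (nat_lit 6) (nat_lit 4) (nat_lit 371) (nat_lit 299) (nat_lit 230))))))))
noncomputable def xc46 : XT := (XT.nd (nat_lit 41340) (nat_lit 0) (nat_lit 3724) (XT.nd (nat_lit 936) (nat_lit 0) (nat_lit 0) (XT.nd (nat_lit 468) (nat_lit 76) (nat_lit 0) (XT.nd (nat_lit 234) (nat_lit 0) (nat_lit 0) (XT.nd (nat_lit 78) (nat_lit 76) (nat_lit 0) (XT.lf (nat_lit 0) (nat_lit 2929225720) (nat_lit 152) (nat_lit 11799163832) (nat_lit 76) (nat_lit 225877039044) (nat_lit 4) (nat_lit 5) (nat_lit 6) (nat_lit 5) (nat_lit 5) (nat_lit 4) (nat_lit 372) (nat_lit 299) (nat_lit 229)) (XT.nd (nat_lit 78) (nat_lit 0) (nat_lit 0) (XT.lf (nat_lit 0) (nat_lit 20580065105) (nat_lit 152) (nat_lit 234715242414) (nat_lit 0) (nat_lit 3618029737) (nat_lit 3) (nat_lit 5) (nat_lit 5) (nat_lit 4) (nat_lit 3) (nat_lit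 4) (nat_lit 373) (nat_lit 299) (nat_lit 228)) (XT.lf (nat_lit 0) (nat_lit 40087778442) (nat_lit 152) (nat_lit 215455462189) (nat_lit 0) (nat_lit 23120398650) (nat_lit 3) (nat_lit 5) (nat_lit 5) (nat_lit 4) (nat_lit 3) (nat_lit 4) (nat_lit 374) (nat_lit 299) (nat_lit 227)))) (XT.nd (nat_lit 78) (nat_lit 0) (nat_lit 0) (XT.lf (nat_lit 0) (nat_lit 61144586643) (nat_lit 152) (nat_lit 194677697563) (nat_lit 0) (nat_lit 44172258309) (nat_lit 3) (nat_lit 5) (nat_lit 5) (nat_lit 4) (nat_lit 3) (nat_lit 4) (nat_lit 375) (nat_lit 299) (nat_lit 226)) (XT.nd (nat_lit 78) (nat_lit 0) (nat_lit 0) (XT.lf (nat_lit 0) (nat_lit 83875270792) (nat_lit 152) (nat_lit 172258821042) (nat_lit 0) (nat_lit 66898360475) (nat_lit 3) (nat_lit 5) (nat_lit 5) (nat_lit 4) (nat_lit 3) (nat_lit 4) (nat_lit 376) (nat_lit 299) (nat_lit 225)) (XT.lf (nat_lit 0) (nat_lit 108414531241) (nat_lit 152) (nat_lit 148065980024) (nat_lit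 0) (nat_lit 91433378348) (nat_lit 3) (nat_lit 5) (nat_lit 5) (nat_lit 4) (nat_lit 3) (nat_lit 4) (nat_lit 377) (nat_lit 299) (nat_lit 224))))) (XT.nd (nat_lit 234) (nat_lit 76) (nat_lit 0) (XT.nd (nat_lit 78) (nat_lit 0) (nat_lit 0) (XT.lf (nat_lit 0) (nat_lit 134907785829) (nat_lit 152) (nat_lit 121955809526) (nat_lit 0) (nat_lit 117922704624) (nat_lit 3) (nat_lit 5) (nat_lit 5) (nat_lit 4) (nat_lit 3) (nat_lit 4) (nat_lit 378) (nat_lit 299) (nat_lit 223)) (XT.nd (nat_lit 78) (nat_lit 0) (nat_lit 0) (XT.lf (nat_lit 0) (nat_lit 163512031620) (nat_lit 152) (nat_lit 93773582610) (nat_lit 0) (nat_lit 146523313090) (nat_lit 3) (nat_lit 5) (nat_lit 5) (nat_lit 4) (nat_lit 3) (nat_lit 4) (nat_lit 379) (nat_lit 299) (nat_lit 222)) (XT.lf (nat_lit 0) (nat_lit 194396775257) (nat_lit 152) (nat_lit 63352293489) (nat_lit 0) (nat_lit 177404688832) (nat_lit 3) (nat_lit 5) (nat_lit 5) (nat_lit 4) (nat_lit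 3) (nat_lit 4) (nat_lit 380) (nat_lit 299) (nat_lit 221)))) (XT.nd (nat_lit 78) (nat_lit 76) (nat_lit 0) (XT.lf (nat_lit 0) (nat_lit 227745037441) (nat_lit 152) (nat_lit 30511667856) (nat_lit 0) (nat_lit 210749832596) (nat_lit 3) (nat_lit 5) (nat_lit 5) (nat_lit 4) (nat_lit 3) (nat_lit 4) (nat_lit 381) (nat_lit 299) (nat_lit 220)) (XT.nd (nat_lit 78) (nat_lit 0) (nat_lit 0) (XT.lf (nat_lit 0) (nat_lit 5106340178) (nat_lit 76) (nat_lit 258727821607) (nat_lit 76) (nat_lit 241729729336) (nat_lit 2) (nat_lit 4) (nat_lit 3) (nat_lit 5) (nat_lit 3) (nat_lit 4) (nat_lit 382) (nat_lit 299) (nat_lit 219)) (XT.lf (nat_lit 0) (nat_lit 44650626356) (nat_lit 76) (nat_lit 258684859541) (nat_lit 76) (nat_lit 241684093727) (nat_lit 2) (nat_lit 4) (nat_lit 3) (nat_lit 5) (nat_lit 3) (nat_lit 4) (nat_lit 383) (nat_lit 299) (nat_lit 218)))))) (XT.nd (nat_lit 468) (nat_lit 0) (nat_lit 0) (XT.nd (nat_lit 234)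 (nat_lit 0) (nat_lit 0) (XT.nd (nat_lit 78) (nat_lit 0) (nat_lit 0) (XT.lf (nat_lit 0) (nat_lit 87346673654) (nat_lit 76) (nat_lit 258644294366) (nat_lit 76) (nat_lit 241641053050) (nat_lit 2) (nat_lit 4) (nat_lit 3) (nat_lit 5) (nat_lit 3) (nat_lit 4) (nat_lit 384) (nat_lit 299) (nat_lit 217)) (XT.nd (nat_lit 78) (nat_lit 0) (nat_lit 0) (XT.lf (nat_lit 0) (nat_lit 133447495684) (nat_lit 76) (nat_lit 258605885698) (nat_lit 76) (nat_lit 241600352249) (nat_lit 2) (nat_lit 4) (nat_lit 3) (nat_lit 5) (nat_lit 3) (nat_lit 4) (nat_lit 385) (nat_lit 299) (nat_lit 216)) (XT.lf (nat_lit 0) (nat_lit 183226282504) (nat_lit 76) (nat_lit 258569405929) (nat_lit 76) (nat_lit 241561750136) (nat_lit 2) (nat_lit 4) (nat_lit 3) (nat_lit 5) (nat_lit 3) (nat_lit 4) (nat_lit 386) (nat_lit 299) (nat_lit 215)))) (XT.nd (nat_lit 78) (nat_lit 0) (nat_lit 0) (XT.lf (nat_lit 0) (nat_lit 236978019517) (nat_lit 76) (nat_lit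 258534638883) (nat_lit 76) (nat_lit 241525017956) (nat_lit 2) (nat_lit 4) (nat_lit 3) (nat_lit 5) (nat_lit 3) (nat_lit 4) (nat_lit 387) (nat_lit 299) (nat_lit 214)) (XT.nd (nat_lit 78) (nat_lit 0) (nat_lit 0) (XT.lf (nat_lit 0) (nat_lit 295021235535) (nat_lit 76) (nat_lit 258501378533) (nat_lit 76) (nat_lit 241489938038) (nat_lit 2) (nat_lit 4) (nat_lit 3) (nat_lit 5) (nat_lit 3) (nat_lit 4) (nat_lit 388) (nat_lit 299) (nat_lit 213)) (XT.lf (nat_lit 0) (nat_lit 357699890357) (nat_lit 76) (nat_lit 258469427781) (nat_lit 76) (nat_lit 241456302500) (nat_lit 2) (nat_lit 4) (nat_lit 3) (nat_lit 5) (nat_lit 3) (nat_lit 4) (nat_lit 389) (nat_lit 299) (nat_lit 212))))) (XT.nd (nat_lit 234) (nat_lit 0) (nat_lit 0) (XT.nd (nat_lit 78) (nat_lit 0) (nat_lit 0) (XT.lf (nat_lit 0) (nat_lit 425385413047) (nat_lit 76) (nat_lit 258438597288) (nat_lit 76) (nat_lit 241423912021) (nat_lit 2) (nat_lit 4) (nat_lit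 3) (nat_lit 5) (nat_lit 3) (nat_lit 4) (nat_lit 390) (nat_lit 299) (nat_lit 211)) (XT.nd (nat_lit 78) (nat_lit 0) (nat_lit 0) (XT.lf (nat_lit 0) (nat_lit 498478903000) (nat_lit 76) (nat_lit 258408704356) (nat_lit 76) (nat_lit 241392574657) (nat_lit 2) (nat_lit 4) (nat_lit 3) (nat_lit 5) (nat_lit 3) (nat_lit 4) (nat_lit 391) (nat_lit 299) (nat_lit 210)) (XT.lf (nat_lit 0) (nat_lit 577413506823) (nat_lit 76) (nat_lit 258379571842) (nat_lit 76) (nat_lit 241362104705) (nat_lit 2) (nat_lit 4) (nat_lit 3) (nat_lit 5) (nat_lit 3) (nat_lit 4) (nat_lit 392) (nat_lit 299) (nat_lit 209)))) (XT.nd (nat_lit 156) (nat_lit 0) (nat_lit 0) (XT.nd (nat_lit 78) (nat_lit 0) (nat_lit 0) (XT.lf (nat_lit 0) (nat_lit 662656985132) (nat_lit 76) (nat_lit 258351027107) (nat_lit 76) (nat_lit 241332321603) (nat_lit 2) (nat_lit 4) (nat_lit 3) (nat_lit 5) (nat_lit 3) (nat_lit 4) (nat_lit 393) (nat_lit 299) (nat_lit 208))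 (XT.lf (nat_lit 0) (nat_lit 754714484463) (nat_lit 76) (nat_lit 258322900999) (nat_lit 76) (nat_lit 241303048857) (nat_lit 2) (nat_lit 4) (nat_lit 3) (nat_lit 5) (nat_lit 3) (nat_lit 4) (nat_lit 394) (nat_lit 299) (nat_lit 207))) (XT.nd (nat_lit 39468) (nat_lit 0) (nat_lit 12464) (XT.lf (nat_lit 0) (nat_lit 854131530740) (nat_lit 76) (nat_lit 258295026843) (nat_lit 76) (nat_lit 241274113001) (nat_lit 2) (nat_lit 4) (nat_lit 3) (nat_lit 5) (nat_lit 3) (nat_lit 4) (nat_lit 395) (nat_lit 299) (nat_lit 206)) (XT.lf (nat_lit 0) (nat_lit 1073741823) (nat_lit 0) (nat_lit 0) (nat_lit 0) (nat_lit 0) (nat_lit 166) (nat_lit 0) (nat_lit 1) (nat_lit 0) (nat_lit 1) (nat_lit 0) (nat_lit 300) (nat_lit 300) (nat_lit 300))))))) (XT.nd (nat_lit 936) (nat_lit 3952) (nat_lit 0) (XT.nd (nat_lit 468) (nat_lit 3268) (nat_lit 0) (XT.nd (nat_lit 234) (nat_lit 1064) (nat_lit 0) (XT.nd (nat_lit 78) (nat_lit 380) (nat_lit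 0) (XT.lf (nat_lit 0) (nat_lit 4817448111) (nat_lit 76) (nat_lit 1431000020) (nat_lit 0) (nat_lit 202744361) (nat_lit 165) (nat_lit 5) (nat_lit 166) (nat_lit 0) (nat_lit 165) (nat_lit 4) (nat_lit 301) (nat_lit 300) (nat_lit 299)) (XT.nd (nat_lit 78) (nat_lit 228) (nat_lit 0) (XT.lf (nat_lit 0) (nat_lit 3020071488) (nat_lit 152) (nat_lit 2696431040) (nat_lit 76) (nat_lit 763405102) (nat_lit 163) (nat_lit 5) (nat_lit 165) (nat_lit 5) (nat_lit 164) (nat_lit 4) (nat_lit 302) (nat_lit 300) (nat_lit 298)) (XT.lf (nat_lit 0) (nat_lit 1039377140) (nat_lit 228) (nat_lit 3803477342) (nat_lit 76) (nat_lit 1685883119) (nat_lit 160) (nat_lit 5) (nat_lit 163) (nat_lit 5) (nat_lit 161) (nat_lit 5) (nat_lit 303) (nat_lit 300) (nat_lit 297)))) (XT.nd (nat_lit 78) (nat_lit 836) (nat_lit 0) (XT.lf (nat_lit 0) (nat_lit 1820453334) (nat_lit 228) (nat_lit 3602062284) (nat_lit 304) (nat_lit 1174491168) (nat_lit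 157) (nat_lit 5) (nat_lit 160) (nat_lit 5) (nat_lit 161) (nat_lit 5) (nat_lit 304) (nat_lit 300) (nat_lit 296)) (XT.nd (nat_lit 78) (nat_lit 456) (nat_lit 0) (XT.lf (nat_lit 0) (nat_lit 1062487750) (nat_lit 304) (nat_lit 1983584759) (nat_lit 380) (nat_lit 3638895411) (nat_lit 152) (nat_lit 5) (nat_lit 156) (nat_lit 5) (nat_lit 157) (nat_lit 5) (nat_lit 305) (nat_lit 300) (nat_lit 295)) (XT.lf (nat_lit 0) (nat_lit 458862754) (nat_lit 456) (nat_lit 6328841513) (nat_lit 76) (nat_lit 6184435) (nat_lit 146) (nat_lit 5) (nat_lit 152) (nat_lit 5) (nat_lit 147) (nat_lit 5) (nat_lit 306) (nat_lit 300) (nat_lit 294))))) (XT.nd (nat_lit 234) (nat_lit 2204) (nat_lit 0) (XT.nd (nat_lit 78) (nat_lit 1064) (nat_lit 0) (XT.lf (nat_lit 0) (nat_lit 4525748347) (nat_lit 456) (nat_lit 50949243) (nat_lit 76) (nat_lit 2343855917) (nat_lit 146) (nat_lit 5) (nat_lit 152) (nat_lit 5) (nat_lit 147) (nat_lit 5) (nat_lit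 307) (nat_lit 300) (nat_lit 293)) (XT.nd (nat_lit 78) (nat_lit 532) (nat_lit 0) (XT.lf (nat_lit 0) (nat_lit 1562263073) (nat_lit 532) (nat_lit 418763895) (nat_lit 76) (nat_lit 5087212308) (nat_lit 139) (nat_lit 5) (nat_lit 146) (nat_lit 5) (nat_lit 140) (nat_lit 5) (nat_lit 308) (nat_lit 300) (nat_lit 292)) (XT.lf (nat_lit 0) (nat_lit 5549303008) (nat_lit 608) (nat_lit 689809604) (nat_lit 76) (nat_lit 997168677) (nat_lit 132) (nat_lit 5) (nat_lit 140) (nat_lit 5) (nat_lit 133) (nat_lit 5) (nat_lit 309) (nat_lit 300) (nat_lit 291)))) (XT.nd (nat_lit 78) (nat_lit 1520) (nat_lit 0) (XT.lf (nat_lit 0) (nat_lit 2197466490) (nat_lit 684) (nat_lit 889260562) (nat_lit 76) (nat_lit 4337565668) (nat_lit 123) (nat_lit 5) (nat_lit 132) (nat_lit 5) (nat_lit 124) (nat_lit 5) (nat_lit 310) (nat_lit 300) (nat_lit 290)) (XT.nd (nat_lit 78) (nat_lit 836) (nat_lit 0) (XT.lf (nat_lit 0) (nat_lit 6168899686)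 (nat_lit 760) (nat_lit 991690656) (nat_lit 76) (nat_lit 473907055) (nat_lit 114) (nat_lit 5) (nat_lit 124) (nat_lit 5) (nat_lit 115) (nat_lit 5) (nat_lit 311) (nat_lit 300) (nat_lit 289)) (XT.lf (nat_lit 0) (nat_lit 2414679416) (nat_lit 836) (nat_lit 1061936898) (nat_lit 76) (nat_lit 4388078648) (nat_lit 103) (nat_lit 5) (nat_lit 114) (nat_lit 5) (nat_lit 104) (nat_lit 5) (nat_lit 312) (nat_lit 300) (nat_lit 288)))))) (XT.nd (nat_lit 468) (nat_lit 1824) (nat_lit 0) (XT.nd (nat_lit 234) (nat_lit 988) (nat_lit 0) (XT.nd (nat_lit 78) (nat_lit 760) (nat_lit 0) (XT.lf (nat_lit 0) (nat_lit 6433062608) (nat_lit 456) (nat_lit 1052463899) (nat_lit 76) (nat_lit 632875472) (nat_lit 98) (nat_lit 5) (nat_lit 104) (nat_lit 5) (nat_lit 99) (nat_lit 5) (nat_lit 313) (nat_lit 300) (nat_lit 287)) (XT.nd (nat_lit 78) (nat_lit 380) (nat_lit 0) (XT.lf (nat_lit 0) (nat_lit 2251336888) (nat_lit 380) (nat_lit 1032336722)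 (nat_lit 76) (nat_lit 5109740155) (nat_lit 93) (nat_lit 5) (nat_lit 98) (nat_lit 5) (nat_lit 94) (nat_lit 5) (nat_lit 314) (nat_lit 300) (nat_lit 286)) (XT.lf (nat_lit 0) (nat_lit 6371450703) (nat_lit 456) (nat_lit 966166368) (nat_lit 76) (nat_lit 1355251806) (nat_lit 88) (nat_lit 5) (nat_lit 94) (nat_lit 5) (nat_lit 89) (nat_lit 5) (nat_lit 315) (nat_lit 300) (nat_lit 285)))) (XT.nd (nat_lit 78) (nat_lit 608) (nat_lit 0) (XT.lf (nat_lit 0) (nat_lit 1725655379) (nat_lit 380) (nat_lit 896907817) (nat_lit 76) (nat_lit 6393559233) (nat_lit 83) (nat_lit 5) (nat_lit 88) (nat_lit 5) (nat_lit 84) (nat_lit 5) (nat_lit 316) (nat_lit 300) (nat_lit 284)) (XT.nd (nat_lit 78) (nat_lit 304) (nat_lit 0) (XT.lf (nat_lit 0) (nat_lit 5995259148) (nat_lit 380) (nat_lit 831217923) (nat_lit 76) (nat_lit 2538015970) (nat_lit 79) (nat_lit 5) (nat_lit 84) (nat_lit 5) (nat_lit 80) (nat_lit 5) (nat_lit 317) (nat_lit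 300) (nat_lit 283)) (XT.lf (nat_lit 0) (nat_lit 836560849) (nat_lit 304) (nat_lit 759568428) (nat_lit 76) (nat_lit 8144144625) (nat_lit 75) (nat_lit 5) (nat_lit 79) (nat_lit 5) (nat_lit 76) (nat_lit 5) (nat_lit 318) (nat_lit 300) (nat_lit 282))))) (XT.nd (nat_lit 234) (nat_lit 988) (nat_lit 0) (XT.nd (nat_lit 78) (nat_lit 532) (nat_lit 0) (XT.lf (nat_lit 0) (nat_lit 5296628072) (nat_lit 380) (nat_lit 757332562) (nat_lit 76) (nat_lit 4087736607) (nat_lit 71) (nat_lit 5) (nat_lit 76) (nat_lit 5) (nat_lit 72) (nat_lit 5) (nat_lit 319) (nat_lit 300) (nat_lit 281)) (XT.nd (nat_lit 78) (nat_lit 304) (nat_lit 0) (XT.lf (nat_lit 0) (nat_lit 9828670185) (nat_lit 228) (nat_lit 294323579) (nat_lit 304) (nat_lit 451890284) (nat_lit 68) (nat_lit 5) (nat_lit 71) (nat_lit 5) (nat_lit 72) (nat_lit 5) (nat_lit 320) (nat_lit 300) (nat_lit 280)) (XT.lf (nat_lit 0) (nat_lit 4246971753) (nat_lit 304) (nat_lit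 873542401) (nat_lit 76) (nat_lit 5914388961) (nat_lit 64) (nat_lit 5) (nat_lit 68) (nat_lit 5) (nat_lit 65) (nat_lit 5) (nat_lit 321) (nat_lit 300) (nat_lit 279)))) (XT.nd (nat_lit 156) (nat_lit 456) (nat_lit 0) (XT.nd (nat_lit 78) (nat_lit 304) (nat_lit 0) (XT.lf (nat_lit 0) (nat_lit 9338242743) (nat_lit 304) (nat_lit 1031469572) (nat_lit 76) (nat_lit 1160125846) (nat_lit 61) (nat_lit 5) (nat_lit 65) (nat_lit 5) (nat_lit 62) (nat_lit 5) (nat_lit 322) (nat_lit 300) (nat_lit 278)) (XT.lf (nat_lit 0) (nat_lit 2794079807) (nat_lit 304) (nat_lit 1337834817) (nat_lit 76) (nat_lit 7924860168) (nat_lit 57) (nat_lit 5) (nat_lit 61) (nat_lit 5) (nat_lit 58) (nat_lit 5) (nat_lit 323) (nat_lit 300) (nat_lit 277))) (XT.nd (nat_lit 78) (nat_lit 304) (nat_lit 0) (XT.lf (nat_lit 0) (nat_lit 8178964919) (nat_lit 228) (nat_lit 1766941625) (nat_lit 76) (nat_lit 2674389328) (nat_lit 55) (nat_lit 5) (nat_lit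 58) (nat_lit 5) (nat_lit 56) (nat_lit 5) (nat_lit 324) (nat_lit 300) (nat_lit 276)) (XT.lf (nat_lit 0) (nat_lit 857769122) (nat_lit 304) (nat_lit 2349015797) (nat_lit 76) (nat_lit 10015762229) (nat_lit 51) (nat_lit 5) (nat_lit 55) (nat_lit 5) (nat_lit 52) (nat_lit 5) (nat_lit 325) (nat_lit 300) (nat_lit 275))))))))
noncomputable def xc47 : XT := (XT.nd (nat_lit 1950) (nat_lit 912) (nat_lit 0) (XT.nd (nat_lit 936) (nat_lit 988) (nat_lit 0) (XT.nd (nat_lit 468) (nat_lit 684) (nat_lit 0) (XT.nd (nat_lit 234) (nat_lit 532) (nat_lit 0) (XT.nd (nat_lit 78) (nat_lit 380) (nat_lit 0) (XT.lf (nat_lit 0) (nat_lit 6549920265) (nat_lit 228) (nat_lit 3172431788) (nat_lit 76) (nat_lit 4140817395) (nat_lit 49) (nat_lit 5) (nat_lit 52) (nat_lit 5) (nat_lit 50) (nat_lit 5) (nat_lit 326) (nat_lit 300) (nat_lit 274)) (XT.nd (nat_lit 78) (nat_lit 228) (nat_lit 0) (XT.lf (nat_lit 0) (nat_lit 10360504404) (nat_lit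 152) (nat_lit 2456952732) (nat_lit 228) (nat_lit 1731646346) (nat_lit 47) (nat_lit 5) (nat_lit 49) (nat_lit 5) (nat_lit 50) (nat_lit 5) (nat_lit 327) (nat_lit 300) (nat_lit 273)) (XT.lf (nat_lit 0) (nat_lit 4323329382) (nat_lit 228) (nat_lit 5536958169) (nat_lit 76) (nat_lit 5418107958) (nat_lit 44) (nat_lit 5) (nat_lit 47) (nat_lit 5) (nat_lit 45) (nat_lit 5) (nat_lit 328) (nat_lit 300) (nat_lit 272)))) (XT.nd (nat_lit 78) (nat_lit 380) (nat_lit 0) (XT.lf (nat_lit 0) (nat_lit 8873778281) (nat_lit 152) (nat_lit 2055834232) (nat_lit 228) (nat_lit 5128671251) (nat_lit 42) (nat_lit 5) (nat_lit 44) (nat_lit 5) (nat_lit 45) (nat_lit 5) (nat_lit 329) (nat_lit 300) (nat_lit 271)) (XT.nd (nat_lit 78) (nat_lit 152) (nat_lit 0) (XT.lf (nat_lit 0) (nat_lit 1324768279) (nat_lit 228) (nat_lit 9235369003) (nat_lit 76) (nat_lit 6329653204) (nat_lit 39) (nat_lit 5) (nat_lit 42) (nat_lit 5) (nat_lit 40)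 (nat_lit 5) (nat_lit 330) (nat_lit 300) (nat_lit 270)) (XT.lf (nat_lit 0) (nat_lit 6022957120) (nat_lit 152) (nat_lit 2231808624) (nat_lit 228) (nat_lit 9521891607) (nat_lit 37) (nat_lit 5) (nat_lit 39) (nat_lit 5) (nat_lit 40) (nat_lit 5) (nat_lit 331) (nat_lit 300) (nat_lit 269))))) (XT.nd (nat_lit 234) (nat_lit 380) (nat_lit 0) (XT.nd (nat_lit 78) (nat_lit 228) (nat_lit 0) (XT.lf (nat_lit 0) (nat_lit 3925008678) (nat_lit 76) (nat_lit 12030682773) (nat_lit 152) (nat_lit 2767994354) (nat_lit 36) (nat_lit 5) (nat_lit 37) (nat_lit 5) (nat_lit 38) (nat_lit 4) (nat_lit 332) (nat_lit 300) (nat_lit 268)) (XT.nd (nat_lit 78) (nat_lit 0) (nat_lit 0) (XT.lf (nat_lit 0) (nat_lit 1277953032) (nat_lit 152) (nat_lit 3258897699) (nat_lit 228) (nat_lit 15198351393) (nat_lit 33) (nat_lit 5) (nat_lit 35) (nat_lit 5) (nat_lit 36) (nat_lit 5) (nat_lit 333) (nat_lit 300) (nat_lit 267)) (XT.lf (nat_lit 0) (nat_lit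 12583300994) (nat_lit 228) (nat_lit 1981954264) (nat_lit 76) (nat_lit 6247437481) (nat_lit 33) (nat_lit 5) (nat_lit 36) (nat_lit 5) (nat_lit 34) (nat_lit 4) (nat_lit 334) (nat_lit 300) (nat_lit 266)))) (XT.nd (nat_lit 78) (nat_lit 304) (nat_lit 0) (XT.lf (nat_lit 0) (nat_lit 16097134912) (nat_lit 76) (nat_lit 5384327837) (nat_lit 152) (nat_lit 484549311) (nat_lit 32) (nat_lit 5) (nat_lit 33) (nat_lit 5) (nat_lit 34) (nat_lit 4) (nat_lit 335) (nat_lit 300) (nat_lit 265)) (XT.nd (nat_lit 78) (nat_lit 76) (nat_lit 0) (XT.lf (nat_lit 0) (nat_lit 7839599645) (nat_lit 228) (nat_lit 10681197484) (nat_lit 76) (nat_lit 4674077996) (nat_lit 29) (nat_lit 5) (nat_lit 32) (nat_lit 5) (nat_lit 30) (nat_lit 4) (nat_lit 336) (nat_lit 300) (nat_lit 264)) (XT.lf (nat_lit 0) (nat_lit 8050386504) (nat_lit 76) (nat_lit 8991152365) (nat_lit 152) (nat_lit 7468693332) (nat_lit 28) (nat_lit 5) (nat_lit 29) (nat_lit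 5) (nat_lit 30) (nat_lit 4) (nat_lit 337) (nat_lit 300) (nat_lit 263)))))) (XT.nd (nat_lit 468) (nat_lit 456) (nat_lit 0) (XT.nd (nat_lit 234) (nat_lit 228) (nat_lit 0) (XT.nd (nat_lit 78) (nat_lit 76) (nat_lit 0) (XT.lf (nat_lit 0) (nat_lit 1179932544) (nat_lit 228) (nat_lit 23302426692) (nat_lit 76) (nat_lit 1439426617) (nat_lit 25) (nat_lit 5) (nat_lit 28) (nat_lit 5) (nat_lit 26) (nat_lit 4) (nat_lit 338) (nat_lit 300) (nat_lit 262)) (XT.nd (nat_lit 78) (nat_lit 76) (nat_lit 0) (XT.lf (nat_lit 0) (nat_lit 10619465992) (nat_lit 228) (nat_lit 4059482461) (nat_lit 76) (nat_lit 12743178744) (nat_lit 25) (nat_lit 5) (nat_lit 28) (nat_lit 5) (nat_lit 26) (nat_lit 4) (nat_lit 339) (nat_lit 300) (nat_lit 261)) (XT.lf (nat_lit 0) (nat_lit 17124710299) (nat_lit 76) (nat_lit 3877333614) (nat_lit 152) (nat_lit 8031075888) (nat_lit 24) (nat_lit 5) (nat_lit 25) (nat_lit 5) (nat_lit 26) (nat_lit 4)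 (nat_lit 340) (nat_lit 300) (nat_lit 260)))) (XT.nd (nat_lit 78) (nat_lit 76) (nat_lit 0) (XT.lf (nat_lit 0) (nat_lit 1664066899) (nat_lit 152) (nat_lit 21371669984) (nat_lit 76) (nat_lit 7722745417) (nat_lit 22) (nat_lit 5) (nat_lit 24) (nat_lit 5) (nat_lit 23) (nat_lit 4) (nat_lit 341) (nat_lit 300) (nat_lit 259)) (XT.nd (nat_lit 78) (nat_lit 76) (nat_lit 0) (XT.lf (nat_lit 0) (nat_lit 12058988355) (nat_lit 152) (nat_lit 143807417) (nat_lit 76) (nat_lit 20402233057) (nat_lit 22) (nat_lit 5) (nat_lit 24) (nat_lit 5) (nat_lit 23) (nat_lit 4) (nat_lit 342) (nat_lit 300) (nat_lit 258)) (XT.lf (nat_lit 0) (nat_lit 23402605665) (nat_lit 76) (nat_lit 179351320) (nat_lit 152) (nat_lit 11002533065) (nat_lit 21) (nat_lit 5) (nat_lit 22) (nat_lit 5) (nat_lit 23) (nat_lit 4) (nat_lit 343) (nat_lit 300) (nat_lit 257))))) (XT.nd (nat_lit 234) (nat_lit 228) (nat_lit 0) (XT.nd (nat_lit 78) (nat_lit 152)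 (nat_lit 0) (XT.lf (nat_lit 0) (nat_lit 12180024313) (nat_lit 76) (nat_lit 24172747264) (nat_lit 76) (nat_lit 353248800) (nat_lit 20) (nat_lit 4) (nat_lit 21) (nat_lit 5) (nat_lit 21) (nat_lit 4) (nat_lit 344) (nat_lit 300) (nat_lit 256)) (XT.nd (nat_lit 78) (nat_lit 76) (nat_lit 0) (XT.lf (nat_lit 0) (nat_lit 10927540937) (nat_lit 152) (nat_lit 1479827223) (nat_lit 76) (nat_lit 26574395166) (nat_lit 19) (nat_lit 5) (nat_lit 21) (nat_lit 5) (nat_lit 20) (nat_lit 4) (nat_lit 345) (nat_lit 300) (nat_lit 255)) (XT.lf (nat_lit 0) (nat_lit 23424495371) (nat_lit 152) (nat_lit 17372560389) (nat_lit 0) (nat_lit 625926835) (nat_lit 18) (nat_lit 5) (nat_lit 20) (nat_lit 4) (nat_lit 18) (nat_lit 4) (nat_lit 346) (nat_lit 300) (nat_lit 254)))) (XT.nd (nat_lit 156) (nat_lit 76) (nat_lit 0) (XT.nd (nat_lit 78) (nat_lit 76) (nat_lit 0) (XT.lf (nat_lit 0) (nat_lit 7539081972) (nat_lit 76) (nat_lit 29677342529)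 (nat_lit 76) (nat_lit 6828323538) (nat_lit 17) (nat_lit 4) (nat_lit 18) (nat_lit 5) (nat_lit 18) (nat_lit 4) (nat_lit 347) (nat_lit 300) (nat_lit 253)) (XT.lf (nat_lit 0) (nat_lit 5319293862) (nat_lit 152) (nat_lit 11991179957) (nat_lit 76) (nat_lit 29549131924) (nat_lit 16) (nat_lit 5) (nat_lit 18) (nat_lit 5) (nat_lit 17) (nat_lit 4) (nat_lit 348) (nat_lit 300) (nat_lit 252))) (XT.nd (nat_lit 78) (nat_lit 0) (nat_lit 0) (XT.lf (nat_lit 0) (nat_lit 14741729088) (nat_lit 76) (nat_lit 3639107300) (nat_lit 152) (nat_lit 31504159139) (nat_lit 15) (nat_lit 5) (nat_lit 16) (nat_lit 5) (nat_lit 17) (nat_lit 4) (nat_lit 349) (nat_lit 300) (nat_lit 251)) (XT.lf (nat_lit 0) (nat_lit 32822959718) (nat_lit 152) (nat_lit 9374516368) (nat_lit 0) (nat_lit 10938164758) (nat_lit 15) (nat_lit 5) (nat_lit 17) (nat_lit 4) (nat_lit 15) (nat_lit 4) (nat_lit 350) (nat_lit 300) (nat_lit 250))))))) (XT.nd (nat_lit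 936) (nat_lit 380) (nat_lit 0) (XT.nd (nat_lit 468) (nat_lit 228) (nat_lit 0) (XT.nd (nat_lit 234) (nat_lit 76) (nat_lit 0) (XT.nd (nat_lit 78) (nat_lit 152) (nat_lit 0) (XT.lf (nat_lit 0) (nat_lit 18909899133) (nat_lit 76) (nat_lit 29820529142) (nat_lit 76) (nat_lit 7900417429) (nat_lit 14) (nat_lit 4) (nat_lit 15) (nat_lit 5) (nat_lit 15) (nat_lit 4) (nat_lit 351) (nat_lit 300) (nat_lit 249)) (XT.nd (nat_lit 78) (nat_lit 76) (nat_lit 0) (XT.lf (nat_lit 0) (nat_lit 5449368597) (nat_lit 152) (nat_lit 10781606786) (nat_lit 76) (nat_lit 44164363671) (nat_lit 13) (nat_lit 5) (nat_lit 15) (nat_lit 5) (nat_lit 14) (nat_lit 4) (nat_lit 352) (nat_lit 300) (nat_lit 248)) (XT.lf (nat_lit 0) (nat_lit 18697250181) (nat_lit 76) (nat_lit 1146818606) (nat_lit 152) (nat_lit 44597766620) (nat_lit 12) (nat_lit 5) (nat_lit 13) (nat_lit 5) (nat_lit 14) (nat_lit 4) (nat_lit 353) (nat_lit 300) (nat_lit 247))))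 (XT.nd (nat_lit 78) (nat_lit 76) (nat_lit 0) (XT.lf (nat_lit 0) (nat_lit 35777093386) (nat_lit 152) (nat_lit 18201509866) (nat_lit 0) (nat_lit 14814115851) (nat_lit 12) (nat_lit 5) (nat_lit 14) (nat_lit 4) (nat_lit 12) (nat_lit 4) (nat_lit 354) (nat_lit 300) (nat_lit 246)) (XT.nd (nat_lit 78) (nat_lit 0) (nat_lit 0) (XT.lf (nat_lit 0) (nat_lit 11831435346) (nat_lit 76) (nat_lit 41319809427) (nat_lit 76) (nat_lit 20332109160) (nat_lit 11) (nat_lit 4) (nat_lit 12) (nat_lit 5) (nat_lit 12) (nat_lit 4) (nat_lit 355) (nat_lit 300) (nat_lit 245)) (XT.lf (nat_lit 0) (nat_lit 44847236633) (nat_lit 76) (nat_lit 27349270007) (nat_lit 76) (nat_lit 6338678323) (nat_lit 11) (nat_lit 4) (nat_lit 12) (nat_lit 5) (nat_lit 12) (nat_lit 4) (nat_lit 356) (nat_lit 300) (nat_lit 244))))) (XT.nd (nat_lit 234) (nat_lit 76) (nat_lit 0) (XT.nd (nat_lit 78) (nat_lit 76) (nat_lit 0) (XT.lf (nat_lit 0) (nat_lit 8459626011)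 (nat_lit 152) (nat_lit 3689554118) (nat_lit 76) (nat_lit 71836825201) (nat_lit 10) (nat_lit 5) (nat_lit 12) (nat_lit 5) (nat_lit 11) (nat_lit 4) (nat_lit 357) (nat_lit 300) (nat_lit 243)) (XT.nd (nat_lit 78) (nat_lit 0) (nat_lit 0) (XT.lf (nat_lit 0) (nat_lit 24727212059) (nat_lit 152) (nat_lit 60436865317) (nat_lit 0) (nat_lit 4678247161) (nat_lit 9) (nat_lit 5) (nat_lit 11) (nat_lit 4) (nat_lit 9) (nat_lit 4) (nat_lit 358) (nat_lit 300) (nat_lit 242)) (XT.lf (nat_lit 0) (nat_lit 42536081627) (nat_lit 152) (nat_lit 31149266982) (nat_lit 0) (nat_lit 22469810115) (nat_lit 9) (nat_lit 5) (nat_lit 11) (nat_lit 4) (nat_lit 9) (nat_lit 4) (nat_lit 359) (nat_lit 300) (nat_lit 241)))) (XT.nd (nat_lit 78) (nat_lit 0) (nat_lit 0) (XT.lf (nat_lit 0) (nat_lit 440582624) (nat_lit 76) (nat_lit 61307897619) (nat_lit 76) (nat_lit 41225601463) (nat_lit 8) (nat_lit 4) (nat_lit 9) (nat_lit 5) (nat_lit 9)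 (nat_lit 4) (nat_lit 360) (nat_lit 300) (nat_lit 240)) (XT.nd (nat_lit 78) (nat_lit 0) (nat_lit 0) (XT.lf (nat_lit 0) (nat_lit 35617476548) (nat_lit 76) (nat_lit 47396194286) (nat_lit 76) (nat_lit 27299060497) (nat_lit 8) (nat_lit 4) (nat_lit 9) (nat_lit 5) (nat_lit 9) (nat_lit 4) (nat_lit 361) (nat_lit 300) (nat_lit 239)) (XT.lf (nat_lit 0) (nat_lit 73559935015) (nat_lit 76) (nat_lit 32395326795) (nat_lit 76) (nat_lit 12284454458) (nat_lit 8) (nat_lit 4) (nat_lit 9) (nat_lit 5) (nat_lit 9) (nat_lit 4) (nat_lit 362) (nat_lit 300) (nat_lit 238)))))) (XT.nd (nat_lit 468) (nat_lit 152) (nat_lit 0) (XT.nd (nat_lit 234) (nat_lit 76) (nat_lit 0) (XT.nd (nat_lit 78) (nat_lit 76) (nat_lit 0) (XT.lf (nat_lit 0) (nat_lit 3782137549) (nat_lit 152) (nat_lit 12370211240) (nat_lit 76) (nat_lit 110646612345) (nat_lit 7) (nat_lit 5) (nat_lit 9) (nat_lit 5) (nat_lit 8) (nat_lit 4) (nat_lit 363) (nat_lit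 300) (nat_lit 237)) (XT.nd (nat_lit 78) (nat_lit 0) (nat_lit 0) (XT.lf (nat_lit 0) (nat_lit 21077729884) (nat_lit 152) (nat_lit 113035260277) (nat_lit 0) (nat_lit 1901185305) (nat_lit 6) (nat_lit 5) (nat_lit 8) (nat_lit 4) (nat_lit 6) (nat_lit 4) (nat_lit 364) (nat_lit 300) (nat_lit 236)) (XT.lf (nat_lit 0) (nat_lit 40227374418) (nat_lit 152) (nat_lit 84675271180) (nat_lit 0) (nat_lit 21040443074) (nat_lit 6) (nat_lit 5) (nat_lit 8) (nat_lit 4) (nat_lit 6) (nat_lit 4) (nat_lit 365) (nat_lit 300) (nat_lit 235)))) (XT.nd (nat_lit 78) (nat_lit 76) (nat_lit 0) (XT.lf (nat_lit 0) (nat_lit 60889576745) (nat_lit 152) (nat_lit 54084682671) (nat_lit 0) (nat_lit 41693028026) (nat_lit 6) (nat_lit 5) (nat_lit 8) (nat_lit 4) (nat_lit 6) (nat_lit 4) (nat_lit 366) (nat_lit 300) (nat_lit 234)) (XT.nd (nat_lit 78) (nat_lit 76) (nat_lit 0) (XT.lf (nat_lit 0) (nat_lit 83186779546) (nat_lit 152) (nat_lit 21082217189)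 (nat_lit 0) (nat_lit 63981325851) (nat_lit 6) (nat_lit 5) (nat_lit 8) (nat_lit 4) (nat_lit 6) (nat_lit 4) (nat_lit 367) (nat_lit 300) (nat_lit 233)) (XT.lf (nat_lit 0) (nat_lit 15008046651) (nat_lit 76) (nat_lit 92477385410) (nat_lit 76) (nat_lit 73263686366) (nat_lit 5) (nat_lit 4) (nat_lit 6) (nat_lit 5) (nat_lit 6) (nat_lit 4) (nat_lit 368) (nat_lit 300) (nat_lit 232))))) (XT.nd (nat_lit 234) (nat_lit 152) (nat_lit 0) (XT.nd (nat_lit 78) (nat_lit 0) (nat_lit 0) (XT.lf (nat_lit 0) (nat_lit 54707043955) (nat_lit 76) (nat_lit 79372271069) (nat_lit 76) (nat_lit 60150937443) (nat_lit 5) (nat_lit 4) (nat_lit 6) (nat_lit 5) (nat_lit 6) (nat_lit 4) (nat_lit 369) (nat_lit 300) (nat_lit 231)) (XT.nd (nat_lit 78) (nat_lit 0) (nat_lit 0) (XT.lf (nat_lit 0) (nat_lit 97552954728) (nat_lit 76) (nat_lit 65233031327) (nat_lit 76) (nat_lit 46004628644) (nat_lit 5) (nat_lit 4) (nat_lit 6) (nat_lit 5) (nat_lit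 6) (nat_lit 4) (nat_lit 370) (nat_lit 300) (nat_lit 230)) (XT.lf (nat_lit 0) (nat_lit 143799680664) (nat_lit 76) (nat_lit 49975878095) (nat_lit 76) (nat_lit 30740929988) (nat_lit 5) (nat_lit 4) (nat_lit 6) (nat_lit 5) (nat_lit 6) (nat_lit 4) (nat_lit 371) (nat_lit 300) (nat_lit 229)))) (XT.nd (nat_lit 156) (nat_lit 76) (nat_lit 0) (XT.nd (nat_lit 78) (nat_lit 76) (nat_lit 0) (XT.lf (nat_lit 0) (nat_lit 193721276434) (nat_lit 76) (nat_lit 33510398615) (nat_lit 76) (nat_lit 14269389930) (nat_lit 5) (nat_lit 4) (nat_lit 6) (nat_lit 5) (nat_lit 6) (nat_lit 4) (nat_lit 372) (nat_lit 300) (nat_lit 228)) (XT.lf (nat_lit 0) (nat_lit 3395335531) (nat_lit 152) (nat_lit 12286182491) (nat_lit 76) (nat_lit 244160736538) (nat_lit 4) (nat_lit 5) (nat_lit 6) (nat_lit 5) (nat_lit 5) (nat_lit 4) (nat_lit 373) (nat_lit 300) (nat_lit 227))) (XT.nd (nat_lit 78) (nat_lit 0) (nat_lit 0) (XT.lf (nat_lit 0) (nat_lit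 22451264075) (nat_lit 152) (nat_lit 253047681265) (nat_lit 0) (nat_lit 4116200933) (nat_lit 3) (nat_lit 5) (nat_lit 5) (nat_lit 4) (nat_lit 3) (nat_lit 4) (nat_lit 374) (nat_lit 300) (nat_lit 226)) (XT.lf (nat_lit 0) (nat_lit 43502943090) (nat_lit 152) (nat_lit 232280065329) (nat_lit 0) (nat_lit 25163297965) (nat_lit 3) (nat_lit 5) (nat_lit 5) (nat_lit 4) (nat_lit 3) (nat_lit 4) (nat_lit 375) (nat_lit 300) (nat_lit 225))))))))
noncomputable def xc48 : XT := (XT.nd (nat_lit 41340) (nat_lit 0) (nat_lit 3192) (XT.nd (nat_lit 936) (nat_lit 0) (nat_lit 0) (XT.nd (nat_lit 468) (nat_lit 76) (nat_lit 0) (XT.nd (nat_lit 234) (nat_lit 0) (nat_lit 0) (XT.nd (nat_lit 78) (nat_lit 0) (nat_lit 0) (XT.lf (nat_lit 0) (nat_lit 66228877993) (nat_lit 152) (nat_lit 209870585743) (nat_lit 0) (nat_lit 47884990292) (nat_lit 3) (nat_lit 5) (nat_lit 5) (nat_lit 4) (nat_lit 3) (nat_lit 4) (nat_lit 376) (nat_lit 300)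 (nat_lit 224)) (XT.nd (nat_lit 78) (nat_lit 0) (nat_lit 0) (XT.lf (nat_lit 0) (nat_lit 90763740991) (nat_lit 152) (nat_lit 185686445591) (nat_lit 0) (nat_lit 72415924978) (nat_lit 3) (nat_lit 5) (nat_lit 5) (nat_lit 4) (nat_lit 3) (nat_lit 4) (nat_lit 377) (nat_lit 300) (nat_lit 223)) (XT.lf (nat_lit 0) (nat_lit 117252923866) (nat_lit 152) (nat_lit 159584331450) (nat_lit 0) (nat_lit 98901470527) (nat_lit 3) (nat_lit 5) (nat_lit 5) (nat_lit 4) (nat_lit 3) (nat_lit 4) (nat_lit 378) (nat_lit 300) (nat_lit 222)))) (XT.nd (nat_lit 78) (nat_lit 0) (nat_lit 0) (XT.lf (nat_lit 0) (nat_lit 145853399552) (nat_lit 152) (nat_lit 131409564125) (nat_lit 0) (nat_lit 127498578320) (nat_lit 3) (nat_lit 5) (nat_lit 5) (nat_lit 4) (nat_lit 3) (nat_lit 4) (nat_lit 379) (nat_lit 300) (nat_lit 221)) (XT.nd (nat_lit 78) (nat_lit 0) (nat_lit 0) (XT.lf (nat_lit 0) (nat_lit 176734652351) (nat_lit 152) (nat_lit 100995182031)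 (nat_lit 0) (nat_lit 158376712698) (nat_lit 3) (nat_lit 5) (nat_lit 5) (nat_lit 4) (nat_lit 3) (nat_lit 4) (nat_lit 380) (nat_lit 300) (nat_lit 220)) (XT.lf (nat_lit 0) (nat_lit 210079682278) (nat_lit 152) (nat_lit 68160951794) (nat_lit 0) (nat_lit 191718855199) (nat_lit 3) (nat_lit 5) (nat_lit 5) (nat_lit 4) (nat_lit 3) (nat_lit 4) (nat_lit 381) (nat_lit 300) (nat_lit 219))))) (XT.nd (nat_lit 234) (nat_lit 0) (nat_lit 0) (XT.nd (nat_lit 78) (nat_lit 76) (nat_lit 0) (XT.lf (nat_lit 0) (nat_lit 246086089511) (nat_lit 152) (nat_lit 32712300197) (nat_lit 0) (nat_lit 227722588890) (nat_lit 3) (nat_lit 5) (nat_lit 5) (nat_lit 4) (nat_lit 3) (nat_lit 4) (nat_lit 382) (nat_lit 300) (nat_lit 218)) (XT.nd (nat_lit 78) (nat_lit 0) (nat_lit 0) (XT.lf (nat_lit 0) (nat_lit 5744705287) (nat_lit 76) (nat_lit 279312231014) (nat_lit 76) (nat_lit 260946254890) (nat_lit 2) (nat_lit 4) (nat_lit 3) (nat_lit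 5) (nat_lit 3) (nat_lit 4) (nat_lit 383) (nat_lit 300) (nat_lit 217)) (XT.lf (nat_lit 0) (nat_lit 48435507849) (nat_lit 76) (nat_lit 279274262821) (nat_lit 76) (nat_lit 260905994564) (nat_lit 2) (nat_lit 4) (nat_lit 3) (nat_lit 5) (nat_lit 3) (nat_lit 4) (nat_lit 384) (nat_lit 300) (nat_lit 216)))) (XT.nd (nat_lit 78) (nat_lit 0) (nat_lit 0) (XT.lf (nat_lit 0) (nat_lit 94531473642) (nat_lit 76) (nat_lit 279238258765) (nat_lit 76) (nat_lit 260867868163) (nat_lit 2) (nat_lit 4) (nat_lit 3) (nat_lit 5) (nat_lit 3) (nat_lit 4) (nat_lit 385) (nat_lit 300) (nat_lit 215)) (XT.nd (nat_lit 78) (nat_lit 0) (nat_lit 0) (XT.lf (nat_lit 0) (nat_lit 144305763947) (nat_lit 76) (nat_lit 279204005488) (nat_lit 76) (nat_lit 260831649753) (nat_lit 2) (nat_lit 4) (nat_lit 3) (nat_lit 5) (nat_lit 3) (nat_lit 4) (nat_lit 386) (nat_lit 300) (nat_lit 214)) (XT.lf (nat_lit 0) (nat_lit 198053337519) (nat_lit 76)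 (nat_lit 279171300009) (nat_lit 76) (nat_lit 260797124706) (nat_lit 2) (nat_lit 4) (nat_lit 3) (nat_lit 5) (nat_lit 3) (nat_lit 4) (nat_lit 387) (nat_lit 300) (nat_lit 213)))))) (XT.nd (nat_lit 468) (nat_lit 0) (nat_lit 0) (XT.nd (nat_lit 234) (nat_lit 0) (nat_lit 0) (XT.nd (nat_lit 78) (nat_lit 0) (nat_lit 0) (XT.lf (nat_lit 0) (nat_lit 256092698500) (nat_lit 76) (nat_lit 279139948518) (nat_lit 76) (nat_lit 260764088429) (nat_lit 2) (nat_lit 4) (nat_lit 3) (nat_lit 5) (nat_lit 3) (nat_lit 4) (nat_lit 388) (nat_lit 300) (nat_lit 212)) (XT.nd (nat_lit 78) (nat_lit 0) (nat_lit 0) (XT.lf (nat_lit 0) (nat_lit 318767783842) (nat_lit 76) (nat_lit 279109765227) (nat_lit 76) (nat_lit 260732345151) (nat_lit 2) (nat_lit 4) (nat_lit 3) (nat_lit 5) (nat_lit 3) (nat_lit 4) (nat_lit 389) (nat_lit 300) (nat_lit 211)) (XT.lf (nat_lit 0) (nat_lit 386450001459) (nat_lit 76) (nat_lit 279080571273) (nat_lit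 76) (nat_lit 260701706765) (nat_lit 2) (nat_lit 4) (nat_lit 3) (nat_lit 5) (nat_lit 3) (nat_lit 4) (nat_lit 390) (nat_lit 300) (nat_lit 210)))) (XT.nd (nat_lit 78) (nat_lit 0) (nat_lit 0) (XT.lf (nat_lit 0) (nat_lit 459540431159) (nat_lit 76) (nat_lit 279052193654) (nat_lit 76) (nat_lit 260671991710) (nat_lit 2) (nat_lit 4) (nat_lit 3) (nat_lit 5) (nat_lit 3) (nat_lit 4) (nat_lit 391) (nat_lit 300) (nat_lit 209)) (XT.nd (nat_lit 78) (nat_lit 0) (nat_lit 0) (XT.lf (nat_lit 0) (nat_lit 538472201415) (nat_lit 76) (nat_lit 279024464207) (nat_lit 76) (nat_lit 260643023895) (nat_lit 2) (nat_lit 4) (nat_lit 3) (nat_lit 5) (nat_lit 3) (nat_lit 4) (nat_lit 392) (nat_lit 300) (nat_lit 208)) (XT.lf (nat_lit 0) (nat_lit 623713056049) (nat_lit 76) (nat_lit 278997218610) (nat_lit 76) (nat_lit 260614631661) (nat_lit 2) (nat_lit 4) (nat_lit 3) (nat_lit 5) (nat_lit 3) (nat_lit 4) (nat_lit 393) (nat_lit 300)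 (nat_lit 207))))) (XT.nd (nat_lit 39702) (nat_lit 0) (nat_lit 11628) (XT.nd (nat_lit 78) (nat_lit 0) (nat_lit 0) (XT.lf (nat_lit 0) (nat_lit 715768126054) (nat_lit 76) (nat_lit 278970295406) (nat_lit 76) (nat_lit 260586646756) (nat_lit 2) (nat_lit 4) (nat_lit 3) (nat_lit 5) (nat_lit 3) (nat_lit 4) (nat_lit 394) (nat_lit 300) (nat_lit 206)) (XT.nd (nat_lit 39546) (nat_lit 0) (nat_lit 12160) (XT.lf (nat_lit 0) (nat_lit 815182922953) (nat_lit 76) (nat_lit 278943535051) (nat_lit 76) (nat_lit 260558903345) (nat_lit 2) (nat_lit 4) (nat_lit 3) (nat_lit 5) (nat_lit 3) (nat_lit 4) (nat_lit 395) (nat_lit 300) (nat_lit 205)) (XT.lf (nat_lit 0) (nat_lit 1415480755) (nat_lit 228) (nat_lit 909745864) (nat_lit 228) (nat_lit 909745864) (nat_lit 162) (nat_lit 3) (nat_lit 165) (nat_lit 3) (nat_lit 165) (nat_lit 5) (nat_lit 301) (nat_lit 301) (nat_lit 298)))) (XT.nd (nat_lit 78) (nat_lit 304) (nat_lit 0) (XT.lf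 (nat_lit 0) (nat_lit 665131040) (nat_lit 228) (nat_lit 3273523178) (nat_lit 304) (nat_lit 2570329236) (nat_lit 159) (nat_lit 5) (nat_lit 162) (nat_lit 3) (nat_lit 163) (nat_lit 5) (nat_lit 302) (nat_lit 301) (nat_lit 297)) (XT.nd (nat_lit 78) (nat_lit 304) (nat_lit 0) (XT.lf (nat_lit 76) (nat_lit 1968099765) (nat_lit 0) (nat_lit 2851097151) (nat_lit 304) (nat_lit 1747938551) (nat_lit 160) (nat_lit 5) (nat_lit 159) (nat_lit 5) (nat_lit 163) (nat_lit 5) (nat_lit 303) (nat_lit 301) (nat_lit 296)) (XT.lf (nat_lit 76) (nat_lit 856787289) (nat_lit 0) (nat_lit 1394185741) (nat_lit 380) (nat_lit 4394384416) (nat_lit 156) (nat_lit 5) (nat_lit 155) (nat_lit 5) (nat_lit 160) (nat_lit 5) (nat_lit 304) (nat_lit 301) (nat_lit 295))))))) (XT.nd (nat_lit 936) (nat_lit 2964) (nat_lit 0) (XT.nd (nat_lit 468) (nat_lit 3040) (nat_lit 0) (XT.nd (nat_lit 234) (nat_lit 1672) (nat_lit 0) (XT.nd (nat_lit 78) (nat_lit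 836) (nat_lit 0) (XT.lf (nat_lit 0) (nat_lit 6212246129) (nat_lit 304) (nat_lit 104173656) (nat_lit 76) (nat_lit 427313811) (nat_lit 156) (nat_lit 5) (nat_lit 160) (nat_lit 5) (nat_lit 157) (nat_lit 5) (nat_lit 305) (nat_lit 301) (nat_lit 294)) (XT.nd (nat_lit 78) (nat_lit 456) (nat_lit 0) (XT.lf (nat_lit 0) (nat_lit 3283093925) (nat_lit 380) (nat_lit 951848283) (nat_lit 76) (nat_lit 2624690139) (nat_lit 151) (nat_lit 5) (nat_lit 156) (nat_lit 5) (nat_lit 152) (nat_lit 5) (nat_lit 306) (nat_lit 301) (nat_lit 293)) (XT.lf (nat_lit 0) (nat_lit 131663756) (nat_lit 456) (nat_lit 1657879098) (nat_lit 76) (nat_lit 5207681313) (nat_lit 145) (nat_lit 5) (nat_lit 151) (nat_lit 5) (nat_lit 146) (nat_lit 5) (nat_lit 307) (nat_lit 301) (nat_lit 292)))) (XT.nd (nat_lit 78) (nat_lit 1216) (nat_lit 0) (XT.lf (nat_lit 0) (nat_lit 3802381633) (nat_lit 532) (nat_lit 2293880972) (nat_lit 76) (nat_lit 1057440702)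 (nat_lit 139) (nat_lit 5) (nat_lit 146) (nat_lit 5) (nat_lit 140) (nat_lit 5) (nat_lit 308) (nat_lit 301) (nat_lit 291)) (XT.nd (nat_lit 78) (nat_lit 608) (nat_lit 0) (XT.lf (nat_lit 0) (nat_lit 257252446) (nat_lit 608) (nat_lit 2831922019) (nat_lit 76) (nat_lit 4242135296) (nat_lit 131) (nat_lit 5) (nat_lit 139) (nat_lit 5) (nat_lit 132) (nat_lit 5) (nat_lit 309) (nat_lit 301) (nat_lit 290)) (XT.lf (nat_lit 0) (nat_lit 3865342346) (nat_lit 684) (nat_lit 3305893910) (nat_lit 76) (nat_lit 358031218) (nat_lit 123) (nat_lit 5) (nat_lit 132) (nat_lit 5) (nat_lit 124) (nat_lit 5) (nat_lit 310) (nat_lit 301) (nat_lit 289))))) (XT.nd (nat_lit 234) (nat_lit 1140) (nat_lit 0) (XT.nd (nat_lit 78) (nat_lit 1216) (nat_lit 0) (XT.lf (nat_lit 0) (nat_lit 4030522155) (nat_lit 684) (nat_lit 3628982887) (nat_lit 760) (nat_lit 88965036) (nat_lit 114) (nat_lit 5) (nat_lit 123) (nat_lit 5) (nat_lit 124) (nat_lit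 5) (nat_lit 311) (nat_lit 301) (nat_lit 288)) (XT.nd (nat_lit 78) (nat_lit 380) (nat_lit 0) (XT.lf (nat_lit 0) (nat_lit 3520944591) (nat_lit 836) (nat_lit 4087744664) (nat_lit 76) (nat_lit 380337585) (nat_lit 103) (nat_lit 5) (nat_lit 114) (nat_lit 5) (nat_lit 104) (nat_lit 5) (nat_lit 312) (nat_lit 301) (nat_lit 287)) (XT.lf (nat_lit 0) (nat_lit 3827289838) (nat_lit 380) (nat_lit 3535399188) (nat_lit 456) (nat_lit 888986509) (nat_lit 98) (nat_lit 5) (nat_lit 103) (nat_lit 5) (nat_lit 104) (nat_lit 5) (nat_lit 313) (nat_lit 301) (nat_lit 286)))) (XT.nd (nat_lit 78) (nat_lit 760) (nat_lit 0) (XT.lf (nat_lit 0) (nat_lit 2798877378) (nat_lit 380) (nat_lit 4735701529) (nat_lit 76) (nat_lit 1002749726) (nat_lit 93) (nat_lit 5) (nat_lit 98) (nat_lit 5) (nat_lit 94) (nat_lit 5) (nat_lit 314) (nat_lit 301) (nat_lit 285)) (XT.nd (nat_lit 78) (nat_lit 380) (nat_lit 0) (XT.lf (nat_lit 0) (nat_lit 3801770615)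 (nat_lit 380) (nat_lit 2929234139) (nat_lit 456) (nat_lit 2115267920) (nat_lit 88) (nat_lit 5) (nat_lit 93) (nat_lit 5) (nat_lit 94) (nat_lit 5) (nat_lit 315) (nat_lit 301) (nat_lit 284)) (XT.lf (nat_lit 0) (nat_lit 1710244457) (nat_lit 380) (nat_lit 5348359281) (nat_lit 76) (nat_lit 2121588728) (nat_lit 83) (nat_lit 5) (nat_lit 88) (nat_lit 5) (nat_lit 84) (nat_lit 5) (nat_lit 316) (nat_lit 301) (nat_lit 283)))))) (XT.nd (nat_lit 468) (nat_lit 1292) (nat_lit 0) (XT.nd (nat_lit 234) (nat_lit 760) (nat_lit 0) (XT.nd (nat_lit 78) (nat_lit 608) (nat_lit 0) (XT.lf (nat_lit 0) (nat_lit 3857892624) (nat_lit 304) (nat_lit 1912564473) (nat_lit 380) (nat_lit 3768648701) (nat_lit 79) (nat_lit 5) (nat_lit 83) (nat_lit 5) (nat_lit 84) (nat_lit 5) (nat_lit 317) (nat_lit 301) (nat_lit 282)) (XT.nd (nat_lit 78) (nat_lit 304) (nat_lit 0) (XT.lf (nat_lit 0) (nat_lit 247305139) (nat_lit 304) (nat_lit 6033093103)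 (nat_lit 76) (nat_lit 3644995968) (nat_lit 75) (nat_lit 5) (nat_lit 79) (nat_lit 5) (nat_lit 76) (nat_lit 5) (nat_lit 318) (nat_lit 301) (nat_lit 281)) (XT.lf (nat_lit 0) (nat_lit 3888982667) (nat_lit 304) (nat_lit 579231100) (nat_lit 380) (nat_lit 5870621450) (nat_lit 71) (nat_lit 5) (nat_lit 75) (nat_lit 5) (nat_lit 76) (nat_lit 5) (nat_lit 319) (nat_lit 301) (nat_lit 280)))) (XT.nd (nat_lit 78) (nat_lit 532) (nat_lit 0) (XT.lf (nat_lit 0) (nat_lit 3841778335) (nat_lit 228) (nat_lit 5268233483) (nat_lit 304) (nat_lit 1671293901) (nat_lit 68) (nat_lit 5) (nat_lit 71) (nat_lit 5) (nat_lit 72) (nat_lit 5) (nat_lit 320) (nat_lit 301) (nat_lit 279)) (XT.nd (nat_lit 78) (nat_lit 228) (nat_lit 0) (XT.lf (nat_lit 0) (nat_lit 2806169142) (nat_lit 304) (nat_lit 7501519149) (nat_lit 76) (nat_lit 947658564) (nat_lit 64) (nat_lit 5) (nat_lit 68) (nat_lit 5) (nat_lit 65) (nat_lit 5) (nat_lit 321) (nat_lit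 301) (nat_lit 278)) (XT.lf (nat_lit 0) (nat_lit 3559163710) (nat_lit 228) (nat_lit 4135694267) (nat_lit 304) (nat_lit 4065598195) (nat_lit 61) (nat_lit 5) (nat_lit 64) (nat_lit 5) (nat_lit 65) (nat_lit 5) (nat_lit 322) (nat_lit 301) (nat_lit 277))))) (XT.nd (nat_lit 234) (nat_lit 608) (nat_lit 0) (XT.nd (nat_lit 78) (nat_lit 380) (nat_lit 0) (XT.lf (nat_lit 0) (nat_lit 723216454) (nat_lit 304) (nat_lit 8997985823) (nat_lit 76) (nat_lit 2580535295) (nat_lit 57) (nat_lit 5) (nat_lit 61) (nat_lit 5) (nat_lit 58) (nat_lit 5) (nat_lit 323) (nat_lit 301) (nat_lit 276)) (XT.nd (nat_lit 78) (nat_lit 228) (nat_lit 0) (XT.lf (nat_lit 0) (nat_lit 2877523699) (nat_lit 152) (nat_lit 2993013583) (nat_lit 228) (nat_lit 7006636462) (nat_lit 55) (nat_lit 5) (nat_lit 57) (nat_lit 5) (nat_lit 58) (nat_lit 5) (nat_lit 324) (nat_lit 301) (nat_lit 275)) (XT.lf (nat_lit 0) (nat_lit 2325525934) (nat_lit 228) (nat_lit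 9228841603) (nat_lit 304) (nat_lit 1938112106) (nat_lit 52) (nat_lit 5) (nat_lit 55) (nat_lit 5) (nat_lit 56) (nat_lit 5) (nat_lit 325) (nat_lit 301) (nat_lit 274)))) (XT.nd (nat_lit 156) (nat_lit 228) (nat_lit 0) (XT.nd (nat_lit 78) (nat_lit 152) (nat_lit 0) (XT.lf (nat_lit 0) (nat_lit 1579127558) (nat_lit 152) (nat_lit 1962953089) (nat_lit 228) (nat_lit 10606263880) (nat_lit 49) (nat_lit 5) (nat_lit 51) (nat_lit 5) (nat_lit 52) (nat_lit 5) (nat_lit 326) (nat_lit 301) (nat_lit 273)) (XT.lf (nat_lit 0) (nat_lit 583087672) (nat_lit 152) (nat_lit 8982063347) (nat_lit 228) (nat_lit 5281378746) (nat_lit 47) (nat_lit 5) (nat_lit 49) (nat_lit 5) (nat_lit 50) (nat_lit 5) (nat_lit 327) (nat_lit 301) (nat_lit 272))) (XT.nd (nat_lit 78) (nat_lit 152) (nat_lit 0) (XT.lf (nat_lit 0) (nat_lit 587216269) (nat_lit 228) (nat_lit 596994489) (nat_lit 76) (nat_lit 14409406399) (nat_lit 46) (nat_lit 5) (nat_lit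 49) (nat_lit 5) (nat_lit 47) (nat_lit 5) (nat_lit 328) (nat_lit 301) (nat_lit 271)) (XT.lf (nat_lit 0) (nat_lit 6969981675) (nat_lit 228) (nat_lit 2159608199) (nat_lit 76) (nat_lit 7255114190) (nat_lit 44) (nat_lit 5) (nat_lit 47) (nat_lit 5) (nat_lit 45) (nat_lit 5) (nat_lit 329) (nat_lit 301) (nat_lit 270))))))))
noncomputable def xc49 : XT := (XT.nd (nat_lit 1950) (nat_lit 684) (nat_lit 0) (XT.nd (nat_lit 936) (nat_lit 912) (nat_lit 0) (XT.nd (nat_lit 468) (nat_lit 608) (nat_lit 0) (XT.nd (nat_lit 234) (nat_lit 380) (nat_lit 0) (XT.nd (nat_lit 78) (nat_lit 380) (nat_lit 0) (XT.lf (nat_lit 0) (nat_lit 13237961297) (nat_lit 152) (nat_lit 753431135) (nat_lit 228) (nat_lit 3241328127) (nat_lit 42) (nat_lit 5) (nat_lit 44) (nat_lit 5) (nat_lit 45) (nat_lit 5) (nat_lit 330) (nat_lit 301) (nat_lit 269)) (XT.nd (nat_lit 78) (nat_lit 152) (nat_lit 0) (XT.lf (nat_lit 0) (nat_lit 3568447213) (nat_lit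 228) (nat_lit 6323763175) (nat_lit 76) (nat_lit 8241124177) (nat_lit 39) (nat_lit 5) (nat_lit 42) (nat_lit 5) (nat_lit 40) (nat_lit 5) (nat_lit 331) (nat_lit 301) (nat_lit 268)) (XT.lf (nat_lit 0) (nat_lit 9996585566) (nat_lit 152) (nat_lit 952427604) (nat_lit 228) (nat_lit 8147385046) (nat_lit 37) (nat_lit 5) (nat_lit 39) (nat_lit 5) (nat_lit 40) (nat_lit 5) (nat_lit 332) (nat_lit 301) (nat_lit 267)))) (XT.nd (nat_lit 78) (nat_lit 304) (nat_lit 0) (XT.lf (nat_lit 0) (nat_lit 7655221047) (nat_lit 76) (nat_lit 11534547982) (nat_lit 152) (nat_lit 933283848) (nat_lit 36) (nat_lit 5) (nat_lit 37) (nat_lit 5) (nat_lit 38) (nat_lit 4) (nat_lit 333) (nat_lit 301) (nat_lit 266)) (XT.nd (nat_lit 78) (nat_lit 76) (nat_lit 0) (XT.lf (nat_lit 0) (nat_lit 4711475308) (nat_lit 152) (nat_lit 2083241981) (nat_lit 228) (nat_lit 14423984817) (nat_lit 33) (nat_lit 5) (nat_lit 35) (nat_lit 5) (nat_lit 36) (nat_lit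 5) (nat_lit 334) (nat_lit 301) (nat_lit 265)) (XT.lf (nat_lit 0) (nat_lit 1044949583) (nat_lit 76) (nat_lit 14336648806) (nat_lit 152) (nat_lit 7006000082) (nat_lit 32) (nat_lit 5) (nat_lit 33) (nat_lit 5) (nat_lit 34) (nat_lit 4) (nat_lit 335) (nat_lit 301) (nat_lit 264))))) (XT.nd (nat_lit 234) (nat_lit 304) (nat_lit 0) (XT.nd (nat_lit 78) (nat_lit 228) (nat_lit 0) (XT.lf (nat_lit 0) (nat_lit 1212515492) (nat_lit 152) (nat_lit 3257878241) (nat_lit 76) (nat_lit 19166888210) (nat_lit 31) (nat_lit 5) (nat_lit 33) (nat_lit 5) (nat_lit 32) (nat_lit 5) (nat_lit 336) (nat_lit 301) (nat_lit 263)) (XT.nd (nat_lit 78) (nat_lit 76) (nat_lit 0) (XT.lf (nat_lit 0) (nat_lit 10124706352) (nat_lit 228) (nat_lit 8534877681) (nat_lit 76) (nat_lit 6307553029) (nat_lit 29) (nat_lit 5) (nat_lit 32) (nat_lit 5) (nat_lit 30) (nat_lit 4) (nat_lit 337) (nat_lit 301) (nat_lit 262)) (XT.lf (nat_lit 0) (nat_lit 11564821237)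 (nat_lit 76) (nat_lit 8419984248) (nat_lit 152) (nat_lit 6406848917) (nat_lit 28) (nat_lit 5) (nat_lit 29) (nat_lit 5) (nat_lit 30) (nat_lit 4) (nat_lit 338) (nat_lit 301) (nat_lit 261)))) (XT.nd (nat_lit 78) (nat_lit 76) (nat_lit 0) (XT.lf (nat_lit 0) (nat_lit 2825008374) (nat_lit 228) (nat_lit 22312662913) (nat_lit 76) (nat_lit 2779971343) (nat_lit 25) (nat_lit 5) (nat_lit 28) (nat_lit 5) (nat_lit 26) (nat_lit 4) (nat_lit 339) (nat_lit 301) (nat_lit 260)) (XT.nd (nat_lit 78) (nat_lit 76) (nat_lit 0) (XT.lf (nat_lit 0) (nat_lit 12904839222) (nat_lit 228) (nat_lit 1741687434) (nat_lit 76) (nat_lit 14897253966) (nat_lit 25) (nat_lit 5) (nat_lit 28) (nat_lit 5) (nat_lit 26) (nat_lit 4) (nat_lit 340) (nat_lit 301) (nat_lit 259)) (XT.lf (nat_lit 0) (nat_lit 21022398587) (nat_lit 76) (nat_lit 3028732714) (nat_lit 152) (nat_lit 7235890084) (nat_lit 24) (nat_lit 5) (nat_lit 25) (nat_lit 5) (nat_lit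 26) (nat_lit 4) (nat_lit 341) (nat_lit 301) (nat_lit 258)))))) (XT.nd (nat_lit 468) (nat_lit 456) (nat_lit 0) (XT.nd (nat_lit 234) (nat_lit 228) (nat_lit 0) (XT.nd (nat_lit 78) (nat_lit 76) (nat_lit 0) (XT.lf (nat_lit 0) (nat_lit 3141927647) (nat_lit 152) (nat_lit 20570359580) (nat_lit 76) (nat_lit 9439370741) (nat_lit 22) (nat_lit 5) (nat_lit 24) (nat_lit 5) (nat_lit 23) (nat_lit 4) (nat_lit 342) (nat_lit 301) (nat_lit 257)) (XT.nd (nat_lit 78) (nat_lit 0) (nat_lit 0) (XT.lf (nat_lit 0) (nat_lit 2241469761) (nat_lit 76) (nat_lit 12062358653) (nat_lit 152) (nat_lit 20845350242) (nat_lit 21) (nat_lit 5) (nat_lit 22) (nat_lit 5) (nat_lit 23) (nat_lit 4) (nat_lit 343) (nat_lit 301) (nat_lit 256)) (XT.lf (nat_lit 0) (nat_lit 26669286848) (nat_lit 152) (nat_lit 9805985436) (nat_lit 0) (nat_lit 815710129) (nat_lit 21) (nat_lit 5) (nat_lit 23) (nat_lit 4) (nat_lit 21) (nat_lit 4) (nat_lit 344)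 (nat_lit 301) (nat_lit 255)))) (XT.nd (nat_lit 78) (nat_lit 76) (nat_lit 0) (XT.lf (nat_lit 0) (nat_lit 798223866) (nat_lit 152) (nat_lit 24274428609) (nat_lit 76) (nat_lit 14511570044) (nat_lit 19) (nat_lit 5) (nat_lit 21) (nat_lit 5) (nat_lit 20) (nat_lit 4) (nat_lit 345) (nat_lit 301) (nat_lit 254)) (XT.nd (nat_lit 78) (nat_lit 0) (nat_lit 0) (XT.lf (nat_lit 0) (nat_lit 460689618) (nat_lit 76) (nat_lit 12429286056) (nat_lit 152) (nat_lit 29155730837) (nat_lit 18) (nat_lit 5) (nat_lit 19) (nat_lit 5) (nat_lit 20) (nat_lit 4) (nat_lit 346) (nat_lit 301) (nat_lit 253)) (XT.lf (nat_lit 0) (nat_lit 26344368505) (nat_lit 152) (nat_lit 16769720361) (nat_lit 0) (nat_lit 1570264154) (nat_lit 18) (nat_lit 5) (nat_lit 20) (nat_lit 4) (nat_lit 18) (nat_lit 4) (nat_lit 347) (nat_lit 301) (nat_lit 252))))) (XT.nd (nat_lit 234) (nat_lit 228) (nat_lit 0) (XT.nd (nat_lit 78) (nat_lit 152) (nat_lit 0)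 (XT.lf (nat_lit 0) (nat_lit 10048255472) (nat_lit 76) (nat_lit 31143680153) (nat_lit 76) (nat_lit 6326322668) (nat_lit 17) (nat_lit 4) (nat_lit 18) (nat_lit 5) (nat_lit 18) (nat_lit 4) (nat_lit 348) (nat_lit 301) (nat_lit 251)) (XT.nd (nat_lit 78) (nat_lit 76) (nat_lit 0) (XT.lf (nat_lit 0) (nat_lit 6684388917) (nat_lit 152) (nat_lit 11154409401) (nat_lit 76) (nat_lit 32722457452) (nat_lit 16) (nat_lit 5) (nat_lit 18) (nat_lit 5) (nat_lit 17) (nat_lit 4) (nat_lit 349) (nat_lit 301) (nat_lit 250)) (XT.lf (nat_lit 0) (nat_lit 17639077574) (nat_lit 76) (nat_lit 3109003814) (nat_lit 152) (nat_lit 33082744455) (nat_lit 15) (nat_lit 5) (nat_lit 16) (nat_lit 5) (nat_lit 17) (nat_lit 4) (nat_lit 350) (nat_lit 301) (nat_lit 249)))) (XT.nd (nat_lit 156) (nat_lit 152) (nat_lit 0) (XT.nd (nat_lit 78) (nat_lit 76) (nat_lit 0) (XT.lf (nat_lit 0) (nat_lit 36291018554) (nat_lit 152) (nat_lit 8503961242)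 (nat_lit 0) (nat_lit 12549280453) (nat_lit 15) (nat_lit 5) (nat_lit 17) (nat_lit 4) (nat_lit 15) (nat_lit 4) (nat_lit 351) (nat_lit 301) (nat_lit 248)) (XT.lf (nat_lit 0) (nat_lit 21972781830) (nat_lit 76) (nat_lit 31460117208) (nat_lit 76) (nat_lit 7688100683) (nat_lit 14) (nat_lit 4) (nat_lit 15) (nat_lit 5) (nat_lit 15) (nat_lit 4) (nat_lit 352) (nat_lit 301) (nat_lit 247))) (XT.nd (nat_lit 78) (nat_lit 76) (nat_lit 0) (XT.lf (nat_lit 0) (nat_lit 6642101105) (nat_lit 152) (nat_lit 10183744834) (nat_lit 76) (nat_lit 48363182485) (nat_lit 13) (nat_lit 5) (nat_lit 15) (nat_lit 5) (nat_lit 14) (nat_lit 4) (nat_lit 353) (nat_lit 301) (nat_lit 246)) (XT.lf (nat_lit 0) (nat_lit 21589953900) (nat_lit 76) (nat_lit 564175304) (nat_lit 152) (nat_lit 47406834992) (nat_lit 12) (nat_lit 5) (nat_lit 13) (nat_lit 5) (nat_lit 14) (nat_lit 4) (nat_lit 354) (nat_lit 301) (nat_lit 245))))))) (XT.nd (nat_lit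 936) (nat_lit 228) (nat_lit 0) (XT.nd (nat_lit 468) (nat_lit 228) (nat_lit 0) (XT.nd (nat_lit 234) (nat_lit 152) (nat_lit 0) (XT.nd (nat_lit 78) (nat_lit 76) (nat_lit 0) (XT.lf (nat_lit 0) (nat_lit 39318023831) (nat_lit 152) (nat_lit 18340396721) (nat_lit 0) (nat_lit 16603693394) (nat_lit 12) (nat_lit 5) (nat_lit 14) (nat_lit 4) (nat_lit 12) (nat_lit 4) (nat_lit 355) (nat_lit 301) (nat_lit 244)) (XT.nd (nat_lit 78) (nat_lit 0) (nat_lit 0) (XT.lf (nat_lit 0) (nat_lit 14037938726) (nat_lit 76) (nat_lit 44013561816) (nat_lit 76) (nat_lit 21278035622) (nat_lit 11) (nat_lit 4) (nat_lit 12) (nat_lit 5) (nat_lit 12) (nat_lit 4) (nat_lit 356) (nat_lit 301) (nat_lit 243)) (XT.lf (nat_lit 0) (nat_lit 49601671631) (nat_lit 76) (nat_lit 28970700159) (nat_lit 76) (nat_lit 6215548264) (nat_lit 11) (nat_lit 4) (nat_lit 12) (nat_lit 5) (nat_lit 12) (nat_lit 4) (nat_lit 357) (nat_lit 301) (nat_lit 242))))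 (XT.nd (nat_lit 78) (nat_lit 76) (nat_lit 0) (XT.lf (nat_lit 0) (nat_lit 9701260176) (nat_lit 152) (nat_lit 2885740479) (nat_lit 76) (nat_lit 78089577986) (nat_lit 10) (nat_lit 5) (nat_lit 12) (nat_lit 5) (nat_lit 11) (nat_lit 4) (nat_lit 358) (nat_lit 301) (nat_lit 241)) (XT.nd (nat_lit 78) (nat_lit 0) (nat_lit 0) (XT.lf (nat_lit 0) (nat_lit 27252814145) (nat_lit 152) (nat_lit 64201556268) (nat_lit 0) (nat_lit 5547909653) (nat_lit 9) (nat_lit 5) (nat_lit 11) (nat_lit 4) (nat_lit 9) (nat_lit 4) (nat_lit 359) (nat_lit 301) (nat_lit 240)) (XT.lf (nat_lit 0) (nat_lit 46445843270) (nat_lit 152) (nat_lit 32650228457) (nat_lit 0) (nat_lit 24726101145) (nat_lit 9) (nat_lit 5) (nat_lit 11) (nat_lit 4) (nat_lit 9) (nat_lit 4) (nat_lit 360) (nat_lit 301) (nat_lit 239))))) (XT.nd (nat_lit 234) (nat_lit 152) (nat_lit 0) (XT.nd (nat_lit 78) (nat_lit 0) (nat_lit 0) (XT.lf (nat_lit 0) (nat_lit 1423742339)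 (nat_lit 76) (nat_lit 65748744711) (nat_lit 76) (nat_lit 44015264037) (nat_lit 8) (nat_lit 4) (nat_lit 9) (nat_lit 5) (nat_lit 9) (nat_lit 4) (nat_lit 361) (nat_lit 301) (nat_lit 238)) (XT.nd (nat_lit 78) (nat_lit 0) (nat_lit 0) (XT.lf (nat_lit 0) (nat_lit 39344571991) (nat_lit 76) (nat_lit 50758459535) (nat_lit 76) (nat_lit 29012257982) (nat_lit 8) (nat_lit 4) (nat_lit 9) (nat_lit 5) (nat_lit 9) (nat_lit 4) (nat_lit 362) (nat_lit 301) (nat_lit 237)) (XT.lf (nat_lit 0) (nat_lit 80257412519) (nat_lit 76) (nat_lit 34589332297) (nat_lit 76) (nat_lit 12831352153) (nat_lit 8) (nat_lit 4) (nat_lit 9) (nat_lit 5) (nat_lit 9) (nat_lit 4) (nat_lit 363) (nat_lit 301) (nat_lit 236)))) (XT.nd (nat_lit 78) (nat_lit 76) (nat_lit 0) (XT.lf (nat_lit 0) (nat_lit 4475364536) (nat_lit 152) (nat_lit 12594388946) (nat_lit 76) (nat_lit 119853553386) (nat_lit 7) (nat_lit 5) (nat_lit 9) (nat_lit 5) (nat_lit 8)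 (nat_lit 4) (nat_lit 364) (nat_lit 301) (nat_lit 235)) (XT.nd (nat_lit 78) (nat_lit 0) (nat_lit 0) (XT.lf (nat_lit 0) (nat_lit 23142703444) (nat_lit 152) (nat_lit 121332819331) (nat_lit 0) (nat_lit 2400813454) (nat_lit 6) (nat_lit 5) (nat_lit 8) (nat_lit 4) (nat_lit 6) (nat_lit 4) (nat_lit 365) (nat_lit 301) (nat_lit 234)) (XT.lf (nat_lit 0) (nat_lit 43796263602) (nat_lit 152) (nat_lit 90759235682) (nat_lit 0) (nat_lit 23045468635) (nat_lit 6) (nat_lit 5) (nat_lit 8) (nat_lit 4) (nat_lit 6) (nat_lit 4) (nat_lit 366) (nat_lit 301) (nat_lit 233)))))) (XT.nd (nat_lit 468) (nat_lit 152) (nat_lit 0) (XT.nd (nat_lit 234) (nat_lit 0) (nat_lit 0) (XT.nd (nat_lit 78) (nat_lit 76) (nat_lit 0) (XT.lf (nat_lit 0) (nat_lit 66085464395) (nat_lit 152) (nat_lit 57772515440) (nat_lit 0) (nat_lit 45326424079) (nat_lit 6) (nat_lit 5) (nat_lit 8) (nat_lit 4) (nat_lit 6) (nat_lit 4) (nat_lit 367) (nat_lit 301)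 (nat_lit 232)) (XT.nd (nat_lit 78) (nat_lit 76) (nat_lit 0) (XT.lf (nat_lit 0) (nat_lit 90142389975) (nat_lit 152) (nat_lit 22177181745) (nat_lit 0) (nat_lit 69375715076) (nat_lit 6) (nat_lit 5) (nat_lit 8) (nat_lit 4) (nat_lit 6) (nat_lit 4) (nat_lit 368) (nat_lit 301) (nat_lit 231)) (XT.lf (nat_lit 0) (nat_lit 16774592431) (nat_lit 76) (nat_lit 99596905868) (nat_lit 76) (nat_lit 78823161913) (nat_lit 5) (nat_lit 4) (nat_lit 6) (nat_lit 5) (nat_lit 6) (nat_lit 4) (nat_lit 369) (nat_lit 301) (nat_lit 230)))) (XT.nd (nat_lit 78) (nat_lit 0) (nat_lit 0) (XT.lf (nat_lit 0) (nat_lit 59607590848) (nat_lit 76) (nat_lit 85464024631) (nat_lit 76) (nat_lit 64683735251) (nat_lit 5) (nat_lit 4) (nat_lit 6) (nat_lit 5) (nat_lit 6) (nat_lit 4) (nat_lit 370) (nat_lit 301) (nat_lit 229)) (XT.nd (nat_lit 78) (nat_lit 0) (nat_lit 0) (XT.lf (nat_lit 0) (nat_lit 105842360900) (nat_lit 76) (nat_lit 70212758904)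 (nat_lit 76) (nat_lit 49426408947) (nat_lit 5) (nat_lit 4) (nat_lit 6) (nat_lit 5) (nat_lit 6) (nat_lit 4) (nat_lit 371) (nat_lit 301) (nat_lit 228)) (XT.lf (nat_lit 0) (nat_lit 155752886407) (nat_lit 76) (nat_lit 53752730816) (nat_lit 76) (nat_lit 32960769213) (nat_lit 5) (nat_lit 4) (nat_lit 6) (nat_lit 5) (nat_lit 6) (nat_lit 4) (nat_lit 372) (nat_lit 301) (nat_lit 227))))) (XT.nd (nat_lit 234) (nat_lit 0) (nat_lit 0) (XT.nd (nat_lit 78) (nat_lit 152) (nat_lit 0) (XT.lf (nat_lit 0) (nat_lit 209634933448) (nat_lit 76) (nat_lit 35986399460) (nat_lit 76) (nat_lit 15189241889) (nat_lit 5) (nat_lit 4) (nat_lit 6) (nat_lit 5) (nat_lit 6) (nat_lit 4) (nat_lit 373) (nat_lit 301) (nat_lit 226)) (XT.nd (nat_lit 78) (nat_lit 76) (nat_lit 0) (XT.lf (nat_lit 0) (nat_lit 3865669295) (nat_lit 152) (nat_lit 12877346597) (nat_lit 76) (nat_lit 263876666766) (nat_lit 4) (nat_lit 5) (nat_lit 6) (nat_lit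 5) (nat_lit 5) (nat_lit 4) (nat_lit 374) (nat_lit 301) (nat_lit 225)) (XT.lf (nat_lit 0) (nat_lit 24440089620) (nat_lit 152) (nat_lit 272910168142) (nat_lit 0) (nat_lit 4624448326) (nat_lit 3) (nat_lit 5) (nat_lit 5) (nat_lit 4) (nat_lit 3) (nat_lit 4) (nat_lit 375) (nat_lit 301) (nat_lit 224)))) (XT.nd (nat_lit 156) (nat_lit 0) (nat_lit 0) (XT.nd (nat_lit 78) (nat_lit 0) (nat_lit 0) (XT.lf (nat_lit 0) (nat_lit 47161627073) (nat_lit 152) (nat_lit 250509389421) (nat_lit 0) (nat_lit 27342057467) (nat_lit 3) (nat_lit 5) (nat_lit 5) (nat_lit 4) (nat_lit 3) (nat_lit 4) (nat_lit 376) (nat_lit 301) (nat_lit 223)) (XT.lf (nat_lit 0) (nat_lit 71692418358) (nat_lit 152) (nat_lit 226333305627) (nat_lit 0) (nat_lit 51869211427) (nat_lit 3) (nat_lit 5) (nat_lit 5) (nat_lit 4) (nat_lit 3) (nat_lit 4) (nat_lit 377) (nat_lit 301) (nat_lit 222))) (XT.nd (nat_lit 78) (nat_lit 0) (nat_lit 0) (XT.lf (nat_lit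 0) (nat_lit 98177831128) (nat_lit 152) (nat_lit 200238651075) (nat_lit 0) (nat_lit 78351256303) (nat_lit 3) (nat_lit 5) (nat_lit 5) (nat_lit 4) (nat_lit 3) (nat_lit 4) (nat_lit 378) (nat_lit 301) (nat_lit 221)) (XT.lf (nat_lit 0) (nat_lit 126774815976) (nat_lit 152) (nat_lit 172070790778) (nat_lit 0) (nat_lit 106945122731) (nat_lit 3) (nat_lit 5) (nat_lit 5) (nat_lit 4) (nat_lit 3) (nat_lit 4) (nat_lit 379) (nat_lit 301) (nat_lit 220))))))))
noncomputable def xc50 : XT := (XT.nd (nat_lit 41418) (nat_lit 0) (nat_lit 2508) (XT.nd (nat_lit 936) (nat_lit 0) (nat_lit 0) (XT.nd (nat_lit 468) (nat_lit 0) (nat_lit 0) (XT.nd (nat_lit 234) (nat_lit 76) (nat_lit 0) (XT.nd (nat_lit 78) (nat_lit 0) (nat_lit 0) (XT.lf (nat_lit 0) (nat_lit 157652836517) (nat_lit 152) (nat_lit 141662804081) (nat_lit 0) (nat_lit 137820255846) (nat_lit 3) (nat_lit 5) (nat_lit 5) (nat_lit 4) (nat_lit 3) (nat_lit 4) (nat_lit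 380) (nat_lit 301) (nat_lit 219)) (XT.nd (nat_lit 78) (nat_lit 0) (nat_lit 0) (XT.lf (nat_lit 0) (nat_lit 190994873614) (nat_lit 152) (nat_lit 108834495507) (nat_lit 0) (nat_lit 171159619399) (nat_lit 3) (nat_lit 5) (nat_lit 5) (nat_lit 4) (nat_lit 3) (nat_lit 4) (nat_lit 381) (nat_lit 301) (nat_lit 218)) (XT.lf (nat_lit 0) (nat_lit 226998509708) (nat_lit 152) (nat_lit 73391326931) (nat_lit 0) (nat_lit 207160779990) (nat_lit 3) (nat_lit 5) (nat_lit 5) (nat_lit 4) (nat_lit 3) (nat_lit 4) (nat_lit 382) (nat_lit 301) (nat_lit 217)))) (XT.nd (nat_lit 78) (nat_lit 76) (nat_lit 0) (XT.lf (nat_lit 0) (nat_lit 265877099679) (nat_lit 152) (nat_lit 35123264763) (nat_lit 0) (nat_lit 246037077830) (nat_lit 3) (nat_lit 5) (nat_lit 5) (nat_lit 4) (nat_lit 3) (nat_lit 4) (nat_lit 383) (nat_lit 301) (nat_lit 216)) (XT.nd (nat_lit 78) (nat_lit 0) (nat_lit 0) (XT.lf (nat_lit 0) (nat_lit 6401347807) (nat_lit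 76) (nat_lit 301559630344) (nat_lit 76) (nat_lit 281717486151) (nat_lit 2) (nat_lit 4) (nat_lit 3) (nat_lit 5) (nat_lit 3) (nat_lit 4) (nat_lit 384) (nat_lit 301) (nat_lit 215)) (XT.lf (nat_lit 0) (nat_lit 52492817085) (nat_lit 76) (nat_lit 301525852781) (nat_lit 76) (nat_lit 281681743453) (nat_lit 2) (nat_lit 4) (nat_lit 3) (nat_lit 5) (nat_lit 3) (nat_lit 4) (nat_lit 385) (nat_lit 301) (nat_lit 214))))) (XT.nd (nat_lit 234) (nat_lit 0) (nat_lit 0) (XT.nd (nat_lit 78) (nat_lit 0) (nat_lit 0) (XT.lf (nat_lit 0) (nat_lit 102262943948) (nat_lit 76) (nat_lit 301493661072) (nat_lit 76) (nat_lit 281647732175) (nat_lit 2) (nat_lit 4) (nat_lit 3) (nat_lit 5) (nat_lit 3) (nat_lit 4) (nat_lit 386) (nat_lit 301) (nat_lit 213)) (XT.nd (nat_lit 78) (nat_lit 0) (nat_lit 0) (XT.lf (nat_lit 0) (nat_lit 156006662484) (nat_lit 76) (nat_lit 301462864451) (nat_lit 76) (nat_lit 281615250770) (nat_lit 2) (nat_lit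 4) (nat_lit 3) (nat_lit 5) (nat_lit 3) (nat_lit 4) (nat_lit 387) (nat_lit 301) (nat_lit 212)) (XT.lf (nat_lit 0) (nat_lit 214042453985) (nat_lit 76) (nat_lit 301433280421) (nat_lit 76) (nat_lit 281584106753) (nat_lit 2) (nat_lit 4) (nat_lit 3) (nat_lit 5) (nat_lit 3) (nat_lit 4) (nat_lit 388) (nat_lit 301) (nat_lit 211)))) (XT.nd (nat_lit 78) (nat_lit 0) (nat_lit 0) (XT.lf (nat_lit 0) (nat_lit 276714234254) (nat_lit 76) (nat_lit 301404733669) (nat_lit 76) (nat_lit 281554115569) (nat_lit 2) (nat_lit 4) (nat_lit 3) (nat_lit 5) (nat_lit 3) (nat_lit 4) (nat_lit 389) (nat_lit 301) (nat_lit 210)) (XT.nd (nat_lit 78) (nat_lit 0) (nat_lit 0) (XT.lf (nat_lit 0) (nat_lit 344393391618) (nat_lit 76) (nat_lit 301377055028) (nat_lit 76) (nat_lit 281525099491) (nat_lit 2) (nat_lit 4) (nat_lit 3) (nat_lit 5) (nat_lit 3) (nat_lit 4) (nat_lit 390) (nat_lit 301) (nat_lit 209)) (XT.lf (nat_lit 0) (nat_lit 417480987750)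 (nat_lit 76) (nat_lit 301350080477) (nat_lit 76) (nat_lit 281496886572) (nat_lit 2) (nat_lit 4) (nat_lit 3) (nat_lit 5) (nat_lit 3) (nat_lit 4) (nat_lit 391) (nat_lit 301) (nat_lit 208)))))) (XT.nd (nat_lit 40014) (nat_lit 0) (nat_lit 9804) (XT.nd (nat_lit 234) (nat_lit 0) (nat_lit 0) (XT.nd (nat_lit 78) (nat_lit 0) (nat_lit 0) (XT.lf (nat_lit 0) (nat_lit 496410134332) (nat_lit 76) (nat_lit 301323650168) (nat_lit 76) (nat_lit 281469309626) (nat_lit 2) (nat_lit 4) (nat_lit 3) (nat_lit 5) (nat_lit 3) (nat_lit 4) (nat_lit 392) (nat_lit 301) (nat_lit 207)) (XT.nd (nat_lit 78) (nat_lit 0) (nat_lit 0) (XT.lf (nat_lit 0) (nat_lit 581648559639) (nat_lit 76) (nat_lit 301297607475) (nat_lit 76) (nat_lit 281442205232) (nat_lit 2) (nat_lit 4) (nat_lit 3) (nat_lit 5) (nat_lit 3) (nat_lit 4) (nat_lit 393) (nat_lit 301) (nat_lit 206)) (XT.lf (nat_lit 0) (nat_lit 673701380266) (nat_lit 76) (nat_lit 301271798071)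 (nat_lit 76) (nat_lit 281415412773) (nat_lit 2) (nat_lit 4) (nat_lit 3) (nat_lit 5) (nat_lit 3) (nat_lit 4) (nat_lit 394) (nat_lit 301) (nat_lit 205)))) (XT.nd (nat_lit 39624) (nat_lit 0) (nat_lit 11552) (XT.lf (nat_lit 0) (nat_lit 773114094409) (nat_lit 76) (nat_lit 301246069013) (nat_lit 76) (nat_lit 281388773478) (nat_lit 2) (nat_lit 4) (nat_lit 3) (nat_lit 5) (nat_lit 3) (nat_lit 4) (nat_lit 395) (nat_lit 301) (nat_lit 204)) (XT.nd (nat_lit 78) (nat_lit 380) (nat_lit 0) (XT.lf (nat_lit 0) (nat_lit 1154634760) (nat_lit 0) (nat_lit 1154634760) (nat_lit 228) (nat_lit 969328176) (nat_lit 159) (nat_lit 5) (nat_lit 159) (nat_lit 3) (nat_lit 162) (nat_lit 3) (nat_lit 302) (nat_lit 302) (nat_lit 296)) (XT.lf (nat_lit 76) (nat_lit 839075051) (nat_lit 0) (nat_lit 1015671900) (nat_lit 380) (nat_lit 4770856306) (nat_lit 155) (nat_lit 5) (nat_lit 154) (nat_lit 3) (nat_lit 159) (nat_lit 5) (nat_lit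 303) (nat_lit 302) (nat_lit 295))))) (XT.nd (nat_lit 234) (nat_lit 1444) (nat_lit 0) (XT.nd (nat_lit 78) (nat_lit 380) (nat_lit 0) (XT.lf (nat_lit 0) (nat_lit 5585799298) (nat_lit 304) (nat_lit 479419189) (nat_lit 380) (nat_lit 648084847) (nat_lit 155) (nat_lit 5) (nat_lit 159) (nat_lit 5) (nat_lit 160) (nat_lit 5) (nat_lit 304) (nat_lit 302) (nat_lit 294)) (XT.nd (nat_lit 78) (nat_lit 0) (nat_lit 0) (XT.lf (nat_lit 0) (nat_lit 2459168910) (nat_lit 380) (nat_lit 1671188689) (nat_lit 456) (nat_lit 2688837967) (nat_lit 150) (nat_lit 5) (nat_lit 155) (nat_lit 5) (nat_lit 156) (nat_lit 5) (nat_lit 305) (nat_lit 302) (nat_lit 293)) (XT.lf (nat_lit 76) (nat_lit 4211374715) (nat_lit 0) (nat_lit 1821921338) (nat_lit 456) (nat_lit 912757123) (nat_lit 151) (nat_lit 5) (nat_lit 150) (nat_lit 5) (nat_lit 156) (nat_lit 5) (nat_lit 306) (nat_lit 302) (nat_lit 292)))) (XT.nd (nat_lit 78) (nat_lit 1064)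 (nat_lit 0) (XT.lf (nat_lit 0) (nat_lit 2498393223) (nat_lit 456) (nat_lit 3715880141) (nat_lit 76) (nat_lit 878059658) (nat_lit 145) (nat_lit 5) (nat_lit 151) (nat_lit 5) (nat_lit 146) (nat_lit 5) (nat_lit 307) (nat_lit 302) (nat_lit 291)) (XT.nd (nat_lit 78) (nat_lit 608) (nat_lit 0) (XT.lf (nat_lit 0) (nat_lit 2641019105) (nat_lit 456) (nat_lit 3333409447) (nat_lit 532) (nat_lit 1284282343) (nat_lit 139) (nat_lit 5) (nat_lit 145) (nat_lit 5) (nat_lit 146) (nat_lit 5) (nat_lit 308) (nat_lit 302) (nat_lit 290)) (XT.lf (nat_lit 0) (nat_lit 2008683944) (nat_lit 532) (nat_lit 22280077) (nat_lit 608) (nat_lit 5415243346) (nat_lit 131) (nat_lit 5) (nat_lit 138) (nat_lit 5) (nat_lit 139) (nat_lit 5) (nat_lit 309) (nat_lit 302) (nat_lit 289))))))) (XT.nd (nat_lit 936) (nat_lit 2432) (nat_lit 0) (XT.nd (nat_lit 468) (nat_lit 1976) (nat_lit 0) (XT.nd (nat_lit 234) (nat_lit 760) (nat_lit 0) (XT.nd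 (nat_lit 78) (nat_lit 1520) (nat_lit 0) (XT.lf (nat_lit 0) (nat_lit 1425063528) (nat_lit 608) (nat_lit 4036881563) (nat_lit 684) (nat_lit 2191209831) (nat_lit 123) (nat_lit 5) (nat_lit 131) (nat_lit 5) (nat_lit 132) (nat_lit 5) (nat_lit 310) (nat_lit 302) (nat_lit 288)) (XT.nd (nat_lit 78) (nat_lit 760) (nat_lit 0) (XT.lf (nat_lit 0) (nat_lit 940746281) (nat_lit 684) (nat_lit 167320985) (nat_lit 760) (nat_lit 6774898286) (nat_lit 113) (nat_lit 5) (nat_lit 122) (nat_lit 5) (nat_lit 123) (nat_lit 5) (nat_lit 311) (nat_lit 302) (nat_lit 287)) (XT.lf (nat_lit 0) (nat_lit 464477532) (nat_lit 760) (nat_lit 4074188250) (nat_lit 836) (nat_lit 3593720008) (nat_lit 103) (nat_lit 5) (nat_lit 113) (nat_lit 5) (nat_lit 114) (nat_lit 5) (nat_lit 312) (nat_lit 302) (nat_lit 286)))) (XT.nd (nat_lit 78) (nat_lit 380) (nat_lit 0) (XT.lf (nat_lit 0) (nat_lit 80099934) (nat_lit 380) (nat_lit 8071067602) (nat_lit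 456) (nat_lit 255430693) (nat_lit 98) (nat_lit 5) (nat_lit 103) (nat_lit 5) (nat_lit 104) (nat_lit 5) (nat_lit 313) (nat_lit 302) (nat_lit 285)) (XT.nd (nat_lit 78) (nat_lit 304) (nat_lit 0) (XT.lf (nat_lit 0) (nat_lit 3233771754) (nat_lit 456) (nat_lit 324987432) (nat_lit 76) (nat_lit 5142006352) (nat_lit 97) (nat_lit 5) (nat_lit 103) (nat_lit 5) (nat_lit 98) (nat_lit 5) (nat_lit 314) (nat_lit 302) (nat_lit 284)) (XT.lf (nat_lit 0) (nat_lit 6948902959) (nat_lit 380) (nat_lit 674729991) (nat_lit 76) (nat_lit 1397009403) (nat_lit 93) (nat_lit 5) (nat_lit 98) (nat_lit 5) (nat_lit 94) (nat_lit 5) (nat_lit 315) (nat_lit 302) (nat_lit 283))))) (XT.nd (nat_lit 234) (nat_lit 912) (nat_lit 0) (XT.nd (nat_lit 78) (nat_lit 608) (nat_lit 0) (XT.lf (nat_lit 0) (nat_lit 1553925833) (nat_lit 456) (nat_lit 1038050089) (nat_lit 76) (nat_lit 6772548106) (nat_lit 87) (nat_lit 5) (nat_lit 93) (nat_lit 5) (nat_lit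 88) (nat_lit 5) (nat_lit 316) (nat_lit 302) (nat_lit 282)) (XT.nd (nat_lit 78) (nat_lit 304) (nat_lit 0) (XT.lf (nat_lit 0) (nat_lit 5408653617) (nat_lit 380) (nat_lit 1421527644) (nat_lit 76) (nat_lit 2903598085) (nat_lit 83) (nat_lit 5) (nat_lit 88) (nat_lit 5) (nat_lit 84) (nat_lit 5) (nat_lit 317) (nat_lit 302) (nat_lit 281)) (XT.lf (nat_lit 0) (nat_lit 8331974442) (nat_lit 304) (nat_lit 1262921729) (nat_lit 380) (nat_lit 536652561) (nat_lit 79) (nat_lit 5) (nat_lit 83) (nat_lit 5) (nat_lit 84) (nat_lit 5) (nat_lit 318) (nat_lit 302) (nat_lit 280)))) (XT.nd (nat_lit 78) (nat_lit 608) (nat_lit 0) (XT.lf (nat_lit 0) (nat_lit 3511543376) (nat_lit 304) (nat_lit 2270513850) (nat_lit 76) (nat_lit 4772901204) (nat_lit 75) (nat_lit 5) (nat_lit 79) (nat_lit 5) (nat_lit 76) (nat_lit 5) (nat_lit 319) (nat_lit 302) (nat_lit 279)) (XT.nd (nat_lit 78) (nat_lit 304) (nat_lit 0) (XT.lf (nat_lit 0) (nat_lit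 7898934137) (nat_lit 380) (nat_lit 2755391819) (nat_lit 76) (nat_lit 355874557) (nat_lit 71) (nat_lit 5) (nat_lit 76) (nat_lit 5) (nat_lit 72) (nat_lit 5) (nat_lit 320) (nat_lit 302) (nat_lit 278)) (XT.lf (nat_lit 0) (nat_lit 1219854440) (nat_lit 304) (nat_lit 3348445136) (nat_lit 76) (nat_lit 6926732855) (nat_lit 67) (nat_lit 5) (nat_lit 71) (nat_lit 5) (nat_lit 68) (nat_lit 5) (nat_lit 321) (nat_lit 302) (nat_lit 277)))))) (XT.nd (nat_lit 468) (nat_lit 1064) (nat_lit 0) (XT.nd (nat_lit 234) (nat_lit 608) (nat_lit 0) (XT.nd (nat_lit 78) (nat_lit 532) (nat_lit 0) (XT.lf (nat_lit 0) (nat_lit 5857107086) (nat_lit 304) (nat_lit 4038053608) (nat_lit 76) (nat_lit 2117594683) (nat_lit 64) (nat_lit 5) (nat_lit 68) (nat_lit 5) (nat_lit 65) (nat_lit 5) (nat_lit 322) (nat_lit 302) (nat_lit 276)) (XT.nd (nat_lit 78) (nat_lit 304) (nat_lit 0) (XT.lf (nat_lit 0) (nat_lit 7730885338) (nat_lit 228) (nat_lit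 3257326222) (nat_lit 304) (nat_lit 1577621558) (nat_lit 61) (nat_lit 5) (nat_lit 64) (nat_lit 5) (nat_lit 65) (nat_lit 5) (nat_lit 323) (nat_lit 302) (nat_lit 275)) (XT.lf (nat_lit 0) (nat_lit 3381078290) (nat_lit 304) (nat_lit 5800892677) (nat_lit 76) (nat_lit 3972519758) (nat_lit 57) (nat_lit 5) (nat_lit 61) (nat_lit 5) (nat_lit 58) (nat_lit 5) (nat_lit 324) (nat_lit 302) (nat_lit 274)))) (XT.nd (nat_lit 78) (nat_lit 456) (nat_lit 0) (XT.lf (nat_lit 0) (nat_lit 6854432515) (nat_lit 152) (nat_lit 1951655936) (nat_lit 228) (nat_lit 4976680794) (nat_lit 55) (nat_lit 5) (nat_lit 57) (nat_lit 5) (nat_lit 58) (nat_lit 5) (nat_lit 325) (nat_lit 302) (nat_lit 273)) (XT.nd (nat_lit 78) (nat_lit 152) (nat_lit 0) (XT.lf (nat_lit 0) (nat_lit 372939992) (nat_lit 304) (nat_lit 8263257047) (nat_lit 76) (nat_lit 5816228255) (nat_lit 51) (nat_lit 5) (nat_lit 55) (nat_lit 5) (nat_lit 52) (nat_lit 5) (nat_lit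 326) (nat_lit 302) (nat_lit 272)) (XT.lf (nat_lit 0) (nat_lit 5306235554) (nat_lit 152) (nat_lit 796825000) (nat_lit 228) (nat_lit 9062223285) (nat_lit 49) (nat_lit 5) (nat_lit 51) (nat_lit 5) (nat_lit 52) (nat_lit 5) (nat_lit 327) (nat_lit 302) (nat_lit 271))))) (XT.nd (nat_lit 234) (nat_lit 532) (nat_lit 0) (XT.nd (nat_lit 78) (nat_lit 380) (nat_lit 0) (XT.lf (nat_lit 0) (nat_lit 4164200152) (nat_lit 152) (nat_lit 8349375266) (nat_lit 228) (nat_lit 3410546134) (nat_lit 47) (nat_lit 5) (nat_lit 49) (nat_lit 5) (nat_lit 50) (nat_lit 5) (nat_lit 328) (nat_lit 302) (nat_lit 270)) (XT.nd (nat_lit 78) (nat_lit 152) (nat_lit 0) (XT.lf (nat_lit 0) (nat_lit 2734013230) (nat_lit 228) (nat_lit 13950239639) (nat_lit 76) (nat_lit 51007318) (nat_lit 44) (nat_lit 5) (nat_lit 47) (nat_lit 5) (nat_lit 45) (nat_lit 5) (nat_lit 329) (nat_lit 302) (nat_lit 269)) (XT.lf (nat_lit 0) (nat_lit 974097523) (nat_lit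 152) (nat_lit 8541244183) (nat_lit 228) (nat_lit 8079958607) (nat_lit 42) (nat_lit 5) (nat_lit 44) (nat_lit 5) (nat_lit 45) (nat_lit 5) (nat_lit 330) (nat_lit 302) (nat_lit 268)))) (XT.nd (nat_lit 156) (nat_lit 304) (nat_lit 0) (XT.nd (nat_lit 78) (nat_lit 228) (nat_lit 0) (XT.lf (nat_lit 0) (nat_lit 16992986627) (nat_lit 228) (nat_lit 1093812810) (nat_lit 76) (nat_lit 429691293) (nat_lit 42) (nat_lit 5) (nat_lit 45) (nat_lit 5) (nat_lit 43) (nat_lit 4) (nat_lit 331) (nat_lit 302) (nat_lit 267)) (XT.lf (nat_lit 0) (nat_lit 5686654019) (nat_lit 228) (nat_lit 3700004293) (nat_lit 76) (nat_lit 10105059788) (nat_lit 39) (nat_lit 5) (nat_lit 42) (nat_lit 5) (nat_lit 40) (nat_lit 5) (nat_lit 332) (nat_lit 302) (nat_lit 266))) (XT.nd (nat_lit 78) (nat_lit 152) (nat_lit 0) (XT.lf (nat_lit 0) (nat_lit 13572101986) (nat_lit 228) (nat_lit 6749819877) (nat_lit 76) (nat_lit 214231048) (nat_lit 37) (nat_lit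 5) (nat_lit 40) (nat_lit 5) (nat_lit 38) (nat_lit 4) (nat_lit 333) (nat_lit 302) (nat_lit 265)) (XT.lf (nat_lit 0) (nat_lit 730710128) (nat_lit 152) (nat_lit 10463721436) (nat_lit 76) (nat_lit 10453404560) (nat_lit 35) (nat_lit 5) (nat_lit 37) (nat_lit 5) (nat_lit 36) (nat_lit 5) (nat_lit 334) (nat_lit 302) (nat_lit 264))))))))
noncomputable def xc51 : XT := (XT.nd (nat_lit 1950) (nat_lit 532) (nat_lit 0) (XT.nd (nat_lit 936) (nat_lit 684) (nat_lit 0) (XT.nd (nat_lit 468) (nat_lit 456) (nat_lit 0) (XT.nd (nat_lit 234) (nat_lit 456) (nat_lit 0) (XT.nd (nat_lit 78) (nat_lit 152) (nat_lit 0) (XT.lf (nat_lit 0) (nat_lit 7944434171) (nat_lit 152) (nat_lit 1018447692) (nat_lit 228) (nat_lit 13871598143) (nat_lit 33) (nat_lit 5) (nat_lit 35) (nat_lit 5) (nat_lit 36) (nat_lit 5) (nat_lit 335) (nat_lit 302) (nat_lit 263)) (XT.nd (nat_lit 78) (nat_lit 76) (nat_lit 0) (XT.lf (nat_lit 0) (nat_lit 3920242341)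 (nat_lit 76) (nat_lit 14257519790) (nat_lit 152) (nat_lit 5922109730) (nat_lit 32) (nat_lit 5) (nat_lit 33) (nat_lit 5) (nat_lit 34) (nat_lit 4) (nat_lit 336) (nat_lit 302) (nat_lit 262)) (XT.lf (nat_lit 0) (nat_lit 2783350285) (nat_lit 152) (nat_lit 884473270) (nat_lit 76) (nat_lit 21786350066) (nat_lit 31) (nat_lit 5) (nat_lit 33) (nat_lit 5) (nat_lit 32) (nat_lit 5) (nat_lit 337) (nat_lit 302) (nat_lit 261)))) (XT.nd (nat_lit 78) (nat_lit 304) (nat_lit 0) (XT.lf (nat_lit 0) (nat_lit 12356098099) (nat_lit 228) (nat_lit 6644952187) (nat_lit 76) (nat_lit 7892017349) (nat_lit 29) (nat_lit 5) (nat_lit 32) (nat_lit 5) (nat_lit 30) (nat_lit 4) (nat_lit 338) (nat_lit 302) (nat_lit 260)) (XT.nd (nat_lit 78) (nat_lit 228) (nat_lit 0) (XT.lf (nat_lit 0) (nat_lit 14950915555) (nat_lit 76) (nat_lit 7987221270) (nat_lit 152) (nat_lit 5496780333) (nat_lit 28) (nat_lit 5) (nat_lit 29) (nat_lit 5) (nat_lit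 30) (nat_lit 4) (nat_lit 339) (nat_lit 302) (nat_lit 259)) (XT.lf (nat_lit 0) (nat_lit 4380468258) (nat_lit 228) (nat_lit 21650867036) (nat_lit 76) (nat_lit 4052943978) (nat_lit 25) (nat_lit 5) (nat_lit 28) (nat_lit 5) (nat_lit 26) (nat_lit 4) (nat_lit 340) (nat_lit 302) (nat_lit 258))))) (XT.nd (nat_lit 234) (nat_lit 228) (nat_lit 0) (XT.nd (nat_lit 78) (nat_lit 152) (nat_lit 0) (XT.lf (nat_lit 0) (nat_lit 397256051) (nat_lit 76) (nat_lit 14777153342) (nat_lit 152) (nat_lit 16670735075) (nat_lit 24) (nat_lit 5) (nat_lit 25) (nat_lit 5) (nat_lit 26) (nat_lit 4) (nat_lit 341) (nat_lit 302) (nat_lit 257)) (XT.nd (nat_lit 78) (nat_lit 152) (nat_lit 0) (XT.lf (nat_lit 0) (nat_lit 24871295638) (nat_lit 76) (nat_lit 2277557745) (nat_lit 152) (nat_lit 6582189381) (nat_lit 24) (nat_lit 5) (nat_lit 25) (nat_lit 5) (nat_lit 26) (nat_lit 4) (nat_lit 342) (nat_lit 302) (nat_lit 256)) (XT.lf (nat_lit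 0) (nat_lit 4546175717) (nat_lit 152) (nat_lit 20063172845) (nat_lit 76) (nat_lit 11136569176) (nat_lit 22) (nat_lit 5) (nat_lit 24) (nat_lit 5) (nat_lit 23) (nat_lit 4) (nat_lit 343) (nat_lit 302) (nat_lit 255)))) (XT.nd (nat_lit 78) (nat_lit 152) (nat_lit 0) (XT.lf (nat_lit 0) (nat_lit 4480044106) (nat_lit 76) (nat_lit 12067735663) (nat_lit 152) (nat_lit 21358139650) (nat_lit 21) (nat_lit 5) (nat_lit 22) (nat_lit 5) (nat_lit 23) (nat_lit 4) (nat_lit 344) (nat_lit 302) (nat_lit 254)) (XT.nd (nat_lit 78) (nat_lit 152) (nat_lit 0) (XT.lf (nat_lit 0) (nat_lit 29834892120) (nat_lit 152) (nat_lit 8646512359) (nat_lit 0) (nat_lit 1741057786) (nat_lit 21) (nat_lit 5) (nat_lit 23) (nat_lit 4) (nat_lit 21) (nat_lit 4) (nat_lit 345) (nat_lit 302) (nat_lit 253)) (XT.lf (nat_lit 0) (nat_lit 1863043633) (nat_lit 152) (nat_lit 24323643939) (nat_lit 76) (nat_lit 16514052148) (nat_lit 19) (nat_lit 5) (nat_lit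 21) (nat_lit 5) (nat_lit 20) (nat_lit 4) (nat_lit 346) (nat_lit 302) (nat_lit 252)))))) (XT.nd (nat_lit 468) (nat_lit 380) (nat_lit 0) (XT.nd (nat_lit 234) (nat_lit 152) (nat_lit 0) (XT.nd (nat_lit 78) (nat_lit 76) (nat_lit 0) (XT.lf (nat_lit 0) (nat_lit 2308027617) (nat_lit 76) (nat_lit 12568229356) (nat_lit 152) (nat_lit 30485192167) (nat_lit 18) (nat_lit 5) (nat_lit 19) (nat_lit 5) (nat_lit 20) (nat_lit 4) (nat_lit 347) (nat_lit 302) (nat_lit 251)) (XT.nd (nat_lit 78) (nat_lit 76) (nat_lit 0) (XT.lf (nat_lit 0) (nat_lit 29348620235) (nat_lit 152) (nat_lit 16402926196) (nat_lit 0) (nat_lit 2462571820) (nat_lit 18) (nat_lit 5) (nat_lit 20) (nat_lit 4) (nat_lit 18) (nat_lit 4) (nat_lit 348) (nat_lit 302) (nat_lit 250)) (XT.lf (nat_lit 0) (nat_lit 12486243947) (nat_lit 76) (nat_lit 32856839708) (nat_lit 76) (nat_lit 5933708701) (nat_lit 17) (nat_lit 4) (nat_lit 18) (nat_lit 5) (nat_lit 18)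 (nat_lit 4) (nat_lit 349) (nat_lit 302) (nat_lit 249)))) (XT.nd (nat_lit 78) (nat_lit 76) (nat_lit 0) (XT.lf (nat_lit 0) (nat_lit 8024654045) (nat_lit 152) (nat_lit 10506925945) (nat_lit 76) (nat_lit 36034179780) (nat_lit 16) (nat_lit 5) (nat_lit 18) (nat_lit 5) (nat_lit 17) (nat_lit 4) (nat_lit 350) (nat_lit 302) (nat_lit 248)) (XT.nd (nat_lit 78) (nat_lit 0) (nat_lit 0) (XT.lf (nat_lit 0) (nat_lit 20523120582) (nat_lit 76) (nat_lit 2653649986) (nat_lit 152) (nat_lit 34921967395) (nat_lit 15) (nat_lit 5) (nat_lit 16) (nat_lit 5) (nat_lit 17) (nat_lit 4) (nat_lit 351) (nat_lit 302) (nat_lit 247)) (XT.lf (nat_lit 0) (nat_lit 39916369704) (nat_lit 152) (nat_lit 7794946493) (nat_lit 0) (nat_lit 14184277856) (nat_lit 15) (nat_lit 5) (nat_lit 17) (nat_lit 4) (nat_lit 15) (nat_lit 4) (nat_lit 352) (nat_lit 302) (nat_lit 246))))) (XT.nd (nat_lit 234) (nat_lit 152) (nat_lit 0) (XT.nd (nat_lit 78)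 (nat_lit 152) (nat_lit 0) (XT.lf (nat_lit 0) (nat_lit 25059557365) (nat_lit 76) (nat_lit 33337305300) (nat_lit 76) (nat_lit 7579254584) (nat_lit 14) (nat_lit 4) (nat_lit 15) (nat_lit 5) (nat_lit 15) (nat_lit 4) (nat_lit 353) (nat_lit 302) (nat_lit 245)) (XT.nd (nat_lit 78) (nat_lit 76) (nat_lit 0) (XT.lf (nat_lit 0) (nat_lit 7822288656) (nat_lit 152) (nat_lit 9746394957) (nat_lit 76) (nat_lit 52802941576) (nat_lit 13) (nat_lit 5) (nat_lit 15) (nat_lit 5) (nat_lit 14) (nat_lit 4) (nat_lit 354) (nat_lit 302) (nat_lit 244)) (XT.lf (nat_lit 0) (nat_lit 24514787132) (nat_lit 76) (nat_lit 31129639) (nat_lit 152) (nat_lit 50548873425) (nat_lit 12) (nat_lit 5) (nat_lit 13) (nat_lit 5) (nat_lit 14) (nat_lit 4) (nat_lit 355) (nat_lit 302) (nat_lit 243)))) (XT.nd (nat_lit 156) (nat_lit 76) (nat_lit 0) (XT.nd (nat_lit 78) (nat_lit 76) (nat_lit 0) (XT.lf (nat_lit 0) (nat_lit 43045395585) (nat_lit 152)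 (nat_lit 18678312672) (nat_lit 0) (nat_lit 18450205837) (nat_lit 12) (nat_lit 5) (nat_lit 14) (nat_lit 4) (nat_lit 12) (nat_lit 4) (nat_lit 356) (nat_lit 302) (nat_lit 242)) (XT.lf (nat_lit 0) (nat_lit 16241210923) (nat_lit 76) (nat_lit 47010099124) (nat_lit 76) (nat_lit 22396737430) (nat_lit 11) (nat_lit 4) (nat_lit 12) (nat_lit 5) (nat_lit 12) (nat_lit 4) (nat_lit 357) (nat_lit 302) (nat_lit 241))) (XT.nd (nat_lit 78) (nat_lit 76) (nat_lit 0) (XT.lf (nat_lit 0) (nat_lit 54570024898) (nat_lit 76) (nat_lit 30802663915) (nat_lit 76) (nat_lit 6172476345) (nat_lit 11) (nat_lit 4) (nat_lit 12) (nat_lit 5) (nat_lit 12) (nat_lit 4) (nat_lit 358) (nat_lit 302) (nat_lit 240)) (XT.lf (nat_lit 0) (nat_lit 10961640898) (nat_lit 152) (nat_lit 2174403242) (nat_lit 76) (nat_lit 84770392003) (nat_lit 10) (nat_lit 5) (nat_lit 12) (nat_lit 5) (nat_lit 11) (nat_lit 4) (nat_lit 359) (nat_lit 302) (nat_lit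 239))))))) (XT.nd (nat_lit 936) (nat_lit 152) (nat_lit 0) (XT.nd (nat_lit 468) (nat_lit 152) (nat_lit 0) (XT.nd (nat_lit 234) (nat_lit 76) (nat_lit 0) (XT.nd (nat_lit 78) (nat_lit 76) (nat_lit 0) (XT.lf (nat_lit 0) (nat_lit 29902368085) (nat_lit 152) (nat_lit 68420106803) (nat_lit 0) (nat_lit 6416470408) (nat_lit 9) (nat_lit 5) (nat_lit 11) (nat_lit 4) (nat_lit 9) (nat_lit 4) (nat_lit 360) (nat_lit 302) (nat_lit 238)) (XT.nd (nat_lit 78) (nat_lit 76) (nat_lit 0) (XT.lf (nat_lit 0) (nat_lit 50596074443) (nat_lit 152) (nat_lit 34412641210) (nat_lit 0) (nat_lit 27097455888) (nat_lit 9) (nat_lit 5) (nat_lit 11) (nat_lit 4) (nat_lit 9) (nat_lit 4) (nat_lit 361) (nat_lit 302) (nat_lit 237)) (XT.lf (nat_lit 0) (nat_lit 2350324430) (nat_lit 76) (nat_lit 70611023645) (nat_lit 76) (nat_lit 47100626499) (nat_lit 8) (nat_lit 4) (nat_lit 9) (nat_lit 5) (nat_lit 9) (nat_lit 4) (nat_lit 362) (nat_lit 302)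 (nat_lit 236)))) (XT.nd (nat_lit 78) (nat_lit 76) (nat_lit 0) (XT.lf (nat_lit 0) (nat_lit 43244621735) (nat_lit 76) (nat_lit 54450969036) (nat_lit 76) (nat_lit 30929665786) (nat_lit 8) (nat_lit 4) (nat_lit 9) (nat_lit 5) (nat_lit 9) (nat_lit 4) (nat_lit 363) (nat_lit 302) (nat_lit 235)) (XT.nd (nat_lit 78) (nat_lit 76) (nat_lit 0) (XT.lf (nat_lit 0) (nat_lit 87374749951) (nat_lit 76) (nat_lit 37015583268) (nat_lit 76) (nat_lit 13484181775) (nat_lit 8) (nat_lit 4) (nat_lit 9) (nat_lit 5) (nat_lit 9) (nat_lit 4) (nat_lit 364) (nat_lit 302) (nat_lit 234)) (XT.lf (nat_lit 0) (nat_lit 5168318239) (nat_lit 152) (nat_lit 12945699327) (nat_lit 76) (nat_lit 129746374739) (nat_lit 7) (nat_lit 5) (nat_lit 9) (nat_lit 5) (nat_lit 8) (nat_lit 4) (nat_lit 365) (nat_lit 302) (nat_lit 233))))) (XT.nd (nat_lit 234) (nat_lit 76) (nat_lit 0) (XT.nd (nat_lit 78) (nat_lit 0) (nat_lit 0) (XT.lf (nat_lit 0) (nat_lit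 25318841230) (nat_lit 152) (nat_lit 130400503033) (nat_lit 0) (nat_lit 2890832340) (nat_lit 6) (nat_lit 5) (nat_lit 8) (nat_lit 4) (nat_lit 6) (nat_lit 4) (nat_lit 366) (nat_lit 302) (nat_lit 232)) (XT.nd (nat_lit 78) (nat_lit 0) (nat_lit 0) (XT.lf (nat_lit 0) (nat_lit 47600632755) (nat_lit 152) (nat_lit 97428361717) (nat_lit 0) (nat_lit 25164989283) (nat_lit 6) (nat_lit 5) (nat_lit 8) (nat_lit 4) (nat_lit 6) (nat_lit 4) (nat_lit 367) (nat_lit 302) (nat_lit 231)) (XT.lf (nat_lit 0) (nat_lit 71650697903) (nat_lit 152) (nat_lit 61846527027) (nat_lit 0) (nat_lit 49207985373) (nat_lit 6) (nat_lit 5) (nat_lit 8) (nat_lit 4) (nat_lit 6) (nat_lit 4) (nat_lit 368) (nat_lit 302) (nat_lit 230)))) (XT.nd (nat_lit 78) (nat_lit 76) (nat_lit 0) (XT.lf (nat_lit 0) (nat_lit 97611555577) (nat_lit 152) (nat_lit 23444143647) (nat_lit 0) (nat_lit 75162297623) (nat_lit 6) (nat_lit 5) (nat_lit 8) (nat_lit 4)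 (nat_lit 6) (nat_lit 4) (nat_lit 369) (nat_lit 302) (nat_lit 229)) (XT.nd (nat_lit 78) (nat_lit 0) (nat_lit 0) (XT.lf (nat_lit 0) (nat_lit 18601729619) (nat_lit 76) (nat_lit 107325743408) (nat_lit 76) (nat_lit 84870424877) (nat_lit 5) (nat_lit 4) (nat_lit 6) (nat_lit 5) (nat_lit 6) (nat_lit 4) (nat_lit 370) (nat_lit 302) (nat_lit 228)) (XT.lf (nat_lit 0) (nat_lit 64825429407) (nat_lit 76) (nat_lit 92079929074) (nat_lit 76) (nat_lit 69618998897) (nat_lit 5) (nat_lit 4) (nat_lit 6) (nat_lit 5) (nat_lit 6) (nat_lit 4) (nat_lit 371) (nat_lit 302) (nat_lit 227)))))) (XT.nd (nat_lit 468) (nat_lit 0) (nat_lit 0) (XT.nd (nat_lit 234) (nat_lit 152) (nat_lit 0) (XT.nd (nat_lit 78) (nat_lit 0) (nat_lit 0) (XT.lf (nat_lit 0) (nat_lit 114725704670) (nat_lit 76) (nat_lit 75624948572) (nat_lit 76) (nat_lit 53158822427) (nat_lit 5) (nat_lit 4) (nat_lit 6) (nat_lit 5) (nat_lit 6) (nat_lit 4) (nat_lit 372)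 (nat_lit 302) (nat_lit 226)) (XT.nd (nat_lit 78) (nat_lit 0) (nat_lit 0) (XT.lf (nat_lit 0) (nat_lit 168598260744) (nat_lit 76) (nat_lit 57863290907) (nat_lit 76) (nat_lit 35392353680) (nat_lit 5) (nat_lit 4) (nat_lit 6) (nat_lit 5) (nat_lit 6) (nat_lit 4) (nat_lit 373) (nat_lit 302) (nat_lit 225)) (XT.lf (nat_lit 0) (nat_lit 226762342406) (nat_lit 76) (nat_lit 38689701811) (nat_lit 76) (nat_lit 16214309879) (nat_lit 5) (nat_lit 4) (nat_lit 6) (nat_lit 5) (nat_lit 6) (nat_lit 4) (nat_lit 374) (nat_lit 302) (nat_lit 224)))) (XT.nd (nat_lit 78) (nat_lit 76) (nat_lit 0) (XT.lf (nat_lit 0) (nat_lit 4345281997) (nat_lit 152) (nat_lit 13571688565) (nat_lit 76) (nat_lit 285143754244) (nat_lit 4) (nat_lit 5) (nat_lit 6) (nat_lit 5) (nat_lit 5) (nat_lit 4) (nat_lit 375) (nat_lit 302) (nat_lit 223)) (XT.nd (nat_lit 78) (nat_lit 0) (nat_lit 0) (XT.lf (nat_lit 0) (nat_lit 26560526915) (nat_lit 152)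 (nat_lit 294416054617) (nat_lit 0) (nat_lit 5147826104) (nat_lit 3) (nat_lit 5) (nat_lit 5) (nat_lit 4) (nat_lit 3) (nat_lit 4) (nat_lit 376) (nat_lit 302) (nat_lit 222)) (XT.lf (nat_lit 0) (nat_lit 51087548096) (nat_lit 152) (nat_lit 270247430412) (nat_lit 0) (nat_lit 29671479391) (nat_lit 3) (nat_lit 5) (nat_lit 5) (nat_lit 4) (nat_lit 3) (nat_lit 4) (nat_lit 377) (nat_lit 302) (nat_lit 221))))) (XT.nd (nat_lit 234) (nat_lit 0) (nat_lit 0) (XT.nd (nat_lit 78) (nat_lit 0) (nat_lit 0) (XT.lf (nat_lit 0) (nat_lit 77569470027) (nat_lit 152) (nat_lit 244159682889) (nat_lit 0) (nat_lit 56150282902) (nat_lit 3) (nat_lit 5) (nat_lit 5) (nat_lit 4) (nat_lit 3) (nat_lit 4) (nat_lit 378) (nat_lit 302) (nat_lit 220)) (XT.nd (nat_lit 78) (nat_lit 0) (nat_lit 0) (XT.lf (nat_lit 0) (nat_lit 106163222619) (nat_lit 152) (nat_lit 215998217987) (nat_lit 0) (nat_lit 84741148067) (nat_lit 3) (nat_lit 5) (nat_lit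 5) (nat_lit 4) (nat_lit 3) (nat_lit 4) (nat_lit 379) (nat_lit 302) (nat_lit 219)) (XT.lf (nat_lit 0) (nat_lit 137038250329) (nat_lit 152) (nat_lit 185596152953) (nat_lit 0) (nat_lit 115613502235) (nat_lit 3) (nat_lit 5) (nat_lit 5) (nat_lit 4) (nat_lit 3) (nat_lit 4) (nat_lit 380) (nat_lit 302) (nat_lit 218)))) (XT.nd (nat_lit 156) (nat_lit 0) (nat_lit 0) (XT.nd (nat_lit 78) (nat_lit 0) (nat_lit 0) (XT.lf (nat_lit 0) (nat_lit 170377516286) (nat_lit 152) (nat_lit 152773327400) (nat_lit 0) (nat_lit 148950292689) (nat_lit 3) (nat_lit 5) (nat_lit 5) (nat_lit 4) (nat_lit 3) (nat_lit 4) (nat_lit 381) (nat_lit 302) (nat_lit 217)) (XT.lf (nat_lit 0) (nat_lit 206378586510) (nat_lit 152) (nat_lit 117335235697) (nat_lit 0) (nat_lit 184949070780) (nat_lit 3) (nat_lit 5) (nat_lit 5) (nat_lit 4) (nat_lit 3) (nat_lit 4) (nat_lit 382) (nat_lit 302) (nat_lit 216))) (XT.nd (nat_lit 78) (nat_lit 0) (nat_lit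 0) (XT.lf (nat_lit 0) (nat_lit 245254800676) (nat_lit 152) (nat_lit 79071874335) (nat_lit 0) (nat_lit 223823162602) (nat_lit 3) (nat_lit 5) (nat_lit 5) (nat_lit 4) (nat_lit 3) (nat_lit 4) (nat_lit 383) (nat_lit 302) (nat_lit 215)) (XT.lf (nat_lit 0) (nat_lit 287236536349) (nat_lit 152) (nat_lit 37756497471) (nat_lit 0) (nat_lit 265802933141) (nat_lit 3) (nat_lit 5) (nat_lit 5) (nat_lit 4) (nat_lit 3) (nat_lit 4) (nat_lit 384) (nat_lit 302) (nat_lit 214))))))))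
noncomputable def xc52 : XT := (XT.nd (nat_lit 41496) (nat_lit 0) (nat_lit 1976) (XT.nd (nat_lit 40560) (nat_lit 0) (nat_lit 6916) (XT.nd (nat_lit 468) (nat_lit 0) (nat_lit 0) (XT.nd (nat_lit 234) (nat_lit 0) (nat_lit 0) (XT.nd (nat_lit 78) (nat_lit 0) (nat_lit 0) (XT.lf (nat_lit 0) (nat_lit 7082408046) (nat_lit 76) (nat_lit 325600742378) (nat_lit 76) (nat_lit 304165319602) (nat_lit 2) (nat_lit 4) (nat_lit 3) (nat_lit 5) (nat_lit 3) (nat_lit 4) (nat_lit 385) (nat_lit 302) (nat_lit 213)) (XT.nd (nat_lit 78) (nat_lit 0) (nat_lit 0) (XT.lf (nat_lit 0) (nat_lit 56848679872) (nat_lit 76) (nat_lit 325570459527) (nat_lit 76) (nat_lit 304133351965) (nat_lit 2) (nat_lit 4) (nat_lit 3) (nat_lit 5) (nat_lit 3) (nat_lit 4) (nat_lit 386) (nat_lit 302) (nat_lit 212)) (XT.lf (nat_lit 0) (nat_lit 110588828928) (nat_lit 76) (nat_lit 325541430368) (nat_lit 76) (nat_lit 304102762820) (nat_lit 2) (nat_lit 4)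 (nat_lit 3) (nat_lit 5) (nat_lit 3) (nat_lit 4) (nat_lit 387) (nat_lit 302) (nat_lit 211)))) (XT.nd (nat_lit 78) (nat_lit 0) (nat_lit 0) (XT.lf (nat_lit 0) (nat_lit 168621315356) (nat_lit 76) (nat_lit 325513482877) (nat_lit 76) (nat_lit 304073370897) (nat_lit 2) (nat_lit 4) (nat_lit 3) (nat_lit 5) (nat_lit 3) (nat_lit 4) (nat_lit 388) (nat_lit 302) (nat_lit 210)) (XT.nd (nat_lit 78) (nat_lit 0) (nat_lit 0) (XT.lf (nat_lit 0) (nat_lit 231290035372) (nat_lit 76) (nat_lit 325486451438) (nat_lit 76) (nat_lit 304045002020) (nat_lit 2) (nat_lit 4) (nat_lit 3) (nat_lit 5) (nat_lit 3) (nat_lit 4) (nat_lit 389) (nat_lit 302) (nat_lit 209)) (XT.lf (nat_lit 0) (nat_lit 298966359168) (nat_lit 76) (nat_lit 325460175865) (nat_lit 76) (nat_lit 304017488080) (nat_lit 2) (nat_lit 4) (nat_lit 3) (nat_lit 5) (nat_lit 3) (nat_lit 4) (nat_lit 390) (nat_lit 302) (nat_lit 208))))) (XT.nd (nat_lit 234) (nat_lit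 0) (nat_lit 0) (XT.nd (nat_lit 78) (nat_lit 0) (nat_lit 0) (XT.lf (nat_lit 0) (nat_lit 372051331627) (nat_lit 76) (nat_lit 325434500451) (nat_lit 76) (nat_lit 303990666030) (nat_lit 2) (nat_lit 4) (nat_lit 3) (nat_lit 5) (nat_lit 3) (nat_lit 4) (nat_lit 391) (nat_lit 302) (nat_lit 207)) (XT.nd (nat_lit 78) (nat_lit 0) (nat_lit 0) (XT.lf (nat_lit 0) (nat_lit 450978048882) (nat_lit 76) (nat_lit 325409273046) (nat_lit 76) (nat_lit 303964376924) (nat_lit 2) (nat_lit 4) (nat_lit 3) (nat_lit 5) (nat_lit 3) (nat_lit 4) (nat_lit 392) (nat_lit 302) (nat_lit 206)) (XT.lf (nat_lit 0) (nat_lit 536214224811) (nat_lit 76) (nat_lit 325384344154) (nat_lit 76) (nat_lit 303938464975) (nat_lit 2) (nat_lit 4) (nat_lit 3) (nat_lit 5) (nat_lit 3) (nat_lit 4) (nat_lit 393) (nat_lit 302) (nat_lit 205)))) (XT.nd (nat_lit 78) (nat_lit 0) (nat_lit 0) (XT.lf (nat_lit 0) (nat_lit 628264962681) (nat_lit 76) (nat_lit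 325359566047) (nat_lit 76) (nat_lit 303912776632) (nat_lit 2) (nat_lit 4) (nat_lit 3) (nat_lit 5) (nat_lit 3) (nat_lit 4) (nat_lit 394) (nat_lit 302) (nat_lit 204)) (XT.nd (nat_lit 39702) (nat_lit 0) (nat_lit 11552) (XT.lf (nat_lit 0) (nat_lit 727675748345) (nat_lit 76) (nat_lit 325334791894) (nat_lit 76) (nat_lit 303887159666) (nat_lit 2) (nat_lit 4) (nat_lit 3) (nat_lit 5) (nat_lit 3) (nat_lit 4) (nat_lit 395) (nat_lit 302) (nat_lit 203)) (XT.lf (nat_lit 0) (nat_lit 2688720866) (nat_lit 380) (nat_lit 331433964) (nat_lit 380) (nat_lit 331433964) (nat_lit 154) (nat_lit 3) (nat_lit 159) (nat_lit 3) (nat_lit 159) (nat_lit 5) (nat_lit 303) (nat_lit 303) (nat_lit 294)))))) (XT.nd (nat_lit 468) (nat_lit 3344) (nat_lit 0) (XT.nd (nat_lit 234) (nat_lit 532) (nat_lit 0) (XT.nd (nat_lit 78) (nat_lit 380) (nat_lit 0) (XT.lf (nat_lit 0) (nat_lit 2048557115) (nat_lit 380) (nat_lit 2204470130) (nat_lit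 456) (nat_lit 2546002975) (nat_lit 149) (nat_lit 5) (nat_lit 154) (nat_lit 3) (nat_lit 155) (nat_lit 5) (nat_lit 304) (nat_lit 303) (nat_lit 293)) (XT.nd (nat_lit 78) (nat_lit 380) (nat_lit 0) (XT.lf (nat_lit 76) (nat_lit 3288842566) (nat_lit 0) (nat_lit 2087272232) (nat_lit 456) (nat_lit 1539280477) (nat_lit 150) (nat_lit 5) (nat_lit 149) (nat_lit 5) (nat_lit 155) (nat_lit 5) (nat_lit 305) (nat_lit 303) (nat_lit 292)) (XT.lf (nat_lit 0) (nat_lit 1629079921) (nat_lit 456) (nat_lit 4952753937) (nat_lit 532) (nat_lit 469999424) (nat_lit 144) (nat_lit 5) (nat_lit 150) (nat_lit 5) (nat_lit 151) (nat_lit 5) (nat_lit 306) (nat_lit 303) (nat_lit 291)))) (XT.nd (nat_lit 78) (nat_lit 532) (nat_lit 0) (XT.lf (nat_lit 76) (nat_lit 986090718) (nat_lit 0) (nat_lit 3831360715) (nat_lit 532) (nat_lit 2389792010) (nat_lit 145) (nat_lit 5) (nat_lit 144) (nat_lit 5) (nat_lit 151) (nat_lit 5) (nat_lit 307)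 (nat_lit 303) (nat_lit 290)) (XT.nd (nat_lit 78) (nat_lit 0) (nat_lit 76) (XT.lf (nat_lit 0) (nat_lit 664135973) (nat_lit 532) (nat_lit 9556790) (nat_lit 608) (nat_lit 6710670023) (nat_lit 137) (nat_lit 5) (nat_lit 144) (nat_lit 5) (nat_lit 145) (nat_lit 5) (nat_lit 308) (nat_lit 303) (nat_lit 289)) (XT.lf (nat_lit 0) (nat_lit 3770246183) (nat_lit 532) (nat_lit 940865066) (nat_lit 76) (nat_lit 2868281404) (nat_lit 138) (nat_lit 5) (nat_lit 145) (nat_lit 5) (nat_lit 139) (nat_lit 5) (nat_lit 309) (nat_lit 303) (nat_lit 288))))) (XT.nd (nat_lit 234) (nat_lit 1520) (nat_lit 0) (XT.nd (nat_lit 78) (nat_lit 1368) (nat_lit 0) (XT.lf (nat_lit 0) (nat_lit 6019061747) (nat_lit 532) (nat_lit 968629715) (nat_lit 608) (nat_lit 809449982) (nat_lit 131) (nat_lit 5) (nat_lit 138) (nat_lit 5) (nat_lit 139) (nat_lit 5) (nat_lit 310) (nat_lit 303) (nat_lit 287)) (XT.nd (nat_lit 78) (nat_lit 684) (nat_lit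 0) (XT.lf (nat_lit 0) (nat_lit 2274150881) (nat_lit 684) (nat_lit 2603388531) (nat_lit 76) (nat_lit 3157016308) (nat_lit 122) (nat_lit 5) (nat_lit 131) (nat_lit 5) (nat_lit 123) (nat_lit 5) (nat_lit 311) (nat_lit 303) (nat_lit 286)) (XT.lf (nat_lit 0) (nat_lit 4924435675) (nat_lit 684) (nat_lit 560071207) (nat_lit 760) (nat_lit 2810582813) (nat_lit 113) (nat_lit 5) (nat_lit 122) (nat_lit 5) (nat_lit 123) (nat_lit 5) (nat_lit 312) (nat_lit 303) (nat_lit 285)))) (XT.nd (nat_lit 78) (nat_lit 684) (nat_lit 0) (XT.lf (nat_lit 0) (nat_lit 339125236) (nat_lit 836) (nat_lit 4128415447) (nat_lit 76) (nat_lit 4110023676) (nat_lit 102) (nat_lit 5) (nat_lit 113) (nat_lit 5) (nat_lit 103) (nat_lit 5) (nat_lit 313) (nat_lit 303) (nat_lit 284)) (XT.nd (nat_lit 78) (nat_lit 304) (nat_lit 0) (XT.lf (nat_lit 0) (nat_lit 3587730753) (nat_lit 456) (nat_lit 4878719294) (nat_lit 76) (nat_lit 416786266) (nat_lit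 97) (nat_lit 5) (nat_lit 103) (nat_lit 5) (nat_lit 98) (nat_lit 5) (nat_lit 314) (nat_lit 303) (nat_lit 283)) (XT.lf (nat_lit 0) (nat_lit 3568402360) (nat_lit 304) (nat_lit 3549012131) (nat_lit 380) (nat_lit 2095047831) (nat_lit 93) (nat_lit 5) (nat_lit 97) (nat_lit 5) (nat_lit 98) (nat_lit 5) (nat_lit 315) (nat_lit 303) (nat_lit 282))))))) (XT.nd (nat_lit 936) (nat_lit 1748) (nat_lit 0) (XT.nd (nat_lit 468) (nat_lit 1292) (nat_lit 0) (XT.nd (nat_lit 234) (nat_lit 836) (nat_lit 0) (XT.nd (nat_lit 78) (nat_lit 608) (nat_lit 0) (XT.lf (nat_lit 0) (nat_lit 1308575053) (nat_lit 456) (nat_lit 6410238894) (nat_lit 76) (nat_lit 1848755407) (nat_lit 87) (nat_lit 5) (nat_lit 93) (nat_lit 5) (nat_lit 88) (nat_lit 5) (nat_lit 316) (nat_lit 303) (nat_lit 281)) (XT.nd (nat_lit 78) (nat_lit 304) (nat_lit 0) (XT.lf (nat_lit 0) (nat_lit 2716134838) (nat_lit 304) (nat_lit 2232647049) (nat_lit 380) (nat_lit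 4998831557) (nat_lit 83) (nat_lit 5) (nat_lit 87) (nat_lit 5) (nat_lit 88) (nat_lit 5) (nat_lit 317) (nat_lit 303) (nat_lit 280)) (XT.lf (nat_lit 0) (nat_lit 2270886376) (nat_lit 304) (nat_lit 6659403459) (nat_lit 380) (nat_lit 1425387804) (nat_lit 79) (nat_lit 5) (nat_lit 83) (nat_lit 5) (nat_lit 84) (nat_lit 5) (nat_lit 318) (nat_lit 303) (nat_lit 279)))) (XT.nd (nat_lit 78) (nat_lit 532) (nat_lit 0) (XT.lf (nat_lit 0) (nat_lit 1793140712) (nat_lit 228) (nat_lit 606257665) (nat_lit 304) (nat_lit 8393026702) (nat_lit 75) (nat_lit 5) (nat_lit 78) (nat_lit 5) (nat_lit 79) (nat_lit 5) (nat_lit 319) (nat_lit 303) (nat_lit 278)) (XT.nd (nat_lit 78) (nat_lit 228) (nat_lit 0) (XT.lf (nat_lit 0) (nat_lit 1226704911) (nat_lit 304) (nat_lit 5366510451) (nat_lit 380) (nat_lit 4664177911) (nat_lit 71) (nat_lit 5) (nat_lit 75) (nat_lit 5) (nat_lit 76) (nat_lit 5) (nat_lit 320) (nat_lit 303) (nat_lit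 277)) (XT.lf (nat_lit 0) (nat_lit 646269272) (nat_lit 228) (nat_lit 10537871112) (nat_lit 304) (nat_lit 572429738) (nat_lit 68) (nat_lit 5) (nat_lit 71) (nat_lit 5) (nat_lit 72) (nat_lit 5) (nat_lit 321) (nat_lit 303) (nat_lit 276))))) (XT.nd (nat_lit 234) (nat_lit 684) (nat_lit 0) (XT.nd (nat_lit 78) (nat_lit 532) (nat_lit 0) (XT.lf (nat_lit 0) (nat_lit 3861236232) (nat_lit 304) (nat_lit 85745154) (nat_lit 76) (nat_lit 8338892666) (nat_lit 67) (nat_lit 5) (nat_lit 71) (nat_lit 5) (nat_lit 68) (nat_lit 5) (nat_lit 322) (nat_lit 303) (nat_lit 275)) (XT.nd (nat_lit 78) (nat_lit 304) (nat_lit 0) (XT.lf (nat_lit 0) (nat_lit 8748896171) (nat_lit 304) (nat_lit 877226950) (nat_lit 76) (nat_lit 3225036751) (nat_lit 64) (nat_lit 5) (nat_lit 68) (nat_lit 5) (nat_lit 65) (nat_lit 5) (nat_lit 323) (nat_lit 303) (nat_lit 274)) (XT.lf (nat_lit 0) (nat_lit 685393094) (nat_lit 304) (nat_lit 1784197439)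 (nat_lit 76) (nat_lit 10984821768) (nat_lit 60) (nat_lit 5) (nat_lit 64) (nat_lit 5) (nat_lit 61) (nat_lit 5) (nat_lit 324) (nat_lit 303) (nat_lit 273)))) (XT.nd (nat_lit 78) (nat_lit 456) (nat_lit 0) (XT.lf (nat_lit 0) (nat_lit 5880649361) (nat_lit 304) (nat_lit 2906826220) (nat_lit 76) (nat_lit 5306732209) (nat_lit 57) (nat_lit 5) (nat_lit 61) (nat_lit 5) (nat_lit 58) (nat_lit 5) (nat_lit 325) (nat_lit 303) (nat_lit 272)) (XT.nd (nat_lit 78) (nat_lit 304) (nat_lit 0) (XT.lf (nat_lit 0) (nat_lit 10614984408) (nat_lit 152) (nat_lit 1009709936) (nat_lit 228) (nat_lit 3153890544) (nat_lit 55) (nat_lit 5) (nat_lit 57) (nat_lit 5) (nat_lit 58) (nat_lit 5) (nat_lit 326) (nat_lit 303) (nat_lit 271)) (XT.lf (nat_lit 0) (nat_lit 2459622620) (nat_lit 304) (nat_lit 5696974635) (nat_lit 76) (nat_lit 7348209713) (nat_lit 51) (nat_lit 5) (nat_lit 55) (nat_lit 5) (nat_lit 52) (nat_lit 5) (nat_lit 327)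 (nat_lit 303) (nat_lit 270)))))) (XT.nd (nat_lit 468) (nat_lit 836) (nat_lit 0) (XT.nd (nat_lit 234) (nat_lit 380) (nat_lit 0) (XT.nd (nat_lit 78) (nat_lit 380) (nat_lit 0) (XT.lf (nat_lit 0) (nat_lit 8548267073) (nat_lit 228) (nat_lit 7466428355) (nat_lit 76) (nat_lit 265064907) (nat_lit 49) (nat_lit 5) (nat_lit 52) (nat_lit 5) (nat_lit 50) (nat_lit 5) (nat_lit 328) (nat_lit 303) (nat_lit 269)) (XT.nd (nat_lit 78) (nat_lit 228) (nat_lit 0) (XT.lf (nat_lit 0) (nat_lit 7527570617) (nat_lit 152) (nat_lit 7858843508) (nat_lit 228) (nat_lit 1717217917) (nat_lit 47) (nat_lit 5) (nat_lit 49) (nat_lit 5) (nat_lit 50) (nat_lit 5) (nat_lit 329) (nat_lit 303) (nat_lit 268)) (XT.lf (nat_lit 0) (nat_lit 4779172348) (nat_lit 228) (nat_lit 12033576241) (nat_lit 76) (nat_lit 1169277175) (nat_lit 44) (nat_lit 5) (nat_lit 47) (nat_lit 5) (nat_lit 45) (nat_lit 5) (nat_lit 330) (nat_lit 303) (nat_lit 267))))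 (XT.nd (nat_lit 78) (nat_lit 228) (nat_lit 0) (XT.lf (nat_lit 0) (nat_lit 3952911204) (nat_lit 152) (nat_lit 8060095149) (nat_lit 228) (nat_lit 6902417107) (nat_lit 42) (nat_lit 5) (nat_lit 44) (nat_lit 5) (nat_lit 45) (nat_lit 5) (nat_lit 331) (nat_lit 303) (nat_lit 266)) (XT.nd (nat_lit 78) (nat_lit 0) (nat_lit 0) (XT.lf (nat_lit 0) (nat_lit 84885453) (nat_lit 228) (nat_lit 18295305514) (nat_lit 76) (nat_lit 1534424332) (nat_lit 39) (nat_lit 5) (nat_lit 42) (nat_lit 5) (nat_lit 40) (nat_lit 5) (nat_lit 332) (nat_lit 303) (nat_lit 265)) (XT.lf (nat_lit 0) (nat_lit 7712857799) (nat_lit 228) (nat_lit 1312825680) (nat_lit 76) (nat_lit 11946254074) (nat_lit 39) (nat_lit 5) (nat_lit 42) (nat_lit 5) (nat_lit 40) (nat_lit 5) (nat_lit 333) (nat_lit 303) (nat_lit 264))))) (XT.nd (nat_lit 234) (nat_lit 380) (nat_lit 0) (XT.nd (nat_lit 78) (nat_lit 304) (nat_lit 0) (XT.lf (nat_lit 0) (nat_lit 16169553469)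 (nat_lit 228) (nat_lit 4664704200) (nat_lit 76) (nat_lit 1268689953) (nat_lit 37) (nat_lit 5) (nat_lit 40) (nat_lit 5) (nat_lit 38) (nat_lit 4) (nat_lit 334) (nat_lit 303) (nat_lit 263)) (XT.nd (nat_lit 78) (nat_lit 152) (nat_lit 0) (XT.lf (nat_lit 0) (nat_lit 2252126558) (nat_lit 152) (nat_lit 8740976840) (nat_lit 76) (nat_lit 12312958941) (nat_lit 35) (nat_lit 5) (nat_lit 37) (nat_lit 5) (nat_lit 36) (nat_lit 5) (nat_lit 335) (nat_lit 303) (nat_lit 262)) (XT.lf (nat_lit 0) (nat_lit 11028583587) (nat_lit 152) (nat_lit 44150490) (nat_lit 228) (nat_lit 13518444084) (nat_lit 33) (nat_lit 5) (nat_lit 35) (nat_lit 5) (nat_lit 36) (nat_lit 5) (nat_lit 336) (nat_lit 303) (nat_lit 261)))) (XT.nd (nat_lit 156) (nat_lit 76) (nat_lit 0) (XT.nd (nat_lit 78) (nat_lit 228) (nat_lit 0) (XT.lf (nat_lit 0) (nat_lit 6627291762) (nat_lit 76) (nat_lit 14346971750) (nat_lit 152) (nat_lit 4986095966) (nat_lit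 32) (nat_lit 5) (nat_lit 33) (nat_lit 5) (nat_lit 34) (nat_lit 4) (nat_lit 337) (nat_lit 303) (nat_lit 260)) (XT.lf (nat_lit 0) (nat_lit 1346113565) (nat_lit 152) (nat_lit 2944496068) (nat_lit 228) (nat_lit 23135326062) (nat_lit 29) (nat_lit 5) (nat_lit 31) (nat_lit 5) (nat_lit 32) (nat_lit 5) (nat_lit 338) (nat_lit 303) (nat_lit 259))) (XT.nd (nat_lit 78) (nat_lit 76) (nat_lit 0) (XT.lf (nat_lit 0) (nat_lit 14563220411) (nat_lit 228) (nat_lit 4970859311) (nat_lit 76) (nat_lit 9449184701) (nat_lit 29) (nat_lit 5) (nat_lit 32) (nat_lit 5) (nat_lit 30) (nat_lit 4) (nat_lit 339) (nat_lit 303) (nat_lit 258)) (XT.lf (nat_lit 0) (nat_lit 18256821292) (nat_lit 76) (nat_lit 7677672122) (nat_lit 152) (nat_lit 4716858410) (nat_lit 28) (nat_lit 5) (nat_lit 29) (nat_lit 5) (nat_lit 30) (nat_lit 4) (nat_lit 340) (nat_lit 303) (nat_lit 257))))))))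
noncomputable def xc53 : XT := (XT.nd (nat_lit 1950) (nat_lit 456) (nat_lit 0) (XT.nd (nat_lit 936) (nat_lit 532) (nat_lit 0) (XT.nd (nat_lit 468) (nat_lit 456) (nat_lit 0) (XT.nd (nat_lit 234) (nat_lit 228) (nat_lit 0) (XT.nd (nat_lit 78) (nat_lit 76) (nat_lit 0) (XT.lf (nat_lit 0) (nat_lit 5870702713) (nat_lit 228) (nat_lit 21285192133) (nat_lit 76) (nat_lit 5277878166) (nat_lit 25) (nat_lit 5) (nat_lit 28) (nat_lit 5) (nat_lit 26) (nat_lit 4) (nat_lit 341) (nat_lit 303) (nat_lit 256)) (XT.nd (nat_lit 78) (nat_lit 0) (nat_lit 0) (XT.lf (nat_lit 0) (nat_lit 2435615391) (nat_lit 76) (nat_lit 15039442660) (nat_lit 152) (nat_lit 16863123594) (nat_lit 24) (nat_lit 5) (nat_lit 25) (nat_lit 5) (nat_lit 26) (nat_lit 4) (nat_lit 342) (nat_lit 303) (nat_lit 255)) (XT.lf (nat_lit 0) (nat_lit 28718942674) (nat_lit 76) (nat_lit 1608018894) (nat_lit 152) (nat_lit 6052032785) (nat_lit 24) (nat_lit 5)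 (nat_lit 25) (nat_lit 5) (nat_lit 26) (nat_lit 4) (nat_lit 343) (nat_lit 303) (nat_lit 254)))) (XT.nd (nat_lit 78) (nat_lit 76) (nat_lit 0) (XT.lf (nat_lit 0) (nat_lit 5898290435) (nat_lit 152) (nat_lit 19822534369) (nat_lit 76) (nat_lit 12835149695) (nat_lit 22) (nat_lit 5) (nat_lit 24) (nat_lit 5) (nat_lit 23) (nat_lit 4) (nat_lit 344) (nat_lit 303) (nat_lit 253)) (XT.nd (nat_lit 78) (nat_lit 0) (nat_lit 0) (XT.lf (nat_lit 0) (nat_lit 6603928400) (nat_lit 76) (nat_lit 12210442169) (nat_lit 152) (nat_lit 22076702850) (nat_lit 21) (nat_lit 5) (nat_lit 22) (nat_lit 5) (nat_lit 23) (nat_lit 4) (nat_lit 345) (nat_lit 303) (nat_lit 252)) (XT.lf (nat_lit 0) (nat_lit 33106510585) (nat_lit 152) (nat_lit 7671607909) (nat_lit 0) (nat_lit 2617731682) (nat_lit 21) (nat_lit 5) (nat_lit 23) (nat_lit 4) (nat_lit 21) (nat_lit 4) (nat_lit 346) (nat_lit 303) (nat_lit 251))))) (XT.nd (nat_lit 234) (nat_lit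 228) (nat_lit 0) (XT.nd (nat_lit 78) (nat_lit 76) (nat_lit 0) (XT.lf (nat_lit 0) (nat_lit 2870250581) (nat_lit 152) (nat_lit 24646816869) (nat_lit 76) (nat_lit 18556675377) (nat_lit 19) (nat_lit 5) (nat_lit 21) (nat_lit 5) (nat_lit 20) (nat_lit 4) (nat_lit 347) (nat_lit 303) (nat_lit 250)) (XT.nd (nat_lit 78) (nat_lit 0) (nat_lit 0) (XT.lf (nat_lit 0) (nat_lit 4044867039) (nat_lit 76) (nat_lit 12840320434) (nat_lit 152) (nat_lit 32064099158) (nat_lit 18) (nat_lit 5) (nat_lit 19) (nat_lit 5) (nat_lit 20) (nat_lit 4) (nat_lit 348) (nat_lit 303) (nat_lit 249)) (XT.lf (nat_lit 0) (nat_lit 32465287503) (nat_lit 152) (nat_lit 16250506834) (nat_lit 0) (nat_lit 3316887693) (nat_lit 18) (nat_lit 5) (nat_lit 20) (nat_lit 4) (nat_lit 18) (nat_lit 4) (nat_lit 349) (nat_lit 303) (nat_lit 248)))) (XT.nd (nat_lit 78) (nat_lit 152) (nat_lit 0) (XT.lf (nat_lit 0) (nat_lit 14886144867) (nat_lit 76) (nat_lit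 34818090196) (nat_lit 76) (nat_lit 5637898041) (nat_lit 17) (nat_lit 4) (nat_lit 18) (nat_lit 5) (nat_lit 18) (nat_lit 4) (nat_lit 350) (nat_lit 303) (nat_lit 247)) (XT.nd (nat_lit 78) (nat_lit 76) (nat_lit 0) (XT.lf (nat_lit 0) (nat_lit 9357224803) (nat_lit 152) (nat_lit 10027318663) (nat_lit 76) (nat_lit 39511843631) (nat_lit 16) (nat_lit 5) (nat_lit 18) (nat_lit 5) (nat_lit 17) (nat_lit 4) (nat_lit 351) (nat_lit 303) (nat_lit 246)) (XT.lf (nat_lit 0) (nat_lit 23427758983) (nat_lit 76) (nat_lit 2262311897) (nat_lit 152) (nat_lit 37023512323) (nat_lit 15) (nat_lit 5) (nat_lit 16) (nat_lit 5) (nat_lit 17) (nat_lit 4) (nat_lit 352) (nat_lit 303) (nat_lit 245)))))) (XT.nd (nat_lit 468) (nat_lit 228) (nat_lit 0) (XT.nd (nat_lit 234) (nat_lit 152) (nat_lit 0) (XT.nd (nat_lit 78) (nat_lit 152) (nat_lit 0) (XT.lf (nat_lit 0) (nat_lit 43728737636) (nat_lit 152) (nat_lit 7227414255) (nat_lit 0)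 (nat_lit 15860048006) (nat_lit 15) (nat_lit 5) (nat_lit 17) (nat_lit 4) (nat_lit 15) (nat_lit 4) (nat_lit 353) (nat_lit 303) (nat_lit 244)) (XT.nd (nat_lit 78) (nat_lit 76) (nat_lit 0) (XT.lf (nat_lit 0) (nat_lit 28203684942) (nat_lit 76) (nat_lit 35455917567) (nat_lit 76) (nat_lit 7564972392) (nat_lit 14) (nat_lit 4) (nat_lit 15) (nat_lit 5) (nat_lit 15) (nat_lit 4) (nat_lit 354) (nat_lit 303) (nat_lit 243)) (XT.lf (nat_lit 0) (nat_lit 9004329861) (nat_lit 152) (nat_lit 9452675943) (nat_lit 76) (nat_lit 57516464019) (nat_lit 13) (nat_lit 5) (nat_lit 15) (nat_lit 5) (nat_lit 14) (nat_lit 4) (nat_lit 355) (nat_lit 303) (nat_lit 242)))) (XT.nd (nat_lit 78) (nat_lit 76) (nat_lit 0) (XT.lf (nat_lit 0) (nat_lit 27047889143) (nat_lit 152) (nat_lit 53580215641) (nat_lit 0) (nat_lit 447286568) (nat_lit 12) (nat_lit 5) (nat_lit 14) (nat_lit 4) (nat_lit 12) (nat_lit 4) (nat_lit 356) (nat_lit 303)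 (nat_lit 241)) (XT.nd (nat_lit 78) (nat_lit 76) (nat_lit 0) (XT.lf (nat_lit 0) (nat_lit 46987938281) (nat_lit 152) (nat_lit 19204371421) (nat_lit 0) (nat_lit 20370509831) (nat_lit 12) (nat_lit 5) (nat_lit 14) (nat_lit 4) (nat_lit 12) (nat_lit 4) (nat_lit 357) (nat_lit 303) (nat_lit 240)) (XT.lf (nat_lit 0) (nat_lit 18466636998) (nat_lit 76) (nat_lit 50321192001) (nat_lit 76) (nat_lit 23688184036) (nat_lit 11) (nat_lit 4) (nat_lit 12) (nat_lit 5) (nat_lit 12) (nat_lit 4) (nat_lit 358) (nat_lit 303) (nat_lit 239))))) (XT.nd (nat_lit 234) (nat_lit 76) (nat_lit 0) (XT.nd (nat_lit 78) (nat_lit 152) (nat_lit 0) (XT.lf (nat_lit 0) (nat_lit 59793153928) (nat_lit 76) (nat_lit 32850474201) (nat_lit 76) (nat_lit 6203040760) (nat_lit 11) (nat_lit 4) (nat_lit 12) (nat_lit 5) (nat_lit 12) (nat_lit 4) (nat_lit 359) (nat_lit 303) (nat_lit 238)) (XT.nd (nat_lit 78) (nat_lit 76) (nat_lit 0) (XT.lf (nat_lit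 0) (nat_lit 12253764134) (nat_lit 152) (nat_lit 1540573887) (nat_lit 76) (nat_lit 91923806438) (nat_lit 10) (nat_lit 5) (nat_lit 12) (nat_lit 5) (nat_lit 11) (nat_lit 4) (nat_lit 360) (nat_lit 303) (nat_lit 237)) (XT.lf (nat_lit 0) (nat_lit 32696931338) (nat_lit 152) (nat_lit 73107043566) (nat_lit 0) (nat_lit 7293923829) (nat_lit 9) (nat_lit 5) (nat_lit 11) (nat_lit 4) (nat_lit 9) (nat_lit 4) (nat_lit 361) (nat_lit 303) (nat_lit 236)))) (XT.nd (nat_lit 156) (nat_lit 0) (nat_lit 0) (XT.nd (nat_lit 78) (nat_lit 76) (nat_lit 0) (XT.lf (nat_lit 0) (nat_lit 55016328737) (nat_lit 152) (nat_lit 36437252709) (nat_lit 0) (nat_lit 29602415125) (nat_lit 9) (nat_lit 5) (nat_lit 11) (nat_lit 4) (nat_lit 9) (nat_lit 4) (nat_lit 362) (nat_lit 303) (nat_lit 235)) (XT.lf (nat_lit 0) (nat_lit 3235094815) (nat_lit 76) (nat_lit 75919009924) (nat_lit 76) (nat_lit 50494998069) (nat_lit 8) (nat_lit 4) (nat_lit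 9) (nat_lit 5) (nat_lit 9) (nat_lit 4) (nat_lit 363) (nat_lit 303) (nat_lit 234))) (XT.nd (nat_lit 78) (nat_lit 0) (nat_lit 0) (XT.lf (nat_lit 0) (nat_lit 47349325206) (nat_lit 76) (nat_lit 58491402473) (nat_lit 76) (nat_lit 33058040392) (nat_lit 8) (nat_lit 4) (nat_lit 9) (nat_lit 5) (nat_lit 9) (nat_lit 4) (nat_lit 364) (nat_lit 303) (nat_lit 233)) (XT.lf (nat_lit 0) (nat_lit 94962075995) (nat_lit 76) (nat_lit 39684566887) (nat_lit 76) (nat_lit 14242547189) (nat_lit 8) (nat_lit 4) (nat_lit 9) (nat_lit 5) (nat_lit 9) (nat_lit 4) (nat_lit 365) (nat_lit 303) (nat_lit 232))))))) (XT.nd (nat_lit 936) (nat_lit 76) (nat_lit 0) (XT.nd (nat_lit 468) (nat_lit 152) (nat_lit 0) (XT.nd (nat_lit 234) (nat_lit 76) (nat_lit 0) (XT.nd (nat_lit 78) (nat_lit 76) (nat_lit 0) (XT.lf (nat_lit 0) (nat_lit 5868927508) (nat_lit 152) (nat_lit 13418734616) (nat_lit 76) (nat_lit 140387176182) (nat_lit 7) (nat_lit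 5) (nat_lit 9) (nat_lit 5) (nat_lit 8) (nat_lit 4) (nat_lit 366) (nat_lit 303) (nat_lit 231)) (XT.nd (nat_lit 78) (nat_lit 0) (nat_lit 0) (XT.lf (nat_lit 0) (nat_lit 27622744885) (nat_lit 152) (nat_lit 140284753628) (nat_lit 0) (nat_lit 3377546295) (nat_lit 6) (nat_lit 5) (nat_lit 8) (nat_lit 4) (nat_lit 6) (nat_lit 4) (nat_lit 367) (nat_lit 303) (nat_lit 230)) (XT.lf (nat_lit 0) (nat_lit 51666457780) (nat_lit 152) (nat_lit 104715418017) (nat_lit 0) (nat_lit 27414713767) (nat_lit 6) (nat_lit 5) (nat_lit 8) (nat_lit 4) (nat_lit 6) (nat_lit 4) (nat_lit 368) (nat_lit 303) (nat_lit 229)))) (XT.nd (nat_lit 78) (nat_lit 76) (nat_lit 0) (XT.lf (nat_lit 0) (nat_lit 77621433739) (nat_lit 152) (nat_lit 66324607859) (nat_lit 0) (nat_lit 53363629148) (nat_lit 6) (nat_lit 5) (nat_lit 8) (nat_lit 4) (nat_lit 6) (nat_lit 4) (nat_lit 369) (nat_lit 303) (nat_lit 228)) (XT.nd (nat_lit 78) (nat_lit 76) (nat_lit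 0) (XT.lf (nat_lit 0) (nat_lit 105641480027) (nat_lit 152) (nat_lit 24884822055) (nat_lit 0) (nat_lit 81378063790) (nat_lit 6) (nat_lit 5) (nat_lit 8) (nat_lit 4) (nat_lit 6) (nat_lit 4) (nat_lit 370) (nat_lit 303) (nat_lit 227)) (XT.lf (nat_lit 0) (nat_lit 20505822887) (nat_lit 76) (nat_lit 115706971837) (nat_lit 76) (nat_lit 91438359632) (nat_lit 5) (nat_lit 4) (nat_lit 6) (nat_lit 5) (nat_lit 6) (nat_lit 4) (nat_lit 371) (nat_lit 303) (nat_lit 226))))) (XT.nd (nat_lit 234) (nat_lit 152) (nat_lit 0) (XT.nd (nat_lit 78) (nat_lit 0) (nat_lit 0) (XT.lf (nat_lit 0) (nat_lit 70396607184) (nat_lit 76) (nat_lit 99256665026) (nat_lit 76) (nat_lit 74983241739) (nat_lit 5) (nat_lit 4) (nat_lit 6) (nat_lit 5) (nat_lit 6) (nat_lit 4) (nat_lit 372) (nat_lit 303) (nat_lit 225)) (XT.nd (nat_lit 78) (nat_lit 0) (nat_lit 0) (XT.lf (nat_lit 0) (nat_lit 124260375326) (nat_lit 76) (nat_lit 81499334852) (nat_lit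 76) (nat_lit 57221456860) (nat_lit 5) (nat_lit 4) (nat_lit 6) (nat_lit 5) (nat_lit 6) (nat_lit 4) (nat_lit 373) (nat_lit 303) (nat_lit 224)) (XT.lf (nat_lit 0) (nat_lit 182416320013) (nat_lit 76) (nat_lit 62329752693) (nat_lit 76) (nat_lit 38047749973) (nat_lit 5) (nat_lit 4) (nat_lit 6) (nat_lit 5) (nat_lit 6) (nat_lit 4) (nat_lit 374) (nat_lit 303) (nat_lit 223)))) (XT.nd (nat_lit 78) (nat_lit 152) (nat_lit 0) (XT.lf (nat_lit 0) (nat_lit 245209069066) (nat_lit 76) (nat_lit 41634321024) (nat_lit 76) (nat_lit 17348499112) (nat_lit 5) (nat_lit 4) (nat_lit 6) (nat_lit 5) (nat_lit 6) (nat_lit 4) (nat_lit 375) (nat_lit 303) (nat_lit 222)) (XT.nd (nat_lit 78) (nat_lit 76) (nat_lit 0) (XT.lf (nat_lit 0) (nat_lit 4838960076) (nat_lit 152) (nat_lit 14369490043) (nat_lit 76) (nat_lit 308089817457) (nat_lit 4) (nat_lit 5) (nat_lit 6) (nat_lit 5) (nat_lit 5) (nat_lit 4) (nat_lit 376) (nat_lit 303)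 (nat_lit 221)) (XT.lf (nat_lit 0) (nat_lit 28827027270) (nat_lit 152) (nat_lit 317689051798) (nat_lit 0) (nat_lit 5691186754) (nat_lit 3) (nat_lit 5) (nat_lit 5) (nat_lit 4) (nat_lit 3) (nat_lit 4) (nat_lit 377) (nat_lit 303) (nat_lit 220)))))) (XT.nd (nat_lit 468) (nat_lit 76) (nat_lit 0) (XT.nd (nat_lit 234) (nat_lit 0) (nat_lit 0) (XT.nd (nat_lit 78) (nat_lit 0) (nat_lit 0) (XT.lf (nat_lit 0) (nat_lit 55305716944) (nat_lit 152) (nat_lit 291607699671) (nat_lit 0) (nat_lit 32166989002) (nat_lit 3) (nat_lit 5) (nat_lit 5) (nat_lit 4) (nat_lit 3) (nat_lit 4) (nat_lit 378) (nat_lit 303) (nat_lit 219)) (XT.nd (nat_lit 78) (nat_lit 0) (nat_lit 0) (XT.lf (nat_lit 0) (nat_lit 83896476705) (nat_lit 152) (nat_lit 263452156433) (nat_lit 0) (nat_lit 60755075220) (nat_lit 3) (nat_lit 5) (nat_lit 5) (nat_lit 4) (nat_lit 3) (nat_lit 4) (nat_lit 379) (nat_lit 303) (nat_lit 218)) (XT.lf (nat_lit 0) (nat_lit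 114768733275) (nat_lit 152) (nat_lit 233055574420) (nat_lit 0) (nat_lit 91624856288) (nat_lit 3) (nat_lit 5) (nat_lit 5) (nat_lit 4) (nat_lit 3) (nat_lit 4) (nat_lit 380) (nat_lit 303) (nat_lit 217)))) (XT.nd (nat_lit 78) (nat_lit 0) (nat_lit 0) (XT.lf (nat_lit 0) (nat_lit 148105433362) (nat_lit 152) (nat_lit 200237825739) (nat_lit 0) (nat_lit 124959264242) (nat_lit 3) (nat_lit 5) (nat_lit 5) (nat_lit 4) (nat_lit 3) (nat_lit 4) (nat_lit 381) (nat_lit 303) (nat_lit 216)) (XT.nd (nat_lit 78) (nat_lit 0) (nat_lit 0) (XT.lf (nat_lit 0) (nat_lit 184104127780) (nat_lit 152) (nat_lit 164804434842) (nat_lit 0) (nat_lit 160955836316) (nat_lit 3) (nat_lit 5) (nat_lit 5) (nat_lit 4) (nat_lit 3) (nat_lit 4) (nat_lit 382) (nat_lit 303) (nat_lit 215)) (XT.lf (nat_lit 0) (nat_lit 222978142126) (nat_lit 152) (nat_lit 126545426080) (nat_lit 0) (nat_lit 199827885528) (nat_lit 3) (nat_lit 5) (nat_lit 5) (nat_lit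 4) (nat_lit 3) (nat_lit 4) (nat_lit 383) (nat_lit 303) (nat_lit 214))))) (XT.nd (nat_lit 234) (nat_lit 0) (nat_lit 0) (XT.nd (nat_lit 78) (nat_lit 76) (nat_lit 0) (XT.lf (nat_lit 0) (nat_lit 264957840929) (nat_lit 152) (nat_lit 85234079400) (nat_lit 0) (nat_lit 241805764763) (nat_lit 3) (nat_lit 5) (nat_lit 5) (nat_lit 4) (nat_lit 3) (nat_lit 4) (nat_lit 384) (nat_lit 303) (nat_lit 213)) (XT.nd (nat_lit 78) (nat_lit 76) (nat_lit 0) (XT.lf (nat_lit 0) (nat_lit 310291992775) (nat_lit 152) (nat_lit 40625586822) (nat_lit 0) (nat_lit 287138231823) (nat_lit 3) (nat_lit 5) (nat_lit 5) (nat_lit 4) (nat_lit 3) (nat_lit 4) (nat_lit 385) (nat_lit 303) (nat_lit 212)) (XT.lf (nat_lit 0) (nat_lit 7793850153) (nat_lit 76) (nat_lit 351577078179) (nat_lit 76) (nat_lit 328421757241) (nat_lit 2) (nat_lit 4) (nat_lit 3) (nat_lit 5) (nat_lit 3) (nat_lit 4) (nat_lit 386) (nat_lit 303) (nat_lit 211)))) (XT.nd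 (nat_lit 156) (nat_lit 0) (nat_lit 0) (XT.nd (nat_lit 78) (nat_lit 0) (nat_lit 0) (XT.lf (nat_lit 0) (nat_lit 61530694136) (nat_lit 76) (nat_lit 351549685559) (nat_lit 76) (nat_lit 328392920188) (nat_lit 2) (nat_lit 4) (nat_lit 3) (nat_lit 5) (nat_lit 3) (nat_lit 4) (nat_lit 387) (nat_lit 303) (nat_lit 210)) (XT.lf (nat_lit 0) (nat_lit 119560120311) (nat_lit 76) (nat_lit 351523253381) (nat_lit 76) (nat_lit 328365150573) (nat_lit 2) (nat_lit 4) (nat_lit 3) (nat_lit 5) (nat_lit 3) (nat_lit 4) (nat_lit 388) (nat_lit 303) (nat_lit 209))) (XT.nd (nat_lit 78) (nat_lit 0) (nat_lit 0) (XT.lf (nat_lit 0) (nat_lit 182226006759) (nat_lit 76) (nat_lit 351497625010) (nat_lit 76) (nat_lit 328338283834) (nat_lit 2) (nat_lit 4) (nat_lit 3) (nat_lit 5) (nat_lit 3) (nat_lit 4) (nat_lit 389) (nat_lit 303) (nat_lit 208)) (XT.lf (nat_lit 0) (nat_lit 249899706882) (nat_lit 76) (nat_lit 351472648574) (nat_lit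 76) (nat_lit 328312160762) (nat_lit 2) (nat_lit 4) (nat_lit 3) (nat_lit 5) (nat_lit 3) (nat_lit 4) (nat_lit 390) (nat_lit 303) (nat_lit 207))))))))
noncomputable def xc54 : XT := (XT.nd (nat_lit 41652) (nat_lit 0) (nat_lit 1292) (XT.nd (nat_lit 40638) (nat_lit 0) (nat_lit 4712) (XT.nd (nat_lit 40170) (nat_lit 0) (nat_lit 9728) (XT.nd (nat_lit 234) (nat_lit 0) (nat_lit 0) (XT.nd (nat_lit 78) (nat_lit 0) (nat_lit 0) (XT.lf (nat_lit 0) (nat_lit 322982250013) (nat_lit 76) (nat_lit 351448176065) (nat_lit 76) (nat_lit 328286626552) (nat_lit 2) (nat_lit 4) (nat_lit 3) (nat_lit 5) (nat_lit 3) (nat_lit 4) (nat_lit 391) (nat_lit 303) (nat_lit 206)) (XT.nd (nat_lit 78) (nat_lit 0) (nat_lit 0) (XT.lf (nat_lit 0) (nat_lit 401906717890) (nat_lit 76) (nat_lit 351424062460) (nat_lit 76) (nat_lit 328261529891) (nat_lit 2) (nat_lit 4) (nat_lit 3) (nat_lit 5) (nat_lit 3) (nat_lit 4) (nat_lit 392) (nat_lit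 303) (nat_lit 205)) (XT.lf (nat_lit 0) (nat_lit 487140811063) (nat_lit 76) (nat_lit 351400164865) (nat_lit 76) (nat_lit 328236722058) (nat_lit 2) (nat_lit 4) (nat_lit 3) (nat_lit 5) (nat_lit 3) (nat_lit 4) (nat_lit 393) (nat_lit 303) (nat_lit 204)))) (XT.nd (nat_lit 78) (nat_lit 0) (nat_lit 0) (XT.lf (nat_lit 0) (nat_lit 579189620454) (nat_lit 76) (nat_lit 351376341663) (nat_lit 76) (nat_lit 328212056044) (nat_lit 2) (nat_lit 4) (nat_lit 3) (nat_lit 5) (nat_lit 3) (nat_lit 4) (nat_lit 394) (nat_lit 303) (nat_lit 203)) (XT.nd (nat_lit 39780) (nat_lit 0) (nat_lit 11172) (XT.lf (nat_lit 0) (nat_lit 678598620490) (nat_lit 76) (nat_lit 351352451680) (nat_lit 76) (nat_lit 328187385680) (nat_lit 2) (nat_lit 4) (nat_lit 3) (nat_lit 5) (nat_lit 3) (nat_lit 4) (nat_lit 395) (nat_lit 303) (nat_lit 202)) (XT.lf (nat_lit 0) (nat_lit 1289382153) (nat_lit 0) (nat_lit 1289382153) (nat_lit 380) (nat_lit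 873832693) (nat_lit 149) (nat_lit 5) (nat_lit 149) (nat_lit 3) (nat_lit 154) (nat_lit 3) (nat_lit 304) (nat_lit 304) (nat_lit 292))))) (XT.nd (nat_lit 234) (nat_lit 912) (nat_lit 0) (XT.nd (nat_lit 78) (nat_lit 0) (nat_lit 76) (XT.lf (nat_lit 76) (nat_lit 1028984872) (nat_lit 0) (nat_lit 162545409) (nat_lit 532) (nat_lit 5840321807) (nat_lit 143) (nat_lit 5) (nat_lit 142) (nat_lit 3) (nat_lit 149) (nat_lit 5) (nat_lit 305) (nat_lit 304) (nat_lit 291)) (XT.nd (nat_lit 78) (nat_lit 0) (nat_lit 0) (XT.lf (nat_lit 0) (nat_lit 4126271127) (nat_lit 456) (nat_lit 443165622) (nat_lit 532) (nat_lit 2607033975) (nat_lit 143) (nat_lit 5) (nat_lit 149) (nat_lit 5) (nat_lit 150) (nat_lit 5) (nat_lit 306) (nat_lit 304) (nat_lit 290)) (XT.lf (nat_lit 76) (nat_lit 5573331765) (nat_lit 0) (nat_lit 1540009567) (nat_lit 532) (nat_lit 228757028) (nat_lit 144) (nat_lit 5) (nat_lit 143) (nat_lit 5) (nat_lit 150)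 (nat_lit 5) (nat_lit 307) (nat_lit 304) (nat_lit 289)))) (XT.nd (nat_lit 78) (nat_lit 532) (nat_lit 0) (XT.lf (nat_lit 0) (nat_lit 2577872133) (nat_lit 532) (nat_lit 3057636119) (nat_lit 608) (nat_lit 1891063473) (nat_lit 137) (nat_lit 5) (nat_lit 144) (nat_lit 5) (nat_lit 145) (nat_lit 5) (nat_lit 308) (nat_lit 304) (nat_lit 288)) (XT.nd (nat_lit 78) (nat_lit 532) (nat_lit 0) (XT.lf (nat_lit 76) (nat_lit 3452889514) (nat_lit 0) (nat_lit 2018509003) (nat_lit 608) (nat_lit 2260956712) (nat_lit 138) (nat_lit 5) (nat_lit 137) (nat_lit 5) (nat_lit 145) (nat_lit 5) (nat_lit 309) (nat_lit 304) (nat_lit 287)) (XT.lf (nat_lit 0) (nat_lit 517553066) (nat_lit 608) (nat_lit 5453490086) (nat_lit 76) (nat_lit 1988471038) (nat_lit 130) (nat_lit 5) (nat_lit 138) (nat_lit 5) (nat_lit 131) (nat_lit 5) (nat_lit 310) (nat_lit 304) (nat_lit 286)))))) (XT.nd (nat_lit 468) (nat_lit 2128) (nat_lit 0) (XT.nd (nat_lit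 234) (nat_lit 1520) (nat_lit 0) (XT.nd (nat_lit 78) (nat_lit 760) (nat_lit 0) (XT.lf (nat_lit 0) (nat_lit 1586994101) (nat_lit 608) (nat_lit 1773427208) (nat_lit 684) (nat_lit 4846718138) (nat_lit 122) (nat_lit 5) (nat_lit 130) (nat_lit 5) (nat_lit 131) (nat_lit 5) (nat_lit 311) (nat_lit 304) (nat_lit 285)) (XT.nd (nat_lit 78) (nat_lit 76) (nat_lit 0) (XT.lf (nat_lit 0) (nat_lit 714290601) (nat_lit 684) (nat_lit 5666622847) (nat_lit 760) (nat_lit 2096347251) (nat_lit 113) (nat_lit 5) (nat_lit 122) (nat_lit 5) (nat_lit 123) (nat_lit 5) (nat_lit 312) (nat_lit 304) (nat_lit 284)) (XT.lf (nat_lit 0) (nat_lit 801501516) (nat_lit 760) (nat_lit 115045520) (nat_lit 76) (nat_lit 7854163697) (nat_lit 112) (nat_lit 5) (nat_lit 122) (nat_lit 5) (nat_lit 113) (nat_lit 5) (nat_lit 313) (nat_lit 304) (nat_lit 283)))) (XT.nd (nat_lit 78) (nat_lit 760) (nat_lit 0) (XT.lf (nat_lit 0) (nat_lit 3878017637)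 (nat_lit 836) (nat_lit 950176347) (nat_lit 76) (nat_lit 4256869995) (nat_lit 102) (nat_lit 5) (nat_lit 113) (nat_lit 5) (nat_lit 103) (nat_lit 5) (nat_lit 314) (nat_lit 304) (nat_lit 282)) (XT.nd (nat_lit 78) (nat_lit 380) (nat_lit 0) (XT.lf (nat_lit 0) (nat_lit 7179590172) (nat_lit 456) (nat_lit 1745704219) (nat_lit 76) (nat_lit 500472288) (nat_lit 97) (nat_lit 5) (nat_lit 103) (nat_lit 5) (nat_lit 98) (nat_lit 5) (nat_lit 315) (nat_lit 304) (nat_lit 281)) (XT.lf (nat_lit 0) (nat_lit 976037702) (nat_lit 380) (nat_lit 2582828077) (nat_lit 76) (nat_lit 6231500921) (nat_lit 92) (nat_lit 5) (nat_lit 97) (nat_lit 5) (nat_lit 93) (nat_lit 5) (nat_lit 316) (nat_lit 304) (nat_lit 280))))) (XT.nd (nat_lit 234) (nat_lit 1064) (nat_lit 0) (XT.nd (nat_lit 78) (nat_lit 684) (nat_lit 0) (XT.lf (nat_lit 0) (nat_lit 4402275420) (nat_lit 456) (nat_lit 3450562026) (nat_lit 76) (nat_lit 2328329880) (nat_lit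 87) (nat_lit 5) (nat_lit 93) (nat_lit 5) (nat_lit 88) (nat_lit 5) (nat_lit 317) (nat_lit 304) (nat_lit 279)) (XT.nd (nat_lit 78) (nat_lit 380) (nat_lit 0) (XT.lf (nat_lit 0) (nat_lit 6255011160) (nat_lit 304) (nat_lit 1909138428) (nat_lit 380) (nat_lit 2436117399) (nat_lit 83) (nat_lit 5) (nat_lit 87) (nat_lit 5) (nat_lit 88) (nat_lit 5) (nat_lit 318) (nat_lit 304) (nat_lit 278)) (XT.lf (nat_lit 0) (nat_lit 1225071502) (nat_lit 380) (nat_lit 5309169273) (nat_lit 76) (nat_lit 4513407438) (nat_lit 78) (nat_lit 5) (nat_lit 83) (nat_lit 5) (nat_lit 79) (nat_lit 5) (nat_lit 319) (nat_lit 304) (nat_lit 277)))) (XT.nd (nat_lit 156) (nat_lit 532) (nat_lit 0) (XT.nd (nat_lit 78) (nat_lit 304) (nat_lit 0) (XT.lf (nat_lit 0) (nat_lit 5156679687) (nat_lit 304) (nat_lit 6339006679) (nat_lit 76) (nat_lit 30084391) (nat_lit 75) (nat_lit 5) (nat_lit 79) (nat_lit 5) (nat_lit 76) (nat_lit 5) (nat_lit 320)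 (nat_lit 304) (nat_lit 276)) (XT.lf (nat_lit 0) (nat_lit 4548383131) (nat_lit 304) (nat_lit 5007388400) (nat_lit 380) (nat_lit 2478808391) (nat_lit 71) (nat_lit 5) (nat_lit 75) (nat_lit 5) (nat_lit 76) (nat_lit 5) (nat_lit 321) (nat_lit 304) (nat_lit 275))) (XT.nd (nat_lit 78) (nat_lit 228) (nat_lit 0) (XT.lf (nat_lit 0) (nat_lit 1756927207) (nat_lit 304) (nat_lit 8720421233) (nat_lit 76) (nat_lit 2101006779) (nat_lit 67) (nat_lit 5) (nat_lit 71) (nat_lit 5) (nat_lit 68) (nat_lit 5) (nat_lit 322) (nat_lit 304) (nat_lit 274)) (XT.lf (nat_lit 0) (nat_lit 3031315783) (nat_lit 228) (nat_lit 3367039546) (nat_lit 304) (nat_lit 6757630499) (nat_lit 64) (nat_lit 5) (nat_lit 67) (nat_lit 5) (nat_lit 68) (nat_lit 5) (nat_lit 323) (nat_lit 304) (nat_lit 273))))))) (XT.nd (nat_lit 936) (nat_lit 1368) (nat_lit 0) (XT.nd (nat_lit 468) (nat_lit 912) (nat_lit 0) (XT.nd (nat_lit 234) (nat_lit 608) (nat_lit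 0) (XT.nd (nat_lit 78) (nat_lit 304) (nat_lit 0) (XT.lf (nat_lit 0) (nat_lit 2106886218) (nat_lit 228) (nat_lit 9452337065) (nat_lit 304) (nat_lit 2213261258) (nat_lit 61) (nat_lit 5) (nat_lit 64) (nat_lit 5) (nat_lit 65) (nat_lit 5) (nat_lit 324) (nat_lit 304) (nat_lit 272)) (XT.nd (nat_lit 78) (nat_lit 0) (nat_lit 0) (XT.lf (nat_lit 0) (nat_lit 1030380583) (nat_lit 228) (nat_lit 1727552430) (nat_lit 304) (nat_lit 11670846892) (nat_lit 57) (nat_lit 5) (nat_lit 60) (nat_lit 5) (nat_lit 61) (nat_lit 5) (nat_lit 325) (nat_lit 304) (nat_lit 271)) (XT.lf (nat_lit 0) (nat_lit 8262182249) (nat_lit 304) (nat_lit 260310357) (nat_lit 76) (nat_lit 6602679282) (nat_lit 57) (nat_lit 5) (nat_lit 61) (nat_lit 5) (nat_lit 58) (nat_lit 5) (nat_lit 326) (nat_lit 304) (nat_lit 270)))) (XT.nd (nat_lit 78) (nat_lit 456) (nat_lit 0) (XT.lf (nat_lit 0) (nat_lit 14218124596) (nat_lit 152) (nat_lit 149061427) (nat_lit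 228) (nat_lit 1502116814) (nat_lit 55) (nat_lit 5) (nat_lit 57) (nat_lit 5) (nat_lit 58) (nat_lit 5) (nat_lit 327) (nat_lit 304) (nat_lit 269)) (XT.nd (nat_lit 78) (nat_lit 152) (nat_lit 0) (XT.lf (nat_lit 0) (nat_lit 4419807578) (nat_lit 304) (nat_lit 3385806185) (nat_lit 76) (nat_lit 8850575404) (nat_lit 51) (nat_lit 5) (nat_lit 55) (nat_lit 5) (nat_lit 52) (nat_lit 5) (nat_lit 328) (nat_lit 304) (nat_lit 268)) (XT.lf (nat_lit 0) (nat_lit 10921426791) (nat_lit 228) (nat_lit 5347772228) (nat_lit 76) (nat_lit 1227707223) (nat_lit 49) (nat_lit 5) (nat_lit 52) (nat_lit 5) (nat_lit 50) (nat_lit 5) (nat_lit 329) (nat_lit 304) (nat_lit 267))))) (XT.nd (nat_lit 234) (nat_lit 380) (nat_lit 0) (XT.nd (nat_lit 78) (nat_lit 380) (nat_lit 0) (XT.lf (nat_lit 0) (nat_lit 10727713898) (nat_lit 152) (nat_lit 7494339585) (nat_lit 228) (nat_lit 168919847) (nat_lit 47) (nat_lit 5) (nat_lit 49) (nat_lit 5)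 (nat_lit 50) (nat_lit 5) (nat_lit 330) (nat_lit 304) (nat_lit 266)) (XT.nd (nat_lit 78) (nat_lit 152) (nat_lit 0) (XT.lf (nat_lit 0) (nat_lit 6727382388) (nat_lit 228) (nat_lit 10396225845) (nat_lit 76) (nat_lit 2218057064) (nat_lit 44) (nat_lit 5) (nat_lit 47) (nat_lit 5) (nat_lit 45) (nat_lit 5) (nat_lit 331) (nat_lit 304) (nat_lit 265)) (XT.lf (nat_lit 0) (nat_lit 6756186179) (nat_lit 152) (nat_lit 7706575798) (nat_lit 228) (nat_lit 5890877460) (nat_lit 42) (nat_lit 5) (nat_lit 44) (nat_lit 5) (nat_lit 45) (nat_lit 5) (nat_lit 332) (nat_lit 304) (nat_lit 264)))) (XT.nd (nat_lit 78) (nat_lit 152) (nat_lit 0) (XT.lf (nat_lit 0) (nat_lit 1546557269) (nat_lit 228) (nat_lit 17274504996) (nat_lit 76) (nat_lit 2613464856) (nat_lit 39) (nat_lit 5) (nat_lit 42) (nat_lit 5) (nat_lit 40) (nat_lit 5) (nat_lit 333) (nat_lit 304) (nat_lit 263)) (XT.nd (nat_lit 78) (nat_lit 0) (nat_lit 0) (XT.lf (nat_lit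 0) (nat_lit 911722562) (nat_lit 152) (nat_lit 8779510423) (nat_lit 228) (nat_lit 12889916916) (nat_lit 37) (nat_lit 5) (nat_lit 39) (nat_lit 5) (nat_lit 40) (nat_lit 5) (nat_lit 334) (nat_lit 304) (nat_lit 262)) (XT.lf (nat_lit 0) (nat_lit 18759142544) (nat_lit 228) (nat_lit 2787279313) (nat_lit 76) (nat_lit 2259520216) (nat_lit 37) (nat_lit 5) (nat_lit 40) (nat_lit 5) (nat_lit 38) (nat_lit 4) (nat_lit 335) (nat_lit 304) (nat_lit 261)))))) (XT.nd (nat_lit 468) (nat_lit 684) (nat_lit 0) (XT.nd (nat_lit 234) (nat_lit 304) (nat_lit 0) (XT.nd (nat_lit 78) (nat_lit 228) (nat_lit 0) (XT.lf (nat_lit 0) (nat_lit 3686548757) (nat_lit 152) (nat_lit 7245602801) (nat_lit 76) (nat_lit 14175295053) (nat_lit 35) (nat_lit 5) (nat_lit 37) (nat_lit 5) (nat_lit 36) (nat_lit 5) (nat_lit 336) (nat_lit 304) (nat_lit 260)) (XT.nd (nat_lit 78) (nat_lit 76) (nat_lit 0) (XT.lf (nat_lit 0) (nat_lit 13166060440) (nat_lit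 228) (nat_lit 12501649049) (nat_lit 76) (nat_lit 830028182) (nat_lit 33) (nat_lit 5) (nat_lit 36) (nat_lit 5) (nat_lit 34) (nat_lit 4) (nat_lit 337) (nat_lit 304) (nat_lit 259)) (XT.lf (nat_lit 0) (nat_lit 9209455584) (nat_lit 76) (nat_lit 14593538113) (nat_lit 152) (nat_lit 4176322341) (nat_lit 32) (nat_lit 5) (nat_lit 33) (nat_lit 5) (nat_lit 34) (nat_lit 4) (nat_lit 338) (nat_lit 304) (nat_lit 258)))) (XT.nd (nat_lit 78) (nat_lit 76) (nat_lit 0) (XT.lf (nat_lit 0) (nat_lit 3453913206) (nat_lit 152) (nat_lit 2294484187) (nat_lit 228) (nat_lit 23815592782) (nat_lit 29) (nat_lit 5) (nat_lit 31) (nat_lit 5) (nat_lit 32) (nat_lit 5) (nat_lit 339) (nat_lit 304) (nat_lit 257)) (XT.nd (nat_lit 78) (nat_lit 76) (nat_lit 0) (XT.lf (nat_lit 0) (nat_lit 16773060678) (nat_lit 228) (nat_lit 3477505208) (nat_lit 76) (nat_lit 10998848871) (nat_lit 29) (nat_lit 5) (nat_lit 32) (nat_lit 5) (nat_lit 30)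 (nat_lit 4) (nat_lit 340) (nat_lit 304) (nat_lit 256)) (XT.lf (nat_lit 0) (nat_lit 21526208295) (nat_lit 76) (nat_lit 7478677002) (nat_lit 152) (nat_lit 4048541489) (nat_lit 28) (nat_lit 5) (nat_lit 29) (nat_lit 5) (nat_lit 30) (nat_lit 4) (nat_lit 341) (nat_lit 304) (nat_lit 255))))) (XT.nd (nat_lit 234) (nat_lit 380) (nat_lit 0) (XT.nd (nat_lit 78) (nat_lit 76) (nat_lit 0) (XT.lf (nat_lit 0) (nat_lit 7317551140) (nat_lit 228) (nat_lit 21189529911) (nat_lit 76) (nat_lit 6472312355) (nat_lit 25) (nat_lit 5) (nat_lit 28) (nat_lit 5) (nat_lit 26) (nat_lit 4) (nat_lit 342) (nat_lit 304) (nat_lit 254)) (XT.nd (nat_lit 78) (nat_lit 0) (nat_lit 0) (XT.lf (nat_lit 0) (nat_lit 4350782571) (nat_lit 76) (nat_lit 15453946711) (nat_lit 152) (nat_lit 17233718161) (nat_lit 24) (nat_lit 5) (nat_lit 25) (nat_lit 5) (nat_lit 26) (nat_lit 4) (nat_lit 343) (nat_lit 304) (nat_lit 253)) (XT.lf (nat_lit 0) (nat_lit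 32609345078) (nat_lit 76) (nat_lit 1006427662) (nat_lit 152) (nat_lit 5630218258) (nat_lit 24) (nat_lit 5) (nat_lit 25) (nat_lit 5) (nat_lit 26) (nat_lit 4) (nat_lit 344) (nat_lit 304) (nat_lit 252)))) (XT.nd (nat_lit 156) (nat_lit 152) (nat_lit 0) (XT.nd (nat_lit 78) (nat_lit 76) (nat_lit 0) (XT.lf (nat_lit 0) (nat_lit 7217565072) (nat_lit 152) (nat_lit 19825953457) (nat_lit 76) (nat_lit 14554395643) (nat_lit 22) (nat_lit 5) (nat_lit 24) (nat_lit 5) (nat_lit 23) (nat_lit 4) (nat_lit 345) (nat_lit 304) (nat_lit 251)) (XT.lf (nat_lit 0) (nat_lit 8645857868) (nat_lit 76) (nat_lit 12481934310) (nat_lit 152) (nat_lit 22993998224) (nat_lit 21) (nat_lit 5) (nat_lit 22) (nat_lit 5) (nat_lit 23) (nat_lit 4) (nat_lit 346) (nat_lit 304) (nat_lit 250))) (XT.nd (nat_lit 78) (nat_lit 152) (nat_lit 0) (XT.lf (nat_lit 0) (nat_lit 36513628050) (nat_lit 152) (nat_lit 6856473855) (nat_lit 0) (nat_lit 3459342665)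 (nat_lit 21) (nat_lit 5) (nat_lit 23) (nat_lit 4) (nat_lit 21) (nat_lit 4) (nat_lit 347) (nat_lit 304) (nat_lit 249)) (XT.lf (nat_lit 0) (nat_lit 3835607474) (nat_lit 152) (nat_lit 25227342581) (nat_lit 76) (nat_lit 20659778557) (nat_lit 19) (nat_lit 5) (nat_lit 21) (nat_lit 5) (nat_lit 20) (nat_lit 4) (nat_lit 348) (nat_lit 304) (nat_lit 248))))))))
noncomputable def xc55 : XT := (XT.nd (nat_lit 1950) (nat_lit 228) (nat_lit 0) (XT.nd (nat_lit 936) (nat_lit 456) (nat_lit 0) (XT.nd (nat_lit 468) (nat_lit 304) (nat_lit 0) (XT.nd (nat_lit 234) (nat_lit 152) (nat_lit 0) (XT.nd (nat_lit 78) (nat_lit 76) (nat_lit 0) (XT.lf (nat_lit 0) (nat_lit 5699215330) (nat_lit 76) (nat_lit 13238801838) (nat_lit 152) (nat_lit 33891994253) (nat_lit 18) (nat_lit 5) (nat_lit 19) (nat_lit 5) (nat_lit 20) (nat_lit 4) (nat_lit 349) (nat_lit 304) (nat_lit 247)) (XT.nd (nat_lit 78) (nat_lit 76) (nat_lit 0) (XT.lf (nat_lit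 0) (nat_lit 35721613427) (nat_lit 152) (nat_lit 16294843113) (nat_lit 0) (nat_lit 4145776198) (nat_lit 18) (nat_lit 5) (nat_lit 20) (nat_lit 4) (nat_lit 18) (nat_lit 4) (nat_lit 350) (nat_lit 304) (nat_lit 246)) (XT.lf (nat_lit 0) (nat_lit 17278169347) (nat_lit 76) (nat_lit 37031438055) (nat_lit 76) (nat_lit 5428344016) (nat_lit 17) (nat_lit 4) (nat_lit 18) (nat_lit 5) (nat_lit 18) (nat_lit 4) (nat_lit 351) (nat_lit 304) (nat_lit 245)))) (XT.nd (nat_lit 78) (nat_lit 76) (nat_lit 0) (XT.lf (nat_lit 0) (nat_lit 10697879635) (nat_lit 152) (nat_lit 9697678575) (nat_lit 76) (nat_lit 43182847250) (nat_lit 16) (nat_lit 5) (nat_lit 18) (nat_lit 5) (nat_lit 17) (nat_lit 4) (nat_lit 352) (nat_lit 304) (nat_lit 244)) (XT.nd (nat_lit 78) (nat_lit 0) (nat_lit 0) (XT.lf (nat_lit 0) (nat_lit 26384617522) (nat_lit 76) (nat_lit 1925781342) (nat_lit 152) (nat_lit 39391932692) (nat_lit 15) (nat_lit 5) (nat_lit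 16) (nat_lit 5) (nat_lit 17) (nat_lit 4) (nat_lit 353) (nat_lit 304) (nat_lit 243)) (XT.lf (nat_lit 0) (nat_lit 47757779407) (nat_lit 152) (nat_lit 6784407158) (nat_lit 0) (nat_lit 17592696086) (nat_lit 15) (nat_lit 5) (nat_lit 17) (nat_lit 4) (nat_lit 15) (nat_lit 4) (nat_lit 354) (nat_lit 304) (nat_lit 242))))) (XT.nd (nat_lit 234) (nat_lit 76) (nat_lit 0) (XT.nd (nat_lit 78) (nat_lit 152) (nat_lit 0) (XT.lf (nat_lit 0) (nat_lit 31436799857) (nat_lit 76) (nat_lit 37822250234) (nat_lit 76) (nat_lit 7638086370) (nat_lit 14) (nat_lit 4) (nat_lit 15) (nat_lit 5) (nat_lit 15) (nat_lit 4) (nat_lit 355) (nat_lit 304) (nat_lit 241)) (XT.nd (nat_lit 78) (nat_lit 76) (nat_lit 0) (XT.lf (nat_lit 0) (nat_lit 10201577924) (nat_lit 152) (nat_lit 9288596286) (nat_lit 76) (nat_lit 62537265979) (nat_lit 13) (nat_lit 5) (nat_lit 15) (nat_lit 5) (nat_lit 14) (nat_lit 4) (nat_lit 356) (nat_lit 304) (nat_lit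 240)) (XT.lf (nat_lit 0) (nat_lit 29673674950) (nat_lit 152) (nat_lit 56970145610) (nat_lit 0) (nat_lit 894446833) (nat_lit 12) (nat_lit 5) (nat_lit 14) (nat_lit 4) (nat_lit 12) (nat_lit 4) (nat_lit 357) (nat_lit 304) (nat_lit 239)))) (XT.nd (nat_lit 78) (nat_lit 76) (nat_lit 0) (XT.lf (nat_lit 0) (nat_lit 51174709154) (nat_lit 152) (nat_lit 19910640318) (nat_lit 0) (nat_lit 22381055561) (nat_lit 12) (nat_lit 5) (nat_lit 14) (nat_lit 4) (nat_lit 12) (nat_lit 4) (nat_lit 358) (nat_lit 304) (nat_lit 238)) (XT.nd (nat_lit 78) (nat_lit 0) (nat_lit 0) (XT.lf (nat_lit 0) (nat_lit 20737974474) (nat_lit 76) (nat_lit 53961329188) (nat_lit 76) (nat_lit 25154318673) (nat_lit 11) (nat_lit 4) (nat_lit 12) (nat_lit 5) (nat_lit 12) (nat_lit 4) (nat_lit 359) (nat_lit 304) (nat_lit 237)) (XT.lf (nat_lit 0) (nat_lit 65311797461) (nat_lit 76) (nat_lit 35121513829) (nat_lit 76) (nat_lit 6302135793) (nat_lit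 11) (nat_lit 4) (nat_lit 12) (nat_lit 5) (nat_lit 12) (nat_lit 4) (nat_lit 360) (nat_lit 304) (nat_lit 236)))))) (XT.nd (nat_lit 468) (nat_lit 228) (nat_lit 0) (XT.nd (nat_lit 234) (nat_lit 76) (nat_lit 0) (XT.nd (nat_lit 78) (nat_lit 76) (nat_lit 0) (XT.lf (nat_lit 0) (nat_lit 13590025454) (nat_lit 152) (nat_lit 971277262) (nat_lit 76) (nat_lit 99596455015) (nat_lit 10) (nat_lit 5) (nat_lit 12) (nat_lit 5) (nat_lit 11) (nat_lit 4) (nat_lit 361) (nat_lit 304) (nat_lit 235)) (XT.nd (nat_lit 78) (nat_lit 0) (nat_lit 0) (XT.lf (nat_lit 0) (nat_lit 35657656530) (nat_lit 152) (nat_lit 78281162794) (nat_lit 0) (nat_lit 8189625482) (nat_lit 9) (nat_lit 5) (nat_lit 11) (nat_lit 4) (nat_lit 9) (nat_lit 4) (nat_lit 362) (nat_lit 304) (nat_lit 234)) (XT.lf (nat_lit 0) (nat_lit 59737052337) (nat_lit 152) (nat_lit 38727747502) (nat_lit 0) (nat_lit 32259671064) (nat_lit 9) (nat_lit 5) (nat_lit 11) (nat_lit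 4) (nat_lit 9) (nat_lit 4) (nat_lit 363) (nat_lit 304) (nat_lit 233)))) (XT.nd (nat_lit 78) (nat_lit 0) (nat_lit 0) (XT.lf (nat_lit 0) (nat_lit 4091248448) (nat_lit 76) (nat_lit 81700267676) (nat_lit 76) (nat_lit 54214228786) (nat_lit 8) (nat_lit 4) (nat_lit 9) (nat_lit 5) (nat_lit 9) (nat_lit 4) (nat_lit 364) (nat_lit 304) (nat_lit 232)) (XT.nd (nat_lit 78) (nat_lit 0) (nat_lit 0) (XT.lf (nat_lit 0) (nat_lit 51690369415) (nat_lit 76) (nat_lit 62900100743) (nat_lit 76) (nat_lit 35406045542) (nat_lit 8) (nat_lit 4) (nat_lit 9) (nat_lit 5) (nat_lit 9) (nat_lit 4) (nat_lit 365) (nat_lit 304) (nat_lit 231)) (XT.lf (nat_lit 0) (nat_lit 103071170031) (nat_lit 76) (nat_lit 42608763786) (nat_lit 76) (nat_lit 15107286074) (nat_lit 8) (nat_lit 4) (nat_lit 9) (nat_lit 5) (nat_lit 9) (nat_lit 4) (nat_lit 366) (nat_lit 304) (nat_lit 230))))) (XT.nd (nat_lit 234) (nat_lit 76) (nat_lit 0) (XT.nd (nat_lit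 78) (nat_lit 76) (nat_lit 0) (XT.lf (nat_lit 0) (nat_lit 6584621244) (nat_lit 152) (nat_lit 14009876854) (nat_lit 76) (nat_lit 151841994123) (nat_lit 7) (nat_lit 5) (nat_lit 9) (nat_lit 5) (nat_lit 8) (nat_lit 4) (nat_lit 367) (nat_lit 304) (nat_lit 229)) (XT.nd (nat_lit 78) (nat_lit 0) (nat_lit 0) (XT.lf (nat_lit 0) (nat_lit 30071244480) (nat_lit 152) (nat_lit 151037892588) (nat_lit 0) (nat_lit 3866754944) (nat_lit 6) (nat_lit 5) (nat_lit 8) (nat_lit 4) (nat_lit 6) (nat_lit 4) (nat_lit 368) (nat_lit 304) (nat_lit 228)) (XT.lf (nat_lit 0) (nat_lit 56020774406) (nat_lit 152) (nat_lit 112657798375) (nat_lit 0) (nat_lit 29810673225) (nat_lit 6) (nat_lit 5) (nat_lit 8) (nat_lit 4) (nat_lit 6) (nat_lit 4) (nat_lit 369) (nat_lit 304) (nat_lit 227)))) (XT.nd (nat_lit 156) (nat_lit 76) (nat_lit 0) (XT.nd (nat_lit 78) (nat_lit 0) (nat_lit 0) (XT.lf (nat_lit 0) (nat_lit 84035778071) (nat_lit 152)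 (nat_lit 71227934744) (nat_lit 0) (nat_lit 57820480921) (nat_lit 6) (nat_lit 5) (nat_lit 8) (nat_lit 4) (nat_lit 6) (nat_lit 4) (nat_lit 370) (nat_lit 304) (nat_lit 226)) (XT.lf (nat_lit 0) (nat_lit 114282270311) (nat_lit 152) (nat_lit 26502791390) (nat_lit 0) (nat_lit 88062162079) (nat_lit 6) (nat_lit 5) (nat_lit 8) (nat_lit 4) (nat_lit 6) (nat_lit 4) (nat_lit 371) (nat_lit 304) (nat_lit 225))) (XT.nd (nat_lit 78) (nat_lit 0) (nat_lit 0) (XT.lf (nat_lit 0) (nat_lit 22502903000) (nat_lit 76) (nat_lit 124787919978) (nat_lit 76) (nat_lit 98563357041) (nat_lit 5) (nat_lit 4) (nat_lit 6) (nat_lit 5) (nat_lit 6) (nat_lit 4) (nat_lit 372) (nat_lit 304) (nat_lit 224)) (XT.lf (nat_lit 0) (nat_lit 76358534168) (nat_lit 76) (nat_lit 107034596741) (nat_lit 76) (nat_lit 80805909077) (nat_lit 5) (nat_lit 4) (nat_lit 6) (nat_lit 5) (nat_lit 6) (nat_lit 4) (nat_lit 373) (nat_lit 304) (nat_lit 223)))))))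 (XT.nd (nat_lit 936) (nat_lit 76) (nat_lit 0) (XT.nd (nat_lit 468) (nat_lit 0) (nat_lit 0) (XT.nd (nat_lit 234) (nat_lit 152) (nat_lit 0) (XT.nd (nat_lit 78) (nat_lit 0) (nat_lit 0) (XT.lf (nat_lit 0) (nat_lit 134506944620) (nat_lit 76) (nat_lit 87868724708) (nat_lit 76) (nat_lit 61636217852) (nat_lit 5) (nat_lit 4) (nat_lit 6) (nat_lit 5) (nat_lit 6) (nat_lit 4) (nat_lit 374) (nat_lit 304) (nat_lit 222)) (XT.nd (nat_lit 78) (nat_lit 0) (nat_lit 0) (XT.lf (nat_lit 0) (nat_lit 197292717529) (nat_lit 76) (nat_lit 67176728342) (nat_lit 76) (nat_lit 40940685197) (nat_lit 5) (nat_lit 4) (nat_lit 6) (nat_lit 5) (nat_lit 6) (nat_lit 4) (nat_lit 375) (nat_lit 304) (nat_lit 221)) (XT.lf (nat_lit 0) (nat_lit 265087916735) (nat_lit 76) (nat_lit 44835988403) (nat_lit 76) (nat_lit 18596670917) (nat_lit 5) (nat_lit 4) (nat_lit 6) (nat_lit 5) (nat_lit 6) (nat_lit 4) (nat_lit 376) (nat_lit 304) (nat_lit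 220)))) (XT.nd (nat_lit 78) (nat_lit 76) (nat_lit 0) (XT.lf (nat_lit 0) (nat_lit 5351295949) (nat_lit 152) (nat_lit 15272192588) (nat_lit 76) (nat_lit 332852368830) (nat_lit 4) (nat_lit 5) (nat_lit 6) (nat_lit 5) (nat_lit 5) (nat_lit 4) (nat_lit 377) (nat_lit 304) (nat_lit 219)) (XT.nd (nat_lit 78) (nat_lit 0) (nat_lit 0) (XT.lf (nat_lit 0) (nat_lit 31254638526) (nat_lit 152) (nat_lit 342863874855) (nat_lit 0) (nat_lit 6259251379) (nat_lit 3) (nat_lit 5) (nat_lit 5) (nat_lit 4) (nat_lit 3) (nat_lit 4) (nat_lit 378) (nat_lit 304) (nat_lit 218)) (XT.lf (nat_lit 0) (nat_lit 59842627147) (nat_lit 152) (nat_lit 314713814638) (nat_lit 0) (nat_lit 34844764497) (nat_lit 3) (nat_lit 5) (nat_lit 5) (nat_lit 4) (nat_lit 3) (nat_lit 4) (nat_lit 379) (nat_lit 304) (nat_lit 217))))) (XT.nd (nat_lit 234) (nat_lit 0) (nat_lit 0) (XT.nd (nat_lit 78) (nat_lit 0) (nat_lit 0) (XT.lf (nat_lit 0) (nat_lit 90712317848)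 (nat_lit 152) (nat_lit 284322309497) (nat_lit 0) (nat_lit 65712163066) (nat_lit 3) (nat_lit 5) (nat_lit 5) (nat_lit 4) (nat_lit 3) (nat_lit 4) (nat_lit 380) (nat_lit 304) (nat_lit 216)) (XT.nd (nat_lit 78) (nat_lit 0) (nat_lit 0) (XT.lf (nat_lit 0) (nat_lit 124046642129) (nat_lit 152) (nat_lit 251509261623) (nat_lit 0) (nat_lit 99044365003) (nat_lit 3) (nat_lit 5) (nat_lit 5) (nat_lit 4) (nat_lit 3) (nat_lit 4) (nat_lit 381) (nat_lit 304) (nat_lit 215)) (XT.lf (nat_lit 0) (nat_lit 160043136727) (nat_lit 152) (nat_lit 216080223325) (nat_lit 0) (nat_lit 135038894467) (nat_lit 3) (nat_lit 5) (nat_lit 5) (nat_lit 4) (nat_lit 3) (nat_lit 4) (nat_lit 382) (nat_lit 304) (nat_lit 214)))) (XT.nd (nat_lit 78) (nat_lit 0) (nat_lit 0) (XT.lf (nat_lit 0) (nat_lit 198915114202) (nat_lit 152) (nat_lit 177825244747) (nat_lit 0) (nat_lit 173909052374) (nat_lit 3) (nat_lit 5) (nat_lit 5) (nat_lit 4) (nat_lit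 3) (nat_lit 4) (nat_lit 383) (nat_lit 304) (nat_lit 213)) (XT.nd (nat_lit 78) (nat_lit 0) (nat_lit 0) (XT.lf (nat_lit 0) (nat_lit 240892927015) (nat_lit 152) (nat_lit 136517629720) (nat_lit 0) (nat_lit 215885180401) (nat_lit 3) (nat_lit 5) (nat_lit 5) (nat_lit 4) (nat_lit 3) (nat_lit 4) (nat_lit 384) (nat_lit 304) (nat_lit 212)) (XT.lf (nat_lit 0) (nat_lit 286225332573) (nat_lit 152) (nat_lit 91912592375) (nat_lit 0) (nat_lit 261216025972) (nat_lit 3) (nat_lit 5) (nat_lit 5) (nat_lit 4) (nat_lit 3) (nat_lit 4) (nat_lit 385) (nat_lit 304) (nat_lit 211)))))) (XT.nd (nat_lit 468) (nat_lit 0) (nat_lit 0) (XT.nd (nat_lit 234) (nat_lit 0) (nat_lit 0) (XT.nd (nat_lit 78) (nat_lit 76) (nat_lit 0) (XT.lf (nat_lit 0) (nat_lit 335180967354) (nat_lit 152) (nat_lit 43745806568) (nat_lit 0) (nat_lit 310170216321) (nat_lit 3) (nat_lit 5) (nat_lit 5) (nat_lit 4) (nat_lit 3) (nat_lit 4) (nat_lit 386) (nat_lit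 304) (nat_lit 210)) (XT.nd (nat_lit 78) (nat_lit 0) (nat_lit 0) (XT.lf (nat_lit 0) (nat_lit 8541543234) (nat_lit 76) (nat_lit 379641753016) (nat_lit 76) (nat_lit 354629664547) (nat_lit 2) (nat_lit 4) (nat_lit 3) (nat_lit 5) (nat_lit 3) (nat_lit 4) (nat_lit 387) (nat_lit 304) (nat_lit 209)) (XT.lf (nat_lit 0) (nat_lit 66568135841) (nat_lit 76) (nat_lit 379616723906) (nat_lit 76) (nat_lit 354603397069) (nat_lit 2) (nat_lit 4) (nat_lit 3) (nat_lit 5) (nat_lit 3) (nat_lit 4) (nat_lit 388) (nat_lit 304) (nat_lit 208)))) (XT.nd (nat_lit 78) (nat_lit 0) (nat_lit 0) (XT.lf (nat_lit 0) (nat_lit 129231398616) (nat_lit 76) (nat_lit 379592394672) (nat_lit 76) (nat_lit 354577921198) (nat_lit 2) (nat_lit 4) (nat_lit 3) (nat_lit 5) (nat_lit 3) (nat_lit 4) (nat_lit 389) (nat_lit 304) (nat_lit 207)) (XT.nd (nat_lit 78) (nat_lit 0) (nat_lit 0) (XT.lf (nat_lit 0) (nat_lit 196902669411) (nat_lit 76) (nat_lit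 379568621141) (nat_lit 76) (nat_lit 354553085966) (nat_lit 2) (nat_lit 4) (nat_lit 3) (nat_lit 5) (nat_lit 3) (nat_lit 4) (nat_lit 390) (nat_lit 304) (nat_lit 206)) (XT.lf (nat_lit 0) (nat_lit 269982963165) (nat_lit 76) (nat_lit 379545262433) (nat_lit 76) (nat_lit 354528744202) (nat_lit 2) (nat_lit 4) (nat_lit 3) (nat_lit 5) (nat_lit 3) (nat_lit 4) (nat_lit 391) (nat_lit 304) (nat_lit 205))))) (XT.nd (nat_lit 234) (nat_lit 0) (nat_lit 0) (XT.nd (nat_lit 78) (nat_lit 0) (nat_lit 0) (XT.lf (nat_lit 0) (nat_lit 348905348285) (nat_lit 76) (nat_lit 379522180125) (nat_lit 76) (nat_lit 354504751657) (nat_lit 2) (nat_lit 4) (nat_lit 3) (nat_lit 5) (nat_lit 3) (nat_lit 4) (nat_lit 392) (nat_lit 304) (nat_lit 204)) (XT.nd (nat_lit 78) (nat_lit 0) (nat_lit 0) (XT.lf (nat_lit 0) (nat_lit 434137512979) (nat_lit 76) (nat_lit 379499237434) (nat_lit 76) (nat_lit 354480966153) (nat_lit 2) (nat_lit 4) (nat_lit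 3) (nat_lit 5) (nat_lit 3) (nat_lit 4) (nat_lit 393) (nat_lit 304) (nat_lit 203)) (XT.lf (nat_lit 0) (nat_lit 526184536743) (nat_lit 76) (nat_lit 379476298403) (nat_lit 76) (nat_lit 354457246741) (nat_lit 2) (nat_lit 4) (nat_lit 3) (nat_lit 5) (nat_lit 3) (nat_lit 4) (nat_lit 394) (nat_lit 304) (nat_lit 202)))) (XT.nd (nat_lit 39936) (nat_lit 0) (nat_lit 10184) (XT.nd (nat_lit 39858) (nat_lit 0) (nat_lit 10640) (XT.lf (nat_lit 0) (nat_lit 625591883419) (nat_lit 76) (nat_lit 379453227096) (nat_lit 76) (nat_lit 354433452859) (nat_lit 2) (nat_lit 4) (nat_lit 3) (nat_lit 5) (nat_lit 3) (nat_lit 4) (nat_lit 395) (nat_lit 304) (nat_lit 201)) (XT.lf (nat_lit 0) (nat_lit 1950746001) (nat_lit 532) (nat_lit 816120841) (nat_lit 532) (nat_lit 816120841) (nat_lit 142) (nat_lit 3) (nat_lit 149) (nat_lit 3) (nat_lit 149) (nat_lit 5) (nat_lit 305) (nat_lit 305) (nat_lit 290))) (XT.nd (nat_lit 78) (nat_lit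 456) (nat_lit 0) (XT.lf (nat_lit 76) (nat_lit 3991290062) (nat_lit 0) (nat_lit 2644749077) (nat_lit 532) (nat_lit 684716960) (nat_lit 143) (nat_lit 5) (nat_lit 142) (nat_lit 3) (nat_lit 149) (nat_lit 5) (nat_lit 306) (nat_lit 305) (nat_lit 289)) (XT.lf (nat_lit 0) (nat_lit 1855237237) (nat_lit 532) (nat_lit 4967915266) (nat_lit 608) (nat_lit 672352611) (nat_lit 136) (nat_lit 5) (nat_lit 143) (nat_lit 5) (nat_lit 144) (nat_lit 5) (nat_lit 307) (nat_lit 305) (nat_lit 288))))))))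
noncomputable def xc56 : XT := (XT.nd (nat_lit 1872) (nat_lit 2432) (nat_lit 0) (XT.nd (nat_lit 936) (nat_lit 2812) (nat_lit 0) (XT.nd (nat_lit 468) (nat_lit 2204) (nat_lit 0) (XT.nd (nat_lit 234) (nat_lit 1292) (nat_lit 0) (XT.nd (nat_lit 78) (nat_lit 532) (nat_lit 0) (XT.lf (nat_lit 76) (nat_lit 1116303946) (nat_lit 0) (nat_lit 3339625910) (nat_lit 608) (nat_lit 3233925236) (nat_lit 137) (nat_lit 5) (nat_lit 136) (nat_lit 5) (nat_lit 144) (nat_lit 5) (nat_lit 308) (nat_lit 305) (nat_lit 287)) (XT.nd (nat_lit 78) (nat_lit 608) (nat_lit 0) (XT.lf (nat_lit 0) (nat_lit 7136159667) (nat_lit 532) (nat_lit 197898101) (nat_lit 608) (nat_lit 572360883) (nat_lit 137) (nat_lit 5) (nat_lit 144) (nat_lit 5) (nat_lit 145) (nat_lit 5) (nat_lit 309) (nat_lit 305) (nat_lit 286)) (XT.lf (nat_lit 0) (nat_lit 1783376407) (nat_lit 608) (nat_lit 1473017643) (nat_lit 684) (nat_lit 4884979612) (nat_lit 129) (nat_lit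 5) (nat_lit 137) (nat_lit 5) (nat_lit 138) (nat_lit 5) (nat_lit 310) (nat_lit 305) (nat_lit 285)))) (XT.nd (nat_lit 78) (nat_lit 1368) (nat_lit 0) (XT.lf (nat_lit 0) (nat_lit 4431058991) (nat_lit 608) (nat_lit 2701919619) (nat_lit 76) (nat_lit 1265873677) (nat_lit 130) (nat_lit 5) (nat_lit 138) (nat_lit 5) (nat_lit 131) (nat_lit 5) (nat_lit 311) (nat_lit 305) (nat_lit 284)) (XT.nd (nat_lit 78) (nat_lit 760) (nat_lit 0) (XT.lf (nat_lit 0) (nat_lit 4763263242) (nat_lit 608) (nat_lit 2498879375) (nat_lit 684) (nat_lit 1416388464) (nat_lit 122) (nat_lit 5) (nat_lit 130) (nat_lit 5) (nat_lit 131) (nat_lit 5) (nat_lit 312) (nat_lit 305) (nat_lit 283)) (XT.lf (nat_lit 0) (nat_lit 1271166513) (nat_lit 760) (nat_lit 5128410147) (nat_lit 76) (nat_lit 2581377016) (nat_lit 112) (nat_lit 5) (nat_lit 122) (nat_lit 5) (nat_lit 113) (nat_lit 5) (nat_lit 313) (nat_lit 305) (nat_lit 282))))) (XT.nd (nat_lit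 234) (nat_lit 684) (nat_lit 0) (XT.nd (nat_lit 78) (nat_lit 760) (nat_lit 0) (XT.lf (nat_lit 0) (nat_lit 2951943803) (nat_lit 760) (nat_lit 1166023028) (nat_lit 836) (nat_lit 5188897011) (nat_lit 102) (nat_lit 5) (nat_lit 112) (nat_lit 5) (nat_lit 113) (nat_lit 5) (nat_lit 314) (nat_lit 305) (nat_lit 281)) (XT.nd (nat_lit 78) (nat_lit 380) (nat_lit 0) (XT.lf (nat_lit 0) (nat_lit 2047320410) (nat_lit 380) (nat_lit 5183673265) (nat_lit 456) (nat_lit 2426066014) (nat_lit 97) (nat_lit 5) (nat_lit 102) (nat_lit 5) (nat_lit 103) (nat_lit 5) (nat_lit 315) (nat_lit 305) (nat_lit 280)) (XT.lf (nat_lit 0) (nat_lit 552596662) (nat_lit 380) (nat_lit 8870831495) (nat_lit 76) (nat_lit 610895518) (nat_lit 92) (nat_lit 5) (nat_lit 97) (nat_lit 5) (nat_lit 93) (nat_lit 5) (nat_lit 316) (nat_lit 305) (nat_lit 279)))) (XT.nd (nat_lit 78) (nat_lit 304) (nat_lit 0) (XT.lf (nat_lit 0) (nat_lit 198226185) (nat_lit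 380) (nat_lit 3573555910) (nat_lit 456) (nat_lit 6663748598) (nat_lit 87) (nat_lit 5) (nat_lit 92) (nat_lit 5) (nat_lit 93) (nat_lit 5) (nat_lit 317) (nat_lit 305) (nat_lit 278)) (XT.nd (nat_lit 78) (nat_lit 304) (nat_lit 0) (XT.lf (nat_lit 0) (nat_lit 7317055501) (nat_lit 456) (nat_lit 749501383) (nat_lit 76) (nat_lit 2798953301) (nat_lit 87) (nat_lit 5) (nat_lit 93) (nat_lit 5) (nat_lit 88) (nat_lit 5) (nat_lit 318) (nat_lit 305) (nat_lit 277)) (XT.lf (nat_lit 0) (nat_lit 9603136277) (nat_lit 304) (nat_lit 1631382204) (nat_lit 380) (nat_lit 91037070) (nat_lit 83) (nat_lit 5) (nat_lit 87) (nat_lit 5) (nat_lit 88) (nat_lit 5) (nat_lit 319) (nat_lit 305) (nat_lit 276)))))) (XT.nd (nat_lit 468) (nat_lit 1140) (nat_lit 0) (XT.nd (nat_lit 234) (nat_lit 760) (nat_lit 0) (XT.nd (nat_lit 78) (nat_lit 532) (nat_lit 0) (XT.lf (nat_lit 0) (nat_lit 3650940146) (nat_lit 380) (nat_lit 2820347730) (nat_lit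 76) (nat_lit 5342129180) (nat_lit 78) (nat_lit 5) (nat_lit 83) (nat_lit 5) (nat_lit 79) (nat_lit 5) (nat_lit 320) (nat_lit 305) (nat_lit 275)) (XT.nd (nat_lit 78) (nat_lit 304) (nat_lit 0) (XT.lf (nat_lit 0) (nat_lit 7777334819) (nat_lit 304) (nat_lit 3956897253) (nat_lit 76) (nat_lit 601666653) (nat_lit 75) (nat_lit 5) (nat_lit 79) (nat_lit 5) (nat_lit 76) (nat_lit 5) (nat_lit 321) (nat_lit 305) (nat_lit 274)) (XT.lf (nat_lit 0) (nat_lit 7675921329) (nat_lit 304) (nat_lit 4732016777) (nat_lit 380) (nat_lit 483608472) (nat_lit 71) (nat_lit 5) (nat_lit 75) (nat_lit 5) (nat_lit 76) (nat_lit 5) (nat_lit 322) (nat_lit 305) (nat_lit 273)))) (XT.nd (nat_lit 78) (nat_lit 456) (nat_lit 0) (XT.lf (nat_lit 0) (nat_lit 3916826628) (nat_lit 304) (nat_lit 6615370197) (nat_lit 76) (nat_lit 2950212200) (nat_lit 67) (nat_lit 5) (nat_lit 71) (nat_lit 5) (nat_lit 68) (nat_lit 5) (nat_lit 323) (nat_lit 305)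 (nat_lit 272)) (XT.nd (nat_lit 78) (nat_lit 228) (nat_lit 0) (XT.lf (nat_lit 0) (nat_lit 5954704517) (nat_lit 228) (nat_lit 2867139457) (nat_lit 304) (nat_lit 5289884755) (nat_lit 64) (nat_lit 5) (nat_lit 67) (nat_lit 5) (nat_lit 68) (nat_lit 5) (nat_lit 324) (nat_lit 305) (nat_lit 271)) (XT.lf (nat_lit 0) (nat_lit 4920856196) (nat_lit 228) (nat_lit 9385546776) (nat_lit 304) (nat_lit 475688839) (nat_lit 61) (nat_lit 5) (nat_lit 64) (nat_lit 5) (nat_lit 65) (nat_lit 5) (nat_lit 325) (nat_lit 305) (nat_lit 270))))) (XT.nd (nat_lit 234) (nat_lit 380) (nat_lit 0) (XT.nd (nat_lit 78) (nat_lit 456) (nat_lit 0) (XT.lf (nat_lit 0) (nat_lit 3702854697) (nat_lit 228) (nat_lit 1032218479) (nat_lit 304) (nat_lit 10759240811) (nat_lit 57) (nat_lit 5) (nat_lit 60) (nat_lit 5) (nat_lit 61) (nat_lit 5) (nat_lit 326) (nat_lit 305) (nat_lit 269)) (XT.nd (nat_lit 78) (nat_lit 304) (nat_lit 0) (XT.lf (nat_lit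 0) (nat_lit 2259514988) (nat_lit 152) (nat_lit 8337363079) (nat_lit 228) (nat_lit 5653748330) (nat_lit 55) (nat_lit 5) (nat_lit 57) (nat_lit 5) (nat_lit 58) (nat_lit 5) (nat_lit 327) (nat_lit 305) (nat_lit 268)) (XT.lf (nat_lit 0) (nat_lit 30681508) (nat_lit 304) (nat_lit 16392238428) (nat_lit 76) (nat_lit 636371331) (nat_lit 51) (nat_lit 5) (nat_lit 55) (nat_lit 5) (nat_lit 52) (nat_lit 5) (nat_lit 328) (nat_lit 305) (nat_lit 267)))) (XT.nd (nat_lit 78) (nat_lit 380) (nat_lit 0) (XT.lf (nat_lit 0) (nat_lit 6285236447) (nat_lit 304) (nat_lit 1284477247) (nat_lit 76) (nat_lit 10342665431) (nat_lit 51) (nat_lit 5) (nat_lit 55) (nat_lit 5) (nat_lit 52) (nat_lit 5) (nat_lit 329) (nat_lit 305) (nat_lit 266)) (XT.nd (nat_lit 78) (nat_lit 228) (nat_lit 0) (XT.lf (nat_lit 0) (nat_lit 13243441991) (nat_lit 228) (nat_lit 3447087152) (nat_lit 76) (nat_lit 2133054394) (nat_lit 49) (nat_lit 5) (nat_lit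 52) (nat_lit 5) (nat_lit 50) (nat_lit 5) (nat_lit 330) (nat_lit 305) (nat_lit 265)) (XT.lf (nat_lit 0) (nat_lit 1222345354) (nat_lit 228) (nat_lit 5999321696) (nat_lit 76) (nat_lit 12570197429) (nat_lit 46) (nat_lit 5) (nat_lit 49) (nat_lit 5) (nat_lit 47) (nat_lit 5) (nat_lit 331) (nat_lit 305) (nat_lit 264))))))) (XT.nd (nat_lit 936) (nat_lit 836) (nat_lit 0) (XT.nd (nat_lit 468) (nat_lit 760) (nat_lit 0) (XT.nd (nat_lit 234) (nat_lit 304) (nat_lit 0) (XT.nd (nat_lit 78) (nat_lit 380) (nat_lit 0) (XT.lf (nat_lit 0) (nat_lit 8608059478) (nat_lit 228) (nat_lit 8998811691) (nat_lit 76) (nat_lit 3214464005) (nat_lit 44) (nat_lit 5) (nat_lit 47) (nat_lit 5) (nat_lit 45) (nat_lit 5) (nat_lit 332) (nat_lit 305) (nat_lit 263)) (XT.nd (nat_lit 78) (nat_lit 228) (nat_lit 0) (XT.lf (nat_lit 0) (nat_lit 9428918794) (nat_lit 152) (nat_lit 7467197402) (nat_lit 228) (nat_lit 5021498638) (nat_lit 42)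 (nat_lit 5) (nat_lit 44) (nat_lit 5) (nat_lit 45) (nat_lit 5) (nat_lit 333) (nat_lit 305) (nat_lit 262)) (XT.lf (nat_lit 0) (nat_lit 2917607793) (nat_lit 228) (nat_lit 16526471431) (nat_lit 76) (nat_lit 3642403650) (nat_lit 39) (nat_lit 5) (nat_lit 42) (nat_lit 5) (nat_lit 40) (nat_lit 5) (nat_lit 334) (nat_lit 305) (nat_lit 261)))) (XT.nd (nat_lit 78) (nat_lit 152) (nat_lit 0) (XT.lf (nat_lit 0) (nat_lit 3022087389) (nat_lit 152) (nat_lit 8631185608) (nat_lit 228) (nat_lit 12674624309) (nat_lit 37) (nat_lit 5) (nat_lit 39) (nat_lit 5) (nat_lit 40) (nat_lit 5) (nat_lit 335) (nat_lit 305) (nat_lit 260)) (XT.nd (nat_lit 78) (nat_lit 152) (nat_lit 0) (XT.lf (nat_lit 0) (nat_lit 21371006319) (nat_lit 228) (nat_lit 1080733861) (nat_lit 76) (nat_lit 3202743310) (nat_lit 37) (nat_lit 5) (nat_lit 40) (nat_lit 5) (nat_lit 38) (nat_lit 4) (nat_lit 336) (nat_lit 305) (nat_lit 259)) (XT.lf (nat_lit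 0) (nat_lit 5056791652) (nat_lit 152) (nat_lit 5943690509) (nat_lit 76) (nat_lit 16061461487) (nat_lit 35) (nat_lit 5) (nat_lit 37) (nat_lit 5) (nat_lit 36) (nat_lit 5) (nat_lit 337) (nat_lit 305) (nat_lit 258))))) (XT.nd (nat_lit 234) (nat_lit 304) (nat_lit 0) (XT.nd (nat_lit 78) (nat_lit 304) (nat_lit 0) (XT.lf (nat_lit 0) (nat_lit 15255226699) (nat_lit 228) (nat_lit 11662610333) (nat_lit 76) (nat_lit 1647617486) (nat_lit 33) (nat_lit 5) (nat_lit 36) (nat_lit 5) (nat_lit 34) (nat_lit 4) (nat_lit 338) (nat_lit 305) (nat_lit 257)) (XT.nd (nat_lit 78) (nat_lit 228) (nat_lit 0) (XT.lf (nat_lit 0) (nat_lit 11705454557) (nat_lit 76) (nat_lit 14988394809) (nat_lit 152) (nat_lit 3474195873) (nat_lit 32) (nat_lit 5) (nat_lit 33) (nat_lit 5) (nat_lit 34) (nat_lit 4) (nat_lit 339) (nat_lit 305) (nat_lit 256)) (XT.lf (nat_lit 0) (nat_lit 5444998687) (nat_lit 152) (nat_lit 1718808041) (nat_lit 228)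 (nat_lit 24717274220) (nat_lit 29) (nat_lit 5) (nat_lit 31) (nat_lit 5) (nat_lit 32) (nat_lit 5) (nat_lit 340) (nat_lit 305) (nat_lit 255)))) (XT.nd (nat_lit 78) (nat_lit 304) (nat_lit 0) (XT.lf (nat_lit 0) (nat_lit 19010638244) (nat_lit 228) (nat_lit 2134458327) (nat_lit 76) (nat_lit 12559251802) (nat_lit 29) (nat_lit 5) (nat_lit 32) (nat_lit 5) (nat_lit 30) (nat_lit 4) (nat_lit 341) (nat_lit 305) (nat_lit 254)) (XT.nd (nat_lit 78) (nat_lit 228) (nat_lit 0) (XT.lf (nat_lit 0) (nat_lit 24799094825) (nat_lit 76) (nat_lit 7379775612) (nat_lit 152) (nat_lit 3475935101) (nat_lit 28) (nat_lit 5) (nat_lit 29) (nat_lit 5) (nat_lit 30) (nat_lit 4) (nat_lit 342) (nat_lit 305) (nat_lit 253)) (XT.lf (nat_lit 0) (nat_lit 8740740048) (nat_lit 228) (nat_lit 21342787645) (nat_lit 76) (nat_lit 7652137754) (nat_lit 25) (nat_lit 5) (nat_lit 28) (nat_lit 5) (nat_lit 26) (nat_lit 4) (nat_lit 343) (nat_lit 305)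 (nat_lit 252)))))) (XT.nd (nat_lit 468) (nat_lit 380) (nat_lit 0) (XT.nd (nat_lit 234) (nat_lit 228) (nat_lit 0) (XT.nd (nat_lit 78) (nat_lit 152) (nat_lit 0) (XT.lf (nat_lit 0) (nat_lit 6173740538) (nat_lit 76) (nat_lit 16014121019) (nat_lit 152) (nat_lit 17773547883) (nat_lit 24) (nat_lit 5) (nat_lit 25) (nat_lit 5) (nat_lit 26) (nat_lit 4) (nat_lit 344) (nat_lit 305) (nat_lit 251)) (XT.nd (nat_lit 78) (nat_lit 152) (nat_lit 0) (XT.lf (nat_lit 0) (nat_lit 36583736537) (nat_lit 76) (nat_lit 460884996) (nat_lit 152) (nat_lit 5303906338) (nat_lit 24) (nat_lit 5) (nat_lit 25) (nat_lit 5) (nat_lit 26) (nat_lit 4) (nat_lit 345) (nat_lit 305) (nat_lit 250)) (XT.lf (nat_lit 0) (nat_lit 8521488971) (nat_lit 152) (nat_lit 20055390792) (nat_lit 76) (nat_lit 16312397820) (nat_lit 22) (nat_lit 5) (nat_lit 24) (nat_lit 5) (nat_lit 23) (nat_lit 4) (nat_lit 346) (nat_lit 305) (nat_lit 249)))) (XT.nd (nat_lit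 78) (nat_lit 152) (nat_lit 0) (XT.lf (nat_lit 0) (nat_lit 10635207564) (nat_lit 76) (nat_lit 12875770919) (nat_lit 152) (nat_lit 24105773866) (nat_lit 21) (nat_lit 5) (nat_lit 22) (nat_lit 5) (nat_lit 23) (nat_lit 4) (nat_lit 347) (nat_lit 305) (nat_lit 248)) (XT.nd (nat_lit 78) (nat_lit 152) (nat_lit 0) (XT.lf (nat_lit 0) (nat_lit 40085092624) (nat_lit 152) (nat_lit 6179972312) (nat_lit 0) (nat_lit 4278093207) (nat_lit 21) (nat_lit 5) (nat_lit 23) (nat_lit 4) (nat_lit 21) (nat_lit 4) (nat_lit 348) (nat_lit 305) (nat_lit 247)) (XT.lf (nat_lit 0) (nat_lit 4773231832) (nat_lit 152) (nat_lit 26052783384) (nat_lit 76) (nat_lit 22842884188) (nat_lit 19) (nat_lit 5) (nat_lit 21) (nat_lit 5) (nat_lit 20) (nat_lit 4) (nat_lit 349) (nat_lit 305) (nat_lit 246))))) (XT.nd (nat_lit 234) (nat_lit 228) (nat_lit 0) (XT.nd (nat_lit 78) (nat_lit 76) (nat_lit 0) (XT.lf (nat_lit 0) (nat_lit 7296063846) (nat_lit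 76) (nat_lit 13758859148) (nat_lit 152) (nat_lit 35971295461) (nat_lit 18) (nat_lit 5) (nat_lit 19) (nat_lit 5) (nat_lit 20) (nat_lit 4) (nat_lit 350) (nat_lit 305) (nat_lit 245)) (XT.nd (nat_lit 78) (nat_lit 76) (nat_lit 0) (XT.lf (nat_lit 0) (nat_lit 39144417023) (nat_lit 152) (nat_lit 16521866546) (nat_lit 0) (nat_lit 4960580860) (nat_lit 18) (nat_lit 5) (nat_lit 20) (nat_lit 4) (nat_lit 18) (nat_lit 4) (nat_lit 351) (nat_lit 305) (nat_lit 244)) (XT.lf (nat_lit 0) (nat_lit 19690200750) (nat_lit 76) (nat_lit 39503470113) (nat_lit 76) (nat_lit 5296265628) (nat_lit 17) (nat_lit 4) (nat_lit 18) (nat_lit 5) (nat_lit 18) (nat_lit 4) (nat_lit 352) (nat_lit 305) (nat_lit 243)))) (XT.nd (nat_lit 156) (nat_lit 76) (nat_lit 0) (XT.nd (nat_lit 78) (nat_lit 76) (nat_lit 0) (XT.lf (nat_lit 0) (nat_lit 12061320472) (nat_lit 152) (nat_lit 9503134853) (nat_lit 76) (nat_lit 47074765950) (nat_lit 16) (nat_lit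 5) (nat_lit 18) (nat_lit 5) (nat_lit 17) (nat_lit 4) (nat_lit 353) (nat_lit 305) (nat_lit 242)) (XT.lf (nat_lit 0) (nat_lit 29423574356) (nat_lit 76) (nat_lit 1636157715) (nat_lit 152) (nat_lit 42034490482) (nat_lit 15) (nat_lit 5) (nat_lit 16) (nat_lit 5) (nat_lit 17) (nat_lit 4) (nat_lit 354) (nat_lit 305) (nat_lit 241))) (XT.nd (nat_lit 78) (nat_lit 76) (nat_lit 0) (XT.lf (nat_lit 0) (nat_lit 52033428131) (nat_lit 152) (nat_lit 6451645124) (nat_lit 0) (nat_lit 19397783447) (nat_lit 15) (nat_lit 5) (nat_lit 17) (nat_lit 4) (nat_lit 15) (nat_lit 4) (nat_lit 355) (nat_lit 305) (nat_lit 240)) (XT.lf (nat_lit 0) (nat_lit 34789209654) (nat_lit 76) (nat_lit 40444960346) (nat_lit 76) (nat_lit 7792957172) (nat_lit 14) (nat_lit 4) (nat_lit 15) (nat_lit 5) (nat_lit 15) (nat_lit 4) (nat_lit 356) (nat_lit 305) (nat_lit 239))))))))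
noncomputable def xc57 : XT := (XT.nd (nat_lit 1950) (nat_lit 76) (nat_lit 0) (XT.nd (nat_lit 936) (nat_lit 304) (nat_lit 0) (XT.nd (nat_lit 468) (nat_lit 228) (nat_lit 0) (XT.nd (nat_lit 234) (nat_lit 152) (nat_lit 0) (XT.nd (nat_lit 78) (nat_lit 76) (nat_lit 0) (XT.lf (nat_lit 0) (nat_lit 11426570477) (nat_lit 152) (nat_lit 9242680445) (nat_lit 76) (nat_lit 67899887895) (nat_lit 13) (nat_lit 5) (nat_lit 15) (nat_lit 5) (nat_lit 14) (nat_lit 4) (nat_lit 357) (nat_lit 305) (nat_lit 238)) (XT.nd (nat_lit 78) (nat_lit 0) (nat_lit 0) (XT.lf (nat_lit 0) (nat_lit 32443620622) (nat_lit 152) (nat_lit 60759163910) (nat_lit 0) (nat_lit 1318692343) (nat_lit 12) (nat_lit 5) (nat_lit 14) (nat_lit 4) (nat_lit 12) (nat_lit 4) (nat_lit 358) (nat_lit 305) (nat_lit 237)) (XT.lf (nat_lit 0) (nat_lit 55635400402) (nat_lit 152) (nat_lit 20791831035) (nat_lit 0) (nat_lit 24498104602) (nat_lit 12) (nat_lit 5)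 (nat_lit 14) (nat_lit 4) (nat_lit 12) (nat_lit 4) (nat_lit 359) (nat_lit 305) (nat_lit 236)))) (XT.nd (nat_lit 78) (nat_lit 76) (nat_lit 0) (XT.lf (nat_lit 0) (nat_lit 23077745041) (nat_lit 76) (nat_lit 57947681534) (nat_lit 76) (nat_lit 26798934326) (nat_lit 11) (nat_lit 4) (nat_lit 12) (nat_lit 5) (nat_lit 12) (nat_lit 4) (nat_lit 360) (nat_lit 305) (nat_lit 235)) (XT.nd (nat_lit 78) (nat_lit 76) (nat_lit 0) (XT.lf (nat_lit 0) (nat_lit 71167049229) (nat_lit 76) (nat_lit 37625166427) (nat_lit 76) (nat_lit 6465816063) (nat_lit 11) (nat_lit 4) (nat_lit 12) (nat_lit 5) (nat_lit 12) (nat_lit 4) (nat_lit 361) (nat_lit 305) (nat_lit 234)) (XT.lf (nat_lit 0) (nat_lit 14982405979) (nat_lit 152) (nat_lit 455235841) (nat_lit 76) (nat_lit 107837443075) (nat_lit 10) (nat_lit 5) (nat_lit 12) (nat_lit 5) (nat_lit 11) (nat_lit 4) (nat_lit 362) (nat_lit 305) (nat_lit 233))))) (XT.nd (nat_lit 234) (nat_lit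 76) (nat_lit 0) (XT.nd (nat_lit 78) (nat_lit 76) (nat_lit 0) (XT.lf (nat_lit 0) (nat_lit 38806025812) (nat_lit 152) (nat_lit 83965428573) (nat_lit 0) (nat_lit 9112446195) (nat_lit 9) (nat_lit 5) (nat_lit 11) (nat_lit 4) (nat_lit 9) (nat_lit 4) (nat_lit 363) (nat_lit 305) (nat_lit 232)) (XT.nd (nat_lit 78) (nat_lit 76) (nat_lit 0) (XT.lf (nat_lit 0) (nat_lit 64789865376) (nat_lit 152) (nat_lit 41290571706) (nat_lit 0) (nat_lit 35088269447) (nat_lit 9) (nat_lit 5) (nat_lit 11) (nat_lit 4) (nat_lit 9) (nat_lit 4) (nat_lit 364) (nat_lit 305) (nat_lit 231)) (XT.lf (nat_lit 0) (nat_lit 4930676280) (nat_lit 76) (nat_lit 87985720638) (nat_lit 76) (nat_lit 58276702199) (nat_lit 8) (nat_lit 4) (nat_lit 9) (nat_lit 5) (nat_lit 9) (nat_lit 4) (nat_lit 365) (nat_lit 305) (nat_lit 230)))) (XT.nd (nat_lit 78) (nat_lit 76) (nat_lit 0) (XT.lf (nat_lit 0) (nat_lit 56299791520) (nat_lit 76) (nat_lit 67700100976)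 (nat_lit 76) (nat_lit 37984209843) (nat_lit 8) (nat_lit 4) (nat_lit 9) (nat_lit 5) (nat_lit 9) (nat_lit 4) (nat_lit 366) (nat_lit 305) (nat_lit 229)) (XT.nd (nat_lit 78) (nat_lit 76) (nat_lit 0) (XT.lf (nat_lit 0) (nat_lit 111755930811) (nat_lit 76) (nat_lit 45802642828) (nat_lit 76) (nat_lit 16080388088) (nat_lit 8) (nat_lit 4) (nat_lit 9) (nat_lit 5) (nat_lit 9) (nat_lit 4) (nat_lit 367) (nat_lit 305) (nat_lit 228)) (XT.lf (nat_lit 0) (nat_lit 7322450216) (nat_lit 152) (nat_lit 14717124024) (nat_lit 76) (nat_lit 164181263673) (nat_lit 7) (nat_lit 5) (nat_lit 9) (nat_lit 5) (nat_lit 8) (nat_lit 4) (nat_lit 368) (nat_lit 305) (nat_lit 227)))))) (XT.nd (nat_lit 468) (nat_lit 152) (nat_lit 0) (XT.nd (nat_lit 234) (nat_lit 76) (nat_lit 0) (XT.nd (nat_lit 78) (nat_lit 0) (nat_lit 0) (XT.lf (nat_lit 0) (nat_lit 32681573671) (nat_lit 152) (nat_lit 162718282250) (nat_lit 0) (nat_lit 4363856781)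 (nat_lit 6) (nat_lit 5) (nat_lit 8) (nat_lit 4) (nat_lit 6) (nat_lit 4) (nat_lit 369) (nat_lit 305) (nat_lit 226)) (XT.nd (nat_lit 78) (nat_lit 0) (nat_lit 0) (XT.lf (nat_lit 0) (nat_lit 60691908241) (nat_lit 152) (nat_lit 121297605815) (nat_lit 0) (nat_lit 32369380269) (nat_lit 6) (nat_lit 5) (nat_lit 8) (nat_lit 4) (nat_lit 6) (nat_lit 4) (nat_lit 370) (nat_lit 305) (nat_lit 225)) (XT.lf (nat_lit 0) (nat_lit 90934077245) (nat_lit 152) (nat_lit 76580969125) (nat_lit 0) (nat_lit 62607094567) (nat_lit 6) (nat_lit 5) (nat_lit 8) (nat_lit 4) (nat_lit 6) (nat_lit 4) (nat_lit 371) (nat_lit 305) (nat_lit 224)))) (XT.nd (nat_lit 78) (nat_lit 76) (nat_lit 0) (XT.lf (nat_lit 0) (nat_lit 123587293536) (nat_lit 152) (nat_lit 28303384703) (nat_lit 0) (nat_lit 95256186131) (nat_lit 6) (nat_lit 5) (nat_lit 8) (nat_lit 4) (nat_lit 6) (nat_lit 4) (nat_lit 372) (nat_lit 305) (nat_lit 223)) (XT.nd (nat_lit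 78) (nat_lit 0) (nat_lit 0) (XT.lf (nat_lit 0) (nat_lit 24608874508) (nat_lit 76) (nat_lit 134620396645) (nat_lit 76) (nat_lit 106285470048) (nat_lit 5) (nat_lit 4) (nat_lit 6) (nat_lit 5) (nat_lit 6) (nat_lit 4) (nat_lit 373) (nat_lit 305) (nat_lit 222)) (XT.lf (nat_lit 0) (nat_lit 82750308816) (nat_lit 76) (nat_lit 115457959914) (nat_lit 76) (nat_lit 87119497029) (nat_lit 5) (nat_lit 4) (nat_lit 6) (nat_lit 5) (nat_lit 6) (nat_lit 4) (nat_lit 374) (nat_lit 305) (nat_lit 221))))) (XT.nd (nat_lit 234) (nat_lit 152) (nat_lit 0) (XT.nd (nat_lit 78) (nat_lit 0) (nat_lit 0) (XT.lf (nat_lit 0) (nat_lit 145529622333) (nat_lit 76) (nat_lit 94769144383) (nat_lit 76) (nat_lit 66427407156) (nat_lit 5) (nat_lit 4) (nat_lit 6) (nat_lit 5) (nat_lit 6) (nat_lit 4) (nat_lit 375) (nat_lit 305) (nat_lit 220)) (XT.nd (nat_lit 78) (nat_lit 0) (nat_lit 0) (XT.lf (nat_lit 0) (nat_lit 213318840620) (nat_lit 76)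 (nat_lit 72431349662) (nat_lit 76) (nat_lit 44086580638) (nat_lit 5) (nat_lit 4) (nat_lit 6) (nat_lit 5) (nat_lit 6) (nat_lit 4) (nat_lit 376) (nat_lit 305) (nat_lit 219)) (XT.lf (nat_lit 0) (nat_lit 286519677563) (nat_lit 76) (nat_lit 48312203636) (nat_lit 76) (nat_lit 19964627391) (nat_lit 5) (nat_lit 4) (nat_lit 6) (nat_lit 5) (nat_lit 6) (nat_lit 4) (nat_lit 377) (nat_lit 305) (nat_lit 218)))) (XT.nd (nat_lit 156) (nat_lit 0) (nat_lit 0) (XT.nd (nat_lit 78) (nat_lit 76) (nat_lit 0) (XT.lf (nat_lit 0) (nat_lit 5886754792) (nat_lit 152) (nat_lit 16282328198) (nat_lit 76) (nat_lit 359579466066) (nat_lit 4) (nat_lit 5) (nat_lit 6) (nat_lit 5) (nat_lit 5) (nat_lit 4) (nat_lit 378) (nat_lit 305) (nat_lit 217)) (XT.lf (nat_lit 0) (nat_lit 33859132615) (nat_lit 152) (nat_lit 370086965393) (nat_lit 0) (nat_lit 6856673319) (nat_lit 3) (nat_lit 5) (nat_lit 5) (nat_lit 4) (nat_lit 3) (nat_lit 4)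 (nat_lit 379) (nat_lit 305) (nat_lit 216))) (XT.nd (nat_lit 78) (nat_lit 0) (nat_lit 0) (XT.lf (nat_lit 0) (nat_lit 64726447510) (nat_lit 152) (nat_lit 339700161058) (nat_lit 0) (nat_lit 37721865869) (nat_lit 3) (nat_lit 5) (nat_lit 5) (nat_lit 4) (nat_lit 3) (nat_lit 4) (nat_lit 380) (nat_lit 305) (nat_lit 215)) (XT.lf (nat_lit 0) (nat_lit 98058571971) (nat_lit 152) (nat_lit 306891465784) (nat_lit 0) (nat_lit 71052025197) (nat_lit 3) (nat_lit 5) (nat_lit 5) (nat_lit 4) (nat_lit 3) (nat_lit 4) (nat_lit 381) (nat_lit 305) (nat_lit 214))))))) (XT.nd (nat_lit 936) (nat_lit 0) (nat_lit 0) (XT.nd (nat_lit 468) (nat_lit 76) (nat_lit 0) (XT.nd (nat_lit 234) (nat_lit 0) (nat_lit 0) (XT.nd (nat_lit 78) (nat_lit 0) (nat_lit 0) (XT.lf (nat_lit 0) (nat_lit 134053029699) (nat_lit 152) (nat_lit 271466457670) (nat_lit 0) (nat_lit 107044663356) (nat_lit 3) (nat_lit 5) (nat_lit 5) (nat_lit 4) (nat_lit 3)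 (nat_lit 4) (nat_lit 382) (nat_lit 305) (nat_lit 213)) (XT.nd (nat_lit 78) (nat_lit 0) (nat_lit 0) (XT.lf (nat_lit 0) (nat_lit 172923121183) (nat_lit 152) (nat_lit 233215210745) (nat_lit 0) (nat_lit 145913070055) (nat_lit 3) (nat_lit 5) (nat_lit 5) (nat_lit 4) (nat_lit 3) (nat_lit 4) (nat_lit 383) (nat_lit 305) (nat_lit 212)) (XT.lf (nat_lit 0) (nat_lit 214899187707) (nat_lit 152) (nat_lit 191911050951) (nat_lit 0) (nat_lit 187887576592) (nat_lit 3) (nat_lit 5) (nat_lit 5) (nat_lit 4) (nat_lit 3) (nat_lit 4) (nat_lit 384) (nat_lit 305) (nat_lit 211)))) (XT.nd (nat_lit 78) (nat_lit 0) (nat_lit 0) (XT.lf (nat_lit 0) (nat_lit 260229976332) (nat_lit 152) (nat_lit 147309212897) (nat_lit 0) (nat_lit 233216920785) (nat_lit 3) (nat_lit 5) (nat_lit 5) (nat_lit 4) (nat_lit 3) (nat_lit 4) (nat_lit 385) (nat_lit 305) (nat_lit 210)) (XT.nd (nat_lit 78) (nat_lit 0) (nat_lit 0) (XT.lf (nat_lit 0) (nat_lit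 309184113953) (nat_lit 152) (nat_lit 99145389395) (nat_lit 0) (nat_lit 282169720968) (nat_lit 3) (nat_lit 5) (nat_lit 5) (nat_lit 4) (nat_lit 3) (nat_lit 4) (nat_lit 386) (nat_lit 305) (nat_lit 209)) (XT.lf (nat_lit 0) (nat_lit 362051699163) (nat_lit 152) (nat_lit 47134165194) (nat_lit 0) (nat_lit 335036067811) (nat_lit 3) (nat_lit 5) (nat_lit 5) (nat_lit 4) (nat_lit 3) (nat_lit 4) (nat_lit 387) (nat_lit 305) (nat_lit 208))))) (XT.nd (nat_lit 234) (nat_lit 0) (nat_lit 0) (XT.nd (nat_lit 78) (nat_lit 0) (nat_lit 0) (XT.lf (nat_lit 0) (nat_lit 9331335373) (nat_lit 76) (nat_lit 409960374279) (nat_lit 76) (nat_lit 382943596290) (nat_lit 2) (nat_lit 4) (nat_lit 3) (nat_lit 5) (nat_lit 3) (nat_lit 4) (nat_lit 388) (nat_lit 305) (nat_lit 207)) (XT.nd (nat_lit 78) (nat_lit 0) (nat_lit 0) (XT.lf (nat_lit 0) (nat_lit 71992168820) (nat_lit 76) (nat_lit 409937247949) (nat_lit 76) (nat_lit 382919408260)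 (nat_lit 2) (nat_lit 4) (nat_lit 3) (nat_lit 5) (nat_lit 3) (nat_lit 4) (nat_lit 389) (nat_lit 305) (nat_lit 206)) (XT.lf (nat_lit 0) (nat_lit 139661190238) (nat_lit 76) (nat_lit 409914588219) (nat_lit 76) (nat_lit 382895765473) (nat_lit 2) (nat_lit 4) (nat_lit 3) (nat_lit 5) (nat_lit 3) (nat_lit 4) (nat_lit 390) (nat_lit 305) (nat_lit 205)))) (XT.nd (nat_lit 78) (nat_lit 0) (nat_lit 0) (XT.lf (nat_lit 0) (nat_lit 212739401235) (nat_lit 76) (nat_lit 409892260807) (nat_lit 76) (nat_lit 382872527824) (nat_lit 2) (nat_lit 4) (nat_lit 3) (nat_lit 5) (nat_lit 3) (nat_lit 4) (nat_lit 391) (nat_lit 305) (nat_lit 204)) (XT.nd (nat_lit 78) (nat_lit 0) (nat_lit 0) (XT.lf (nat_lit 0) (nat_lit 291659857876) (nat_lit 76) (nat_lit 409870133404) (nat_lit 76) (nat_lit 382849557609) (nat_lit 2) (nat_lit 4) (nat_lit 3) (nat_lit 5) (nat_lit 3) (nat_lit 4) (nat_lit 392) (nat_lit 305) (nat_lit 203)) (XT.lf (nat_lit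 0) (nat_lit 376890236943) (nat_lit 76) (nat_lit 409848074883) (nat_lit 76) (nat_lit 382826718707) (nat_lit 2) (nat_lit 4) (nat_lit 3) (nat_lit 5) (nat_lit 3) (nat_lit 4) (nat_lit 393) (nat_lit 305) (nat_lit 202)))))) (XT.nd (nat_lit 40404) (nat_lit 0) (nat_lit 6840) (XT.nd (nat_lit 40170) (nat_lit 0) (nat_lit 9576) (XT.nd (nat_lit 40014) (nat_lit 0) (nat_lit 10108) (XT.lf (nat_lit 0) (nat_lit 468935607346) (nat_lit 76) (nat_lit 409825954529) (nat_lit 76) (nat_lit 382803875777) (nat_lit 2) (nat_lit 4) (nat_lit 3) (nat_lit 5) (nat_lit 3) (nat_lit 4) (nat_lit 394) (nat_lit 305) (nat_lit 201)) (XT.nd (nat_lit 78) (nat_lit 0) (nat_lit 0) (XT.lf (nat_lit 0) (nat_lit 402641063) (nat_lit 0) (nat_lit 402641063) (nat_lit 532) (nat_lit 2937409608) (nat_lit 135) (nat_lit 5) (nat_lit 135) (nat_lit 3) (nat_lit 142) (nat_lit 3) (nat_lit 306) (nat_lit 306) (nat_lit 288)) (XT.lf (nat_lit 0) (nat_lit 3950553489)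 (nat_lit 532) (nat_lit 955812025) (nat_lit 608) (nat_lit 2762259386) (nat_lit 135) (nat_lit 5) (nat_lit 142) (nat_lit 3) (nat_lit 143) (nat_lit 5) (nat_lit 307) (nat_lit 306) (nat_lit 287)))) (XT.nd (nat_lit 78) (nat_lit 532) (nat_lit 0) (XT.lf (nat_lit 76) (nat_lit 5256330382) (nat_lit 0) (nat_lit 1095589790) (nat_lit 608) (nat_lit 1521136229) (nat_lit 136) (nat_lit 5) (nat_lit 135) (nat_lit 5) (nat_lit 143) (nat_lit 5) (nat_lit 308) (nat_lit 306) (nat_lit 286)) (XT.nd (nat_lit 78) (nat_lit 0) (nat_lit 0) (XT.lf (nat_lit 0) (nat_lit 741394601) (nat_lit 608) (nat_lit 4258949299) (nat_lit 684) (nat_lit 3097190323) (nat_lit 128) (nat_lit 5) (nat_lit 136) (nat_lit 5) (nat_lit 137) (nat_lit 5) (nat_lit 309) (nat_lit 306) (nat_lit 285)) (XT.lf (nat_lit 76) (nat_lit 2467971049) (nat_lit 0) (nat_lit 572068849) (nat_lit 684) (nat_lit 5303458977) (nat_lit 129) (nat_lit 5) (nat_lit 128) (nat_lit 5)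 (nat_lit 137) (nat_lit 5) (nat_lit 310) (nat_lit 306) (nat_lit 284))))) (XT.nd (nat_lit 234) (nat_lit 2204) (nat_lit 0) (XT.nd (nat_lit 78) (nat_lit 608) (nat_lit 0) (XT.lf (nat_lit 76) (nat_lit 1111627962) (nat_lit 0) (nat_lit 4387206064) (nat_lit 684) (nat_lit 3111675012) (nat_lit 130) (nat_lit 5) (nat_lit 129) (nat_lit 5) (nat_lit 138) (nat_lit 5) (nat_lit 311) (nat_lit 306) (nat_lit 283)) (XT.nd (nat_lit 78) (nat_lit 684) (nat_lit 0) (XT.lf (nat_lit 0) (nat_lit 8105246798) (nat_lit 608) (nat_lit 185005910) (nat_lit 76) (nat_lit 611249329) (nat_lit 130) (nat_lit 5) (nat_lit 138) (nat_lit 5) (nat_lit 131) (nat_lit 5) (nat_lit 312) (nat_lit 306) (nat_lit 282)) (XT.lf (nat_lit 0) (nat_lit 1687869049) (nat_lit 684) (nat_lit 1482659863) (nat_lit 76) (nat_lit 6042161878) (nat_lit 121) (nat_lit 5) (nat_lit 130) (nat_lit 5) (nat_lit 122) (nat_lit 5) (nat_lit 313) (nat_lit 306) (nat_lit 281))))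 (XT.nd (nat_lit 156) (nat_lit 760) (nat_lit 0) (XT.nd (nat_lit 78) (nat_lit 760) (nat_lit 0) (XT.lf (nat_lit 0) (nat_lit 4341616389) (nat_lit 760) (nat_lit 2777838209) (nat_lit 76) (nat_lit 2428864869) (nat_lit 112) (nat_lit 5) (nat_lit 122) (nat_lit 5) (nat_lit 113) (nat_lit 5) (nat_lit 314) (nat_lit 306) (nat_lit 280)) (XT.lf (nat_lit 0) (nat_lit 5828961109) (nat_lit 760) (nat_lit 1408522984) (nat_lit 836) (nat_lit 2671950161) (nat_lit 102) (nat_lit 5) (nat_lit 112) (nat_lit 5) (nat_lit 113) (nat_lit 5) (nat_lit 315) (nat_lit 306) (nat_lit 279))) (XT.nd (nat_lit 78) (nat_lit 304) (nat_lit 0) (XT.lf (nat_lit 0) (nat_lit 131770137) (nat_lit 456) (nat_lit 5423080015) (nat_lit 76) (nat_lit 4741234421) (nat_lit 96) (nat_lit 5) (nat_lit 102) (nat_lit 5) (nat_lit 97) (nat_lit 5) (nat_lit 316) (nat_lit 306) (nat_lit 278)) (XT.lf (nat_lit 0) (nat_lit 3110291904) (nat_lit 380) (nat_lit 6820001688)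 (nat_lit 76) (nat_lit 779080976) (nat_lit 92) (nat_lit 5) (nat_lit 97) (nat_lit 5) (nat_lit 93) (nat_lit 5) (nat_lit 317) (nat_lit 306) (nat_lit 277))))))))
noncomputable def xc58 : XT := (XT.nd (nat_lit 1872) (nat_lit 1596) (nat_lit 0) (XT.nd (nat_lit 936) (nat_lit 1672) (nat_lit 0) (XT.nd (nat_lit 468) (nat_lit 1444) (nat_lit 0) (XT.nd (nat_lit 234) (nat_lit 608) (nat_lit 0) (XT.nd (nat_lit 78) (nat_lit 684) (nat_lit 0) (XT.lf (nat_lit 0) (nat_lit 2854612800) (nat_lit 380) (nat_lit 3587441162) (nat_lit 456) (nat_lit 4708021772) (nat_lit 87) (nat_lit 5) (nat_lit 92) (nat_lit 5) (nat_lit 93) (nat_lit 5) (nat_lit 318) (nat_lit 306) (nat_lit 276)) (XT.nd (nat_lit 78) (nat_lit 380) (nat_lit 0) (XT.lf (nat_lit 0) (nat_lit 1800555742) (nat_lit 304) (nat_lit 8326990706) (nat_lit 380) (nat_lit 1494215866) (nat_lit 83) (nat_lit 5) (nat_lit 87) (nat_lit 5) (nat_lit 88) (nat_lit 5) (nat_lit 319) (nat_lit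 306) (nat_lit 275)) (XT.lf (nat_lit 0) (nat_lit 675636264) (nat_lit 304) (nat_lit 1347656507) (nat_lit 380) (nat_lit 10100933025) (nat_lit 78) (nat_lit 5) (nat_lit 82) (nat_lit 5) (nat_lit 83) (nat_lit 5) (nat_lit 320) (nat_lit 306) (nat_lit 274)))) (XT.nd (nat_lit 78) (nat_lit 608) (nat_lit 0) (XT.lf (nat_lit 0) (nat_lit 5938782610) (nat_lit 380) (nat_lit 548071670) (nat_lit 76) (nat_lit 6170433283) (nat_lit 78) (nat_lit 5) (nat_lit 83) (nat_lit 5) (nat_lit 79) (nat_lit 5) (nat_lit 321) (nat_lit 306) (nat_lit 273)) (XT.nd (nat_lit 78) (nat_lit 380) (nat_lit 0) (XT.lf (nat_lit 0) (nat_lit 10292629250) (nat_lit 304) (nat_lit 1796400027) (nat_lit 76) (nat_lit 1137776246) (nat_lit 75) (nat_lit 5) (nat_lit 79) (nat_lit 5) (nat_lit 76) (nat_lit 5) (nat_lit 322) (nat_lit 306) (nat_lit 272)) (XT.lf (nat_lit 0) (nat_lit 1314806061) (nat_lit 380) (nat_lit 3193976122) (nat_lit 76) (nat_lit 9322321572)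 (nat_lit 70) (nat_lit 5) (nat_lit 75) (nat_lit 5) (nat_lit 71) (nat_lit 5) (nat_lit 323) (nat_lit 306) (nat_lit 271))))) (XT.nd (nat_lit 234) (nat_lit 684) (nat_lit 0) (XT.nd (nat_lit 78) (nat_lit 532) (nat_lit 0) (XT.lf (nat_lit 0) (nat_lit 5961435828) (nat_lit 304) (nat_lit 4741749388) (nat_lit 76) (nat_lit 3770183975) (nat_lit 67) (nat_lit 5) (nat_lit 71) (nat_lit 5) (nat_lit 68) (nat_lit 5) (nat_lit 324) (nat_lit 306) (nat_lit 270)) (XT.nd (nat_lit 78) (nat_lit 304) (nat_lit 0) (XT.lf (nat_lit 0) (nat_lit 8729506351) (nat_lit 228) (nat_lit 2436991364) (nat_lit 304) (nat_lit 3991233814) (nat_lit 64) (nat_lit 5) (nat_lit 67) (nat_lit 5) (nat_lit 68) (nat_lit 5) (nat_lit 325) (nat_lit 306) (nat_lit 269)) (XT.lf (nat_lit 0) (nat_lit 1091650625) (nat_lit 304) (nat_lit 8320681913) (nat_lit 76) (nat_lit 6472406909) (nat_lit 60) (nat_lit 5) (nat_lit 64) (nat_lit 5) (nat_lit 61) (nat_lit 5) (nat_lit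 326) (nat_lit 306) (nat_lit 268)))) (XT.nd (nat_lit 78) (nat_lit 456) (nat_lit 0) (XT.lf (nat_lit 0) (nat_lit 6219628055) (nat_lit 228) (nat_lit 400171347) (nat_lit 304) (nat_lit 10037955184) (nat_lit 57) (nat_lit 5) (nat_lit 60) (nat_lit 5) (nat_lit 61) (nat_lit 5) (nat_lit 327) (nat_lit 306) (nat_lit 267)) (XT.nd (nat_lit 78) (nat_lit 304) (nat_lit 0) (XT.lf (nat_lit 0) (nat_lit 4626443689) (nat_lit 152) (nat_lit 8257018367) (nat_lit 228) (nat_lit 4594524154) (nat_lit 55) (nat_lit 5) (nat_lit 57) (nat_lit 5) (nat_lit 58) (nat_lit 5) (nat_lit 328) (nat_lit 306) (nat_lit 266)) (XT.lf (nat_lit 0) (nat_lit 1432991828) (nat_lit 304) (nat_lit 15507142101) (nat_lit 76) (nat_lit 1413247698) (nat_lit 51) (nat_lit 5) (nat_lit 55) (nat_lit 5) (nat_lit 52) (nat_lit 5) (nat_lit 329) (nat_lit 306) (nat_lit 265)))))) (XT.nd (nat_lit 468) (nat_lit 760) (nat_lit 0) (XT.nd (nat_lit 234) (nat_lit 532) (nat_lit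 0) (XT.nd (nat_lit 78) (nat_lit 228) (nat_lit 0) (XT.lf (nat_lit 0) (nat_lit 667915561) (nat_lit 152) (nat_lit 7426730612) (nat_lit 228) (nat_lit 11184782490) (nat_lit 49) (nat_lit 5) (nat_lit 51) (nat_lit 5) (nat_lit 52) (nat_lit 5) (nat_lit 330) (nat_lit 306) (nat_lit 264)) (XT.nd (nat_lit 78) (nat_lit 228) (nat_lit 0) (XT.lf (nat_lit 0) (nat_lit 15544602070) (nat_lit 228) (nat_lit 1726534805) (nat_lit 76) (nat_lit 2995683137) (nat_lit 49) (nat_lit 5) (nat_lit 52) (nat_lit 5) (nat_lit 50) (nat_lit 5) (nat_lit 331) (nat_lit 306) (nat_lit 263)) (XT.lf (nat_lit 0) (nat_lit 2519498363) (nat_lit 228) (nat_lit 4529550186) (nat_lit 76) (nat_lit 14265697724) (nat_lit 46) (nat_lit 5) (nat_lit 49) (nat_lit 5) (nat_lit 47) (nat_lit 5) (nat_lit 332) (nat_lit 306) (nat_lit 262)))) (XT.nd (nat_lit 78) (nat_lit 380) (nat_lit 0) (XT.lf (nat_lit 0) (nat_lit 10447670028) (nat_lit 228) (nat_lit 7807612184)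 (nat_lit 76) (nat_lit 4173749363) (nat_lit 44) (nat_lit 5) (nat_lit 47) (nat_lit 5) (nat_lit 45) (nat_lit 5) (nat_lit 333) (nat_lit 306) (nat_lit 261)) (XT.nd (nat_lit 78) (nat_lit 228) (nat_lit 0) (XT.lf (nat_lit 0) (nat_lit 12011282471) (nat_lit 152) (nat_lit 7330773073) (nat_lit 228) (nat_lit 4273828082) (nat_lit 42) (nat_lit 5) (nat_lit 44) (nat_lit 5) (nat_lit 45) (nat_lit 5) (nat_lit 334) (nat_lit 306) (nat_lit 260)) (XT.lf (nat_lit 0) (nat_lit 4220397369) (nat_lit 228) (nat_lit 16022462633) (nat_lit 76) (nat_lit 4636695124) (nat_lit 39) (nat_lit 5) (nat_lit 42) (nat_lit 5) (nat_lit 40) (nat_lit 5) (nat_lit 335) (nat_lit 306) (nat_lit 259))))) (XT.nd (nat_lit 234) (nat_lit 456) (nat_lit 0) (XT.nd (nat_lit 78) (nat_lit 152) (nat_lit 0) (XT.lf (nat_lit 0) (nat_lit 5010619660) (nat_lit 152) (nat_lit 8592354627) (nat_lit 228) (nat_lit 12619933452) (nat_lit 37) (nat_lit 5) (nat_lit 39)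 (nat_lit 5) (nat_lit 40) (nat_lit 5) (nat_lit 336) (nat_lit 306) (nat_lit 258)) (XT.nd (nat_lit 78) (nat_lit 76) (nat_lit 0) (XT.lf (nat_lit 0) (nat_lit 503171134) (nat_lit 76) (nat_lit 23537988519) (nat_lit 152) (nat_lit 3617335375) (nat_lit 36) (nat_lit 5) (nat_lit 37) (nat_lit 5) (nat_lit 38) (nat_lit 4) (nat_lit 337) (nat_lit 306) (nat_lit 257)) (XT.lf (nat_lit 0) (nat_lit 6383247702) (nat_lit 152) (nat_lit 4806050876) (nat_lit 76) (nat_lit 17991219652) (nat_lit 35) (nat_lit 5) (nat_lit 37) (nat_lit 5) (nat_lit 36) (nat_lit 5) (nat_lit 338) (nat_lit 306) (nat_lit 256)))) (XT.nd (nat_lit 78) (nat_lit 304) (nat_lit 0) (XT.lf (nat_lit 0) (nat_lit 17363746193) (nat_lit 228) (nat_lit 11018826773) (nat_lit 76) (nat_lit 2423448704) (nat_lit 33) (nat_lit 5) (nat_lit 36) (nat_lit 5) (nat_lit 34) (nat_lit 4) (nat_lit 339) (nat_lit 306) (nat_lit 255)) (XT.nd (nat_lit 78) (nat_lit 228) (nat_lit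 0) (XT.lf (nat_lit 0) (nat_lit 14150157832) (nat_lit 76) (nat_lit 15525063829) (nat_lit 152) (nat_lit 2863729404) (nat_lit 32) (nat_lit 5) (nat_lit 33) (nat_lit 5) (nat_lit 34) (nat_lit 4) (nat_lit 340) (nat_lit 306) (nat_lit 254)) (XT.lf (nat_lit 0) (nat_lit 7350739550) (nat_lit 152) (nat_lit 1205391147) (nat_lit 228) (nat_lit 25834260080) (nat_lit 29) (nat_lit 5) (nat_lit 31) (nat_lit 5) (nat_lit 32) (nat_lit 5) (nat_lit 341) (nat_lit 306) (nat_lit 253))))))) (XT.nd (nat_lit 936) (nat_lit 684) (nat_lit 0) (XT.nd (nat_lit 468) (nat_lit 380) (nat_lit 0) (XT.nd (nat_lit 234) (nat_lit 228) (nat_lit 0) (XT.nd (nat_lit 78) (nat_lit 304) (nat_lit 0) (XT.lf (nat_lit 0) (nat_lit 21299435729) (nat_lit 228) (nat_lit 915256747) (nat_lit 76) (nat_lit 14147406746) (nat_lit 29) (nat_lit 5) (nat_lit 32) (nat_lit 5) (nat_lit 30) (nat_lit 4) (nat_lit 342) (nat_lit 306) (nat_lit 252)) (XT.nd (nat_lit 78)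 (nat_lit 228) (nat_lit 0) (XT.lf (nat_lit 0) (nat_lit 28112574766) (nat_lit 76) (nat_lit 7372424850) (nat_lit 152) (nat_lit 2985414481) (nat_lit 28) (nat_lit 5) (nat_lit 29) (nat_lit 5) (nat_lit 30) (nat_lit 4) (nat_lit 343) (nat_lit 306) (nat_lit 251)) (XT.lf (nat_lit 0) (nat_lit 10158264699) (nat_lit 228) (nat_lit 21728275936) (nat_lit 76) (nat_lit 8831901719) (nat_lit 25) (nat_lit 5) (nat_lit 28) (nat_lit 5) (nat_lit 26) (nat_lit 4) (nat_lit 344) (nat_lit 306) (nat_lit 250)))) (XT.nd (nat_lit 78) (nat_lit 152) (nat_lit 0) (XT.lf (nat_lit 0) (nat_lit 7932124830) (nat_lit 76) (nat_lit 16715568405) (nat_lit 152) (nat_lit 18476237843) (nat_lit 24) (nat_lit 5) (nat_lit 25) (nat_lit 5) (nat_lit 26) (nat_lit 4) (nat_lit 345) (nat_lit 306) (nat_lit 249)) (XT.nd (nat_lit 78) (nat_lit 152) (nat_lit 0) (XT.lf (nat_lit 0) (nat_lit 40642876578) (nat_lit 152) (nat_lit 5023920223) (nat_lit 0) (nat_lit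 37739239) (nat_lit 24) (nat_lit 5) (nat_lit 26) (nat_lit 4) (nat_lit 24) (nat_lit 4) (nat_lit 346) (nat_lit 306) (nat_lit 248)) (XT.lf (nat_lit 0) (nat_lit 9826080767) (nat_lit 152) (nat_lit 20496722825) (nat_lit 76) (nat_lit 18126349286) (nat_lit 22) (nat_lit 5) (nat_lit 24) (nat_lit 5) (nat_lit 23) (nat_lit 4) (nat_lit 347) (nat_lit 306) (nat_lit 247))))) (XT.nd (nat_lit 234) (nat_lit 152) (nat_lit 0) (XT.nd (nat_lit 78) (nat_lit 152) (nat_lit 0) (XT.lf (nat_lit 0) (nat_lit 12598576524) (nat_lit 76) (nat_lit 13387384260) (nat_lit 152) (nat_lit 25410312408) (nat_lit 21) (nat_lit 5) (nat_lit 22) (nat_lit 5) (nat_lit 23) (nat_lit 4) (nat_lit 348) (nat_lit 306) (nat_lit 246)) (XT.nd (nat_lit 78) (nat_lit 152) (nat_lit 0) (XT.lf (nat_lit 0) (nat_lit 43849491194) (nat_lit 152) (nat_lit 5624113366) (nat_lit 0) (nat_lit 5085020986) (nat_lit 21) (nat_lit 5) (nat_lit 23) (nat_lit 4) (nat_lit 21)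 (nat_lit 4) (nat_lit 349) (nat_lit 306) (nat_lit 245)) (XT.lf (nat_lit 0) (nat_lit 5695878925) (nat_lit 152) (nat_lit 27114418089) (nat_lit 76) (nat_lit 25124981714) (nat_lit 19) (nat_lit 5) (nat_lit 21) (nat_lit 5) (nat_lit 20) (nat_lit 4) (nat_lit 350) (nat_lit 306) (nat_lit 244)))) (XT.nd (nat_lit 78) (nat_lit 76) (nat_lit 0) (XT.lf (nat_lit 0) (nat_lit 8857896493) (nat_lit 76) (nat_lit 14397422100) (nat_lit 152) (nat_lit 38307110954) (nat_lit 18) (nat_lit 5) (nat_lit 19) (nat_lit 5) (nat_lit 20) (nat_lit 4) (nat_lit 351) (nat_lit 306) (nat_lit 243)) (XT.nd (nat_lit 78) (nat_lit 76) (nat_lit 0) (XT.lf (nat_lit 0) (nat_lit 42760430709) (nat_lit 152) (nat_lit 16920635747) (nat_lit 0) (nat_lit 5771644207) (nat_lit 18) (nat_lit 5) (nat_lit 20) (nat_lit 4) (nat_lit 18) (nat_lit 4) (nat_lit 352) (nat_lit 306) (nat_lit 242)) (XT.lf (nat_lit 0) (nat_lit 22148285342) (nat_lit 76) (nat_lit 42243237617)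 (nat_lit 76) (nat_lit 5234416545) (nat_lit 17) (nat_lit 4) (nat_lit 18) (nat_lit 5) (nat_lit 18) (nat_lit 4) (nat_lit 353) (nat_lit 306) (nat_lit 241)))))) (XT.nd (nat_lit 468) (nat_lit 304) (nat_lit 0) (XT.nd (nat_lit 234) (nat_lit 228) (nat_lit 0) (XT.nd (nat_lit 78) (nat_lit 76) (nat_lit 0) (XT.lf (nat_lit 0) (nat_lit 13461420267) (nat_lit 152) (nat_lit 9431460051) (nat_lit 76) (nat_lit 51215653707) (nat_lit 16) (nat_lit 5) (nat_lit 18) (nat_lit 5) (nat_lit 17) (nat_lit 4) (nat_lit 354) (nat_lit 306) (nat_lit 240)) (XT.nd (nat_lit 78) (nat_lit 0) (nat_lit 0) (XT.lf (nat_lit 0) (nat_lit 32573231422) (nat_lit 76) (nat_lit 1386660985) (nat_lit 152) (nat_lit 44961038451) (nat_lit 15) (nat_lit 5) (nat_lit 16) (nat_lit 5) (nat_lit 17) (nat_lit 4) (nat_lit 355) (nat_lit 306) (nat_lit 239)) (XT.lf (nat_lit 0) (nat_lit 56586214154) (nat_lit 152) (nat_lit 6217164074) (nat_lit 0) (nat_lit 21290545486)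 (nat_lit 15) (nat_lit 5) (nat_lit 17) (nat_lit 4) (nat_lit 15) (nat_lit 4) (nat_lit 356) (nat_lit 306) (nat_lit 238)))) (XT.nd (nat_lit 78) (nat_lit 152) (nat_lit 0) (XT.lf (nat_lit 0) (nat_lit 38290338375) (nat_lit 76) (nat_lit 43334989696) (nat_lit 76) (nat_lit 8025296259) (nat_lit 14) (nat_lit 4) (nat_lit 15) (nat_lit 5) (nat_lit 15) (nat_lit 4) (nat_lit 357) (nat_lit 306) (nat_lit 237)) (XT.nd (nat_lit 78) (nat_lit 76) (nat_lit 0) (XT.lf (nat_lit 0) (nat_lit 12691233082) (nat_lit 152) (nat_lit 9305651514) (nat_lit 76) (nat_lit 73640212806) (nat_lit 13) (nat_lit 5) (nat_lit 15) (nat_lit 5) (nat_lit 14) (nat_lit 4) (nat_lit 358) (nat_lit 306) (nat_lit 236)) (XT.lf (nat_lit 0) (nat_lit 35378660749) (nat_lit 152) (nat_lit 64960952108) (nat_lit 0) (nat_lit 1726562356) (nat_lit 12) (nat_lit 5) (nat_lit 14) (nat_lit 4) (nat_lit 12) (nat_lit 4) (nat_lit 359) (nat_lit 306) (nat_lit 235))))) (XT.nd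 (nat_lit 234) (nat_lit 228) (nat_lit 0) (XT.nd (nat_lit 78) (nat_lit 76) (nat_lit 0) (XT.lf (nat_lit 0) (nat_lit 60400631024) (nat_lit 152) (nat_lit 21845043337) (nat_lit 0) (nat_lit 26737929475) (nat_lit 12) (nat_lit 5) (nat_lit 14) (nat_lit 4) (nat_lit 12) (nat_lit 4) (nat_lit 360) (nat_lit 306) (nat_lit 234)) (XT.nd (nat_lit 78) (nat_lit 0) (nat_lit 0) (XT.lf (nat_lit 0) (nat_lit 25507583137) (nat_lit 76) (nat_lit 62300099290) (nat_lit 76) (nat_lit 28627580004) (nat_lit 11) (nat_lit 4) (nat_lit 12) (nat_lit 5) (nat_lit 12) (nat_lit 4) (nat_lit 361) (nat_lit 306) (nat_lit 233)) (XT.lf (nat_lit 0) (nat_lit 77400800661) (nat_lit 76) (nat_lit 40372775327) (nat_lit 76) (nat_lit 6691165544) (nat_lit 11) (nat_lit 4) (nat_lit 12) (nat_lit 5) (nat_lit 12) (nat_lit 4) (nat_lit 362) (nat_lit 306) (nat_lit 232)))) (XT.nd (nat_lit 156) (nat_lit 76) (nat_lit 0) (XT.nd (nat_lit 78) (nat_lit 0) (nat_lit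 0) (XT.lf (nat_lit 0) (nat_lit 17959546) (nat_lit 76) (nat_lit 16424960675) (nat_lit 152) (nat_lit 116681045774) (nat_lit 9) (nat_lit 5) (nat_lit 10) (nat_lit 5) (nat_lit 11) (nat_lit 4) (nat_lit 363) (nat_lit 306) (nat_lit 231)) (XT.lf (nat_lit 0) (nat_lit 42164071628) (nat_lit 152) (nat_lit 90186926196) (nat_lit 0) (nat_lit 10070909204) (nat_lit 9) (nat_lit 5) (nat_lit 11) (nat_lit 4) (nat_lit 9) (nat_lit 4) (nat_lit 364) (nat_lit 306) (nat_lit 230))) (XT.nd (nat_lit 78) (nat_lit 76) (nat_lit 0) (XT.lf (nat_lit 0) (nat_lit 70207835857) (nat_lit 152) (nat_lit 44134802014) (nat_lit 0) (nat_lit 38107800738) (nat_lit 9) (nat_lit 5) (nat_lit 11) (nat_lit 4) (nat_lit 9) (nat_lit 4) (nat_lit 365) (nat_lit 306) (nat_lit 229)) (XT.lf (nat_lit 0) (nat_lit 5764197560) (nat_lit 76) (nat_lit 94809756228) (nat_lit 76) (nat_lit 62703357503) (nat_lit 8) (nat_lit 4) (nat_lit 9) (nat_lit 5) (nat_lit 9)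 (nat_lit 4) (nat_lit 366) (nat_lit 306) (nat_lit 228))))))))
noncomputable def xc59 : XT := (XT.nd (nat_lit 1950) (nat_lit 0) (nat_lit 0) (XT.nd (nat_lit 936) (nat_lit 228) (nat_lit 0) (XT.nd (nat_lit 468) (nat_lit 76) (nat_lit 0) (XT.nd (nat_lit 234) (nat_lit 76) (nat_lit 0) (XT.nd (nat_lit 78) (nat_lit 76) (nat_lit 0) (XT.lf (nat_lit 0) (nat_lit 61210318525) (nat_lit 76) (nat_lit 72917199739) (nat_lit 76) (nat_lit 40804908785) (nat_lit 8) (nat_lit 4) (nat_lit 9) (nat_lit 5) (nat_lit 9) (nat_lit 4) (nat_lit 367) (nat_lit 306) (nat_lit 227)) (XT.nd (nat_lit 78) (nat_lit 76) (nat_lit 0) (XT.lf (nat_lit 0) (nat_lit 121072834613) (nat_lit 76) (nat_lit 49282678962) (nat_lit 76) (nat_lit 17164932241) (nat_lit 8) (nat_lit 4) (nat_lit 9) (nat_lit 5) (nat_lit 9) (nat_lit 4) (nat_lit 368) (nat_lit 306) (nat_lit 226)) (XT.lf (nat_lit 0) (nat_lit 8089195541) (nat_lit 152) (nat_lit 15539947496) (nat_lit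 76) (nat_lit 177480296677) (nat_lit 7) (nat_lit 5) (nat_lit 9) (nat_lit 5) (nat_lit 8) (nat_lit 4) (nat_lit 369) (nat_lit 306) (nat_lit 225)))) (XT.nd (nat_lit 78) (nat_lit 0) (nat_lit 0) (XT.lf (nat_lit 0) (nat_lit 35471536493) (nat_lit 152) (nat_lit 175390544433) (nat_lit 0) (nat_lit 4873940496) (nat_lit 6) (nat_lit 5) (nat_lit 8) (nat_lit 4) (nat_lit 6) (nat_lit 4) (nat_lit 370) (nat_lit 306) (nat_lit 224)) (XT.nd (nat_lit 78) (nat_lit 0) (nat_lit 0) (XT.lf (nat_lit 0) (nat_lit 65709702501) (nat_lit 152) (nat_lit 130681784283) (nat_lit 0) (nat_lit 35107981776) (nat_lit 6) (nat_lit 5) (nat_lit 8) (nat_lit 4) (nat_lit 6) (nat_lit 4) (nat_lit 371) (nat_lit 306) (nat_lit 223)) (XT.lf (nat_lit 0) (nat_lit 98359212314) (nat_lit 152) (nat_lit 82411492953) (nat_lit 0) (nat_lit 67753672397) (nat_lit 6) (nat_lit 5) (nat_lit 8) (nat_lit 4) (nat_lit 6) (nat_lit 4) (nat_lit 372) (nat_lit 306) (nat_lit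 222))))) (XT.nd (nat_lit 234) (nat_lit 0) (nat_lit 0) (XT.nd (nat_lit 78) (nat_lit 76) (nat_lit 0) (XT.lf (nat_lit 0) (nat_lit 133613544509) (nat_lit 152) (nat_lit 30293624274) (nat_lit 0) (nat_lit 103004468304) (nat_lit 6) (nat_lit 5) (nat_lit 8) (nat_lit 4) (nat_lit 6) (nat_lit 4) (nat_lit 373) (nat_lit 306) (nat_lit 221)) (XT.nd (nat_lit 78) (nat_lit 0) (nat_lit 0) (XT.lf (nat_lit 0) (nat_lit 26839706612) (nat_lit 76) (nat_lit 145260950074) (nat_lit 76) (nat_lit 114648599527) (nat_lit 5) (nat_lit 4) (nat_lit 6) (nat_lit 5) (nat_lit 6) (nat_lit 4) (nat_lit 374) (nat_lit 306) (nat_lit 220)) (XT.lf (nat_lit 0) (nat_lit 89613039210) (nat_lit 76) (nat_lit 124575079760) (nat_lit 76) (nat_lit 93959697416) (nat_lit 5) (nat_lit 4) (nat_lit 6) (nat_lit 5) (nat_lit 6) (nat_lit 4) (nat_lit 375) (nat_lit 306) (nat_lit 219)))) (XT.nd (nat_lit 78) (nat_lit 0) (nat_lit 0) (XT.lf (nat_lit 0) (nat_lit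 157396719609) (nat_lit 76) (nat_lit 102240012094) (nat_lit 76) (nat_lit 71621822530) (nat_lit 5) (nat_lit 4) (nat_lit 6) (nat_lit 5) (nat_lit 6) (nat_lit 4) (nat_lit 376) (nat_lit 306) (nat_lit 218)) (XT.nd (nat_lit 78) (nat_lit 0) (nat_lit 0) (XT.lf (nat_lit 0) (nat_lit 230592428878) (nat_lit 76) (nat_lit 78123391117) (nat_lit 76) (nat_lit 47502602275) (nat_lit 5) (nat_lit 4) (nat_lit 6) (nat_lit 5) (nat_lit 6) (nat_lit 4) (nat_lit 377) (nat_lit 306) (nat_lit 217)) (XT.lf (nat_lit 0) (nat_lit 309633919368) (nat_lit 76) (nat_lit 52082303521) (nat_lit 76) (nat_lit 21459107941) (nat_lit 5) (nat_lit 4) (nat_lit 6) (nat_lit 5) (nat_lit 6) (nat_lit 4) (nat_lit 378) (nat_lit 306) (nat_lit 216)))))) (XT.nd (nat_lit 468) (nat_lit 76) (nat_lit 0) (XT.nd (nat_lit 234) (nat_lit 0) (nat_lit 0) (XT.nd (nat_lit 78) (nat_lit 76) (nat_lit 0) (XT.lf (nat_lit 0) (nat_lit 6449734927) (nat_lit 152) (nat_lit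 17403467440) (nat_lit 76) (nat_lit 388430620788) (nat_lit 4) (nat_lit 5) (nat_lit 6) (nat_lit 5) (nat_lit 5) (nat_lit 4) (nat_lit 379) (nat_lit 306) (nat_lit 215)) (XT.nd (nat_lit 78) (nat_lit 0) (nat_lit 0) (XT.lf (nat_lit 0) (nat_lit 36657131920) (nat_lit 152) (nat_lit 399517294151) (nat_lit 0) (nat_lit 7488096269) (nat_lit 3) (nat_lit 5) (nat_lit 5) (nat_lit 4) (nat_lit 3) (nat_lit 4) (nat_lit 380) (nat_lit 306) (nat_lit 214)) (XT.lf (nat_lit 0) (nat_lit 69987219511) (nat_lit 152) (nat_lit 366712629061) (nat_lit 0) (nat_lit 40816364292) (nat_lit 3) (nat_lit 5) (nat_lit 5) (nat_lit 4) (nat_lit 3) (nat_lit 4) (nat_lit 381) (nat_lit 306) (nat_lit 213)))) (XT.nd (nat_lit 78) (nat_lit 0) (nat_lit 0) (XT.lf (nat_lit 0) (nat_lit 105979791247) (nat_lit 152) (nat_lit 331291352600) (nat_lit 0) (nat_lit 76807251243) (nat_lit 3) (nat_lit 5) (nat_lit 5) (nat_lit 4) (nat_lit 3) (nat_lit 4) (nat_lit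 382) (nat_lit 306) (nat_lit 212)) (XT.nd (nat_lit 78) (nat_lit 0) (nat_lit 0) (XT.lf (nat_lit 0) (nat_lit 144848136444) (nat_lit 152) (nat_lit 293043560908) (nat_lit 0) (nat_lit 115674036453) (nat_lit 3) (nat_lit 5) (nat_lit 5) (nat_lit 4) (nat_lit 3) (nat_lit 4) (nat_lit 383) (nat_lit 306) (nat_lit 211)) (XT.lf (nat_lit 0) (nat_lit 186822586034) (nat_lit 152) (nat_lit 251742600404) (nat_lit 0) (nat_lit 157647041611) (nat_lit 3) (nat_lit 5) (nat_lit 5) (nat_lit 4) (nat_lit 3) (nat_lit 4) (nat_lit 384) (nat_lit 306) (nat_lit 210))))) (XT.nd (nat_lit 234) (nat_lit 76) (nat_lit 0) (XT.nd (nat_lit 78) (nat_lit 0) (nat_lit 0) (XT.lf (nat_lit 0) (nat_lit 232151877498) (nat_lit 152) (nat_lit 207143724656) (nat_lit 0) (nat_lit 202974995638) (nat_lit 3) (nat_lit 5) (nat_lit 5) (nat_lit 4) (nat_lit 3) (nat_lit 4) (nat_lit 385) (nat_lit 306) (nat_lit 209)) (XT.nd (nat_lit 78) (nat_lit 0) (nat_lit 0)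 (XT.lf (nat_lit 0) (nat_lit 281104628859) (nat_lit 152) (nat_lit 158982644030) (nat_lit 0) (nat_lit 251926508632) (nat_lit 3) (nat_lit 5) (nat_lit 5) (nat_lit 4) (nat_lit 3) (nat_lit 4) (nat_lit 386) (nat_lit 306) (nat_lit 208)) (XT.lf (nat_lit 0) (nat_lit 333970930495) (nat_lit 152) (nat_lit 106973959529) (nat_lit 0) (nat_lit 304791663631) (nat_lit 3) (nat_lit 5) (nat_lit 5) (nat_lit 4) (nat_lit 3) (nat_lit 4) (nat_lit 387) (nat_lit 306) (nat_lit 207)))) (XT.nd (nat_lit 156) (nat_lit 0) (nat_lit 0) (XT.nd (nat_lit 78) (nat_lit 76) (nat_lit 0) (XT.lf (nat_lit 0) (nat_lit 391064064194) (nat_lit 152) (nat_lit 50809471542) (nat_lit 0) (nat_lit 361883735629) (nat_lit 3) (nat_lit 5) (nat_lit 5) (nat_lit 4) (nat_lit 3) (nat_lit 4) (nat_lit 388) (nat_lit 306) (nat_lit 206)) (XT.lf (nat_lit 0) (nat_lit 10169121935) (nat_lit 76) (nat_lit 442712006194) (nat_lit 76) (nat_lit 413530694573) (nat_lit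 2) (nat_lit 4) (nat_lit 3) (nat_lit 5) (nat_lit 3) (nat_lit 4) (nat_lit 389) (nat_lit 306) (nat_lit 205))) (XT.nd (nat_lit 78) (nat_lit 0) (nat_lit 0) (XT.lf (nat_lit 0) (nat_lit 77836060596) (nat_lit 76) (nat_lit 442690377760) (nat_lit 76) (nat_lit 413508155902) (nat_lit 2) (nat_lit 4) (nat_lit 3) (nat_lit 5) (nat_lit 3) (nat_lit 4) (nat_lit 390) (nat_lit 306) (nat_lit 204)) (XT.lf (nat_lit 0) (nat_lit 150912343115) (nat_lit 76) (nat_lit 442669005253) (nat_lit 76) (nat_lit 413485940582) (nat_lit 2) (nat_lit 4) (nat_lit 3) (nat_lit 5) (nat_lit 3) (nat_lit 4) (nat_lit 391) (nat_lit 306) (nat_lit 203))))))) (XT.nd (nat_lit 40950) (nat_lit 0) (nat_lit 4180) (XT.nd (nat_lit 40482) (nat_lit 0) (nat_lit 8360) (XT.nd (nat_lit 40248) (nat_lit 0) (nat_lit 9500) (XT.nd (nat_lit 78) (nat_lit 0) (nat_lit 0) (XT.lf (nat_lit 0) (nat_lit 229831014128) (nat_lit 76) (nat_lit 442647762020) (nat_lit 76) (nat_lit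 413463916968) (nat_lit 2) (nat_lit 4) (nat_lit 3) (nat_lit 5) (nat_lit 3) (nat_lit 4) (nat_lit 392) (nat_lit 306) (nat_lit 202)) (XT.nd (nat_lit 78) (nat_lit 0) (nat_lit 0) (XT.lf (nat_lit 0) (nat_lit 315059739835) (nat_lit 76) (nat_lit 442626522177) (nat_lit 76) (nat_lit 413441954549) (nat_lit 2) (nat_lit 4) (nat_lit 3) (nat_lit 5) (nat_lit 3) (nat_lit 4) (nat_lit 393) (nat_lit 306) (nat_lit 201)) (XT.lf (nat_lit 0) (nat_lit 407103579350) (nat_lit 76) (nat_lit 442605159856) (nat_lit 76) (nat_lit 413419923177) (nat_lit 2) (nat_lit 4) (nat_lit 3) (nat_lit 5) (nat_lit 3) (nat_lit 4) (nat_lit 394) (nat_lit 306) (nat_lit 200)))) (XT.nd (nat_lit 78) (nat_lit 608) (nat_lit 0) (XT.lf (nat_lit 0) (nat_lit 1523531424) (nat_lit 0) (nat_lit 1523531424) (nat_lit 532) (nat_lit 883838356) (nat_lit 135) (nat_lit 5) (nat_lit 135) (nat_lit 3) (nat_lit 142) (nat_lit 3) (nat_lit 307) (nat_lit 307) (nat_lit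 286)) (XT.nd (nat_lit 78) (nat_lit 0) (nat_lit 0) (XT.lf (nat_lit 0) (nat_lit 203468210) (nat_lit 608) (nat_lit 6818461439) (nat_lit 684) (nat_lit 1054673341) (nat_lit 127) (nat_lit 5) (nat_lit 135) (nat_lit 5) (nat_lit 136) (nat_lit 5) (nat_lit 308) (nat_lit 307) (nat_lit 285)) (XT.lf (nat_lit 0) (nat_lit 2212889047) (nat_lit 608) (nat_lit 515296224) (nat_lit 684) (nat_lit 5582023373) (nat_lit 127) (nat_lit 5) (nat_lit 135) (nat_lit 5) (nat_lit 136) (nat_lit 5) (nat_lit 309) (nat_lit 307) (nat_lit 284))))) (XT.nd (nat_lit 234) (nat_lit 1216) (nat_lit 0) (XT.nd (nat_lit 78) (nat_lit 0) (nat_lit 0) (XT.lf (nat_lit 0) (nat_lit 4334869054) (nat_lit 608) (nat_lit 2211156969) (nat_lit 684) (nat_lit 2019067653) (nat_lit 128) (nat_lit 5) (nat_lit 136) (nat_lit 5) (nat_lit 137) (nat_lit 5) (nat_lit 310) (nat_lit 307) (nat_lit 283)) (XT.nd (nat_lit 78) (nat_lit 0) (nat_lit 76) (XT.lf (nat_lit 76)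 (nat_lit 4950115349) (nat_lit 0) (nat_lit 1641171456) (nat_lit 684) (nat_lit 2251016515) (nat_lit 129) (nat_lit 5) (nat_lit 128) (nat_lit 5) (nat_lit 137) (nat_lit 5) (nat_lit 311) (nat_lit 307) (nat_lit 282)) (XT.lf (nat_lit 76) (nat_lit 3562602097) (nat_lit 0) (nat_lit 5461226549) (nat_lit 684) (nat_lit 118235906) (nat_lit 130) (nat_lit 5) (nat_lit 129) (nat_lit 5) (nat_lit 138) (nat_lit 5) (nat_lit 312) (nat_lit 307) (nat_lit 281)))) (XT.nd (nat_lit 78) (nat_lit 684) (nat_lit 0) (XT.lf (nat_lit 0) (nat_lit 2098189678) (nat_lit 684) (nat_lit 7286396231) (nat_lit 76) (nat_lit 80503862) (nat_lit 121) (nat_lit 5) (nat_lit 130) (nat_lit 5) (nat_lit 122) (nat_lit 5) (nat_lit 313) (nat_lit 307) (nat_lit 280)) (XT.nd (nat_lit 78) (nat_lit 0) (nat_lit 0) (XT.lf (nat_lit 0) (nat_lit 756572810) (nat_lit 684) (nat_lit 3794709189) (nat_lit 760) (nat_lit 5259530183) (nat_lit 112) (nat_lit 5) (nat_lit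 121) (nat_lit 5) (nat_lit 122) (nat_lit 5) (nat_lit 314) (nat_lit 307) (nat_lit 279)) (XT.lf (nat_lit 0) (nat_lit 7234175942) (nat_lit 760) (nat_lit 633085885) (nat_lit 76) (nat_lit 2315370296) (nat_lit 112) (nat_lit 5) (nat_lit 122) (nat_lit 5) (nat_lit 113) (nat_lit 5) (nat_lit 315) (nat_lit 307) (nat_lit 278)))))) (XT.nd (nat_lit 468) (nat_lit 1596) (nat_lit 0) (XT.nd (nat_lit 234) (nat_lit 1064) (nat_lit 0) (XT.nd (nat_lit 78) (nat_lit 760) (nat_lit 0) (XT.lf (nat_lit 0) (nat_lit 8559391339) (nat_lit 760) (nat_lit 1649135304) (nat_lit 836) (nat_lit 371938504) (nat_lit 102) (nat_lit 5) (nat_lit 112) (nat_lit 5) (nat_lit 113) (nat_lit 5) (nat_lit 316) (nat_lit 307) (nat_lit 277)) (XT.nd (nat_lit 78) (nat_lit 304) (nat_lit 0) (XT.lf (nat_lit 0) (nat_lit 2429743358) (nat_lit 456) (nat_lit 3495360485) (nat_lit 76) (nat_lit 5078424967) (nat_lit 96) (nat_lit 5) (nat_lit 102) (nat_lit 5) (nat_lit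 97) (nat_lit 5) (nat_lit 317) (nat_lit 307) (nat_lit 276)) (XT.lf (nat_lit 0) (nat_lit 5514025672) (nat_lit 380) (nat_lit 4998921158) (nat_lit 76) (nat_lit 943699822) (nat_lit 92) (nat_lit 5) (nat_lit 97) (nat_lit 5) (nat_lit 93) (nat_lit 5) (nat_lit 318) (nat_lit 307) (nat_lit 275)))) (XT.nd (nat_lit 78) (nat_lit 684) (nat_lit 0) (XT.lf (nat_lit 0) (nat_lit 5346809431) (nat_lit 380) (nat_lit 3641240964) (nat_lit 456) (nat_lit 2950895755) (nat_lit 87) (nat_lit 5) (nat_lit 92) (nat_lit 5) (nat_lit 93) (nat_lit 5) (nat_lit 319) (nat_lit 307) (nat_lit 274)) (XT.nd (nat_lit 78) (nat_lit 304) (nat_lit 0) (XT.lf (nat_lit 0) (nat_lit 389672391) (nat_lit 380) (nat_lit 8255143584) (nat_lit 76) (nat_lit 3808943822) (nat_lit 82) (nat_lit 5) (nat_lit 87) (nat_lit 5) (nat_lit 83) (nat_lit 5) (nat_lit 320) (nat_lit 307) (nat_lit 273)) (XT.lf (nat_lit 0) (nat_lit 2955141820) (nat_lit 304) (nat_lit 1071959352)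 (nat_lit 380) (nat_lit 8973655720) (nat_lit 78) (nat_lit 5) (nat_lit 82) (nat_lit 5) (nat_lit 83) (nat_lit 5) (nat_lit 321) (nat_lit 307) (nat_lit 272))))) (XT.nd (nat_lit 234) (nat_lit 988) (nat_lit 0) (XT.nd (nat_lit 78) (nat_lit 380) (nat_lit 0) (XT.lf (nat_lit 0) (nat_lit 1600870411) (nat_lit 228) (nat_lit 6549057624) (nat_lit 304) (nat_lit 5431927692) (nat_lit 75) (nat_lit 5) (nat_lit 78) (nat_lit 5) (nat_lit 79) (nat_lit 5) (nat_lit 322) (nat_lit 307) (nat_lit 271)) (XT.nd (nat_lit 78) (nat_lit 76) (nat_lit 0) (XT.lf (nat_lit 0) (nat_lit 189627506) (nat_lit 304) (nat_lit 12552407375) (nat_lit 380) (nat_lit 1460492448) (nat_lit 71) (nat_lit 5) (nat_lit 75) (nat_lit 5) (nat_lit 76) (nat_lit 5) (nat_lit 323) (nat_lit 307) (nat_lit 270)) (XT.lf (nat_lit 0) (nat_lit 2980678509) (nat_lit 380) (nat_lit 1365522482) (nat_lit 76) (nat_lit 10512366479) (nat_lit 70) (nat_lit 5) (nat_lit 75) (nat_lit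 5) (nat_lit 71) (nat_lit 5) (nat_lit 324) (nat_lit 307) (nat_lit 269)))) (XT.nd (nat_lit 156) (nat_lit 532) (nat_lit 0) (XT.nd (nat_lit 78) (nat_lit 228) (nat_lit 0) (XT.lf (nat_lit 0) (nat_lit 7922629731) (nat_lit 304) (nat_lit 3061032391) (nat_lit 76) (nat_lit 4572445812) (nat_lit 67) (nat_lit 5) (nat_lit 71) (nat_lit 5) (nat_lit 68) (nat_lit 5) (nat_lit 325) (nat_lit 307) (nat_lit 268)) (XT.lf (nat_lit 0) (nat_lit 11398396243) (nat_lit 228) (nat_lit 2066519218) (nat_lit 304) (nat_lit 2834330769) (nat_lit 64) (nat_lit 5) (nat_lit 67) (nat_lit 5) (nat_lit 68) (nat_lit 5) (nat_lit 326) (nat_lit 307) (nat_lit 267))) (XT.nd (nat_lit 78) (nat_lit 228) (nat_lit 0) (XT.lf (nat_lit 0) (nat_lit 2541252528) (nat_lit 304) (nat_lit 6996083063) (nat_lit 76) (nat_lit 7549320907) (nat_lit 60) (nat_lit 5) (nat_lit 64) (nat_lit 5) (nat_lit 61) (nat_lit 5) (nat_lit 327) (nat_lit 307) (nat_lit 266)) (XT.lf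 (nat_lit 0) (nat_lit 8443285310) (nat_lit 304) (nat_lit 9306987842) (nat_lit 76) (nat_lit 174713545) (nat_lit 57) (nat_lit 5) (nat_lit 61) (nat_lit 5) (nat_lit 58) (nat_lit 5) (nat_lit 328) (nat_lit 307) (nat_lit 265))))))))
noncomputable def xc60 : XT := (XT.nd (nat_lit 1872) (nat_lit 988) (nat_lit 0) (XT.nd (nat_lit 936) (nat_lit 1140) (nat_lit 0) (XT.nd (nat_lit 468) (nat_lit 836) (nat_lit 0) (XT.nd (nat_lit 234) (nat_lit 380) (nat_lit 0) (XT.nd (nat_lit 78) (nat_lit 456) (nat_lit 0) (XT.lf (nat_lit 0) (nat_lit 6870845452) (nat_lit 152) (nat_lit 8276861593) (nat_lit 228) (nat_lit 3666197848) (nat_lit 55) (nat_lit 5) (nat_lit 57) (nat_lit 5) (nat_lit 58) (nat_lit 5) (nat_lit 329) (nat_lit 307) (nat_lit 264)) (XT.nd (nat_lit 78) (nat_lit 152) (nat_lit 0) (XT.lf (nat_lit 0) (nat_lit 2747781893) (nat_lit 304) (nat_lit 14864589840) (nat_lit 76) (nat_lit 2148706915) (nat_lit 51) (nat_lit 5)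 (nat_lit 55) (nat_lit 5) (nat_lit 52) (nat_lit 5) (nat_lit 330) (nat_lit 307) (nat_lit 263)) (XT.lf (nat_lit 0) (nat_lit 2522634177) (nat_lit 152) (nat_lit 7358957469) (nat_lit 228) (nat_lit 10882698572) (nat_lit 49) (nat_lit 5) (nat_lit 51) (nat_lit 5) (nat_lit 52) (nat_lit 5) (nat_lit 331) (nat_lit 307) (nat_lit 262)))) (XT.nd (nat_lit 78) (nat_lit 380) (nat_lit 0) (XT.lf (nat_lit 0) (nat_lit 17852714748) (nat_lit 228) (nat_lit 153135539) (nat_lit 76) (nat_lit 3828602869) (nat_lit 49) (nat_lit 5) (nat_lit 52) (nat_lit 5) (nat_lit 50) (nat_lit 5) (nat_lit 332) (nat_lit 307) (nat_lit 261)) (XT.nd (nat_lit 78) (nat_lit 152) (nat_lit 0) (XT.lf (nat_lit 0) (nat_lit 3749320733) (nat_lit 228) (nat_lit 3220345918) (nat_lit 76) (nat_lit 15998418306) (nat_lit 46) (nat_lit 5) (nat_lit 49) (nat_lit 5) (nat_lit 47) (nat_lit 5) (nat_lit 333) (nat_lit 307) (nat_lit 260)) (XT.lf (nat_lit 0) (nat_lit 12270251283)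 (nat_lit 228) (nat_lit 6793757130) (nat_lit 76) (nat_lit 5109611107) (nat_lit 44) (nat_lit 5) (nat_lit 47) (nat_lit 5) (nat_lit 45) (nat_lit 5) (nat_lit 334) (nat_lit 307) (nat_lit 259))))) (XT.nd (nat_lit 234) (nat_lit 304) (nat_lit 0) (XT.nd (nat_lit 78) (nat_lit 380) (nat_lit 0) (XT.lf (nat_lit 0) (nat_lit 14539443447) (nat_lit 152) (nat_lit 7288119590) (nat_lit 228) (nat_lit 3630317277) (nat_lit 42) (nat_lit 5) (nat_lit 44) (nat_lit 5) (nat_lit 45) (nat_lit 5) (nat_lit 335) (nat_lit 307) (nat_lit 258)) (XT.nd (nat_lit 78) (nat_lit 152) (nat_lit 0) (XT.lf (nat_lit 0) (nat_lit 5474850962) (nat_lit 228) (nat_lit 15738650493) (nat_lit 76) (nat_lit 5610253489) (nat_lit 39) (nat_lit 5) (nat_lit 42) (nat_lit 5) (nat_lit 40) (nat_lit 5) (nat_lit 336) (nat_lit 307) (nat_lit 257)) (XT.lf (nat_lit 0) (nat_lit 6909038918) (nat_lit 152) (nat_lit 8654463650) (nat_lit 228) (nat_lit 12713323736) (nat_lit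 37) (nat_lit 5) (nat_lit 39) (nat_lit 5) (nat_lit 40) (nat_lit 5) (nat_lit 337) (nat_lit 307) (nat_lit 256)))) (XT.nd (nat_lit 78) (nat_lit 228) (nat_lit 0) (XT.lf (nat_lit 0) (nat_lit 2008579456) (nat_lit 76) (nat_lit 24795463603) (nat_lit 152) (nat_lit 3024874691) (nat_lit 36) (nat_lit 5) (nat_lit 37) (nat_lit 5) (nat_lit 38) (nat_lit 4) (nat_lit 338) (nat_lit 307) (nat_lit 255)) (XT.nd (nat_lit 78) (nat_lit 152) (nat_lit 0) (XT.lf (nat_lit 0) (nat_lit 7684299080) (nat_lit 152) (nat_lit 3807531797) (nat_lit 76) (nat_lit 19983364657) (nat_lit 35) (nat_lit 5) (nat_lit 37) (nat_lit 5) (nat_lit 36) (nat_lit 5) (nat_lit 339) (nat_lit 307) (nat_lit 254)) (XT.lf (nat_lit 0) (nat_lit 19514249659) (nat_lit 228) (nat_lit 10548487590) (nat_lit 76) (nat_lit 3169469506) (nat_lit 33) (nat_lit 5) (nat_lit 36) (nat_lit 5) (nat_lit 34) (nat_lit 4) (nat_lit 340) (nat_lit 307) (nat_lit 253)))))) (XT.nd (nat_lit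 468) (nat_lit 456) (nat_lit 0) (XT.nd (nat_lit 234) (nat_lit 304) (nat_lit 0) (XT.nd (nat_lit 78) (nat_lit 304) (nat_lit 0) (XT.lf (nat_lit 0) (nat_lit 16575266233) (nat_lit 76) (nat_lit 16199165501) (nat_lit 152) (nat_lit 2331166114) (nat_lit 32) (nat_lit 5) (nat_lit 33) (nat_lit 5) (nat_lit 34) (nat_lit 4) (nat_lit 341) (nat_lit 307) (nat_lit 252)) (XT.nd (nat_lit 78) (nat_lit 76) (nat_lit 0) (XT.lf (nat_lit 0) (nat_lit 9199207637) (nat_lit 152) (nat_lit 743762136) (nat_lit 228) (nat_lit 27163349928) (nat_lit 29) (nat_lit 5) (nat_lit 31) (nat_lit 5) (nat_lit 32) (nat_lit 5) (nat_lit 342) (nat_lit 307) (nat_lit 251)) (XT.lf (nat_lit 0) (nat_lit 209906184) (nat_lit 76) (nat_lit 23455151909) (nat_lit 152) (nat_lit 15572754481) (nat_lit 28) (nat_lit 5) (nat_lit 29) (nat_lit 5) (nat_lit 30) (nat_lit 4) (nat_lit 343) (nat_lit 307) (nat_lit 250)))) (XT.nd (nat_lit 78) (nat_lit 304) (nat_lit 0)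 (XT.lf (nat_lit 0) (nat_lit 31501457594) (nat_lit 76) (nat_lit 7449759295) (nat_lit 152) (nat_lit 2565300942) (nat_lit 28) (nat_lit 5) (nat_lit 29) (nat_lit 5) (nat_lit 30) (nat_lit 4) (nat_lit 344) (nat_lit 307) (nat_lit 249)) (XT.nd (nat_lit 78) (nat_lit 76) (nat_lit 0) (XT.lf (nat_lit 0) (nat_lit 11586722725) (nat_lit 228) (nat_lit 22333192057) (nat_lit 76) (nat_lit 10025073322) (nat_lit 25) (nat_lit 5) (nat_lit 28) (nat_lit 5) (nat_lit 26) (nat_lit 4) (nat_lit 345) (nat_lit 307) (nat_lit 248)) (XT.lf (nat_lit 0) (nat_lit 9650786936) (nat_lit 76) (nat_lit 17555829743) (nat_lit 152) (nat_lit 19337744045) (nat_lit 24) (nat_lit 5) (nat_lit 25) (nat_lit 5) (nat_lit 26) (nat_lit 4) (nat_lit 346) (nat_lit 307) (nat_lit 247))))) (XT.nd (nat_lit 234) (nat_lit 228) (nat_lit 0) (XT.nd (nat_lit 78) (nat_lit 228) (nat_lit 0) (XT.lf (nat_lit 0) (nat_lit 44445109760) (nat_lit 152) (nat_lit 4401928615)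 (nat_lit 0) (nat_lit 486200544) (nat_lit 24) (nat_lit 5) (nat_lit 26) (nat_lit 4) (nat_lit 24) (nat_lit 4) (nat_lit 347) (nat_lit 307) (nat_lit 246)) (XT.nd (nat_lit 78) (nat_lit 76) (nat_lit 0) (XT.lf (nat_lit 0) (nat_lit 11146180156) (nat_lit 152) (nat_lit 21139290530) (nat_lit 76) (nat_lit 20012808087) (nat_lit 22) (nat_lit 5) (nat_lit 24) (nat_lit 5) (nat_lit 23) (nat_lit 4) (nat_lit 348) (nat_lit 307) (nat_lit 245)) (XT.lf (nat_lit 0) (nat_lit 14560296969) (nat_lit 76) (nat_lit 14013889119) (nat_lit 152) (nat_lit 26908223676) (nat_lit 21) (nat_lit 5) (nat_lit 22) (nat_lit 5) (nat_lit 23) (nat_lit 4) (nat_lit 349) (nat_lit 307) (nat_lit 244)))) (XT.nd (nat_lit 78) (nat_lit 228) (nat_lit 0) (XT.lf (nat_lit 0) (nat_lit 47835495038) (nat_lit 152) (nat_lit 5173616569) (nat_lit 0) (nat_lit 5890211144) (nat_lit 21) (nat_lit 5) (nat_lit 23) (nat_lit 4) (nat_lit 21) (nat_lit 4) (nat_lit 350)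 (nat_lit 307) (nat_lit 243)) (XT.nd (nat_lit 78) (nat_lit 76) (nat_lit 0) (XT.lf (nat_lit 0) (nat_lit 6615188253) (nat_lit 152) (nat_lit 28406867176) (nat_lit 76) (nat_lit 27524783742) (nat_lit 19) (nat_lit 5) (nat_lit 21) (nat_lit 5) (nat_lit 20) (nat_lit 4) (nat_lit 351) (nat_lit 307) (nat_lit 242)) (XT.lf (nat_lit 0) (nat_lit 10405132069) (nat_lit 76) (nat_lit 15153000351) (nat_lit 152) (nat_lit 40907098087) (nat_lit 18) (nat_lit 5) (nat_lit 19) (nat_lit 5) (nat_lit 20) (nat_lit 4) (nat_lit 352) (nat_lit 307) (nat_lit 241))))))) (XT.nd (nat_lit 936) (nat_lit 304) (nat_lit 0) (XT.nd (nat_lit 468) (nat_lit 380) (nat_lit 0) (XT.nd (nat_lit 234) (nat_lit 152) (nat_lit 0) (XT.nd (nat_lit 78) (nat_lit 152) (nat_lit 0) (XT.lf (nat_lit 0) (nat_lit 46596611809) (nat_lit 152) (nat_lit 17482979916) (nat_lit 0) (nat_lit 6588499953) (nat_lit 18) (nat_lit 5) (nat_lit 20) (nat_lit 4) (nat_lit 18) (nat_lit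 4) (nat_lit 353) (nat_lit 307) (nat_lit 240)) (XT.nd (nat_lit 78) (nat_lit 76) (nat_lit 0) (XT.lf (nat_lit 0) (nat_lit 24677065634) (nat_lit 76) (nat_lit 45262176988) (nat_lit 76) (nat_lit 5236888718) (nat_lit 17) (nat_lit 4) (nat_lit 18) (nat_lit 5) (nat_lit 18) (nat_lit 4) (nat_lit 354) (nat_lit 307) (nat_lit 239)) (XT.lf (nat_lit 0) (nat_lit 14911442734) (nat_lit 152) (nat_lit 9472734751) (nat_lit 76) (nat_lit 55634327884) (nat_lit 16) (nat_lit 5) (nat_lit 18) (nat_lit 5) (nat_lit 17) (nat_lit 4) (nat_lit 355) (nat_lit 307) (nat_lit 238)))) (XT.nd (nat_lit 78) (nat_lit 76) (nat_lit 0) (XT.lf (nat_lit 0) (nat_lit 35861335407) (nat_lit 76) (nat_lit 1171471310) (nat_lit 152) (nat_lit 48183940672) (nat_lit 15) (nat_lit 5) (nat_lit 16) (nat_lit 5) (nat_lit 17) (nat_lit 4) (nat_lit 356) (nat_lit 307) (nat_lit 237)) (XT.nd (nat_lit 78) (nat_lit 76) (nat_lit 0) (XT.lf (nat_lit 0) (nat_lit 61447569254)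 (nat_lit 152) (nat_lit 6071007827) (nat_lit 0) (nat_lit 23286089676) (nat_lit 15) (nat_lit 5) (nat_lit 17) (nat_lit 4) (nat_lit 15) (nat_lit 4) (nat_lit 357) (nat_lit 307) (nat_lit 236)) (XT.lf (nat_lit 0) (nat_lit 41969127816) (nat_lit 76) (nat_lit 46505520458) (nat_lit 76) (nat_lit 8332016902) (nat_lit 14) (nat_lit 4) (nat_lit 15) (nat_lit 5) (nat_lit 15) (nat_lit 4) (nat_lit 358) (nat_lit 307) (nat_lit 235))))) (XT.nd (nat_lit 234) (nat_lit 228) (nat_lit 0) (XT.nd (nat_lit 78) (nat_lit 76) (nat_lit 0) (XT.lf (nat_lit 0) (nat_lit 14007060679) (nat_lit 152) (nat_lit 9470162476) (nat_lit 76) (nat_lit 79795776435) (nat_lit 13) (nat_lit 5) (nat_lit 15) (nat_lit 5) (nat_lit 14) (nat_lit 4) (nat_lit 359) (nat_lit 307) (nat_lit 234)) (XT.nd (nat_lit 78) (nat_lit 0) (nat_lit 0) (XT.lf (nat_lit 0) (nat_lit 38500063414) (nat_lit 152) (nat_lit 69592889221) (nat_lit 0) (nat_lit 2123924849) (nat_lit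 12) (nat_lit 5) (nat_lit 14) (nat_lit 4) (nat_lit 12) (nat_lit 4) (nat_lit 360) (nat_lit 307) (nat_lit 233)) (XT.lf (nat_lit 0) (nat_lit 65502227621) (nat_lit 152) (nat_lit 23069555086) (nat_lit 0) (nat_lit 29116998559) (nat_lit 12) (nat_lit 5) (nat_lit 14) (nat_lit 4) (nat_lit 12) (nat_lit 4) (nat_lit 361) (nat_lit 307) (nat_lit 232)))) (XT.nd (nat_lit 78) (nat_lit 152) (nat_lit 0) (XT.lf (nat_lit 0) (nat_lit 28048548578) (nat_lit 76) (nat_lit 67041140183) (nat_lit 76) (nat_lit 30647493994) (nat_lit 11) (nat_lit 4) (nat_lit 12) (nat_lit 5) (nat_lit 12) (nat_lit 4) (nat_lit 362) (nat_lit 307) (nat_lit 231)) (XT.nd (nat_lit 78) (nat_lit 152) (nat_lit 0) (XT.lf (nat_lit 0) (nat_lit 84056159890) (nat_lit 76) (nat_lit 43377627863) (nat_lit 76) (nat_lit 6976188037) (nat_lit 11) (nat_lit 4) (nat_lit 12) (nat_lit 5) (nat_lit 12) (nat_lit 4) (nat_lit 363) (nat_lit 307) (nat_lit 230)) (XT.lf (nat_lit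 0) (nat_lit 470245574) (nat_lit 76) (nat_lit 17519462586) (nat_lit 152) (nat_lit 125772582020) (nat_lit 9) (nat_lit 5) (nat_lit 10) (nat_lit 5) (nat_lit 11) (nat_lit 4) (nat_lit 364) (nat_lit 307) (nat_lit 229)))))) (XT.nd (nat_lit 468) (nat_lit 152) (nat_lit 0) (XT.nd (nat_lit 234) (nat_lit 76) (nat_lit 0) (XT.nd (nat_lit 78) (nat_lit 76) (nat_lit 0) (XT.lf (nat_lit 0) (nat_lit 45754587406) (nat_lit 152) (nat_lit 96976866006) (nat_lit 0) (nat_lit 11073313176) (nat_lit 9) (nat_lit 5) (nat_lit 11) (nat_lit 4) (nat_lit 9) (nat_lit 4) (nat_lit 365) (nat_lit 307) (nat_lit 228)) (XT.nd (nat_lit 78) (nat_lit 76) (nat_lit 0) (XT.lf (nat_lit 0) (nat_lit 76025749807) (nat_lit 152) (nat_lit 47272054428) (nat_lit 0) (nat_lit 41338583349) (nat_lit 9) (nat_lit 5) (nat_lit 11) (nat_lit 4) (nat_lit 9) (nat_lit 4) (nat_lit 366) (nat_lit 307) (nat_lit 227)) (XT.lf (nat_lit 0) (nat_lit 6601762701) (nat_lit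 76) (nat_lit 102210361434) (nat_lit 76) (nat_lit 67517739209) (nat_lit 8) (nat_lit 4) (nat_lit 9) (nat_lit 5) (nat_lit 9) (nat_lit 4) (nat_lit 367) (nat_lit 307) (nat_lit 226)))) (XT.nd (nat_lit 78) (nat_lit 76) (nat_lit 0) (XT.lf (nat_lit 0) (nat_lit 66455689689) (nat_lit 76) (nat_lit 78580043040) (nat_lit 76) (nat_lit 43882369179) (nat_lit 8) (nat_lit 4) (nat_lit 9) (nat_lit 5) (nat_lit 9) (nat_lit 4) (nat_lit 368) (nat_lit 307) (nat_lit 225)) (XT.nd (nat_lit 78) (nat_lit 76) (nat_lit 0) (XT.lf (nat_lit 0) (nat_lit 131081388865) (nat_lit 76) (nat_lit 53067392651) (nat_lit 76) (nat_lit 18365041349) (nat_lit 8) (nat_lit 4) (nat_lit 9) (nat_lit 5) (nat_lit 9) (nat_lit 4) (nat_lit 369) (nat_lit 307) (nat_lit 224)) (XT.lf (nat_lit 0) (nat_lit 8891466050) (nat_lit 152) (nat_lit 16479176860) (nat_lit 76) (nat_lit 191819780004) (nat_lit 7) (nat_lit 5) (nat_lit 9) (nat_lit 5) (nat_lit 8) (nat_lit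 4) (nat_lit 370) (nat_lit 307) (nat_lit 223))))) (XT.nd (nat_lit 234) (nat_lit 76) (nat_lit 0) (XT.nd (nat_lit 78) (nat_lit 0) (nat_lit 0) (XT.lf (nat_lit 0) (nat_lit 38459668302) (nat_lit 152) (nat_lit 189125834285) (nat_lit 0) (nat_lit 5401866001) (nat_lit 6) (nat_lit 5) (nat_lit 8) (nat_lit 4) (nat_lit 6) (nat_lit 4) (nat_lit 371) (nat_lit 307) (nat_lit 222)) (XT.nd (nat_lit 78) (nat_lit 0) (nat_lit 0) (XT.lf (nat_lit 0) (nat_lit 71105746191) (nat_lit 152) (nat_lit 140862295820) (nat_lit 0) (nat_lit 38044407600) (nat_lit 6) (nat_lit 5) (nat_lit 8) (nat_lit 4) (nat_lit 6) (nat_lit 4) (nat_lit 372) (nat_lit 307) (nat_lit 221)) (XT.lf (nat_lit 0) (nat_lit 106356900678) (nat_lit 152) (nat_lit 88750679792) (nat_lit 0) (nat_lit 73292287747) (nat_lit 6) (nat_lit 5) (nat_lit 8) (nat_lit 4) (nat_lit 6) (nat_lit 4) (nat_lit 373) (nat_lit 307) (nat_lit 220)))) (XT.nd (nat_lit 156) (nat_lit 0) (nat_lit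 0) (XT.nd (nat_lit 78) (nat_lit 76) (nat_lit 0) (XT.lf (nat_lit 0) (nat_lit 144422027495) (nat_lit 152) (nat_lit 32482176626) (nat_lit 0) (nat_lit 111354382766) (nat_lit 6) (nat_lit 5) (nat_lit 8) (nat_lit 4) (nat_lit 6) (nat_lit 4) (nat_lit 374) (nat_lit 307) (nat_lit 219)) (XT.lf (nat_lit 0) (nat_lit 29211610630) (nat_lit 76) (nat_lit 156771162240) (nat_lit 76) (nat_lit 123700710291) (nat_lit 5) (nat_lit 4) (nat_lit 6) (nat_lit 5) (nat_lit 6) (nat_lit 4) (nat_lit 375) (nat_lit 307) (nat_lit 218))) (XT.nd (nat_lit 78) (nat_lit 0) (nat_lit 0) (XT.lf (nat_lit 0) (nat_lit 96990163355) (nat_lit 76) (nat_lit 134438619623) (nat_lit 76) (nat_lit 101365568396) (nat_lit 5) (nat_lit 4) (nat_lit 6) (nat_lit 5) (nat_lit 6) (nat_lit 4) (nat_lit 376) (nat_lit 307) (nat_lit 217)) (XT.lf (nat_lit 0) (nat_lit 170181124778) (nat_lit 76) (nat_lit 110324336656) (nat_lit 76) (nat_lit 77248878690) (nat_lit 5)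 (nat_lit 4) (nat_lit 6) (nat_lit 5) (nat_lit 6) (nat_lit 4) (nat_lit 377) (nat_lit 307) (nat_lit 216))))))))
noncomputable def xc61 : XT := (XT.nd (nat_lit 42042) (nat_lit 0) (nat_lit 2508) (XT.nd (nat_lit 936) (nat_lit 76) (nat_lit 0) (XT.nd (nat_lit 468) (nat_lit 0) (nat_lit 0) (XT.nd (nat_lit 234) (nat_lit 76) (nat_lit 0) (XT.nd (nat_lit 78) (nat_lit 76) (nat_lit 0) (XT.lf (nat_lit 0) (nat_lit 249218219114) (nat_lit 76) (nat_lit 84285413883) (nat_lit 76) (nat_lit 51207727455) (nat_lit 5) (nat_lit 4) (nat_lit 6) (nat_lit 5) (nat_lit 6) (nat_lit 4) (nat_lit 378) (nat_lit 307) (nat_lit 215)) (XT.nd (nat_lit 78) (nat_lit 76) (nat_lit 0) (XT.lf (nat_lit 0) (nat_lit 334569814331) (nat_lit 76) (nat_lit 56167546577) (nat_lit 76) (nat_lit 23087796759) (nat_lit 5) (nat_lit 4) (nat_lit 6) (nat_lit 5) (nat_lit 6) (nat_lit 4) (nat_lit 379) (nat_lit 307) (nat_lit 214)) (XT.lf (nat_lit 0) (nat_lit 7044622974)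 (nat_lit 152) (nat_lit 18640183267) (nat_lit 76) (nat_lit 419577770585) (nat_lit 4) (nat_lit 5) (nat_lit 6) (nat_lit 5) (nat_lit 5) (nat_lit 4) (nat_lit 380) (nat_lit 307) (nat_lit 213)))) (XT.nd (nat_lit 78) (nat_lit 0) (nat_lit 0) (XT.lf (nat_lit 0) (nat_lit 39666235992) (nat_lit 152) (nat_lit 431327247237) (nat_lit 0) (nat_lit 8158208002) (nat_lit 3) (nat_lit 5) (nat_lit 5) (nat_lit 4) (nat_lit 3) (nat_lit 4) (nat_lit 381) (nat_lit 307) (nat_lit 212)) (XT.nd (nat_lit 78) (nat_lit 0) (nat_lit 0) (XT.lf (nat_lit 0) (nat_lit 75657061440) (nat_lit 152) (nat_lit 395909426010) (nat_lit 0) (nat_lit 44147473464) (nat_lit 3) (nat_lit 5) (nat_lit 5) (nat_lit 4) (nat_lit 3) (nat_lit 4) (nat_lit 382) (nat_lit 307) (nat_lit 211)) (XT.lf (nat_lit 0) (nat_lit 114523789703) (nat_lit 152) (nat_lit 357664833608) (nat_lit 0) (nat_lit 83012757295) (nat_lit 3) (nat_lit 5) (nat_lit 5) (nat_lit 4) (nat_lit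 3) (nat_lit 4) (nat_lit 383) (nat_lit 307) (nat_lit 210))))) (XT.nd (nat_lit 234) (nat_lit 0) (nat_lit 0) (XT.nd (nat_lit 78) (nat_lit 0) (nat_lit 0) (XT.lf (nat_lit 0) (nat_lit 156496742133) (nat_lit 152) (nat_lit 316366835410) (nat_lit 0) (nat_lit 124984372288) (nat_lit 3) (nat_lit 5) (nat_lit 5) (nat_lit 4) (nat_lit 3) (nat_lit 4) (nat_lit 384) (nat_lit 307) (nat_lit 209)) (XT.nd (nat_lit 78) (nat_lit 0) (nat_lit 0) (XT.lf (nat_lit 0) (nat_lit 201824647338) (nat_lit 152) (nat_lit 271770702538) (nat_lit 0) (nat_lit 170311039124) (nat_lit 3) (nat_lit 5) (nat_lit 5) (nat_lit 4) (nat_lit 3) (nat_lit 4) (nat_lit 385) (nat_lit 307) (nat_lit 208)) (XT.lf (nat_lit 0) (nat_lit 250776115125) (nat_lit 152) (nat_lit 223612161611) (nat_lit 0) (nat_lit 219261360275) (nat_lit 3) (nat_lit 5) (nat_lit 5) (nat_lit 4) (nat_lit 3) (nat_lit 4) (nat_lit 386) (nat_lit 307) (nat_lit 207)))) (XT.nd (nat_lit 78)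 (nat_lit 0) (nat_lit 0) (XT.lf (nat_lit 0) (nat_lit 303641228267) (nat_lit 152) (nat_lit 171605828684) (nat_lit 0) (nat_lit 272125411716) (nat_lit 3) (nat_lit 5) (nat_lit 5) (nat_lit 4) (nat_lit 3) (nat_lit 4) (nat_lit 387) (nat_lit 307) (nat_lit 206)) (XT.nd (nat_lit 78) (nat_lit 0) (nat_lit 0) (XT.lf (nat_lit 0) (nat_lit 360733261508) (nat_lit 152) (nat_lit 115443518080) (nat_lit 0) (nat_lit 329216461901) (nat_lit 3) (nat_lit 5) (nat_lit 5) (nat_lit 4) (nat_lit 3) (nat_lit 4) (nat_lit 388) (nat_lit 307) (nat_lit 205)) (XT.lf (nat_lit 0) (nat_lit 422390538008) (nat_lit 152) (nat_lit 54792416107) (nat_lit 0) (nat_lit 390872828164) (nat_lit 3) (nat_lit 5) (nat_lit 5) (nat_lit 4) (nat_lit 3) (nat_lit 4) (nat_lit 389) (nat_lit 307) (nat_lit 204)))))) (XT.nd (nat_lit 40560) (nat_lit 0) (nat_lit 8360) (XT.nd (nat_lit 234) (nat_lit 0) (nat_lit 0) (XT.nd (nat_lit 78) (nat_lit 0) (nat_lit 0) (XT.lf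 (nat_lit 0) (nat_lit 11060909348) (nat_lit 76) (nat_lit 478090216666) (nat_lit 76) (nat_lit 446571664010) (nat_lit 2) (nat_lit 4) (nat_lit 3) (nat_lit 5) (nat_lit 3) (nat_lit 4) (nat_lit 390) (nat_lit 307) (nat_lit 203)) (XT.nd (nat_lit 78) (nat_lit 0) (nat_lit 0) (XT.lf (nat_lit 0) (nat_lit 84135406239) (nat_lit 76) (nat_lit 478069728330) (nat_lit 76) (nat_lit 446550395291) (nat_lit 2) (nat_lit 4) (nat_lit 3) (nat_lit 5) (nat_lit 3) (nat_lit 4) (nat_lit 391) (nat_lit 307) (nat_lit 202)) (XT.lf (nat_lit 0) (nat_lit 163052423893) (nat_lit 76) (nat_lit 478049303774) (nat_lit 76) (nat_lit 446529248160) (nat_lit 2) (nat_lit 4) (nat_lit 3) (nat_lit 5) (nat_lit 3) (nat_lit 4) (nat_lit 392) (nat_lit 307) (nat_lit 201)))) (XT.nd (nat_lit 78) (nat_lit 0) (nat_lit 0) (XT.lf (nat_lit 0) (nat_lit 248279618711) (nat_lit 76) (nat_lit 478028821964) (nat_lit 76) (nat_lit 446508097299) (nat_lit 2) (nat_lit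 4) (nat_lit 3) (nat_lit 5) (nat_lit 3) (nat_lit 4) (nat_lit 393) (nat_lit 307) (nat_lit 200)) (XT.nd (nat_lit 40170) (nat_lit 0) (nat_lit 9424) (XT.lf (nat_lit 0) (nat_lit 340322040737) (nat_lit 76) (nat_lit 478008161527) (nat_lit 76) (nat_lit 446486817370) (nat_lit 2) (nat_lit 4) (nat_lit 3) (nat_lit 5) (nat_lit 3) (nat_lit 4) (nat_lit 394) (nat_lit 307) (nat_lit 199)) (XT.lf (nat_lit 0) (nat_lit 975282121) (nat_lit 684) (nat_lit 1586981776) (nat_lit 684) (nat_lit 1586981776) (nat_lit 126) (nat_lit 3) (nat_lit 135) (nat_lit 3) (nat_lit 135) (nat_lit 5) (nat_lit 308) (nat_lit 308) (nat_lit 284))))) (XT.nd (nat_lit 234) (nat_lit 1064) (nat_lit 0) (XT.nd (nat_lit 78) (nat_lit 0) (nat_lit 76) (XT.lf (nat_lit 76) (nat_lit 3287481906) (nat_lit 0) (nat_lit 460881116) (nat_lit 684) (nat_lit 4794402197) (nat_lit 127) (nat_lit 5) (nat_lit 126) (nat_lit 3) (nat_lit 135) (nat_lit 5) (nat_lit 309) (nat_lit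 308) (nat_lit 283)) (XT.nd (nat_lit 78) (nat_lit 0) (nat_lit 76) (XT.lf (nat_lit 76) (nat_lit 1448977409) (nat_lit 0) (nat_lit 4224141017) (nat_lit 684) (nat_lit 3134473716) (nat_lit 128) (nat_lit 5) (nat_lit 127) (nat_lit 5) (nat_lit 136) (nat_lit 5) (nat_lit 310) (nat_lit 308) (nat_lit 282)) (XT.lf (nat_lit 0) (nat_lit 7711633617) (nat_lit 608) (nat_lit 340288660) (nat_lit 684) (nat_lit 1043849327) (nat_lit 128) (nat_lit 5) (nat_lit 136) (nat_lit 5) (nat_lit 137) (nat_lit 5) (nat_lit 311) (nat_lit 308) (nat_lit 281)))) (XT.nd (nat_lit 156) (nat_lit 532) (nat_lit 0) (XT.nd (nat_lit 78) (nat_lit 0) (nat_lit 76) (XT.lf (nat_lit 0) (nat_lit 532036939) (nat_lit 684) (nat_lit 2108764551) (nat_lit 760) (nat_lit 6763845009) (nat_lit 119) (nat_lit 5) (nat_lit 128) (nat_lit 5) (nat_lit 129) (nat_lit 5) (nat_lit 312) (nat_lit 308) (nat_lit 280)) (XT.lf (nat_lit 0) (nat_lit 2567233230) (nat_lit 684)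 (nat_lit 3907307795) (nat_lit 760) (nat_lit 3261971626) (nat_lit 120) (nat_lit 5) (nat_lit 129) (nat_lit 5) (nat_lit 130) (nat_lit 5) (nat_lit 313) (nat_lit 308) (nat_lit 279))) (XT.nd (nat_lit 78) (nat_lit 608) (nat_lit 0) (XT.lf (nat_lit 76) (nat_lit 4378998157) (nat_lit 0) (nat_lit 408772487) (nat_lit 760) (nat_lit 5306148630) (nat_lit 121) (nat_lit 5) (nat_lit 120) (nat_lit 5) (nat_lit 130) (nat_lit 5) (nat_lit 314) (nat_lit 308) (nat_lit 278)) (XT.lf (nat_lit 0) (nat_lit 2883963147) (nat_lit 684) (nat_lit 4392712910) (nat_lit 760) (nat_lit 3198814868) (nat_lit 112) (nat_lit 5) (nat_lit 121) (nat_lit 5) (nat_lit 122) (nat_lit 5) (nat_lit 315) (nat_lit 308) (nat_lit 277))))))) (XT.nd (nat_lit 936) (nat_lit 2204) (nat_lit 0) (XT.nd (nat_lit 468) (nat_lit 1368) (nat_lit 0) (XT.nd (nat_lit 234) (nat_lit 1064) (nat_lit 0) (XT.nd (nat_lit 78) (nat_lit 456) (nat_lit 0) (XT.lf (nat_lit 0) (nat_lit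 1390061192) (nat_lit 760) (nat_lit 8626676269) (nat_lit 836) (nat_lit 868349363) (nat_lit 102) (nat_lit 5) (nat_lit 112) (nat_lit 5) (nat_lit 113) (nat_lit 5) (nat_lit 316) (nat_lit 308) (nat_lit 276)) (XT.nd (nat_lit 78) (nat_lit 380) (nat_lit 0) (XT.lf (nat_lit 0) (nat_lit 1697335449) (nat_lit 836) (nat_lit 164665251) (nat_lit 76) (nat_lit 9459174261) (nat_lit 101) (nat_lit 5) (nat_lit 112) (nat_lit 5) (nat_lit 102) (nat_lit 5) (nat_lit 317) (nat_lit 308) (nat_lit 275)) (XT.lf (nat_lit 0) (nat_lit 4585226744) (nat_lit 456) (nat_lit 1750327174) (nat_lit 76) (nat_lit 5448597963) (nat_lit 96) (nat_lit 5) (nat_lit 102) (nat_lit 5) (nat_lit 97) (nat_lit 5) (nat_lit 318) (nat_lit 308) (nat_lit 274)))) (XT.nd (nat_lit 78) (nat_lit 760) (nat_lit 0) (XT.lf (nat_lit 0) (nat_lit 7802636080) (nat_lit 380) (nat_lit 3369787642) (nat_lit 76) (nat_lit 1106895025) (nat_lit 92) (nat_lit 5) (nat_lit 97)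 (nat_lit 5) (nat_lit 93) (nat_lit 5) (nat_lit 319) (nat_lit 308) (nat_lit 273)) (XT.nd (nat_lit 78) (nat_lit 380) (nat_lit 0) (XT.lf (nat_lit 0) (nat_lit 7715421475) (nat_lit 380) (nat_lit 3732612694) (nat_lit 456) (nat_lit 1357605482) (nat_lit 87) (nat_lit 5) (nat_lit 92) (nat_lit 5) (nat_lit 93) (nat_lit 5) (nat_lit 320) (nat_lit 308) (nat_lit 272)) (XT.lf (nat_lit 0) (nat_lit 2094178957) (nat_lit 380) (nat_lit 6920901174) (nat_lit 76) (nat_lit 4350101110) (nat_lit 82) (nat_lit 5) (nat_lit 87) (nat_lit 5) (nat_lit 83) (nat_lit 5) (nat_lit 321) (nat_lit 308) (nat_lit 271))))) (XT.nd (nat_lit 234) (nat_lit 532) (nat_lit 0) (XT.nd (nat_lit 78) (nat_lit 532) (nat_lit 0) (XT.lf (nat_lit 0) (nat_lit 5099521835) (nat_lit 304) (nat_lit 828918368) (nat_lit 380) (nat_lit 8032295822) (nat_lit 78) (nat_lit 5) (nat_lit 82) (nat_lit 5) (nat_lit 83) (nat_lit 5) (nat_lit 322) (nat_lit 308) (nat_lit 270))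 (XT.nd (nat_lit 78) (nat_lit 304) (nat_lit 0) (XT.lf (nat_lit 0) (nat_lit 3625681537) (nat_lit 228) (nat_lit 6672802701) (nat_lit 304) (nat_lit 4294052153) (nat_lit 75) (nat_lit 5) (nat_lit 78) (nat_lit 5) (nat_lit 79) (nat_lit 5) (nat_lit 323) (nat_lit 308) (nat_lit 269)) (XT.lf (nat_lit 0) (nat_lit 2085703402) (nat_lit 304) (nat_lit 13096551113) (nat_lit 380) (nat_lit 84469477) (nat_lit 71) (nat_lit 5) (nat_lit 75) (nat_lit 5) (nat_lit 76) (nat_lit 5) (nat_lit 324) (nat_lit 308) (nat_lit 268)))) (XT.nd (nat_lit 78) (nat_lit 228) (nat_lit 0) (XT.lf (nat_lit 0) (nat_lit 322218590) (nat_lit 228) (nat_lit 4239983312) (nat_lit 304) (nat_lit 11417048584) (nat_lit 67) (nat_lit 5) (nat_lit 70) (nat_lit 5) (nat_lit 71) (nat_lit 5) (nat_lit 325) (nat_lit 308) (nat_lit 267)) (XT.nd (nat_lit 78) (nat_lit 228) (nat_lit 0) (XT.lf (nat_lit 0) (nat_lit 9828970149) (nat_lit 304) (nat_lit 1539748189) (nat_lit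 76) (nat_lit 5367465688) (nat_lit 67) (nat_lit 5) (nat_lit 71) (nat_lit 5) (nat_lit 68) (nat_lit 5) (nat_lit 326) (nat_lit 308) (nat_lit 266)) (XT.lf (nat_lit 0) (nat_lit 13999679280) (nat_lit 228) (nat_lit 1747074418) (nat_lit 304) (nat_lit 1795472163) (nat_lit 64) (nat_lit 5) (nat_lit 67) (nat_lit 5) (nat_lit 68) (nat_lit 5) (nat_lit 327) (nat_lit 308) (nat_lit 265)))))) (XT.nd (nat_lit 468) (nat_lit 912) (nat_lit 0) (XT.nd (nat_lit 234) (nat_lit 608) (nat_lit 0) (XT.nd (nat_lit 78) (nat_lit 380) (nat_lit 0) (XT.lf (nat_lit 0) (nat_lit 3912479559) (nat_lit 304) (nat_lit 5849448204) (nat_lit 76) (nat_lit 8632623100) (nat_lit 60) (nat_lit 5) (nat_lit 64) (nat_lit 5) (nat_lit 61) (nat_lit 5) (nat_lit 328) (nat_lit 308) (nat_lit 264)) (XT.nd (nat_lit 78) (nat_lit 152) (nat_lit 0) (XT.lf (nat_lit 0) (nat_lit 10233845508) (nat_lit 304) (nat_lit 8371641868) (nat_lit 76) (nat_lit 697149117) (nat_lit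 57) (nat_lit 5) (nat_lit 61) (nat_lit 5) (nat_lit 58) (nat_lit 5) (nat_lit 329) (nat_lit 308) (nat_lit 263)) (XT.lf (nat_lit 0) (nat_lit 9027411465) (nat_lit 152) (nat_lit 8389697897) (nat_lit 228) (nat_lit 2848478382) (nat_lit 55) (nat_lit 5) (nat_lit 57) (nat_lit 5) (nat_lit 58) (nat_lit 5) (nat_lit 330) (nat_lit 308) (nat_lit 262)))) (XT.nd (nat_lit 78) (nat_lit 304) (nat_lit 0) (XT.lf (nat_lit 0) (nat_lit 3996540247) (nat_lit 304) (nat_lit 14439282037) (nat_lit 76) (nat_lit 2854210636) (nat_lit 51) (nat_lit 5) (nat_lit 55) (nat_lit 5) (nat_lit 52) (nat_lit 5) (nat_lit 331) (nat_lit 308) (nat_lit 261)) (XT.nd (nat_lit 78) (nat_lit 152) (nat_lit 0) (XT.lf (nat_lit 0) (nat_lit 4268756786) (nat_lit 152) (nat_lit 7380191563) (nat_lit 228) (nat_lit 10727194330) (nat_lit 49) (nat_lit 5) (nat_lit 51) (nat_lit 5) (nat_lit 52) (nat_lit 5) (nat_lit 332) (nat_lit 308) (nat_lit 260)) (XT.lf (nat_lit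 0) (nat_lit 1345016851) (nat_lit 152) (nat_lit 18869589895) (nat_lit 228) (nat_lit 3319502914) (nat_lit 47) (nat_lit 5) (nat_lit 49) (nat_lit 5) (nat_lit 50) (nat_lit 5) (nat_lit 333) (nat_lit 308) (nat_lit 259))))) (XT.nd (nat_lit 234) (nat_lit 532) (nat_lit 0) (XT.nd (nat_lit 78) (nat_lit 304) (nat_lit 0) (XT.lf (nat_lit 0) (nat_lit 4930835751) (nat_lit 228) (nat_lit 2044873212) (nat_lit 76) (nat_lit 17785377473) (nat_lit 46) (nat_lit 5) (nat_lit 49) (nat_lit 5) (nat_lit 47) (nat_lit 5) (nat_lit 334) (nat_lit 308) (nat_lit 258)) (XT.nd (nat_lit 78) (nat_lit 152) (nat_lit 0) (XT.lf (nat_lit 0) (nat_lit 14097865602) (nat_lit 228) (nat_lit 5932538883) (nat_lit 76) (nat_lit 6034465210) (nat_lit 44) (nat_lit 5) (nat_lit 47) (nat_lit 5) (nat_lit 45) (nat_lit 5) (nat_lit 335) (nat_lit 308) (nat_lit 257)) (XT.lf (nat_lit 0) (nat_lit 17046270372) (nat_lit 152) (nat_lit 7331804162) (nat_lit 228)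 (nat_lit 3075906368) (nat_lit 42) (nat_lit 5) (nat_lit 44) (nat_lit 5) (nat_lit 45) (nat_lit 5) (nat_lit 336) (nat_lit 308) (nat_lit 256)))) (XT.nd (nat_lit 156) (nat_lit 152) (nat_lit 0) (XT.nd (nat_lit 78) (nat_lit 152) (nat_lit 0) (XT.lf (nat_lit 0) (nat_lit 6698865963) (nat_lit 228) (nat_lit 15655485031) (nat_lit 76) (nat_lit 6575725651) (nat_lit 39) (nat_lit 5) (nat_lit 42) (nat_lit 5) (nat_lit 40) (nat_lit 5) (nat_lit 337) (nat_lit 308) (nat_lit 255)) (XT.lf (nat_lit 0) (nat_lit 8745686657) (nat_lit 152) (nat_lit 8810744485) (nat_lit 228) (nat_lit 12944892042) (nat_lit 37) (nat_lit 5) (nat_lit 39) (nat_lit 5) (nat_lit 40) (nat_lit 5) (nat_lit 338) (nat_lit 308) (nat_lit 254))) (XT.nd (nat_lit 78) (nat_lit 76) (nat_lit 0) (XT.lf (nat_lit 0) (nat_lit 3425399755) (nat_lit 76) (nat_lit 26242780391) (nat_lit 152) (nat_lit 2510822558) (nat_lit 36) (nat_lit 5) (nat_lit 37) (nat_lit 5) (nat_lit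 38) (nat_lit 4) (nat_lit 339) (nat_lit 308) (nat_lit 253)) (XT.lf (nat_lit 0) (nat_lit 8976676375) (nat_lit 152) (nat_lit 2926432052) (nat_lit 76) (nat_lit 22056011396) (nat_lit 35) (nat_lit 5) (nat_lit 37) (nat_lit 5) (nat_lit 36) (nat_lit 5) (nat_lit 340) (nat_lit 308) (nat_lit 252))))))))
noncomputable def xc62 : XT := (XT.nd (nat_lit 1950) (nat_lit 456) (nat_lit 0) (XT.nd (nat_lit 936) (nat_lit 760) (nat_lit 0) (XT.nd (nat_lit 468) (nat_lit 456) (nat_lit 0) (XT.nd (nat_lit 234) (nat_lit 304) (nat_lit 0) (XT.nd (nat_lit 78) (nat_lit 304) (nat_lit 0) (XT.lf (nat_lit 0) (nat_lit 21728170642) (nat_lit 228) (nat_lit 10233377121) (nat_lit 76) (nat_lit 3896402329) (nat_lit 33) (nat_lit 5) (nat_lit 36) (nat_lit 5) (nat_lit 34) (nat_lit 4) (nat_lit 341) (nat_lit 308) (nat_lit 251)) (XT.nd (nat_lit 78) (nat_lit 228) (nat_lit 0) (XT.lf (nat_lit 0) (nat_lit 19009908738) (nat_lit 76) (nat_lit 17008213081)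 (nat_lit 152) (nat_lit 1864657310) (nat_lit 32) (nat_lit 5) (nat_lit 33) (nat_lit 5) (nat_lit 34) (nat_lit 4) (nat_lit 342) (nat_lit 308) (nat_lit 250)) (XT.lf (nat_lit 0) (nat_lit 11015741747) (nat_lit 152) (nat_lit 324816345) (nat_lit 228) (nat_lit 28704001121) (nat_lit 29) (nat_lit 5) (nat_lit 31) (nat_lit 5) (nat_lit 32) (nat_lit 5) (nat_lit 343) (nat_lit 308) (nat_lit 249)))) (XT.nd (nat_lit 78) (nat_lit 228) (nat_lit 0) (XT.lf (nat_lit 0) (nat_lit 1282140204) (nat_lit 76) (nat_lit 24857064485) (nat_lit 152) (nat_lit 16208439008) (nat_lit 28) (nat_lit 5) (nat_lit 29) (nat_lit 5) (nat_lit 30) (nat_lit 4) (nat_lit 344) (nat_lit 308) (nat_lit 248)) (XT.nd (nat_lit 78) (nat_lit 228) (nat_lit 0) (XT.lf (nat_lit 0) (nat_lit 34998834873) (nat_lit 76) (nat_lit 7606388579) (nat_lit 152) (nat_lit 2205584433) (nat_lit 28) (nat_lit 5) (nat_lit 29) (nat_lit 5) (nat_lit 30) (nat_lit 4) (nat_lit 345)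 (nat_lit 308) (nat_lit 247)) (XT.lf (nat_lit 0) (nat_lit 13041607088) (nat_lit 228) (nat_lit 23148185938) (nat_lit 76) (nat_lit 11244276946) (nat_lit 25) (nat_lit 5) (nat_lit 28) (nat_lit 5) (nat_lit 26) (nat_lit 4) (nat_lit 346) (nat_lit 308) (nat_lit 246))))) (XT.nd (nat_lit 234) (nat_lit 228) (nat_lit 0) (XT.nd (nat_lit 78) (nat_lit 152) (nat_lit 0) (XT.lf (nat_lit 0) (nat_lit 11352284151) (nat_lit 76) (nat_lit 18534212330) (nat_lit 152) (nat_lit 20356134604) (nat_lit 24) (nat_lit 5) (nat_lit 25) (nat_lit 5) (nat_lit 26) (nat_lit 4) (nat_lit 347) (nat_lit 308) (nat_lit 245)) (XT.nd (nat_lit 78) (nat_lit 152) (nat_lit 0) (XT.lf (nat_lit 0) (nat_lit 48472943383) (nat_lit 152) (nat_lit 3876249205) (nat_lit 0) (nat_lit 906991448) (nat_lit 24) (nat_lit 5) (nat_lit 26) (nat_lit 4) (nat_lit 24) (nat_lit 4) (nat_lit 348) (nat_lit 308) (nat_lit 244)) (XT.lf (nat_lit 0) (nat_lit 12495704582) (nat_lit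 152) (nat_lit 21975521116) (nat_lit 76) (nat_lit 21987933264) (nat_lit 22) (nat_lit 5) (nat_lit 24) (nat_lit 5) (nat_lit 23) (nat_lit 4) (nat_lit 349) (nat_lit 308) (nat_lit 243)))) (XT.nd (nat_lit 78) (nat_lit 152) (nat_lit 0) (XT.lf (nat_lit 0) (nat_lit 16542879920) (nat_lit 76) (nat_lit 14753925246) (nat_lit 152) (nat_lit 28602279269) (nat_lit 21) (nat_lit 5) (nat_lit 22) (nat_lit 5) (nat_lit 23) (nat_lit 4) (nat_lit 350) (nat_lit 308) (nat_lit 242)) (XT.nd (nat_lit 78) (nat_lit 152) (nat_lit 0) (XT.lf (nat_lit 0) (nat_lit 52072180789) (nat_lit 152) (nat_lit 4815535844) (nat_lit 0) (nat_lit 6702981945) (nat_lit 21) (nat_lit 5) (nat_lit 23) (nat_lit 4) (nat_lit 21) (nat_lit 4) (nat_lit 351) (nat_lit 308) (nat_lit 241)) (XT.lf (nat_lit 0) (nat_lit 7541899038) (nat_lit 152) (nat_lit 29927783869) (nat_lit 76) (nat_lit 30060960106) (nat_lit 19) (nat_lit 5) (nat_lit 21) (nat_lit 5) (nat_lit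 20) (nat_lit 4) (nat_lit 352) (nat_lit 308) (nat_lit 240)))))) (XT.nd (nat_lit 468) (nat_lit 456) (nat_lit 0) (XT.nd (nat_lit 234) (nat_lit 152) (nat_lit 0) (XT.nd (nat_lit 78) (nat_lit 76) (nat_lit 0) (XT.lf (nat_lit 0) (nat_lit 11956510276) (nat_lit 76) (nat_lit 16025549435) (nat_lit 152) (nat_lit 43781361971) (nat_lit 18) (nat_lit 5) (nat_lit 19) (nat_lit 5) (nat_lit 20) (nat_lit 4) (nat_lit 353) (nat_lit 308) (nat_lit 239)) (XT.nd (nat_lit 78) (nat_lit 76) (nat_lit 0) (XT.lf (nat_lit 0) (nat_lit 50680433555) (nat_lit 152) (nat_lit 18203200366) (nat_lit 0) (nat_lit 7420041720) (nat_lit 18) (nat_lit 5) (nat_lit 20) (nat_lit 4) (nat_lit 18) (nat_lit 4) (nat_lit 354) (nat_lit 308) (nat_lit 238)) (XT.lf (nat_lit 0) (nat_lit 27300165612) (nat_lit 76) (nat_lit 48574063667) (nat_lit 76) (nat_lit 5298945825) (nat_lit 17) (nat_lit 4) (nat_lit 18) (nat_lit 5) (nat_lit 18) (nat_lit 4) (nat_lit 355)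 (nat_lit 308) (nat_lit 237)))) (XT.nd (nat_lit 78) (nat_lit 76) (nat_lit 0) (XT.lf (nat_lit 0) (nat_lit 16424238851) (nat_lit 152) (nat_lit 9619063387) (nat_lit 76) (nat_lit 60360641571) (nat_lit 16) (nat_lit 5) (nat_lit 18) (nat_lit 5) (nat_lit 17) (nat_lit 4) (nat_lit 356) (nat_lit 308) (nat_lit 236)) (XT.nd (nat_lit 78) (nat_lit 0) (nat_lit 0) (XT.lf (nat_lit 0) (nat_lit 39315157768) (nat_lit 76) (nat_lit 985591489) (nat_lit 152) (nat_lit 51718027620) (nat_lit 15) (nat_lit 5) (nat_lit 16) (nat_lit 5) (nat_lit 17) (nat_lit 4) (nat_lit 357) (nat_lit 308) (nat_lit 235)) (XT.lf (nat_lit 0) (nat_lit 66650118593) (nat_lit 152) (nat_lit 6004965740) (nat_lit 0) (nat_lit 25399577460) (nat_lit 15) (nat_lit 5) (nat_lit 17) (nat_lit 4) (nat_lit 15) (nat_lit 4) (nat_lit 358) (nat_lit 308) (nat_lit 234))))) (XT.nd (nat_lit 234) (nat_lit 228) (nat_lit 0) (XT.nd (nat_lit 78) (nat_lit 152) (nat_lit 0)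 (XT.lf (nat_lit 0) (nat_lit 45854403557) (nat_lit 76) (nat_lit 49971959682) (nat_lit 76) (nat_lit 8711109926) (nat_lit 14) (nat_lit 4) (nat_lit 15) (nat_lit 5) (nat_lit 15) (nat_lit 4) (nat_lit 359) (nat_lit 308) (nat_lit 233)) (XT.nd (nat_lit 78) (nat_lit 76) (nat_lit 0) (XT.lf (nat_lit 0) (nat_lit 15385280669) (nat_lit 152) (nat_lit 9730569406) (nat_lit 76) (nat_lit 86406073156) (nat_lit 13) (nat_lit 5) (nat_lit 15) (nat_lit 5) (nat_lit 14) (nat_lit 4) (nat_lit 360) (nat_lit 308) (nat_lit 232)) (XT.lf (nat_lit 0) (nat_lit 41829648224) (nat_lit 152) (nat_lit 74675976175) (nat_lit 0) (nat_lit 2516093213) (nat_lit 12) (nat_lit 5) (nat_lit 14) (nat_lit 4) (nat_lit 12) (nat_lit 4) (nat_lit 361) (nat_lit 308) (nat_lit 231)))) (XT.nd (nat_lit 156) (nat_lit 152) (nat_lit 0) (XT.nd (nat_lit 78) (nat_lit 76) (nat_lit 0) (XT.lf (nat_lit 0) (nat_lit 70973498180) (nat_lit 152) (nat_lit 24466652656)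 (nat_lit 0) (nat_lit 31652149533) (nat_lit 12) (nat_lit 5) (nat_lit 14) (nat_lit 4) (nat_lit 12) (nat_lit 4) (nat_lit 362) (nat_lit 308) (nat_lit 230)) (XT.lf (nat_lit 0) (nat_lit 30721409480) (nat_lit 76) (nat_lit 72196126314) (nat_lit 76) (nat_lit 32867561337) (nat_lit 11) (nat_lit 4) (nat_lit 12) (nat_lit 5) (nat_lit 12) (nat_lit 4) (nat_lit 363) (nat_lit 308) (nat_lit 229))) (XT.nd (nat_lit 78) (nat_lit 152) (nat_lit 0) (XT.lf (nat_lit 0) (nat_lit 91177853621) (nat_lit 76) (nat_lit 46654963014) (nat_lit 76) (nat_lit 7319716250) (nat_lit 11) (nat_lit 4) (nat_lit 12) (nat_lit 5) (nat_lit 12) (nat_lit 4) (nat_lit 364) (nat_lit 308) (nat_lit 228)) (XT.lf (nat_lit 0) (nat_lit 894395796) (nat_lit 76) (nat_lit 18732838056) (nat_lit 152) (nat_lit 135626100330) (nat_lit 9) (nat_lit 5) (nat_lit 10) (nat_lit 5) (nat_lit 11) (nat_lit 4) (nat_lit 365) (nat_lit 308) (nat_lit 227))))))) (XT.nd (nat_lit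 936) (nat_lit 152) (nat_lit 0) (XT.nd (nat_lit 468) (nat_lit 152) (nat_lit 0) (XT.nd (nat_lit 234) (nat_lit 76) (nat_lit 0) (XT.nd (nat_lit 78) (nat_lit 76) (nat_lit 0) (XT.lf (nat_lit 0) (nat_lit 49601331326) (nat_lit 152) (nat_lit 104370634040) (nat_lit 0) (nat_lit 12127843556) (nat_lit 9) (nat_lit 5) (nat_lit 11) (nat_lit 4) (nat_lit 9) (nat_lit 4) (nat_lit 366) (nat_lit 308) (nat_lit 226)) (XT.nd (nat_lit 78) (nat_lit 76) (nat_lit 0) (XT.lf (nat_lit 0) (nat_lit 82280381020) (nat_lit 152) (nat_lit 50716428740) (nat_lit 0) (nat_lit 44801841614) (nat_lit 9) (nat_lit 5) (nat_lit 11) (nat_lit 4) (nat_lit 9) (nat_lit 4) (nat_lit 367) (nat_lit 308) (nat_lit 225)) (XT.lf (nat_lit 0) (nat_lit 7452631200) (nat_lit 76) (nat_lit 110229289721) (nat_lit 76) (nat_lit 72746072875) (nat_lit 8) (nat_lit 4) (nat_lit 9) (nat_lit 5) (nat_lit 9) (nat_lit 4) (nat_lit 368) (nat_lit 308) (nat_lit 224)))) (XT.nd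 (nat_lit 78) (nat_lit 76) (nat_lit 0) (XT.lf (nat_lit 0) (nat_lit 72070966607) (nat_lit 76) (nat_lit 84720242198) (nat_lit 76) (nat_lit 47232694388) (nat_lit 8) (nat_lit 4) (nat_lit 9) (nat_lit 5) (nat_lit 9) (nat_lit 4) (nat_lit 369) (nat_lit 308) (nat_lit 223)) (XT.nd (nat_lit 78) (nat_lit 76) (nat_lit 0) (XT.lf (nat_lit 0) (nat_lit 141844586773) (nat_lit 76) (nat_lit 57177409725) (nat_lit 76) (nat_lit 19685851764) (nat_lit 8) (nat_lit 4) (nat_lit 9) (nat_lit 5) (nat_lit 9) (nat_lit 4) (nat_lit 370) (nat_lit 308) (nat_lit 222)) (XT.lf (nat_lit 0) (nat_lit 9735786477) (nat_lit 152) (nat_lit 17536908784) (nat_lit 76) (nat_lit 207286298270) (nat_lit 7) (nat_lit 5) (nat_lit 9) (nat_lit 5) (nat_lit 8) (nat_lit 4) (nat_lit 371) (nat_lit 308) (nat_lit 221))))) (XT.nd (nat_lit 234) (nat_lit 76) (nat_lit 0) (XT.nd (nat_lit 78) (nat_lit 0) (nat_lit 0) (XT.lf (nat_lit 0) (nat_lit 41665393146) (nat_lit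 152) (nat_lit 204002168431) (nat_lit 0) (nat_lit 5952336838) (nat_lit 6) (nat_lit 5) (nat_lit 8) (nat_lit 4) (nat_lit 6) (nat_lit 4) (nat_lit 372) (nat_lit 308) (nat_lit 220)) (XT.nd (nat_lit 78) (nat_lit 0) (nat_lit 0) (XT.lf (nat_lit 0) (nat_lit 76913605311) (nat_lit 152) (nat_lit 151896341895) (nat_lit 0) (nat_lit 41197517206) (nat_lit 6) (nat_lit 5) (nat_lit 8) (nat_lit 4) (nat_lit 6) (nat_lit 4) (nat_lit 373) (nat_lit 308) (nat_lit 219)) (XT.lf (nat_lit 0) (nat_lit 114976007756) (nat_lit 152) (nat_lit 95633199369) (nat_lit 0) (nat_lit 79257112431) (nat_lit 6) (nat_lit 5) (nat_lit 8) (nat_lit 4) (nat_lit 6) (nat_lit 4) (nat_lit 374) (nat_lit 308) (nat_lit 218)))) (XT.nd (nat_lit 78) (nat_lit 76) (nat_lit 0) (XT.lf (nat_lit 0) (nat_lit 156078155457) (nat_lit 152) (nat_lit 34879329639) (nat_lit 0) (nat_lit 120356660854) (nat_lit 6) (nat_lit 5) (nat_lit 8) (nat_lit 4) (nat_lit 6) (nat_lit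 4) (nat_lit 375) (nat_lit 308) (nat_lit 217)) (XT.nd (nat_lit 78) (nat_lit 0) (nat_lit 0) (XT.lf (nat_lit 0) (nat_lit 31741207081) (nat_lit 76) (nat_lit 169217978814) (nat_lit 76) (nat_lit 133494077472) (nat_lit 5) (nat_lit 4) (nat_lit 6) (nat_lit 5) (nat_lit 6) (nat_lit 4) (nat_lit 376) (nat_lit 308) (nat_lit 216)) (XT.lf (nat_lit 0) (nat_lit 104927772350) (nat_lit 76) (nat_lit 145105860669) (nat_lit 76) (nat_lit 109379730866) (nat_lit 5) (nat_lit 4) (nat_lit 6) (nat_lit 5) (nat_lit 6) (nat_lit 4) (nat_lit 377) (nat_lit 308) (nat_lit 215)))))) (XT.nd (nat_lit 468) (nat_lit 0) (nat_lit 0) (XT.nd (nat_lit 234) (nat_lit 152) (nat_lit 0) (XT.nd (nat_lit 78) (nat_lit 0) (nat_lit 0) (XT.lf (nat_lit 0) (nat_lit 183960796173) (nat_lit 76) (nat_lit 119068942362) (nat_lit 76) (nat_lit 83340749168) (nat_lit 5) (nat_lit 4) (nat_lit 6) (nat_lit 5) (nat_lit 6) (nat_lit 4) (nat_lit 378) (nat_lit 308)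 (nat_lit 214)) (XT.nd (nat_lit 78) (nat_lit 0) (nat_lit 0) (XT.lf (nat_lit 0) (nat_lit 269308622396) (nat_lit 76) (nat_lit 90952931044) (nat_lit 76) (nat_lit 55222827303) (nat_lit 5) (nat_lit 4) (nat_lit 6) (nat_lit 5) (nat_lit 6) (nat_lit 4) (nat_lit 379) (nat_lit 308) (nat_lit 213)) (XT.lf (nat_lit 0) (nat_lit 361477015915) (nat_lit 76) (nat_lit 60591213313) (nat_lit 76) (nat_lit 24859340547) (nat_lit 5) (nat_lit 4) (nat_lit 6) (nat_lit 5) (nat_lit 6) (nat_lit 4) (nat_lit 380) (nat_lit 308) (nat_lit 212)))) (XT.nd (nat_lit 78) (nat_lit 76) (nat_lit 0) (XT.lf (nat_lit 0) (nat_lit 7675844777) (nat_lit 152) (nat_lit 19998028956) (nat_lit 76) (nat_lit 453206320879) (nat_lit 4) (nat_lit 5) (nat_lit 6) (nat_lit 5) (nat_lit 5) (nat_lit 4) (nat_lit 381) (nat_lit 308) (nat_lit 211)) (XT.nd (nat_lit 78) (nat_lit 0) (nat_lit 0) (XT.lf (nat_lit 0) (nat_lit 42905150027) (nat_lit 152) (nat_lit 465703599816)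 (nat_lit 0) (nat_lit 8871790594) (nat_lit 3) (nat_lit 5) (nat_lit 5) (nat_lit 4) (nat_lit 3) (nat_lit 4) (nat_lit 382) (nat_lit 308) (nat_lit 210)) (XT.lf (nat_lit 0) (nat_lit 81770381130) (nat_lit 152) (nat_lit 427461969720) (nat_lit 0) (nat_lit 47735684259) (nat_lit 3) (nat_lit 5) (nat_lit 5) (nat_lit 4) (nat_lit 3) (nat_lit 4) (nat_lit 383) (nat_lit 308) (nat_lit 209))))) (XT.nd (nat_lit 234) (nat_lit 0) (nat_lit 0) (XT.nd (nat_lit 78) (nat_lit 0) (nat_lit 0) (XT.lf (nat_lit 0) (nat_lit 123741947300) (nat_lit 152) (nat_lit 386166714398) (nat_lit 0) (nat_lit 89706012062) (nat_lit 3) (nat_lit 5) (nat_lit 5) (nat_lit 4) (nat_lit 3) (nat_lit 4) (nat_lit 384) (nat_lit 308) (nat_lit 208)) (XT.nd (nat_lit 78) (nat_lit 0) (nat_lit 0) (XT.lf (nat_lit 0) (nat_lit 169068568931) (nat_lit 152) (nat_lit 341573121225) (nat_lit 0) (nat_lit 135031487056) (nat_lit 3) (nat_lit 5) (nat_lit 5) (nat_lit 4)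 (nat_lit 3) (nat_lit 4) (nat_lit 385) (nat_lit 308) (nat_lit 207)) (XT.lf (nat_lit 0) (nat_lit 218018848223) (nat_lit 152) (nat_lit 293416931873) (nat_lit 0) (nat_lit 183980704648) (nat_lit 3) (nat_lit 5) (nat_lit 5) (nat_lit 4) (nat_lit 3) (nat_lit 4) (nat_lit 386) (nat_lit 308) (nat_lit 206)))) (XT.nd (nat_lit 156) (nat_lit 0) (nat_lit 0) (XT.nd (nat_lit 78) (nat_lit 0) (nat_lit 0) (XT.lf (nat_lit 0) (nat_lit 270882860908) (nat_lit 152) (nat_lit 241412776329) (nat_lit 0) (nat_lit 236843734276) (nat_lit 3) (nat_lit 5) (nat_lit 5) (nat_lit 4) (nat_lit 3) (nat_lit 4) (nat_lit 387) (nat_lit 308) (nat_lit 205)) (XT.lf (nat_lit 0) (nat_lit 327973875207) (nat_lit 152) (nat_lit 185252481821) (nat_lit 0) (nat_lit 293933838338) (nat_lit 3) (nat_lit 5) (nat_lit 5) (nat_lit 4) (nat_lit 3) (nat_lit 4) (nat_lit 388) (nat_lit 308) (nat_lit 204))) (XT.nd (nat_lit 78) (nat_lit 0) (nat_lit 0) (XT.lf (nat_lit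 0) (nat_lit 389630208242) (nat_lit 152) (nat_lit 124603246603) (nat_lit 0) (nat_lit 355589328561) (nat_lit 3) (nat_lit 5) (nat_lit 5) (nat_lit 4) (nat_lit 3) (nat_lit 4) (nat_lit 389) (nat_lit 308) (nat_lit 203)) (XT.lf (nat_lit 0) (nat_lit 456217230876) (nat_lit 152) (nat_lit 59105667799) (nat_lit 0) (nat_lit 422175570814) (nat_lit 3) (nat_lit 5) (nat_lit 5) (nat_lit 4) (nat_lit 3) (nat_lit 4) (nat_lit 390) (nat_lit 308) (nat_lit 202))))))))
noncomputable def xc63 : XT := (XT.nd (nat_lit 42120) (nat_lit 0) (nat_lit 1216) (XT.nd (nat_lit 41106) (nat_lit 0) (nat_lit 4408) (XT.nd (nat_lit 40638) (nat_lit 0) (nat_lit 8360) (XT.nd (nat_lit 234) (nat_lit 0) (nat_lit 0) (XT.nd (nat_lit 78) (nat_lit 0) (nat_lit 0) (XT.lf (nat_lit 0) (nat_lit 12012875425) (nat_lit 76) (nat_lit 516304212100) (nat_lit 76) (nat_lit 482261829461) (nat_lit 2) (nat_lit 4) (nat_lit 3) (nat_lit 5) (nat_lit 3) (nat_lit 4)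 (nat_lit 391) (nat_lit 308) (nat_lit 201)) (XT.nd (nat_lit 78) (nat_lit 0) (nat_lit 0) (XT.lf (nat_lit 0) (nat_lit 90928362190) (nat_lit 76) (nat_lit 516284545578) (nat_lit 76) (nat_lit 482241493888) (nat_lit 2) (nat_lit 4) (nat_lit 3) (nat_lit 5) (nat_lit 3) (nat_lit 4) (nat_lit 392) (nat_lit 308) (nat_lit 200)) (XT.lf (nat_lit 0) (nat_lit 176154139519) (nat_lit 76) (nat_lit 516264765652) (nat_lit 76) (nat_lit 482221094470) (nat_lit 2) (nat_lit 4) (nat_lit 3) (nat_lit 5) (nat_lit 3) (nat_lit 4) (nat_lit 393) (nat_lit 308) (nat_lit 199)))) (XT.nd (nat_lit 40248) (nat_lit 0) (nat_lit 9424) (XT.lf (nat_lit 0) (nat_lit 268195249055) (nat_lit 76) (nat_lit 516244755106) (nat_lit 76) (nat_lit 482200510320) (nat_lit 2) (nat_lit 4) (nat_lit 3) (nat_lit 5) (nat_lit 3) (nat_lit 4) (nat_lit 394) (nat_lit 308) (nat_lit 198)) (XT.nd (nat_lit 78) (nat_lit 0) (nat_lit 0) (XT.lf (nat_lit 0) (nat_lit 2681627848)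 (nat_lit 684) (nat_lit 858252341) (nat_lit 684) (nat_lit 858252341) (nat_lit 126) (nat_lit 3) (nat_lit 135) (nat_lit 3) (nat_lit 135) (nat_lit 5) (nat_lit 309) (nat_lit 309) (nat_lit 282)) (XT.lf (nat_lit 76) (nat_lit 5187482101) (nat_lit 0) (nat_lit 1901721402) (nat_lit 684) (nat_lit 1981903548) (nat_lit 127) (nat_lit 5) (nat_lit 126) (nat_lit 3) (nat_lit 135) (nat_lit 5) (nat_lit 310) (nat_lit 309) (nat_lit 281))))) (XT.nd (nat_lit 234) (nat_lit 532) (nat_lit 0) (XT.nd (nat_lit 78) (nat_lit 608) (nat_lit 0) (XT.lf (nat_lit 76) (nat_lit 3300062264) (nat_lit 0) (nat_lit 5649414540) (nat_lit 684) (nat_lit 418790956) (nat_lit 128) (nat_lit 5) (nat_lit 127) (nat_lit 5) (nat_lit 136) (nat_lit 5) (nat_lit 311) (nat_lit 309) (nat_lit 280)) (XT.nd (nat_lit 78) (nat_lit 0) (nat_lit 0) (XT.lf (nat_lit 0) (nat_lit 1218548060) (nat_lit 684) (nat_lit 8275473269) (nat_lit 760) (nat_lit 194825660) (nat_lit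 119) (nat_lit 5) (nat_lit 128) (nat_lit 5) (nat_lit 129) (nat_lit 5) (nat_lit 312) (nat_lit 309) (nat_lit 279)) (XT.lf (nat_lit 0) (nat_lit 3048300566) (nat_lit 684) (nat_lit 514055042) (nat_lit 760) (nat_lit 6468686188) (nat_lit 119) (nat_lit 5) (nat_lit 128) (nat_lit 5) (nat_lit 129) (nat_lit 5) (nat_lit 313) (nat_lit 309) (nat_lit 278)))) (XT.nd (nat_lit 78) (nat_lit 608) (nat_lit 0) (XT.lf (nat_lit 0) (nat_lit 5079574320) (nat_lit 684) (nat_lit 2405319387) (nat_lit 760) (nat_lit 2913070179) (nat_lit 120) (nat_lit 5) (nat_lit 129) (nat_lit 5) (nat_lit 130) (nat_lit 5) (nat_lit 314) (nat_lit 309) (nat_lit 277)) (XT.nd (nat_lit 78) (nat_lit 608) (nat_lit 0) (XT.lf (nat_lit 76) (nat_lit 6465031909) (nat_lit 0) (nat_lit 868936070) (nat_lit 760) (nat_lit 3457341556) (nat_lit 121) (nat_lit 5) (nat_lit 120) (nat_lit 5) (nat_lit 130) (nat_lit 5) (nat_lit 315) (nat_lit 309) (nat_lit 276)) (XT.lf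 (nat_lit 0) (nat_lit 4886683382) (nat_lit 684) (nat_lit 4996553627) (nat_lit 760) (nat_lit 1327252867) (nat_lit 112) (nat_lit 5) (nat_lit 121) (nat_lit 5) (nat_lit 122) (nat_lit 5) (nat_lit 316) (nat_lit 309) (nat_lit 275)))))) (XT.nd (nat_lit 468) (nat_lit 1672) (nat_lit 0) (XT.nd (nat_lit 234) (nat_lit 1064) (nat_lit 0) (XT.nd (nat_lit 78) (nat_lit 380) (nat_lit 0) (XT.lf (nat_lit 0) (nat_lit 1023839744) (nat_lit 836) (nat_lit 8377186745) (nat_lit 76) (nat_lit 2257413289) (nat_lit 101) (nat_lit 5) (nat_lit 112) (nat_lit 5) (nat_lit 102) (nat_lit 5) (nat_lit 317) (nat_lit 309) (nat_lit 274)) (XT.nd (nat_lit 78) (nat_lit 0) (nat_lit 0) (XT.lf (nat_lit 0) (nat_lit 1598125393) (nat_lit 380) (nat_lit 2048504632) (nat_lit 456) (nat_lit 8488078325) (nat_lit 96) (nat_lit 5) (nat_lit 101) (nat_lit 5) (nat_lit 102) (nat_lit 5) (nat_lit 318) (nat_lit 309) (nat_lit 273)) (XT.lf (nat_lit 0) (nat_lit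 6633375403) (nat_lit 456) (nat_lit 154531889) (nat_lit 76) (nat_lit 5853535011) (nat_lit 96) (nat_lit 5) (nat_lit 102) (nat_lit 5) (nat_lit 97) (nat_lit 5) (nat_lit 319) (nat_lit 309) (nat_lit 272)))) (XT.nd (nat_lit 78) (nat_lit 760) (nat_lit 0) (XT.lf (nat_lit 0) (nat_lit 10010770453) (nat_lit 380) (nat_lit 1899789713) (nat_lit 76) (nat_lit 1270634570) (nat_lit 92) (nat_lit 5) (nat_lit 97) (nat_lit 5) (nat_lit 93) (nat_lit 5) (nat_lit 320) (nat_lit 309) (nat_lit 271)) (XT.nd (nat_lit 78) (nat_lit 304) (nat_lit 0) (XT.lf (nat_lit 0) (nat_lit 98899032) (nat_lit 456) (nat_lit 3759242126) (nat_lit 76) (nat_lit 9896062131) (nat_lit 86) (nat_lit 5) (nat_lit 92) (nat_lit 5) (nat_lit 87) (nat_lit 5) (nat_lit 321) (nat_lit 309) (nat_lit 270)) (XT.lf (nat_lit 0) (nat_lit 3696326421) (nat_lit 380) (nat_lit 5764479049) (nat_lit 76) (nat_lit 4900819917) (nat_lit 82) (nat_lit 5) (nat_lit 87) (nat_lit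 5) (nat_lit 83) (nat_lit 5) (nat_lit 322) (nat_lit 309) (nat_lit 269))))) (XT.nd (nat_lit 234) (nat_lit 760) (nat_lit 0) (XT.nd (nat_lit 78) (nat_lit 608) (nat_lit 0) (XT.lf (nat_lit 0) (nat_lit 7143259190) (nat_lit 304) (nat_lit 613340777) (nat_lit 380) (nat_lit 7252338031) (nat_lit 78) (nat_lit 5) (nat_lit 82) (nat_lit 5) (nat_lit 83) (nat_lit 5) (nat_lit 323) (nat_lit 309) (nat_lit 268)) (XT.nd (nat_lit 78) (nat_lit 380) (nat_lit 0) (XT.lf (nat_lit 0) (nat_lit 5541886174) (nat_lit 228) (nat_lit 6863537468) (nat_lit 304) (nat_lit 3289471254) (nat_lit 75) (nat_lit 5) (nat_lit 78) (nat_lit 5) (nat_lit 79) (nat_lit 5) (nat_lit 324) (nat_lit 309) (nat_lit 267)) (XT.lf (nat_lit 0) (nat_lit 1150617222) (nat_lit 380) (nat_lit 12579753979) (nat_lit 76) (nat_lit 2695029661) (nat_lit 70) (nat_lit 5) (nat_lit 75) (nat_lit 5) (nat_lit 71) (nat_lit 5) (nat_lit 325) (nat_lit 309) (nat_lit 266)))) (XT.nd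 (nat_lit 156) (nat_lit 532) (nat_lit 0) (XT.nd (nat_lit 78) (nat_lit 0) (nat_lit 0) (XT.lf (nat_lit 0) (nat_lit 1930425123) (nat_lit 228) (nat_lit 4168611328) (nat_lit 304) (nat_lit 11099233338) (nat_lit 67) (nat_lit 5) (nat_lit 70) (nat_lit 5) (nat_lit 71) (nat_lit 5) (nat_lit 326) (nat_lit 309) (nat_lit 265)) (XT.lf (nat_lit 0) (nat_lit 11706277164) (nat_lit 304) (nat_lit 148724688) (nat_lit 76) (nat_lit 6164853521) (nat_lit 67) (nat_lit 5) (nat_lit 71) (nat_lit 5) (nat_lit 68) (nat_lit 5) (nat_lit 327) (nat_lit 309) (nat_lit 264))) (XT.nd (nat_lit 78) (nat_lit 304) (nat_lit 0) (XT.lf (nat_lit 0) (nat_lit 16568051545) (nat_lit 228) (nat_lit 1471231372) (nat_lit 304) (nat_lit 854057581) (nat_lit 64) (nat_lit 5) (nat_lit 67) (nat_lit 5) (nat_lit 68) (nat_lit 5) (nat_lit 328) (nat_lit 309) (nat_lit 263)) (XT.lf (nat_lit 0) (nat_lit 5226786934) (nat_lit 304) (nat_lit 4854508395) (nat_lit 76)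 (nat_lit 9734203901) (nat_lit 60) (nat_lit 5) (nat_lit 64) (nat_lit 5) (nat_lit 61) (nat_lit 5) (nat_lit 329) (nat_lit 309) (nat_lit 262))))))) (XT.nd (nat_lit 936) (nat_lit 1292) (nat_lit 0) (XT.nd (nat_lit 468) (nat_lit 836) (nat_lit 0) (XT.nd (nat_lit 234) (nat_lit 380) (nat_lit 0) (XT.nd (nat_lit 78) (nat_lit 456) (nat_lit 0) (XT.lf (nat_lit 0) (nat_lit 12008569415) (nat_lit 304) (nat_lit 7601125445) (nat_lit 76) (nat_lit 1188842246) (nat_lit 57) (nat_lit 5) (nat_lit 61) (nat_lit 5) (nat_lit 58) (nat_lit 5) (nat_lit 330) (nat_lit 309) (nat_lit 261)) (XT.nd (nat_lit 78) (nat_lit 304) (nat_lit 0) (XT.lf (nat_lit 0) (nat_lit 11127260741) (nat_lit 152) (nat_lit 8589926693) (nat_lit 228) (nat_lit 2123840112) (nat_lit 55) (nat_lit 5) (nat_lit 57) (nat_lit 5) (nat_lit 58) (nat_lit 5) (nat_lit 331) (nat_lit 309) (nat_lit 260)) (XT.lf (nat_lit 0) (nat_lit 5198410073) (nat_lit 304) (nat_lit 14210272516)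 (nat_lit 76) (nat_lit 3540029626) (nat_lit 51) (nat_lit 5) (nat_lit 55) (nat_lit 5) (nat_lit 52) (nat_lit 5) (nat_lit 332) (nat_lit 309) (nat_lit 259)))) (XT.nd (nat_lit 78) (nat_lit 228) (nat_lit 0) (XT.lf (nat_lit 0) (nat_lit 5934255850) (nat_lit 152) (nat_lit 7484082107) (nat_lit 228) (nat_lit 10705637257) (nat_lit 49) (nat_lit 5) (nat_lit 51) (nat_lit 5) (nat_lit 52) (nat_lit 5) (nat_lit 333) (nat_lit 309) (nat_lit 258)) (XT.nd (nat_lit 78) (nat_lit 76) (nat_lit 0) (XT.lf (nat_lit 0) (nat_lit 2752233816) (nat_lit 152) (nat_lit 19882304109) (nat_lit 228) (nat_lit 2741805717) (nat_lit 47) (nat_lit 5) (nat_lit 49) (nat_lit 5) (nat_lit 50) (nat_lit 5) (nat_lit 334) (nat_lit 309) (nat_lit 257)) (XT.lf (nat_lit 0) (nat_lit 6081106246) (nat_lit 228) (nat_lit 979810480) (nat_lit 76) (nat_lit 19642951929) (nat_lit 46) (nat_lit 5) (nat_lit 49) (nat_lit 5) (nat_lit 47) (nat_lit 5) (nat_lit 335)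 (nat_lit 309) (nat_lit 256))))) (XT.nd (nat_lit 234) (nat_lit 304) (nat_lit 0) (XT.nd (nat_lit 78) (nat_lit 380) (nat_lit 0) (XT.lf (nat_lit 0) (nat_lit 15950998533) (nat_lit 228) (nat_lit 5202822020) (nat_lit 76) (nat_lit 6959682316) (nat_lit 44) (nat_lit 5) (nat_lit 47) (nat_lit 5) (nat_lit 45) (nat_lit 5) (nat_lit 336) (nat_lit 309) (nat_lit 255)) (XT.nd (nat_lit 78) (nat_lit 228) (nat_lit 0) (XT.lf (nat_lit 0) (nat_lit 19561953696) (nat_lit 152) (nat_lit 7455929947) (nat_lit 228) (nat_lit 2597667928) (nat_lit 42) (nat_lit 5) (nat_lit 44) (nat_lit 5) (nat_lit 45) (nat_lit 5) (nat_lit 337) (nat_lit 309) (nat_lit 254)) (XT.lf (nat_lit 0) (nat_lit 7908666636) (nat_lit 228) (nat_lit 15757154370) (nat_lit 76) (nat_lit 7544729418) (nat_lit 39) (nat_lit 5) (nat_lit 42) (nat_lit 5) (nat_lit 40) (nat_lit 5) (nat_lit 338) (nat_lit 309) (nat_lit 253)))) (XT.nd (nat_lit 78) (nat_lit 152) (nat_lit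 0) (XT.lf (nat_lit 0) (nat_lit 10546100015) (nat_lit 152) (nat_lit 9056005057) (nat_lit 228) (nat_lit 13307045826) (nat_lit 37) (nat_lit 5) (nat_lit 39) (nat_lit 5) (nat_lit 40) (nat_lit 5) (nat_lit 339) (nat_lit 309) (nat_lit 252)) (XT.nd (nat_lit 78) (nat_lit 76) (nat_lit 0) (XT.lf (nat_lit 0) (nat_lit 4776364129) (nat_lit 76) (nat_lit 27882394609) (nat_lit 152) (nat_lit 2063504114) (nat_lit 36) (nat_lit 5) (nat_lit 37) (nat_lit 5) (nat_lit 38) (nat_lit 4) (nat_lit 340) (nat_lit 309) (nat_lit 251)) (XT.lf (nat_lit 0) (nat_lit 10275771879) (nat_lit 152) (nat_lit 2143998015) (nat_lit 76) (nat_lit 24226851675) (nat_lit 35) (nat_lit 5) (nat_lit 37) (nat_lit 5) (nat_lit 36) (nat_lit 5) (nat_lit 341) (nat_lit 309) (nat_lit 250)))))) (XT.nd (nat_lit 468) (nat_lit 532) (nat_lit 0) (XT.nd (nat_lit 234) (nat_lit 304) (nat_lit 0) (XT.nd (nat_lit 78) (nat_lit 304) (nat_lit 0) (XT.lf (nat_lit 0) (nat_lit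 24026078795) (nat_lit 228) (nat_lit 10058400620) (nat_lit 76) (nat_lit 4613957505) (nat_lit 33) (nat_lit 5) (nat_lit 36) (nat_lit 5) (nat_lit 34) (nat_lit 4) (nat_lit 342) (nat_lit 309) (nat_lit 249)) (XT.nd (nat_lit 78) (nat_lit 228) (nat_lit 0) (XT.lf (nat_lit 0) (nat_lit 21481165434) (nat_lit 76) (nat_lit 17951444149) (nat_lit 152) (nat_lit 1453985850) (nat_lit 32) (nat_lit 5) (nat_lit 33) (nat_lit 5) (nat_lit 34) (nat_lit 4) (nat_lit 343) (nat_lit 309) (nat_lit 248)) (XT.lf (nat_lit 0) (nat_lit 12764977177) (nat_lit 228) (nat_lit 30399663640) (nat_lit 76) (nat_lit 57488499) (nat_lit 29) (nat_lit 5) (nat_lit 32) (nat_lit 5) (nat_lit 30) (nat_lit 4) (nat_lit 344) (nat_lit 309) (nat_lit 247)))) (XT.nd (nat_lit 78) (nat_lit 228) (nat_lit 0) (XT.lf (nat_lit 0) (nat_lit 2289582412) (nat_lit 76) (nat_lit 26438822737) (nat_lit 152) (nat_lit 16982020995) (nat_lit 28) (nat_lit 5) (nat_lit 29)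 (nat_lit 5) (nat_lit 30) (nat_lit 4) (nat_lit 345) (nat_lit 309) (nat_lit 246)) (XT.nd (nat_lit 78) (nat_lit 228) (nat_lit 0) (XT.lf (nat_lit 0) (nat_lit 38636585174) (nat_lit 76) (nat_lit 7838226602) (nat_lit 152) (nat_lit 1897685694) (nat_lit 28) (nat_lit 5) (nat_lit 29) (nat_lit 5) (nat_lit 30) (nat_lit 4) (nat_lit 346) (nat_lit 309) (nat_lit 245)) (XT.lf (nat_lit 0) (nat_lit 14537564724) (nat_lit 228) (nat_lit 24166997703) (nat_lit 76) (nat_lit 12501498936) (nat_lit 25) (nat_lit 5) (nat_lit 28) (nat_lit 5) (nat_lit 26) (nat_lit 4) (nat_lit 347) (nat_lit 309) (nat_lit 244))))) (XT.nd (nat_lit 234) (nat_lit 304) (nat_lit 0) (XT.nd (nat_lit 78) (nat_lit 152) (nat_lit 0) (XT.lf (nat_lit 0) (nat_lit 13057306954) (nat_lit 76) (nat_lit 19651651141) (nat_lit 152) (nat_lit 21531411239) (nat_lit 24) (nat_lit 5) (nat_lit 25) (nat_lit 5) (nat_lit 26) (nat_lit 4) (nat_lit 348) (nat_lit 309) (nat_lit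 243)) (XT.nd (nat_lit 78) (nat_lit 152) (nat_lit 0) (XT.lf (nat_lit 0) (nat_lit 52755635543) (nat_lit 152) (nat_lit 3433748234) (nat_lit 0) (nat_lit 1306964053) (nat_lit 24) (nat_lit 5) (nat_lit 26) (nat_lit 4) (nat_lit 24) (nat_lit 4) (nat_lit 349) (nat_lit 309) (nat_lit 242)) (XT.lf (nat_lit 0) (nat_lit 13887876392) (nat_lit 152) (nat_lit 23000612998) (nat_lit 76) (nat_lit 24067698833) (nat_lit 22) (nat_lit 5) (nat_lit 24) (nat_lit 5) (nat_lit 23) (nat_lit 4) (nat_lit 350) (nat_lit 309) (nat_lit 241)))) (XT.nd (nat_lit 156) (nat_lit 228) (nat_lit 0) (XT.nd (nat_lit 78) (nat_lit 0) (nat_lit 0) (XT.lf (nat_lit 0) (nat_lit 18567407016) (nat_lit 76) (nat_lit 15607528874) (nat_lit 152) (nat_lit 30497284054) (nat_lit 21) (nat_lit 5) (nat_lit 22) (nat_lit 5) (nat_lit 23) (nat_lit 4) (nat_lit 351) (nat_lit 309) (nat_lit 240)) (XT.lf (nat_lit 0) (nat_lit 56589332266) (nat_lit 152) (nat_lit 4538938820)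 (nat_lit 0) (nat_lit 7532047926) (nat_lit 21) (nat_lit 5) (nat_lit 23) (nat_lit 4) (nat_lit 21) (nat_lit 4) (nat_lit 352) (nat_lit 309) (nat_lit 239))) (XT.nd (nat_lit 78) (nat_lit 76) (nat_lit 0) (XT.lf (nat_lit 0) (nat_lit 8486039478) (nat_lit 152) (nat_lit 31677602701) (nat_lit 76) (nat_lit 32752354117) (nat_lit 19) (nat_lit 5) (nat_lit 21) (nat_lit 5) (nat_lit 20) (nat_lit 4) (nat_lit 353) (nat_lit 309) (nat_lit 238)) (XT.lf (nat_lit 0) (nat_lit 13529429968) (nat_lit 76) (nat_lit 17016363157) (nat_lit 152) (nat_lit 46942389479) (nat_lit 18) (nat_lit 5) (nat_lit 19) (nat_lit 5) (nat_lit 20) (nat_lit 4) (nat_lit 354) (nat_lit 309) (nat_lit 237))))))))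
noncomputable def xc64 : XT := (XT.nd (nat_lit 1872) (nat_lit 228) (nat_lit 0) (XT.nd (nat_lit 936) (nat_lit 304) (nat_lit 0) (XT.nd (nat_lit 468) (nat_lit 380) (nat_lit 0) (XT.nd (nat_lit 234) (nat_lit 152) (nat_lit 0) (XT.nd (nat_lit 78) (nat_lit 152) (nat_lit 0) (XT.lf (nat_lit 0) (nat_lit 55040160421) (nat_lit 152) (nat_lit 19077822355) (nat_lit 0) (nat_lit 8274671954) (nat_lit 18) (nat_lit 5) (nat_lit 20) (nat_lit 4) (nat_lit 18) (nat_lit 4) (nat_lit 355) (nat_lit 309) (nat_lit 236)) (XT.nd (nat_lit 78) (nat_lit 76) (nat_lit 0) (XT.lf (nat_lit 0) (nat_lit 30040535795) (nat_lit 76) (nat_lit 52194996064) (nat_lit 76) (nat_lit 5416882419) (nat_lit 17) (nat_lit 4) (nat_lit 18) (nat_lit 5) (nat_lit 18) (nat_lit 4) (nat_lit 356) (nat_lit 309) (nat_lit 235)) (XT.lf (nat_lit 0) (nat_lit 18012424099) (nat_lit 152) (nat_lit 9864334219) (nat_lit 76) (nat_lit 65425747574) (nat_lit 16) (nat_lit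 5) (nat_lit 18) (nat_lit 5) (nat_lit 17) (nat_lit 4) (nat_lit 357) (nat_lit 309) (nat_lit 234)))) (XT.nd (nat_lit 78) (nat_lit 76) (nat_lit 0) (XT.lf (nat_lit 0) (nat_lit 42961841178) (nat_lit 76) (nat_lit 824728996) (nat_lit 152) (nat_lit 55580582736) (nat_lit 15) (nat_lit 5) (nat_lit 16) (nat_lit 5) (nat_lit 17) (nat_lit 4) (nat_lit 358) (nat_lit 309) (nat_lit 233)) (XT.nd (nat_lit 78) (nat_lit 76) (nat_lit 0) (XT.lf (nat_lit 0) (nat_lit 72227964671) (nat_lit 152) (nat_lit 6012349699) (nat_lit 0) (nat_lit 27646393288) (nat_lit 15) (nat_lit 5) (nat_lit 17) (nat_lit 4) (nat_lit 15) (nat_lit 4) (nat_lit 359) (nat_lit 309) (nat_lit 232)) (XT.lf (nat_lit 0) (nat_lit 49975212560) (nat_lit 76) (nat_lit 53751950329) (nat_lit 76) (nat_lit 9161540963) (nat_lit 14) (nat_lit 4) (nat_lit 15) (nat_lit 5) (nat_lit 15) (nat_lit 4) (nat_lit 360) (nat_lit 309) (nat_lit 231))))) (XT.nd (nat_lit 234) (nat_lit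 228) (nat_lit 0) (XT.nd (nat_lit 78) (nat_lit 76) (nat_lit 0) (XT.lf (nat_lit 0) (nat_lit 16837000872) (nat_lit 152) (nat_lit 10082740894) (nat_lit 76) (nat_lit 93512861654) (nat_lit 13) (nat_lit 5) (nat_lit 15) (nat_lit 5) (nat_lit 14) (nat_lit 4) (nat_lit 361) (nat_lit 309) (nat_lit 230)) (XT.nd (nat_lit 78) (nat_lit 0) (nat_lit 0) (XT.lf (nat_lit 0) (nat_lit 45389994480) (nat_lit 152) (nat_lit 80234807197) (nat_lit 0) (nat_lit 2907927975) (nat_lit 12) (nat_lit 5) (nat_lit 14) (nat_lit 4) (nat_lit 12) (nat_lit 4) (nat_lit 362) (nat_lit 309) (nat_lit 229)) (XT.lf (nat_lit 0) (nat_lit 76849502477) (nat_lit 152) (nat_lit 26039496839) (nat_lit 0) (nat_lit 34360754185) (nat_lit 12) (nat_lit 5) (nat_lit 14) (nat_lit 4) (nat_lit 12) (nat_lit 4) (nat_lit 363) (nat_lit 309) (nat_lit 228)))) (XT.nd (nat_lit 78) (nat_lit 152) (nat_lit 0) (XT.lf (nat_lit 0) (nat_lit 33546900886) (nat_lit 76) (nat_lit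 77793228384) (nat_lit 76) (nat_lit 35298293253) (nat_lit 11) (nat_lit 4) (nat_lit 12) (nat_lit 5) (nat_lit 12) (nat_lit 4) (nat_lit 364) (nat_lit 309) (nat_lit 227)) (XT.nd (nat_lit 78) (nat_lit 152) (nat_lit 0) (XT.lf (nat_lit 0) (nat_lit 98812617695) (nat_lit 76) (nat_lit 50222000763) (nat_lit 76) (nat_lit 7721337078) (nat_lit 11) (nat_lit 4) (nat_lit 12) (nat_lit 5) (nat_lit 12) (nat_lit 4) (nat_lit 365) (nat_lit 309) (nat_lit 226)) (XT.lf (nat_lit 0) (nat_lit 1297335128) (nat_lit 76) (nat_lit 20070129765) (nat_lit 152) (nat_lit 146297614753) (nat_lit 9) (nat_lit 5) (nat_lit 10) (nat_lit 5) (nat_lit 11) (nat_lit 4) (nat_lit 366) (nat_lit 309) (nat_lit 225)))))) (XT.nd (nat_lit 468) (nat_lit 152) (nat_lit 0) (XT.nd (nat_lit 234) (nat_lit 76) (nat_lit 0) (XT.nd (nat_lit 78) (nat_lit 76) (nat_lit 0) (XT.lf (nat_lit 0) (nat_lit 53729226006) (nat_lit 152) (nat_lit 112407886575) (nat_lit 0)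 (nat_lit 13242674372) (nat_lit 9) (nat_lit 5) (nat_lit 11) (nat_lit 4) (nat_lit 9) (nat_lit 4) (nat_lit 367) (nat_lit 309) (nat_lit 224)) (XT.nd (nat_lit 78) (nat_lit 76) (nat_lit 0) (XT.lf (nat_lit 0) (nat_lit 89010763515) (nat_lit 152) (nat_lit 54484485457) (nat_lit 0) (nat_lit 48519880917) (nat_lit 9) (nat_lit 5) (nat_lit 11) (nat_lit 4) (nat_lit 9) (nat_lit 4) (nat_lit 368) (nat_lit 309) (nat_lit 223)) (XT.lf (nat_lit 0) (nat_lit 8325528496) (nat_lit 76) (nat_lit 118912258561) (nat_lit 76) (nat_lit 78417365811) (nat_lit 8) (nat_lit 4) (nat_lit 9) (nat_lit 5) (nat_lit 9) (nat_lit 4) (nat_lit 369) (nat_lit 309) (nat_lit 222)))) (XT.nd (nat_lit 78) (nat_lit 76) (nat_lit 0) (XT.lf (nat_lit 0) (nat_lit 78092835417) (nat_lit 76) (nat_lit 91372514964) (nat_lit 76) (nat_lit 50873909112) (nat_lit 8) (nat_lit 4) (nat_lit 9) (nat_lit 5) (nat_lit 9) (nat_lit 4) (nat_lit 370) (nat_lit 309) (nat_lit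 221)) (XT.nd (nat_lit 78) (nat_lit 76) (nat_lit 0) (XT.lf (nat_lit 0) (nat_lit 153429368050) (nat_lit 76) (nat_lit 61635540828) (nat_lit 76) (nat_lit 21133496916) (nat_lit 8) (nat_lit 4) (nat_lit 9) (nat_lit 5) (nat_lit 9) (nat_lit 4) (nat_lit 371) (nat_lit 309) (nat_lit 220)) (XT.lf (nat_lit 0) (nat_lit 10628678153) (nat_lit 152) (nat_lit 18716437083) (nat_lit 76) (nat_lit 223972885144) (nat_lit 7) (nat_lit 5) (nat_lit 9) (nat_lit 5) (nat_lit 8) (nat_lit 4) (nat_lit 372) (nat_lit 309) (nat_lit 219))))) (XT.nd (nat_lit 234) (nat_lit 76) (nat_lit 0) (XT.nd (nat_lit 78) (nat_lit 0) (nat_lit 0) (XT.lf (nat_lit 0) (nat_lit 45109179621) (nat_lit 152) (nat_lit 220104807099) (nat_lit 0) (nat_lit 6529965450) (nat_lit 6) (nat_lit 5) (nat_lit 8) (nat_lit 4) (nat_lit 6) (nat_lit 4) (nat_lit 373) (nat_lit 309) (nat_lit 218)) (XT.nd (nat_lit 78) (nat_lit 0) (nat_lit 0) (XT.lf (nat_lit 0) (nat_lit 83169059499)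 (nat_lit 152) (nat_lit 163846628130) (nat_lit 0) (nat_lit 44587246050) (nat_lit 6) (nat_lit 5) (nat_lit 8) (nat_lit 4) (nat_lit 6) (nat_lit 4) (nat_lit 374) (nat_lit 309) (nat_lit 217)) (XT.lf (nat_lit 0) (nat_lit 124268871490) (nat_lit 152) (nat_lit 103097354285) (nat_lit 0) (nat_lit 85684651302) (nat_lit 6) (nat_lit 5) (nat_lit 8) (nat_lit 4) (nat_lit 6) (nat_lit 4) (nat_lit 375) (nat_lit 309) (nat_lit 216)))) (XT.nd (nat_lit 78) (nat_lit 76) (nat_lit 0) (XT.lf (nat_lit 0) (nat_lit 168652170036) (nat_lit 152) (nat_lit 37496989868) (nat_lit 0) (nat_lit 130065721387) (nat_lit 6) (nat_lit 5) (nat_lit 8) (nat_lit 4) (nat_lit 6) (nat_lit 4) (nat_lit 376) (nat_lit 309) (nat_lit 215)) (XT.nd (nat_lit 78) (nat_lit 0) (nat_lit 0) (XT.lf (nat_lit 0) (nat_lit 34445685061) (nat_lit 76) (nat_lit 182674075893) (nat_lit 76) (nat_lit 144085563853) (nat_lit 5) (nat_lit 4) (nat_lit 6) (nat_lit 5) (nat_lit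 6) (nat_lit 4) (nat_lit 377) (nat_lit 309) (nat_lit 214)) (XT.lf (nat_lit 0) (nat_lit 113474939891) (nat_lit 76) (nat_lit 156639013573) (nat_lit 76) (nat_lit 118048590986) (nat_lit 5) (nat_lit 4) (nat_lit 6) (nat_lit 5) (nat_lit 6) (nat_lit 4) (nat_lit 378) (nat_lit 309) (nat_lit 213))))))) (XT.nd (nat_lit 936) (nat_lit 76) (nat_lit 0) (XT.nd (nat_lit 468) (nat_lit 0) (nat_lit 0) (XT.nd (nat_lit 234) (nat_lit 152) (nat_lit 0) (XT.nd (nat_lit 78) (nat_lit 0) (nat_lit 0) (XT.lf (nat_lit 0) (nat_lit 198819276305) (nat_lit 76) (nat_lit 128524720761) (nat_lit 76) (nat_lit 89932529149) (nat_lit 5) (nat_lit 4) (nat_lit 6) (nat_lit 5) (nat_lit 6) (nat_lit 4) (nat_lit 379) (nat_lit 309) (nat_lit 212)) (XT.nd (nat_lit 78) (nat_lit 0) (nat_lit 0) (XT.lf (nat_lit 0) (nat_lit 290984438520) (nat_lit 76) (nat_lit 98164594240) (nat_lit 76) (nat_lit 59570764642) (nat_lit 5) (nat_lit 4) (nat_lit 6) (nat_lit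 5) (nat_lit 6) (nat_lit 4) (nat_lit 380) (nat_lit 309) (nat_lit 211)) (XT.lf (nat_lit 0) (nat_lit 390516590458) (nat_lit 76) (nat_lit 65378722149) (nat_lit 76) (nat_lit 26783375898) (nat_lit 5) (nat_lit 4) (nat_lit 6) (nat_lit 5) (nat_lit 6) (nat_lit 4) (nat_lit 381) (nat_lit 309) (nat_lit 210)))) (XT.nd (nat_lit 78) (nat_lit 76) (nat_lit 0) (XT.lf (nat_lit 0) (nat_lit 8347913016) (nat_lit 152) (nat_lit 21483528876) (nat_lit 76) (nat_lit 489516263318) (nat_lit 4) (nat_lit 5) (nat_lit 6) (nat_lit 5) (nat_lit 5) (nat_lit 4) (nat_lit 382) (nat_lit 309) (nat_lit 209)) (XT.nd (nat_lit 78) (nat_lit 0) (nat_lit 0) (XT.lf (nat_lit 0) (nat_lit 46393816450) (nat_lit 152) (nat_lit 502848581902) (nat_lit 0) (nat_lit 9633768025) (nat_lit 3) (nat_lit 5) (nat_lit 5) (nat_lit 4) (nat_lit 3) (nat_lit 4) (nat_lit 383) (nat_lit 309) (nat_lit 208)) (XT.lf (nat_lit 0) (nat_lit 88364099047) (nat_lit 152) (nat_lit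 461555866280) (nat_lit 0) (nat_lit 51602903985) (nat_lit 3) (nat_lit 5) (nat_lit 5) (nat_lit 4) (nat_lit 3) (nat_lit 4) (nat_lit 384) (nat_lit 309) (nat_lit 207))))) (XT.nd (nat_lit 234) (nat_lit 0) (nat_lit 0) (XT.nd (nat_lit 78) (nat_lit 0) (nat_lit 0) (XT.lf (nat_lit 0) (nat_lit 133689532183) (nat_lit 152) (nat_lit 416964624681) (nat_lit 0) (nat_lit 96927275421) (nat_lit 3) (nat_lit 5) (nat_lit 5) (nat_lit 4) (nat_lit 3) (nat_lit 4) (nat_lit 385) (nat_lit 309) (nat_lit 206)) (XT.nd (nat_lit 78) (nat_lit 0) (nat_lit 0) (XT.lf (nat_lit 0) (nat_lit 182638711018) (nat_lit 152) (nat_lit 368810612712) (nat_lit 0) (nat_lit 145875471200) (nat_lit 3) (nat_lit 5) (nat_lit 5) (nat_lit 4) (nat_lit 3) (nat_lit 4) (nat_lit 386) (nat_lit 309) (nat_lit 205)) (XT.lf (nat_lit 0) (nat_lit 235501704760) (nat_lit 152) (nat_lit 316808473264) (nat_lit 0) (nat_lit 198737554704) (nat_lit 3) (nat_lit 5) (nat_lit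 5) (nat_lit 4) (nat_lit 3) (nat_lit 4) (nat_lit 387) (nat_lit 309) (nat_lit 204)))) (XT.nd (nat_lit 78) (nat_lit 0) (nat_lit 0) (XT.lf (nat_lit 0) (nat_lit 292591775594) (nat_lit 152) (nat_lit 260650045511) (nat_lit 0) (nat_lit 255826782726) (nat_lit 3) (nat_lit 5) (nat_lit 5) (nat_lit 4) (nat_lit 3) (nat_lit 4) (nat_lit 388) (nat_lit 309) (nat_lit 203)) (XT.nd (nat_lit 78) (nat_lit 0) (nat_lit 0) (XT.lf (nat_lit 0) (nat_lit 354247235050) (nat_lit 152) (nat_lit 200002538770) (nat_lit 0) (nat_lit 317481461801) (nat_lit 3) (nat_lit 5) (nat_lit 5) (nat_lit 4) (nat_lit 3) (nat_lit 4) (nat_lit 389) (nat_lit 309) (nat_lit 202)) (XT.lf (nat_lit 0) (nat_lit 420833448816) (nat_lit 152) (nat_lit 134506560408) (nat_lit 0) (nat_lit 384066952990) (nat_lit 3) (nat_lit 5) (nat_lit 5) (nat_lit 4) (nat_lit 3) (nat_lit 4) (nat_lit 390) (nat_lit 309) (nat_lit 201)))))) (XT.nd (nat_lit 40716) (nat_lit 0) (nat_lit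 7524) (XT.nd (nat_lit 234) (nat_lit 0) (nat_lit 0) (XT.nd (nat_lit 78) (nat_lit 76) (nat_lit 0) (XT.lf (nat_lit 0) (nat_lit 492745001860) (nat_lit 152) (nat_lit 63773986109) (nat_lit 0) (nat_lit 455977836983) (nat_lit 3) (nat_lit 5) (nat_lit 5) (nat_lit 4) (nat_lit 3) (nat_lit 4) (nat_lit 391) (nat_lit 309) (nat_lit 200)) (XT.nd (nat_lit 78) (nat_lit 0) (nat_lit 0) (XT.lf (nat_lit 0) (nat_lit 13031427174) (nat_lit 76) (nat_lit 557580066644) (nat_lit 76) (nat_lit 520812282275) (nat_lit 2) (nat_lit 4) (nat_lit 3) (nat_lit 5) (nat_lit 3) (nat_lit 4) (nat_lit 392) (nat_lit 309) (nat_lit 199)) (XT.lf (nat_lit 0) (nat_lit 98255892012) (nat_lit 76) (nat_lit 557560936610) (nat_lit 76) (nat_lit 520792578637) (nat_lit 2) (nat_lit 4) (nat_lit 3) (nat_lit 5) (nat_lit 3) (nat_lit 4) (nat_lit 393) (nat_lit 309) (nat_lit 198)))) (XT.nd (nat_lit 40326) (nat_lit 0) (nat_lit 8740) (XT.lf (nat_lit 0) (nat_lit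 190295786280) (nat_lit 76) (nat_lit 557541527816) (nat_lit 76) (nat_lit 520772638729) (nat_lit 2) (nat_lit 4) (nat_lit 3) (nat_lit 5) (nat_lit 3) (nat_lit 4) (nat_lit 394) (nat_lit 309) (nat_lit 197)) (XT.nd (nat_lit 78) (nat_lit 684) (nat_lit 0) (XT.lf (nat_lit 0) (nat_lit 4292182731) (nat_lit 684) (nat_lit 193298006) (nat_lit 684) (nat_lit 193298006) (nat_lit 126) (nat_lit 3) (nat_lit 135) (nat_lit 3) (nat_lit 135) (nat_lit 5) (nat_lit 310) (nat_lit 310) (nat_lit 280)) (XT.lf (nat_lit 0) (nat_lit 580450303) (nat_lit 684) (nat_lit 2667256413) (nat_lit 760) (nat_lit 6415665216) (nat_lit 117) (nat_lit 5) (nat_lit 126) (nat_lit 3) (nat_lit 127) (nat_lit 5) (nat_lit 311) (nat_lit 310) (nat_lit 279))))) (XT.nd (nat_lit 234) (nat_lit 1292) (nat_lit 0) (XT.nd (nat_lit 78) (nat_lit 0) (nat_lit 0) (XT.lf (nat_lit 0) (nat_lit 2024027026) (nat_lit 684) (nat_lit 4975283513) (nat_lit 760) (nat_lit 2993388081)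 (nat_lit 118) (nat_lit 5) (nat_lit 127) (nat_lit 5) (nat_lit 128) (nat_lit 5) (nat_lit 312) (nat_lit 310) (nat_lit 278)) (XT.nd (nat_lit 78) (nat_lit 0) (nat_lit 76) (XT.lf (nat_lit 76) (nat_lit 3033036369) (nat_lit 0) (nat_lit 582554427) (nat_lit 760) (nat_lit 6731264351) (nat_lit 119) (nat_lit 5) (nat_lit 118) (nat_lit 5) (nat_lit 128) (nat_lit 5) (nat_lit 313) (nat_lit 310) (nat_lit 277)) (XT.lf (nat_lit 76) (nat_lit 988292511) (nat_lit 0) (nat_lit 4440101731) (nat_lit 760) (nat_lit 5296354920) (nat_lit 120) (nat_lit 5) (nat_lit 119) (nat_lit 5) (nat_lit 129) (nat_lit 5) (nat_lit 314) (nat_lit 310) (nat_lit 276)))) (XT.nd (nat_lit 156) (nat_lit 1444) (nat_lit 0) (XT.nd (nat_lit 78) (nat_lit 0) (nat_lit 0) (XT.lf (nat_lit 0) (nat_lit 7463788715) (nat_lit 684) (nat_lit 1042041035) (nat_lit 760) (nat_lit 2623259845) (nat_lit 120) (nat_lit 5) (nat_lit 129) (nat_lit 5) (nat_lit 130) (nat_lit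 5) (nat_lit 315) (nat_lit 310) (nat_lit 275)) (XT.lf (nat_lit 76) (nat_lit 8470329368) (nat_lit 0) (nat_lit 1304930538) (nat_lit 760) (nat_lit 1784941429) (nat_lit 121) (nat_lit 5) (nat_lit 120) (nat_lit 5) (nat_lit 130) (nat_lit 5) (nat_lit 316) (nat_lit 310) (nat_lit 274))) (XT.nd (nat_lit 78) (nat_lit 760) (nat_lit 0) (XT.lf (nat_lit 0) (nat_lit 378027807) (nat_lit 760) (nat_lit 5228260651) (nat_lit 76) (nat_lit 6412395281) (nat_lit 111) (nat_lit 5) (nat_lit 121) (nat_lit 5) (nat_lit 112) (nat_lit 5) (nat_lit 317) (nat_lit 310) (nat_lit 273)) (XT.lf (nat_lit 0) (nat_lit 2761817780) (nat_lit 836) (nat_lit 7450311803) (nat_lit 76) (nat_lit 2294806631) (nat_lit 101) (nat_lit 5) (nat_lit 112) (nat_lit 5) (nat_lit 102) (nat_lit 5) (nat_lit 318) (nat_lit 310) (nat_lit 272))))))))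
noncomputable def xc65 : XT := (XT.nd (nat_lit 1950) (nat_lit 1824) (nat_lit 0) (XT.nd (nat_lit 936) (nat_lit 2052) (nat_lit 0) (XT.nd (nat_lit 468) (nat_lit 1368) (nat_lit 0) (XT.nd (nat_lit 234) (nat_lit 1064) (nat_lit 0) (XT.nd (nat_lit 78) (nat_lit 304) (nat_lit 0) (XT.lf (nat_lit 0) (nat_lit 3253619464) (nat_lit 380) (nat_lit 2241990709) (nat_lit 456) (nat_lit 7530739021) (nat_lit 96) (nat_lit 5) (nat_lit 101) (nat_lit 5) (nat_lit 102) (nat_lit 5) (nat_lit 319) (nat_lit 310) (nat_lit 271)) (XT.nd (nat_lit 78) (nat_lit 0) (nat_lit 0) (XT.lf (nat_lit 0) (nat_lit 1364980583) (nat_lit 304) (nat_lit 7261845947) (nat_lit 380) (nat_lit 4951613086) (nat_lit 92) (nat_lit 5) (nat_lit 96) (nat_lit 5) (nat_lit 97) (nat_lit 5) (nat_lit 320) (nat_lit 310) (nat_lit 270)) (XT.lf (nat_lit 0) (nat_lit 12169591182) (nat_lit 380) (nat_lit 560362619) (nat_lit 76) (nat_lit 1436746879) (nat_lit 92) (nat_lit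 5) (nat_lit 97) (nat_lit 5) (nat_lit 93) (nat_lit 5) (nat_lit 321) (nat_lit 310) (nat_lit 269)))) (XT.nd (nat_lit 78) (nat_lit 608) (nat_lit 0) (XT.lf (nat_lit 0) (nat_lit 1408409849) (nat_lit 456) (nat_lit 2589386679) (nat_lit 76) (nat_lit 10790700398) (nat_lit 86) (nat_lit 5) (nat_lit 92) (nat_lit 5) (nat_lit 87) (nat_lit 5) (nat_lit 322) (nat_lit 310) (nat_lit 268)) (XT.nd (nat_lit 78) (nat_lit 304) (nat_lit 0) (XT.lf (nat_lit 0) (nat_lit 5221982077) (nat_lit 380) (nat_lit 4759507213) (nat_lit 76) (nat_lit 5466677279) (nat_lit 82) (nat_lit 5) (nat_lit 87) (nat_lit 5) (nat_lit 83) (nat_lit 5) (nat_lit 323) (nat_lit 310) (nat_lit 267)) (XT.lf (nat_lit 0) (nat_lit 9117133856) (nat_lit 304) (nat_lit 420731891) (nat_lit 380) (nat_lit 6612925059) (nat_lit 78) (nat_lit 5) (nat_lit 82) (nat_lit 5) (nat_lit 83) (nat_lit 5) (nat_lit 324) (nat_lit 310) (nat_lit 266))))) (XT.nd (nat_lit 234) (nat_lit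 532) (nat_lit 0) (XT.nd (nat_lit 78) (nat_lit 608) (nat_lit 0) (XT.lf (nat_lit 0) (nat_lit 7379398689) (nat_lit 228) (nat_lit 7118476562) (nat_lit 304) (nat_lit 2396846143) (nat_lit 75) (nat_lit 5) (nat_lit 78) (nat_lit 5) (nat_lit 79) (nat_lit 5) (nat_lit 325) (nat_lit 310) (nat_lit 265)) (XT.nd (nat_lit 78) (nat_lit 228) (nat_lit 0) (XT.lf (nat_lit 0) (nat_lit 2304844604) (nat_lit 380) (nat_lit 12167818155) (nat_lit 76) (nat_lit 3212987368) (nat_lit 70) (nat_lit 5) (nat_lit 75) (nat_lit 5) (nat_lit 71) (nat_lit 5) (nat_lit 326) (nat_lit 310) (nat_lit 264)) (XT.lf (nat_lit 0) (nat_lit 3441536984) (nat_lit 228) (nat_lit 4150102078) (nat_lit 304) (nat_lit 10931634340) (nat_lit 67) (nat_lit 5) (nat_lit 70) (nat_lit 5) (nat_lit 71) (nat_lit 5) (nat_lit 327) (nat_lit 310) (nat_lit 263)))) (XT.nd (nat_lit 78) (nat_lit 304) (nat_lit 0) (XT.lf (nat_lit 0) (nat_lit 1175175612) (nat_lit 228) (nat_lit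 12421299076) (nat_lit 304) (nat_lit 5816706583) (nat_lit 64) (nat_lit 5) (nat_lit 67) (nat_lit 5) (nat_lit 68) (nat_lit 5) (nat_lit 328) (nat_lit 310) (nat_lit 262)) (XT.nd (nat_lit 78) (nat_lit 228) (nat_lit 0) (XT.lf (nat_lit 0) (nat_lit 7623258) (nat_lit 304) (nat_lit 1224859791) (nat_lit 76) (nat_lit 19127511073) (nat_lit 63) (nat_lit 5) (nat_lit 67) (nat_lit 5) (nat_lit 64) (nat_lit 5) (nat_lit 329) (nat_lit 310) (nat_lit 261)) (XT.lf (nat_lit 0) (nat_lit 6503390974) (nat_lit 304) (nat_lit 3988671822) (nat_lit 76) (nat_lit 10865281566) (nat_lit 60) (nat_lit 5) (nat_lit 64) (nat_lit 5) (nat_lit 61) (nat_lit 5) (nat_lit 330) (nat_lit 310) (nat_lit 260)))))) (XT.nd (nat_lit 468) (nat_lit 988) (nat_lit 0) (XT.nd (nat_lit 234) (nat_lit 380) (nat_lit 0) (XT.nd (nat_lit 78) (nat_lit 456) (nat_lit 0) (XT.lf (nat_lit 0) (nat_lit 13788884825) (nat_lit 304) (nat_lit 6974435155) (nat_lit 76) (nat_lit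 1657681794) (nat_lit 57) (nat_lit 5) (nat_lit 61) (nat_lit 5) (nat_lit 58) (nat_lit 5) (nat_lit 331) (nat_lit 310) (nat_lit 259)) (XT.nd (nat_lit 78) (nat_lit 304) (nat_lit 0) (XT.lf (nat_lit 0) (nat_lit 13198559878) (nat_lit 152) (nat_lit 8873359652) (nat_lit 228) (nat_lit 1477117913) (nat_lit 55) (nat_lit 5) (nat_lit 57) (nat_lit 5) (nat_lit 58) (nat_lit 5) (nat_lit 332) (nat_lit 310) (nat_lit 258)) (XT.lf (nat_lit 0) (nat_lit 6370581410) (nat_lit 304) (nat_lit 14160407003) (nat_lit 76) (nat_lit 4215449194) (nat_lit 51) (nat_lit 5) (nat_lit 55) (nat_lit 5) (nat_lit 52) (nat_lit 5) (nat_lit 333) (nat_lit 310) (nat_lit 257)))) (XT.nd (nat_lit 78) (nat_lit 228) (nat_lit 0) (XT.lf (nat_lit 0) (nat_lit 7544111648) (nat_lit 152) (nat_lit 7665692095) (nat_lit 228) (nat_lit 10807859311) (nat_lit 49) (nat_lit 5) (nat_lit 51) (nat_lit 5) (nat_lit 52) (nat_lit 5) (nat_lit 334) (nat_lit 310) (nat_lit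 256)) (XT.nd (nat_lit 78) (nat_lit 76) (nat_lit 0) (XT.lf (nat_lit 0) (nat_lit 4086623441) (nat_lit 152) (nat_lit 21046917091) (nat_lit 228) (nat_lit 2238192845) (nat_lit 47) (nat_lit 5) (nat_lit 49) (nat_lit 5) (nat_lit 50) (nat_lit 5) (nat_lit 335) (nat_lit 310) (nat_lit 255)) (XT.lf (nat_lit 0) (nat_lit 7215574543) (nat_lit 228) (nat_lit 4823757) (nat_lit 76) (nat_lit 21587111213) (nat_lit 46) (nat_lit 5) (nat_lit 49) (nat_lit 5) (nat_lit 47) (nat_lit 5) (nat_lit 336) (nat_lit 310) (nat_lit 254))))) (XT.nd (nat_lit 234) (nat_lit 456) (nat_lit 0) (XT.nd (nat_lit 78) (nat_lit 380) (nat_lit 0) (XT.lf (nat_lit 0) (nat_lit 17848909420) (nat_lit 228) (nat_lit 4586537517) (nat_lit 76) (nat_lit 7895794941) (nat_lit 44) (nat_lit 5) (nat_lit 47) (nat_lit 5) (nat_lit 45) (nat_lit 5) (nat_lit 337) (nat_lit 310) (nat_lit 253)) (XT.nd (nat_lit 78) (nat_lit 228) (nat_lit 0) (XT.lf (nat_lit 0) (nat_lit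 22114548620) (nat_lit 152) (nat_lit 7655954971) (nat_lit 228) (nat_lit 2184501467) (nat_lit 42) (nat_lit 5) (nat_lit 44) (nat_lit 5) (nat_lit 45) (nat_lit 5) (nat_lit 338) (nat_lit 310) (nat_lit 252)) (XT.lf (nat_lit 0) (nat_lit 9119113221) (nat_lit 228) (nat_lit 16031127386) (nat_lit 76) (nat_lit 8528062328) (nat_lit 39) (nat_lit 5) (nat_lit 42) (nat_lit 5) (nat_lit 40) (nat_lit 5) (nat_lit 339) (nat_lit 310) (nat_lit 251)))) (XT.nd (nat_lit 156) (nat_lit 228) (nat_lit 0) (XT.nd (nat_lit 78) (nat_lit 76) (nat_lit 0) (XT.lf (nat_lit 0) (nat_lit 12333510945) (nat_lit 152) (nat_lit 9386453409) (nat_lit 228) (nat_lit 13794245313) (nat_lit 37) (nat_lit 5) (nat_lit 39) (nat_lit 5) (nat_lit 40) (nat_lit 5) (nat_lit 340) (nat_lit 310) (nat_lit 250)) (XT.lf (nat_lit 0) (nat_lit 6081769206) (nat_lit 76) (nat_lit 29718774746) (nat_lit 152) (nat_lit 1672870924) (nat_lit 36) (nat_lit 5) (nat_lit 37)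 (nat_lit 5) (nat_lit 38) (nat_lit 4) (nat_lit 341) (nat_lit 310) (nat_lit 249))) (XT.nd (nat_lit 78) (nat_lit 152) (nat_lit 0) (XT.lf (nat_lit 0) (nat_lit 11595914385) (nat_lit 152) (nat_lit 1443991278) (nat_lit 76) (nat_lit 26513387470) (nat_lit 35) (nat_lit 5) (nat_lit 37) (nat_lit 5) (nat_lit 36) (nat_lit 5) (nat_lit 342) (nat_lit 310) (nat_lit 248)) (XT.lf (nat_lit 0) (nat_lit 26427978628) (nat_lit 228) (nat_lit 10011180806) (nat_lit 76) (nat_lit 5331019055) (nat_lit 33) (nat_lit 5) (nat_lit 36) (nat_lit 5) (nat_lit 34) (nat_lit 4) (nat_lit 343) (nat_lit 310) (nat_lit 247))))))) (XT.nd (nat_lit 936) (nat_lit 684) (nat_lit 0) (XT.nd (nat_lit 468) (nat_lit 456) (nat_lit 0) (XT.nd (nat_lit 234) (nat_lit 304) (nat_lit 0) (XT.nd (nat_lit 78) (nat_lit 304) (nat_lit 0) (XT.lf (nat_lit 0) (nat_lit 24014528350) (nat_lit 76) (nat_lit 19029684186) (nat_lit 152) (nat_lit 1090328685) (nat_lit 32)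 (nat_lit 5) (nat_lit 33) (nat_lit 5) (nat_lit 34) (nat_lit 4) (nat_lit 344) (nat_lit 310) (nat_lit 246)) (XT.nd (nat_lit 78) (nat_lit 76) (nat_lit 0) (XT.lf (nat_lit 0) (nat_lit 14234264715) (nat_lit 228) (nat_lit 32020609445) (nat_lit 76) (nat_lit 402504511) (nat_lit 29) (nat_lit 5) (nat_lit 32) (nat_lit 5) (nat_lit 30) (nat_lit 4) (nat_lit 345) (nat_lit 310) (nat_lit 245)) (XT.lf (nat_lit 0) (nat_lit 3248530034) (nat_lit 76) (nat_lit 28205157202) (nat_lit 152) (nat_lit 17892114625) (nat_lit 28) (nat_lit 5) (nat_lit 29) (nat_lit 5) (nat_lit 30) (nat_lit 4) (nat_lit 346) (nat_lit 310) (nat_lit 244)))) (XT.nd (nat_lit 78) (nat_lit 304) (nat_lit 0) (XT.lf (nat_lit 0) (nat_lit 42445827755) (nat_lit 76) (nat_lit 8142348292) (nat_lit 152) (nat_lit 1634252355) (nat_lit 28) (nat_lit 5) (nat_lit 29) (nat_lit 5) (nat_lit 30) (nat_lit 4) (nat_lit 347) (nat_lit 310) (nat_lit 243)) (XT.nd (nat_lit 78)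 (nat_lit 76) (nat_lit 0) (XT.lf (nat_lit 0) (nat_lit 16088626373) (nat_lit 228) (nat_lit 25386157323) (nat_lit 76) (nat_lit 13808271658) (nat_lit 25) (nat_lit 5) (nat_lit 28) (nat_lit 5) (nat_lit 26) (nat_lit 4) (nat_lit 348) (nat_lit 310) (nat_lit 242)) (XT.lf (nat_lit 0) (nat_lit 14785053437) (nat_lit 76) (nat_lit 20910598926) (nat_lit 152) (nat_lit 22865366068) (nat_lit 24) (nat_lit 5) (nat_lit 25) (nat_lit 5) (nat_lit 26) (nat_lit 4) (nat_lit 349) (nat_lit 310) (nat_lit 241))))) (XT.nd (nat_lit 234) (nat_lit 228) (nat_lit 0) (XT.nd (nat_lit 78) (nat_lit 228) (nat_lit 0) (XT.lf (nat_lit 0) (nat_lit 57323185742) (nat_lit 152) (nat_lit 3063214118) (nat_lit 0) (nat_lit 1692225301) (nat_lit 24) (nat_lit 5) (nat_lit 26) (nat_lit 4) (nat_lit 24) (nat_lit 4) (nat_lit 350) (nat_lit 310) (nat_lit 240)) (XT.nd (nat_lit 78) (nat_lit 76) (nat_lit 0) (XT.lf (nat_lit 0) (nat_lit 15335425231) (nat_lit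 152) (nat_lit 24212275714) (nat_lit 76) (nat_lit 26268089797) (nat_lit 22) (nat_lit 5) (nat_lit 24) (nat_lit 5) (nat_lit 23) (nat_lit 4) (nat_lit 351) (nat_lit 310) (nat_lit 239)) (XT.lf (nat_lit 0) (nat_lit 20653876997) (nat_lit 76) (nat_lit 16576029681) (nat_lit 152) (nat_lit 32599980397) (nat_lit 21) (nat_lit 5) (nat_lit 22) (nat_lit 5) (nat_lit 23) (nat_lit 4) (nat_lit 352) (nat_lit 310) (nat_lit 238)))) (XT.nd (nat_lit 78) (nat_lit 228) (nat_lit 0) (XT.lf (nat_lit 0) (nat_lit 61417728002) (nat_lit 152) (nat_lit 4334632893) (nat_lit 0) (nat_lit 8385664080) (nat_lit 21) (nat_lit 5) (nat_lit 23) (nat_lit 4) (nat_lit 21) (nat_lit 4) (nat_lit 353) (nat_lit 310) (nat_lit 237)) (XT.nd (nat_lit 78) (nat_lit 76) (nat_lit 0) (XT.lf (nat_lit 0) (nat_lit 9457093860) (nat_lit 152) (nat_lit 33659338458) (nat_lit 76) (nat_lit 35618184767) (nat_lit 19) (nat_lit 5) (nat_lit 21) (nat_lit 5) (nat_lit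 20) (nat_lit 4) (nat_lit 354) (nat_lit 310) (nat_lit 236)) (XT.lf (nat_lit 0) (nat_lit 15140247045) (nat_lit 76) (nat_lit 18127989225) (nat_lit 152) (nat_lit 50405015334) (nat_lit 18) (nat_lit 5) (nat_lit 19) (nat_lit 5) (nat_lit 20) (nat_lit 4) (nat_lit 355) (nat_lit 310) (nat_lit 235)))))) (XT.nd (nat_lit 468) (nat_lit 380) (nat_lit 0) (XT.nd (nat_lit 234) (nat_lit 152) (nat_lit 0) (XT.nd (nat_lit 78) (nat_lit 152) (nat_lit 0) (XT.lf (nat_lit 0) (nat_lit 59705112094) (nat_lit 152) (nat_lit 20105390702) (nat_lit 0) (nat_lit 9160434200) (nat_lit 18) (nat_lit 5) (nat_lit 20) (nat_lit 4) (nat_lit 18) (nat_lit 4) (nat_lit 356) (nat_lit 310) (nat_lit 234)) (XT.nd (nat_lit 78) (nat_lit 76) (nat_lit 0) (XT.lf (nat_lit 0) (nat_lit 32920765055) (nat_lit 76) (nat_lit 56143407223) (nat_lit 76) (nat_lit 5587905275) (nat_lit 17) (nat_lit 4) (nat_lit 18) (nat_lit 5) (nat_lit 18) (nat_lit 4) (nat_lit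 357) (nat_lit 310) (nat_lit 233)) (XT.lf (nat_lit 0) (nat_lit 19688539890) (nat_lit 152) (nat_lit 10204017446) (nat_lit 76) (nat_lit 70862357686) (nat_lit 16) (nat_lit 5) (nat_lit 18) (nat_lit 5) (nat_lit 17) (nat_lit 4) (nat_lit 358) (nat_lit 310) (nat_lit 232)))) (XT.nd (nat_lit 78) (nat_lit 76) (nat_lit 0) (XT.lf (nat_lit 0) (nat_lit 46828718846) (nat_lit 76) (nat_lit 685194787) (nat_lit 152) (nat_lit 59791357979) (nat_lit 15) (nat_lit 5) (nat_lit 16) (nat_lit 5) (nat_lit 17) (nat_lit 4) (nat_lit 359) (nat_lit 310) (nat_lit 231)) (XT.nd (nat_lit 78) (nat_lit 76) (nat_lit 0) (XT.lf (nat_lit 0) (nat_lit 78216967097) (nat_lit 152) (nat_lit 6087805011) (nat_lit 0) (nat_lit 30042303681) (nat_lit 15) (nat_lit 5) (nat_lit 17) (nat_lit 4) (nat_lit 15) (nat_lit 4) (nat_lit 360) (nat_lit 310) (nat_lit 230)) (XT.lf (nat_lit 0) (nat_lit 54361138274) (nat_lit 76) (nat_lit 57865406999) (nat_lit 76)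 (nat_lit 9683166437) (nat_lit 14) (nat_lit 4) (nat_lit 15) (nat_lit 5) (nat_lit 15) (nat_lit 4) (nat_lit 361) (nat_lit 310) (nat_lit 229))))) (XT.nd (nat_lit 234) (nat_lit 228) (nat_lit 0) (XT.nd (nat_lit 78) (nat_lit 76) (nat_lit 0) (XT.lf (nat_lit 0) (nat_lit 18373345158) (nat_lit 152) (nat_lit 10523898862) (nat_lit 76) (nat_lit 101160473788) (nat_lit 13) (nat_lit 5) (nat_lit 15) (nat_lit 5) (nat_lit 14) (nat_lit 4) (nat_lit 362) (nat_lit 310) (nat_lit 228)) (XT.nd (nat_lit 78) (nat_lit 0) (nat_lit 0) (XT.lf (nat_lit 0) (nat_lit 49204642595) (nat_lit 152) (nat_lit 86297584339) (nat_lit 0) (nat_lit 3303925815) (nat_lit 12) (nat_lit 5) (nat_lit 14) (nat_lit 4) (nat_lit 12) (nat_lit 4) (nat_lit 363) (nat_lit 310) (nat_lit 227)) (XT.lf (nat_lit 0) (nat_lit 83167322450) (nat_lit 152) (nat_lit 27793020073) (nat_lit 0) (nat_lit 37260877114) (nat_lit 12) (nat_lit 5) (nat_lit 14) (nat_lit 4) (nat_lit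 12) (nat_lit 4) (nat_lit 364) (nat_lit 310) (nat_lit 226)))) (XT.nd (nat_lit 156) (nat_lit 152) (nat_lit 0) (XT.nd (nat_lit 78) (nat_lit 0) (nat_lit 0) (XT.lf (nat_lit 0) (nat_lit 36545963869) (nat_lit 76) (nat_lit 83863576199) (nat_lit 76) (nat_lit 37951826646) (nat_lit 11) (nat_lit 4) (nat_lit 12) (nat_lit 5) (nat_lit 12) (nat_lit 4) (nat_lit 365) (nat_lit 310) (nat_lit 225)) (XT.lf (nat_lit 0) (nat_lit 107009581659) (nat_lit 76) (nat_lit 54097991885) (nat_lit 76) (nat_lit 8181331018) (nat_lit 11) (nat_lit 4) (nat_lit 12) (nat_lit 5) (nat_lit 12) (nat_lit 4) (nat_lit 366) (nat_lit 310) (nat_lit 224))) (XT.nd (nat_lit 78) (nat_lit 0) (nat_lit 0) (XT.lf (nat_lit 0) (nat_lit 1685233450) (nat_lit 76) (nat_lit 21537421099) (nat_lit 152) (nat_lit 157848325850) (nat_lit 9) (nat_lit 5) (nat_lit 10) (nat_lit 5) (nat_lit 11) (nat_lit 4) (nat_lit 367) (nat_lit 310) (nat_lit 223)) (XT.lf (nat_lit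 0) (nat_lit 58164556692) (nat_lit 152) (nat_lit 121132686407) (nat_lit 0) (nat_lit 14426062371) (nat_lit 9) (nat_lit 5) (nat_lit 11) (nat_lit 4) (nat_lit 9) (nat_lit 4) (nat_lit 368) (nat_lit 310) (nat_lit 222))))))))
noncomputable def xc66 : XT := (XT.nd (nat_lit 1872) (nat_lit 76) (nat_lit 0) (XT.nd (nat_lit 936) (nat_lit 152) (nat_lit 0) (XT.nd (nat_lit 468) (nat_lit 76) (nat_lit 0) (XT.nd (nat_lit 234) (nat_lit 152) (nat_lit 0) (XT.nd (nat_lit 78) (nat_lit 76) (nat_lit 0) (XT.lf (nat_lit 0) (nat_lit 96258469601) (nat_lit 152) (nat_lit 58595252540) (nat_lit 0) (nat_lit 52516262177) (nat_lit 9) (nat_lit 5) (nat_lit 11) (nat_lit 4) (nat_lit 9) (nat_lit 4) (nat_lit 369) (nat_lit 310) (nat_lit 221)) (XT.nd (nat_lit 78) (nat_lit 0) (nat_lit 0) (XT.lf (nat_lit 0) (nat_lit 9228785110) (nat_lit 76) (nat_lit 128309177570) (nat_lit 76) (nat_lit 84563532088) (nat_lit 8) (nat_lit 4) (nat_lit 9) (nat_lit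 5) (nat_lit 9) (nat_lit 4) (nat_lit 370) (nat_lit 310) (nat_lit 220)) (XT.lf (nat_lit 0) (nat_lit 84559905153) (nat_lit 76) (nat_lit 98574851647) (nat_lit 76) (nat_lit 54826022777) (nat_lit 8) (nat_lit 4) (nat_lit 9) (nat_lit 5) (nat_lit 9) (nat_lit 4) (nat_lit 371) (nat_lit 310) (nat_lit 219)))) (XT.nd (nat_lit 78) (nat_lit 152) (nat_lit 0) (XT.lf (nat_lit 0) (nat_lit 165907090551) (nat_lit 76) (nat_lit 66466879914) (nat_lit 76) (nat_lit 22715103463) (nat_lit 8) (nat_lit 4) (nat_lit 9) (nat_lit 5) (nat_lit 9) (nat_lit 4) (nat_lit 372) (nat_lit 310) (nat_lit 218)) (XT.nd (nat_lit 78) (nat_lit 76) (nat_lit 0) (XT.lf (nat_lit 0) (nat_lit 11576733686) (nat_lit 152) (nat_lit 20022201635) (nat_lit 76) (nat_lit 241979607427) (nat_lit 7) (nat_lit 5) (nat_lit 9) (nat_lit 5) (nat_lit 8) (nat_lit 4) (nat_lit 373) (nat_lit 310) (nat_lit 217)) (XT.lf (nat_lit 0) (nat_lit 48812697104) (nat_lit 152) (nat_lit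 237526690633) (nat_lit 0) (nat_lit 7139332562) (nat_lit 6) (nat_lit 5) (nat_lit 8) (nat_lit 4) (nat_lit 6) (nat_lit 4) (nat_lit 374) (nat_lit 310) (nat_lit 216))))) (XT.nd (nat_lit 234) (nat_lit 76) (nat_lit 0) (XT.nd (nat_lit 78) (nat_lit 0) (nat_lit 0) (XT.lf (nat_lit 0) (nat_lit 89910346401) (nat_lit 152) (nat_lit 176781672238) (nat_lit 0) (nat_lit 48234753398) (nat_lit 6) (nat_lit 5) (nat_lit 8) (nat_lit 4) (nat_lit 6) (nat_lit 4) (nat_lit 375) (nat_lit 310) (nat_lit 215)) (XT.nd (nat_lit 78) (nat_lit 0) (nat_lit 0) (XT.lf (nat_lit 0) (nat_lit 134291642452) (nat_lit 152) (nat_lit 111185248052) (nat_lit 0) (nat_lit 92613986058) (nat_lit 6) (nat_lit 5) (nat_lit 8) (nat_lit 4) (nat_lit 6) (nat_lit 4) (nat_lit 376) (nat_lit 310) (nat_lit 214)) (XT.lf (nat_lit 0) (nat_lit 182219585530) (nat_lit 152) (nat_lit 40348698523) (nat_lit 0) (nat_lit 140540018590) (nat_lit 6) (nat_lit 5) (nat_lit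 8) (nat_lit 4) (nat_lit 6) (nat_lit 4) (nat_lit 377) (nat_lit 310) (nat_lit 213)))) (XT.nd (nat_lit 78) (nat_lit 0) (nat_lit 0) (XT.lf (nat_lit 0) (nat_lit 37342956304) (nat_lit 76) (nat_lit 197218264974) (nat_lit 76) (nat_lit 155536929009) (nat_lit 5) (nat_lit 4) (nat_lit 6) (nat_lit 5) (nat_lit 6) (nat_lit 4) (nat_lit 378) (nat_lit 310) (nat_lit 212)) (XT.nd (nat_lit 78) (nat_lit 0) (nat_lit 0) (XT.lf (nat_lit 0) (nat_lit 122684061414) (nat_lit 76) (nat_lit 169105563371) (nat_lit 76) (nat_lit 127422589420) (nat_lit 5) (nat_lit 4) (nat_lit 6) (nat_lit 5) (nat_lit 6) (nat_lit 4) (nat_lit 379) (nat_lit 310) (nat_lit 211)) (XT.lf (nat_lit 0) (nat_lit 214846231679) (nat_lit 76) (nat_lit 138746910192) (nat_lit 76) (nat_lit 97062419588) (nat_lit 5) (nat_lit 4) (nat_lit 6) (nat_lit 5) (nat_lit 6) (nat_lit 4) (nat_lit 380) (nat_lit 310) (nat_lit 210)))))) (XT.nd (nat_lit 468) (nat_lit 0) (nat_lit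 0) (XT.nd (nat_lit 234) (nat_lit 76) (nat_lit 0) (XT.nd (nat_lit 78) (nat_lit 76) (nat_lit 0) (XT.lf (nat_lit 0) (nat_lit 314375613295) (nat_lit 76) (nat_lit 105962402307) (nat_lit 76) (nat_lit 64276507394) (nat_lit 5) (nat_lit 4) (nat_lit 6) (nat_lit 5) (nat_lit 6) (nat_lit 4) (nat_lit 381) (nat_lit 310) (nat_lit 209)) (XT.nd (nat_lit 78) (nat_lit 76) (nat_lit 0) (XT.lf (nat_lit 0) (nat_lit 421862010004) (nat_lit 76) (nat_lit 70557761151) (nat_lit 76) (nat_lit 28870565951) (nat_lit 5) (nat_lit 4) (nat_lit 6) (nat_lit 5) (nat_lit 6) (nat_lit 4) (nat_lit 382) (nat_lit 310) (nat_lit 208)) (XT.lf (nat_lit 0) (nat_lit 9065472272) (nat_lit 152) (nat_lit 23104181010) (nat_lit 76) (nat_lit 528723377800) (nat_lit 4) (nat_lit 5) (nat_lit 6) (nat_lit 5) (nat_lit 5) (nat_lit 4) (nat_lit 383) (nat_lit 310) (nat_lit 207)))) (XT.nd (nat_lit 78) (nat_lit 0) (nat_lit 0) (XT.lf (nat_lit 0) (nat_lit 50153550865)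 (nat_lit 152) (nat_lit 542981041587) (nat_lit 0) (nat_lit 10449251861) (nat_lit 3) (nat_lit 5) (nat_lit 5) (nat_lit 4) (nat_lit 3) (nat_lit 4) (nat_lit 384) (nat_lit 310) (nat_lit 206)) (XT.nd (nat_lit 78) (nat_lit 0) (nat_lit 0) (XT.lf (nat_lit 0) (nat_lit 95477883543) (nat_lit 152) (nat_lit 498391977371) (nat_lit 0) (nat_lit 55772601483) (nat_lit 3) (nat_lit 5) (nat_lit 5) (nat_lit 4) (nat_lit 3) (nat_lit 4) (nat_lit 385) (nat_lit 310) (nat_lit 205)) (XT.lf (nat_lit 0) (nat_lit 144426043436) (nat_lit 152) (nat_lit 450239981498) (nat_lit 0) (nat_lit 104719851139) (nat_lit 3) (nat_lit 5) (nat_lit 5) (nat_lit 4) (nat_lit 3) (nat_lit 4) (nat_lit 386) (nat_lit 310) (nat_lit 204))))) (XT.nd (nat_lit 234) (nat_lit 0) (nat_lit 0) (XT.nd (nat_lit 78) (nat_lit 0) (nat_lit 0) (XT.lf (nat_lit 0) (nat_lit 197288093713) (nat_lit 152) (nat_lit 398239708805) (nat_lit 0) (nat_lit 157581058603) (nat_lit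 3) (nat_lit 5) (nat_lit 5) (nat_lit 4) (nat_lit 3) (nat_lit 4) (nat_lit 387) (nat_lit 310) (nat_lit 203)) (XT.nd (nat_lit 78) (nat_lit 0) (nat_lit 0) (XT.lf (nat_lit 0) (nat_lit 254377290968) (nat_lit 152) (nat_lit 342083009529) (nat_lit 0) (nat_lit 214669475477) (nat_lit 3) (nat_lit 5) (nat_lit 5) (nat_lit 4) (nat_lit 3) (nat_lit 4) (nat_lit 388) (nat_lit 310) (nat_lit 202)) (XT.lf (nat_lit 0) (nat_lit 316031941555) (nat_lit 152) (nat_lit 281437103229) (nat_lit 0) (nat_lit 276323403489) (nat_lit 3) (nat_lit 5) (nat_lit 5) (nat_lit 4) (nat_lit 3) (nat_lit 4) (nat_lit 389) (nat_lit 310) (nat_lit 201)))) (XT.nd (nat_lit 78) (nat_lit 0) (nat_lit 0) (XT.lf (nat_lit 0) (nat_lit 382617406368) (nat_lit 152) (nat_lit 215942606758) (nat_lit 0) (nat_lit 342908199249) (nat_lit 3) (nat_lit 5) (nat_lit 5) (nat_lit 4) (nat_lit 3) (nat_lit 4) (nat_lit 390) (nat_lit 310) (nat_lit 200)) (XT.nd (nat_lit 78)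 (nat_lit 0) (nat_lit 0) (XT.lf (nat_lit 0) (nat_lit 454528265937) (nat_lit 152) (nat_lit 145211404580) (nat_lit 0) (nat_lit 414818439326) (nat_lit 3) (nat_lit 5) (nat_lit 5) (nat_lit 4) (nat_lit 3) (nat_lit 4) (nat_lit 391) (nat_lit 310) (nat_lit 199)) (XT.lf (nat_lit 0) (nat_lit 532190658690) (nat_lit 152) (nat_lit 68824348831) (nat_lit 0) (nat_lit 492480258476) (nat_lit 3) (nat_lit 5) (nat_lit 5) (nat_lit 4) (nat_lit 3) (nat_lit 4) (nat_lit 392) (nat_lit 310) (nat_lit 198))))))) (XT.nd (nat_lit 41262) (nat_lit 0) (nat_lit 4028) (XT.nd (nat_lit 40794) (nat_lit 0) (nat_lit 7144) (XT.nd (nat_lit 40560) (nat_lit 0) (nat_lit 8740) (XT.nd (nat_lit 78) (nat_lit 0) (nat_lit 0) (XT.lf (nat_lit 0) (nat_lit 14123256947) (nat_lit 76) (nat_lit 602162052888) (nat_lit 76) (nat_lit 562451121559) (nat_lit 2) (nat_lit 4) (nat_lit 3) (nat_lit 5) (nat_lit 3) (nat_lit 4) (nat_lit 393) (nat_lit 310) (nat_lit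 197)) (XT.nd (nat_lit 40404) (nat_lit 0) (nat_lit 8740) (XT.lf (nat_lit 0) (nat_lit 106162025965) (nat_lit 76) (nat_lit 602143201272) (nat_lit 76) (nat_lit 562431778170) (nat_lit 2) (nat_lit 4) (nat_lit 3) (nat_lit 5) (nat_lit 3) (nat_lit 4) (nat_lit 394) (nat_lit 310) (nat_lit 196)) (XT.lf (nat_lit 0) (nat_lit 413417032) (nat_lit 0) (nat_lit 413417032) (nat_lit 684) (nat_lit 4163877501) (nat_lit 117) (nat_lit 5) (nat_lit 117) (nat_lit 3) (nat_lit 126) (nat_lit 3) (nat_lit 311) (nat_lit 311) (nat_lit 278)))) (XT.nd (nat_lit 78) (nat_lit 0) (nat_lit 76) (XT.lf (nat_lit 0) (nat_lit 2900890255) (nat_lit 684) (nat_lit 1600081354) (nat_lit 760) (nat_lit 5819648224) (nat_lit 117) (nat_lit 5) (nat_lit 126) (nat_lit 3) (nat_lit 127) (nat_lit 5) (nat_lit 312) (nat_lit 311) (nat_lit 277)) (XT.nd (nat_lit 78) (nat_lit 0) (nat_lit 0) (XT.lf (nat_lit 0) (nat_lit 4296584493) (nat_lit 684) (nat_lit 4026155267)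 (nat_lit 760) (nat_lit 2361878488) (nat_lit 118) (nat_lit 5) (nat_lit 127) (nat_lit 5) (nat_lit 128) (nat_lit 5) (nat_lit 313) (nat_lit 311) (nat_lit 276)) (XT.lf (nat_lit 76) (nat_lit 4564284669) (nat_lit 0) (nat_lit 1314964082) (nat_lit 760) (nat_lit 5194815296) (nat_lit 119) (nat_lit 5) (nat_lit 118) (nat_lit 5) (nat_lit 128) (nat_lit 5) (nat_lit 314) (nat_lit 311) (nat_lit 275))))) (XT.nd (nat_lit 234) (nat_lit 1748) (nat_lit 0) (XT.nd (nat_lit 78) (nat_lit 0) (nat_lit 76) (XT.lf (nat_lit 76) (nat_lit 2406372285) (nat_lit 0) (nat_lit 5295443135) (nat_lit 760) (nat_lit 3787271954) (nat_lit 120) (nat_lit 5) (nat_lit 119) (nat_lit 5) (nat_lit 129) (nat_lit 5) (nat_lit 315) (nat_lit 311) (nat_lit 274)) (XT.nd (nat_lit 78) (nat_lit 0) (nat_lit 0) (XT.lf (nat_lit 76) (nat_lit 215250386) (nat_lit 0) (nat_lit 9544688344) (nat_lit 760) (nat_lit 2172966207) (nat_lit 121) (nat_lit 5) (nat_lit 120)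 (nat_lit 5) (nat_lit 130) (nat_lit 5) (nat_lit 316) (nat_lit 311) (nat_lit 273)) (XT.lf (nat_lit 76) (nat_lit 10423757249) (nat_lit 0) (nat_lit 1723522153) (nat_lit 760) (nat_lit 256794140) (nat_lit 121) (nat_lit 5) (nat_lit 120) (nat_lit 5) (nat_lit 130) (nat_lit 5) (nat_lit 317) (nat_lit 311) (nat_lit 272)))) (XT.nd (nat_lit 78) (nat_lit 1140) (nat_lit 0) (XT.lf (nat_lit 0) (nat_lit 1921972100) (nat_lit 760) (nat_lit 4292723101) (nat_lit 76) (nat_lit 6688524796) (nat_lit 111) (nat_lit 5) (nat_lit 121) (nat_lit 5) (nat_lit 112) (nat_lit 5) (nat_lit 318) (nat_lit 311) (nat_lit 271)) (XT.nd (nat_lit 78) (nat_lit 380) (nat_lit 0) (XT.lf (nat_lit 0) (nat_lit 4402577037) (nat_lit 836) (nat_lit 6677123886) (nat_lit 76) (nat_lit 2355620481) (nat_lit 101) (nat_lit 5) (nat_lit 112) (nat_lit 5) (nat_lit 102) (nat_lit 5) (nat_lit 319) (nat_lit 311) (nat_lit 270)) (XT.lf (nat_lit 0) (nat_lit 4823617560)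 (nat_lit 380) (nat_lit 2446732087) (nat_lit 456) (nat_lit 6730261269) (nat_lit 96) (nat_lit 5) (nat_lit 101) (nat_lit 5) (nat_lit 102) (nat_lit 5) (nat_lit 320) (nat_lit 311) (nat_lit 269)))))) (XT.nd (nat_lit 468) (nat_lit 1520) (nat_lit 0) (XT.nd (nat_lit 234) (nat_lit 836) (nat_lit 0) (XT.nd (nat_lit 78) (nat_lit 456) (nat_lit 0) (XT.lf (nat_lit 0) (nat_lit 2792245996) (nat_lit 304) (nat_lit 7781133500) (nat_lit 380) (nat_lit 4027504132) (nat_lit 92) (nat_lit 5) (nat_lit 96) (nat_lit 5) (nat_lit 97) (nat_lit 5) (nat_lit 321) (nat_lit 311) (nat_lit 268)) (XT.nd (nat_lit 78) (nat_lit 76) (nat_lit 0) (XT.lf (nat_lit 0) (nat_lit 695719667) (nat_lit 380) (nat_lit 13622531990) (nat_lit 456) (nat_lit 922094478) (nat_lit 87) (nat_lit 5) (nat_lit 92) (nat_lit 5) (nat_lit 93) (nat_lit 5) (nat_lit 322) (nat_lit 311) (nat_lit 267)) (XT.lf (nat_lit 0) (nat_lit 2636993898) (nat_lit 456) (nat_lit 1535739587)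 (nat_lit 76) (nat_lit 11742222287) (nat_lit 86) (nat_lit 5) (nat_lit 92) (nat_lit 5) (nat_lit 87) (nat_lit 5) (nat_lit 323) (nat_lit 311) (nat_lit 266)))) (XT.nd (nat_lit 78) (nat_lit 532) (nat_lit 0) (XT.lf (nat_lit 0) (nat_lit 6694224134) (nat_lit 380) (nat_lit 3883297488) (nat_lit 76) (nat_lit 6053009891) (nat_lit 82) (nat_lit 5) (nat_lit 87) (nat_lit 5) (nat_lit 83) (nat_lit 5) (nat_lit 324) (nat_lit 311) (nat_lit 265)) (XT.nd (nat_lit 78) (nat_lit 228) (nat_lit 0) (XT.lf (nat_lit 0) (nat_lit 11048848469) (nat_lit 304) (nat_lit 247192097) (nat_lit 380) (nat_lit 6096348626) (nat_lit 78) (nat_lit 5) (nat_lit 82) (nat_lit 5) (nat_lit 83) (nat_lit 5) (nat_lit 325) (nat_lit 311) (nat_lit 264)) (XT.lf (nat_lit 0) (nat_lit 9165019463) (nat_lit 228) (nat_lit 7435773700) (nat_lit 304) (nat_lit 1597696363) (nat_lit 75) (nat_lit 5) (nat_lit 78) (nat_lit 5) (nat_lit 79) (nat_lit 5) (nat_lit 326)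 (nat_lit 311) (nat_lit 263))))) (XT.nd (nat_lit 234) (nat_lit 684) (nat_lit 0) (XT.nd (nat_lit 78) (nat_lit 456) (nat_lit 0) (XT.lf (nat_lit 0) (nat_lit 3399878609) (nat_lit 380) (nat_lit 11925266120) (nat_lit 76) (nat_lit 3729247323) (nat_lit 70) (nat_lit 5) (nat_lit 75) (nat_lit 5) (nat_lit 71) (nat_lit 5) (nat_lit 327) (nat_lit 311) (nat_lit 262)) (XT.nd (nat_lit 78) (nat_lit 228) (nat_lit 0) (XT.lf (nat_lit 0) (nat_lit 4879992531) (nat_lit 228) (nat_lit 4180328560) (nat_lit 304) (nat_lit 10901211670) (nat_lit 67) (nat_lit 5) (nat_lit 70) (nat_lit 5) (nat_lit 71) (nat_lit 5) (nat_lit 328) (nat_lit 311) (nat_lit 261)) (XT.lf (nat_lit 0) (nat_lit 2418974630) (nat_lit 228) (nat_lit 13085079179) (nat_lit 304) (nat_lit 5420693567) (nat_lit 64) (nat_lit 5) (nat_lit 67) (nat_lit 5) (nat_lit 68) (nat_lit 5) (nat_lit 329) (nat_lit 311) (nat_lit 260)))) (XT.nd (nat_lit 156) (nat_lit 380) (nat_lit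 0) (XT.nd (nat_lit 78) (nat_lit 228) (nat_lit 0) (XT.lf (nat_lit 0) (nat_lit 780252543) (nat_lit 304) (nat_lit 232269606) (nat_lit 76) (nat_lit 20937233724) (nat_lit 63) (nat_lit 5) (nat_lit 67) (nat_lit 5) (nat_lit 64) (nat_lit 5) (nat_lit 330) (nat_lit 311) (nat_lit 259)) (XT.lf (nat_lit 0) (nat_lit 7759654266) (nat_lit 304) (nat_lit 3232493582) (nat_lit 76) (nat_lit 12036580011) (nat_lit 60) (nat_lit 5) (nat_lit 64) (nat_lit 5) (nat_lit 61) (nat_lit 5) (nat_lit 331) (nat_lit 311) (nat_lit 258))) (XT.nd (nat_lit 78) (nat_lit 152) (nat_lit 0) (XT.lf (nat_lit 0) (nat_lit 15594696107) (nat_lit 304) (nat_lit 6473764859) (nat_lit 76) (nat_lit 2110711433) (nat_lit 57) (nat_lit 5) (nat_lit 61) (nat_lit 5) (nat_lit 58) (nat_lit 5) (nat_lit 332) (nat_lit 311) (nat_lit 257)) (XT.lf (nat_lit 0) (nat_lit 15267063220) (nat_lit 152) (nat_lit 9237068293) (nat_lit 228) (nat_lit 895159252) (nat_lit 55)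 (nat_lit 5) (nat_lit 57) (nat_lit 5) (nat_lit 58) (nat_lit 5) (nat_lit 333) (nat_lit 311) (nat_lit 256))))))))
noncomputable def xc67 : XT := (XT.nd (nat_lit 1950) (nat_lit 912) (nat_lit 0) (XT.nd (nat_lit 936) (nat_lit 1140) (nat_lit 0) (XT.nd (nat_lit 468) (nat_lit 760) (nat_lit 0) (XT.nd (nat_lit 234) (nat_lit 380) (nat_lit 0) (XT.nd (nat_lit 78) (nat_lit 304) (nat_lit 0) (XT.lf (nat_lit 0) (nat_lit 7528632013) (nat_lit 304) (nat_lit 14275846460) (nat_lit 76) (nat_lit 4888948160) (nat_lit 51) (nat_lit 5) (nat_lit 55) (nat_lit 5) (nat_lit 52) (nat_lit 5) (nat_lit 334) (nat_lit 311) (nat_lit 255)) (XT.nd (nat_lit 78) (nat_lit 152) (nat_lit 0) (XT.lf (nat_lit 0) (nat_lit 9120819018) (nat_lit 152) (nat_lit 7921337225) (nat_lit 228) (nat_lit 11025858318) (nat_lit 49) (nat_lit 5) (nat_lit 51) (nat_lit 5) (nat_lit 52) (nat_lit 5) (nat_lit 335) (nat_lit 311) (nat_lit 254)) (XT.lf (nat_lit 0)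 (nat_lit 5368809592) (nat_lit 152) (nat_lit 22365468687) (nat_lit 228) (nat_lit 1797428888) (nat_lit 47) (nat_lit 5) (nat_lit 49) (nat_lit 5) (nat_lit 50) (nat_lit 5) (nat_lit 336) (nat_lit 311) (nat_lit 253)))) (XT.nd (nat_lit 78) (nat_lit 152) (nat_lit 0) (XT.lf (nat_lit 0) (nat_lit 927574862) (nat_lit 152) (nat_lit 7435265921) (nat_lit 228) (nat_lit 22720537299) (nat_lit 44) (nat_lit 5) (nat_lit 46) (nat_lit 5) (nat_lit 47) (nat_lit 5) (nat_lit 337) (nat_lit 311) (nat_lit 252)) (XT.nd (nat_lit 78) (nat_lit 152) (nat_lit 0) (XT.lf (nat_lit 0) (nat_lit 19809942033) (nat_lit 228) (nat_lit 4068249385) (nat_lit 76) (nat_lit 8852679764) (nat_lit 44) (nat_lit 5) (nat_lit 47) (nat_lit 5) (nat_lit 45) (nat_lit 5) (nat_lit 338) (nat_lit 311) (nat_lit 251)) (XT.lf (nat_lit 0) (nat_lit 24730453445) (nat_lit 152) (nat_lit 7928539931) (nat_lit 228) (nat_lit 1826871413) (nat_lit 42) (nat_lit 5) (nat_lit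 44) (nat_lit 5) (nat_lit 45) (nat_lit 5) (nat_lit 339) (nat_lit 311) (nat_lit 250))))) (XT.nd (nat_lit 234) (nat_lit 304) (nat_lit 0) (XT.nd (nat_lit 78) (nat_lit 228) (nat_lit 0) (XT.lf (nat_lit 0) (nat_lit 10343972572) (nat_lit 228) (nat_lit 16467767668) (nat_lit 76) (nat_lit 9535885639) (nat_lit 39) (nat_lit 5) (nat_lit 42) (nat_lit 5) (nat_lit 40) (nat_lit 5) (nat_lit 340) (nat_lit 311) (nat_lit 249)) (XT.nd (nat_lit 78) (nat_lit 76) (nat_lit 0) (XT.lf (nat_lit 0) (nat_lit 14129282124) (nat_lit 152) (nat_lit 9799550707) (nat_lit 228) (nat_lit 14402788213) (nat_lit 37) (nat_lit 5) (nat_lit 39) (nat_lit 5) (nat_lit 40) (nat_lit 5) (nat_lit 341) (nat_lit 311) (nat_lit 248)) (XT.lf (nat_lit 0) (nat_lit 7359888201) (nat_lit 76) (nat_lit 31758303962) (nat_lit 152) (nat_lit 1330265825) (nat_lit 36) (nat_lit 5) (nat_lit 37) (nat_lit 5) (nat_lit 38) (nat_lit 4) (nat_lit 342) (nat_lit 311) (nat_lit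 247)))) (XT.nd (nat_lit 78) (nat_lit 228) (nat_lit 0) (XT.lf (nat_lit 0) (nat_lit 12950611503) (nat_lit 152) (nat_lit 812317011) (nat_lit 76) (nat_lit 28933144734) (nat_lit 35) (nat_lit 5) (nat_lit 37) (nat_lit 5) (nat_lit 36) (nat_lit 5) (nat_lit 343) (nat_lit 311) (nat_lit 246)) (XT.nd (nat_lit 78) (nat_lit 76) (nat_lit 0) (XT.lf (nat_lit 0) (nat_lit 28953579685) (nat_lit 228) (nat_lit 10081715305) (nat_lit 76) (nat_lit 6055807292) (nat_lit 33) (nat_lit 5) (nat_lit 36) (nat_lit 5) (nat_lit 34) (nat_lit 4) (nat_lit 344) (nat_lit 311) (nat_lit 245)) (XT.lf (nat_lit 0) (nat_lit 26634310030) (nat_lit 76) (nat_lit 20245238366) (nat_lit 152) (nat_lit 766052894) (nat_lit 32) (nat_lit 5) (nat_lit 33) (nat_lit 5) (nat_lit 34) (nat_lit 4) (nat_lit 345) (nat_lit 311) (nat_lit 244)))))) (XT.nd (nat_lit 468) (nat_lit 532) (nat_lit 0) (XT.nd (nat_lit 234) (nat_lit 304) (nat_lit 0) (XT.nd (nat_lit 78)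 (nat_lit 76) (nat_lit 0) (XT.lf (nat_lit 0) (nat_lit 15757170298) (nat_lit 228) (nat_lit 33886933023) (nat_lit 76) (nat_lit 726557523) (nat_lit 29) (nat_lit 5) (nat_lit 32) (nat_lit 5) (nat_lit 30) (nat_lit 4) (nat_lit 346) (nat_lit 311) (nat_lit 243)) (XT.nd (nat_lit 78) (nat_lit 0) (nat_lit 0) (XT.lf (nat_lit 0) (nat_lit 4173519629) (nat_lit 76) (nat_lit 30162554557) (nat_lit 152) (nat_lit 18938994726) (nat_lit 28) (nat_lit 5) (nat_lit 29) (nat_lit 5) (nat_lit 30) (nat_lit 4) (nat_lit 347) (nat_lit 311) (nat_lit 242)) (XT.lf (nat_lit 0) (nat_lit 46457333968) (nat_lit 76) (nat_lit 8516870210) (nat_lit 152) (nat_lit 1408984146) (nat_lit 28) (nat_lit 5) (nat_lit 29) (nat_lit 5) (nat_lit 30) (nat_lit 4) (nat_lit 348) (nat_lit 311) (nat_lit 241)))) (XT.nd (nat_lit 78) (nat_lit 76) (nat_lit 0) (XT.lf (nat_lit 0) (nat_lit 17708412361) (nat_lit 228) (nat_lit 26804738354) (nat_lit 76) (nat_lit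 15175838746) (nat_lit 25) (nat_lit 5) (nat_lit 28) (nat_lit 5) (nat_lit 26) (nat_lit 4) (nat_lit 349) (nat_lit 311) (nat_lit 240)) (XT.nd (nat_lit 78) (nat_lit 0) (nat_lit 0) (XT.lf (nat_lit 0) (nat_lit 16553558953) (nat_lit 76) (nat_lit 22314941776) (nat_lit 152) (nat_lit 24361469436) (nat_lit 24) (nat_lit 5) (nat_lit 25) (nat_lit 5) (nat_lit 26) (nat_lit 4) (nat_lit 350) (nat_lit 311) (nat_lit 239)) (XT.lf (nat_lit 0) (nat_lit 62206622354) (nat_lit 152) (nat_lit 2755087113) (nat_lit 0) (nat_lit 2068261867) (nat_lit 24) (nat_lit 5) (nat_lit 26) (nat_lit 4) (nat_lit 24) (nat_lit 4) (nat_lit 351) (nat_lit 311) (nat_lit 238))))) (XT.nd (nat_lit 234) (nat_lit 304) (nat_lit 0) (XT.nd (nat_lit 78) (nat_lit 76) (nat_lit 0) (XT.lf (nat_lit 0) (nat_lit 16850769818) (nat_lit 152) (nat_lit 25610517782) (nat_lit 76) (nat_lit 28605283772) (nat_lit 22) (nat_lit 5) (nat_lit 24) (nat_lit 5) (nat_lit 23)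 (nat_lit 4) (nat_lit 352) (nat_lit 311) (nat_lit 237)) (XT.nd (nat_lit 78) (nat_lit 0) (nat_lit 0) (XT.lf (nat_lit 0) (nat_lit 22821514163) (nat_lit 76) (nat_lit 17661970164) (nat_lit 152) (nat_lit 34918981587) (nat_lit 21) (nat_lit 5) (nat_lit 22) (nat_lit 5) (nat_lit 23) (nat_lit 4) (nat_lit 353) (nat_lit 311) (nat_lit 236)) (XT.lf (nat_lit 0) (nat_lit 66589418837) (nat_lit 152) (nat_lit 4194931446) (nat_lit 0) (nat_lit 9271754106) (nat_lit 21) (nat_lit 5) (nat_lit 23) (nat_lit 4) (nat_lit 21) (nat_lit 4) (nat_lit 354) (nat_lit 311) (nat_lit 235)))) (XT.nd (nat_lit 156) (nat_lit 76) (nat_lit 0) (XT.nd (nat_lit 78) (nat_lit 76) (nat_lit 0) (XT.lf (nat_lit 0) (nat_lit 10464151102) (nat_lit 152) (nat_lit 35878429448) (nat_lit 76) (nat_lit 38678238245) (nat_lit 19) (nat_lit 5) (nat_lit 21) (nat_lit 5) (nat_lit 20) (nat_lit 4) (nat_lit 355) (nat_lit 311) (nat_lit 234)) (XT.lf (nat_lit 0) (nat_lit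 16804538379) (nat_lit 76) (nat_lit 19364165447) (nat_lit 152) (nat_lit 54186417501) (nat_lit 18) (nat_lit 5) (nat_lit 19) (nat_lit 5) (nat_lit 20) (nat_lit 4) (nat_lit 356) (nat_lit 311) (nat_lit 233))) (XT.nd (nat_lit 78) (nat_lit 76) (nat_lit 0) (XT.lf (nat_lit 0) (nat_lit 64705919929) (nat_lit 152) (nat_lit 21286303576) (nat_lit 0) (nat_lit 10085131497) (nat_lit 18) (nat_lit 5) (nat_lit 20) (nat_lit 4) (nat_lit 18) (nat_lit 4) (nat_lit 357) (nat_lit 311) (nat_lit 232)) (XT.lf (nat_lit 0) (nat_lit 35963365214) (nat_lit 76) (nat_lit 60440102259) (nat_lit 76) (nat_lit 5810033945) (nat_lit 17) (nat_lit 4) (nat_lit 18) (nat_lit 5) (nat_lit 18) (nat_lit 4) (nat_lit 358) (nat_lit 311) (nat_lit 231))))))) (XT.nd (nat_lit 936) (nat_lit 304) (nat_lit 0) (XT.nd (nat_lit 468) (nat_lit 228) (nat_lit 0) (XT.nd (nat_lit 234) (nat_lit 228) (nat_lit 0) (XT.nd (nat_lit 78) (nat_lit 76) (nat_lit 0) (XT.lf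 (nat_lit 0) (nat_lit 21465202181) (nat_lit 152) (nat_lit 10634996326) (nat_lit 76) (nat_lit 76705000542) (nat_lit 16) (nat_lit 5) (nat_lit 18) (nat_lit 5) (nat_lit 17) (nat_lit 4) (nat_lit 359) (nat_lit 311) (nat_lit 230)) (XT.nd (nat_lit 78) (nat_lit 0) (nat_lit 0) (XT.lf (nat_lit 0) (nat_lit 50943612353) (nat_lit 76) (nat_lit 563816502) (nat_lit 152) (nat_lit 64372616398) (nat_lit 15) (nat_lit 5) (nat_lit 16) (nat_lit 5) (nat_lit 17) (nat_lit 4) (nat_lit 360) (nat_lit 311) (nat_lit 229)) (XT.lf (nat_lit 0) (nat_lit 84655021697) (nat_lit 152) (nat_lit 6227150515) (nat_lit 0) (nat_lit 32603608868) (nat_lit 15) (nat_lit 5) (nat_lit 17) (nat_lit 4) (nat_lit 15) (nat_lit 4) (nat_lit 361) (nat_lit 311) (nat_lit 228)))) (XT.nd (nat_lit 78) (nat_lit 152) (nat_lit 0) (XT.lf (nat_lit 0) (nat_lit 59042598532) (nat_lit 76) (nat_lit 62334574954) (nat_lit 76) (nat_lit 10276665943) (nat_lit 14) (nat_lit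 4) (nat_lit 15) (nat_lit 5) (nat_lit 15) (nat_lit 4) (nat_lit 362) (nat_lit 311) (nat_lit 227)) (XT.nd (nat_lit 78) (nat_lit 76) (nat_lit 0) (XT.lf (nat_lit 0) (nat_lit 20005579212) (nat_lit 152) (nat_lit 11052486608) (nat_lit 76) (nat_lit 109396129936) (nat_lit 13) (nat_lit 5) (nat_lit 15) (nat_lit 5) (nat_lit 14) (nat_lit 4) (nat_lit 363) (nat_lit 311) (nat_lit 226)) (XT.lf (nat_lit 0) (nat_lit 53298291573) (nat_lit 152) (nat_lit 92896172093) (nat_lit 0) (nat_lit 3708297837) (nat_lit 12) (nat_lit 5) (nat_lit 14) (nat_lit 4) (nat_lit 12) (nat_lit 4) (nat_lit 364) (nat_lit 311) (nat_lit 225))))) (XT.nd (nat_lit 234) (nat_lit 152) (nat_lit 0) (XT.nd (nat_lit 78) (nat_lit 76) (nat_lit 0) (XT.lf (nat_lit 0) (nat_lit 89966335626) (nat_lit 152) (nat_lit 29733851500) (nat_lit 0) (nat_lit 40371430577) (nat_lit 12) (nat_lit 5) (nat_lit 14) (nat_lit 4) (nat_lit 12) (nat_lit 4) (nat_lit 365) (nat_lit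 311) (nat_lit 224)) (XT.nd (nat_lit 78) (nat_lit 0) (nat_lit 0) (XT.lf (nat_lit 0) (nat_lit 39739969263) (nat_lit 76) (nat_lit 90441394758) (nat_lit 76) (nat_lit 40841942198) (nat_lit 11) (nat_lit 4) (nat_lit 12) (nat_lit 5) (nat_lit 12) (nat_lit 4) (nat_lit 366) (nat_lit 311) (nat_lit 223)) (XT.lf (nat_lit 0) (nat_lit 115820652160) (nat_lit 76) (nat_lit 58304287220) (nat_lit 76) (nat_lit 8700624000) (nat_lit 11) (nat_lit 4) (nat_lit 12) (nat_lit 5) (nat_lit 12) (nat_lit 4) (nat_lit 367) (nat_lit 311) (nat_lit 222)))) (XT.nd (nat_lit 78) (nat_lit 0) (nat_lit 0) (XT.lf (nat_lit 0) (nat_lit 2063631955) (nat_lit 76) (nat_lit 23141828499) (nat_lit 152) (nat_lit 170344934989) (nat_lit 9) (nat_lit 5) (nat_lit 10) (nat_lit 5) (nat_lit 11) (nat_lit 4) (nat_lit 368) (nat_lit 311) (nat_lit 221)) (XT.nd (nat_lit 78) (nat_lit 0) (nat_lit 0) (XT.lf (nat_lit 0) (nat_lit 62935170306) (nat_lit 152) (nat_lit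 130593679325) (nat_lit 0) (nat_lit 15686435126) (nat_lit 9) (nat_lit 5) (nat_lit 11) (nat_lit 4) (nat_lit 9) (nat_lit 4) (nat_lit 369) (nat_lit 311) (nat_lit 220)) (XT.lf (nat_lit 0) (nat_lit 104067896316) (nat_lit 152) (nat_lit 63070259786) (nat_lit 0) (nat_lit 56815977749) (nat_lit 9) (nat_lit 5) (nat_lit 11) (nat_lit 4) (nat_lit 9) (nat_lit 4) (nat_lit 370) (nat_lit 311) (nat_lit 219)))))) (XT.nd (nat_lit 468) (nat_lit 76) (nat_lit 0) (XT.nd (nat_lit 234) (nat_lit 152) (nat_lit 0) (XT.nd (nat_lit 78) (nat_lit 0) (nat_lit 0) (XT.lf (nat_lit 0) (nat_lit 10170460976) (nat_lit 76) (nat_lit 138474407596) (nat_lit 76) (nat_lit 91219541448) (nat_lit 8) (nat_lit 4) (nat_lit 9) (nat_lit 5) (nat_lit 9) (nat_lit 4) (nat_lit 371) (nat_lit 311) (nat_lit 218)) (XT.nd (nat_lit 78) (nat_lit 0) (nat_lit 0) (XT.lf (nat_lit 0) (nat_lit 91513005951) (nat_lit 76) (nat_lit 106368706279) (nat_lit 76) (nat_lit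 59111110889) (nat_lit 8) (nat_lit 4) (nat_lit 9) (nat_lit 5) (nat_lit 9) (nat_lit 4) (nat_lit 372) (nat_lit 311) (nat_lit 217)) (XT.lf (nat_lit 0) (nat_lit 179354017412) (nat_lit 76) (nat_lit 71698921511) (nat_lit 76) (nat_lit 24438799045) (nat_lit 8) (nat_lit 4) (nat_lit 9) (nat_lit 5) (nat_lit 9) (nat_lit 4) (nat_lit 373) (nat_lit 311) (nat_lit 216)))) (XT.nd (nat_lit 78) (nat_lit 76) (nat_lit 0) (XT.lf (nat_lit 0) (nat_lit 12586686922) (nat_lit 152) (nat_lit 21459754159) (nat_lit 76) (nat_lit 261414186131) (nat_lit 7) (nat_lit 5) (nat_lit 9) (nat_lit 5) (nat_lit 8) (nat_lit 4) (nat_lit 374) (nat_lit 311) (nat_lit 215)) (XT.nd (nat_lit 78) (nat_lit 0) (nat_lit 0) (XT.lf (nat_lit 0) (nat_lit 52798974115) (nat_lit 152) (nat_lit 256368931307) (nat_lit 0) (nat_lit 7785041819) (nat_lit 6) (nat_lit 5) (nat_lit 8) (nat_lit 4) (nat_lit 6) (nat_lit 4) (nat_lit 375) (nat_lit 311) (nat_lit 214))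 (XT.lf (nat_lit 0) (nat_lit 97178416004) (nat_lit 152) (nat_lit 190776155483) (nat_lit 0) (nat_lit 52162573162) (nat_lit 6) (nat_lit 5) (nat_lit 8) (nat_lit 4) (nat_lit 6) (nat_lit 4) (nat_lit 376) (nat_lit 311) (nat_lit 213))))) (XT.nd (nat_lit 234) (nat_lit 0) (nat_lit 0) (XT.nd (nat_lit 78) (nat_lit 76) (nat_lit 0) (XT.lf (nat_lit 0) (nat_lit 145104642266) (nat_lit 152) (nat_lit 119942984068) (nat_lit 0) (nat_lit 100087030399) (nat_lit 6) (nat_lit 5) (nat_lit 8) (nat_lit 4) (nat_lit 6) (nat_lit 4) (nat_lit 377) (nat_lit 311) (nat_lit 212)) (XT.nd (nat_lit 78) (nat_lit 76) (nat_lit 0) (XT.lf (nat_lit 0) (nat_lit 196861660167) (nat_lit 152) (nat_lit 43449664935) (nat_lit 0) (nat_lit 151842410314) (nat_lit 6) (nat_lit 5) (nat_lit 8) (nat_lit 4) (nat_lit 6) (nat_lit 4) (nat_lit 378) (nat_lit 311) (nat_lit 211)) (XT.lf (nat_lit 0) (nat_lit 40451806078) (nat_lit 76) (nat_lit 212935937943) (nat_lit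 76) (nat_lit 167915171436) (nat_lit 5) (nat_lit 4) (nat_lit 6) (nat_lit 5) (nat_lit 6) (nat_lit 4) (nat_lit 379) (nat_lit 311) (nat_lit 210)))) (XT.nd (nat_lit 156) (nat_lit 0) (nat_lit 0) (XT.nd (nat_lit 78) (nat_lit 0) (nat_lit 0) (XT.lf (nat_lit 0) (nat_lit 132611206021) (nat_lit 76) (nat_lit 182578648970) (nat_lit 76) (nat_lit 137556478154) (nat_lit 5) (nat_lit 4) (nat_lit 6) (nat_lit 5) (nat_lit 6) (nat_lit 4) (nat_lit 380) (nat_lit 311) (nat_lit 209)) (XT.lf (nat_lit 0) (nat_lit 232138022523) (nat_lit 76) (nat_lit 149795404238) (nat_lit 76) (nat_lit 104771933136) (nat_lit 5) (nat_lit 4) (nat_lit 6) (nat_lit 5) (nat_lit 6) (nat_lit 4) (nat_lit 381) (nat_lit 311) (nat_lit 208))) (XT.nd (nat_lit 78) (nat_lit 0) (nat_lit 0) (XT.lf (nat_lit 0) (nat_lit 339622044127) (nat_lit 76) (nat_lit 114391932668) (nat_lit 76) (nat_lit 69367257598) (nat_lit 5) (nat_lit 4) (nat_lit 6) (nat_lit 5) (nat_lit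 6) (nat_lit 4) (nat_lit 382) (nat_lit 311) (nat_lit 207)) (XT.lf (nat_lit 0) (nat_lit 455700213183) (nat_lit 76) (nat_lit 76158435910) (nat_lit 76) (nat_lit 31132646053) (nat_lit 5) (nat_lit 4) (nat_lit 6) (nat_lit 5) (nat_lit 6) (nat_lit 4) (nat_lit 383) (nat_lit 311) (nat_lit 206))))))))
noncomputable def xc68 : XT := (XT.nd (nat_lit 42276) (nat_lit 0) (nat_lit 1976) (XT.nd (nat_lit 41340) (nat_lit 0) (nat_lit 6384) (XT.nd (nat_lit 468) (nat_lit 76) (nat_lit 0) (XT.nd (nat_lit 234) (nat_lit 0) (nat_lit 0) (XT.nd (nat_lit 78) (nat_lit 76) (nat_lit 0) (XT.lf (nat_lit 0) (nat_lit 9833342267) (nat_lit 152) (nat_lit 24868470416) (nat_lit 76) (nat_lit 571060525644) (nat_lit 4) (nat_lit 5) (nat_lit 6) (nat_lit 5) (nat_lit 5) (nat_lit 4) (nat_lit 384) (nat_lit 311) (nat_lit 205)) (XT.nd (nat_lit 78) (nat_lit 0) (nat_lit 0) (XT.lf (nat_lit 0) (nat_lit 54207183613) (nat_lit 152) (nat_lit 586337711755)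 (nat_lit 0) (nat_lit 11323585694) (nat_lit 3) (nat_lit 5) (nat_lit 5) (nat_lit 4) (nat_lit 3) (nat_lit 4) (nat_lit 385) (nat_lit 311) (nat_lit 204)) (XT.lf (nat_lit 0) (nat_lit 103154400040) (nat_lit 152) (nat_lit 538187582637) (nat_lit 0) (nat_lit 60269959310) (nat_lit 3) (nat_lit 5) (nat_lit 5) (nat_lit 4) (nat_lit 3) (nat_lit 4) (nat_lit 386) (nat_lit 311) (nat_lit 203)))) (XT.nd (nat_lit 78) (nat_lit 0) (nat_lit 0) (XT.lf (nat_lit 0) (nat_lit 156015576738) (nat_lit 152) (nat_lit 486189038421) (nat_lit 0) (nat_lit 113130355626) (nat_lit 3) (nat_lit 5) (nat_lit 5) (nat_lit 4) (nat_lit 3) (nat_lit 4) (nat_lit 387) (nat_lit 311) (nat_lit 202)) (XT.nd (nat_lit 78) (nat_lit 0) (nat_lit 0) (XT.lf (nat_lit 0) (nat_lit 213103965124) (nat_lit 152) (nat_lit 430033939586) (nat_lit 0) (nat_lit 170218021436) (nat_lit 3) (nat_lit 5) (nat_lit 5) (nat_lit 4) (nat_lit 3) (nat_lit 4) (nat_lit 388) (nat_lit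 311) (nat_lit 201)) (XT.lf (nat_lit 0) (nat_lit 274757866759) (nat_lit 152) (nat_lit 369389515177) (nat_lit 0) (nat_lit 231871254019) (nat_lit 3) (nat_lit 5) (nat_lit 5) (nat_lit 4) (nat_lit 3) (nat_lit 4) (nat_lit 389) (nat_lit 311) (nat_lit 200))))) (XT.nd (nat_lit 234) (nat_lit 76) (nat_lit 0) (XT.nd (nat_lit 78) (nat_lit 0) (nat_lit 0) (XT.lf (nat_lit 0) (nat_lit 341342638096) (nat_lit 152) (nat_lit 303896390827) (nat_lit 0) (nat_lit 298455405864) (nat_lit 3) (nat_lit 5) (nat_lit 5) (nat_lit 4) (nat_lit 3) (nat_lit 4) (nat_lit 390) (nat_lit 311) (nat_lit 199)) (XT.nd (nat_lit 78) (nat_lit 0) (nat_lit 0) (XT.lf (nat_lit 0) (nat_lit 413252855558) (nat_lit 152) (nat_lit 233166459131) (nat_lit 0) (nat_lit 370365049723) (nat_lit 3) (nat_lit 5) (nat_lit 5) (nat_lit 4) (nat_lit 3) (nat_lit 4) (nat_lit 391) (nat_lit 311) (nat_lit 198)) (XT.lf (nat_lit 0) (nat_lit 490914653768) (nat_lit 152)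 (nat_lit 156780579754) (nat_lit 0) (nat_lit 448026316818) (nat_lit 3) (nat_lit 5) (nat_lit 5) (nat_lit 4) (nat_lit 3) (nat_lit 4) (nat_lit 392) (nat_lit 311) (nat_lit 197)))) (XT.nd (nat_lit 78) (nat_lit 76) (nat_lit 0) (XT.lf (nat_lit 0) (nat_lit 574788250790) (nat_lit 152) (nat_lit 74286095633) (nat_lit 0) (nat_lit 531899422067) (nat_lit 3) (nat_lit 5) (nat_lit 5) (nat_lit 4) (nat_lit 3) (nat_lit 4) (nat_lit 393) (nat_lit 311) (nat_lit 196)) (XT.nd (nat_lit 40482) (nat_lit 0) (nat_lit 8740) (XT.lf (nat_lit 0) (nat_lit 15295397680) (nat_lit 76) (nat_lit 650314081687) (nat_lit 76) (nat_lit 607424797619) (nat_lit 2) (nat_lit 4) (nat_lit 3) (nat_lit 5) (nat_lit 3) (nat_lit 4) (nat_lit 394) (nat_lit 311) (nat_lit 195)) (XT.lf (nat_lit 0) (nat_lit 977021733) (nat_lit 0) (nat_lit 977021733) (nat_lit 684) (nat_lit 3381889642) (nat_lit 117) (nat_lit 5) (nat_lit 117) (nat_lit 3) (nat_lit 126) (nat_lit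 3) (nat_lit 312) (nat_lit 312) (nat_lit 276)))))) (XT.nd (nat_lit 468) (nat_lit 1824) (nat_lit 0) (XT.nd (nat_lit 234) (nat_lit 532) (nat_lit 0) (XT.nd (nat_lit 78) (nat_lit 0) (nat_lit 76) (XT.lf (nat_lit 0) (nat_lit 5082553320) (nat_lit 684) (nat_lit 630217859) (nat_lit 760) (nat_lit 5334199670) (nat_lit 117) (nat_lit 5) (nat_lit 126) (nat_lit 3) (nat_lit 127) (nat_lit 5) (nat_lit 313) (nat_lit 312) (nat_lit 275)) (XT.nd (nat_lit 78) (nat_lit 0) (nat_lit 0) (XT.lf (nat_lit 0) (nat_lit 6449840834) (nat_lit 684) (nat_lit 3193282901) (nat_lit 760) (nat_lit 1804103254) (nat_lit 118) (nat_lit 5) (nat_lit 127) (nat_lit 5) (nat_lit 128) (nat_lit 5) (nat_lit 314) (nat_lit 312) (nat_lit 274)) (XT.lf (nat_lit 76) (nat_lit 6034198868) (nat_lit 0) (nat_lit 2008128715) (nat_lit 760) (nat_lit 3831465160) (nat_lit 119) (nat_lit 5) (nat_lit 118) (nat_lit 5) (nat_lit 128) (nat_lit 5) (nat_lit 315) (nat_lit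 312) (nat_lit 273)))) (XT.nd (nat_lit 78) (nat_lit 684) (nat_lit 0) (XT.lf (nat_lit 76) (nat_lit 3746872785) (nat_lit 0) (nat_lit 6147862249) (nat_lit 760) (nat_lit 2433196646) (nat_lit 120) (nat_lit 5) (nat_lit 119) (nat_lit 5) (nat_lit 129) (nat_lit 5) (nat_lit 316) (nat_lit 312) (nat_lit 272)) (XT.nd (nat_lit 78) (nat_lit 760) (nat_lit 0) (XT.lf (nat_lit 76) (nat_lit 1413768131) (nat_lit 0) (nat_lit 10599186719) (nat_lit 760) (nat_lit 799634427) (nat_lit 121) (nat_lit 5) (nat_lit 120) (nat_lit 5) (nat_lit 130) (nat_lit 5) (nat_lit 317) (nat_lit 312) (nat_lit 271)) (XT.lf (nat_lit 0) (nat_lit 1118251832) (nat_lit 760) (nat_lit 993587390) (nat_lit 836) (nat_lit 11214262040) (nat_lit 110) (nat_lit 5) (nat_lit 120) (nat_lit 5) (nat_lit 121) (nat_lit 5) (nat_lit 318) (nat_lit 312) (nat_lit 270))))) (XT.nd (nat_lit 234) (nat_lit 760) (nat_lit 0) (XT.nd (nat_lit 78) (nat_lit 1140) (nat_lit 0)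 (XT.lf (nat_lit 0) (nat_lit 3373485414) (nat_lit 760) (nat_lit 3475477024) (nat_lit 76) (nat_lit 7020535701) (nat_lit 111) (nat_lit 5) (nat_lit 121) (nat_lit 5) (nat_lit 112) (nat_lit 5) (nat_lit 319) (nat_lit 312) (nat_lit 269)) (XT.nd (nat_lit 78) (nat_lit 380) (nat_lit 0) (XT.lf (nat_lit 0) (nat_lit 5972044718) (nat_lit 836) (nat_lit 6037414458) (nat_lit 76) (nat_lit 2438814050) (nat_lit 101) (nat_lit 5) (nat_lit 112) (nat_lit 5) (nat_lit 102) (nat_lit 5) (nat_lit 320) (nat_lit 312) (nat_lit 268)) (XT.lf (nat_lit 0) (nat_lit 6332370939) (nat_lit 380) (nat_lit 2664231731) (nat_lit 456) (nat_lit 6065889926) (nat_lit 96) (nat_lit 5) (nat_lit 101) (nat_lit 5) (nat_lit 102) (nat_lit 5) (nat_lit 321) (nat_lit 312) (nat_lit 267)))) (XT.nd (nat_lit 78) (nat_lit 456) (nat_lit 0) (XT.lf (nat_lit 0) (nat_lit 4145655653) (nat_lit 304) (nat_lit 8350760563) (nat_lit 380) (nat_lit 3217813173) (nat_lit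 92) (nat_lit 5) (nat_lit 96) (nat_lit 5) (nat_lit 97) (nat_lit 5) (nat_lit 322) (nat_lit 312) (nat_lit 266)) (XT.nd (nat_lit 78) (nat_lit 0) (nat_lit 0) (XT.lf (nat_lit 0) (nat_lit 69262934) (nat_lit 456) (nat_lit 14525242809) (nat_lit 76) (nat_lit 1813418726) (nat_lit 86) (nat_lit 5) (nat_lit 92) (nat_lit 5) (nat_lit 87) (nat_lit 5) (nat_lit 323) (nat_lit 312) (nat_lit 265)) (XT.lf (nat_lit 0) (nat_lit 3804667454) (nat_lit 456) (nat_lit 577667662) (nat_lit 76) (nat_lit 12757273817) (nat_lit 86) (nat_lit 5) (nat_lit 92) (nat_lit 5) (nat_lit 87) (nat_lit 5) (nat_lit 324) (nat_lit 312) (nat_lit 264))))))) (XT.nd (nat_lit 936) (nat_lit 1596) (nat_lit 0) (XT.nd (nat_lit 468) (nat_lit 1140) (nat_lit 0) (XT.nd (nat_lit 234) (nat_lit 836) (nat_lit 0) (XT.nd (nat_lit 78) (nat_lit 532) (nat_lit 0) (XT.lf (nat_lit 0) (nat_lit 8133811696) (nat_lit 380) (nat_lit 3116311851) (nat_lit 76) (nat_lit 6664992820)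 (nat_lit 82) (nat_lit 5) (nat_lit 87) (nat_lit 5) (nat_lit 83) (nat_lit 5) (nat_lit 325) (nat_lit 312) (nat_lit 263)) (XT.nd (nat_lit 78) (nat_lit 228) (nat_lit 0) (XT.lf (nat_lit 0) (nat_lit 12963572451) (nat_lit 304) (nat_lit 89328281) (nat_lit 380) (nat_lit 5687614097) (nat_lit 78) (nat_lit 5) (nat_lit 82) (nat_lit 5) (nat_lit 83) (nat_lit 5) (nat_lit 326) (nat_lit 312) (nat_lit 262)) (XT.lf (nat_lit 0) (nat_lit 10922971431) (nat_lit 228) (nat_lit 7814431046) (nat_lit 304) (nat_lit 875977203) (nat_lit 75) (nat_lit 5) (nat_lit 78) (nat_lit 5) (nat_lit 79) (nat_lit 5) (nat_lit 327) (nat_lit 312) (nat_lit 261)))) (XT.nd (nat_lit 78) (nat_lit 456) (nat_lit 0) (XT.lf (nat_lit 0) (nat_lit 4452601440) (nat_lit 380) (nat_lit 11836782704) (nat_lit 76) (nat_lit 4249827305) (nat_lit 70) (nat_lit 5) (nat_lit 75) (nat_lit 5) (nat_lit 71) (nat_lit 5) (nat_lit 328) (nat_lit 312) (nat_lit 260)) (XT.nd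 (nat_lit 78) (nat_lit 228) (nat_lit 0) (XT.lf (nat_lit 0) (nat_lit 6267590655) (nat_lit 228) (nat_lit 4256025692) (nat_lit 304) (nat_lit 10997456909) (nat_lit 67) (nat_lit 5) (nat_lit 70) (nat_lit 5) (nat_lit 71) (nat_lit 5) (nat_lit 329) (nat_lit 312) (nat_lit 259)) (XT.lf (nat_lit 0) (nat_lit 3598247890) (nat_lit 228) (nat_lit 13849029011) (nat_lit 304) (nat_lit 5115880651) (nat_lit 64) (nat_lit 5) (nat_lit 67) (nat_lit 5) (nat_lit 68) (nat_lit 5) (nat_lit 330) (nat_lit 312) (nat_lit 258))))) (XT.nd (nat_lit 234) (nat_lit 608) (nat_lit 0) (XT.nd (nat_lit 78) (nat_lit 228) (nat_lit 0) (XT.lf (nat_lit 0) (nat_lit 706765418) (nat_lit 228) (nat_lit 808824139) (nat_lit 304) (nat_lit 22156126453) (nat_lit 60) (nat_lit 5) (nat_lit 63) (nat_lit 5) (nat_lit 64) (nat_lit 5) (nat_lit 331) (nat_lit 312) (nat_lit 257)) (XT.nd (nat_lit 78) (nat_lit 228) (nat_lit 0) (XT.lf (nat_lit 0) (nat_lit 9011421132)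 (nat_lit 304) (nat_lit 2569220653) (nat_lit 76) (nat_lit 13258487824) (nat_lit 60) (nat_lit 5) (nat_lit 64) (nat_lit 5) (nat_lit 61) (nat_lit 5) (nat_lit 332) (nat_lit 312) (nat_lit 256)) (XT.lf (nat_lit 0) (nat_lit 17444724209) (nat_lit 304) (nat_lit 6084065647) (nat_lit 76) (nat_lit 2554272648) (nat_lit 57) (nat_lit 5) (nat_lit 61) (nat_lit 5) (nat_lit 58) (nat_lit 5) (nat_lit 333) (nat_lit 312) (nat_lit 255)))) (XT.nd (nat_lit 78) (nat_lit 456) (nat_lit 0) (XT.lf (nat_lit 0) (nat_lit 17356585471) (nat_lit 152) (nat_lit 9679257239) (nat_lit 228) (nat_lit 366524999) (nat_lit 55) (nat_lit 5) (nat_lit 57) (nat_lit 5) (nat_lit 58) (nat_lit 5) (nat_lit 334) (nat_lit 312) (nat_lit 254)) (XT.nd (nat_lit 78) (nat_lit 152) (nat_lit 0) (XT.lf (nat_lit 0) (nat_lit 8686824572) (nat_lit 304) (nat_lit 14545663575) (nat_lit 76) (nat_lit 5568355362) (nat_lit 51) (nat_lit 5) (nat_lit 55) (nat_lit 5) (nat_lit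 52) (nat_lit 5) (nat_lit 335) (nat_lit 312) (nat_lit 253)) (XT.lf (nat_lit 0) (nat_lit 10684828194) (nat_lit 152) (nat_lit 8248451064) (nat_lit 228) (nat_lit 11353546207) (nat_lit 49) (nat_lit 5) (nat_lit 51) (nat_lit 5) (nat_lit 52) (nat_lit 5) (nat_lit 336) (nat_lit 312) (nat_lit 252)))))) (XT.nd (nat_lit 468) (nat_lit 684) (nat_lit 0) (XT.nd (nat_lit 234) (nat_lit 532) (nat_lit 0) (XT.nd (nat_lit 78) (nat_lit 228) (nat_lit 0) (XT.lf (nat_lit 0) (nat_lit 6617292648) (nat_lit 152) (nat_lit 23841604526) (nat_lit 228) (nat_lit 1409827980) (nat_lit 47) (nat_lit 5) (nat_lit 49) (nat_lit 5) (nat_lit 50) (nat_lit 5) (nat_lit 337) (nat_lit 312) (nat_lit 251)) (XT.nd (nat_lit 78) (nat_lit 0) (nat_lit 0) (XT.lf (nat_lit 0) (nat_lit 1801640912) (nat_lit 152) (nat_lit 7718999686) (nat_lit 228) (nat_lit 24024770907) (nat_lit 44) (nat_lit 5) (nat_lit 46) (nat_lit 5) (nat_lit 47) (nat_lit 5) (nat_lit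 338) (nat_lit 312) (nat_lit 250)) (XT.lf (nat_lit 0) (nat_lit 21851801747) (nat_lit 228) (nat_lit 3634783467) (nat_lit 76) (nat_lit 9839718928) (nat_lit 44) (nat_lit 5) (nat_lit 47) (nat_lit 5) (nat_lit 45) (nat_lit 5) (nat_lit 339) (nat_lit 312) (nat_lit 249)))) (XT.nd (nat_lit 78) (nat_lit 380) (nat_lit 0) (XT.lf (nat_lit 0) (nat_lit 27434833596) (nat_lit 152) (nat_lit 8271421002) (nat_lit 228) (nat_lit 1516582365) (nat_lit 42) (nat_lit 5) (nat_lit 44) (nat_lit 5) (nat_lit 45) (nat_lit 5) (nat_lit 340) (nat_lit 312) (nat_lit 248)) (XT.nd (nat_lit 78) (nat_lit 152) (nat_lit 0) (XT.lf (nat_lit 0) (nat_lit 11596156268) (nat_lit 228) (nat_lit 17060009118) (nat_lit 76) (nat_lit 10577887426) (nat_lit 39) (nat_lit 5) (nat_lit 42) (nat_lit 5) (nat_lit 40) (nat_lit 5) (nat_lit 341) (nat_lit 312) (nat_lit 247)) (XT.lf (nat_lit 0) (nat_lit 15953289219) (nat_lit 152) (nat_lit 10293889442) (nat_lit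 228) (nat_lit 15130631362) (nat_lit 37) (nat_lit 5) (nat_lit 39) (nat_lit 5) (nat_lit 40) (nat_lit 5) (nat_lit 342) (nat_lit 312) (nat_lit 246))))) (XT.nd (nat_lit 234) (nat_lit 380) (nat_lit 0) (XT.nd (nat_lit 78) (nat_lit 228) (nat_lit 0) (XT.lf (nat_lit 0) (nat_lit 8627329342) (nat_lit 76) (nat_lit 34009211109) (nat_lit 152) (nat_lit 1028221065) (nat_lit 36) (nat_lit 5) (nat_lit 37) (nat_lit 5) (nat_lit 38) (nat_lit 4) (nat_lit 343) (nat_lit 312) (nat_lit 245)) (XT.nd (nat_lit 78) (nat_lit 152) (nat_lit 0) (XT.lf (nat_lit 0) (nat_lit 14352764648) (nat_lit 152) (nat_lit 236704319) (nat_lit 76) (nat_lit 31503871644) (nat_lit 35) (nat_lit 5) (nat_lit 37) (nat_lit 5) (nat_lit 36) (nat_lit 5) (nat_lit 344) (nat_lit 312) (nat_lit 244)) (XT.lf (nat_lit 0) (nat_lit 31622543328) (nat_lit 228) (nat_lit 10262086578) (nat_lit 76) (nat_lit 6796021800) (nat_lit 33) (nat_lit 5) (nat_lit 36) (nat_lit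 5) (nat_lit 34) (nat_lit 4) (nat_lit 345) (nat_lit 312) (nat_lit 243)))) (XT.nd (nat_lit 156) (nat_lit 76) (nat_lit 0) (XT.nd (nat_lit 78) (nat_lit 228) (nat_lit 0) (XT.lf (nat_lit 0) (nat_lit 29364008374) (nat_lit 76) (nat_lit 21601808263) (nat_lit 152) (nat_lit 474540413) (nat_lit 32) (nat_lit 5) (nat_lit 33) (nat_lit 5) (nat_lit 34) (nat_lit 4) (nat_lit 346) (nat_lit 312) (nat_lit 242)) (XT.lf (nat_lit 0) (nat_lit 17347102981) (nat_lit 228) (nat_lit 36001758398) (nat_lit 76) (nat_lit 1034898732) (nat_lit 29) (nat_lit 5) (nat_lit 32) (nat_lit 5) (nat_lit 30) (nat_lit 4) (nat_lit 347) (nat_lit 312) (nat_lit 241))) (XT.nd (nat_lit 78) (nat_lit 0) (nat_lit 0) (XT.lf (nat_lit 0) (nat_lit 5077623415) (nat_lit 76) (nat_lit 32319201564) (nat_lit 152) (nat_lit 20124476899) (nat_lit 28) (nat_lit 5) (nat_lit 29) (nat_lit 5) (nat_lit 30) (nat_lit 4) (nat_lit 348) (nat_lit 312) (nat_lit 240)) (XT.lf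 (nat_lit 0) (nat_lit 50701904219) (nat_lit 76) (nat_lit 8960851903) (nat_lit 152) (nat_lit 1216483059) (nat_lit 28) (nat_lit 5) (nat_lit 29) (nat_lit 5) (nat_lit 30) (nat_lit 4) (nat_lit 349) (nat_lit 312) (nat_lit 239))))))))
noncomputable def xc69 : XT := (XT.nd (nat_lit 1950) (nat_lit 380) (nat_lit 0) (XT.nd (nat_lit 936) (nat_lit 532) (nat_lit 0) (XT.nd (nat_lit 468) (nat_lit 456) (nat_lit 0) (XT.nd (nat_lit 234) (nat_lit 228) (nat_lit 0) (XT.nd (nat_lit 78) (nat_lit 76) (nat_lit 0) (XT.lf (nat_lit 0) (nat_lit 19410318441) (nat_lit 228) (nat_lit 28424158957) (nat_lit 76) (nat_lit 16615304814) (nat_lit 25) (nat_lit 5) (nat_lit 28) (nat_lit 5) (nat_lit 26) (nat_lit 4) (nat_lit 350) (nat_lit 312) (nat_lit 238)) (XT.nd (nat_lit 78) (nat_lit 0) (nat_lit 0) (XT.lf (nat_lit 0) (nat_lit 18379988079) (nat_lit 76) (nat_lit 23869937303) (nat_lit 152) (nat_lit 26024785210) (nat_lit 24) (nat_lit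 5) (nat_lit 25) (nat_lit 5) (nat_lit 26) (nat_lit 4) (nat_lit 351) (nat_lit 312) (nat_lit 237)) (XT.lf (nat_lit 0) (nat_lit 67438280531) (nat_lit 152) (nat_lit 2501227849) (nat_lit 0) (nat_lit 2440048726) (nat_lit 24) (nat_lit 5) (nat_lit 26) (nat_lit 4) (nat_lit 24) (nat_lit 4) (nat_lit 352) (nat_lit 312) (nat_lit 236)))) (XT.nd (nat_lit 78) (nat_lit 76) (nat_lit 0) (XT.lf (nat_lit 0) (nat_lit 18446182714) (nat_lit 152) (nat_lit 27197476498) (nat_lit 76) (nat_lit 31095821349) (nat_lit 22) (nat_lit 5) (nat_lit 24) (nat_lit 5) (nat_lit 23) (nat_lit 4) (nat_lit 353) (nat_lit 312) (nat_lit 235)) (XT.nd (nat_lit 78) (nat_lit 0) (nat_lit 0) (XT.lf (nat_lit 0) (nat_lit 25089045143) (nat_lit 76) (nat_lit 18869044811) (nat_lit 152) (nat_lit 37464731561) (nat_lit 21) (nat_lit 5) (nat_lit 22) (nat_lit 5) (nat_lit 23) (nat_lit 4) (nat_lit 354) (nat_lit 312) (nat_lit 234)) (XT.lf (nat_lit 0) (nat_lit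 72137999465) (nat_lit 152) (nat_lit 4113454564) (nat_lit 0) (nat_lit 10198025384) (nat_lit 21) (nat_lit 5) (nat_lit 23) (nat_lit 4) (nat_lit 21) (nat_lit 4) (nat_lit 355) (nat_lit 312) (nat_lit 233))))) (XT.nd (nat_lit 234) (nat_lit 228) (nat_lit 0) (XT.nd (nat_lit 78) (nat_lit 76) (nat_lit 0) (XT.lf (nat_lit 0) (nat_lit 11516037762) (nat_lit 152) (nat_lit 38342620053) (nat_lit 76) (nat_lit 41953051744) (nat_lit 19) (nat_lit 5) (nat_lit 21) (nat_lit 5) (nat_lit 20) (nat_lit 4) (nat_lit 356) (nat_lit 312) (nat_lit 232)) (XT.nd (nat_lit 78) (nat_lit 0) (nat_lit 0) (XT.lf (nat_lit 0) (nat_lit 18537337295) (nat_lit 76) (nat_lit 20729774236) (nat_lit 152) (nat_lit 58306139664) (nat_lit 18) (nat_lit 5) (nat_lit 19) (nat_lit 5) (nat_lit 20) (nat_lit 4) (nat_lit 357) (nat_lit 312) (nat_lit 231)) (XT.lf (nat_lit 0) (nat_lit 70074779383) (nat_lit 152) (nat_lit 22622679756) (nat_lit 0) (nat_lit 11056433238)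 (nat_lit 18) (nat_lit 5) (nat_lit 20) (nat_lit 4) (nat_lit 18) (nat_lit 4) (nat_lit 358) (nat_lit 312) (nat_lit 230)))) (XT.nd (nat_lit 78) (nat_lit 152) (nat_lit 0) (XT.lf (nat_lit 0) (nat_lit 39191033672) (nat_lit 76) (nat_lit 65108320091) (nat_lit 76) (nat_lit 6082017943) (nat_lit 17) (nat_lit 4) (nat_lit 18) (nat_lit 5) (nat_lit 18) (nat_lit 4) (nat_lit 359) (nat_lit 312) (nat_lit 229)) (XT.nd (nat_lit 78) (nat_lit 76) (nat_lit 0) (XT.lf (nat_lit 0) (nat_lit 23355239943) (nat_lit 152) (nat_lit 11155426934) (nat_lit 76) (nat_lit 82990281107) (nat_lit 16) (nat_lit 5) (nat_lit 18) (nat_lit 5) (nat_lit 17) (nat_lit 4) (nat_lit 360) (nat_lit 312) (nat_lit 228)) (XT.lf (nat_lit 0) (nat_lit 55335113001) (nat_lit 76) (nat_lit 457863978) (nat_lit 152) (nat_lit 69349200213) (nat_lit 15) (nat_lit 5) (nat_lit 16) (nat_lit 5) (nat_lit 17) (nat_lit 4) (nat_lit 361) (nat_lit 312) (nat_lit 227))))))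 (XT.nd (nat_lit 468) (nat_lit 228) (nat_lit 0) (XT.nd (nat_lit 234) (nat_lit 152) (nat_lit 0) (XT.nd (nat_lit 78) (nat_lit 152) (nat_lit 0) (XT.lf (nat_lit 0) (nat_lit 91582342186) (nat_lit 152) (nat_lit 6427243942) (nat_lit 0) (nat_lit 35347289289) (nat_lit 15) (nat_lit 5) (nat_lit 17) (nat_lit 4) (nat_lit 15) (nat_lit 4) (nat_lit 362) (nat_lit 312) (nat_lit 226)) (XT.nd (nat_lit 78) (nat_lit 76) (nat_lit 0) (XT.lf (nat_lit 0) (nat_lit 64051130896) (nat_lit 76) (nat_lit 67184111350) (nat_lit 76) (nat_lit 10943489025) (nat_lit 14) (nat_lit 4) (nat_lit 15) (nat_lit 5) (nat_lit 15) (nat_lit 4) (nat_lit 363) (nat_lit 312) (nat_lit 225)) (XT.lf (nat_lit 0) (nat_lit 21745228601) (nat_lit 152) (nat_lit 11668060569) (nat_lit 76) (nat_lit 118270263957) (nat_lit 13) (nat_lit 5) (nat_lit 15) (nat_lit 5) (nat_lit 14) (nat_lit 4) (nat_lit 364) (nat_lit 312) (nat_lit 224)))) (XT.nd (nat_lit 78) (nat_lit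 76) (nat_lit 0) (XT.lf (nat_lit 0) (nat_lit 57696995065) (nat_lit 152) (nat_lit 100066189768) (nat_lit 0) (nat_lit 4125038788) (nat_lit 12) (nat_lit 5) (nat_lit 14) (nat_lit 4) (nat_lit 12) (nat_lit 4) (nat_lit 365) (nat_lit 312) (nat_lit 223)) (XT.nd (nat_lit 78) (nat_lit 76) (nat_lit 0) (XT.lf (nat_lit 0) (nat_lit 97288494482) (nat_lit 152) (nat_lit 31870266942) (nat_lit 0) (nat_lit 43712327546) (nat_lit 12) (nat_lit 5) (nat_lit 14) (nat_lit 4) (nat_lit 12) (nat_lit 4) (nat_lit 366) (nat_lit 312) (nat_lit 222)) (XT.lf (nat_lit 0) (nat_lit 43150929738) (nat_lit 76) (nat_lit 97564165583) (nat_lit 76) (nat_lit 43984099889) (nat_lit 11) (nat_lit 4) (nat_lit 12) (nat_lit 5) (nat_lit 12) (nat_lit 4) (nat_lit 367) (nat_lit 312) (nat_lit 221))))) (XT.nd (nat_lit 234) (nat_lit 76) (nat_lit 0) (XT.nd (nat_lit 78) (nat_lit 152) (nat_lit 0) (XT.lf (nat_lit 0) (nat_lit 125300899641) (nat_lit 76) (nat_lit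 62864425794) (nat_lit 76) (nat_lit 9280750139) (nat_lit 11) (nat_lit 4) (nat_lit 12) (nat_lit 5) (nat_lit 12) (nat_lit 4) (nat_lit 368) (nat_lit 312) (nat_lit 220)) (XT.nd (nat_lit 78) (nat_lit 0) (nat_lit 0) (XT.lf (nat_lit 0) (nat_lit 2437552955) (nat_lit 76) (nat_lit 24891506150) (nat_lit 152) (nat_lit 183859998127) (nat_lit 9) (nat_lit 5) (nat_lit 10) (nat_lit 5) (nat_lit 11) (nat_lit 4) (nat_lit 369) (nat_lit 312) (nat_lit 219)) (XT.lf (nat_lit 0) (nat_lit 68070677585) (nat_lit 152) (nat_lit 140844309822) (nat_lit 0) (nat_lit 17032474563) (nat_lit 9) (nat_lit 5) (nat_lit 11) (nat_lit 4) (nat_lit 9) (nat_lit 4) (nat_lit 370) (nat_lit 312) (nat_lit 218)))) (XT.nd (nat_lit 156) (nat_lit 0) (nat_lit 0) (XT.nd (nat_lit 78) (nat_lit 76) (nat_lit 0) (XT.lf (nat_lit 0) (nat_lit 112486562886) (nat_lit 152) (nat_lit 67933599227) (nat_lit 0) (nat_lit 61445630623) (nat_lit 9) (nat_lit 5) (nat_lit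 11) (nat_lit 4) (nat_lit 9) (nat_lit 4) (nat_lit 371) (nat_lit 312) (nat_lit 217)) (XT.lf (nat_lit 0) (nat_lit 11158457472) (nat_lit 76) (nat_lit 149467051408) (nat_lit 76) (nat_lit 98423592069) (nat_lit 8) (nat_lit 4) (nat_lit 9) (nat_lit 5) (nat_lit 9) (nat_lit 4) (nat_lit 372) (nat_lit 312) (nat_lit 216))) (XT.nd (nat_lit 78) (nat_lit 0) (nat_lit 0) (XT.lf (nat_lit 0) (nat_lit 98995490518) (nat_lit 76) (nat_lit 114799213156) (nat_lit 76) (nat_lit 63753413932) (nat_lit 8) (nat_lit 4) (nat_lit 9) (nat_lit 5) (nat_lit 9) (nat_lit 4) (nat_lit 373) (nat_lit 312) (nat_lit 215)) (XT.lf (nat_lit 0) (nat_lit 193851824074) (nat_lit 76) (nat_lit 77361696689) (nat_lit 76) (nat_lit 26313730906) (nat_lit 8) (nat_lit 4) (nat_lit 9) (nat_lit 5) (nat_lit 9) (nat_lit 4) (nat_lit 374) (nat_lit 312) (nat_lit 214))))))) (XT.nd (nat_lit 936) (nat_lit 0) (nat_lit 0) (XT.nd (nat_lit 468) (nat_lit 152) (nat_lit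 0) (XT.nd (nat_lit 234) (nat_lit 76) (nat_lit 0) (XT.nd (nat_lit 78) (nat_lit 76) (nat_lit 0) (XT.lf (nat_lit 0) (nat_lit 13665479335) (nat_lit 152) (nat_lit 23035739219) (nat_lit 76) (nat_lit 282392658907) (nat_lit 7) (nat_lit 5) (nat_lit 9) (nat_lit 5) (nat_lit 8) (nat_lit 4) (nat_lit 375) (nat_lit 312) (nat_lit 213)) (XT.nd (nat_lit 78) (nat_lit 0) (nat_lit 0) (XT.lf (nat_lit 0) (nat_lit 57092560462) (nat_lit 152) (nat_lit 276741361984) (nat_lit 0) (nat_lit 8471770621) (nat_lit 6) (nat_lit 5) (nat_lit 8) (nat_lit 4) (nat_lit 6) (nat_lit 4) (nat_lit 376) (nat_lit 312) (nat_lit 212)) (XT.lf (nat_lit 0) (nat_lit 105017197079) (nat_lit 152) (nat_lit 205911318452) (nat_lit 0) (nat_lit 56394769252) (nat_lit 6) (nat_lit 5) (nat_lit 8) (nat_lit 4) (nat_lit 6) (nat_lit 4) (nat_lit 377) (nat_lit 312) (nat_lit 211)))) (XT.nd (nat_lit 78) (nat_lit 76) (nat_lit 0) (XT.lf (nat_lit 0) (nat_lit 156772743087)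 (nat_lit 152) (nat_lit 129420895507) (nat_lit 0) (nat_lit 108148798606) (nat_lit 6) (nat_lit 5) (nat_lit 8) (nat_lit 4) (nat_lit 6) (nat_lit 4) (nat_lit 378) (nat_lit 312) (nat_lit 210)) (XT.nd (nat_lit 78) (nat_lit 76) (nat_lit 0) (XT.lf (nat_lit 0) (nat_lit 212665898017) (nat_lit 152) (nat_lit 46816816568) (nat_lit 0) (nat_lit 164040549227) (nat_lit 6) (nat_lit 5) (nat_lit 8) (nat_lit 4) (nat_lit 6) (nat_lit 4) (nat_lit 379) (nat_lit 312) (nat_lit 209)) (XT.lf (nat_lit 0) (nat_lit 43792042874) (nat_lit 76) (nat_lit 229919554208) (nat_lit 76) (nat_lit 181292905132) (nat_lit 5) (nat_lit 4) (nat_lit 6) (nat_lit 5) (nat_lit 6) (nat_lit 4) (nat_lit 380) (nat_lit 312) (nat_lit 208))))) (XT.nd (nat_lit 234) (nat_lit 152) (nat_lit 0) (XT.nd (nat_lit 78) (nat_lit 0) (nat_lit 0) (XT.lf (nat_lit 0) (nat_lit 143316484271) (nat_lit 76) (nat_lit 197137479063) (nat_lit 76) (nat_lit 148509626019) (nat_lit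 5) (nat_lit 4) (nat_lit 6) (nat_lit 5) (nat_lit 6) (nat_lit 4) (nat_lit 381) (nat_lit 312) (nat_lit 207)) (XT.nd (nat_lit 78) (nat_lit 0) (nat_lit 0) (XT.lf (nat_lit 0) (nat_lit 250798306703) (nat_lit 76) (nat_lit 161735090444) (nat_lit 76) (nat_lit 113106122613) (nat_lit 5) (nat_lit 4) (nat_lit 6) (nat_lit 5) (nat_lit 6) (nat_lit 4) (nat_lit 382) (nat_lit 312) (nat_lit 206)) (XT.lf (nat_lit 0) (nat_lit 366874439489) (nat_lit 76) (nat_lit 123502596417) (nat_lit 76) (nat_lit 74872596378) (nat_lit 5) (nat_lit 4) (nat_lit 6) (nat_lit 5) (nat_lit 6) (nat_lit 4) (nat_lit 383) (nat_lit 312) (nat_lit 205)))) (XT.nd (nat_lit 78) (nat_lit 152) (nat_lit 0) (XT.lf (nat_lit 0) (nat_lit 492232741192) (nat_lit 76) (nat_lit 82213434056) (nat_lit 76) (nat_lit 33582478268) (nat_lit 5) (nat_lit 4) (nat_lit 6) (nat_lit 5) (nat_lit 6) (nat_lit 4) (nat_lit 384) (nat_lit 312) (nat_lit 204)) (XT.nd (nat_lit 78)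 (nat_lit 76) (nat_lit 0) (XT.lf (nat_lit 0) (nat_lit 10656559900) (nat_lit 152) (nat_lit 26785892944) (nat_lit 76) (nat_lit 616779041924) (nat_lit 4) (nat_lit 5) (nat_lit 6) (nat_lit 5) (nat_lit 5) (nat_lit 4) (nat_lit 385) (nat_lit 312) (nat_lit 203)) (XT.lf (nat_lit 0) (nat_lit 58579208129) (nat_lit 152) (nat_lit 633174587099) (nat_lit 0) (nat_lit 12262388946) (nat_lit 3) (nat_lit 5) (nat_lit 5) (nat_lit 4) (nat_lit 3) (nat_lit 4) (nat_lit 386) (nat_lit 312) (nat_lit 202)))))) (XT.nd (nat_lit 468) (nat_lit 0) (nat_lit 0) (XT.nd (nat_lit 234) (nat_lit 0) (nat_lit 0) (XT.nd (nat_lit 78) (nat_lit 0) (nat_lit 0) (XT.lf (nat_lit 0) (nat_lit 111439575958) (nat_lit 152) (nat_lit 581177643325) (nat_lit 0) (nat_lit 65122034199) (nat_lit 3) (nat_lit 5) (nat_lit 5) (nat_lit 4) (nat_lit 3) (nat_lit 4) (nat_lit 387) (nat_lit 312) (nat_lit 201)) (XT.nd (nat_lit 78) (nat_lit 0) (nat_lit 0) (XT.lf (nat_lit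 0) (nat_lit 168527215391) (nat_lit 152) (nat_lit 525024026381) (nat_lit 0) (nat_lit 122209004581) (nat_lit 3) (nat_lit 5) (nat_lit 5) (nat_lit 4) (nat_lit 3) (nat_lit 4) (nat_lit 388) (nat_lit 312) (nat_lit 200)) (XT.lf (nat_lit 0) (nat_lit 230180423550) (nat_lit 152) (nat_lit 464380974092) (nat_lit 0) (nat_lit 183861593248) (nat_lit 3) (nat_lit 5) (nat_lit 5) (nat_lit 4) (nat_lit 3) (nat_lit 4) (nat_lit 389) (nat_lit 312) (nat_lit 199)))) (XT.nd (nat_lit 78) (nat_lit 0) (nat_lit 0) (XT.lf (nat_lit 0) (nat_lit 296764552781) (nat_lit 152) (nat_lit 398889120224) (nat_lit 0) (nat_lit 250445148875) (nat_lit 3) (nat_lit 5) (nat_lit 5) (nat_lit 4) (nat_lit 3) (nat_lit 4) (nat_lit 390) (nat_lit 312) (nat_lit 198)) (XT.nd (nat_lit 78) (nat_lit 0) (nat_lit 0) (XT.lf (nat_lit 0) (nat_lit 368674175700) (nat_lit 152) (nat_lit 328160364901) (nat_lit 0) (nat_lit 322354240680) (nat_lit 3) (nat_lit 5) (nat_lit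 5) (nat_lit 4) (nat_lit 3) (nat_lit 4) (nat_lit 391) (nat_lit 312) (nat_lit 197)) (XT.lf (nat_lit 0) (nat_lit 446335423407) (nat_lit 152) (nat_lit 251775574758) (nat_lit 0) (nat_lit 400014996614) (nat_lit 3) (nat_lit 5) (nat_lit 5) (nat_lit 4) (nat_lit 3) (nat_lit 4) (nat_lit 392) (nat_lit 312) (nat_lit 196))))) (XT.nd (nat_lit 40716) (nat_lit 0) (nat_lit 8664) (XT.nd (nat_lit 78) (nat_lit 0) (nat_lit 0) (XT.lf (nat_lit 0) (nat_lit 530208510704) (nat_lit 152) (nat_lit 169282099186) (nat_lit 0) (nat_lit 483887628565) (nat_lit 3) (nat_lit 5) (nat_lit 5) (nat_lit 4) (nat_lit 3) (nat_lit 4) (nat_lit 393) (nat_lit 312) (nat_lit 195)) (XT.nd (nat_lit 40560) (nat_lit 0) (nat_lit 8664) (XT.lf (nat_lit 0) (nat_lit 620790463291) (nat_lit 152) (nat_lit 80191087962) (nat_lit 0) (nat_lit 574469159537) (nat_lit 3) (nat_lit 5) (nat_lit 5) (nat_lit 4) (nat_lit 3) (nat_lit 4) (nat_lit 394) (nat_lit 312)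 (nat_lit 194)) (XT.lf (nat_lit 0) (nat_lit 1510028584) (nat_lit 0) (nat_lit 1510028584) (nat_lit 684) (nat_lit 2696423958) (nat_lit 117) (nat_lit 5) (nat_lit 117) (nat_lit 3) (nat_lit 126) (nat_lit 3) (nat_lit 313) (nat_lit 313) (nat_lit 274)))) (XT.nd (nat_lit 156) (nat_lit 0) (nat_lit 76) (XT.nd (nat_lit 78) (nat_lit 0) (nat_lit 76) (XT.lf (nat_lit 76) (nat_lit 269228271) (nat_lit 0) (nat_lit 6895593495) (nat_lit 760) (nat_lit 4680564062) (nat_lit 118) (nat_lit 5) (nat_lit 117) (nat_lit 5) (nat_lit 127) (nat_lit 5) (nat_lit 314) (nat_lit 313) (nat_lit 273)) (XT.lf (nat_lit 0) (nat_lit 8517208059) (nat_lit 684) (nat_lit 2458549385) (nat_lit 760) (nat_lit 1308234744) (nat_lit 118) (nat_lit 5) (nat_lit 127) (nat_lit 5) (nat_lit 128) (nat_lit 5) (nat_lit 315) (nat_lit 313) (nat_lit 272))) (XT.nd (nat_lit 78) (nat_lit 0) (nat_lit 76) (XT.lf (nat_lit 76) (nat_lit 7464098207) (nat_lit 0) (nat_lit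 2672866381) (nat_lit 760) (nat_lit 2612832031) (nat_lit 119) (nat_lit 5) (nat_lit 118) (nat_lit 5) (nat_lit 128) (nat_lit 5) (nat_lit 316) (nat_lit 313) (nat_lit 271)) (XT.lf (nat_lit 76) (nat_lit 5030839616) (nat_lit 0) (nat_lit 7007304110) (nat_lit 760) (nat_lit 1207193030) (nat_lit 120) (nat_lit 5) (nat_lit 119) (nat_lit 5) (nat_lit 129) (nat_lit 5) (nat_lit 317) (nat_lit 313) (nat_lit 270))))))))
noncomputable def xc70 : XT := (XT.nd (nat_lit 1950) (nat_lit 2052) (nat_lit 0) (XT.nd (nat_lit 936) (nat_lit 2356) (nat_lit 0) (XT.nd (nat_lit 468) (nat_lit 1672) (nat_lit 0) (XT.nd (nat_lit 234) (nat_lit 1368) (nat_lit 0) (XT.nd (nat_lit 78) (nat_lit 0) (nat_lit 0) (XT.lf (nat_lit 0) (nat_lit 448029065) (nat_lit 760) (nat_lit 11240924848) (nat_lit 836) (nat_lit 2084025316) (nat_lit 110) (nat_lit 5) (nat_lit 120) (nat_lit 5) (nat_lit 121) (nat_lit 5) (nat_lit 318) (nat_lit 313) (nat_lit 269))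 (XT.nd (nat_lit 78) (nat_lit 0) (nat_lit 76) (XT.lf (nat_lit 0) (nat_lit 2396594838) (nat_lit 760) (nat_lit 95001517) (nat_lit 836) (nat_lit 11840138050) (nat_lit 110) (nat_lit 5) (nat_lit 120) (nat_lit 5) (nat_lit 121) (nat_lit 5) (nat_lit 319) (nat_lit 313) (nat_lit 268)) (XT.lf (nat_lit 0) (nat_lit 4755980456) (nat_lit 760) (nat_lit 2758432946) (nat_lit 76) (nat_lit 7408077837) (nat_lit 111) (nat_lit 5) (nat_lit 121) (nat_lit 5) (nat_lit 112) (nat_lit 5) (nat_lit 320) (nat_lit 313) (nat_lit 267)))) (XT.nd (nat_lit 78) (nat_lit 684) (nat_lit 0) (XT.lf (nat_lit 0) (nat_lit 7493413849) (nat_lit 836) (nat_lit 5513995287) (nat_lit 76) (nat_lit 2543679059) (nat_lit 101) (nat_lit 5) (nat_lit 112) (nat_lit 5) (nat_lit 102) (nat_lit 5) (nat_lit 321) (nat_lit 313) (nat_lit 266)) (XT.nd (nat_lit 78) (nat_lit 304) (nat_lit 0) (XT.lf (nat_lit 0) (nat_lit 7801635489) (nat_lit 380) (nat_lit 2896026887)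 (nat_lit 456) (nat_lit 5519960637) (nat_lit 96) (nat_lit 5) (nat_lit 101) (nat_lit 5) (nat_lit 102) (nat_lit 5) (nat_lit 322) (nat_lit 313) (nat_lit 265)) (XT.lf (nat_lit 0) (nat_lit 5446126673) (nat_lit 304) (nat_lit 8973499377) (nat_lit 380) (nat_lit 2504823883) (nat_lit 92) (nat_lit 5) (nat_lit 96) (nat_lit 5) (nat_lit 97) (nat_lit 5) (nat_lit 323) (nat_lit 313) (nat_lit 264))))) (XT.nd (nat_lit 234) (nat_lit 912) (nat_lit 0) (XT.nd (nat_lit 78) (nat_lit 304) (nat_lit 0) (XT.lf (nat_lit 0) (nat_lit 960650306) (nat_lit 456) (nat_lit 14686400111) (nat_lit 76) (nat_lit 2028560508) (nat_lit 86) (nat_lit 5) (nat_lit 92) (nat_lit 5) (nat_lit 87) (nat_lit 5) (nat_lit 324) (nat_lit 313) (nat_lit 263)) (XT.nd (nat_lit 78) (nat_lit 0) (nat_lit 0) (XT.lf (nat_lit 0) (nat_lit 312856472) (nat_lit 304) (nat_lit 4621297034) (nat_lit 380) (nat_lit 13534761856) (nat_lit 82) (nat_lit 5) (nat_lit 86) (nat_lit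 5) (nat_lit 87) (nat_lit 5) (nat_lit 325) (nat_lit 313) (nat_lit 262)) (XT.lf (nat_lit 0) (nat_lit 9559593477) (nat_lit 380) (nat_lit 2441706103) (nat_lit 76) (nat_lit 7307710539) (nat_lit 82) (nat_lit 5) (nat_lit 87) (nat_lit 5) (nat_lit 83) (nat_lit 5) (nat_lit 326) (nat_lit 313) (nat_lit 261)))) (XT.nd (nat_lit 78) (nat_lit 608) (nat_lit 0) (XT.lf (nat_lit 0) (nat_lit 14829466030) (nat_lit 380) (nat_lit 5319117459) (nat_lit 76) (nat_lit 54035758) (nat_lit 78) (nat_lit 5) (nat_lit 83) (nat_lit 5) (nat_lit 79) (nat_lit 5) (nat_lit 327) (nat_lit 313) (nat_lit 260)) (XT.nd (nat_lit 78) (nat_lit 380) (nat_lit 0) (XT.lf (nat_lit 0) (nat_lit 12675367454) (nat_lit 228) (nat_lit 8254224976) (nat_lit 304) (nat_lit 217716156) (nat_lit 75) (nat_lit 5) (nat_lit 78) (nat_lit 5) (nat_lit 79) (nat_lit 5) (nat_lit 328) (nat_lit 313) (nat_lit 259)) (XT.lf (nat_lit 0) (nat_lit 5478161871) (nat_lit 380)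 (nat_lit 11889945566) (nat_lit 76) (nat_lit 4780348637) (nat_lit 70) (nat_lit 5) (nat_lit 75) (nat_lit 5) (nat_lit 71) (nat_lit 5) (nat_lit 329) (nat_lit 313) (nat_lit 258)))))) (XT.nd (nat_lit 468) (nat_lit 1140) (nat_lit 0) (XT.nd (nat_lit 234) (nat_lit 456) (nat_lit 0) (XT.nd (nat_lit 78) (nat_lit 532) (nat_lit 0) (XT.lf (nat_lit 0) (nat_lit 7623935082) (nat_lit 228) (nat_lit 4374689201) (nat_lit 304) (nat_lit 11212085685) (nat_lit 67) (nat_lit 5) (nat_lit 70) (nat_lit 5) (nat_lit 71) (nat_lit 5) (nat_lit 330) (nat_lit 313) (nat_lit 257)) (XT.nd (nat_lit 78) (nat_lit 304) (nat_lit 0) (XT.lf (nat_lit 0) (nat_lit 4731233997) (nat_lit 228) (nat_lit 14714447473) (nat_lit 304) (nat_lit 4892033476) (nat_lit 64) (nat_lit 5) (nat_lit 67) (nat_lit 5) (nat_lit 68) (nat_lit 5) (nat_lit 331) (nat_lit 313) (nat_lit 256)) (XT.lf (nat_lit 0) (nat_lit 1591419534) (nat_lit 228) (nat_lit 625803675) (nat_lit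 304) (nat_lit 23318889692) (nat_lit 60) (nat_lit 5) (nat_lit 63) (nat_lit 5) (nat_lit 64) (nat_lit 5) (nat_lit 332) (nat_lit 313) (nat_lit 255)))) (XT.nd (nat_lit 78) (nat_lit 456) (nat_lit 0) (XT.lf (nat_lit 0) (nat_lit 10273310925) (nat_lit 304) (nat_lit 1984401296) (nat_lit 76) (nat_lit 14541201668) (nat_lit 60) (nat_lit 5) (nat_lit 64) (nat_lit 5) (nat_lit 61) (nat_lit 5) (nat_lit 333) (nat_lit 313) (nat_lit 254)) (XT.nd (nat_lit 78) (nat_lit 228) (nat_lit 0) (XT.lf (nat_lit 0) (nat_lit 19356807987) (nat_lit 304) (nat_lit 5792669841) (nat_lit 76) (nat_lit 2994129120) (nat_lit 57) (nat_lit 5) (nat_lit 61) (nat_lit 5) (nat_lit 58) (nat_lit 5) (nat_lit 334) (nat_lit 313) (nat_lit 253)) (XT.lf (nat_lit 0) (nat_lit 114966730) (nat_lit 228) (nat_lit 10082246041) (nat_lit 76) (nat_lit 19372503425) (nat_lit 54) (nat_lit 5) (nat_lit 57) (nat_lit 5) (nat_lit 55) (nat_lit 5) (nat_lit 335) (nat_lit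 313) (nat_lit 252))))) (XT.nd (nat_lit 234) (nat_lit 608) (nat_lit 0) (XT.nd (nat_lit 78) (nat_lit 304) (nat_lit 0) (XT.lf (nat_lit 0) (nat_lit 9858366900) (nat_lit 304) (nat_lit 14961502359) (nat_lit 76) (nat_lit 6260987156) (nat_lit 51) (nat_lit 5) (nat_lit 55) (nat_lit 5) (nat_lit 52) (nat_lit 5) (nat_lit 336) (nat_lit 313) (nat_lit 251)) (XT.nd (nat_lit 78) (nat_lit 152) (nat_lit 0) (XT.lf (nat_lit 0) (nat_lit 12254929653) (nat_lit 152) (nat_lit 8645472948) (nat_lit 228) (nat_lit 11786537742) (nat_lit 49) (nat_lit 5) (nat_lit 51) (nat_lit 5) (nat_lit 52) (nat_lit 5) (nat_lit 337) (nat_lit 313) (nat_lit 250)) (XT.lf (nat_lit 0) (nat_lit 7848817939) (nat_lit 152) (nat_lit 25480498684) (nat_lit 228) (nat_lit 1067028467) (nat_lit 47) (nat_lit 5) (nat_lit 49) (nat_lit 5) (nat_lit 50) (nat_lit 5) (nat_lit 338) (nat_lit 313) (nat_lit 249)))) (XT.nd (nat_lit 156) (nat_lit 380) (nat_lit 0) (XT.nd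 (nat_lit 78) (nat_lit 0) (nat_lit 0) (XT.lf (nat_lit 0) (nat_lit 2631523265) (nat_lit 152) (nat_lit 8069812263) (nat_lit 228) (nat_lit 25506586790) (nat_lit 44) (nat_lit 5) (nat_lit 46) (nat_lit 5) (nat_lit 47) (nat_lit 5) (nat_lit 339) (nat_lit 313) (nat_lit 248)) (XT.lf (nat_lit 0) (nat_lit 23991804899) (nat_lit 228) (nat_lit 3274909536) (nat_lit 76) (nat_lit 10865943754) (nat_lit 44) (nat_lit 5) (nat_lit 47) (nat_lit 5) (nat_lit 45) (nat_lit 5) (nat_lit 340) (nat_lit 313) (nat_lit 247))) (XT.nd (nat_lit 78) (nat_lit 228) (nat_lit 0) (XT.lf (nat_lit 0) (nat_lit 30252000149) (nat_lit 152) (nat_lit 8683304329) (nat_lit 228) (nat_lit 1246586286) (nat_lit 42) (nat_lit 5) (nat_lit 44) (nat_lit 5) (nat_lit 45) (nat_lit 5) (nat_lit 341) (nat_lit 313) (nat_lit 246)) (XT.lf (nat_lit 0) (nat_lit 12887931322) (nat_lit 228) (nat_lit 17803084914) (nat_lit 76) (nat_lit 11663428207) (nat_lit 39) (nat_lit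 5) (nat_lit 42) (nat_lit 5) (nat_lit 40) (nat_lit 5) (nat_lit 342) (nat_lit 313) (nat_lit 245))))))) (XT.nd (nat_lit 936) (nat_lit 760) (nat_lit 0) (XT.nd (nat_lit 468) (nat_lit 532) (nat_lit 0) (XT.nd (nat_lit 234) (nat_lit 304) (nat_lit 0) (XT.nd (nat_lit 78) (nat_lit 304) (nat_lit 0) (XT.lf (nat_lit 0) (nat_lit 17824257883) (nat_lit 152) (nat_lit 10869093565) (nat_lit 228) (nat_lit 15977244502) (nat_lit 37) (nat_lit 5) (nat_lit 39) (nat_lit 5) (nat_lit 40) (nat_lit 5) (nat_lit 343) (nat_lit 313) (nat_lit 244)) (XT.nd (nat_lit 78) (nat_lit 228) (nat_lit 0) (XT.lf (nat_lit 0) (nat_lit 9899348752) (nat_lit 76) (nat_lit 36481527927) (nat_lit 152) (nat_lit 760284969) (nat_lit 36) (nat_lit 5) (nat_lit 37) (nat_lit 5) (nat_lit 38) (nat_lit 4) (nat_lit 344) (nat_lit 313) (nat_lit 243)) (XT.lf (nat_lit 0) (nat_lit 303275627) (nat_lit 152) (nat_lit 15516320538) (nat_lit 228) (nat_lit 33945184052)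 (nat_lit 33) (nat_lit 5) (nat_lit 35) (nat_lit 5) (nat_lit 36) (nat_lit 5) (nat_lit 345) (nat_lit 313) (nat_lit 242)))) (XT.nd (nat_lit 78) (nat_lit 304) (nat_lit 0) (XT.lf (nat_lit 0) (nat_lit 34454710707) (nat_lit 228) (nat_lit 10546217126) (nat_lit 76) (nat_lit 7558967883) (nat_lit 33) (nat_lit 5) (nat_lit 36) (nat_lit 5) (nat_lit 34) (nat_lit 4) (nat_lit 346) (nat_lit 313) (nat_lit 241)) (XT.nd (nat_lit 78) (nat_lit 228) (nat_lit 0) (XT.lf (nat_lit 0) (nat_lit 32226635168) (nat_lit 76) (nat_lit 23104430657) (nat_lit 152) (nat_lit 210037329) (nat_lit 32) (nat_lit 5) (nat_lit 33) (nat_lit 5) (nat_lit 34) (nat_lit 4) (nat_lit 347) (nat_lit 313) (nat_lit 240)) (XT.lf (nat_lit 0) (nat_lit 19017243526) (nat_lit 228) (nat_lit 38370814308) (nat_lit 76) (nat_lit 1332211041) (nat_lit 29) (nat_lit 5) (nat_lit 32) (nat_lit 5) (nat_lit 30) (nat_lit 4) (nat_lit 348) (nat_lit 313) (nat_lit 239)))))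 (XT.nd (nat_lit 234) (nat_lit 228) (nat_lit 0) (XT.nd (nat_lit 78) (nat_lit 228) (nat_lit 0) (XT.lf (nat_lit 0) (nat_lit 5972706929) (nat_lit 76) (nat_lit 34684952575) (nat_lit 152) (nat_lit 21451824107) (nat_lit 28) (nat_lit 5) (nat_lit 29) (nat_lit 5) (nat_lit 30) (nat_lit 4) (nat_lit 349) (nat_lit 313) (nat_lit 238)) (XT.nd (nat_lit 78) (nat_lit 228) (nat_lit 0) (XT.lf (nat_lit 0) (nat_lit 55210717335) (nat_lit 76) (nat_lit 9474215320) (nat_lit 152) (nat_lit 1052124904) (nat_lit 28) (nat_lit 5) (nat_lit 29) (nat_lit 5) (nat_lit 30) (nat_lit 4) (nat_lit 350) (nat_lit 313) (nat_lit 237)) (XT.lf (nat_lit 0) (nat_lit 21207685318) (nat_lit 228) (nat_lit 30248024402) (nat_lit 76) (nat_lit 18137772484) (nat_lit 25) (nat_lit 5) (nat_lit 28) (nat_lit 5) (nat_lit 26) (nat_lit 4) (nat_lit 351) (nat_lit 313) (nat_lit 236)))) (XT.nd (nat_lit 78) (nat_lit 152) (nat_lit 0) (XT.lf (nat_lit 0) (nat_lit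 20280895022) (nat_lit 76) (nat_lit 25582173050) (nat_lit 152) (nat_lit 27861910533) (nat_lit 24) (nat_lit 5) (nat_lit 25) (nat_lit 5) (nat_lit 26) (nat_lit 4) (nat_lit 352) (nat_lit 313) (nat_lit 235)) (XT.nd (nat_lit 78) (nat_lit 152) (nat_lit 0) (XT.lf (nat_lit 0) (nat_lit 73052074446) (nat_lit 152) (nat_lit 2294719224) (nat_lit 0) (nat_lit 2812143837) (nat_lit 24) (nat_lit 5) (nat_lit 26) (nat_lit 4) (nat_lit 24) (nat_lit 4) (nat_lit 353) (nat_lit 313) (nat_lit 234)) (XT.lf (nat_lit 0) (nat_lit 20133941212) (nat_lit 152) (nat_lit 28977284643) (nat_lit 76) (nat_lit 33756767987) (nat_lit 22) (nat_lit 5) (nat_lit 24) (nat_lit 5) (nat_lit 23) (nat_lit 4) (nat_lit 354) (nat_lit 313) (nat_lit 233)))))) (XT.nd (nat_lit 468) (nat_lit 380) (nat_lit 0) (XT.nd (nat_lit 234) (nat_lit 152) (nat_lit 0) (XT.nd (nat_lit 78) (nat_lit 152) (nat_lit 0) (XT.lf (nat_lit 0) (nat_lit 27474949488) (nat_lit 76)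 (nat_lit 20202056937) (nat_lit 152) (nat_lit 40249488486) (nat_lit 21) (nat_lit 5) (nat_lit 22) (nat_lit 5) (nat_lit 23) (nat_lit 4) (nat_lit 355) (nat_lit 313) (nat_lit 232)) (XT.nd (nat_lit 78) (nat_lit 152) (nat_lit 0) (XT.lf (nat_lit 0) (nat_lit 78098877490) (nat_lit 152) (nat_lit 4084959428) (nat_lit 0) (nat_lit 11172072961) (nat_lit 21) (nat_lit 5) (nat_lit 23) (nat_lit 4) (nat_lit 21) (nat_lit 4) (nat_lit 356) (nat_lit 313) (nat_lit 231)) (XT.lf (nat_lit 0) (nat_lit 12621438215) (nat_lit 152) (nat_lit 41061878294) (nat_lit 76) (nat_lit 45464092212) (nat_lit 19) (nat_lit 5) (nat_lit 21) (nat_lit 5) (nat_lit 20) (nat_lit 4) (nat_lit 357) (nat_lit 313) (nat_lit 230)))) (XT.nd (nat_lit 78) (nat_lit 76) (nat_lit 0) (XT.lf (nat_lit 0) (nat_lit 20353345408) (nat_lit 76) (nat_lit 22230813541) (nat_lit 152) (nat_lit 62786139035) (nat_lit 18) (nat_lit 5) (nat_lit 19) (nat_lit 5) (nat_lit 20)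 (nat_lit 4) (nat_lit 358) (nat_lit 313) (nat_lit 229)) (XT.nd (nat_lit 78) (nat_lit 76) (nat_lit 0) (XT.lf (nat_lit 0) (nat_lit 75845701601) (nat_lit 152) (nat_lit 24118255363) (nat_lit 0) (nat_lit 12081972607) (nat_lit 18) (nat_lit 5) (nat_lit 20) (nat_lit 4) (nat_lit 18) (nat_lit 4) (nat_lit 359) (nat_lit 313) (nat_lit 228)) (XT.lf (nat_lit 0) (nat_lit 42626898706) (nat_lit 76) (nat_lit 70173818390) (nat_lit 76) (nat_lit 6403268406) (nat_lit 17) (nat_lit 4) (nat_lit 18) (nat_lit 5) (nat_lit 18) (nat_lit 4) (nat_lit 360) (nat_lit 313) (nat_lit 227))))) (XT.nd (nat_lit 234) (nat_lit 228) (nat_lit 0) (XT.nd (nat_lit 78) (nat_lit 76) (nat_lit 0) (XT.lf (nat_lit 0) (nat_lit 25371825795) (nat_lit 152) (nat_lit 11764622836) (nat_lit 76) (nat_lit 89757144647) (nat_lit 16) (nat_lit 5) (nat_lit 18) (nat_lit 5) (nat_lit 17) (nat_lit 4) (nat_lit 361) (nat_lit 313) (nat_lit 226)) (XT.nd (nat_lit 78)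 (nat_lit 0) (nat_lit 0) (XT.lf (nat_lit 0) (nat_lit 60032851105) (nat_lit 76) (nat_lit 364985344) (nat_lit 152) (nat_lit 74748623287) (nat_lit 15) (nat_lit 5) (nat_lit 16) (nat_lit 5) (nat_lit 17) (nat_lit 4) (nat_lit 362) (nat_lit 313) (nat_lit 225)) (XT.lf (nat_lit 0) (nat_lit 99041747421) (nat_lit 152) (nat_lit 6685869089) (nat_lit 0) (nat_lit 38291149003) (nat_lit 15) (nat_lit 5) (nat_lit 17) (nat_lit 4) (nat_lit 15) (nat_lit 4) (nat_lit 363) (nat_lit 313) (nat_lit 224)))) (XT.nd (nat_lit 156) (nat_lit 76) (nat_lit 0) (XT.nd (nat_lit 78) (nat_lit 76) (nat_lit 0) (XT.lf (nat_lit 0) (nat_lit 69419669654) (nat_lit 76) (nat_lit 72441187995) (nat_lit 76) (nat_lit 11685814690) (nat_lit 14) (nat_lit 4) (nat_lit 15) (nat_lit 5) (nat_lit 15) (nat_lit 4) (nat_lit 364) (nat_lit 313) (nat_lit 223)) (XT.lf (nat_lit 0) (nat_lit 23604191070) (nat_lit 152) (nat_lit 12371202801) (nat_lit 76) (nat_lit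 127836860747) (nat_lit 13) (nat_lit 5) (nat_lit 15) (nat_lit 5) (nat_lit 14) (nat_lit 4) (nat_lit 365) (nat_lit 313) (nat_lit 222))) (XT.nd (nat_lit 78) (nat_lit 0) (nat_lit 0) (XT.lf (nat_lit 0) (nat_lit 62428358379) (nat_lit 152) (nat_lit 107847139877) (nat_lit 0) (nat_lit 4557988671) (nat_lit 12) (nat_lit 5) (nat_lit 14) (nat_lit 4) (nat_lit 12) (nat_lit 4) (nat_lit 366) (nat_lit 313) (nat_lit 221)) (XT.lf (nat_lit 0) (nat_lit 105178614511) (nat_lit 152) (nat_lit 34212161379) (nat_lit 0) (nat_lit 47304634842) (nat_lit 12) (nat_lit 5) (nat_lit 14) (nat_lit 4) (nat_lit 12) (nat_lit 4) (nat_lit 367) (nat_lit 313) (nat_lit 220))))))))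
noncomputable def xc71 : XT := (XT.nd (nat_lit 1950) (nat_lit 0) (nat_lit 0) (XT.nd (nat_lit 936) (nat_lit 228) (nat_lit 0) (XT.nd (nat_lit 468) (nat_lit 152) (nat_lit 0) (XT.nd (nat_lit 234) (nat_lit 76) (nat_lit 0) (XT.nd (nat_lit 78) (nat_lit 152) (nat_lit 0) (XT.lf (nat_lit 0) (nat_lit 46801703477) (nat_lit 76) (nat_lit 105272813272) (nat_lit 76) (nat_lit 47395491046) (nat_lit 11) (nat_lit 4) (nat_lit 12) (nat_lit 5) (nat_lit 12) (nat_lit 4) (nat_lit 368) (nat_lit 313) (nat_lit 219)) (XT.nd (nat_lit 78) (nat_lit 152) (nat_lit 0) (XT.lf (nat_lit 0) (nat_lit 135508952501) (nat_lit 76) (nat_lit 67804241378) (nat_lit 76) (nat_lit 9923824191) (nat_lit 11) (nat_lit 4) (nat_lit 12) (nat_lit 5) (nat_lit 12) (nat_lit 4) (nat_lit 369) (nat_lit 313) (nat_lit 218)) (XT.lf (nat_lit 0) (nat_lit 2811595637) (nat_lit 76) (nat_lit 26795662180) (nat_lit 152) (nat_lit 198472320215) (nat_lit 9) (nat_lit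 5) (nat_lit 10) (nat_lit 5) (nat_lit 11) (nat_lit 4) (nat_lit 370) (nat_lit 313) (nat_lit 217)))) (XT.nd (nat_lit 78) (nat_lit 76) (nat_lit 0) (XT.lf (nat_lit 0) (nat_lit 73602660370) (nat_lit 152) (nat_lit 151943075587) (nat_lit 0) (nat_lit 18473197209) (nat_lit 9) (nat_lit 5) (nat_lit 11) (nat_lit 4) (nat_lit 9) (nat_lit 4) (nat_lit 371) (nat_lit 313) (nat_lit 216)) (XT.nd (nat_lit 78) (nat_lit 76) (nat_lit 0) (XT.lf (nat_lit 0) (nat_lit 121565421787) (nat_lit 152) (nat_lit 73212010294) (nat_lit 0) (nat_lit 66433618741) (nat_lit 9) (nat_lit 5) (nat_lit 11) (nat_lit 4) (nat_lit 9) (nat_lit 4) (nat_lit 372) (nat_lit 313) (nat_lit 215)) (XT.lf (nat_lit 0) (nat_lit 12200619338) (nat_lit 76) (nat_lit 161351276978) (nat_lit 76) (nat_lit 106217307372) (nat_lit 8) (nat_lit 4) (nat_lit 9) (nat_lit 5) (nat_lit 9) (nat_lit 4) (nat_lit 373) (nat_lit 313) (nat_lit 214))))) (XT.nd (nat_lit 234) (nat_lit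 76) (nat_lit 0) (XT.nd (nat_lit 78) (nat_lit 76) (nat_lit 0) (XT.lf (nat_lit 0) (nat_lit 107053542045) (nat_lit 76) (nat_lit 123915429336) (nat_lit 76) (nat_lit 68779453655) (nat_lit 8) (nat_lit 4) (nat_lit 9) (nat_lit 5) (nat_lit 9) (nat_lit 4) (nat_lit 374) (nat_lit 313) (nat_lit 213)) (XT.nd (nat_lit 78) (nat_lit 76) (nat_lit 0) (XT.lf (nat_lit 0) (nat_lit 209488129524) (nat_lit 76) (nat_lit 83487927913) (nat_lit 76) (nat_lit 28350094756) (nat_lit 8) (nat_lit 4) (nat_lit 9) (nat_lit 5) (nat_lit 9) (nat_lit 4) (nat_lit 375) (nat_lit 313) (nat_lit 212)) (XT.lf (nat_lit 0) (nat_lit 14820323872) (nat_lit 152) (nat_lit 24757889103) (nat_lit 76) (nat_lit 305040088325) (nat_lit 7) (nat_lit 5) (nat_lit 9) (nat_lit 5) (nat_lit 8) (nat_lit 4) (nat_lit 376) (nat_lit 313) (nat_lit 211)))) (XT.nd (nat_lit 78) (nat_lit 0) (nat_lit 0) (XT.lf (nat_lit 0) (nat_lit 61719694738) (nat_lit 152) (nat_lit 298763143656)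 (nat_lit 0) (nat_lit 9204318045) (nat_lit 6) (nat_lit 5) (nat_lit 8) (nat_lit 4) (nat_lit 6) (nat_lit 4) (nat_lit 377) (nat_lit 313) (nat_lit 210)) (XT.nd (nat_lit 78) (nat_lit 0) (nat_lit 0) (XT.lf (nat_lit 0) (nat_lit 113473877882) (nat_lit 152) (nat_lit 222275402366) (nat_lit 0) (nat_lit 60957096880) (nat_lit 6) (nat_lit 5) (nat_lit 8) (nat_lit 4) (nat_lit 6) (nat_lit 4) (nat_lit 378) (nat_lit 313) (nat_lit 209)) (XT.lf (nat_lit 0) (nat_lit 169365770901) (nat_lit 152) (nat_lit 139673806442) (nat_lit 0) (nat_lit 116847689612) (nat_lit 6) (nat_lit 5) (nat_lit 8) (nat_lit 4) (nat_lit 6) (nat_lit 4) (nat_lit 379) (nat_lit 313) (nat_lit 208)))))) (XT.nd (nat_lit 468) (nat_lit 152) (nat_lit 0) (XT.nd (nat_lit 234) (nat_lit 0) (nat_lit 0) (XT.nd (nat_lit 78) (nat_lit 76) (nat_lit 0) (XT.lf (nat_lit 0) (nat_lit 229726585013) (nat_lit 152) (nat_lit 50468864944) (nat_lit 0) (nat_lit 177207299756)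 (nat_lit 6) (nat_lit 5) (nat_lit 8) (nat_lit 4) (nat_lit 6) (nat_lit 4) (nat_lit 380) (nat_lit 313) (nat_lit 207)) (XT.nd (nat_lit 78) (nat_lit 0) (nat_lit 0) (XT.lf (nat_lit 0) (nat_lit 47384648681) (nat_lit 76) (nat_lit 248269172412) (nat_lit 76) (nat_lit 195748772369) (nat_lit 5) (nat_lit 4) (nat_lit 6) (nat_lit 5) (nat_lit 6) (nat_lit 4) (nat_lit 381) (nat_lit 313) (nat_lit 206)) (XT.lf (nat_lit 0) (nat_lit 154864434844) (nat_lit 76) (nat_lit 212867786524) (nat_lit 76) (nat_lit 160346354273) (nat_lit 5) (nat_lit 4) (nat_lit 6) (nat_lit 5) (nat_lit 6) (nat_lit 4) (nat_lit 382) (nat_lit 313) (nat_lit 205)))) (XT.nd (nat_lit 78) (nat_lit 0) (nat_lit 0) (XT.lf (nat_lit 0) (nat_lit 270938682194) (nat_lit 76) (nat_lit 174636220953) (nat_lit 76) (nat_lit 122113832953) (nat_lit 5) (nat_lit 4) (nat_lit 6) (nat_lit 5) (nat_lit 6) (nat_lit 4) (nat_lit 383) (nat_lit 313) (nat_lit 204)) (XT.nd (nat_lit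 78) (nat_lit 0) (nat_lit 0) (XT.lf (nat_lit 0) (nat_lit 396295238125) (nat_lit 76) (nat_lit 133347918273) (nat_lit 76) (nat_lit 80824645320) (nat_lit 5) (nat_lit 4) (nat_lit 6) (nat_lit 5) (nat_lit 6) (nat_lit 4) (nat_lit 384) (nat_lit 313) (nat_lit 203)) (XT.lf (nat_lit 0) (nat_lit 531676956299) (nat_lit 76) (nat_lit 88758207061) (nat_lit 76) (nat_lit 36234114707) (nat_lit 5) (nat_lit 4) (nat_lit 6) (nat_lit 5) (nat_lit 6) (nat_lit 4) (nat_lit 385) (nat_lit 313) (nat_lit 202))))) (XT.nd (nat_lit 234) (nat_lit 0) (nat_lit 0) (XT.nd (nat_lit 78) (nat_lit 76) (nat_lit 0) (XT.lf (nat_lit 0) (nat_lit 11540420642) (nat_lit 152) (nat_lit 28866988740) (nat_lit 76) (nat_lit 666150235502) (nat_lit 4) (nat_lit 5) (nat_lit 6) (nat_lit 5) (nat_lit 5) (nat_lit 4) (nat_lit 386) (nat_lit 313) (nat_lit 201)) (XT.nd (nat_lit 78) (nat_lit 0) (nat_lit 0) (XT.lf (nat_lit 0) (nat_lit 63295937292) (nat_lit 152)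 (nat_lit 683768418953) (nat_lit 0) (nat_lit 13271600566) (nat_lit 3) (nat_lit 5) (nat_lit 5) (nat_lit 4) (nat_lit 3) (nat_lit 4) (nat_lit 387) (nat_lit 313) (nat_lit 200)) (XT.lf (nat_lit 0) (nat_lit 120382883250) (nat_lit 152) (nat_lit 627616174130) (nat_lit 0) (nat_lit 70357927032) (nat_lit 3) (nat_lit 5) (nat_lit 5) (nat_lit 4) (nat_lit 3) (nat_lit 4) (nat_lit 388) (nat_lit 313) (nat_lit 199)))) (XT.nd (nat_lit 156) (nat_lit 0) (nat_lit 0) (XT.nd (nat_lit 78) (nat_lit 0) (nat_lit 0) (XT.lf (nat_lit 0) (nat_lit 182035449303) (nat_lit 152) (nat_lit 566974392324) (nat_lit 0) (nat_lit 132009919481) (nat_lit 3) (nat_lit 5) (nat_lit 5) (nat_lit 4) (nat_lit 3) (nat_lit 4) (nat_lit 389) (nat_lit 313) (nat_lit 198)) (XT.lf (nat_lit 0) (nat_lit 248618983991) (nat_lit 152) (nat_lit 501483714828) (nat_lit 0) (nat_lit 198592923054) (nat_lit 3) (nat_lit 5) (nat_lit 5) (nat_lit 4) (nat_lit 3) (nat_lit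 4) (nat_lit 390) (nat_lit 313) (nat_lit 197))) (XT.nd (nat_lit 78) (nat_lit 0) (nat_lit 0) (XT.lf (nat_lit 0) (nat_lit 320528056408) (nat_lit 152) (nat_lit 430756048738) (nat_lit 0) (nat_lit 270501503698) (nat_lit 3) (nat_lit 5) (nat_lit 5) (nat_lit 4) (nat_lit 3) (nat_lit 4) (nat_lit 391) (nat_lit 313) (nat_lit 196)) (XT.lf (nat_lit 0) (nat_lit 398188794390) (nat_lit 152) (nat_lit 354372267145) (nat_lit 0) (nat_lit 348161786335) (nat_lit 3) (nat_lit 5) (nat_lit 5) (nat_lit 4) (nat_lit 3) (nat_lit 4) (nat_lit 392) (nat_lit 313) (nat_lit 195))))))) (XT.nd (nat_lit 41496) (nat_lit 0) (nat_lit 3876) (XT.nd (nat_lit 41028) (nat_lit 0) (nat_lit 7068) (XT.nd (nat_lit 40794) (nat_lit 0) (nat_lit 8664) (XT.nd (nat_lit 78) (nat_lit 0) (nat_lit 0) (XT.lf (nat_lit 0) (nat_lit 482061409719) (nat_lit 152) (nat_lit 271879725416) (nat_lit 0) (nat_lit 432033980048) (nat_lit 3) (nat_lit 5) (nat_lit 5) (nat_lit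 4) (nat_lit 3) (nat_lit 4) (nat_lit 393) (nat_lit 313) (nat_lit 194)) (XT.nd (nat_lit 40638) (nat_lit 0) (nat_lit 8664) (XT.lf (nat_lit 0) (nat_lit 572642925300) (nat_lit 152) (nat_lit 182789578860) (nat_lit 0) (nat_lit 522615105243) (nat_lit 3) (nat_lit 5) (nat_lit 5) (nat_lit 4) (nat_lit 3) (nat_lit 4) (nat_lit 394) (nat_lit 313) (nat_lit 193)) (XT.lf (nat_lit 0) (nat_lit 2020787242) (nat_lit 0) (nat_lit 2020787242) (nat_lit 684) (nat_lit 2092507513) (nat_lit 117) (nat_lit 5) (nat_lit 117) (nat_lit 3) (nat_lit 126) (nat_lit 3) (nat_lit 314) (nat_lit 314) (nat_lit 272)))) (XT.nd (nat_lit 78) (nat_lit 0) (nat_lit 76) (XT.lf (nat_lit 76) (nat_lit 1124415740) (nat_lit 0) (nat_lit 8059615574) (nat_lit 760) (nat_lit 3535347186) (nat_lit 118) (nat_lit 5) (nat_lit 117) (nat_lit 5) (nat_lit 127) (nat_lit 5) (nat_lit 315) (nat_lit 314) (nat_lit 271)) (XT.nd (nat_lit 78) (nat_lit 0) (nat_lit 0) (XT.lf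 (nat_lit 0) (nat_lit 10528642966) (nat_lit 684) (nat_lit 1806299738) (nat_lit 760) (nat_lit 864027979) (nat_lit 118) (nat_lit 5) (nat_lit 127) (nat_lit 5) (nat_lit 128) (nat_lit 5) (nat_lit 316) (nat_lit 314) (nat_lit 270)) (XT.lf (nat_lit 76) (nat_lit 8873266042) (nat_lit 0) (nat_lit 3318869362) (nat_lit 760) (nat_lit 1514287998) (nat_lit 119) (nat_lit 5) (nat_lit 118) (nat_lit 5) (nat_lit 128) (nat_lit 5) (nat_lit 317) (nat_lit 314) (nat_lit 269))))) (XT.nd (nat_lit 234) (nat_lit 1064) (nat_lit 0) (XT.nd (nat_lit 78) (nat_lit 684) (nat_lit 0) (XT.lf (nat_lit 76) (nat_lit 6277114233) (nat_lit 0) (nat_lit 7883057232) (nat_lit 760) (nat_lit 85782062) (nat_lit 120) (nat_lit 5) (nat_lit 119) (nat_lit 5) (nat_lit 129) (nat_lit 5) (nat_lit 318) (nat_lit 314) (nat_lit 268)) (XT.nd (nat_lit 78) (nat_lit 0) (nat_lit 0) (XT.lf (nat_lit 0) (nat_lit 1584688852) (nat_lit 760) (nat_lit 11234575813) (nat_lit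 836) (nat_lit 1999576088) (nat_lit 110) (nat_lit 5) (nat_lit 120) (nat_lit 5) (nat_lit 121) (nat_lit 5) (nat_lit 319) (nat_lit 314) (nat_lit 267)) (XT.lf (nat_lit 76) (nat_lit 760271636) (nat_lit 0) (nat_lit 2859196187) (nat_lit 836) (nat_lit 11806381453) (nat_lit 111) (nat_lit 5) (nat_lit 110) (nat_lit 5) (nat_lit 121) (nat_lit 5) (nat_lit 320) (nat_lit 314) (nat_lit 266)))) (XT.nd (nat_lit 78) (nat_lit 1140) (nat_lit 0) (XT.lf (nat_lit 0) (nat_lit 6090347961) (nat_lit 760) (nat_lit 2125984948) (nat_lit 76) (nat_lit 7851460759) (nat_lit 111) (nat_lit 5) (nat_lit 121) (nat_lit 5) (nat_lit 112) (nat_lit 5) (nat_lit 321) (nat_lit 314) (nat_lit 265)) (XT.nd (nat_lit 78) (nat_lit 380) (nat_lit 0) (XT.lf (nat_lit 0) (nat_lit 8987610511) (nat_lit 836) (nat_lit 5092278552) (nat_lit 76) (nat_lit 2669807030) (nat_lit 101) (nat_lit 5) (nat_lit 112) (nat_lit 5) (nat_lit 102) (nat_lit 5) (nat_lit 322)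 (nat_lit 314) (nat_lit 264)) (XT.lf (nat_lit 0) (nat_lit 9251104869) (nat_lit 380) (nat_lit 3143704079) (nat_lit 456) (nat_lit 5077469281) (nat_lit 96) (nat_lit 5) (nat_lit 101) (nat_lit 5) (nat_lit 102) (nat_lit 5) (nat_lit 323) (nat_lit 314) (nat_lit 263)))))) (XT.nd (nat_lit 468) (nat_lit 1520) (nat_lit 0) (XT.nd (nat_lit 234) (nat_lit 608) (nat_lit 0) (XT.nd (nat_lit 78) (nat_lit 760) (nat_lit 0) (XT.lf (nat_lit 0) (nat_lit 6712422575) (nat_lit 304) (nat_lit 9652522991) (nat_lit 380) (nat_lit 1873235905) (nat_lit 92) (nat_lit 5) (nat_lit 96) (nat_lit 5) (nat_lit 97) (nat_lit 5) (nat_lit 324) (nat_lit 314) (nat_lit 262)) (XT.nd (nat_lit 78) (nat_lit 304) (nat_lit 0) (XT.lf (nat_lit 0) (nat_lit 1796972784) (nat_lit 456) (nat_lit 15003234169) (nat_lit 76) (nat_lit 2250917608) (nat_lit 86) (nat_lit 5) (nat_lit 92) (nat_lit 5) (nat_lit 87) (nat_lit 5) (nat_lit 325) (nat_lit 314) (nat_lit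 261)) (XT.lf (nat_lit 0) (nat_lit 1158671919) (nat_lit 304) (nat_lit 4886242034) (nat_lit 380) (nat_lit 13865193122) (nat_lit 82) (nat_lit 5) (nat_lit 86) (nat_lit 5) (nat_lit 87) (nat_lit 5) (nat_lit 326) (nat_lit 314) (nat_lit 260)))) (XT.nd (nat_lit 78) (nat_lit 608) (nat_lit 0) (XT.lf (nat_lit 0) (nat_lit 10988864423) (nat_lit 380) (nat_lit 1844938085) (nat_lit 76) (nat_lit 7986221667) (nat_lit 82) (nat_lit 5) (nat_lit 87) (nat_lit 5) (nat_lit 83) (nat_lit 5) (nat_lit 327) (nat_lit 314) (nat_lit 259)) (XT.nd (nat_lit 78) (nat_lit 304) (nat_lit 0) (XT.lf (nat_lit 0) (nat_lit 16644972384) (nat_lit 380) (nat_lit 4957203378) (nat_lit 76) (nat_lit 184749663) (nat_lit 78) (nat_lit 5) (nat_lit 83) (nat_lit 5) (nat_lit 79) (nat_lit 5) (nat_lit 328) (nat_lit 314) (nat_lit 258)) (XT.lf (nat_lit 0) (nat_lit 376840008) (nat_lit 304) (nat_lit 8372424200) (nat_lit 76) (nat_lit 14059397018) (nat_lit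 74) (nat_lit 5) (nat_lit 78) (nat_lit 5) (nat_lit 75) (nat_lit 5) (nat_lit 329) (nat_lit 314) (nat_lit 257))))) (XT.nd (nat_lit 234) (nat_lit 760) (nat_lit 0) (XT.nd (nat_lit 78) (nat_lit 456) (nat_lit 0) (XT.lf (nat_lit 0) (nat_lit 6490276546) (nat_lit 380) (nat_lit 12074869131) (nat_lit 76) (nat_lit 5326129707) (nat_lit 70) (nat_lit 5) (nat_lit 75) (nat_lit 5) (nat_lit 71) (nat_lit 5) (nat_lit 330) (nat_lit 314) (nat_lit 256)) (XT.nd (nat_lit 78) (nat_lit 228) (nat_lit 0) (XT.lf (nat_lit 0) (nat_lit 8966820718) (nat_lit 228) (nat_lit 4534490686) (nat_lit 304) (nat_lit 11538778383) (nat_lit 67) (nat_lit 5) (nat_lit 70) (nat_lit 5) (nat_lit 71) (nat_lit 5) (nat_lit 331) (nat_lit 314) (nat_lit 255)) (XT.lf (nat_lit 0) (nat_lit 5834292282) (nat_lit 228) (nat_lit 15683695298) (nat_lit 304) (nat_lit 4740599834) (nat_lit 64) (nat_lit 5) (nat_lit 67) (nat_lit 5) (nat_lit 68) (nat_lit 5) (nat_lit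 332) (nat_lit 314) (nat_lit 254)))) (XT.nd (nat_lit 156) (nat_lit 456) (nat_lit 0) (XT.nd (nat_lit 78) (nat_lit 0) (nat_lit 0) (XT.lf (nat_lit 0) (nat_lit 2428706418) (nat_lit 228) (nat_lit 463482513) (nat_lit 304) (nat_lit 24661658345) (nat_lit 60) (nat_lit 5) (nat_lit 63) (nat_lit 5) (nat_lit 64) (nat_lit 5) (nat_lit 333) (nat_lit 314) (nat_lit 253)) (XT.lf (nat_lit 0) (nat_lit 11558975612) (nat_lit 304) (nat_lit 1465549653) (nat_lit 76) (nat_lit 15894856871) (nat_lit 60) (nat_lit 5) (nat_lit 64) (nat_lit 5) (nat_lit 61) (nat_lit 5) (nat_lit 334) (nat_lit 314) (nat_lit 252))) (XT.nd (nat_lit 78) (nat_lit 228) (nat_lit 0) (XT.lf (nat_lit 0) (nat_lit 21348173135) (nat_lit 304) (nat_lit 5588970040) (nat_lit 76) (nat_lit 3435575311) (nat_lit 57) (nat_lit 5) (nat_lit 61) (nat_lit 5) (nat_lit 58) (nat_lit 5) (nat_lit 335) (nat_lit 314) (nat_lit 251)) (XT.lf (nat_lit 0) (nat_lit 551242389) (nat_lit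 228) (nat_lit 10236375024) (nat_lit 76) (nat_lit 21126114055) (nat_lit 54) (nat_lit 5) (nat_lit 57) (nat_lit 5) (nat_lit 55) (nat_lit 5) (nat_lit 336) (nat_lit 314) (nat_lit 250))))))))
noncomputable def xc72 : XT := (XT.nd (nat_lit 1872) (nat_lit 988) (nat_lit 0) (XT.nd (nat_lit 936) (nat_lit 988) (nat_lit 0) (XT.nd (nat_lit 468) (nat_lit 836) (nat_lit 0) (XT.nd (nat_lit 234) (nat_lit 380) (nat_lit 0) (XT.nd (nat_lit 78) (nat_lit 304) (nat_lit 0) (XT.lf (nat_lit 0) (nat_lit 11055640816) (nat_lit 304) (nat_lit 15517292316) (nat_lit 76) (nat_lit 6973768877) (nat_lit 51) (nat_lit 5) (nat_lit 55) (nat_lit 5) (nat_lit 52) (nat_lit 5) (nat_lit 337) (nat_lit 314) (nat_lit 249)) (XT.nd (nat_lit 78) (nat_lit 152) (nat_lit 0) (XT.lf (nat_lit 0) (nat_lit 13848591519) (nat_lit 152) (nat_lit 9111755674) (nat_lit 228) (nat_lit 12321974341) (nat_lit 49) (nat_lit 5) (nat_lit 51) (nat_lit 5) (nat_lit 52)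 (nat_lit 5) (nat_lit 338) (nat_lit 314) (nat_lit 248)) (XT.lf (nat_lit 0) (nat_lit 9078696865) (nat_lit 152) (nat_lit 27288799514) (nat_lit 228) (nat_lit 761799395) (nat_lit 47) (nat_lit 5) (nat_lit 49) (nat_lit 5) (nat_lit 50) (nat_lit 5) (nat_lit 339) (nat_lit 314) (nat_lit 247)))) (XT.nd (nat_lit 78) (nat_lit 152) (nat_lit 0) (XT.lf (nat_lit 0) (nat_lit 3429966149) (nat_lit 152) (nat_lit 8486738638) (nat_lit 228) (nat_lit 27169742515) (nat_lit 44) (nat_lit 5) (nat_lit 46) (nat_lit 5) (nat_lit 47) (nat_lit 5) (nat_lit 340) (nat_lit 314) (nat_lit 246)) (XT.nd (nat_lit 78) (nat_lit 152) (nat_lit 0) (XT.lf (nat_lit 0) (nat_lit 26247105234) (nat_lit 228) (nat_lit 2979069130) (nat_lit 76) (nat_lit 11940163793) (nat_lit 44) (nat_lit 5) (nat_lit 47) (nat_lit 5) (nat_lit 45) (nat_lit 5) (nat_lit 341) (nat_lit 314) (nat_lit 245)) (XT.lf (nat_lit 0) (nat_lit 33205750581) (nat_lit 152) (nat_lit 9163779415)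 (nat_lit 228) (nat_lit 1010817073) (nat_lit 42) (nat_lit 5) (nat_lit 44) (nat_lit 5) (nat_lit 45) (nat_lit 5) (nat_lit 342) (nat_lit 314) (nat_lit 244))))) (XT.nd (nat_lit 234) (nat_lit 380) (nat_lit 0) (XT.nd (nat_lit 78) (nat_lit 228) (nat_lit 0) (XT.lf (nat_lit 0) (nat_lit 14231107934) (nat_lit 228) (nat_lit 18694302785) (nat_lit 76) (nat_lit 12801672035) (nat_lit 39) (nat_lit 5) (nat_lit 42) (nat_lit 5) (nat_lit 40) (nat_lit 5) (nat_lit 343) (nat_lit 314) (nat_lit 243)) (XT.nd (nat_lit 78) (nat_lit 76) (nat_lit 0) (XT.lf (nat_lit 0) (nat_lit 19760062648) (nat_lit 152) (nat_lit 11525737793) (nat_lit 228) (nat_lit 16943492160) (nat_lit 37) (nat_lit 5) (nat_lit 39) (nat_lit 5) (nat_lit 40) (nat_lit 5) (nat_lit 344) (nat_lit 314) (nat_lit 242)) (XT.lf (nat_lit 0) (nat_lit 11190124724) (nat_lit 76) (nat_lit 39187069992) (nat_lit 152) (nat_lit 520873044) (nat_lit 36) (nat_lit 5) (nat_lit 37)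 (nat_lit 5) (nat_lit 38) (nat_lit 4) (nat_lit 345) (nat_lit 314) (nat_lit 241)))) (XT.nd (nat_lit 78) (nat_lit 152) (nat_lit 0) (XT.lf (nat_lit 0) (nat_lit 813965085) (nat_lit 152) (nat_lit 16547890803) (nat_lit 228) (nat_lit 36370188877) (nat_lit 33) (nat_lit 5) (nat_lit 35) (nat_lit 5) (nat_lit 36) (nat_lit 5) (nat_lit 346) (nat_lit 314) (nat_lit 240)) (XT.nd (nat_lit 78) (nat_lit 152) (nat_lit 0) (XT.lf (nat_lit 0) (nat_lit 37470315884) (nat_lit 228) (nat_lit 10929663829) (nat_lit 76) (nat_lit 8351669144) (nat_lit 33) (nat_lit 5) (nat_lit 36) (nat_lit 5) (nat_lit 34) (nat_lit 4) (nat_lit 347) (nat_lit 314) (nat_lit 239)) (XT.lf (nat_lit 0) (nat_lit 31436371) (nat_lit 152) (nat_lit 24727467353) (nat_lit 76) (nat_lit 35213045953) (nat_lit 31) (nat_lit 5) (nat_lit 33) (nat_lit 5) (nat_lit 32) (nat_lit 5) (nat_lit 348) (nat_lit 314) (nat_lit 238)))))) (XT.nd (nat_lit 468) (nat_lit 456) (nat_lit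 0) (XT.nd (nat_lit 234) (nat_lit 304) (nat_lit 0) (XT.nd (nat_lit 78) (nat_lit 76) (nat_lit 0) (XT.lf (nat_lit 0) (nat_lit 20780711749) (nat_lit 228) (nat_lit 41002306645) (nat_lit 76) (nat_lit 1622704601) (nat_lit 29) (nat_lit 5) (nat_lit 32) (nat_lit 5) (nat_lit 30) (nat_lit 4) (nat_lit 349) (nat_lit 314) (nat_lit 237)) (XT.nd (nat_lit 78) (nat_lit 0) (nat_lit 0) (XT.lf (nat_lit 0) (nat_lit 6869653835) (nat_lit 76) (nat_lit 37271318471) (nat_lit 152) (nat_lit 22925676703) (nat_lit 28) (nat_lit 5) (nat_lit 29) (nat_lit 5) (nat_lit 30) (nat_lit 4) (nat_lit 350) (nat_lit 314) (nat_lit 236)) (XT.lf (nat_lit 0) (nat_lit 60015658380) (nat_lit 76) (nat_lit 10057680036) (nat_lit 152) (nat_lit 911949217) (nat_lit 28) (nat_lit 5) (nat_lit 29) (nat_lit 5) (nat_lit 30) (nat_lit 4) (nat_lit 351) (nat_lit 314) (nat_lit 235)))) (XT.nd (nat_lit 78) (nat_lit 76) (nat_lit 0) (XT.lf (nat_lit 0) (nat_lit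 23113954981) (nat_lit 228) (nat_lit 32282006210) (nat_lit 76) (nat_lit 19754469252) (nat_lit 25) (nat_lit 5) (nat_lit 28) (nat_lit 5) (nat_lit 26) (nat_lit 4) (nat_lit 352) (nat_lit 314) (nat_lit 234)) (XT.nd (nat_lit 78) (nat_lit 0) (nat_lit 0) (XT.lf (nat_lit 0) (nat_lit 22272457756) (nat_lit 76) (nat_lit 27459543157) (nat_lit 152) (nat_lit 29880937540) (nat_lit 24) (nat_lit 5) (nat_lit 25) (nat_lit 5) (nat_lit 26) (nat_lit 4) (nat_lit 353) (nat_lit 314) (nat_lit 233)) (XT.lf (nat_lit 0) (nat_lit 79083767383) (nat_lit 152) (nat_lit 2129696923) (nat_lit 0) (nat_lit 3188771048) (nat_lit 24) (nat_lit 5) (nat_lit 26) (nat_lit 4) (nat_lit 24) (nat_lit 4) (nat_lit 354) (nat_lit 314) (nat_lit 232))))) (XT.nd (nat_lit 234) (nat_lit 228) (nat_lit 0) (XT.nd (nat_lit 78) (nat_lit 76) (nat_lit 0) (XT.lf (nat_lit 0) (nat_lit 21926467106) (nat_lit 152) (nat_lit 30955969836) (nat_lit 76) (nat_lit 36605869893)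 (nat_lit 22) (nat_lit 5) (nat_lit 24) (nat_lit 5) (nat_lit 23) (nat_lit 4) (nat_lit 355) (nat_lit 314) (nat_lit 231)) (XT.nd (nat_lit 78) (nat_lit 0) (nat_lit 0) (XT.lf (nat_lit 0) (nat_lit 29997688874) (nat_lit 76) (nat_lit 21666891366) (nat_lit 152) (nat_lit 43287330281) (nat_lit 21) (nat_lit 5) (nat_lit 22) (nat_lit 5) (nat_lit 23) (nat_lit 4) (nat_lit 356) (nat_lit 314) (nat_lit 230)) (XT.lf (nat_lit 0) (nat_lit 84509543233) (nat_lit 152) (nat_lit 4105196255) (nat_lit 0) (nat_lit 12201474555) (nat_lit 21) (nat_lit 5) (nat_lit 23) (nat_lit 4) (nat_lit 21) (nat_lit 4) (nat_lit 357) (nat_lit 314) (nat_lit 229)))) (XT.nd (nat_lit 78) (nat_lit 76) (nat_lit 0) (XT.lf (nat_lit 0) (nat_lit 13789004294) (nat_lit 152) (nat_lit 44048344878) (nat_lit 76) (nat_lit 49233932492) (nat_lit 19) (nat_lit 5) (nat_lit 21) (nat_lit 5) (nat_lit 20) (nat_lit 4) (nat_lit 358) (nat_lit 314) (nat_lit 228)) (XT.nd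 (nat_lit 78) (nat_lit 0) (nat_lit 0) (XT.lf (nat_lit 0) (nat_lit 22267124983) (nat_lit 76) (nat_lit 23874382677) (nat_lit 152) (nat_lit 67650858174) (nat_lit 18) (nat_lit 5) (nat_lit 19) (nat_lit 5) (nat_lit 20) (nat_lit 4) (nat_lit 359) (nat_lit 314) (nat_lit 227)) (XT.lf (nat_lit 0) (nat_lit 82054767079) (nat_lit 152) (nat_lit 25778306692) (nat_lit 0) (nat_lit 13169436374) (nat_lit 18) (nat_lit 5) (nat_lit 20) (nat_lit 4) (nat_lit 18) (nat_lit 4) (nat_lit 360) (nat_lit 314) (nat_lit 226))))))) (XT.nd (nat_lit 936) (nat_lit 304) (nat_lit 0) (XT.nd (nat_lit 468) (nat_lit 304) (nat_lit 0) (XT.nd (nat_lit 234) (nat_lit 152) (nat_lit 0) (XT.nd (nat_lit 78) (nat_lit 152) (nat_lit 0) (XT.lf (nat_lit 0) (nat_lit 46294751511) (nat_lit 76) (nat_lit 75664980970) (nat_lit 76) (nat_lit 6773802364) (nat_lit 17) (nat_lit 4) (nat_lit 18) (nat_lit 5) (nat_lit 18) (nat_lit 4) (nat_lit 361) (nat_lit 314)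 (nat_lit 225)) (XT.nd (nat_lit 78) (nat_lit 76) (nat_lit 0) (XT.lf (nat_lit 0) (nat_lit 27528600884) (nat_lit 152) (nat_lit 12462961513) (nat_lit 76) (nat_lit 97047147847) (nat_lit 16) (nat_lit 5) (nat_lit 18) (nat_lit 5) (nat_lit 17) (nat_lit 4) (nat_lit 362) (nat_lit 314) (nat_lit 224)) (XT.lf (nat_lit 0) (nat_lit 65067757197) (nat_lit 76) (nat_lit 283152147) (nat_lit 152) (nat_lit 80601187238) (nat_lit 15) (nat_lit 5) (nat_lit 16) (nat_lit 5) (nat_lit 17) (nat_lit 4) (nat_lit 363) (nat_lit 314) (nat_lit 223)))) (XT.nd (nat_lit 78) (nat_lit 152) (nat_lit 0) (XT.lf (nat_lit 0) (nat_lit 107078957122) (nat_lit 152) (nat_lit 7001641936) (nat_lit 0) (nat_lit 41453957874) (nat_lit 15) (nat_lit 5) (nat_lit 17) (nat_lit 4) (nat_lit 15) (nat_lit 4) (nat_lit 364) (nat_lit 314) (nat_lit 222)) (XT.nd (nat_lit 78) (nat_lit 76) (nat_lit 0) (XT.lf (nat_lit 0) (nat_lit 75182818232) (nat_lit 76) (nat_lit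 78135615182) (nat_lit 76) (nat_lit 12506522237) (nat_lit 14) (nat_lit 4) (nat_lit 15) (nat_lit 5) (nat_lit 15) (nat_lit 4) (nat_lit 365) (nat_lit 314) (nat_lit 221)) (XT.lf (nat_lit 0) (nat_lit 25594844755) (nat_lit 152) (nat_lit 13163451655) (nat_lit 76) (nat_lit 138153809327) (nat_lit 13) (nat_lit 5) (nat_lit 15) (nat_lit 5) (nat_lit 14) (nat_lit 4) (nat_lit 366) (nat_lit 314) (nat_lit 220))))) (XT.nd (nat_lit 234) (nat_lit 152) (nat_lit 0) (XT.nd (nat_lit 78) (nat_lit 76) (nat_lit 0) (XT.lf (nat_lit 0) (nat_lit 67521738597) (nat_lit 152) (nat_lit 116282571328) (nat_lit 0) (nat_lit 5010888036) (nat_lit 12) (nat_lit 5) (nat_lit 14) (nat_lit 4) (nat_lit 12) (nat_lit 4) (nat_lit 367) (nat_lit 314) (nat_lit 219)) (XT.nd (nat_lit 78) (nat_lit 76) (nat_lit 0) (XT.lf (nat_lit 0) (nat_lit 113684673624) (nat_lit 152) (nat_lit 36771041938) (nat_lit 0) (nat_lit 51170728102) (nat_lit 12) (nat_lit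 5) (nat_lit 14) (nat_lit 4) (nat_lit 12) (nat_lit 4) (nat_lit 368) (nat_lit 314) (nat_lit 218)) (XT.lf (nat_lit 0) (nat_lit 50716192429) (nat_lit 76) (nat_lit 113611917519) (nat_lit 76) (nat_lit 51095106294) (nat_lit 11) (nat_lit 4) (nat_lit 12) (nat_lit 5) (nat_lit 12) (nat_lit 4) (nat_lit 369) (nat_lit 314) (nat_lit 217)))) (XT.nd (nat_lit 78) (nat_lit 152) (nat_lit 0) (XT.lf (nat_lit 0) (nat_lit 146507402659) (nat_lit 76) (nat_lit 73151987341) (nat_lit 76) (nat_lit 10632522686) (nat_lit 11) (nat_lit 4) (nat_lit 12) (nat_lit 5) (nat_lit 12) (nat_lit 4) (nat_lit 370) (nat_lit 314) (nat_lit 216)) (XT.nd (nat_lit 78) (nat_lit 0) (nat_lit 0) (XT.lf (nat_lit 0) (nat_lit 3190019898) (nat_lit 76) (nat_lit 28864585678) (nat_lit 152) (nat_lit 214267391702) (nat_lit 9) (nat_lit 5) (nat_lit 10) (nat_lit 5) (nat_lit 11) (nat_lit 4) (nat_lit 371) (nat_lit 314) (nat_lit 215)) (XT.lf (nat_lit 0) (nat_lit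 79564886042) (nat_lit 152) (nat_lit 163953820828) (nat_lit 0) (nat_lit 20018032307) (nat_lit 9) (nat_lit 5) (nat_lit 11) (nat_lit 4) (nat_lit 9) (nat_lit 4) (nat_lit 372) (nat_lit 314) (nat_lit 214)))))) (XT.nd (nat_lit 468) (nat_lit 76) (nat_lit 0) (XT.nd (nat_lit 234) (nat_lit 152) (nat_lit 0) (XT.nd (nat_lit 78) (nat_lit 76) (nat_lit 0) (XT.lf (nat_lit 0) (nat_lit 131359185939) (nat_lit 152) (nat_lit 78934988889) (nat_lit 0) (nat_lit 71810326130) (nat_lit 9) (nat_lit 5) (nat_lit 11) (nat_lit 4) (nat_lit 9) (nat_lit 4) (nat_lit 373) (nat_lit 314) (nat_lit 213)) (XT.nd (nat_lit 78) (nat_lit 0) (nat_lit 0) (XT.lf (nat_lit 0) (nat_lit 13304828409) (nat_lit 76) (nat_lit 174196674625) (nat_lit 76) (nat_lit 114645957340) (nat_lit 8) (nat_lit 4) (nat_lit 9) (nat_lit 5) (nat_lit 9) (nat_lit 4) (nat_lit 374) (nat_lit 314) (nat_lit 212)) (XT.lf (nat_lit 0) (nat_lit 115736491634) (nat_lit 76) (nat_lit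 133770603949) (nat_lit 76) (nat_lit 74218166779) (nat_lit 8) (nat_lit 4) (nat_lit 9) (nat_lit 5) (nat_lit 9) (nat_lit 4) (nat_lit 375) (nat_lit 314) (nat_lit 211)))) (XT.nd (nat_lit 78) (nat_lit 152) (nat_lit 0) (XT.lf (nat_lit 0) (nat_lit 226357056021) (nat_lit 76) (nat_lit 90113203134) (nat_lit 76) (nat_lit 30559173477) (nat_lit 8) (nat_lit 4) (nat_lit 9) (nat_lit 5) (nat_lit 9) (nat_lit 4) (nat_lit 376) (nat_lit 314) (nat_lit 210)) (XT.nd (nat_lit 78) (nat_lit 76) (nat_lit 0) (XT.lf (nat_lit 0) (nat_lit 16058767160) (nat_lit 152) (nat_lit 26635031502) (nat_lit 76) (nat_lit 329491320687) (nat_lit 7) (nat_lit 5) (nat_lit 9) (nat_lit 5) (nat_lit 8) (nat_lit 4) (nat_lit 377) (nat_lit 314) (nat_lit 209)) (XT.lf (nat_lit 0) (nat_lit 66708478685) (nat_lit 152) (nat_lit 322563434443) (nat_lit 0) (nat_lit 9987650607) (nat_lit 6) (nat_lit 5) (nat_lit 8) (nat_lit 4) (nat_lit 6) (nat_lit 4) (nat_lit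 378) (nat_lit 314) (nat_lit 208))))) (XT.nd (nat_lit 234) (nat_lit 76) (nat_lit 0) (XT.nd (nat_lit 78) (nat_lit 0) (nat_lit 0) (XT.lf (nat_lit 0) (nat_lit 122599203267) (nat_lit 152) (nat_lit 239964137606) (nat_lit 0) (nat_lit 65877171221) (nat_lit 6) (nat_lit 5) (nat_lit 8) (nat_lit 4) (nat_lit 6) (nat_lit 4) (nat_lit 379) (nat_lit 314) (nat_lit 207)) (XT.nd (nat_lit 78) (nat_lit 0) (nat_lit 0) (XT.lf (nat_lit 0) (nat_lit 182958935494) (nat_lit 152) (nat_lit 150761324893) (nat_lit 0) (nat_lit 126235788662) (nat_lit 6) (nat_lit 5) (nat_lit 8) (nat_lit 4) (nat_lit 6) (nat_lit 4) (nat_lit 380) (nat_lit 314) (nat_lit 206)) (XT.lf (nat_lit 0) (nat_lit 248145362667) (nat_lit 152) (nat_lit 54426387043) (nat_lit 0) (nat_lit 191421183626) (nat_lit 6) (nat_lit 5) (nat_lit 8) (nat_lit 4) (nat_lit 6) (nat_lit 4) (nat_lit 381) (nat_lit 314) (nat_lit 205)))) (XT.nd (nat_lit 156) (nat_lit 0) (nat_lit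 0) (XT.nd (nat_lit 78) (nat_lit 0) (nat_lit 0) (XT.lf (nat_lit 0) (nat_lit 51251931531) (nat_lit 76) (nat_lit 268093029479) (nat_lit 76) (nat_lit 211367894689) (nat_lit 5) (nat_lit 4) (nat_lit 6) (nat_lit 5) (nat_lit 6) (nat_lit 4) (nat_lit 382) (nat_lit 314) (nat_lit 204)) (XT.lf (nat_lit 0) (nat_lit 167324433108) (nat_lit 76) (nat_lit 229862323589) (nat_lit 76) (nat_lit 173136303846) (nat_lit 5) (nat_lit 4) (nat_lit 6) (nat_lit 5) (nat_lit 6) (nat_lit 4) (nat_lit 383) (nat_lit 314) (nat_lit 203))) (XT.nd (nat_lit 78) (nat_lit 0) (nat_lit 0) (XT.lf (nat_lit 0) (nat_lit 292679372582) (nat_lit 76) (nat_lit 188574816910) (nat_lit 76) (nat_lit 131847977767) (nat_lit 5) (nat_lit 4) (nat_lit 6) (nat_lit 5) (nat_lit 6) (nat_lit 4) (nat_lit 384) (nat_lit 314) (nat_lit 202)) (XT.lf (nat_lit 0) (nat_lit 428059594038) (nat_lit 76) (nat_lit 143985842735) (nat_lit 76) (nat_lit 87258244888) (nat_lit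 5) (nat_lit 4) (nat_lit 6) (nat_lit 5) (nat_lit 6) (nat_lit 4) (nat_lit 385) (nat_lit 314) (nat_lit 201))))))))
noncomputable def xc73 : XT := (XT.nd (nat_lit 42588) (nat_lit 0) (nat_lit 1596) (XT.nd (nat_lit 41574) (nat_lit 0) (nat_lit 5396) (XT.nd (nat_lit 468) (nat_lit 0) (nat_lit 0) (XT.nd (nat_lit 234) (nat_lit 0) (nat_lit 0) (XT.nd (nat_lit 78) (nat_lit 152) (nat_lit 0) (XT.lf (nat_lit 0) (nat_lit 574267350639) (nat_lit 76) (nat_lit 95831170107) (nat_lit 76) (nat_lit 39102869756) (nat_lit 5) (nat_lit 4) (nat_lit 6) (nat_lit 5) (nat_lit 6) (nat_lit 4) (nat_lit 386) (nat_lit 314) (nat_lit 200)) (XT.nd (nat_lit 78) (nat_lit 76) (nat_lit 0) (XT.lf (nat_lit 0) (nat_lit 12490519820) (nat_lit 152) (nat_lit 31123385186) (nat_lit 76) (nat_lit 719467005905) (nat_lit 4) (nat_lit 5) (nat_lit 6) (nat_lit 5) (nat_lit 5) (nat_lit 4) (nat_lit 387) (nat_lit 314) (nat_lit 199)) (XT.lf (nat_lit 0) (nat_lit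 68385668957) (nat_lit 152) (nat_lit 738418336302) (nat_lit 0) (nat_lit 14357523145) (nat_lit 3) (nat_lit 5) (nat_lit 5) (nat_lit 4) (nat_lit 3) (nat_lit 4) (nat_lit 388) (nat_lit 314) (nat_lit 198)))) (XT.nd (nat_lit 78) (nat_lit 0) (nat_lit 0) (XT.lf (nat_lit 0) (nat_lit 130037640467) (nat_lit 152) (nat_lit 677777730868) (nat_lit 0) (nat_lit 76008963540) (nat_lit 3) (nat_lit 5) (nat_lit 5) (nat_lit 4) (nat_lit 3) (nat_lit 4) (nat_lit 389) (nat_lit 314) (nat_lit 197)) (XT.nd (nat_lit 78) (nat_lit 0) (nat_lit 0) (XT.lf (nat_lit 0) (nat_lit 196620624652) (nat_lit 152) (nat_lit 612288142606) (nat_lit 0) (nat_lit 142591455952) (nat_lit 3) (nat_lit 5) (nat_lit 5) (nat_lit 4) (nat_lit 3) (nat_lit 4) (nat_lit 390) (nat_lit 314) (nat_lit 196)) (XT.lf (nat_lit 0) (nat_lit 268529187344) (nat_lit 152) (nat_lit 541561485066) (nat_lit 0) (nat_lit 214499563299) (nat_lit 3) (nat_lit 5) (nat_lit 5) (nat_lit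 4) (nat_lit 3) (nat_lit 4) (nat_lit 391) (nat_lit 314) (nat_lit 195))))) (XT.nd (nat_lit 40872) (nat_lit 0) (nat_lit 8664) (XT.nd (nat_lit 78) (nat_lit 0) (nat_lit 0) (XT.lf (nat_lit 0) (nat_lit 346189453359) (nat_lit 152) (nat_lit 465178637315) (nat_lit 0) (nat_lit 292159407698) (nat_lit 3) (nat_lit 5) (nat_lit 5) (nat_lit 4) (nat_lit 3) (nat_lit 4) (nat_lit 392) (nat_lit 314) (nat_lit 194)) (XT.nd (nat_lit 78) (nat_lit 0) (nat_lit 0) (XT.lf (nat_lit 0) (nat_lit 430061631681) (nat_lit 152) (nat_lit 382686960255) (nat_lit 0) (nat_lit 376031195635) (nat_lit 3) (nat_lit 5) (nat_lit 5) (nat_lit 4) (nat_lit 3) (nat_lit 4) (nat_lit 393) (nat_lit 314) (nat_lit 193)) (XT.lf (nat_lit 0) (nat_lit 520642742625) (nat_lit 152) (nat_lit 293597614318) (nat_lit 0) (nat_lit 466611945112) (nat_lit 3) (nat_lit 5) (nat_lit 5) (nat_lit 4) (nat_lit 3) (nat_lit 4) (nat_lit 394) (nat_lit 314) (nat_lit 192))))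 (XT.nd (nat_lit 78) (nat_lit 0) (nat_lit 0) (XT.lf (nat_lit 0) (nat_lit 2516774957) (nat_lit 0) (nat_lit 2516774957) (nat_lit 684) (nat_lit 1557207186) (nat_lit 117) (nat_lit 5) (nat_lit 117) (nat_lit 3) (nat_lit 126) (nat_lit 3) (nat_lit 315) (nat_lit 315) (nat_lit 270)) (XT.nd (nat_lit 78) (nat_lit 0) (nat_lit 76) (XT.lf (nat_lit 76) (nat_lit 1929088828) (nat_lit 0) (nat_lit 9229397336) (nat_lit 760) (nat_lit 2515309734) (nat_lit 118) (nat_lit 5) (nat_lit 117) (nat_lit 5) (nat_lit 127) (nat_lit 5) (nat_lit 316) (nat_lit 315) (nat_lit 269)) (XT.lf (nat_lit 0) (nat_lit 12511244985) (nat_lit 684) (nat_lit 1222979988) (nat_lit 760) (nat_lit 462586479) (nat_lit 118) (nat_lit 5) (nat_lit 127) (nat_lit 5) (nat_lit 128) (nat_lit 5) (nat_lit 317) (nat_lit 315) (nat_lit 268)))))) (XT.nd (nat_lit 468) (nat_lit 2052) (nat_lit 0) (XT.nd (nat_lit 234) (nat_lit 608) (nat_lit 0) (XT.nd (nat_lit 78) (nat_lit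 684) (nat_lit 0) (XT.lf (nat_lit 76) (nat_lit 10279320722) (nat_lit 0) (nat_lit 3954898175) (nat_lit 760) (nat_lit 514400006) (nat_lit 119) (nat_lit 5) (nat_lit 118) (nat_lit 5) (nat_lit 128) (nat_lit 5) (nat_lit 318) (nat_lit 315) (nat_lit 267)) (XT.nd (nat_lit 78) (nat_lit 0) (nat_lit 76) (XT.lf (nat_lit 0) (nat_lit 921125824) (nat_lit 760) (nat_lit 7847182716) (nat_lit 836) (nat_lit 6565986718) (nat_lit 109) (nat_lit 5) (nat_lit 119) (nat_lit 5) (nat_lit 120) (nat_lit 5) (nat_lit 319) (nat_lit 315) (nat_lit 266)) (XT.lf (nat_lit 0) (nat_lit 2655237505) (nat_lit 760) (nat_lit 11356916105) (nat_lit 836) (nat_lit 1944203309) (nat_lit 110) (nat_lit 5) (nat_lit 120) (nat_lit 5) (nat_lit 121) (nat_lit 5) (nat_lit 320) (nat_lit 315) (nat_lit 265)))) (XT.nd (nat_lit 78) (nat_lit 684) (nat_lit 0) (XT.lf (nat_lit 76) (nat_lit 1563776623) (nat_lit 0) (nat_lit 3230708386) (nat_lit 836) (nat_lit 11820416242)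 (nat_lit 111) (nat_lit 5) (nat_lit 110) (nat_lit 5) (nat_lit 121) (nat_lit 5) (nat_lit 321) (nat_lit 315) (nat_lit 264)) (XT.nd (nat_lit 78) (nat_lit 760) (nat_lit 0) (XT.lf (nat_lit 0) (nat_lit 7395381926) (nat_lit 760) (nat_lit 1564648591) (nat_lit 76) (nat_lit 8351608393) (nat_lit 111) (nat_lit 5) (nat_lit 121) (nat_lit 5) (nat_lit 112) (nat_lit 5) (nat_lit 322) (nat_lit 315) (nat_lit 263)) (XT.lf (nat_lit 0) (nat_lit 10473700588) (nat_lit 836) (nat_lit 4759917731) (nat_lit 76) (nat_lit 2817062414) (nat_lit 101) (nat_lit 5) (nat_lit 112) (nat_lit 5) (nat_lit 102) (nat_lit 5) (nat_lit 323) (nat_lit 315) (nat_lit 262))))) (XT.nd (nat_lit 234) (nat_lit 912) (nat_lit 0) (XT.nd (nat_lit 78) (nat_lit 760) (nat_lit 0) (XT.lf (nat_lit 0) (nat_lit 10698788030) (nat_lit 380) (nat_lit 3408913576) (nat_lit 456) (nat_lit 4725703684) (nat_lit 96) (nat_lit 5) (nat_lit 101) (nat_lit 5) (nat_lit 102)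 (nat_lit 5) (nat_lit 324) (nat_lit 315) (nat_lit 261)) (XT.nd (nat_lit 78) (nat_lit 456) (nat_lit 0) (XT.lf (nat_lit 0) (nat_lit 7961526951) (nat_lit 304) (nat_lit 10391411785) (nat_lit 380) (nat_lit 1309811266) (nat_lit 92) (nat_lit 5) (nat_lit 96) (nat_lit 5) (nat_lit 97) (nat_lit 5) (nat_lit 325) (nat_lit 315) (nat_lit 260)) (XT.lf (nat_lit 0) (nat_lit 2591854110) (nat_lit 456) (nat_lit 15467829364) (nat_lit 76) (nat_lit 2482493297) (nat_lit 86) (nat_lit 5) (nat_lit 92) (nat_lit 5) (nat_lit 87) (nat_lit 5) (nat_lit 326) (nat_lit 315) (nat_lit 259)))) (XT.nd (nat_lit 156) (nat_lit 608) (nat_lit 0) (XT.nd (nat_lit 78) (nat_lit 0) (nat_lit 0) (XT.lf (nat_lit 0) (nat_lit 1955058171) (nat_lit 304) (nat_lit 5187327643) (nat_lit 380) (nat_lit 14329389983) (nat_lit 82) (nat_lit 5) (nat_lit 86) (nat_lit 5) (nat_lit 87) (nat_lit 5) (nat_lit 327) (nat_lit 315) (nat_lit 258)) (XT.lf (nat_lit 0) (nat_lit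 12437678195) (nat_lit 380) (nat_lit 1313431189) (nat_lit 76) (nat_lit 8705618616) (nat_lit 82) (nat_lit 5) (nat_lit 87) (nat_lit 5) (nat_lit 83) (nat_lit 5) (nat_lit 328) (nat_lit 315) (nat_lit 257))) (XT.nd (nat_lit 78) (nat_lit 304) (nat_lit 0) (XT.lf (nat_lit 0) (nat_lit 18515964098) (nat_lit 380) (nat_lit 4678673786) (nat_lit 76) (nat_lit 307889585) (nat_lit 78) (nat_lit 5) (nat_lit 83) (nat_lit 5) (nat_lit 79) (nat_lit 5) (nat_lit 329) (nat_lit 315) (nat_lit 256)) (XT.lf (nat_lit 0) (nat_lit 925203702) (nat_lit 304) (nat_lit 8378979855) (nat_lit 76) (nat_lit 15302922622) (nat_lit 74) (nat_lit 5) (nat_lit 78) (nat_lit 5) (nat_lit 75) (nat_lit 5) (nat_lit 330) (nat_lit 315) (nat_lit 255))))))) (XT.nd (nat_lit 936) (nat_lit 1520) (nat_lit 0) (XT.nd (nat_lit 468) (nat_lit 988) (nat_lit 0) (XT.nd (nat_lit 234) (nat_lit 532) (nat_lit 0) (XT.nd (nat_lit 78) (nat_lit 456) (nat_lit 0) (XT.lf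 (nat_lit 0) (nat_lit 7501492604) (nat_lit 380) (nat_lit 12383903861) (nat_lit 76) (nat_lit 5892269106) (nat_lit 70) (nat_lit 5) (nat_lit 75) (nat_lit 5) (nat_lit 71) (nat_lit 5) (nat_lit 331) (nat_lit 315) (nat_lit 254)) (XT.nd (nat_lit 78) (nat_lit 228) (nat_lit 0) (XT.lf (nat_lit 0) (nat_lit 10312570722) (nat_lit 228) (nat_lit 4734206687) (nat_lit 304) (nat_lit 11972962480) (nat_lit 67) (nat_lit 5) (nat_lit 70) (nat_lit 5) (nat_lit 71) (nat_lit 5) (nat_lit 332) (nat_lit 315) (nat_lit 253)) (XT.lf (nat_lit 0) (nat_lit 6922228707) (nat_lit 228) (nat_lit 16760143346) (nat_lit 304) (nat_lit 4654487464) (nat_lit 64) (nat_lit 5) (nat_lit 67) (nat_lit 5) (nat_lit 68) (nat_lit 5) (nat_lit 333) (nat_lit 315) (nat_lit 252)))) (XT.nd (nat_lit 78) (nat_lit 228) (nat_lit 0) (XT.lf (nat_lit 0) (nat_lit 3231690622) (nat_lit 228) (nat_lit 318474817) (nat_lit 304) (nat_lit 26186423556) (nat_lit 60) (nat_lit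 5) (nat_lit 63) (nat_lit 5) (nat_lit 64) (nat_lit 5) (nat_lit 334) (nat_lit 315) (nat_lit 251)) (XT.nd (nat_lit 78) (nat_lit 228) (nat_lit 0) (XT.lf (nat_lit 0) (nat_lit 12881327245) (nat_lit 304) (nat_lit 1001857629) (nat_lit 76) (nat_lit 17329647641) (nat_lit 60) (nat_lit 5) (nat_lit 64) (nat_lit 5) (nat_lit 61) (nat_lit 5) (nat_lit 335) (nat_lit 315) (nat_lit 250)) (XT.lf (nat_lit 0) (nat_lit 23435674199) (nat_lit 304) (nat_lit 5464145437) (nat_lit 76) (nat_lit 3883531643) (nat_lit 57) (nat_lit 5) (nat_lit 61) (nat_lit 5) (nat_lit 58) (nat_lit 5) (nat_lit 336) (nat_lit 315) (nat_lit 249))))) (XT.nd (nat_lit 234) (nat_lit 380) (nat_lit 0) (XT.nd (nat_lit 78) (nat_lit 380) (nat_lit 0) (XT.lf (nat_lit 0) (nat_lit 961492605) (nat_lit 228) (nat_lit 10495913713) (nat_lit 76) (nat_lit 22990937708) (nat_lit 54) (nat_lit 5) (nat_lit 57) (nat_lit 5) (nat_lit 55) (nat_lit 5) (nat_lit 337) (nat_lit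 315) (nat_lit 248)) (XT.nd (nat_lit 78) (nat_lit 152) (nat_lit 0) (XT.lf (nat_lit 0) (nat_lit 12290404636) (nat_lit 304) (nat_lit 16209009865) (nat_lit 76) (nat_lit 7713342839) (nat_lit 51) (nat_lit 5) (nat_lit 55) (nat_lit 5) (nat_lit 52) (nat_lit 5) (nat_lit 338) (nat_lit 315) (nat_lit 247)) (XT.lf (nat_lit 0) (nat_lit 15482256870) (nat_lit 152) (nat_lit 9647490444) (nat_lit 228) (nat_lit 12958378361) (nat_lit 49) (nat_lit 5) (nat_lit 51) (nat_lit 5) (nat_lit 52) (nat_lit 5) (nat_lit 339) (nat_lit 315) (nat_lit 246)))) (XT.nd (nat_lit 78) (nat_lit 228) (nat_lit 0) (XT.lf (nat_lit 0) (nat_lit 10321087857) (nat_lit 152) (nat_lit 29274596322) (nat_lit 228) (nat_lit 487874219) (nat_lit 47) (nat_lit 5) (nat_lit 49) (nat_lit 5) (nat_lit 50) (nat_lit 5) (nat_lit 340) (nat_lit 315) (nat_lit 245)) (XT.nd (nat_lit 78) (nat_lit 0) (nat_lit 0) (XT.lf (nat_lit 0) (nat_lit 4208410957) (nat_lit 152)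 (nat_lit 8969639829) (nat_lit 228) (nat_lit 29019786921) (nat_lit 44) (nat_lit 5) (nat_lit 46) (nat_lit 5) (nat_lit 47) (nat_lit 5) (nat_lit 341) (nat_lit 315) (nat_lit 244)) (XT.lf (nat_lit 0) (nat_lit 28634901724) (nat_lit 228) (nat_lit 2739142629) (nat_lit 76) (nat_lit 13071083807) (nat_lit 44) (nat_lit 5) (nat_lit 47) (nat_lit 5) (nat_lit 45) (nat_lit 5) (nat_lit 342) (nat_lit 315) (nat_lit 243)))))) (XT.nd (nat_lit 468) (nat_lit 684) (nat_lit 0) (XT.nd (nat_lit 234) (nat_lit 304) (nat_lit 0) (XT.nd (nat_lit 78) (nat_lit 380) (nat_lit 0) (XT.lf (nat_lit 0) (nat_lit 36319678408) (nat_lit 152) (nat_lit 9713249000) (nat_lit 228) (nat_lit 804048596) (nat_lit 42) (nat_lit 5) (nat_lit 44) (nat_lit 5) (nat_lit 45) (nat_lit 5) (nat_lit 343) (nat_lit 315) (nat_lit 242)) (XT.nd (nat_lit 78) (nat_lit 152) (nat_lit 0) (XT.lf (nat_lit 0) (nat_lit 15637208113) (nat_lit 228) (nat_lit 19732860621) (nat_lit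 76) (nat_lit 14001705635) (nat_lit 39) (nat_lit 5) (nat_lit 42) (nat_lit 5) (nat_lit 40) (nat_lit 5) (nat_lit 344) (nat_lit 315) (nat_lit 241)) (XT.lf (nat_lit 0) (nat_lit 21777993975) (nat_lit 152) (nat_lit 12265283736) (nat_lit 228) (nat_lit 18031540205) (nat_lit 37) (nat_lit 5) (nat_lit 39) (nat_lit 5) (nat_lit 40) (nat_lit 5) (nat_lit 345) (nat_lit 315) (nat_lit 240)))) (XT.nd (nat_lit 78) (nat_lit 228) (nat_lit 0) (XT.lf (nat_lit 0) (nat_lit 12512999372) (nat_lit 76) (nat_lit 42139439423) (nat_lit 152) (nat_lit 305140004) (nat_lit 36) (nat_lit 5) (nat_lit 37) (nat_lit 5) (nat_lit 38) (nat_lit 4) (nat_lit 346) (nat_lit 315) (nat_lit 239)) (XT.nd (nat_lit 78) (nat_lit 0) (nat_lit 0) (XT.lf (nat_lit 0) (nat_lit 1296115391) (nat_lit 152) (nat_lit 17691907786) (nat_lit 228) (nat_lit 39030652839) (nat_lit 33) (nat_lit 5) (nat_lit 35) (nat_lit 5) (nat_lit 36) (nat_lit 5) (nat_lit 347) (nat_lit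 315) (nat_lit 238)) (XT.lf (nat_lit 0) (nat_lit 40690187658) (nat_lit 228) (nat_lit 11409446172) (nat_lit 76) (nat_lit 9180968510) (nat_lit 33) (nat_lit 5) (nat_lit 36) (nat_lit 5) (nat_lit 34) (nat_lit 4) (nat_lit 348) (nat_lit 315) (nat_lit 237))))) (XT.nd (nat_lit 234) (nat_lit 304) (nat_lit 0) (XT.nd (nat_lit 78) (nat_lit 228) (nat_lit 0) (XT.lf (nat_lit 0) (nat_lit 249157368) (nat_lit 152) (nat_lit 26321048436) (nat_lit 76) (nat_lit 38188681253) (nat_lit 31) (nat_lit 5) (nat_lit 33) (nat_lit 5) (nat_lit 32) (nat_lit 5) (nat_lit 349) (nat_lit 315) (nat_lit 236)) (XT.nd (nat_lit 78) (nat_lit 76) (nat_lit 0) (XT.lf (nat_lit 0) (nat_lit 22650720764) (nat_lit 228) (nat_lit 43906828619) (nat_lit 76) (nat_lit 1910199875) (nat_lit 29) (nat_lit 5) (nat_lit 32) (nat_lit 5) (nat_lit 30) (nat_lit 4) (nat_lit 350) (nat_lit 315) (nat_lit 235)) (XT.lf (nat_lit 0) (nat_lit 7778562862) (nat_lit 76)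 (nat_lit 40091475329) (nat_lit 152) (nat_lit 24552003359) (nat_lit 28) (nat_lit 5) (nat_lit 29) (nat_lit 5) (nat_lit 30) (nat_lit 4) (nat_lit 351) (nat_lit 315) (nat_lit 234)))) (XT.nd (nat_lit 156) (nat_lit 76) (nat_lit 0) (XT.nd (nat_lit 78) (nat_lit 228) (nat_lit 0) (XT.lf (nat_lit 0) (nat_lit 65149630237) (nat_lit 76) (nat_lit 10712712384) (nat_lit 152) (nat_lit 792564895) (nat_lit 28) (nat_lit 5) (nat_lit 29) (nat_lit 5) (nat_lit 30) (nat_lit 4) (nat_lit 352) (nat_lit 315) (nat_lit 233)) (XT.lf (nat_lit 0) (nat_lit 25142816610) (nat_lit 228) (nat_lit 34533753827) (nat_lit 76) (nat_lit 21476866376) (nat_lit 25) (nat_lit 5) (nat_lit 28) (nat_lit 5) (nat_lit 26) (nat_lit 4) (nat_lit 353) (nat_lit 315) (nat_lit 232))) (XT.nd (nat_lit 78) (nat_lit 0) (nat_lit 0) (XT.lf (nat_lit 0) (nat_lit 24370690533) (nat_lit 76) (nat_lit 29511241679) (nat_lit 152) (nat_lit 32091434975) (nat_lit 24) (nat_lit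 5) (nat_lit 25) (nat_lit 5) (nat_lit 26) (nat_lit 4) (nat_lit 354) (nat_lit 315) (nat_lit 231)) (XT.lf (nat_lit 0) (nat_lit 85571242935) (nat_lit 152) (nat_lit 2001204501) (nat_lit 0) (nat_lit 3573893054) (nat_lit 24) (nat_lit 5) (nat_lit 26) (nat_lit 4) (nat_lit 24) (nat_lit 4) (nat_lit 355) (nat_lit 315) (nat_lit 230))))))))
noncomputable def xc74 : XT := (XT.nd (nat_lit 1872) (nat_lit 228) (nat_lit 0) (XT.nd (nat_lit 936) (nat_lit 532) (nat_lit 0) (XT.nd (nat_lit 468) (nat_lit 380) (nat_lit 0) (XT.nd (nat_lit 234) (nat_lit 228) (nat_lit 0) (XT.nd (nat_lit 78) (nat_lit 76) (nat_lit 0) (XT.lf (nat_lit 0) (nat_lit 23836457758) (nat_lit 152) (nat_lit 33141382970) (nat_lit 76) (nat_lit 39661706141) (nat_lit 22) (nat_lit 5) (nat_lit 24) (nat_lit 5) (nat_lit 23) (nat_lit 4) (nat_lit 356) (nat_lit 315) (nat_lit 229)) (XT.nd (nat_lit 78) (nat_lit 0) (nat_lit 0) (XT.lf (nat_lit 0) (nat_lit 32675919131)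 (nat_lit 76) (nat_lit 23270501483) (nat_lit 152) (nat_lit 46594180487) (nat_lit 21) (nat_lit 5) (nat_lit 22) (nat_lit 5) (nat_lit 23) (nat_lit 4) (nat_lit 357) (nat_lit 315) (nat_lit 228)) (XT.lf (nat_lit 0) (nat_lit 91409843339) (nat_lit 152) (nat_lit 4170786228) (nat_lit 0) (nat_lit 13293878318) (nat_lit 21) (nat_lit 5) (nat_lit 23) (nat_lit 4) (nat_lit 21) (nat_lit 4) (nat_lit 358) (nat_lit 315) (nat_lit 227)))) (XT.nd (nat_lit 78) (nat_lit 76) (nat_lit 0) (XT.lf (nat_lit 0) (nat_lit 15027456446) (nat_lit 152) (nat_lit 47316310823) (nat_lit 76) (nat_lit 53286427014) (nat_lit 19) (nat_lit 5) (nat_lit 21) (nat_lit 5) (nat_lit 20) (nat_lit 4) (nat_lit 359) (nat_lit 315) (nat_lit 226)) (XT.nd (nat_lit 78) (nat_lit 0) (nat_lit 0) (XT.lf (nat_lit 0) (nat_lit 24293275454) (nat_lit 76) (nat_lit 25668681759) (nat_lit 152) (nat_lit 72927319846) (nat_lit 18) (nat_lit 5) (nat_lit 19) (nat_lit 5)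 (nat_lit 20) (nat_lit 4) (nat_lit 360) (nat_lit 315) (nat_lit 225)) (XT.lf (nat_lit 0) (nat_lit 88740384171) (nat_lit 152) (nat_lit 27609596348) (nat_lit 0) (nat_lit 14326648655) (nat_lit 18) (nat_lit 5) (nat_lit 20) (nat_lit 4) (nat_lit 18) (nat_lit 4) (nat_lit 361) (nat_lit 315) (nat_lit 224))))) (XT.nd (nat_lit 234) (nat_lit 152) (nat_lit 0) (XT.nd (nat_lit 78) (nat_lit 152) (nat_lit 0) (XT.lf (nat_lit 0) (nat_lit 50219268625) (nat_lit 76) (nat_lit 81612947202) (nat_lit 76) (nat_lit 7194198054) (nat_lit 17) (nat_lit 4) (nat_lit 18) (nat_lit 5) (nat_lit 18) (nat_lit 4) (nat_lit 362) (nat_lit 315) (nat_lit 223)) (XT.nd (nat_lit 78) (nat_lit 76) (nat_lit 0) (XT.lf (nat_lit 0) (nat_lit 29839795871) (nat_lit 152) (nat_lit 13251809863) (nat_lit 76) (nat_lit 104904739657) (nat_lit 16) (nat_lit 5) (nat_lit 18) (nat_lit 5) (nat_lit 17) (nat_lit 4) (nat_lit 363) (nat_lit 315) (nat_lit 222)) (XT.lf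 (nat_lit 0) (nat_lit 70472318723) (nat_lit 76) (nat_lit 210612254) (nat_lit 152) (nat_lit 86940120771) (nat_lit 15) (nat_lit 5) (nat_lit 16) (nat_lit 5) (nat_lit 17) (nat_lit 4) (nat_lit 364) (nat_lit 315) (nat_lit 221)))) (XT.nd (nat_lit 78) (nat_lit 152) (nat_lit 0) (XT.lf (nat_lit 0) (nat_lit 115742898785) (nat_lit 152) (nat_lit 7373933201) (nat_lit 0) (nat_lit 44855594248) (nat_lit 15) (nat_lit 5) (nat_lit 17) (nat_lit 4) (nat_lit 15) (nat_lit 4) (nat_lit 365) (nat_lit 315) (nat_lit 220)) (XT.nd (nat_lit 78) (nat_lit 76) (nat_lit 0) (XT.lf (nat_lit 0) (nat_lit 81377120478) (nat_lit 76) (nat_lit 84299986471) (nat_lit 76) (nat_lit 13409172249) (nat_lit 14) (nat_lit 4) (nat_lit 15) (nat_lit 5) (nat_lit 15) (nat_lit 4) (nat_lit 366) (nat_lit 315) (nat_lit 219)) (XT.lf (nat_lit 0) (nat_lit 27730153871) (nat_lit 152) (nat_lit 14047248491) (nat_lit 76) (nat_lit 149283274328) (nat_lit 13) (nat_lit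 5) (nat_lit 15) (nat_lit 5) (nat_lit 14) (nat_lit 4) (nat_lit 367) (nat_lit 315) (nat_lit 218)))))) (XT.nd (nat_lit 468) (nat_lit 228) (nat_lit 0) (XT.nd (nat_lit 234) (nat_lit 152) (nat_lit 0) (XT.nd (nat_lit 78) (nat_lit 76) (nat_lit 0) (XT.lf (nat_lit 0) (nat_lit 73008449862) (nat_lit 152) (nat_lit 125420276709) (nat_lit 0) (nat_lit 5487428035) (nat_lit 12) (nat_lit 5) (nat_lit 14) (nat_lit 4) (nat_lit 12) (nat_lit 4) (nat_lit 368) (nat_lit 315) (nat_lit 217)) (XT.nd (nat_lit 78) (nat_lit 76) (nat_lit 0) (XT.lf (nat_lit 0) (nat_lit 122858125455) (nat_lit 152) (nat_lit 39560039807) (nat_lit 0) (nat_lit 55334450199) (nat_lit 12) (nat_lit 5) (nat_lit 14) (nat_lit 4) (nat_lit 12) (nat_lit 4) (nat_lit 369) (nat_lit 315) (nat_lit 216)) (XT.lf (nat_lit 0) (nat_lit 54919537785) (nat_lit 76) (nat_lit 122629951154) (nat_lit 76) (nat_lit 55103819019) (nat_lit 11) (nat_lit 4) (nat_lit 12) (nat_lit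 5) (nat_lit 12) (nat_lit 4) (nat_lit 370) (nat_lit 315) (nat_lit 215)))) (XT.nd (nat_lit 78) (nat_lit 152) (nat_lit 0) (XT.lf (nat_lit 0) (nat_lit 158363226318) (nat_lit 76) (nat_lit 78938479878) (nat_lit 76) (nat_lit 11410072855) (nat_lit 11) (nat_lit 4) (nat_lit 12) (nat_lit 5) (nat_lit 12) (nat_lit 4) (nat_lit 371) (nat_lit 315) (nat_lit 214)) (XT.nd (nat_lit 78) (nat_lit 0) (nat_lit 0) (XT.lf (nat_lit 0) (nat_lit 3576820092) (nat_lit 76) (nat_lit 31109684050) (nat_lit 152) (nat_lit 231337869003) (nat_lit 9) (nat_lit 5) (nat_lit 10) (nat_lit 5) (nat_lit 11) (nat_lit 4) (nat_lit 372) (nat_lit 315) (nat_lit 213)) (XT.lf (nat_lit 0) (nat_lit 85993531008) (nat_lit 152) (nat_lit 176946068875) (nat_lit 0) (nat_lit 21676898864) (nat_lit 9) (nat_lit 5) (nat_lit 11) (nat_lit 4) (nat_lit 9) (nat_lit 4) (nat_lit 373) (nat_lit 315) (nat_lit 212))))) (XT.nd (nat_lit 234) (nat_lit 152) (nat_lit 0)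 (XT.nd (nat_lit 78) (nat_lit 76) (nat_lit 0) (XT.lf (nat_lit 0) (nat_lit 141926674594) (nat_lit 152) (nat_lit 85134919835) (nat_lit 0) (nat_lit 77608322565) (nat_lit 9) (nat_lit 5) (nat_lit 11) (nat_lit 4) (nat_lit 9) (nat_lit 4) (nat_lit 374) (nat_lit 315) (nat_lit 211)) (XT.nd (nat_lit 78) (nat_lit 0) (nat_lit 0) (XT.lf (nat_lit 0) (nat_lit 14479090817) (nat_lit 76) (nat_lit 188078649582) (nat_lit 76) (nat_lit 123758705067) (nat_lit 8) (nat_lit 4) (nat_lit 9) (nat_lit 5) (nat_lit 9) (nat_lit 4) (nat_lit 375) (nat_lit 315) (nat_lit 210)) (XT.lf (nat_lit 0) (nat_lit 125097148127) (nat_lit 76) (nat_lit 144422475402) (nat_lit 76) (nat_lit 80101056362) (nat_lit 8) (nat_lit 4) (nat_lit 9) (nat_lit 5) (nat_lit 9) (nat_lit 4) (nat_lit 376) (nat_lit 315) (nat_lit 209)))) (XT.nd (nat_lit 78) (nat_lit 152) (nat_lit 0) (XT.lf (nat_lit 0) (nat_lit 244559821578) (nat_lit 76) (nat_lit 97276169696) (nat_lit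 76) (nat_lit 32953385356) (nat_lit 8) (nat_lit 4) (nat_lit 9) (nat_lit 5) (nat_lit 9) (nat_lit 4) (nat_lit 377) (nat_lit 315) (nat_lit 208)) (XT.nd (nat_lit 78) (nat_lit 76) (nat_lit 0) (XT.lf (nat_lit 0) (nat_lit 17388750921) (nat_lit 152) (nat_lit 28677109117) (nat_lit 76) (nat_lit 355891800292) (nat_lit 7) (nat_lit 5) (nat_lit 9) (nat_lit 5) (nat_lit 8) (nat_lit 4) (nat_lit 378) (nat_lit 315) (nat_lit 207)) (XT.lf (nat_lit 0) (nat_lit 72089059900) (nat_lit 152) (nat_lit 348282123134) (nat_lit 0) (nat_lit 10826946536) (nat_lit 6) (nat_lit 5) (nat_lit 8) (nat_lit 4) (nat_lit 6) (nat_lit 4) (nat_lit 379) (nat_lit 315) (nat_lit 206))))))) (XT.nd (nat_lit 936) (nat_lit 0) (nat_lit 0) (XT.nd (nat_lit 468) (nat_lit 152) (nat_lit 0) (XT.nd (nat_lit 234) (nat_lit 76) (nat_lit 0) (XT.nd (nat_lit 78) (nat_lit 0) (nat_lit 0) (XT.lf (nat_lit 0) (nat_lit 132447790381) (nat_lit 152) (nat_lit 259081281518)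 (nat_lit 0) (nat_lit 71184644808) (nat_lit 6) (nat_lit 5) (nat_lit 8) (nat_lit 4) (nat_lit 6) (nat_lit 4) (nat_lit 380) (nat_lit 315) (nat_lit 205)) (XT.nd (nat_lit 78) (nat_lit 0) (nat_lit 0) (XT.lf (nat_lit 0) (nat_lit 197633290012) (nat_lit 152) (nat_lit 162748168758) (nat_lit 0) (nat_lit 136369188690) (nat_lit 6) (nat_lit 5) (nat_lit 8) (nat_lit 4) (nat_lit 6) (nat_lit 4) (nat_lit 381) (nat_lit 315) (nat_lit 204)) (XT.lf (nat_lit 0) (nat_lit 268031843234) (nat_lit 152) (nat_lit 58711921963) (nat_lit 0) (nat_lit 206766856960) (nat_lit 6) (nat_lit 5) (nat_lit 8) (nat_lit 4) (nat_lit 6) (nat_lit 4) (nat_lit 382) (nat_lit 315) (nat_lit 203)))) (XT.nd (nat_lit 78) (nat_lit 0) (nat_lit 0) (XT.lf (nat_lit 0) (nat_lit 55417681865) (nat_lit 76) (nat_lit 289508170117) (nat_lit 76) (nat_lit 228242364442) (nat_lit 5) (nat_lit 4) (nat_lit 6) (nat_lit 5) (nat_lit 6) (nat_lit 4) (nat_lit 383) (nat_lit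 315) (nat_lit 202)) (XT.nd (nat_lit 78) (nat_lit 0) (nat_lit 0) (XT.lf (nat_lit 0) (nat_lit 180771124620) (nat_lit 76) (nat_lit 248221400476) (nat_lit 76) (nat_lit 186954836096) (nat_lit 5) (nat_lit 4) (nat_lit 6) (nat_lit 5) (nat_lit 6) (nat_lit 4) (nat_lit 384) (nat_lit 315) (nat_lit 201)) (XT.lf (nat_lit 0) (nat_lit 316149960224) (nat_lit 76) (nat_lit 203633108744) (nat_lit 76) (nat_lit 142365841860) (nat_lit 5) (nat_lit 4) (nat_lit 6) (nat_lit 5) (nat_lit 6) (nat_lit 4) (nat_lit 385) (nat_lit 315) (nat_lit 200))))) (XT.nd (nat_lit 234) (nat_lit 76) (nat_lit 0) (XT.nd (nat_lit 78) (nat_lit 76) (nat_lit 0) (XT.lf (nat_lit 0) (nat_lit 462356433631) (nat_lit 76) (nat_lit 155479068008) (nat_lit 76) (nat_lit 94211150657) (nat_lit 5) (nat_lit 4) (nat_lit 6) (nat_lit 5) (nat_lit 6) (nat_lit 4) (nat_lit 386) (nat_lit 315) (nat_lit 199)) (XT.nd (nat_lit 78) (nat_lit 76) (nat_lit 0) (XT.lf (nat_lit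 0) (nat_lit 620256953571) (nat_lit 76) (nat_lit 103473920988) (nat_lit 76) (nat_lit 42205401353) (nat_lit 5) (nat_lit 4) (nat_lit 6) (nat_lit 5) (nat_lit 6) (nat_lit 4) (nat_lit 387) (nat_lit 315) (nat_lit 198)) (XT.lf (nat_lit 0) (nat_lit 13512794264) (nat_lit 152) (nat_lit 33567849061) (nat_lit 76) (nat_lit 777045586854) (nat_lit 4) (nat_lit 5) (nat_lit 6) (nat_lit 5) (nat_lit 5) (nat_lit 4) (nat_lit 388) (nat_lit 315) (nat_lit 197)))) (XT.nd (nat_lit 78) (nat_lit 0) (nat_lit 0) (XT.lf (nat_lit 0) (nat_lit 73878861878) (nat_lit 152) (nat_lit 797447602102) (nat_lit 0) (nat_lit 15526867910) (nat_lit 3) (nat_lit 5) (nat_lit 5) (nat_lit 4) (nat_lit 3) (nat_lit 4) (nat_lit 389) (nat_lit 315) (nat_lit 196)) (XT.nd (nat_lit 78) (nat_lit 0) (nat_lit 0) (XT.lf (nat_lit 0) (nat_lit 140461336338) (nat_lit 152) (nat_lit 731959022390) (nat_lit 0) (nat_lit 82108887025) (nat_lit 3) (nat_lit 5) (nat_lit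 5) (nat_lit 4) (nat_lit 3) (nat_lit 4) (nat_lit 390) (nat_lit 315) (nat_lit 195)) (XT.lf (nat_lit 0) (nat_lit 212369427063) (nat_lit 152) (nat_lit 661233298692) (nat_lit 0) (nat_lit 154016556133) (nat_lit 3) (nat_lit 5) (nat_lit 5) (nat_lit 4) (nat_lit 3) (nat_lit 4) (nat_lit 391) (nat_lit 315) (nat_lit 194)))))) (XT.nd (nat_lit 41262) (nat_lit 0) (nat_lit 6764) (XT.nd (nat_lit 41028) (nat_lit 0) (nat_lit 7980) (XT.nd (nat_lit 78) (nat_lit 0) (nat_lit 0) (XT.lf (nat_lit 0) (nat_lit 290029256071) (nat_lit 152) (nat_lit 584851315610) (nat_lit 0) (nat_lit 231675994756) (nat_lit 3) (nat_lit 5) (nat_lit 5) (nat_lit 4) (nat_lit 3) (nat_lit 4) (nat_lit 392) (nat_lit 315) (nat_lit 193)) (XT.nd (nat_lit 40872) (nat_lit 0) (nat_lit 8664) (XT.lf (nat_lit 0) (nat_lit 373901029757) (nat_lit 152) (nat_lit 502360439169) (nat_lit 0) (nat_lit 315547406975) (nat_lit 3) (nat_lit 5) (nat_lit 5) (nat_lit 4)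 (nat_lit 3) (nat_lit 4) (nat_lit 393) (nat_lit 315) (nat_lit 192)) (XT.lf (nat_lit 0) (nat_lit 3004746529) (nat_lit 0) (nat_lit 3004746529) (nat_lit 684) (nat_lit 1079330976) (nat_lit 117) (nat_lit 5) (nat_lit 117) (nat_lit 3) (nat_lit 126) (nat_lit 3) (nat_lit 316) (nat_lit 316) (nat_lit 268)))) (XT.nd (nat_lit 78) (nat_lit 684) (nat_lit 0) (XT.lf (nat_lit 76) (nat_lit 2696172989) (nat_lit 0) (nat_lit 10417862735) (nat_lit 760) (nat_lit 1599537576) (nat_lit 118) (nat_lit 5) (nat_lit 117) (nat_lit 5) (nat_lit 127) (nat_lit 5) (nat_lit 317) (nat_lit 316) (nat_lit 267)) (XT.nd (nat_lit 78) (nat_lit 760) (nat_lit 0) (XT.lf (nat_lit 0) (nat_lit 14489777112) (nat_lit 684) (nat_lit 696826850) (nat_lit 760) (nat_lit 96160837) (nat_lit 118) (nat_lit 5) (nat_lit 127) (nat_lit 5) (nat_lit 128) (nat_lit 5) (nat_lit 318) (nat_lit 316) (nat_lit 266)) (XT.lf (nat_lit 0) (nat_lit 392571237) (nat_lit 760)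 (nat_lit 4189730957) (nat_lit 836) (nat_lit 11299320384) (nat_lit 108) (nat_lit 5) (nat_lit 118) (nat_lit 5) (nat_lit 119) (nat_lit 5) (nat_lit 319) (nat_lit 316) (nat_lit 265))))) (XT.nd (nat_lit 234) (nat_lit 1292) (nat_lit 0) (XT.nd (nat_lit 78) (nat_lit 0) (nat_lit 76) (XT.lf (nat_lit 0) (nat_lit 1861418467) (nat_lit 760) (nat_lit 7825336894) (nat_lit 836) (nat_lit 6830210409) (nat_lit 109) (nat_lit 5) (nat_lit 119) (nat_lit 5) (nat_lit 120) (nat_lit 5) (nat_lit 320) (nat_lit 316) (nat_lit 264)) (XT.nd (nat_lit 78) (nat_lit 0) (nat_lit 0) (XT.lf (nat_lit 0) (nat_lit 3676790203) (nat_lit 760) (nat_lit 11599809436) (nat_lit 836) (nat_lit 1915121204) (nat_lit 110) (nat_lit 5) (nat_lit 120) (nat_lit 5) (nat_lit 121) (nat_lit 5) (nat_lit 321) (nat_lit 316) (nat_lit 263)) (XT.lf (nat_lit 76) (nat_lit 2325609939) (nat_lit 0) (nat_lit 3611572897) (nat_lit 836) (nat_lit 11968316578) (nat_lit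 111) (nat_lit 5) (nat_lit 110) (nat_lit 5) (nat_lit 121) (nat_lit 5) (nat_lit 322) (nat_lit 316) (nat_lit 262)))) (XT.nd (nat_lit 156) (nat_lit 684) (nat_lit 0) (XT.nd (nat_lit 78) (nat_lit 760) (nat_lit 0) (XT.lf (nat_lit 0) (nat_lit 8688149421) (nat_lit 760) (nat_lit 1062749875) (nat_lit 76) (nat_lit 8910024079) (nat_lit 111) (nat_lit 5) (nat_lit 121) (nat_lit 5) (nat_lit 112) (nat_lit 5) (nat_lit 323) (nat_lit 316) (nat_lit 261)) (XT.lf (nat_lit 0) (nat_lit 11969245158) (nat_lit 836) (nat_lit 4506500668) (nat_lit 76) (nat_lit 2985560827) (nat_lit 101) (nat_lit 5) (nat_lit 112) (nat_lit 5) (nat_lit 102) (nat_lit 5) (nat_lit 324) (nat_lit 316) (nat_lit 260))) (XT.nd (nat_lit 78) (nat_lit 304) (nat_lit 0) (XT.lf (nat_lit 0) (nat_lit 12161339539) (nat_lit 380) (nat_lit 3693383495) (nat_lit 456) (nat_lit 4453928755) (nat_lit 96) (nat_lit 5) (nat_lit 101) (nat_lit 5) (nat_lit 102) (nat_lit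 5) (nat_lit 325) (nat_lit 316) (nat_lit 259)) (XT.lf (nat_lit 0) (nat_lit 9208969142) (nat_lit 304) (nat_lit 11194164160) (nat_lit 380) (nat_lit 803070522) (nat_lit 92) (nat_lit 5) (nat_lit 96) (nat_lit 5) (nat_lit 97) (nat_lit 5) (nat_lit 326) (nat_lit 316) (nat_lit 258))))))))
noncomputable def xc75 : XT := (XT.nd (nat_lit 1950) (nat_lit 1596) (nat_lit 0) (XT.nd (nat_lit 936) (nat_lit 1900) (nat_lit 0) (XT.nd (nat_lit 468) (nat_lit 1216) (nat_lit 0) (XT.nd (nat_lit 234) (nat_lit 912) (nat_lit 0) (XT.nd (nat_lit 78) (nat_lit 304) (nat_lit 0) (XT.lf (nat_lit 0) (nat_lit 3357435895) (nat_lit 456) (nat_lit 16074542803) (nat_lit 76) (nat_lit 2725247665) (nat_lit 86) (nat_lit 5) (nat_lit 92) (nat_lit 5) (nat_lit 87) (nat_lit 5) (nat_lit 327) (nat_lit 316) (nat_lit 257)) (XT.nd (nat_lit 78) (nat_lit 0) (nat_lit 0) (XT.lf (nat_lit 0) (nat_lit 2714765720) (nat_lit 304) (nat_lit 5525313038) (nat_lit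 380) (nat_lit 14922741705) (nat_lit 82) (nat_lit 5) (nat_lit 86) (nat_lit 5) (nat_lit 87) (nat_lit 5) (nat_lit 328) (nat_lit 316) (nat_lit 256)) (XT.lf (nat_lit 0) (nat_lit 13921122337) (nat_lit 380) (nat_lit 836285226) (nat_lit 76) (nat_lit 9471083207) (nat_lit 82) (nat_lit 5) (nat_lit 87) (nat_lit 5) (nat_lit 83) (nat_lit 5) (nat_lit 329) (nat_lit 316) (nat_lit 255)))) (XT.nd (nat_lit 78) (nat_lit 608) (nat_lit 0) (XT.lf (nat_lit 0) (nat_lit 20459684575) (nat_lit 380) (nat_lit 4474173226) (nat_lit 76) (nat_lit 425421943) (nat_lit 78) (nat_lit 5) (nat_lit 83) (nat_lit 5) (nat_lit 79) (nat_lit 5) (nat_lit 330) (nat_lit 316) (nat_lit 254)) (XT.nd (nat_lit 78) (nat_lit 304) (nat_lit 0) (XT.lf (nat_lit 0) (nat_lit 1443507116) (nat_lit 304) (nat_lit 8480678317) (nat_lit 76) (nat_lit 16628985858) (nat_lit 74) (nat_lit 5) (nat_lit 78) (nat_lit 5) (nat_lit 75) (nat_lit 5) (nat_lit 331) (nat_lit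 316) (nat_lit 253)) (XT.lf (nat_lit 0) (nat_lit 8523417512) (nat_lit 380) (nat_lit 12811383316) (nat_lit 76) (nat_lit 6483720097) (nat_lit 70) (nat_lit 5) (nat_lit 75) (nat_lit 5) (nat_lit 71) (nat_lit 5) (nat_lit 332) (nat_lit 316) (nat_lit 252))))) (XT.nd (nat_lit 234) (nat_lit 456) (nat_lit 0) (XT.nd (nat_lit 78) (nat_lit 532) (nat_lit 0) (XT.lf (nat_lit 0) (nat_lit 11676331820) (nat_lit 228) (nat_lit 4973159911) (nat_lit 304) (nat_lit 12511630949) (nat_lit 67) (nat_lit 5) (nat_lit 70) (nat_lit 5) (nat_lit 71) (nat_lit 5) (nat_lit 333) (nat_lit 316) (nat_lit 251)) (XT.nd (nat_lit 78) (nat_lit 304) (nat_lit 0) (XT.lf (nat_lit 0) (nat_lit 8008579914) (nat_lit 228) (nat_lit 17948136247) (nat_lit 304) (nat_lit 4627874962) (nat_lit 64) (nat_lit 5) (nat_lit 67) (nat_lit 5) (nat_lit 68) (nat_lit 5) (nat_lit 334) (nat_lit 316) (nat_lit 250)) (XT.lf (nat_lit 0) (nat_lit 4012077458) (nat_lit 228)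 (nat_lit 187843152) (nat_lit 304) (nat_lit 27897106081) (nat_lit 60) (nat_lit 5) (nat_lit 63) (nat_lit 5) (nat_lit 64) (nat_lit 5) (nat_lit 335) (nat_lit 316) (nat_lit 249)))) (XT.nd (nat_lit 78) (nat_lit 456) (nat_lit 0) (XT.lf (nat_lit 0) (nat_lit 14252740133) (nat_lit 304) (nat_lit 583947258) (nat_lit 76) (nat_lit 18855939051) (nat_lit 60) (nat_lit 5) (nat_lit 64) (nat_lit 5) (nat_lit 61) (nat_lit 5) (nat_lit 336) (nat_lit 316) (nat_lit 248)) (XT.nd (nat_lit 78) (nat_lit 228) (nat_lit 0) (XT.lf (nat_lit 0) (nat_lit 25636014428) (nat_lit 304) (nat_lit 5410928815) (nat_lit 76) (nat_lit 4342628360) (nat_lit 57) (nat_lit 5) (nat_lit 61) (nat_lit 5) (nat_lit 58) (nat_lit 5) (nat_lit 337) (nat_lit 316) (nat_lit 247)) (XT.lf (nat_lit 0) (nat_lit 1352327329) (nat_lit 228) (nat_lit 10856016069) (nat_lit 76) (nat_lit 24980019421) (nat_lit 54) (nat_lit 5) (nat_lit 57) (nat_lit 5) (nat_lit 55) (nat_lit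 5) (nat_lit 338) (nat_lit 316) (nat_lit 246)))))) (XT.nd (nat_lit 468) (nat_lit 988) (nat_lit 0) (XT.nd (nat_lit 234) (nat_lit 380) (nat_lit 0) (XT.nd (nat_lit 78) (nat_lit 304) (nat_lit 0) (XT.lf (nat_lit 0) (nat_lit 13573973559) (nat_lit 304) (nat_lit 17034480794) (nat_lit 76) (nat_lit 8486165112) (nat_lit 51) (nat_lit 5) (nat_lit 55) (nat_lit 5) (nat_lit 52) (nat_lit 5) (nat_lit 339) (nat_lit 316) (nat_lit 245)) (XT.nd (nat_lit 78) (nat_lit 152) (nat_lit 0) (XT.lf (nat_lit 0) (nat_lit 17171607334) (nat_lit 152) (nat_lit 10253646946) (nat_lit 228) (nat_lit 13695533946) (nat_lit 49) (nat_lit 5) (nat_lit 51) (nat_lit 5) (nat_lit 52) (nat_lit 5) (nat_lit 340) (nat_lit 316) (nat_lit 244)) (XT.lf (nat_lit 0) (nat_lit 11589243372) (nat_lit 152) (nat_lit 31447404945) (nat_lit 228) (nat_lit 239807854) (nat_lit 47) (nat_lit 5) (nat_lit 49) (nat_lit 5) (nat_lit 50) (nat_lit 5) (nat_lit 341) (nat_lit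 316) (nat_lit 243)))) (XT.nd (nat_lit 78) (nat_lit 152) (nat_lit 0) (XT.lf (nat_lit 0) (nat_lit 4977223337) (nat_lit 152) (nat_lit 9519140114) (nat_lit 228) (nat_lit 31063990763) (nat_lit 44) (nat_lit 5) (nat_lit 46) (nat_lit 5) (nat_lit 47) (nat_lit 5) (nat_lit 342) (nat_lit 316) (nat_lit 242)) (XT.nd (nat_lit 78) (nat_lit 152) (nat_lit 0) (XT.lf (nat_lit 0) (nat_lit 31172631510) (nat_lit 228) (nat_lit 2548250007) (nat_lit 76) (nat_lit 14267410866) (nat_lit 44) (nat_lit 5) (nat_lit 47) (nat_lit 5) (nat_lit 45) (nat_lit 5) (nat_lit 343) (nat_lit 316) (nat_lit 241)) (XT.lf (nat_lit 0) (nat_lit 39617457568) (nat_lit 152) (nat_lit 10332873420) (nat_lit 228) (nat_lit 621772823) (nat_lit 42) (nat_lit 5) (nat_lit 44) (nat_lit 5) (nat_lit 45) (nat_lit 5) (nat_lit 344) (nat_lit 316) (nat_lit 240))))) (XT.nd (nat_lit 234) (nat_lit 532) (nat_lit 0) (XT.nd (nat_lit 78) (nat_lit 228) (nat_lit 0) (XT.lf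 (nat_lit 0) (nat_lit 17117618529) (nat_lit 228) (nat_lit 20919697301) (nat_lit 76) (nat_lit 15272647846) (nat_lit 39) (nat_lit 5) (nat_lit 42) (nat_lit 5) (nat_lit 40) (nat_lit 5) (nat_lit 345) (nat_lit 316) (nat_lit 239)) (XT.nd (nat_lit 78) (nat_lit 76) (nat_lit 0) (XT.lf (nat_lit 0) (nat_lit 23894998853) (nat_lit 152) (nat_lit 13090030885) (nat_lit 228) (nat_lit 19244784162) (nat_lit 37) (nat_lit 5) (nat_lit 39) (nat_lit 5) (nat_lit 40) (nat_lit 5) (nat_lit 346) (nat_lit 316) (nat_lit 238)) (XT.lf (nat_lit 0) (nat_lit 13880692846) (nat_lit 76) (nat_lit 45354047794) (nat_lit 152) (nat_lit 108869720) (nat_lit 36) (nat_lit 5) (nat_lit 37) (nat_lit 5) (nat_lit 38) (nat_lit 4) (nat_lit 347) (nat_lit 316) (nat_lit 237)))) (XT.nd (nat_lit 156) (nat_lit 304) (nat_lit 0) (XT.nd (nat_lit 78) (nat_lit 0) (nat_lit 0) (XT.lf (nat_lit 0) (nat_lit 1757343288) (nat_lit 152) (nat_lit 18953098645) (nat_lit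 228) (nat_lit 41939498114) (nat_lit 33) (nat_lit 5) (nat_lit 35) (nat_lit 5) (nat_lit 36) (nat_lit 5) (nat_lit 348) (nat_lit 316) (nat_lit 236)) (XT.lf (nat_lit 0) (nat_lit 44135943225) (nat_lit 228) (nat_lit 11983903886) (nat_lit 76) (nat_lit 10053619717) (nat_lit 33) (nat_lit 5) (nat_lit 36) (nat_lit 5) (nat_lit 34) (nat_lit 4) (nat_lit 349) (nat_lit 316) (nat_lit 235))) (XT.nd (nat_lit 78) (nat_lit 152) (nat_lit 0) (XT.lf (nat_lit 0) (nat_lit 453594491) (nat_lit 152) (nat_lit 28096985821) (nat_lit 76) (nat_lit 41379742508) (nat_lit 31) (nat_lit 5) (nat_lit 33) (nat_lit 5) (nat_lit 32) (nat_lit 5) (nat_lit 350) (nat_lit 316) (nat_lit 234)) (XT.lf (nat_lit 0) (nat_lit 24640720877) (nat_lit 228) (nat_lit 47097304815) (nat_lit 76) (nat_lit 2198200112) (nat_lit 29) (nat_lit 5) (nat_lit 32) (nat_lit 5) (nat_lit 30) (nat_lit 4) (nat_lit 351) (nat_lit 316) (nat_lit 233))))))) (XT.nd (nat_lit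 936) (nat_lit 684) (nat_lit 0) (XT.nd (nat_lit 468) (nat_lit 380) (nat_lit 0) (XT.nd (nat_lit 234) (nat_lit 228) (nat_lit 0) (XT.nd (nat_lit 78) (nat_lit 228) (nat_lit 0) (XT.lf (nat_lit 0) (nat_lit 8708921211) (nat_lit 76) (nat_lit 43160291452) (nat_lit 152) (nat_lit 26338070795) (nat_lit 28) (nat_lit 5) (nat_lit 29) (nat_lit 5) (nat_lit 30) (nat_lit 4) (nat_lit 352) (nat_lit 316) (nat_lit 232)) (XT.nd (nat_lit 78) (nat_lit 228) (nat_lit 0) (XT.lf (nat_lit 0) (nat_lit 70646853730) (nat_lit 76) (nat_lit 11441486871) (nat_lit 152) (nat_lit 691069315) (nat_lit 28) (nat_lit 5) (nat_lit 29) (nat_lit 5) (nat_lit 30) (nat_lit 4) (nat_lit 353) (nat_lit 316) (nat_lit 231)) (XT.lf (nat_lit 0) (nat_lit 27308344503) (nat_lit 228) (nat_lit 37012835408) (nat_lit 76) (nat_lit 23316791735) (nat_lit 25) (nat_lit 5) (nat_lit 28) (nat_lit 5) (nat_lit 26) (nat_lit 4) (nat_lit 354) (nat_lit 316) (nat_lit 230))))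 (XT.nd (nat_lit 78) (nat_lit 152) (nat_lit 0) (XT.lf (nat_lit 0) (nat_lit 26591638776) (nat_lit 76) (nat_lit 31747771216) (nat_lit 152) (nat_lit 34504448018) (nat_lit 24) (nat_lit 5) (nat_lit 25) (nat_lit 5) (nat_lit 26) (nat_lit 4) (nat_lit 355) (nat_lit 316) (nat_lit 229)) (XT.nd (nat_lit 78) (nat_lit 152) (nat_lit 0) (XT.lf (nat_lit 0) (nat_lit 92554780300) (nat_lit 152) (nat_lit 1905069573) (nat_lit 0) (nat_lit 3971275968) (nat_lit 24) (nat_lit 5) (nat_lit 26) (nat_lit 4) (nat_lit 24) (nat_lit 4) (nat_lit 356) (nat_lit 316) (nat_lit 228)) (XT.lf (nat_lit 0) (nat_lit 25877010595) (nat_lit 152) (nat_lit 35543152753) (nat_lit 76) (nat_lit 42943839011) (nat_lit 22) (nat_lit 5) (nat_lit 24) (nat_lit 5) (nat_lit 23) (nat_lit 4) (nat_lit 357) (nat_lit 316) (nat_lit 227))))) (XT.nd (nat_lit 234) (nat_lit 152) (nat_lit 0) (XT.nd (nat_lit 78) (nat_lit 152) (nat_lit 0) (XT.lf (nat_lit 0) (nat_lit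 35528688775) (nat_lit 76) (nat_lit 25020909441) (nat_lit 152) (nat_lit 50187853286) (nat_lit 21) (nat_lit 5) (nat_lit 22) (nat_lit 5) (nat_lit 23) (nat_lit 4) (nat_lit 358) (nat_lit 316) (nat_lit 226)) (XT.nd (nat_lit 78) (nat_lit 152) (nat_lit 0) (XT.lf (nat_lit 0) (nat_lit 98842260990) (nat_lit 152) (nat_lit 4279118427) (nat_lit 0) (nat_lit 14457084914) (nat_lit 21) (nat_lit 5) (nat_lit 23) (nat_lit 4) (nat_lit 21) (nat_lit 4) (nat_lit 359) (nat_lit 316) (nat_lit 225)) (XT.lf (nat_lit 0) (nat_lit 16345678175) (nat_lit 152) (nat_lit 50882221274) (nat_lit 76) (nat_lit 57646889121) (nat_lit 19) (nat_lit 5) (nat_lit 21) (nat_lit 5) (nat_lit 20) (nat_lit 4) (nat_lit 360) (nat_lit 316) (nat_lit 224)))) (XT.nd (nat_lit 78) (nat_lit 76) (nat_lit 0) (XT.lf (nat_lit 0) (nat_lit 26446597291) (nat_lit 76) (nat_lit 27623023751) (nat_lit 152) (nat_lit 78645244303) (nat_lit 18) (nat_lit 5) (nat_lit 19)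 (nat_lit 5) (nat_lit 20) (nat_lit 4) (nat_lit 361) (nat_lit 316) (nat_lit 223)) (XT.nd (nat_lit 78) (nat_lit 76) (nat_lit 0) (XT.lf (nat_lit 0) (nat_lit 95943554999) (nat_lit 152) (nat_lit 29620340325) (nat_lit 0) (nat_lit 15561650036) (nat_lit 18) (nat_lit 5) (nat_lit 20) (nat_lit 4) (nat_lit 18) (nat_lit 4) (nat_lit 362) (nat_lit 316) (nat_lit 222)) (XT.lf (nat_lit 0) (nat_lit 54426227976) (nat_lit 76) (nat_lit 88051763289) (nat_lit 76) (nat_lit 7665559945) (nat_lit 17) (nat_lit 4) (nat_lit 18) (nat_lit 5) (nat_lit 18) (nat_lit 4) (nat_lit 363) (nat_lit 316) (nat_lit 221)))))) (XT.nd (nat_lit 468) (nat_lit 304) (nat_lit 0) (XT.nd (nat_lit 234) (nat_lit 228) (nat_lit 0) (XT.nd (nat_lit 78) (nat_lit 76) (nat_lit 0) (XT.lf (nat_lit 0) (nat_lit 32320349667) (nat_lit 152) (nat_lit 14133466508) (nat_lit 76) (nat_lit 113377554343) (nat_lit 16) (nat_lit 5) (nat_lit 18) (nat_lit 5) (nat_lit 17)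 (nat_lit 4) (nat_lit 364) (nat_lit 316) (nat_lit 220)) (XT.nd (nat_lit 78) (nat_lit 0) (nat_lit 0) (XT.lf (nat_lit 0) (nat_lit 76280835487) (nat_lit 76) (nat_lit 145849382) (nat_lit 152) (nat_lit 93801742086) (nat_lit 15) (nat_lit 5) (nat_lit 16) (nat_lit 5) (nat_lit 17) (nat_lit 4) (nat_lit 365) (nat_lit 316) (nat_lit 219)) (XT.lf (nat_lit 0) (nat_lit 125086028469) (nat_lit 152) (nat_lit 7802805257) (nat_lit 0) (nat_lit 48517189717) (nat_lit 15) (nat_lit 5) (nat_lit 17) (nat_lit 4) (nat_lit 15) (nat_lit 4) (nat_lit 366) (nat_lit 316) (nat_lit 218)))) (XT.nd (nat_lit 78) (nat_lit 152) (nat_lit 0) (XT.lf (nat_lit 0) (nat_lit 88041334002) (nat_lit 76) (nat_lit 90969844505) (nat_lit 76) (nat_lit 14397996765) (nat_lit 14) (nat_lit 4) (nat_lit 15) (nat_lit 5) (nat_lit 15) (nat_lit 4) (nat_lit 367) (nat_lit 316) (nat_lit 217)) (XT.nd (nat_lit 78) (nat_lit 76) (nat_lit 0) (XT.lf (nat_lit 0) (nat_lit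 30023773259) (nat_lit 152) (nat_lit 15025898659) (nat_lit 76) (nat_lit 161292088755) (nat_lit 13) (nat_lit 5) (nat_lit 15) (nat_lit 5) (nat_lit 14) (nat_lit 4) (nat_lit 368) (nat_lit 316) (nat_lit 216)) (XT.lf (nat_lit 0) (nat_lit 78921975797) (nat_lit 152) (nat_lit 135312523396) (nat_lit 0) (nat_lit 5991296212) (nat_lit 12) (nat_lit 5) (nat_lit 14) (nat_lit 4) (nat_lit 12) (nat_lit 4) (nat_lit 369) (nat_lit 316) (nat_lit 215))))) (XT.nd (nat_lit 234) (nat_lit 228) (nat_lit 0) (XT.nd (nat_lit 78) (nat_lit 76) (nat_lit 0) (XT.lf (nat_lit 0) (nat_lit 132754229146) (nat_lit 152) (nat_lit 42593939797) (nat_lit 0) (nat_lit 59821274672) (nat_lit 12) (nat_lit 5) (nat_lit 14) (nat_lit 4) (nat_lit 12) (nat_lit 4) (nat_lit 370) (nat_lit 316) (nat_lit 214)) (XT.nd (nat_lit 78) (nat_lit 0) (nat_lit 0) (XT.lf (nat_lit 0) (nat_lit 59438315109) (nat_lit 76) (nat_lit 132379544978) (nat_lit 76) (nat_lit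 59444484127) (nat_lit 11) (nat_lit 4) (nat_lit 12) (nat_lit 5) (nat_lit 12) (nat_lit 4) (nat_lit 371) (nat_lit 316) (nat_lit 213)) (XT.lf (nat_lit 0) (nat_lit 171148223591) (nat_lit 76) (nat_lit 85197259872) (nat_lit 76) (nat_lit 12260248671) (nat_lit 11) (nat_lit 4) (nat_lit 12) (nat_lit 5) (nat_lit 12) (nat_lit 4) (nat_lit 372) (nat_lit 316) (nat_lit 212)))) (XT.nd (nat_lit 156) (nat_lit 76) (nat_lit 0) (XT.nd (nat_lit 78) (nat_lit 0) (nat_lit 0) (XT.lf (nat_lit 0) (nat_lit 3975790290) (nat_lit 76) (nat_lit 33543530378) (nat_lit 152) (nat_lit 249784101169) (nat_lit 9) (nat_lit 5) (nat_lit 10) (nat_lit 5) (nat_lit 11) (nat_lit 4) (nat_lit 373) (nat_lit 316) (nat_lit 211)) (XT.lf (nat_lit 0) (nat_lit 92927415137) (nat_lit 152) (nat_lit 190995394973) (nat_lit 0) (nat_lit 23460282574) (nat_lit 9) (nat_lit 5) (nat_lit 11) (nat_lit 4) (nat_lit 9) (nat_lit 4) (nat_lit 374) (nat_lit 316) (nat_lit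 210))) (XT.nd (nat_lit 78) (nat_lit 76) (nat_lit 0) (XT.lf (nat_lit 0) (nat_lit 153331180459) (nat_lit 152) (nat_lit 91847232484) (nat_lit 0) (nat_lit 83862573371) (nat_lit 9) (nat_lit 5) (nat_lit 11) (nat_lit 4) (nat_lit 9) (nat_lit 4) (nat_lit 375) (nat_lit 316) (nat_lit 209)) (XT.lf (nat_lit 0) (nat_lit 15731619158) (nat_lit 76) (nat_lit 203078851861) (nat_lit 76) (nat_lit 133608879473) (nat_lit 8) (nat_lit 4) (nat_lit 9) (nat_lit 5) (nat_lit 9) (nat_lit 4) (nat_lit 376) (nat_lit 316) (nat_lit 208))))))))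
noncomputable def xc76 : XT := (XT.nd (nat_lit 42744) (nat_lit 0) (nat_lit 2432) (XT.nd (nat_lit 936) (nat_lit 152) (nat_lit 0) (XT.nd (nat_lit 468) (nat_lit 76) (nat_lit 0) (XT.nd (nat_lit 234) (nat_lit 76) (nat_lit 0) (XT.nd (nat_lit 78) (nat_lit 76) (nat_lit 0) (XT.lf (nat_lit 0) (nat_lit 135192143195) (nat_lit 76) (nat_lit 155933597797) (nat_lit 76) (nat_lit 86462361243) (nat_lit 8) (nat_lit 4) (nat_lit 9) (nat_lit 5) (nat_lit 9) (nat_lit 4) (nat_lit 377) (nat_lit 316) (nat_lit 207)) (XT.nd (nat_lit 78) (nat_lit 76) (nat_lit 0) (XT.lf (nat_lit 0) (nat_lit 264205369544) (nat_lit 76) (nat_lit 105018748793) (nat_lit 76) (nat_lit 35546341714) (nat_lit 8) (nat_lit 4) (nat_lit 9) (nat_lit 5) (nat_lit 9) (nat_lit 4) (nat_lit 378) (nat_lit 316) (nat_lit 206)) (XT.lf (nat_lit 0) (nat_lit 18818673344) (nat_lit 152) (nat_lit 30895210541) (nat_lit 76) (nat_lit 384398444342) (nat_lit 7) (nat_lit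 5) (nat_lit 9) (nat_lit 5) (nat_lit 8) (nat_lit 4) (nat_lit 379) (nat_lit 316) (nat_lit 205)))) (XT.nd (nat_lit 78) (nat_lit 0) (nat_lit 0) (XT.lf (nat_lit 0) (nat_lit 77893824371) (nat_lit 152) (nat_lit 376070630859) (nat_lit 0) (nat_lit 11727639194) (nat_lit 6) (nat_lit 5) (nat_lit 8) (nat_lit 4) (nat_lit 6) (nat_lit 4) (nat_lit 380) (nat_lit 316) (nat_lit 204)) (XT.nd (nat_lit 78) (nat_lit 0) (nat_lit 0) (XT.lf (nat_lit 0) (nat_lit 143078465166) (nat_lit 152) (nat_lit 279739207996) (nat_lit 0) (nat_lit 76911395036) (nat_lit 6) (nat_lit 5) (nat_lit 8) (nat_lit 4) (nat_lit 6) (nat_lit 4) (nat_lit 381) (nat_lit 316) (nat_lit 203)) (XT.lf (nat_lit 0) (nat_lit 213476223170) (nat_lit 152) (nat_lit 175704525922) (nat_lit 0) (nat_lit 147308333640) (nat_lit 6) (nat_lit 5) (nat_lit 8) (nat_lit 4) (nat_lit 6) (nat_lit 4) (nat_lit 382) (nat_lit 316) (nat_lit 202))))) (XT.nd (nat_lit 234) (nat_lit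 0) (nat_lit 0) (XT.nd (nat_lit 78) (nat_lit 76) (nat_lit 0) (XT.lf (nat_lit 0) (nat_lit 289504270284) (nat_lit 152) (nat_lit 63350082817) (nat_lit 0) (nat_lit 223335622049) (nat_lit 6) (nat_lit 5) (nat_lit 8) (nat_lit 4) (nat_lit 6) (nat_lit 4) (nat_lit 383) (nat_lit 316) (nat_lit 201)) (XT.nd (nat_lit 78) (nat_lit 0) (nat_lit 0) (XT.lf (nat_lit 0) (nat_lit 59907334251) (nat_lit 76) (nat_lit 312641130208) (nat_lit 76) (nat_lit 246471779469) (nat_lit 5) (nat_lit 4) (nat_lit 6) (nat_lit 5) (nat_lit 6) (nat_lit 4) (nat_lit 384) (nat_lit 316) (nat_lit 200)) (XT.lf (nat_lit 0) (nat_lit 195284886660) (nat_lit 76) (nat_lit 268053470367) (nat_lit 76) (nat_lit 201883469162) (nat_lit 5) (nat_lit 4) (nat_lit 6) (nat_lit 5) (nat_lit 6) (nat_lit 4) (nat_lit 385) (nat_lit 316) (nat_lit 199)))) (XT.nd (nat_lit 78) (nat_lit 0) (nat_lit 0) (XT.lf (nat_lit 0) (nat_lit 341490171922) (nat_lit 76) (nat_lit 219900014715)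 (nat_lit 76) (nat_lit 153729411226) (nat_lit 5) (nat_lit 4) (nat_lit 6) (nat_lit 5) (nat_lit 6) (nat_lit 4) (nat_lit 386) (nat_lit 316) (nat_lit 198)) (XT.nd (nat_lit 78) (nat_lit 0) (nat_lit 0) (XT.lf (nat_lit 0) (nat_lit 499389591729) (nat_lit 76) (nat_lit 167895409440) (nat_lit 76) (nat_lit 101724248280) (nat_lit 5) (nat_lit 4) (nat_lit 6) (nat_lit 5) (nat_lit 6) (nat_lit 4) (nat_lit 387) (nat_lit 316) (nat_lit 197)) (XT.lf (nat_lit 0) (nat_lit 669918846344) (nat_lit 76) (nat_lit 111731479104) (nat_lit 76) (nat_lit 45559801583) (nat_lit 5) (nat_lit 4) (nat_lit 6) (nat_lit 5) (nat_lit 6) (nat_lit 4) (nat_lit 388) (nat_lit 316) (nat_lit 196)))))) (XT.nd (nat_lit 41340) (nat_lit 0) (nat_lit 7904) (XT.nd (nat_lit 234) (nat_lit 0) (nat_lit 0) (XT.nd (nat_lit 78) (nat_lit 76) (nat_lit 0) (XT.lf (nat_lit 0) (nat_lit 14613564770) (nat_lit 152) (nat_lit 36214347855) (nat_lit 76) (nat_lit 839227426940)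 (nat_lit 4) (nat_lit 5) (nat_lit 6) (nat_lit 5) (nat_lit 5) (nat_lit 4) (nat_lit 389) (nat_lit 316) (nat_lit 195)) (XT.nd (nat_lit 78) (nat_lit 0) (nat_lit 0) (XT.lf (nat_lit 0) (nat_lit 79808323267) (nat_lit 152) (nat_lit 861205514948) (nat_lit 0) (nat_lit 16786801048) (nat_lit 3) (nat_lit 5) (nat_lit 5) (nat_lit 4) (nat_lit 3) (nat_lit 4) (nat_lit 390) (nat_lit 316) (nat_lit 194)) (XT.lf (nat_lit 0) (nat_lit 151715976985) (nat_lit 152) (nat_lit 790480655920) (nat_lit 0) (nat_lit 88694064380) (nat_lit 3) (nat_lit 5) (nat_lit 5) (nat_lit 4) (nat_lit 3) (nat_lit 4) (nat_lit 391) (nat_lit 316) (nat_lit 193)))) (XT.nd (nat_lit 78) (nat_lit 0) (nat_lit 0) (XT.lf (nat_lit 0) (nat_lit 229375401357) (nat_lit 152) (nat_lit 714099473457) (nat_lit 0) (nat_lit 166353127284) (nat_lit 3) (nat_lit 5) (nat_lit 5) (nat_lit 4) (nat_lit 3) (nat_lit 4) (nat_lit 392) (nat_lit 316) (nat_lit 192)) (XT.nd (nat_lit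 40950) (nat_lit 0) (nat_lit 8664) (XT.lf (nat_lit 0) (nat_lit 313246800380) (nat_lit 152) (nat_lit 631609338330) (nat_lit 0) (nat_lit 250224191615) (nat_lit 3) (nat_lit 5) (nat_lit 5) (nat_lit 4) (nat_lit 3) (nat_lit 4) (nat_lit 393) (nat_lit 316) (nat_lit 191)) (XT.lf (nat_lit 0) (nat_lit 3490864912) (nat_lit 0) (nat_lit 3490864912) (nat_lit 684) (nat_lit 649171294) (nat_lit 117) (nat_lit 5) (nat_lit 117) (nat_lit 3) (nat_lit 126) (nat_lit 3) (nat_lit 317) (nat_lit 317) (nat_lit 266))))) (XT.nd (nat_lit 234) (nat_lit 0) (nat_lit 152) (XT.nd (nat_lit 78) (nat_lit 760) (nat_lit 0) (XT.lf (nat_lit 76) (nat_lit 3437207238) (nat_lit 0) (nat_lit 11637191626) (nat_lit 760) (nat_lit 769855746) (nat_lit 118) (nat_lit 5) (nat_lit 117) (nat_lit 5) (nat_lit 127) (nat_lit 5) (nat_lit 318) (nat_lit 317) (nat_lit 265)) (XT.nd (nat_lit 78) (nat_lit 0) (nat_lit 76) (XT.lf (nat_lit 0) (nat_lit 27609761)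 (nat_lit 760) (nat_lit 221949773) (nat_lit 836) (nat_lit 16212920758) (nat_lit 107) (nat_lit 5) (nat_lit 117) (nat_lit 5) (nat_lit 118) (nat_lit 5) (nat_lit 319) (nat_lit 317) (nat_lit 264)) (XT.lf (nat_lit 0) (nat_lit 1221595343) (nat_lit 760) (nat_lit 3986125693) (nat_lit 836) (nat_lit 11903862483) (nat_lit 108) (nat_lit 5) (nat_lit 118) (nat_lit 5) (nat_lit 119) (nat_lit 5) (nat_lit 320) (nat_lit 317) (nat_lit 263)))) (XT.nd (nat_lit 78) (nat_lit 0) (nat_lit 76) (XT.lf (nat_lit 0) (nat_lit 2753303975) (nat_lit 760) (nat_lit 7894419025) (nat_lit 836) (nat_lit 7152814445) (nat_lit 109) (nat_lit 5) (nat_lit 119) (nat_lit 5) (nat_lit 120) (nat_lit 5) (nat_lit 321) (nat_lit 317) (nat_lit 262)) (XT.nd (nat_lit 78) (nat_lit 0) (nat_lit 0) (XT.lf (nat_lit 0) (nat_lit 4664635148) (nat_lit 760) (nat_lit 11957098069) (nat_lit 836) (nat_lit 1910050406) (nat_lit 110) (nat_lit 5) (nat_lit 120) (nat_lit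 5) (nat_lit 121) (nat_lit 5) (nat_lit 322) (nat_lit 317) (nat_lit 261)) (XT.lf (nat_lit 76) (nat_lit 3057553098) (nat_lit 0) (nat_lit 4005443722) (nat_lit 836) (nat_lit 12241854468) (nat_lit 111) (nat_lit 5) (nat_lit 110) (nat_lit 5) (nat_lit 121) (nat_lit 5) (nat_lit 323) (nat_lit 317) (nat_lit 260))))))) (XT.nd (nat_lit 936) (nat_lit 2204) (nat_lit 0) (XT.nd (nat_lit 468) (nat_lit 1368) (nat_lit 0) (XT.nd (nat_lit 234) (nat_lit 1064) (nat_lit 0) (XT.nd (nat_lit 78) (nat_lit 1140) (nat_lit 0) (XT.lf (nat_lit 0) (nat_lit 9984313293) (nat_lit 760) (nat_lit 610157893) (nat_lit 76) (nat_lit 9528764804) (nat_lit 111) (nat_lit 5) (nat_lit 121) (nat_lit 5) (nat_lit 112) (nat_lit 5) (nat_lit 324) (nat_lit 317) (nat_lit 259)) (XT.nd (nat_lit 78) (nat_lit 380) (nat_lit 0) (XT.lf (nat_lit 0) (nat_lit 13490612379) (nat_lit 836) (nat_lit 4323287456) (nat_lit 76) (nat_lit 3175651767) (nat_lit 101) (nat_lit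 5) (nat_lit 112) (nat_lit 5) (nat_lit 102) (nat_lit 5) (nat_lit 325) (nat_lit 317) (nat_lit 258)) (XT.lf (nat_lit 0) (nat_lit 13654349983) (nat_lit 380) (nat_lit 3998933764) (nat_lit 456) (nat_lit 4253117520) (nat_lit 96) (nat_lit 5) (nat_lit 101) (nat_lit 5) (nat_lit 102) (nat_lit 5) (nat_lit 326) (nat_lit 317) (nat_lit 257)))) (XT.nd (nat_lit 78) (nat_lit 760) (nat_lit 0) (XT.lf (nat_lit 0) (nat_lit 10469109201) (nat_lit 304) (nat_lit 12065211210) (nat_lit 380) (nat_lit 343031489) (nat_lit 92) (nat_lit 5) (nat_lit 96) (nat_lit 5) (nat_lit 97) (nat_lit 5) (nat_lit 327) (nat_lit 317) (nat_lit 256)) (XT.nd (nat_lit 78) (nat_lit 304) (nat_lit 0) (XT.lf (nat_lit 0) (nat_lit 4104625979) (nat_lit 456) (nat_lit 16819771565) (nat_lit 76) (nat_lit 2981123192) (nat_lit 86) (nat_lit 5) (nat_lit 92) (nat_lit 5) (nat_lit 87) (nat_lit 5) (nat_lit 328) (nat_lit 317) (nat_lit 255)) (XT.lf (nat_lit 0) (nat_lit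 3449181971) (nat_lit 304) (nat_lit 5901322291) (nat_lit 380) (nat_lit 15642453123) (nat_lit 82) (nat_lit 5) (nat_lit 86) (nat_lit 5) (nat_lit 87) (nat_lit 5) (nat_lit 329) (nat_lit 317) (nat_lit 254))))) (XT.nd (nat_lit 234) (nat_lit 760) (nat_lit 0) (XT.nd (nat_lit 78) (nat_lit 608) (nat_lit 0) (XT.lf (nat_lit 0) (nat_lit 15453562026) (nat_lit 380) (nat_lit 404027843) (nat_lit 76) (nat_lit 10287939190) (nat_lit 82) (nat_lit 5) (nat_lit 87) (nat_lit 5) (nat_lit 83) (nat_lit 5) (nat_lit 330) (nat_lit 317) (nat_lit 253)) (XT.nd (nat_lit 78) (nat_lit 304) (nat_lit 0) (XT.lf (nat_lit 0) (nat_lit 22492929977) (nat_lit 380) (nat_lit 4335884122) (nat_lit 76) (nat_lit 539103496) (nat_lit 78) (nat_lit 5) (nat_lit 83) (nat_lit 5) (nat_lit 79) (nat_lit 5) (nat_lit 331) (nat_lit 317) (nat_lit 252)) (XT.lf (nat_lit 0) (nat_lit 1939892279) (nat_lit 304) (nat_lit 8671632646) (nat_lit 76) (nat_lit 18046607047)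 (nat_lit 74) (nat_lit 5) (nat_lit 78) (nat_lit 5) (nat_lit 75) (nat_lit 5) (nat_lit 332) (nat_lit 317) (nat_lit 251)))) (XT.nd (nat_lit 78) (nat_lit 456) (nat_lit 0) (XT.lf (nat_lit 0) (nat_lit 9566921143) (nat_lit 380) (nat_lit 13353412590) (nat_lit 76) (nat_lit 7105357917) (nat_lit 70) (nat_lit 5) (nat_lit 75) (nat_lit 5) (nat_lit 71) (nat_lit 5) (nat_lit 333) (nat_lit 317) (nat_lit 250)) (XT.nd (nat_lit 78) (nat_lit 228) (nat_lit 0) (XT.lf (nat_lit 0) (nat_lit 13072334320) (nat_lit 228) (nat_lit 5251171045) (nat_lit 304) (nat_lit 13153191972) (nat_lit 67) (nat_lit 5) (nat_lit 70) (nat_lit 5) (nat_lit 71) (nat_lit 5) (nat_lit 334) (nat_lit 317) (nat_lit 249)) (XT.lf (nat_lit 0) (nat_lit 9105861738) (nat_lit 228) (nat_lit 19252969858) (nat_lit 304) (nat_lit 4656051204) (nat_lit 64) (nat_lit 5) (nat_lit 67) (nat_lit 5) (nat_lit 68) (nat_lit 5) (nat_lit 335) (nat_lit 317) (nat_lit 248))))))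 (XT.nd (nat_lit 468) (nat_lit 1064) (nat_lit 0) (XT.nd (nat_lit 234) (nat_lit 608) (nat_lit 0) (XT.nd (nat_lit 78) (nat_lit 228) (nat_lit 0) (XT.lf (nat_lit 0) (nat_lit 4780447278) (nat_lit 228) (nat_lit 69031741) (nat_lit 304) (nat_lit 29799458108) (nat_lit 60) (nat_lit 5) (nat_lit 63) (nat_lit 5) (nat_lit 64) (nat_lit 5) (nat_lit 336) (nat_lit 317) (nat_lit 247)) (XT.nd (nat_lit 78) (nat_lit 228) (nat_lit 0) (XT.lf (nat_lit 0) (nat_lit 15685231898) (nat_lit 304) (nat_lit 203657739) (nat_lit 76) (nat_lit 20484372679) (nat_lit 60) (nat_lit 5) (nat_lit 64) (nat_lit 5) (nat_lit 61) (nat_lit 5) (nat_lit 337) (nat_lit 317) (nat_lit 246)) (XT.lf (nat_lit 0) (nat_lit 27965947617) (nat_lit 304) (nat_lit 5423408525) (nat_lit 76) (nat_lit 4817279872) (nat_lit 57) (nat_lit 5) (nat_lit 61) (nat_lit 5) (nat_lit 58) (nat_lit 5) (nat_lit 338) (nat_lit 317) (nat_lit 245)))) (XT.nd (nat_lit 78) (nat_lit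 380) (nat_lit 0) (XT.lf (nat_lit 0) (nat_lit 1729645301) (nat_lit 228) (nat_lit 11313342740) (nat_lit 76) (nat_lit 27106856070) (nat_lit 54) (nat_lit 5) (nat_lit 57) (nat_lit 5) (nat_lit 55) (nat_lit 5) (nat_lit 339) (nat_lit 317) (nat_lit 244)) (XT.nd (nat_lit 78) (nat_lit 152) (nat_lit 0) (XT.lf (nat_lit 0) (nat_lit 14917381629) (nat_lit 304) (nat_lit 17993218458) (nat_lit 76) (nat_lit 9298592997) (nat_lit 51) (nat_lit 5) (nat_lit 55) (nat_lit 5) (nat_lit 52) (nat_lit 5) (nat_lit 340) (nat_lit 317) (nat_lit 243)) (XT.lf (nat_lit 0) (nat_lit 18931798469) (nat_lit 152) (nat_lit 10931926756) (nat_lit 228) (nat_lit 14534391096) (nat_lit 49) (nat_lit 5) (nat_lit 51) (nat_lit 5) (nat_lit 52) (nat_lit 5) (nat_lit 341) (nat_lit 317) (nat_lit 242))))) (XT.nd (nat_lit 234) (nat_lit 684) (nat_lit 0) (XT.nd (nat_lit 78) (nat_lit 228) (nat_lit 0) (XT.lf (nat_lit 0) (nat_lit 12895728251) (nat_lit 152)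 (nat_lit 33818170693) (nat_lit 228) (nat_lit 12853677) (nat_lit 47) (nat_lit 5) (nat_lit 49) (nat_lit 5) (nat_lit 50) (nat_lit 5) (nat_lit 342) (nat_lit 317) (nat_lit 241)) (XT.nd (nat_lit 78) (nat_lit 0) (nat_lit 0) (XT.lf (nat_lit 0) (nat_lit 5745891175) (nat_lit 152) (nat_lit 10136577615) (nat_lit 228) (nat_lit 33311302144) (nat_lit 44) (nat_lit 5) (nat_lit 46) (nat_lit 5) (nat_lit 47) (nat_lit 5) (nat_lit 343) (nat_lit 317) (nat_lit 240)) (XT.lf (nat_lit 0) (nat_lit 33878151262) (nat_lit 228) (nat_lit 2400580487) (nat_lit 76) (nat_lit 15537953559) (nat_lit 44) (nat_lit 5) (nat_lit 47) (nat_lit 5) (nat_lit 45) (nat_lit 5) (nat_lit 344) (nat_lit 317) (nat_lit 239)))) (XT.nd (nat_lit 156) (nat_lit 304) (nat_lit 0) (XT.nd (nat_lit 78) (nat_lit 228) (nat_lit 0) (XT.lf (nat_lit 0) (nat_lit 43123106649) (nat_lit 152) (nat_lit 11024527727) (nat_lit 228) (nat_lit 460095187) (nat_lit 42) (nat_lit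 5) (nat_lit 44) (nat_lit 5) (nat_lit 45) (nat_lit 5) (nat_lit 345) (nat_lit 317) (nat_lit 238)) (XT.lf (nat_lit 0) (nat_lit 18683730486) (nat_lit 228) (nat_lit 22257374449) (nat_lit 76) (nat_lit 16623751305) (nat_lit 39) (nat_lit 5) (nat_lit 42) (nat_lit 5) (nat_lit 40) (nat_lit 5) (nat_lit 346) (nat_lit 317) (nat_lit 237))) (XT.nd (nat_lit 78) (nat_lit 152) (nat_lit 0) (XT.lf (nat_lit 0) (nat_lit 26127899652) (nat_lit 152) (nat_lit 14003080793) (nat_lit 228) (nat_lit 20587796885) (nat_lit 37) (nat_lit 5) (nat_lit 39) (nat_lit 5) (nat_lit 40) (nat_lit 5) (nat_lit 347) (nat_lit 317) (nat_lit 236)) (XT.lf (nat_lit 0) (nat_lit 69327233) (nat_lit 152) (nat_lit 48777656659) (nat_lit 76) (nat_lit 15234993249) (nat_lit 35) (nat_lit 5) (nat_lit 37) (nat_lit 5) (nat_lit 36) (nat_lit 5) (nat_lit 348) (nat_lit 317) (nat_lit 235))))))))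
noncomputable def xc77 : XT := (XT.nd (nat_lit 1950) (nat_lit 608) (nat_lit 0) (XT.nd (nat_lit 936) (nat_lit 760) (nat_lit 0) (XT.nd (nat_lit 468) (nat_lit 532) (nat_lit 0) (XT.nd (nat_lit 234) (nat_lit 228) (nat_lit 0) (XT.nd (nat_lit 78) (nat_lit 152) (nat_lit 0) (XT.lf (nat_lit 0) (nat_lit 2204462529) (nat_lit 152) (nat_lit 20337177671) (nat_lit 228) (nat_lit 45111524431) (nat_lit 33) (nat_lit 5) (nat_lit 35) (nat_lit 5) (nat_lit 36) (nat_lit 5) (nat_lit 349) (nat_lit 317) (nat_lit 234)) (XT.nd (nat_lit 78) (nat_lit 152) (nat_lit 0) (XT.lf (nat_lit 0) (nat_lit 47830176497) (nat_lit 228) (nat_lit 12652580205) (nat_lit 76) (nat_lit 10976370995) (nat_lit 33) (nat_lit 5) (nat_lit 36) (nat_lit 5) (nat_lit 34) (nat_lit 4) (nat_lit 350) (nat_lit 317) (nat_lit 233)) (XT.lf (nat_lit 0) (nat_lit 648064949) (nat_lit 152) (nat_lit 30062040220) (nat_lit 76) (nat_lit 44806691487) (nat_lit 31) (nat_lit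 5) (nat_lit 33) (nat_lit 5) (nat_lit 32) (nat_lit 5) (nat_lit 351) (nat_lit 317) (nat_lit 232)))) (XT.nd (nat_lit 78) (nat_lit 76) (nat_lit 0) (XT.lf (nat_lit 0) (nat_lit 26764535518) (nat_lit 228) (nat_lit 50588966006) (nat_lit 76) (nat_lit 2489954824) (nat_lit 29) (nat_lit 5) (nat_lit 32) (nat_lit 5) (nat_lit 30) (nat_lit 4) (nat_lit 352) (nat_lit 317) (nat_lit 231)) (XT.nd (nat_lit 78) (nat_lit 0) (nat_lit 0) (XT.lf (nat_lit 0) (nat_lit 9669758125) (nat_lit 76) (nat_lit 46494371709) (nat_lit 152) (nat_lit 28292430559) (nat_lit 28) (nat_lit 5) (nat_lit 29) (nat_lit 5) (nat_lit 30) (nat_lit 4) (nat_lit 353) (nat_lit 317) (nat_lit 230)) (XT.lf (nat_lit 0) (nat_lit 76543160563) (nat_lit 76) (nat_lit 12246858545) (nat_lit 152) (nat_lit 604979028) (nat_lit 28) (nat_lit 5) (nat_lit 29) (nat_lit 5) (nat_lit 30) (nat_lit 4) (nat_lit 354) (nat_lit 317) (nat_lit 229))))) (XT.nd (nat_lit 234) (nat_lit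 228) (nat_lit 0) (XT.nd (nat_lit 78) (nat_lit 76) (nat_lit 0) (XT.lf (nat_lit 0) (nat_lit 29625130173) (nat_lit 228) (nat_lit 39730704898) (nat_lit 76) (nat_lit 25286538408) (nat_lit 25) (nat_lit 5) (nat_lit 28) (nat_lit 5) (nat_lit 26) (nat_lit 4) (nat_lit 355) (nat_lit 317) (nat_lit 228)) (XT.nd (nat_lit 78) (nat_lit 0) (nat_lit 0) (XT.lf (nat_lit 0) (nat_lit 28951559899) (nat_lit 76) (nat_lit 34180965858) (nat_lit 152) (nat_lit 37132514974) (nat_lit 24) (nat_lit 5) (nat_lit 25) (nat_lit 5) (nat_lit 26) (nat_lit 4) (nat_lit 356) (nat_lit 317) (nat_lit 227)) (XT.lf (nat_lit 0) (nat_lit 100077336533) (nat_lit 152) (nat_lit 1837798108) (nat_lit 0) (nat_lit 4384546863) (nat_lit 24) (nat_lit 5) (nat_lit 26) (nat_lit 4) (nat_lit 24) (nat_lit 4) (nat_lit 357) (nat_lit 317) (nat_lit 226)))) (XT.nd (nat_lit 78) (nat_lit 76) (nat_lit 0) (XT.lf (nat_lit 0) (nat_lit 28061742959) (nat_lit 152) (nat_lit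 38172663911) (nat_lit 76) (nat_lit 46472964426) (nat_lit 22) (nat_lit 5) (nat_lit 24) (nat_lit 5) (nat_lit 23) (nat_lit 4) (nat_lit 358) (nat_lit 317) (nat_lit 225)) (XT.nd (nat_lit 78) (nat_lit 0) (nat_lit 0) (XT.lf (nat_lit 0) (nat_lit 38575627321) (nat_lit 76) (nat_lit 26927218547) (nat_lit 152) (nat_lit 54088116768) (nat_lit 21) (nat_lit 5) (nat_lit 22) (nat_lit 5) (nat_lit 23) (nat_lit 4) (nat_lit 359) (nat_lit 317) (nat_lit 224)) (XT.lf (nat_lit 0) (nat_lit 106852205470) (nat_lit 152) (nat_lit 4428263146) (nat_lit 0) (nat_lit 15699125242) (nat_lit 21) (nat_lit 5) (nat_lit 23) (nat_lit 4) (nat_lit 21) (nat_lit 4) (nat_lit 360) (nat_lit 317) (nat_lit 223)))))) (XT.nd (nat_lit 468) (nat_lit 304) (nat_lit 0) (XT.nd (nat_lit 234) (nat_lit 228) (nat_lit 0) (XT.nd (nat_lit 78) (nat_lit 76) (nat_lit 0) (XT.lf (nat_lit 0) (nat_lit 17752805348) (nat_lit 152) (nat_lit 54764703627) (nat_lit 76)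 (nat_lit 62342271891) (nat_lit 19) (nat_lit 5) (nat_lit 21) (nat_lit 5) (nat_lit 20) (nat_lit 4) (nat_lit 361) (nat_lit 317) (nat_lit 222)) (XT.nd (nat_lit 78) (nat_lit 0) (nat_lit 0) (XT.lf (nat_lit 0) (nat_lit 28742246029) (nat_lit 76) (nat_lit 29747858322) (nat_lit 152) (nat_lit 84837188668) (nat_lit 18) (nat_lit 5) (nat_lit 19) (nat_lit 5) (nat_lit 20) (nat_lit 4) (nat_lit 362) (nat_lit 317) (nat_lit 221)) (XT.lf (nat_lit 0) (nat_lit 103708151277) (nat_lit 152) (nat_lit 31820194119) (nat_lit 0) (nat_lit 16882773302) (nat_lit 18) (nat_lit 5) (nat_lit 20) (nat_lit 4) (nat_lit 18) (nat_lit 4) (nat_lit 363) (nat_lit 317) (nat_lit 220)))) (XT.nd (nat_lit 78) (nat_lit 152) (nat_lit 0) (XT.lf (nat_lit 0) (nat_lit 58942721499) (nat_lit 76) (nat_lit 95018555510) (nat_lit 76) (nat_lit 8189492366) (nat_lit 17) (nat_lit 4) (nat_lit 18) (nat_lit 5) (nat_lit 18) (nat_lit 4) (nat_lit 364) (nat_lit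 317) (nat_lit 219)) (XT.nd (nat_lit 78) (nat_lit 76) (nat_lit 0) (XT.lf (nat_lit 0) (nat_lit 34986027474) (nat_lit 152) (nat_lit 15111119014) (nat_lit 76) (nat_lit 122516719179) (nat_lit 16) (nat_lit 5) (nat_lit 18) (nat_lit 5) (nat_lit 17) (nat_lit 4) (nat_lit 365) (nat_lit 317) (nat_lit 218)) (XT.lf (nat_lit 0) (nat_lit 82529676869) (nat_lit 76) (nat_lit 87548323) (nat_lit 152) (nat_lit 101225644531) (nat_lit 15) (nat_lit 5) (nat_lit 16) (nat_lit 5) (nat_lit 17) (nat_lit 4) (nat_lit 366) (nat_lit 317) (nat_lit 217))))) (XT.nd (nat_lit 234) (nat_lit 152) (nat_lit 0) (XT.nd (nat_lit 78) (nat_lit 152) (nat_lit 0) (XT.lf (nat_lit 0) (nat_lit 135164668104) (nat_lit 152) (nat_lit 8288961604) (nat_lit 0) (nat_lit 52461277454) (nat_lit 15) (nat_lit 5) (nat_lit 17) (nat_lit 4) (nat_lit 15) (nat_lit 4) (nat_lit 367) (nat_lit 317) (nat_lit 216)) (XT.nd (nat_lit 78) (nat_lit 76) (nat_lit 0) (XT.lf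 (nat_lit 0) (nat_lit 95216708526) (nat_lit 76) (nat_lit 98183868209) (nat_lit 76) (nat_lit 15477897836) (nat_lit 14) (nat_lit 4) (nat_lit 15) (nat_lit 5) (nat_lit 15) (nat_lit 4) (nat_lit 368) (nat_lit 317) (nat_lit 215)) (XT.lf (nat_lit 0) (nat_lit 32490153067) (nat_lit 152) (nat_lit 16103545216) (nat_lit 76) (nat_lit 174252170946) (nat_lit 13) (nat_lit 5) (nat_lit 15) (nat_lit 5) (nat_lit 14) (nat_lit 4) (nat_lit 369) (nat_lit 317) (nat_lit 214)))) (XT.nd (nat_lit 156) (nat_lit 76) (nat_lit 0) (XT.nd (nat_lit 78) (nat_lit 0) (nat_lit 0) (XT.lf (nat_lit 0) (nat_lit 85298190948) (nat_lit 152) (nat_lit 146016318606) (nat_lit 0) (nat_lit 6526218851) (nat_lit 12) (nat_lit 5) (nat_lit 14) (nat_lit 4) (nat_lit 12) (nat_lit 4) (nat_lit 370) (nat_lit 317) (nat_lit 213)) (XT.lf (nat_lit 0) (nat_lit 143432398113) (nat_lit 152) (nat_lit 45889226590) (nat_lit 0) (nat_lit 64658475667) (nat_lit 12) (nat_lit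 5) (nat_lit 14) (nat_lit 4) (nat_lit 12) (nat_lit 4) (nat_lit 371) (nat_lit 317) (nat_lit 212))) (XT.nd (nat_lit 78) (nat_lit 0) (nat_lit 0) (XT.lf (nat_lit 0) (nat_lit 64300731400) (nat_lit 76) (nat_lit 142917780432) (nat_lit 76) (nat_lit 64142052105) (nat_lit 11) (nat_lit 4) (nat_lit 12) (nat_lit 5) (nat_lit 12) (nat_lit 4) (nat_lit 372) (nat_lit 317) (nat_lit 211)) (XT.lf (nat_lit 0) (nat_lit 184939480628) (nat_lit 76) (nat_lit 91964773861) (nat_lit 76) (nat_lit 13187373424) (nat_lit 11) (nat_lit 4) (nat_lit 12) (nat_lit 5) (nat_lit 12) (nat_lit 4) (nat_lit 373) (nat_lit 317) (nat_lit 210))))))) (XT.nd (nat_lit 936) (nat_lit 152) (nat_lit 0) (XT.nd (nat_lit 468) (nat_lit 228) (nat_lit 0) (XT.nd (nat_lit 234) (nat_lit 76) (nat_lit 0) (XT.nd (nat_lit 78) (nat_lit 0) (nat_lit 0) (XT.lf (nat_lit 0) (nat_lit 4390582415) (nat_lit 76) (nat_lit 36179920561) (nat_lit 152) (nat_lit 269714705330)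 (nat_lit 9) (nat_lit 5) (nat_lit 10) (nat_lit 5) (nat_lit 11) (nat_lit 4) (nat_lit 374) (nat_lit 317) (nat_lit 209)) (XT.nd (nat_lit 78) (nat_lit 0) (nat_lit 0) (XT.lf (nat_lit 0) (nat_lit 100408248993) (nat_lit 152) (nat_lit 206183840517) (nat_lit 0) (nat_lit 25379313514) (nat_lit 9) (nat_lit 5) (nat_lit 11) (nat_lit 4) (nat_lit 9) (nat_lit 4) (nat_lit 375) (nat_lit 317) (nat_lit 208)) (XT.lf (nat_lit 0) (nat_lit 165640860678) (nat_lit 152) (nat_lit 99110579552) (nat_lit 0) (nat_lit 90610661032) (nat_lit 9) (nat_lit 5) (nat_lit 11) (nat_lit 4) (nat_lit 9) (nat_lit 4) (nat_lit 376) (nat_lit 317) (nat_lit 207)))) (XT.nd (nat_lit 78) (nat_lit 0) (nat_lit 0) (XT.lf (nat_lit 0) (nat_lit 17070910930) (nat_lit 76) (nat_lit 219285645531) (nat_lit 76) (nat_lit 144254275360) (nat_lit 8) (nat_lit 4) (nat_lit 9) (nat_lit 5) (nat_lit 9) (nat_lit 4) (nat_lit 377) (nat_lit 317) (nat_lit 206)) (XT.nd (nat_lit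 78) (nat_lit 0) (nat_lit 0) (XT.lf (nat_lit 0) (nat_lit 146082294502) (nat_lit 76) (nat_lit 168371698141) (nat_lit 76) (nat_lit 93339244150) (nat_lit 8) (nat_lit 4) (nat_lit 9) (nat_lit 5) (nat_lit 9) (nat_lit 4) (nat_lit 378) (nat_lit 317) (nat_lit 205)) (XT.lf (nat_lit 0) (nat_lit 285411039710) (nat_lit 76) (nat_lit 113386371400) (nat_lit 76) (nat_lit 38352913873) (nat_lit 8) (nat_lit 4) (nat_lit 9) (nat_lit 5) (nat_lit 9) (nat_lit 4) (nat_lit 379) (nat_lit 317) (nat_lit 204))))) (XT.nd (nat_lit 234) (nat_lit 76) (nat_lit 0) (XT.nd (nat_lit 78) (nat_lit 76) (nat_lit 0) (XT.lf (nat_lit 0) (nat_lit 20357451119) (nat_lit 152) (nat_lit 33301611931) (nat_lit 76) (nat_lit 415180583973) (nat_lit 7) (nat_lit 5) (nat_lit 9) (nat_lit 5) (nat_lit 8) (nat_lit 4) (nat_lit 380) (nat_lit 317) (nat_lit 203)) (XT.nd (nat_lit 78) (nat_lit 0) (nat_lit 0) (XT.lf (nat_lit 0) (nat_lit 84157600278) (nat_lit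 152) (nat_lit 406092784991) (nat_lit 0) (nat_lit 12695460185) (nat_lit 6) (nat_lit 5) (nat_lit 8) (nat_lit 4) (nat_lit 6) (nat_lit 4) (nat_lit 381) (nat_lit 317) (nat_lit 202)) (XT.lf (nat_lit 0) (nat_lit 154554621969) (nat_lit 152) (nat_lit 302059551732) (nat_lit 0) (nat_lit 83091723171) (nat_lit 6) (nat_lit 5) (nat_lit 8) (nat_lit 4) (nat_lit 6) (nat_lit 4) (nat_lit 382) (nat_lit 317) (nat_lit 201)))) (XT.nd (nat_lit 78) (nat_lit 76) (nat_lit 0) (XT.lf (nat_lit 0) (nat_lit 230581987311) (nat_lit 152) (nat_lit 189706450122) (nat_lit 0) (nat_lit 159118386009) (nat_lit 6) (nat_lit 5) (nat_lit 8) (nat_lit 4) (nat_lit 6) (nat_lit 4) (nat_lit 383) (nat_lit 317) (nat_lit 200)) (XT.nd (nat_lit 78) (nat_lit 76) (nat_lit 0) (XT.lf (nat_lit 0) (nat_lit 312690228839) (nat_lit 152) (nat_lit 68367684003) (nat_lit 0) (nat_lit 241225977070) (nat_lit 6) (nat_lit 5) (nat_lit 8) (nat_lit 4) (nat_lit 6) (nat_lit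 4) (nat_lit 384) (nat_lit 317) (nat_lit 199)) (XT.lf (nat_lit 0) (nat_lit 64748135871) (nat_lit 76) (nat_lit 337628677896) (nat_lit 76) (nat_lit 266163823844) (nat_lit 5) (nat_lit 4) (nat_lit 6) (nat_lit 5) (nat_lit 6) (nat_lit 4) (nat_lit 385) (nat_lit 317) (nat_lit 198)))))) (XT.nd (nat_lit 468) (nat_lit 0) (nat_lit 0) (XT.nd (nat_lit 234) (nat_lit 152) (nat_lit 0) (XT.nd (nat_lit 78) (nat_lit 0) (nat_lit 0) (XT.lf (nat_lit 0) (nat_lit 210952321000) (nat_lit 76) (nat_lit 289475763989) (nat_lit 76) (nat_lit 218010352266) (nat_lit 5) (nat_lit 4) (nat_lit 6) (nat_lit 5) (nat_lit 6) (nat_lit 4) (nat_lit 386) (nat_lit 317) (nat_lit 197)) (XT.nd (nat_lit 78) (nat_lit 0) (nat_lit 0) (XT.lf (nat_lit 0) (nat_lit 368850722164) (nat_lit 76) (nat_lit 237471660330) (nat_lit 76) (nat_lit 166005732245) (nat_lit 5) (nat_lit 4) (nat_lit 6) (nat_lit 5) (nat_lit 6) (nat_lit 4) (nat_lit 387) (nat_lit 317)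 (nat_lit 196)) (XT.lf (nat_lit 0) (nat_lit 539379033593) (nat_lit 76) (nat_lit 181308194452) (nat_lit 76) (nat_lit 109841788255) (nat_lit 5) (nat_lit 4) (nat_lit 6) (nat_lit 5) (nat_lit 6) (nat_lit 4) (nat_lit 388) (nat_lit 317) (nat_lit 195)))) (XT.nd (nat_lit 78) (nat_lit 152) (nat_lit 0) (XT.lf (nat_lit 0) (nat_lit 723547793428) (nat_lit 76) (nat_lit 120652545818) (nat_lit 76) (nat_lit 49185696924) (nat_lit 5) (nat_lit 4) (nat_lit 6) (nat_lit 5) (nat_lit 6) (nat_lit 4) (nat_lit 389) (nat_lit 317) (nat_lit 194)) (XT.nd (nat_lit 78) (nat_lit 76) (nat_lit 0) (XT.lf (nat_lit 0) (nat_lit 15799579790) (nat_lit 152) (nat_lit 39078120228) (nat_lit 76) (nat_lit 906381218779) (nat_lit 4) (nat_lit 5) (nat_lit 6) (nat_lit 5) (nat_lit 5) (nat_lit 4) (nat_lit 390) (nat_lit 317) (nat_lit 193)) (XT.lf (nat_lit 0) (nat_lit 86209409258) (nat_lit 152) (nat_lit 930069467013) (nat_lit 0) (nat_lit 18144991792)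 (nat_lit 3) (nat_lit 5) (nat_lit 5) (nat_lit 4) (nat_lit 3) (nat_lit 4) (nat_lit 391) (nat_lit 317) (nat_lit 192))))) (XT.nd (nat_lit 41184) (nat_lit 0) (nat_lit 7904) (XT.nd (nat_lit 78) (nat_lit 0) (nat_lit 0) (XT.lf (nat_lit 0) (nat_lit 163868458967) (nat_lit 152) (nat_lit 853689025865) (nat_lit 0) (nat_lit 95803706809) (nat_lit 3) (nat_lit 5) (nat_lit 5) (nat_lit 4) (nat_lit 3) (nat_lit 4) (nat_lit 392) (nat_lit 317) (nat_lit 191)) (XT.nd (nat_lit 41028) (nat_lit 0) (nat_lit 8664) (XT.lf (nat_lit 0) (nat_lit 247739511080) (nat_lit 152) (nat_lit 771199577140) (nat_lit 0) (nat_lit 179674449021) (nat_lit 3) (nat_lit 5) (nat_lit 5) (nat_lit 4) (nat_lit 3) (nat_lit 4) (nat_lit 393) (nat_lit 317) (nat_lit 190)) (XT.lf (nat_lit 0) (nat_lit 3980815399) (nat_lit 0) (nat_lit 3980815399) (nat_lit 684) (nat_lit 258284216) (nat_lit 117) (nat_lit 5) (nat_lit 117) (nat_lit 3) (nat_lit 126) (nat_lit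 3) (nat_lit 318) (nat_lit 318) (nat_lit 264)))) (XT.nd (nat_lit 156) (nat_lit 0) (nat_lit 76) (XT.nd (nat_lit 78) (nat_lit 760) (nat_lit 0) (XT.lf (nat_lit 76) (nat_lit 4162578545) (nat_lit 0) (nat_lit 12899013898) (nat_lit 760) (nat_lit 10418112) (nat_lit 118) (nat_lit 5) (nat_lit 117) (nat_lit 5) (nat_lit 127) (nat_lit 5) (nat_lit 319) (nat_lit 318) (nat_lit 263)) (XT.lf (nat_lit 76) (nat_lit 208983613) (nat_lit 0) (nat_lit 559975649) (nat_lit 836) (nat_lit 16972925433) (nat_lit 108) (nat_lit 5) (nat_lit 107) (nat_lit 5) (nat_lit 118) (nat_lit 5) (nat_lit 320) (nat_lit 318) (nat_lit 262))) (XT.nd (nat_lit 78) (nat_lit 0) (nat_lit 76) (XT.lf (nat_lit 0) (nat_lit 2003152195) (nat_lit 760) (nat_lit 3843095532) (nat_lit 836) (nat_lit 12599481212) (nat_lit 108) (nat_lit 5) (nat_lit 118) (nat_lit 5) (nat_lit 119) (nat_lit 5) (nat_lit 321) (nat_lit 318) (nat_lit 261)) (XT.lf (nat_lit 0) (nat_lit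 3610547058) (nat_lit 760) (nat_lit 8048482131) (nat_lit 836) (nat_lit 7533156201) (nat_lit 109) (nat_lit 5) (nat_lit 119) (nat_lit 5) (nat_lit 120) (nat_lit 5) (nat_lit 322) (nat_lit 318) (nat_lit 260))))))))
noncomputable def xc78 : XT := (XT.nd (nat_lit 1950) (nat_lit 2052) (nat_lit 0) (XT.nd (nat_lit 936) (nat_lit 2356) (nat_lit 0) (XT.nd (nat_lit 468) (nat_lit 1596) (nat_lit 0) (XT.nd (nat_lit 234) (nat_lit 1444) (nat_lit 0) (XT.nd (nat_lit 78) (nat_lit 0) (nat_lit 0) (XT.lf (nat_lit 0) (nat_lit 5632543382) (nat_lit 760) (nat_lit 12424385975) (nat_lit 836) (nat_lit 1927154426) (nat_lit 110) (nat_lit 5) (nat_lit 120) (nat_lit 5) (nat_lit 121) (nat_lit 5) (nat_lit 323) (nat_lit 318) (nat_lit 259)) (XT.nd (nat_lit 78) (nat_lit 0) (nat_lit 76) (XT.lf (nat_lit 76) (nat_lit 3770173776) (nat_lit 0) (nat_lit 4415852636) (nat_lit 836) (nat_lit 12634845283) (nat_lit 111) (nat_lit 5) (nat_lit 110)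 (nat_lit 5) (nat_lit 121) (nat_lit 5) (nat_lit 324) (nat_lit 318) (nat_lit 258)) (XT.lf (nat_lit 0) (nat_lit 11298414940) (nat_lit 760) (nat_lit 198054911) (nat_lit 76) (nat_lit 10210423668) (nat_lit 111) (nat_lit 5) (nat_lit 121) (nat_lit 5) (nat_lit 112) (nat_lit 5) (nat_lit 325) (nat_lit 318) (nat_lit 257)))) (XT.nd (nat_lit 78) (nat_lit 760) (nat_lit 0) (XT.lf (nat_lit 0) (nat_lit 15053252666) (nat_lit 836) (nat_lit 4202986816) (nat_lit 76) (nat_lit 3387905275) (nat_lit 101) (nat_lit 5) (nat_lit 112) (nat_lit 5) (nat_lit 102) (nat_lit 5) (nat_lit 326) (nat_lit 318) (nat_lit 256)) (XT.nd (nat_lit 78) (nat_lit 380) (nat_lit 0) (XT.lf (nat_lit 0) (nat_lit 15192602714) (nat_lit 380) (nat_lit 4327490089) (nat_lit 456) (nat_lit 4115721573) (nat_lit 96) (nat_lit 5) (nat_lit 101) (nat_lit 5) (nat_lit 102) (nat_lit 5) (nat_lit 327) (nat_lit 318) (nat_lit 255)) (XT.lf (nat_lit 0) (nat_lit 76486603)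 (nat_lit 380) (nat_lit 12931653297) (nat_lit 76) (nat_lit 11677606448) (nat_lit 91) (nat_lit 5) (nat_lit 96) (nat_lit 5) (nat_lit 92) (nat_lit 5) (nat_lit 328) (nat_lit 318) (nat_lit 254))))) (XT.nd (nat_lit 234) (nat_lit 912) (nat_lit 0) (XT.nd (nat_lit 78) (nat_lit 304) (nat_lit 0) (XT.lf (nat_lit 0) (nat_lit 4843314312) (nat_lit 456) (nat_lit 17701760472) (nat_lit 76) (nat_lit 3252068220) (nat_lit 86) (nat_lit 5) (nat_lit 92) (nat_lit 5) (nat_lit 87) (nat_lit 5) (nat_lit 329) (nat_lit 318) (nat_lit 253)) (XT.nd (nat_lit 78) (nat_lit 0) (nat_lit 0) (XT.lf (nat_lit 0) (nat_lit 4168562167) (nat_lit 304) (nat_lit 6316830174) (nat_lit 380) (nat_lit 16487378249) (nat_lit 82) (nat_lit 5) (nat_lit 86) (nat_lit 5) (nat_lit 87) (nat_lit 5) (nat_lit 330) (nat_lit 318) (nat_lit 252)) (XT.lf (nat_lit 0) (nat_lit 17048857536) (nat_lit 380) (nat_lit 8400653) (nat_lit 76) (nat_lit 11161702486) (nat_lit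 82) (nat_lit 5) (nat_lit 87) (nat_lit 5) (nat_lit 83) (nat_lit 5) (nat_lit 331) (nat_lit 318) (nat_lit 251)))) (XT.nd (nat_lit 78) (nat_lit 608) (nat_lit 0) (XT.lf (nat_lit 0) (nat_lit 24632274042) (nat_lit 380) (nat_lit 4257323642) (nat_lit 76) (nat_lit 650516924) (nat_lit 78) (nat_lit 5) (nat_lit 83) (nat_lit 5) (nat_lit 79) (nat_lit 5) (nat_lit 332) (nat_lit 318) (nat_lit 250)) (XT.nd (nat_lit 78) (nat_lit 304) (nat_lit 0) (XT.lf (nat_lit 0) (nat_lit 2421647956) (nat_lit 304) (nat_lit 8947410637) (nat_lit 76) (nat_lit 19565183279) (nat_lit 74) (nat_lit 5) (nat_lit 78) (nat_lit 5) (nat_lit 75) (nat_lit 5) (nat_lit 333) (nat_lit 318) (nat_lit 249)) (XT.lf (nat_lit 0) (nat_lit 10642314468) (nat_lit 380) (nat_lit 14007692635) (nat_lit 76) (nat_lit 7762041190) (nat_lit 70) (nat_lit 5) (nat_lit 75) (nat_lit 5) (nat_lit 71) (nat_lit 5) (nat_lit 334) (nat_lit 318) (nat_lit 248)))))) (XT.nd (nat_lit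 468) (nat_lit 1140) (nat_lit 0) (XT.nd (nat_lit 234) (nat_lit 456) (nat_lit 0) (XT.nd (nat_lit 78) (nat_lit 532) (nat_lit 0) (XT.lf (nat_lit 0) (nat_lit 14514122398) (nat_lit 228) (nat_lit 5568519823) (nat_lit 304) (nat_lit 13897345947) (nat_lit 67) (nat_lit 5) (nat_lit 70) (nat_lit 5) (nat_lit 71) (nat_lit 5) (nat_lit 335) (nat_lit 318) (nat_lit 247)) (XT.nd (nat_lit 78) (nat_lit 304) (nat_lit 0) (XT.lf (nat_lit 0) (nat_lit 10225787665) (nat_lit 228) (nat_lit 20680881238) (nat_lit 304) (nat_lit 4735279339) (nat_lit 64) (nat_lit 5) (nat_lit 67) (nat_lit 5) (nat_lit 68) (nat_lit 5) (nat_lit 336) (nat_lit 318) (nat_lit 246)) (XT.lf (nat_lit 0) (nat_lit 5506896076) (nat_lit 304) (nat_lit 31861429758) (nat_lit 76) (nat_lit 38904610) (nat_lit 60) (nat_lit 5) (nat_lit 64) (nat_lit 5) (nat_lit 61) (nat_lit 5) (nat_lit 337) (nat_lit 318) (nat_lit 245)))) (XT.nd (nat_lit 78) (nat_lit 228) (nat_lit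 0) (XT.lf (nat_lit 0) (nat_lit 150969839) (nat_lit 228) (nat_lit 17042014281) (nat_lit 304) (nat_lit 22077354799) (nat_lit 57) (nat_lit 5) (nat_lit 60) (nat_lit 5) (nat_lit 61) (nat_lit 5) (nat_lit 338) (nat_lit 318) (nat_lit 244)) (XT.nd (nat_lit 78) (nat_lit 228) (nat_lit 0) (XT.lf (nat_lit 0) (nat_lit 30442465569) (nat_lit 304) (nat_lit 5496860600) (nat_lit 76) (nat_lit 5311751119) (nat_lit 57) (nat_lit 5) (nat_lit 61) (nat_lit 5) (nat_lit 58) (nat_lit 5) (nat_lit 339) (nat_lit 318) (nat_lit 243)) (XT.lf (nat_lit 0) (nat_lit 2098754054) (nat_lit 228) (nat_lit 11865911348) (nat_lit 76) (nat_lit 29385516948) (nat_lit 54) (nat_lit 5) (nat_lit 57) (nat_lit 5) (nat_lit 55) (nat_lit 5) (nat_lit 340) (nat_lit 318) (nat_lit 242))))) (XT.nd (nat_lit 234) (nat_lit 532) (nat_lit 0) (XT.nd (nat_lit 78) (nat_lit 380) (nat_lit 0) (XT.lf (nat_lit 0) (nat_lit 16331528492) (nat_lit 304) (nat_lit 19086293220)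 (nat_lit 76) (nat_lit 10156964898) (nat_lit 51) (nat_lit 5) (nat_lit 55) (nat_lit 5) (nat_lit 52) (nat_lit 5) (nat_lit 341) (nat_lit 318) (nat_lit 241)) (XT.nd (nat_lit 78) (nat_lit 228) (nat_lit 0) (XT.lf (nat_lit 0) (nat_lit 20777671691) (nat_lit 152) (nat_lit 11684728543) (nat_lit 228) (nat_lit 15476990150) (nat_lit 49) (nat_lit 5) (nat_lit 51) (nat_lit 5) (nat_lit 52) (nat_lit 5) (nat_lit 342) (nat_lit 318) (nat_lit 240)) (XT.lf (nat_lit 0) (nat_lit 190832594) (nat_lit 228) (nat_lit 36205222936) (nat_lit 76) (nat_lit 14058549621) (nat_lit 46) (nat_lit 5) (nat_lit 49) (nat_lit 5) (nat_lit 47) (nat_lit 5) (nat_lit 343) (nat_lit 318) (nat_lit 239)))) (XT.nd (nat_lit 156) (nat_lit 380) (nat_lit 0) (XT.nd (nat_lit 78) (nat_lit 0) (nat_lit 0) (XT.lf (nat_lit 0) (nat_lit 6523197905) (nat_lit 152) (nat_lit 10823966694) (nat_lit 228) (nat_lit 35772324389) (nat_lit 44) (nat_lit 5) (nat_lit 46)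 (nat_lit 5) (nat_lit 47) (nat_lit 5) (nat_lit 344) (nat_lit 318) (nat_lit 238)) (XT.lf (nat_lit 0) (nat_lit 36769909905) (nat_lit 228) (nat_lit 2291247022) (nat_lit 76) (nat_lit 16891715002) (nat_lit 44) (nat_lit 5) (nat_lit 47) (nat_lit 5) (nat_lit 45) (nat_lit 5) (nat_lit 345) (nat_lit 318) (nat_lit 237))) (XT.nd (nat_lit 78) (nat_lit 228) (nat_lit 0) (XT.lf (nat_lit 0) (nat_lit 46861237482) (nat_lit 152) (nat_lit 11790770153) (nat_lit 228) (nat_lit 315644690) (nat_lit 42) (nat_lit 5) (nat_lit 44) (nat_lit 5) (nat_lit 45) (nat_lit 5) (nat_lit 346) (nat_lit 318) (nat_lit 236)) (XT.lf (nat_lit 0) (nat_lit 20347069592) (nat_lit 228) (nat_lit 23749985464) (nat_lit 76) (nat_lit 18064498145) (nat_lit 39) (nat_lit 5) (nat_lit 42) (nat_lit 5) (nat_lit 40) (nat_lit 5) (nat_lit 347) (nat_lit 318) (nat_lit 235))))))) (XT.nd (nat_lit 936) (nat_lit 760) (nat_lit 0) (XT.nd (nat_lit 468) (nat_lit 532)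 (nat_lit 0) (XT.nd (nat_lit 234) (nat_lit 304) (nat_lit 0) (XT.nd (nat_lit 78) (nat_lit 304) (nat_lit 0) (XT.lf (nat_lit 0) (nat_lit 28493595352) (nat_lit 152) (nat_lit 15008313056) (nat_lit 228) (nat_lit 22066293535) (nat_lit 37) (nat_lit 5) (nat_lit 39) (nat_lit 5) (nat_lit 40) (nat_lit 5) (nat_lit 348) (nat_lit 318) (nat_lit 234)) (XT.nd (nat_lit 78) (nat_lit 152) (nat_lit 0) (XT.lf (nat_lit 0) (nat_lit 231889238) (nat_lit 152) (nat_lit 52405127667) (nat_lit 76) (nat_lit 16563619029) (nat_lit 35) (nat_lit 5) (nat_lit 37) (nat_lit 5) (nat_lit 36) (nat_lit 5) (nat_lit 349) (nat_lit 318) (nat_lit 233)) (XT.lf (nat_lit 0) (nat_lit 2643621124) (nat_lit 152) (nat_lit 21850838386) (nat_lit 228) (nat_lit 48563438900) (nat_lit 33) (nat_lit 5) (nat_lit 35) (nat_lit 5) (nat_lit 36) (nat_lit 5) (nat_lit 350) (nat_lit 318) (nat_lit 232)))) (XT.nd (nat_lit 78) (nat_lit 304) (nat_lit 0) (XT.lf (nat_lit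 0) (nat_lit 51796643612) (nat_lit 228) (nat_lit 13416127507) (nat_lit 76) (nat_lit 11956042488) (nat_lit 33) (nat_lit 5) (nat_lit 36) (nat_lit 5) (nat_lit 34) (nat_lit 4) (nat_lit 351) (nat_lit 318) (nat_lit 231)) (XT.nd (nat_lit 78) (nat_lit 152) (nat_lit 0) (XT.lf (nat_lit 0) (nat_lit 835526485) (nat_lit 152) (nat_lit 32224629923) (nat_lit 76) (nat_lit 48491166430) (nat_lit 31) (nat_lit 5) (nat_lit 33) (nat_lit 5) (nat_lit 32) (nat_lit 5) (nat_lit 352) (nat_lit 318) (nat_lit 230)) (XT.lf (nat_lit 0) (nat_lit 29036491374) (nat_lit 228) (nat_lit 54399352152) (nat_lit 76) (nat_lit 2788515668) (nat_lit 29) (nat_lit 5) (nat_lit 32) (nat_lit 5) (nat_lit 30) (nat_lit 4) (nat_lit 353) (nat_lit 318) (nat_lit 229))))) (XT.nd (nat_lit 234) (nat_lit 228) (nat_lit 0) (XT.nd (nat_lit 78) (nat_lit 228) (nat_lit 0) (XT.lf (nat_lit 0) (nat_lit 10669781863) (nat_lit 76) (nat_lit 50112118412) (nat_lit 152)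 (nat_lit 30424921455) (nat_lit 28) (nat_lit 5) (nat_lit 29) (nat_lit 5) (nat_lit 30) (nat_lit 4) (nat_lit 354) (nat_lit 318) (nat_lit 228)) (XT.nd (nat_lit 78) (nat_lit 228) (nat_lit 0) (XT.lf (nat_lit 0) (nat_lit 82876282933) (nat_lit 76) (nat_lit 13132345160) (nat_lit 152) (nat_lit 532170361) (nat_lit 28) (nat_lit 5) (nat_lit 29) (nat_lit 5) (nat_lit 30) (nat_lit 4) (nat_lit 355) (nat_lit 318) (nat_lit 227)) (XT.lf (nat_lit 0) (nat_lit 32108410572) (nat_lit 228) (nat_lit 42700693060) (nat_lit 76) (nat_lit 27398970512) (nat_lit 25) (nat_lit 5) (nat_lit 28) (nat_lit 5) (nat_lit 26) (nat_lit 4) (nat_lit 356) (nat_lit 318) (nat_lit 226)))) (XT.nd (nat_lit 78) (nat_lit 152) (nat_lit 0) (XT.lf (nat_lit 0) (nat_lit 31467093145) (nat_lit 76) (nat_lit 36824027613) (nat_lit 152) (nat_lit 39989699775) (nat_lit 24) (nat_lit 5) (nat_lit 25) (nat_lit 5) (nat_lit 26) (nat_lit 4) (nat_lit 357) (nat_lit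 318) (nat_lit 225)) (XT.nd (nat_lit 78) (nat_lit 152) (nat_lit 0) (XT.lf (nat_lit 0) (nat_lit 108184838449) (nat_lit 152) (nat_lit 1796484310) (nat_lit 0) (nat_lit 4817245470) (nat_lit 24) (nat_lit 5) (nat_lit 26) (nat_lit 4) (nat_lit 24) (nat_lit 4) (nat_lit 358) (nat_lit 318) (nat_lit 224)) (XT.lf (nat_lit 0) (nat_lit 30404909005) (nat_lit 152) (nat_lit 41043057046) (nat_lit 76) (nat_lit 50271064178) (nat_lit 22) (nat_lit 5) (nat_lit 24) (nat_lit 5) (nat_lit 23) (nat_lit 4) (nat_lit 359) (nat_lit 318) (nat_lit 223)))))) (XT.nd (nat_lit 468) (nat_lit 380) (nat_lit 0) (XT.nd (nat_lit 234) (nat_lit 152) (nat_lit 0) (XT.nd (nat_lit 78) (nat_lit 152) (nat_lit 0) (XT.lf (nat_lit 0) (nat_lit 41837126276) (nat_lit 76) (nat_lit 28999637073) (nat_lit 152) (nat_lit 58316773808) (nat_lit 21) (nat_lit 5) (nat_lit 22) (nat_lit 5) (nat_lit 23) (nat_lit 4) (nat_lit 360) (nat_lit 318) (nat_lit 222)) (XT.nd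 (nat_lit 78) (nat_lit 152) (nat_lit 0) (XT.lf (nat_lit 0) (nat_lit 115488313664) (nat_lit 152) (nat_lit 4616899407) (nat_lit 0) (nat_lit 17028335040) (nat_lit 21) (nat_lit 5) (nat_lit 23) (nat_lit 4) (nat_lit 21) (nat_lit 4) (nat_lit 361) (nat_lit 318) (nat_lit 221)) (XT.lf (nat_lit 0) (nat_lit 19258311771) (nat_lit 152) (nat_lit 58984618473) (nat_lit 76) (nat_lit 67401354294) (nat_lit 19) (nat_lit 5) (nat_lit 21) (nat_lit 5) (nat_lit 20) (nat_lit 4) (nat_lit 362) (nat_lit 318) (nat_lit 220)))) (XT.nd (nat_lit 78) (nat_lit 76) (nat_lit 0) (XT.lf (nat_lit 0) (nat_lit 31195878930) (nat_lit 76) (nat_lit 32054806905) (nat_lit 152) (nat_lit 91538708360) (nat_lit 18) (nat_lit 5) (nat_lit 19) (nat_lit 5) (nat_lit 20) (nat_lit 4) (nat_lit 363) (nat_lit 318) (nat_lit 219)) (XT.nd (nat_lit 78) (nat_lit 76) (nat_lit 0) (XT.lf (nat_lit 0) (nat_lit 112081202451) (nat_lit 152) (nat_lit 34220256294) (nat_lit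 0) (nat_lit 18298716893) (nat_lit 18) (nat_lit 5) (nat_lit 20) (nat_lit 4) (nat_lit 18) (nat_lit 4) (nat_lit 364) (nat_lit 318) (nat_lit 218)) (XT.lf (nat_lit 0) (nat_lit 63797367001) (nat_lit 76) (nat_lit 102553725786) (nat_lit 76) (nat_lit 8768080789) (nat_lit 17) (nat_lit 4) (nat_lit 18) (nat_lit 5) (nat_lit 18) (nat_lit 4) (nat_lit 365) (nat_lit 318) (nat_lit 217))))) (XT.nd (nat_lit 234) (nat_lit 228) (nat_lit 0) (XT.nd (nat_lit 78) (nat_lit 76) (nat_lit 0) (XT.lf (nat_lit 0) (nat_lit 37853539503) (nat_lit 152) (nat_lit 16188814421) (nat_lit 76) (nat_lit 132377179217) (nat_lit 16) (nat_lit 5) (nat_lit 18) (nat_lit 5) (nat_lit 17) (nat_lit 4) (nat_lit 366) (nat_lit 318) (nat_lit 216)) (XT.nd (nat_lit 78) (nat_lit 0) (nat_lit 0) (XT.lf (nat_lit 0) (nat_lit 89257543597) (nat_lit 76) (nat_lit 34565041) (nat_lit 152) (nat_lit 109254905866) (nat_lit 15) (nat_lit 5) (nat_lit 16) (nat_lit 5)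 (nat_lit 17) (nat_lit 4) (nat_lit 367) (nat_lit 318) (nat_lit 215)) (XT.lf (nat_lit 0) (nat_lit 146039361920) (nat_lit 152) (nat_lit 8833707413) (nat_lit 0) (nat_lit 56711945562) (nat_lit 15) (nat_lit 5) (nat_lit 17) (nat_lit 4) (nat_lit 15) (nat_lit 4) (nat_lit 368) (nat_lit 318) (nat_lit 214)))) (XT.nd (nat_lit 156) (nat_lit 76) (nat_lit 0) (XT.nd (nat_lit 78) (nat_lit 76) (nat_lit 0) (XT.lf (nat_lit 0) (nat_lit 102947272062) (nat_lit 76) (nat_lit 105984081903) (nat_lit 76) (nat_lit 16654453849) (nat_lit 14) (nat_lit 4) (nat_lit 15) (nat_lit 5) (nat_lit 15) (nat_lit 4) (nat_lit 369) (nat_lit 318) (nat_lit 213)) (XT.lf (nat_lit 0) (nat_lit 35144644760) (nat_lit 152) (nat_lit 17285154162) (nat_lit 76) (nat_lit 188240968670) (nat_lit 13) (nat_lit 5) (nat_lit 15) (nat_lit 5) (nat_lit 14) (nat_lit 4) (nat_lit 370) (nat_lit 318) (nat_lit 212))) (XT.nd (nat_lit 78) (nat_lit 0) (nat_lit 0) (XT.lf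 (nat_lit 0) (nat_lit 92175593109) (nat_lit 152) (nat_lit 157593708918) (nat_lit 0) (nat_lit 7096000637) (nat_lit 12) (nat_lit 5) (nat_lit 14) (nat_lit 4) (nat_lit 12) (nat_lit 4) (nat_lit 371) (nat_lit 318) (nat_lit 211)) (XT.lf (nat_lit 0) (nat_lit 154956570412) (nat_lit 152) (nat_lit 49464146961) (nat_lit 0) (nat_lit 69875305829) (nat_lit 12) (nat_lit 5) (nat_lit 14) (nat_lit 4) (nat_lit 12) (nat_lit 4) (nat_lit 372) (nat_lit 318) (nat_lit 210))))))))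
noncomputable def xc79 : XT := (XT.nd (nat_lit 42978) (nat_lit 0) (nat_lit 2964) (XT.nd (nat_lit 936) (nat_lit 228) (nat_lit 0) (XT.nd (nat_lit 468) (nat_lit 152) (nat_lit 0) (XT.nd (nat_lit 234) (nat_lit 76) (nat_lit 0) (XT.nd (nat_lit 78) (nat_lit 152) (nat_lit 0) (XT.lf (nat_lit 0) (nat_lit 69536826161) (nat_lit 76) (nat_lit 154306511384) (nat_lit 76) (nat_lit 69223698551) (nat_lit 11) (nat_lit 4) (nat_lit 12) (nat_lit 5) (nat_lit 12) (nat_lit 4) (nat_lit 373) (nat_lit 318) (nat_lit 209)) (XT.nd (nat_lit 78) (nat_lit 152) (nat_lit 0) (XT.lf (nat_lit 0) (nat_lit 199819857828) (nat_lit 76) (nat_lit 99280574767) (nat_lit 76) (nat_lit 14196328369) (nat_lit 11) (nat_lit 4) (nat_lit 12) (nat_lit 5) (nat_lit 12) (nat_lit 4) (nat_lit 374) (nat_lit 318) (nat_lit 208)) (XT.lf (nat_lit 0) (nat_lit 4824758450) (nat_lit 76) (nat_lit 39033940195) (nat_lit 152) (nat_lit 291247193885) (nat_lit 9) (nat_lit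 5) (nat_lit 10) (nat_lit 5) (nat_lit 11) (nat_lit 4) (nat_lit 375) (nat_lit 318) (nat_lit 207)))) (XT.nd (nat_lit 78) (nat_lit 76) (nat_lit 0) (XT.lf (nat_lit 0) (nat_lit 108480895748) (nat_lit 152) (nat_lit 222600370416) (nat_lit 0) (nat_lit 27445845439) (nat_lit 9) (nat_lit 5) (nat_lit 11) (nat_lit 4) (nat_lit 9) (nat_lit 4) (nat_lit 376) (nat_lit 318) (nat_lit 206)) (XT.nd (nat_lit 78) (nat_lit 76) (nat_lit 0) (XT.lf (nat_lit 0) (nat_lit 178929154380) (nat_lit 152) (nat_lit 106967039488) (nat_lit 0) (nat_lit 97893020251) (nat_lit 9) (nat_lit 5) (nat_lit 11) (nat_lit 4) (nat_lit 9) (nat_lit 4) (nat_lit 377) (nat_lit 318) (nat_lit 205)) (XT.lf (nat_lit 0) (nat_lit 18505824407) (nat_lit 76) (nat_lit 236794619877) (nat_lit 76) (nat_lit 155757482211) (nat_lit 8) (nat_lit 4) (nat_lit 9) (nat_lit 5) (nat_lit 9) (nat_lit 4) (nat_lit 378) (nat_lit 318) (nat_lit 204))))) (XT.nd (nat_lit 234) (nat_lit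 76) (nat_lit 0) (XT.nd (nat_lit 78) (nat_lit 76) (nat_lit 0) (XT.lf (nat_lit 0) (nat_lit 157832989732) (nat_lit 76) (nat_lit 181810066125) (nat_lit 76) (nat_lit 100771999259) (nat_lit 8) (nat_lit 4) (nat_lit 9) (nat_lit 5) (nat_lit 9) (nat_lit 4) (nat_lit 379) (nat_lit 318) (nat_lit 203)) (XT.nd (nat_lit 78) (nat_lit 76) (nat_lit 0) (XT.lf (nat_lit 0) (nat_lit 308303285544) (nat_lit 76) (nat_lit 122428236790) (nat_lit 76) (nat_lit 41389309554) (nat_lit 8) (nat_lit 4) (nat_lit 9) (nat_lit 5) (nat_lit 9) (nat_lit 4) (nat_lit 380) (nat_lit 318) (nat_lit 202)) (XT.lf (nat_lit 0) (nat_lit 22014582795) (nat_lit 152) (nat_lit 35909829145) (nat_lit 76) (nat_lit 448420977264) (nat_lit 7) (nat_lit 5) (nat_lit 9) (nat_lit 5) (nat_lit 8) (nat_lit 4) (nat_lit 381) (nat_lit 318) (nat_lit 201)))) (XT.nd (nat_lit 78) (nat_lit 0) (nat_lit 0) (XT.lf (nat_lit 0) (nat_lit 90917874588) (nat_lit 152) (nat_lit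 438525769916) (nat_lit 0) (nat_lit 13736482677) (nat_lit 6) (nat_lit 5) (nat_lit 8) (nat_lit 4) (nat_lit 6) (nat_lit 4) (nat_lit 382) (nat_lit 318) (nat_lit 200)) (XT.nd (nat_lit 78) (nat_lit 0) (nat_lit 0) (XT.lf (nat_lit 0) (nat_lit 166944608660) (nat_lit 152) (nat_lit 326173910432) (nat_lit 0) (nat_lit 89762566283) (nat_lit 6) (nat_lit 5) (nat_lit 8) (nat_lit 4) (nat_lit 6) (nat_lit 4) (nat_lit 383) (nat_lit 318) (nat_lit 199)) (XT.lf (nat_lit 0) (nat_lit 249052265678) (nat_lit 152) (nat_lit 204836294429) (nat_lit 0) (nat_lit 171869621017) (nat_lit 6) (nat_lit 5) (nat_lit 8) (nat_lit 4) (nat_lit 6) (nat_lit 4) (nat_lit 384) (nat_lit 318) (nat_lit 198)))))) (XT.nd (nat_lit 468) (nat_lit 152) (nat_lit 0) (XT.nd (nat_lit 234) (nat_lit 0) (nat_lit 0) (XT.nd (nat_lit 78) (nat_lit 76) (nat_lit 0) (XT.lf (nat_lit 0) (nat_lit 337727409537) (nat_lit 152) (nat_lit 73793884184) (nat_lit 0) (nat_lit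 260544207206) (nat_lit 6) (nat_lit 5) (nat_lit 8) (nat_lit 4) (nat_lit 6) (nat_lit 4) (nat_lit 385) (nat_lit 318) (nat_lit 197)) (XT.nd (nat_lit 78) (nat_lit 0) (nat_lit 0) (XT.lf (nat_lit 0) (nat_lit 69969323229) (nat_lit 76) (nat_lit 364618616565) (nat_lit 76) (nat_lit 287434897872) (nat_lit 5) (nat_lit 4) (nat_lit 6) (nat_lit 5) (nat_lit 6) (nat_lit 4) (nat_lit 386) (nat_lit 318) (nat_lit 196)) (XT.lf (nat_lit 0) (nat_lit 227866781206) (nat_lit 76) (nat_lit 312614977365) (nat_lit 76) (nat_lit 235430780560) (nat_lit 5) (nat_lit 4) (nat_lit 6) (nat_lit 5) (nat_lit 6) (nat_lit 4) (nat_lit 387) (nat_lit 318) (nat_lit 195)))) (XT.nd (nat_lit 78) (nat_lit 0) (nat_lit 0) (XT.lf (nat_lit 0) (nat_lit 398394219314) (nat_lit 76) (nat_lit 256451941542) (nat_lit 76) (nat_lit 179267302040) (nat_lit 5) (nat_lit 4) (nat_lit 6) (nat_lit 5) (nat_lit 6) (nat_lit 4) (nat_lit 388) (nat_lit 318) (nat_lit 194))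 (XT.nd (nat_lit 78) (nat_lit 0) (nat_lit 0) (XT.lf (nat_lit 0) (nat_lit 582562170518) (nat_lit 76) (nat_lit 195796691107) (nat_lit 76) (nat_lit 118611641700) (nat_lit 5) (nat_lit 4) (nat_lit 6) (nat_lit 5) (nat_lit 6) (nat_lit 4) (nat_lit 389) (nat_lit 318) (nat_lit 193)) (XT.lf (nat_lit 0) (nat_lit 781462000455) (nat_lit 76) (nat_lit 130289787537) (nat_lit 76) (nat_lit 53104358590) (nat_lit 5) (nat_lit 4) (nat_lit 6) (nat_lit 5) (nat_lit 6) (nat_lit 4) (nat_lit 390) (nat_lit 318) (nat_lit 192))))) (XT.nd (nat_lit 41262) (nat_lit 0) (nat_lit 7828) (XT.nd (nat_lit 78) (nat_lit 76) (nat_lit 0) (XT.lf (nat_lit 0) (nat_lit 17078060781) (nat_lit 152) (nat_lit 42175755772) (nat_lit 76) (nat_lit 978905088781) (nat_lit 4) (nat_lit 5) (nat_lit 6) (nat_lit 5) (nat_lit 5) (nat_lit 4) (nat_lit 391) (nat_lit 318) (nat_lit 191)) (XT.nd (nat_lit 78) (nat_lit 0) (nat_lit 0) (XT.lf (nat_lit 0) (nat_lit 93120239613)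 (nat_lit 152) (nat_lit 1004447170182) (nat_lit 0) (nat_lit 19609662689) (nat_lit 3) (nat_lit 5) (nat_lit 5) (nat_lit 4) (nat_lit 3) (nat_lit 4) (nat_lit 392) (nat_lit 318) (nat_lit 190)) (XT.lf (nat_lit 0) (nat_lit 176990970512) (nat_lit 152) (nat_lit 921958357014) (nat_lit 0) (nat_lit 103480106644) (nat_lit 3) (nat_lit 5) (nat_lit 5) (nat_lit 4) (nat_lit 3) (nat_lit 4) (nat_lit 393) (nat_lit 318) (nat_lit 189)))) (XT.nd (nat_lit 156) (nat_lit 0) (nat_lit 76) (XT.nd (nat_lit 78) (nat_lit 0) (nat_lit 76) (XT.lf (nat_lit 0) (nat_lit 97477447) (nat_lit 836) (nat_lit 4380777608) (nat_lit 836) (nat_lit 4380777608) (nat_lit 106) (nat_lit 3) (nat_lit 117) (nat_lit 3) (nat_lit 117) (nat_lit 5) (nat_lit 319) (nat_lit 319) (nat_lit 262)) (XT.lf (nat_lit 0) (nat_lit 670476984) (nat_lit 760) (nat_lit 13532751100) (nat_lit 836) (nat_lit 4199893876) (nat_lit 107) (nat_lit 5) (nat_lit 117) (nat_lit 5)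 (nat_lit 118) (nat_lit 5) (nat_lit 320) (nat_lit 319) (nat_lit 261))) (XT.nd (nat_lit 78) (nat_lit 0) (nat_lit 76) (XT.lf (nat_lit 76) (nat_lit 617176172) (nat_lit 0) (nat_lit 850308525) (nat_lit 836) (nat_lit 17661354226) (nat_lit 108) (nat_lit 5) (nat_lit 107) (nat_lit 5) (nat_lit 118) (nat_lit 5) (nat_lit 321) (nat_lit 319) (nat_lit 260)) (XT.lf (nat_lit 0) (nat_lit 2749677712) (nat_lit 760) (nat_lit 3754521041) (nat_lit 836) (nat_lit 13387369175) (nat_lit 108) (nat_lit 5) (nat_lit 118) (nat_lit 5) (nat_lit 119) (nat_lit 5) (nat_lit 322) (nat_lit 319) (nat_lit 259))))))) (XT.nd (nat_lit 936) (nat_lit 2432) (nat_lit 0) (XT.nd (nat_lit 468) (nat_lit 1672) (nat_lit 0) (XT.nd (nat_lit 234) (nat_lit 988) (nat_lit 0) (XT.nd (nat_lit 78) (nat_lit 0) (nat_lit 76) (XT.lf (nat_lit 0) (nat_lit 4445497445) (nat_lit 760) (nat_lit 8282989632) (nat_lit 836) (nat_lit 7971299610) (nat_lit 109) (nat_lit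 5) (nat_lit 119) (nat_lit 5) (nat_lit 120) (nat_lit 5) (nat_lit 323) (nat_lit 319) (nat_lit 258)) (XT.nd (nat_lit 78) (nat_lit 0) (nat_lit 0) (XT.lf (nat_lit 0) (nat_lit 6593038333) (nat_lit 760) (nat_lit 12998858166) (nat_lit 836) (nat_lit 1964985891) (nat_lit 110) (nat_lit 5) (nat_lit 120) (nat_lit 5) (nat_lit 121) (nat_lit 5) (nat_lit 324) (nat_lit 319) (nat_lit 257)) (XT.lf (nat_lit 76) (nat_lit 4473036332) (nat_lit 0) (nat_lit 4846258549) (nat_lit 836) (nat_lit 13142925822) (nat_lit 111) (nat_lit 5) (nat_lit 110) (nat_lit 5) (nat_lit 121) (nat_lit 5) (nat_lit 325) (nat_lit 319) (nat_lit 256)))) (XT.nd (nat_lit 78) (nat_lit 380) (nat_lit 0) (XT.lf (nat_lit 0) (nat_lit 187254869) (nat_lit 760) (nat_lit 12459792043) (nat_lit 836) (nat_lit 10773788474) (nat_lit 101) (nat_lit 5) (nat_lit 111) (nat_lit 5) (nat_lit 112) (nat_lit 5) (nat_lit 326) (nat_lit 319) (nat_lit 255)) (XT.nd (nat_lit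 78) (nat_lit 380) (nat_lit 0) (XT.lf (nat_lit 0) (nat_lit 16671943003) (nat_lit 836) (nat_lit 4139565579) (nat_lit 76) (nat_lit 3623102106) (nat_lit 101) (nat_lit 5) (nat_lit 112) (nat_lit 5) (nat_lit 102) (nat_lit 5) (nat_lit 327) (nat_lit 319) (nat_lit 254)) (XT.lf (nat_lit 0) (nat_lit 16790302369) (nat_lit 380) (nat_lit 4681098095) (nat_lit 456) (nat_lit 4035475399) (nat_lit 96) (nat_lit 5) (nat_lit 101) (nat_lit 5) (nat_lit 102) (nat_lit 5) (nat_lit 328) (nat_lit 319) (nat_lit 253))))) (XT.nd (nat_lit 234) (nat_lit 608) (nat_lit 0) (XT.nd (nat_lit 78) (nat_lit 684) (nat_lit 0) (XT.lf (nat_lit 0) (nat_lit 455636335) (nat_lit 380) (nat_lit 13568839297) (nat_lit 76) (nat_lit 12617197885) (nat_lit 91) (nat_lit 5) (nat_lit 96) (nat_lit 5) (nat_lit 92) (nat_lit 5) (nat_lit 329) (nat_lit 319) (nat_lit 252)) (XT.nd (nat_lit 78) (nat_lit 304) (nat_lit 0) (XT.lf (nat_lit 0) (nat_lit 5582561225)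 (nat_lit 456) (nat_lit 18720445191) (nat_lit 76) (nat_lit 3540058757) (nat_lit 86) (nat_lit 5) (nat_lit 92) (nat_lit 5) (nat_lit 87) (nat_lit 5) (nat_lit 330) (nat_lit 319) (nat_lit 251)) (XT.lf (nat_lit 0) (nat_lit 4882230301) (nat_lit 304) (nat_lit 6773653012) (nat_lit 380) (nat_lit 17457885035) (nat_lit 82) (nat_lit 5) (nat_lit 86) (nat_lit 5) (nat_lit 87) (nat_lit 5) (nat_lit 331) (nat_lit 319) (nat_lit 250)))) (XT.nd (nat_lit 78) (nat_lit 304) (nat_lit 0) (XT.lf (nat_lit 0) (nat_lit 369656252) (nat_lit 304) (nat_lit 18356674935) (nat_lit 380) (nat_lit 11734245024) (nat_lit 78) (nat_lit 5) (nat_lit 82) (nat_lit 5) (nat_lit 83) (nat_lit 5) (nat_lit 332) (nat_lit 319) (nat_lit 249)) (XT.nd (nat_lit 78) (nat_lit 304) (nat_lit 0) (XT.lf (nat_lit 0) (nat_lit 26894273718) (nat_lit 380) (nat_lit 4233170843) (nat_lit 76) (nat_lit 761101787) (nat_lit 78) (nat_lit 5) (nat_lit 83) (nat_lit 5) (nat_lit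 79) (nat_lit 5) (nat_lit 333) (nat_lit 319) (nat_lit 248)) (XT.lf (nat_lit 0) (nat_lit 2895356040) (nat_lit 304) (nat_lit 9304876481) (nat_lit 76) (nat_lit 21194567753) (nat_lit 74) (nat_lit 5) (nat_lit 78) (nat_lit 5) (nat_lit 75) (nat_lit 5) (nat_lit 334) (nat_lit 319) (nat_lit 247)))))) (XT.nd (nat_lit 468) (nat_lit 1140) (nat_lit 0) (XT.nd (nat_lit 234) (nat_lit 532) (nat_lit 0) (XT.nd (nat_lit 78) (nat_lit 456) (nat_lit 0) (XT.lf (nat_lit 0) (nat_lit 11759508640) (nat_lit 380) (nat_lit 14773375809) (nat_lit 76) (nat_lit 8458668614) (nat_lit 70) (nat_lit 5) (nat_lit 75) (nat_lit 5) (nat_lit 71) (nat_lit 5) (nat_lit 335) (nat_lit 319) (nat_lit 246)) (XT.nd (nat_lit 78) (nat_lit 228) (nat_lit 0) (XT.lf (nat_lit 0) (nat_lit 16014759505) (nat_lit 228) (nat_lit 5925914212) (nat_lit 304) (nat_lit 14744986347) (nat_lit 67) (nat_lit 5) (nat_lit 70) (nat_lit 5) (nat_lit 71) (nat_lit 5) (nat_lit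 336) (nat_lit 319) (nat_lit 245)) (XT.lf (nat_lit 0) (nat_lit 11379461950) (nat_lit 228) (nat_lit 22239050118) (nat_lit 304) (nat_lit 4862681965) (nat_lit 64) (nat_lit 5) (nat_lit 67) (nat_lit 5) (nat_lit 68) (nat_lit 5) (nat_lit 337) (nat_lit 319) (nat_lit 244)))) (XT.nd (nat_lit 78) (nat_lit 228) (nat_lit 0) (XT.lf (nat_lit 0) (nat_lit 6179463139) (nat_lit 304) (nat_lit 34071373565) (nat_lit 76) (nat_lit 137243907) (nat_lit 60) (nat_lit 5) (nat_lit 64) (nat_lit 5) (nat_lit 61) (nat_lit 5) (nat_lit 338) (nat_lit 319) (nat_lit 243)) (XT.nd (nat_lit 78) (nat_lit 0) (nat_lit 0) (XT.lf (nat_lit 0) (nat_lit 487286752) (nat_lit 228) (nat_lit 18301027435) (nat_lit 304) (nat_lit 23612539223) (nat_lit 57) (nat_lit 5) (nat_lit 60) (nat_lit 5) (nat_lit 61) (nat_lit 5) (nat_lit 339) (nat_lit 319) (nat_lit 242)) (XT.lf (nat_lit 0) (nat_lit 33082974391) (nat_lit 304) (nat_lit 5627606871) (nat_lit 76)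 (nat_lit 5830217320) (nat_lit 57) (nat_lit 5) (nat_lit 61) (nat_lit 5) (nat_lit 58) (nat_lit 5) (nat_lit 340) (nat_lit 319) (nat_lit 241))))) (XT.nd (nat_lit 234) (nat_lit 532) (nat_lit 0) (XT.nd (nat_lit 78) (nat_lit 380) (nat_lit 0) (XT.lf (nat_lit 0) (nat_lit 2464474275) (nat_lit 228) (nat_lit 12512973340) (nat_lit 76) (nat_lit 31830761934) (nat_lit 54) (nat_lit 5) (nat_lit 57) (nat_lit 5) (nat_lit 55) (nat_lit 5) (nat_lit 341) (nat_lit 319) (nat_lit 240)) (XT.nd (nat_lit 78) (nat_lit 152) (nat_lit 0) (XT.lf (nat_lit 0) (nat_lit 17827313744) (nat_lit 304) (nat_lit 20316229329) (nat_lit 76) (nat_lit 11067674063) (nat_lit 51) (nat_lit 5) (nat_lit 55) (nat_lit 5) (nat_lit 52) (nat_lit 5) (nat_lit 342) (nat_lit 319) (nat_lit 239)) (XT.lf (nat_lit 0) (nat_lit 22723946935) (nat_lit 152) (nat_lit 12515123807) (nat_lit 228) (nat_lit 16526404305) (nat_lit 49) (nat_lit 5) (nat_lit 51) (nat_lit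 5) (nat_lit 52) (nat_lit 5) (nat_lit 343) (nat_lit 319) (nat_lit 238)))) (XT.nd (nat_lit 156) (nat_lit 152) (nat_lit 0) (XT.nd (nat_lit 78) (nat_lit 152) (nat_lit 0) (XT.lf (nat_lit 0) (nat_lit 381228021) (nat_lit 228) (nat_lit 38816947144) (nat_lit 76) (nat_lit 15283969080) (nat_lit 46) (nat_lit 5) (nat_lit 49) (nat_lit 5) (nat_lit 47) (nat_lit 5) (nat_lit 344) (nat_lit 319) (nat_lit 237)) (XT.lf (nat_lit 0) (nat_lit 7317374926) (nat_lit 152) (nat_lit 11583970852) (nat_lit 228) (nat_lit 38459314449) (nat_lit 44) (nat_lit 5) (nat_lit 46) (nat_lit 5) (nat_lit 47) (nat_lit 5) (nat_lit 345) (nat_lit 319) (nat_lit 236))) (XT.nd (nat_lit 78) (nat_lit 152) (nat_lit 0) (XT.lf (nat_lit 0) (nat_lit 39867115303) (nat_lit 228) (nat_lit 2216162093) (nat_lit 76) (nat_lit 18337981178) (nat_lit 44) (nat_lit 5) (nat_lit 47) (nat_lit 5) (nat_lit 45) (nat_lit 5) (nat_lit 346) (nat_lit 319) (nat_lit 235))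 (XT.lf (nat_lit 0) (nat_lit 50857292088) (nat_lit 152) (nat_lit 12634820695) (nat_lit 228) (nat_lit 185496650) (nat_lit 42) (nat_lit 5) (nat_lit 44) (nat_lit 5) (nat_lit 45) (nat_lit 5) (nat_lit 347) (nat_lit 319) (nat_lit 234))))))))
noncomputable def xc80 : XT := (XT.nd (nat_lit 1872) (nat_lit 760) (nat_lit 0) (XT.nd (nat_lit 936) (nat_lit 836) (nat_lit 0) (XT.nd (nat_lit 468) (nat_lit 532) (nat_lit 0) (XT.nd (nat_lit 234) (nat_lit 304) (nat_lit 0) (XT.nd (nat_lit 78) (nat_lit 304) (nat_lit 0) (XT.lf (nat_lit 0) (nat_lit 22119417351) (nat_lit 228) (nat_lit 25403088775) (nat_lit 76) (nat_lit 19604691206) (nat_lit 39) (nat_lit 5) (nat_lit 42) (nat_lit 5) (nat_lit 40) (nat_lit 5) (nat_lit 348) (nat_lit 319) (nat_lit 233)) (XT.nd (nat_lit 78) (nat_lit 152) (nat_lit 0) (XT.lf (nat_lit 0) (nat_lit 31009248727) (nat_lit 152) (nat_lit 16110371962) (nat_lit 228) (nat_lit 23687112193) (nat_lit 37)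 (nat_lit 5) (nat_lit 39) (nat_lit 5) (nat_lit 40) (nat_lit 5) (nat_lit 349) (nat_lit 319) (nat_lit 232)) (XT.lf (nat_lit 0) (nat_lit 385056141) (nat_lit 152) (nat_lit 56361991306) (nat_lit 76) (nat_lit 17982866919) (nat_lit 35) (nat_lit 5) (nat_lit 37) (nat_lit 5) (nat_lit 36) (nat_lit 5) (nat_lit 350) (nat_lit 319) (nat_lit 231)))) (XT.nd (nat_lit 78) (nat_lit 152) (nat_lit 0) (XT.lf (nat_lit 0) (nat_lit 3080420822) (nat_lit 152) (nat_lit 23501757396) (nat_lit 228) (nat_lit 52313905399) (nat_lit 33) (nat_lit 5) (nat_lit 35) (nat_lit 5) (nat_lit 36) (nat_lit 5) (nat_lit 351) (nat_lit 319) (nat_lit 230)) (XT.nd (nat_lit 78) (nat_lit 152) (nat_lit 0) (XT.lf (nat_lit 0) (nat_lit 56060447971) (nat_lit 228) (nat_lit 14276232596) (nat_lit 76) (nat_lit 12999598773) (nat_lit 33) (nat_lit 5) (nat_lit 36) (nat_lit 5) (nat_lit 34) (nat_lit 4) (nat_lit 352) (nat_lit 319) (nat_lit 229)) (XT.lf (nat_lit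 0) (nat_lit 1018637757) (nat_lit 152) (nat_lit 34594804095) (nat_lit 76) (nat_lit 52456141863) (nat_lit 31) (nat_lit 5) (nat_lit 33) (nat_lit 5) (nat_lit 32) (nat_lit 5) (nat_lit 353) (nat_lit 319) (nat_lit 228))))) (XT.nd (nat_lit 234) (nat_lit 304) (nat_lit 0) (XT.nd (nat_lit 78) (nat_lit 76) (nat_lit 0) (XT.lf (nat_lit 0) (nat_lit 31471544612) (nat_lit 228) (nat_lit 58548341533) (nat_lit 76) (nat_lit 3096785928) (nat_lit 29) (nat_lit 5) (nat_lit 32) (nat_lit 5) (nat_lit 30) (nat_lit 4) (nat_lit 354) (nat_lit 319) (nat_lit 227)) (XT.nd (nat_lit 78) (nat_lit 0) (nat_lit 0) (XT.lf (nat_lit 0) (nat_lit 11717502861) (nat_lit 76) (nat_lit 54033808193) (nat_lit 152) (nat_lit 32746686477) (nat_lit 28) (nat_lit 5) (nat_lit 29) (nat_lit 5) (nat_lit 30) (nat_lit 4) (nat_lit 355) (nat_lit 319) (nat_lit 226)) (XT.lf (nat_lit 0) (nat_lit 89686143391) (nat_lit 76) (nat_lit 14102118243) (nat_lit 152)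 (nat_lit 470828532) (nat_lit 28) (nat_lit 5) (nat_lit 29) (nat_lit 5) (nat_lit 30) (nat_lit 4) (nat_lit 356) (nat_lit 319) (nat_lit 225)))) (XT.nd (nat_lit 78) (nat_lit 76) (nat_lit 0) (XT.lf (nat_lit 0) (nat_lit 34774194173) (nat_lit 228) (nat_lit 45938020599) (nat_lit 76) (nat_lit 29667627720) (nat_lit 25) (nat_lit 5) (nat_lit 28) (nat_lit 5) (nat_lit 26) (nat_lit 4) (nat_lit 357) (nat_lit 319) (nat_lit 224)) (XT.nd (nat_lit 78) (nat_lit 0) (nat_lit 0) (XT.lf (nat_lit 0) (nat_lit 34155421206) (nat_lit 76) (nat_lit 39691575753) (nat_lit 152) (nat_lit 43091639477) (nat_lit 24) (nat_lit 5) (nat_lit 25) (nat_lit 5) (nat_lit 26) (nat_lit 4) (nat_lit 358) (nat_lit 319) (nat_lit 223)) (XT.lf (nat_lit 0) (nat_lit 116926486802) (nat_lit 152) (nat_lit 1778733879) (nat_lit 0) (nat_lit 5272871042) (nat_lit 24) (nat_lit 5) (nat_lit 26) (nat_lit 4) (nat_lit 24) (nat_lit 4) (nat_lit 359) (nat_lit 319)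 (nat_lit 222)))))) (XT.nd (nat_lit 468) (nat_lit 380) (nat_lit 0) (XT.nd (nat_lit 234) (nat_lit 228) (nat_lit 0) (XT.nd (nat_lit 78) (nat_lit 76) (nat_lit 0) (XT.lf (nat_lit 0) (nat_lit 32921515210) (nat_lit 152) (nat_lit 44169248543) (nat_lit 76) (nat_lit 54361561554) (nat_lit 22) (nat_lit 5) (nat_lit 24) (nat_lit 5) (nat_lit 23) (nat_lit 4) (nat_lit 360) (nat_lit 319) (nat_lit 221)) (XT.nd (nat_lit 78) (nat_lit 0) (nat_lit 0) (XT.lf (nat_lit 0) (nat_lit 45334515419) (nat_lit 76) (nat_lit 31249512909) (nat_lit 152) (nat_lit 62897760173) (nat_lit 21) (nat_lit 5) (nat_lit 22) (nat_lit 5) (nat_lit 23) (nat_lit 4) (nat_lit 361) (nat_lit 319) (nat_lit 220)) (XT.lf (nat_lit 0) (nat_lit 124802766065) (nat_lit 152) (nat_lit 4844254797) (nat_lit 0) (nat_lit 18453427442) (nat_lit 21) (nat_lit 5) (nat_lit 23) (nat_lit 4) (nat_lit 21) (nat_lit 4) (nat_lit 362) (nat_lit 319) (nat_lit 219)))) (XT.nd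 (nat_lit 78) (nat_lit 76) (nat_lit 0) (XT.lf (nat_lit 0) (nat_lit 20872092278) (nat_lit 152) (nat_lit 63565132254) (nat_lit 76) (nat_lit 72854934389) (nat_lit 19) (nat_lit 5) (nat_lit 21) (nat_lit 5) (nat_lit 20) (nat_lit 4) (nat_lit 363) (nat_lit 319) (nat_lit 218)) (XT.nd (nat_lit 78) (nat_lit 0) (nat_lit 0) (XT.lf (nat_lit 0) (nat_lit 33823796517) (nat_lit 76) (nat_lit 34556708533) (nat_lit 152) (nat_lit 98788540796) (nat_lit 18) (nat_lit 5) (nat_lit 19) (nat_lit 5) (nat_lit 20) (nat_lit 4) (nat_lit 364) (nat_lit 319) (nat_lit 217)) (XT.lf (nat_lit 0) (nat_lit 121113198538) (nat_lit 152) (nat_lit 36833088257) (nat_lit 0) (nat_lit 19818617097) (nat_lit 18) (nat_lit 5) (nat_lit 20) (nat_lit 4) (nat_lit 18) (nat_lit 4) (nat_lit 365) (nat_lit 319) (nat_lit 216))))) (XT.nd (nat_lit 234) (nat_lit 152) (nat_lit 0) (XT.nd (nat_lit 78) (nat_lit 152) (nat_lit 0) (XT.lf (nat_lit 0) (nat_lit 69020521744)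 (nat_lit 76) (nat_lit 110701170141) (nat_lit 76) (nat_lit 9403879991) (nat_lit 17) (nat_lit 4) (nat_lit 18) (nat_lit 5) (nat_lit 18) (nat_lit 4) (nat_lit 366) (nat_lit 319) (nat_lit 215)) (XT.nd (nat_lit 78) (nat_lit 76) (nat_lit 0) (XT.lf (nat_lit 0) (nat_lit 40940661681) (nat_lit 152) (nat_lit 17371441767) (nat_lit 76) (nat_lit 143018041572) (nat_lit 16) (nat_lit 5) (nat_lit 18) (nat_lit 5) (nat_lit 17) (nat_lit 4) (nat_lit 367) (nat_lit 319) (nat_lit 214)) (XT.lf (nat_lit 0) (nat_lit 96491857803) (nat_lit 152) (nat_lit 117922442862) (nat_lit 0) (nat_lit 13647807) (nat_lit 15) (nat_lit 5) (nat_lit 17) (nat_lit 4) (nat_lit 15) (nat_lit 4) (nat_lit 368) (nat_lit 319) (nat_lit 213)))) (XT.nd (nat_lit 78) (nat_lit 152) (nat_lit 0) (XT.lf (nat_lit 0) (nat_lit 157775254674) (nat_lit 152) (nat_lit 9438919851) (nat_lit 0) (nat_lit 61294996811) (nat_lit 15) (nat_lit 5) (nat_lit 17) (nat_lit 4)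 (nat_lit 15) (nat_lit 4) (nat_lit 369) (nat_lit 319) (nat_lit 212)) (XT.nd (nat_lit 78) (nat_lit 76) (nat_lit 0) (XT.lf (nat_lit 0) (nat_lit 111280127605) (nat_lit 76) (nat_lit 114416087123) (nat_lit 76) (nat_lit 17933933086) (nat_lit 14) (nat_lit 4) (nat_lit 15) (nat_lit 5) (nat_lit 15) (nat_lit 4) (nat_lit 370) (nat_lit 319) (nat_lit 211)) (XT.lf (nat_lit 0) (nat_lit 38003609557) (nat_lit 152) (nat_lit 18576510159) (nat_lit 76) (nat_lit 203341933448) (nat_lit 13) (nat_lit 5) (nat_lit 15) (nat_lit 5) (nat_lit 14) (nat_lit 4) (nat_lit 371) (nat_lit 319) (nat_lit 210))))))) (XT.nd (nat_lit 936) (nat_lit 228) (nat_lit 0) (XT.nd (nat_lit 468) (nat_lit 228) (nat_lit 0) (XT.nd (nat_lit 234) (nat_lit 152) (nat_lit 0) (XT.nd (nat_lit 78) (nat_lit 76) (nat_lit 0) (XT.lf (nat_lit 0) (nat_lit 99595548381) (nat_lit 152) (nat_lit 170112115117) (nat_lit 0) (nat_lit 7704562270) (nat_lit 12) (nat_lit 5)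 (nat_lit 14) (nat_lit 4) (nat_lit 12) (nat_lit 4) (nat_lit 372) (nat_lit 319) (nat_lit 209)) (XT.nd (nat_lit 78) (nat_lit 76) (nat_lit 0) (XT.lf (nat_lit 0) (nat_lit 167395603289) (nat_lit 152) (nat_lit 53338787501) (nat_lit 0) (nat_lit 75503183613) (nat_lit 12) (nat_lit 5) (nat_lit 14) (nat_lit 4) (nat_lit 12) (nat_lit 4) (nat_lit 373) (nat_lit 319) (nat_lit 208)) (XT.lf (nat_lit 0) (nat_lit 75178678504) (nat_lit 76) (nat_lit 166612716552) (nat_lit 76) (nat_lit 74718969501) (nat_lit 11) (nat_lit 4) (nat_lit 12) (nat_lit 5) (nat_lit 12) (nat_lit 4) (nat_lit 374) (nat_lit 319) (nat_lit 207)))) (XT.nd (nat_lit 78) (nat_lit 152) (nat_lit 0) (XT.lf (nat_lit 0) (nat_lit 215878507796) (nat_lit 76) (nat_lit 107187543209) (nat_lit 76) (nat_lit 15292567107) (nat_lit 11) (nat_lit 4) (nat_lit 12) (nat_lit 5) (nat_lit 12) (nat_lit 4) (nat_lit 375) (nat_lit 319) (nat_lit 206)) (XT.nd (nat_lit 78) (nat_lit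 0) (nat_lit 0) (XT.lf (nat_lit 0) (nat_lit 5281837757) (nat_lit 76) (nat_lit 42122041203) (nat_lit 152) (nat_lit 314508656749) (nat_lit 9) (nat_lit 5) (nat_lit 10) (nat_lit 5) (nat_lit 11) (nat_lit 4) (nat_lit 376) (nat_lit 319) (nat_lit 205)) (XT.lf (nat_lit 0) (nat_lit 117193649675) (nat_lit 152) (nat_lit 240341375578) (nat_lit 0) (nat_lit 29672537459) (nat_lit 9) (nat_lit 5) (nat_lit 11) (nat_lit 4) (nat_lit 9) (nat_lit 4) (nat_lit 377) (nat_lit 319) (nat_lit 204))))) (XT.nd (nat_lit 234) (nat_lit 152) (nat_lit 0) (XT.nd (nat_lit 78) (nat_lit 76) (nat_lit 0) (XT.lf (nat_lit 0) (nat_lit 193275229569) (nat_lit 152) (nat_lit 115462342951) (nat_lit 0) (nat_lit 105753188154) (nat_lit 9) (nat_lit 5) (nat_lit 11) (nat_lit 4) (nat_lit 9) (nat_lit 4) (nat_lit 378) (nat_lit 319) (nat_lit 203)) (XT.nd (nat_lit 78) (nat_lit 0) (nat_lit 0) (XT.lf (nat_lit 0) (nat_lit 20045653017) (nat_lit 76) (nat_lit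 255709145146) (nat_lit 76) (nat_lit 168186243359) (nat_lit 8) (nat_lit 4) (nat_lit 9) (nat_lit 5) (nat_lit 9) (nat_lit 4) (nat_lit 379) (nat_lit 319) (nat_lit 202)) (XT.lf (nat_lit 0) (nat_lit 170514594333) (nat_lit 76) (nat_lit 196327978524) (nat_lit 76) (nat_lit 108804280098) (nat_lit 8) (nat_lit 4) (nat_lit 9) (nat_lit 5) (nat_lit 9) (nat_lit 4) (nat_lit 380) (nat_lit 319) (nat_lit 201)))) (XT.nd (nat_lit 78) (nat_lit 152) (nat_lit 0) (XT.lf (nat_lit 0) (nat_lit 333018442298) (nat_lit 76) (nat_lit 132197594909) (nat_lit 76) (nat_lit 44673158854) (nat_lit 8) (nat_lit 4) (nat_lit 9) (nat_lit 5) (nat_lit 9) (nat_lit 4) (nat_lit 381) (nat_lit 319) (nat_lit 200)) (XT.nd (nat_lit 78) (nat_lit 76) (nat_lit 0) (XT.lf (nat_lit 0) (nat_lit 23800214084) (nat_lit 152) (nat_lit 38734680171) (nat_lit 76) (nat_lit 484316900449) (nat_lit 7) (nat_lit 5) (nat_lit 9) (nat_lit 5) (nat_lit 8) (nat_lit 4)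 (nat_lit 382) (nat_lit 319) (nat_lit 199)) (XT.lf (nat_lit 0) (nat_lit 98215023937) (nat_lit 152) (nat_lit 473561159807) (nat_lit 0) (nat_lit 14857165419) (nat_lit 6) (nat_lit 5) (nat_lit 8) (nat_lit 4) (nat_lit 6) (nat_lit 4) (nat_lit 383) (nat_lit 319) (nat_lit 198)))))) (XT.nd (nat_lit 468) (nat_lit 152) (nat_lit 0) (XT.nd (nat_lit 234) (nat_lit 76) (nat_lit 0) (XT.nd (nat_lit 78) (nat_lit 0) (nat_lit 0) (XT.lf (nat_lit 0) (nat_lit 180322139743) (nat_lit 152) (nat_lit 352224608727) (nat_lit 0) (nat_lit 96963723555) (nat_lit 6) (nat_lit 5) (nat_lit 8) (nat_lit 4) (nat_lit 6) (nat_lit 4) (nat_lit 384) (nat_lit 319) (nat_lit 197)) (XT.nd (nat_lit 78) (nat_lit 0) (nat_lit 0) (XT.lf (nat_lit 0) (nat_lit 268996782480) (nat_lit 152) (nat_lit 221183184521) (nat_lit 0) (nat_lit 185637849930) (nat_lit 6) (nat_lit 5) (nat_lit 8) (nat_lit 4) (nat_lit 6) (nat_lit 4) (nat_lit 385) (nat_lit 319) (nat_lit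 196)) (XT.lf (nat_lit 0) (nat_lit 364764431510) (nat_lit 152) (nat_lit 79660345416) (nat_lit 0) (nat_lit 281405020848) (nat_lit 6) (nat_lit 5) (nat_lit 8) (nat_lit 4) (nat_lit 6) (nat_lit 4) (nat_lit 386) (nat_lit 319) (nat_lit 195)))) (XT.nd (nat_lit 78) (nat_lit 0) (nat_lit 0) (XT.lf (nat_lit 0) (nat_lit 75602308463) (nat_lit 76) (nat_lit 393770654276) (nat_lit 76) (nat_lit 310410800917) (nat_lit 5) (nat_lit 4) (nat_lit 6) (nat_lit 5) (nat_lit 6) (nat_lit 4) (nat_lit 387) (nat_lit 319) (nat_lit 194)) (XT.nd (nat_lit 78) (nat_lit 0) (nat_lit 0) (XT.lf (nat_lit 0) (nat_lit 246128937940) (nat_lit 76) (nat_lit 337608016652) (nat_lit 76) (nat_lit 254247753389) (nat_lit 5) (nat_lit 4) (nat_lit 6) (nat_lit 5) (nat_lit 6) (nat_lit 4) (nat_lit 388) (nat_lit 319) (nat_lit 193)) (XT.lf (nat_lit 0) (nat_lit 430296140412) (nat_lit 76) (nat_lit 276953134919) (nat_lit 76) (nat_lit 193592492115) (nat_lit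 5) (nat_lit 4) (nat_lit 6) (nat_lit 5) (nat_lit 6) (nat_lit 4) (nat_lit 389) (nat_lit 319) (nat_lit 192))))) (XT.nd (nat_lit 234) (nat_lit 76) (nat_lit 0) (XT.nd (nat_lit 78) (nat_lit 76) (nat_lit 0) (XT.lf (nat_lit 0) (nat_lit 629195277079) (nat_lit 76) (nat_lit 211446572741) (nat_lit 76) (nat_lit 128085578510) (nat_lit 5) (nat_lit 4) (nat_lit 6) (nat_lit 5) (nat_lit 6) (nat_lit 4) (nat_lit 390) (nat_lit 319) (nat_lit 191)) (XT.nd (nat_lit 78) (nat_lit 76) (nat_lit 0) (XT.lf (nat_lit 0) (nat_lit 844005009491) (nat_lit 76) (nat_lit 140700143083) (nat_lit 76) (nat_lit 57338823456) (nat_lit 5) (nat_lit 4) (nat_lit 6) (nat_lit 5) (nat_lit 6) (nat_lit 4) (nat_lit 391) (nat_lit 319) (nat_lit 190)) (XT.lf (nat_lit 0) (nat_lit 18456749580) (nat_lit 152) (nat_lit 45525284277) (nat_lit 76) (nat_lit 1057228960646) (nat_lit 4) (nat_lit 5) (nat_lit 6) (nat_lit 5) (nat_lit 5) (nat_lit 4) (nat_lit 392)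 (nat_lit 319) (nat_lit 189)))) (XT.nd (nat_lit 41262) (nat_lit 0) (nat_lit 7904) (XT.nd (nat_lit 41184) (nat_lit 0) (nat_lit 7828) (XT.lf (nat_lit 0) (nat_lit 100581928067) (nat_lit 152) (nat_lit 1084779063315) (nat_lit 0) (nat_lit 21189642455) (nat_lit 3) (nat_lit 5) (nat_lit 5) (nat_lit 4) (nat_lit 3) (nat_lit 4) (nat_lit 393) (nat_lit 319) (nat_lit 188)) (XT.lf (nat_lit 0) (nat_lit 420344536) (nat_lit 836) (nat_lit 4565692119) (nat_lit 836) (nat_lit 4565692119) (nat_lit 106) (nat_lit 3) (nat_lit 117) (nat_lit 3) (nat_lit 117) (nat_lit 5) (nat_lit 320) (nat_lit 320) (nat_lit 260))) (XT.nd (nat_lit 78) (nat_lit 0) (nat_lit 0) (XT.lf (nat_lit 0) (nat_lit 1308278745) (nat_lit 760) (nat_lit 14264496871) (nat_lit 836) (nat_lit 4272882261) (nat_lit 107) (nat_lit 5) (nat_lit 117) (nat_lit 5) (nat_lit 118) (nat_lit 5) (nat_lit 321) (nat_lit 320) (nat_lit 259)) (XT.lf (nat_lit 76) (nat_lit 1002176012)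 (nat_lit 0) (nat_lit 1128839743) (nat_lit 836) (nat_lit 18500355464) (nat_lit 108) (nat_lit 5) (nat_lit 107) (nat_lit 5) (nat_lit 118) (nat_lit 5) (nat_lit 322) (nat_lit 320) (nat_lit 258))))))))
noncomputable def xc81 : XT := (XT.nd (nat_lit 1950) (nat_lit 2356) (nat_lit 0) (XT.nd (nat_lit 936) (nat_lit 2584) (nat_lit 0) (XT.nd (nat_lit 468) (nat_lit 1748) (nat_lit 0) (XT.nd (nat_lit 234) (nat_lit 532) (nat_lit 0) (XT.nd (nat_lit 78) (nat_lit 0) (nat_lit 76) (XT.lf (nat_lit 0) (nat_lit 3472286823) (nat_lit 760) (nat_lit 3715357575) (nat_lit 836) (nat_lit 14269683698) (nat_lit 108) (nat_lit 5) (nat_lit 118) (nat_lit 5) (nat_lit 119) (nat_lit 5) (nat_lit 323) (nat_lit 320) (nat_lit 257)) (XT.nd (nat_lit 78) (nat_lit 0) (nat_lit 76) (XT.lf (nat_lit 0) (nat_lit 5269335648) (nat_lit 760) (nat_lit 8594659093) (nat_lit 836) (nat_lit 8467963553) (nat_lit 109) (nat_lit 5) (nat_lit 119) (nat_lit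 5) (nat_lit 120) (nat_lit 5) (nat_lit 324) (nat_lit 320) (nat_lit 256)) (XT.lf (nat_lit 0) (nat_lit 7557631160) (nat_lit 760) (nat_lit 13679131457) (nat_lit 836) (nat_lit 2022441202) (nat_lit 110) (nat_lit 5) (nat_lit 120) (nat_lit 5) (nat_lit 121) (nat_lit 5) (nat_lit 325) (nat_lit 320) (nat_lit 255)))) (XT.nd (nat_lit 78) (nat_lit 684) (nat_lit 0) (XT.lf (nat_lit 76) (nat_lit 5174885287) (nat_lit 0) (nat_lit 5300092380) (nat_lit 836) (nat_lit 13763369590) (nat_lit 111) (nat_lit 5) (nat_lit 110) (nat_lit 5) (nat_lit 121) (nat_lit 5) (nat_lit 326) (nat_lit 320) (nat_lit 254)) (XT.nd (nat_lit 78) (nat_lit 0) (nat_lit 0) (XT.lf (nat_lit 0) (nat_lit 552223814) (nat_lit 760) (nat_lit 13490853627) (nat_lit 836) (nat_lit 11231892787) (nat_lit 101) (nat_lit 5) (nat_lit 111) (nat_lit 5) (nat_lit 112) (nat_lit 5) (nat_lit 327) (nat_lit 320) (nat_lit 253)) (XT.lf (nat_lit 0) (nat_lit 18361005477)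 (nat_lit 836) (nat_lit 4128086636) (nat_lit 76) (nat_lit 3882227031) (nat_lit 101) (nat_lit 5) (nat_lit 112) (nat_lit 5) (nat_lit 102) (nat_lit 5) (nat_lit 328) (nat_lit 320) (nat_lit 252))))) (XT.nd (nat_lit 234) (nat_lit 608) (nat_lit 0) (XT.nd (nat_lit 78) (nat_lit 760) (nat_lit 0) (XT.lf (nat_lit 0) (nat_lit 18461279849) (nat_lit 380) (nat_lit 5061937794) (nat_lit 456) (nat_lit 4007229840) (nat_lit 96) (nat_lit 5) (nat_lit 101) (nat_lit 5) (nat_lit 102) (nat_lit 5) (nat_lit 329) (nat_lit 320) (nat_lit 251)) (XT.nd (nat_lit 78) (nat_lit 380) (nat_lit 0) (XT.lf (nat_lit 0) (nat_lit 811901032) (nat_lit 380) (nat_lit 14313686064) (nat_lit 76) (nat_lit 13631188704) (nat_lit 91) (nat_lit 5) (nat_lit 96) (nat_lit 5) (nat_lit 92) (nat_lit 5) (nat_lit 330) (nat_lit 320) (nat_lit 250)) (XT.lf (nat_lit 0) (nat_lit 6330762290) (nat_lit 456) (nat_lit 19877326245) (nat_lit 76) (nat_lit 3847118978)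 (nat_lit 86) (nat_lit 5) (nat_lit 92) (nat_lit 5) (nat_lit 87) (nat_lit 5) (nat_lit 331) (nat_lit 320) (nat_lit 249)))) (XT.nd (nat_lit 78) (nat_lit 304) (nat_lit 0) (XT.lf (nat_lit 0) (nat_lit 5598754508) (nat_lit 304) (nat_lit 7273944107) (nat_lit 380) (nat_lit 18555747428) (nat_lit 82) (nat_lit 5) (nat_lit 86) (nat_lit 5) (nat_lit 87) (nat_lit 5) (nat_lit 332) (nat_lit 320) (nat_lit 248)) (XT.nd (nat_lit 78) (nat_lit 0) (nat_lit 0) (XT.lf (nat_lit 0) (nat_lit 724184978) (nat_lit 304) (nat_lit 19769209651) (nat_lit 380) (nat_lit 12390388589) (nat_lit 78) (nat_lit 5) (nat_lit 82) (nat_lit 5) (nat_lit 83) (nat_lit 5) (nat_lit 333) (nat_lit 320) (nat_lit 247)) (XT.lf (nat_lit 0) (nat_lit 29295659368) (nat_lit 380) (nat_lit 4259119871) (nat_lit 76) (nat_lit 872181553) (nat_lit 78) (nat_lit 5) (nat_lit 83) (nat_lit 5) (nat_lit 79) (nat_lit 5) (nat_lit 334) (nat_lit 320) (nat_lit 246)))))) (XT.nd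 (nat_lit 468) (nat_lit 988) (nat_lit 0) (XT.nd (nat_lit 234) (nat_lit 760) (nat_lit 0) (XT.nd (nat_lit 78) (nat_lit 532) (nat_lit 0) (XT.lf (nat_lit 0) (nat_lit 3367019028) (nat_lit 304) (nat_lit 9742058947) (nat_lit 76) (nat_lit 22945148444) (nat_lit 74) (nat_lit 5) (nat_lit 78) (nat_lit 5) (nat_lit 75) (nat_lit 5) (nat_lit 335) (nat_lit 320) (nat_lit 245)) (XT.nd (nat_lit 78) (nat_lit 228) (nat_lit 0) (XT.lf (nat_lit 0) (nat_lit 12928157718) (nat_lit 380) (nat_lit 15650948688) (nat_lit 76) (nat_lit 9200231898) (nat_lit 70) (nat_lit 5) (nat_lit 75) (nat_lit 5) (nat_lit 71) (nat_lit 5) (nat_lit 336) (nat_lit 320) (nat_lit 244)) (XT.lf (nat_lit 0) (nat_lit 17587013066) (nat_lit 228) (nat_lit 6324466775) (nat_lit 304) (nat_lit 15698121541) (nat_lit 67) (nat_lit 5) (nat_lit 70) (nat_lit 5) (nat_lit 71) (nat_lit 5) (nat_lit 337) (nat_lit 320) (nat_lit 243)))) (XT.nd (nat_lit 78) (nat_lit 532)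 (nat_lit 0) (XT.lf (nat_lit 0) (nat_lit 12577551479) (nat_lit 228) (nat_lit 23935611011) (nat_lit 304) (nat_lit 5036144635) (nat_lit 64) (nat_lit 5) (nat_lit 67) (nat_lit 5) (nat_lit 68) (nat_lit 5) (nat_lit 338) (nat_lit 320) (nat_lit 242)) (XT.nd (nat_lit 78) (nat_lit 228) (nat_lit 0) (XT.lf (nat_lit 0) (nat_lit 6872735980) (nat_lit 304) (nat_lit 36506470818) (nat_lit 76) (nat_lit 229865161) (nat_lit 60) (nat_lit 5) (nat_lit 64) (nat_lit 5) (nat_lit 61) (nat_lit 5) (nat_lit 339) (nat_lit 320) (nat_lit 241)) (XT.lf (nat_lit 0) (nat_lit 804252653) (nat_lit 228) (nat_lit 19675648049) (nat_lit 304) (nat_lit 25303493698) (nat_lit 57) (nat_lit 5) (nat_lit 60) (nat_lit 5) (nat_lit 61) (nat_lit 5) (nat_lit 340) (nat_lit 320) (nat_lit 240))))) (XT.nd (nat_lit 234) (nat_lit 532) (nat_lit 0) (XT.nd (nat_lit 78) (nat_lit 456) (nat_lit 0) (XT.lf (nat_lit 0) (nat_lit 35905462459) (nat_lit 304) (nat_lit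 5812895515) (nat_lit 76) (nat_lit 6376818273) (nat_lit 57) (nat_lit 5) (nat_lit 61) (nat_lit 5) (nat_lit 58) (nat_lit 5) (nat_lit 341) (nat_lit 320) (nat_lit 239)) (XT.nd (nat_lit 78) (nat_lit 228) (nat_lit 0) (XT.lf (nat_lit 0) (nat_lit 2831230895) (nat_lit 228) (nat_lit 13254914058) (nat_lit 76) (nat_lit 34458158785) (nat_lit 54) (nat_lit 5) (nat_lit 57) (nat_lit 5) (nat_lit 55) (nat_lit 5) (nat_lit 342) (nat_lit 320) (nat_lit 238)) (XT.lf (nat_lit 0) (nat_lit 19415761338) (nat_lit 304) (nat_lit 21686926040) (nat_lit 76) (nat_lit 12037237485) (nat_lit 51) (nat_lit 5) (nat_lit 55) (nat_lit 5) (nat_lit 52) (nat_lit 5) (nat_lit 343) (nat_lit 320) (nat_lit 237)))) (XT.nd (nat_lit 156) (nat_lit 152) (nat_lit 0) (XT.nd (nat_lit 78) (nat_lit 228) (nat_lit 0) (XT.lf (nat_lit 0) (nat_lit 24785399649) (nat_lit 152) (nat_lit 13426842097) (nat_lit 228) (nat_lit 17686698185) (nat_lit 49) (nat_lit 5)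 (nat_lit 51) (nat_lit 5) (nat_lit 52) (nat_lit 5) (nat_lit 344) (nat_lit 320) (nat_lit 236)) (XT.lf (nat_lit 0) (nat_lit 561870999) (nat_lit 228) (nat_lit 41678224017) (nat_lit 76) (nat_lit 16593051052) (nat_lit 46) (nat_lit 5) (nat_lit 49) (nat_lit 5) (nat_lit 47) (nat_lit 5) (nat_lit 345) (nat_lit 320) (nat_lit 235))) (XT.nd (nat_lit 78) (nat_lit 0) (nat_lit 0) (XT.lf (nat_lit 0) (nat_lit 8136236447) (nat_lit 152) (nat_lit 12419885042) (nat_lit 228) (nat_lit 41386200302) (nat_lit 44) (nat_lit 5) (nat_lit 46) (nat_lit 5) (nat_lit 47) (nat_lit 5) (nat_lit 346) (nat_lit 320) (nat_lit 234)) (XT.lf (nat_lit 0) (nat_lit 43189897254) (nat_lit 228) (nat_lit 2171931834) (nat_lit 76) (nat_lit 19886405969) (nat_lit 44) (nat_lit 5) (nat_lit 47) (nat_lit 5) (nat_lit 45) (nat_lit 5) (nat_lit 347) (nat_lit 320) (nat_lit 233))))))) (XT.nd (nat_lit 936) (nat_lit 836) (nat_lit 0) (XT.nd (nat_lit 468) (nat_lit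 684) (nat_lit 0) (XT.nd (nat_lit 234) (nat_lit 304) (nat_lit 0) (XT.nd (nat_lit 78) (nat_lit 380) (nat_lit 0) (XT.lf (nat_lit 0) (nat_lit 55137771552) (nat_lit 152) (nat_lit 13560548848) (nat_lit 228) (nat_lit 67106258) (nat_lit 42) (nat_lit 5) (nat_lit 44) (nat_lit 5) (nat_lit 45) (nat_lit 5) (nat_lit 348) (nat_lit 320) (nat_lit 232)) (XT.nd (nat_lit 78) (nat_lit 152) (nat_lit 0) (XT.lf (nat_lit 0) (nat_lit 24012926664) (nat_lit 228) (nat_lit 27223662759) (nat_lit 76) (nat_lit 21254542162) (nat_lit 39) (nat_lit 5) (nat_lit 42) (nat_lit 5) (nat_lit 40) (nat_lit 5) (nat_lit 349) (nat_lit 320) (nat_lit 231)) (XT.lf (nat_lit 0) (nat_lit 33692462688) (nat_lit 152) (nat_lit 17314662849) (nat_lit 228) (nat_lit 25458208718) (nat_lit 37) (nat_lit 5) (nat_lit 39) (nat_lit 5) (nat_lit 40) (nat_lit 5) (nat_lit 350) (nat_lit 320) (nat_lit 230)))) (XT.nd (nat_lit 78) (nat_lit 152) (nat_lit 0) (XT.lf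 (nat_lit 0) (nat_lit 531271952) (nat_lit 152) (nat_lit 60669007388) (nat_lit 76) (nat_lit 19502221897) (nat_lit 35) (nat_lit 5) (nat_lit 37) (nat_lit 5) (nat_lit 36) (nat_lit 5) (nat_lit 351) (nat_lit 320) (nat_lit 229)) (XT.nd (nat_lit 78) (nat_lit 0) (nat_lit 0) (XT.lf (nat_lit 0) (nat_lit 3520021503) (nat_lit 152) (nat_lit 25298609183) (nat_lit 228) (nat_lit 56383612641) (nat_lit 33) (nat_lit 5) (nat_lit 35) (nat_lit 5) (nat_lit 36) (nat_lit 5) (nat_lit 352) (nat_lit 320) (nat_lit 228)) (XT.lf (nat_lit 0) (nat_lit 60648226942) (nat_lit 228) (nat_lit 15235559332) (nat_lit 76) (nat_lit 14114217640) (nat_lit 33) (nat_lit 5) (nat_lit 36) (nat_lit 5) (nat_lit 34) (nat_lit 4) (nat_lit 353) (nat_lit 320) (nat_lit 227))))) (XT.nd (nat_lit 234) (nat_lit 304) (nat_lit 0) (XT.nd (nat_lit 78) (nat_lit 228) (nat_lit 0) (XT.lf (nat_lit 0) (nat_lit 1199810836) (nat_lit 152) (nat_lit 37184236654) (nat_lit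 76) (nat_lit 56726091820) (nat_lit 31) (nat_lit 5) (nat_lit 33) (nat_lit 5) (nat_lit 32) (nat_lit 5) (nat_lit 354) (nat_lit 320) (nat_lit 226)) (XT.nd (nat_lit 78) (nat_lit 76) (nat_lit 0) (XT.lf (nat_lit 0) (nat_lit 34085404950) (nat_lit 228) (nat_lit 63058204406) (nat_lit 76) (nat_lit 3417564645) (nat_lit 29) (nat_lit 5) (nat_lit 32) (nat_lit 5) (nat_lit 30) (nat_lit 4) (nat_lit 355) (nat_lit 320) (nat_lit 225)) (XT.lf (nat_lit 0) (nat_lit 12821345519) (nat_lit 76) (nat_lit 58281684579) (nat_lit 152) (nat_lit 35270203379) (nat_lit 28) (nat_lit 5) (nat_lit 29) (nat_lit 5) (nat_lit 30) (nat_lit 4) (nat_lit 356) (nat_lit 320) (nat_lit 224)))) (XT.nd (nat_lit 78) (nat_lit 304) (nat_lit 0) (XT.lf (nat_lit 0) (nat_lit 97015148223) (nat_lit 76) (nat_lit 15161002268) (nat_lit 152) (nat_lit 419404059) (nat_lit 28) (nat_lit 5) (nat_lit 29) (nat_lit 5) (nat_lit 30) (nat_lit 4) (nat_lit 357) (nat_lit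 320) (nat_lit 223)) (XT.nd (nat_lit 78) (nat_lit 76) (nat_lit 0) (XT.lf (nat_lit 0) (nat_lit 37639386527) (nat_lit 228) (nat_lit 49459831875) (nat_lit 76) (nat_lit 32106829747) (nat_lit 25) (nat_lit 5) (nat_lit 28) (nat_lit 5) (nat_lit 26) (nat_lit 4) (nat_lit 358) (nat_lit 320) (nat_lit 222)) (XT.lf (nat_lit 0) (nat_lit 37034426069) (nat_lit 76) (nat_lit 42799708682) (nat_lit 152) (nat_lit 46455606198) (nat_lit 24) (nat_lit 5) (nat_lit 25) (nat_lit 5) (nat_lit 26) (nat_lit 4) (nat_lit 359) (nat_lit 320) (nat_lit 221)))))) (XT.nd (nat_lit 468) (nat_lit 380) (nat_lit 0) (XT.nd (nat_lit 234) (nat_lit 228) (nat_lit 0) (XT.nd (nat_lit 78) (nat_lit 228) (nat_lit 0) (XT.lf (nat_lit 0) (nat_lit 126355075290) (nat_lit 152) (nat_lit 1782598797) (nat_lit 0) (nat_lit 5754925292) (nat_lit 24) (nat_lit 5) (nat_lit 26) (nat_lit 4) (nat_lit 24) (nat_lit 4) (nat_lit 360) (nat_lit 320) (nat_lit 220)) (XT.nd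 (nat_lit 78) (nat_lit 76) (nat_lit 0) (XT.lf (nat_lit 0) (nat_lit 35627435917) (nat_lit 152) (nat_lit 47567969267) (nat_lit 76) (nat_lit 58769481883) (nat_lit 22) (nat_lit 5) (nat_lit 24) (nat_lit 5) (nat_lit 23) (nat_lit 4) (nat_lit 361) (nat_lit 320) (nat_lit 219)) (XT.lf (nat_lit 0) (nat_lit 49090236735) (nat_lit 76) (nat_lit 33689378667) (nat_lit 152) (nat_lit 67857259707) (nat_lit 21) (nat_lit 5) (nat_lit 22) (nat_lit 5) (nat_lit 23) (nat_lit 4) (nat_lit 362) (nat_lit 320) (nat_lit 218)))) (XT.nd (nat_lit 78) (nat_lit 228) (nat_lit 0) (XT.lf (nat_lit 0) (nat_lit 134851619817) (nat_lit 152) (nat_lit 5110056016) (nat_lit 0) (nat_lit 19983564463) (nat_lit 21) (nat_lit 5) (nat_lit 23) (nat_lit 4) (nat_lit 21) (nat_lit 4) (nat_lit 363) (nat_lit 320) (nat_lit 217)) (XT.nd (nat_lit 78) (nat_lit 76) (nat_lit 0) (XT.lf (nat_lit 0) (nat_lit 22604544473) (nat_lit 152) (nat_lit 68531810858) (nat_lit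 76) (nat_lit 78736031260) (nat_lit 19) (nat_lit 5) (nat_lit 21) (nat_lit 5) (nat_lit 20) (nat_lit 4) (nat_lit 364) (nat_lit 320) (nat_lit 216)) (XT.lf (nat_lit 0) (nat_lit 36643080959) (nat_lit 76) (nat_lit 37267676179) (nat_lit 152) (nat_lit 106628811788) (nat_lit 18) (nat_lit 5) (nat_lit 19) (nat_lit 5) (nat_lit 20) (nat_lit 4) (nat_lit 365) (nat_lit 320) (nat_lit 215))))) (XT.nd (nat_lit 234) (nat_lit 228) (nat_lit 0) (XT.nd (nat_lit 78) (nat_lit 152) (nat_lit 0) (XT.lf (nat_lit 0) (nat_lit 130858410020) (nat_lit 152) (nat_lit 39672749258) (nat_lit 0) (nat_lit 21452119884) (nat_lit 18) (nat_lit 5) (nat_lit 20) (nat_lit 4) (nat_lit 18) (nat_lit 4) (nat_lit 366) (nat_lit 320) (nat_lit 214)) (XT.nd (nat_lit 78) (nat_lit 76) (nat_lit 0) (XT.lf (nat_lit 0) (nat_lit 74644500060) (nat_lit 76) (nat_lit 119508520862) (nat_lit 76) (nat_lit 10099908445) (nat_lit 17) (nat_lit 4) (nat_lit 18) (nat_lit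 5) (nat_lit 18) (nat_lit 4) (nat_lit 367) (nat_lit 320) (nat_lit 213)) (XT.lf (nat_lit 0) (nat_lit 44266359589) (nat_lit 152) (nat_lit 18664725518) (nat_lit 76) (nat_lit 154502941703) (nat_lit 16) (nat_lit 5) (nat_lit 18) (nat_lit 5) (nat_lit 17) (nat_lit 4) (nat_lit 368) (nat_lit 320) (nat_lit 212)))) (XT.nd (nat_lit 156) (nat_lit 152) (nat_lit 0) (XT.nd (nat_lit 78) (nat_lit 0) (nat_lit 0) (XT.lf (nat_lit 0) (nat_lit 104260043279) (nat_lit 152) (nat_lit 127262271480) (nat_lit 0) (nat_lit 57420746) (nat_lit 15) (nat_lit 5) (nat_lit 17) (nat_lit 4) (nat_lit 15) (nat_lit 4) (nat_lit 369) (nat_lit 320) (nat_lit 211)) (XT.lf (nat_lit 0) (nat_lit 170442494355) (nat_lit 152) (nat_lit 10107027133) (nat_lit 0) (nat_lit 66238116106) (nat_lit 15) (nat_lit 5) (nat_lit 17) (nat_lit 4) (nat_lit 15) (nat_lit 4) (nat_lit 370) (nat_lit 320) (nat_lit 210))) (XT.nd (nat_lit 78) (nat_lit 76) (nat_lit 0) (XT.lf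 (nat_lit 0) (nat_lit 120265762932) (nat_lit 76) (nat_lit 123529318081) (nat_lit 76) (nat_lit 19323314169) (nat_lit 14) (nat_lit 4) (nat_lit 15) (nat_lit 5) (nat_lit 15) (nat_lit 4) (nat_lit 371) (nat_lit 320) (nat_lit 209)) (XT.lf (nat_lit 0) (nat_lit 41084530366) (nat_lit 152) (nat_lit 19984221904) (nat_lit 76) (nat_lit 219645028251) (nat_lit 13) (nat_lit 5) (nat_lit 15) (nat_lit 5) (nat_lit 14) (nat_lit 4) (nat_lit 372) (nat_lit 320) (nat_lit 208))))))))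
noncomputable def xc82 : XT := (XT.nd (nat_lit 43056) (nat_lit 0) (nat_lit 3040) (XT.nd (nat_lit 936) (nat_lit 152) (nat_lit 0) (XT.nd (nat_lit 468) (nat_lit 228) (nat_lit 0) (XT.nd (nat_lit 234) (nat_lit 152) (nat_lit 0) (XT.nd (nat_lit 78) (nat_lit 76) (nat_lit 0) (XT.lf (nat_lit 0) (nat_lit 107602550810) (nat_lit 152) (nat_lit 183644703569) (nat_lit 0) (nat_lit 8355976620) (nat_lit 12) (nat_lit 5) (nat_lit 14) (nat_lit 4) (nat_lit 12) (nat_lit 4) (nat_lit 373) (nat_lit 320) (nat_lit 207)) (XT.nd (nat_lit 78) (nat_lit 76) (nat_lit 0) (XT.lf (nat_lit 0) (nat_lit 180823694662) (nat_lit 152) (nat_lit 57535167578) (nat_lit 0) (nat_lit 81575891420) (nat_lit 12) (nat_lit 5) (nat_lit 14) (nat_lit 4) (nat_lit 12) (nat_lit 4) (nat_lit 374) (nat_lit 320) (nat_lit 206)) (XT.lf (nat_lit 0) (nat_lit 81260622175) (nat_lit 76) (nat_lit 179908884302) (nat_lit 76) (nat_lit 80659943050) (nat_lit 11) (nat_lit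 4) (nat_lit 12) (nat_lit 5) (nat_lit 12) (nat_lit 4) (nat_lit 375) (nat_lit 320) (nat_lit 205)))) (XT.nd (nat_lit 78) (nat_lit 152) (nat_lit 0) (XT.lf (nat_lit 0) (nat_lit 233211426745) (nat_lit 76) (nat_lit 115732130394) (nat_lit 76) (nat_lit 16482135429) (nat_lit 11) (nat_lit 4) (nat_lit 12) (nat_lit 5) (nat_lit 12) (nat_lit 4) (nat_lit 376) (nat_lit 320) (nat_lit 204)) (XT.nd (nat_lit 78) (nat_lit 0) (nat_lit 0) (XT.lf (nat_lit 0) (nat_lit 5765340393) (nat_lit 76) (nat_lit 45462128396) (nat_lit 152) (nat_lit 339636502370) (nat_lit 9) (nat_lit 5) (nat_lit 10) (nat_lit 5) (nat_lit 11) (nat_lit 4) (nat_lit 377) (nat_lit 320) (nat_lit 203)) (XT.lf (nat_lit 0) (nat_lit 126598533167) (nat_lit 152) (nat_lit 259511222943) (nat_lit 0) (nat_lit 32072938866) (nat_lit 9) (nat_lit 5) (nat_lit 11) (nat_lit 4) (nat_lit 9) (nat_lit 4) (nat_lit 378) (nat_lit 320) (nat_lit 202))))) (XT.nd (nat_lit 234)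 (nat_lit 152) (nat_lit 0) (XT.nd (nat_lit 78) (nat_lit 76) (nat_lit 0) (XT.lf (nat_lit 0) (nat_lit 208764462303) (nat_lit 152) (nat_lit 124646124201) (nat_lit 0) (nat_lit 114238071363) (nat_lit 9) (nat_lit 5) (nat_lit 11) (nat_lit 4) (nat_lit 9) (nat_lit 4) (nat_lit 379) (nat_lit 320) (nat_lit 201)) (XT.nd (nat_lit 78) (nat_lit 0) (nat_lit 0) (XT.lf (nat_lit 0) (nat_lit 21700199168) (nat_lit 76) (nat_lit 276140975933) (nat_lit 76) (nat_lit 181613847364) (nat_lit 8) (nat_lit 4) (nat_lit 9) (nat_lit 5) (nat_lit 9) (nat_lit 4) (nat_lit 380) (nat_lit 320) (nat_lit 200)) (XT.lf (nat_lit 0) (nat_lit 184202885871) (nat_lit 76) (nat_lit 212011160487) (nat_lit 76) (nat_lit 117483348928) (nat_lit 8) (nat_lit 4) (nat_lit 9) (nat_lit 5) (nat_lit 9) (nat_lit 4) (nat_lit 381) (nat_lit 320) (nat_lit 199)))) (XT.nd (nat_lit 78) (nat_lit 152) (nat_lit 0) (XT.lf (nat_lit 0) (nat_lit 359703551007) (nat_lit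 76) (nat_lit 142752054059) (nat_lit 76) (nat_lit 48223610101) (nat_lit 8) (nat_lit 4) (nat_lit 9) (nat_lit 5) (nat_lit 9) (nat_lit 4) (nat_lit 382) (nat_lit 320) (nat_lit 198)) (XT.nd (nat_lit 78) (nat_lit 76) (nat_lit 0) (XT.lf (nat_lit 0) (nat_lit 25725205718) (nat_lit 152) (nat_lit 41792357787) (nat_lit 76) (nat_lit 523081323991) (nat_lit 7) (nat_lit 5) (nat_lit 9) (nat_lit 5) (nat_lit 8) (nat_lit 4) (nat_lit 383) (nat_lit 320) (nat_lit 197)) (XT.lf (nat_lit 0) (nat_lit 106092561399) (nat_lit 152) (nat_lit 511406039129) (nat_lit 0) (nat_lit 16064397884) (nat_lit 6) (nat_lit 5) (nat_lit 8) (nat_lit 4) (nat_lit 6) (nat_lit 4) (nat_lit 384) (nat_lit 320) (nat_lit 196)))))) (XT.nd (nat_lit 468) (nat_lit 76) (nat_lit 0) (XT.nd (nat_lit 234) (nat_lit 76) (nat_lit 0) (XT.nd (nat_lit 78) (nat_lit 0) (nat_lit 0) (XT.lf (nat_lit 0) (nat_lit 194766740133) (nat_lit 152) (nat_lit 380365527922) (nat_lit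 0) (nat_lit 104738098505) (nat_lit 6) (nat_lit 5) (nat_lit 8) (nat_lit 4) (nat_lit 6) (nat_lit 4) (nat_lit 385) (nat_lit 320) (nat_lit 195)) (XT.nd (nat_lit 78) (nat_lit 0) (nat_lit 0) (XT.lf (nat_lit 0) (nat_lit 290533959532) (nat_lit 152) (nat_lit 238843534188) (nat_lit 0) (nat_lit 200504875208) (nat_lit 6) (nat_lit 5) (nat_lit 8) (nat_lit 4) (nat_lit 6) (nat_lit 4) (nat_lit 386) (nat_lit 320) (nat_lit 194)) (XT.lf (nat_lit 0) (nat_lit 393961729044) (nat_lit 152) (nat_lit 86001409073) (nat_lit 0) (nat_lit 303932234815) (nat_lit 6) (nat_lit 5) (nat_lit 8) (nat_lit 4) (nat_lit 6) (nat_lit 4) (nat_lit 387) (nat_lit 320) (nat_lit 193)))) (XT.nd (nat_lit 78) (nat_lit 0) (nat_lit 0) (XT.lf (nat_lit 0) (nat_lit 81680876693) (nat_lit 76) (nat_lit 425257344672) (nat_lit 76) (nat_lit 335227470902) (nat_lit 5) (nat_lit 4) (nat_lit 6) (nat_lit 5) (nat_lit 6) (nat_lit 4) (nat_lit 388) (nat_lit 320)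 (nat_lit 192)) (XT.nd (nat_lit 78) (nat_lit 0) (nat_lit 0) (XT.lf (nat_lit 0) (nat_lit 265847385894) (nat_lit 76) (nat_lit 364602804330) (nat_lit 76) (nat_lit 274572579134) (nat_lit 5) (nat_lit 4) (nat_lit 6) (nat_lit 5) (nat_lit 6) (nat_lit 4) (nat_lit 389) (nat_lit 320) (nat_lit 191)) (XT.lf (nat_lit 0) (nat_lit 464745880644) (nat_lit 76) (nat_lit 299096558255) (nat_lit 76) (nat_lit 209066007663) (nat_lit 5) (nat_lit 4) (nat_lit 6) (nat_lit 5) (nat_lit 6) (nat_lit 4) (nat_lit 390) (nat_lit 320) (nat_lit 190))))) (XT.nd (nat_lit 41418) (nat_lit 0) (nat_lit 7752) (XT.nd (nat_lit 78) (nat_lit 76) (nat_lit 0) (XT.lf (nat_lit 0) (nat_lit 679555018689) (nat_lit 76) (nat_lit 228350421285) (nat_lit 76) (nat_lit 138319569401) (nat_lit 5) (nat_lit 4) (nat_lit 6) (nat_lit 5) (nat_lit 6) (nat_lit 4) (nat_lit 391) (nat_lit 320) (nat_lit 189)) (XT.nd (nat_lit 78) (nat_lit 76) (nat_lit 0) (XT.lf (nat_lit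 0) (nat_lit 911547743069) (nat_lit 76) (nat_lit 151945157053) (nat_lit 76) (nat_lit 61914026194) (nat_lit 5) (nat_lit 4) (nat_lit 6) (nat_lit 5) (nat_lit 6) (nat_lit 4) (nat_lit 392) (nat_lit 320) (nat_lit 188)) (XT.lf (nat_lit 0) (nat_lit 19943958217) (nat_lit 152) (nat_lit 49146274821) (nat_lit 76) (nat_lit 1141817106684) (nat_lit 4) (nat_lit 5) (nat_lit 6) (nat_lit 5) (nat_lit 5) (nat_lit 4) (nat_lit 393) (nat_lit 320) (nat_lit 187)))) (XT.nd (nat_lit 78) (nat_lit 0) (nat_lit 76) (XT.lf (nat_lit 0) (nat_lit 724092893) (nat_lit 836) (nat_lit 4789017021) (nat_lit 836) (nat_lit 4789017021) (nat_lit 106) (nat_lit 3) (nat_lit 117) (nat_lit 3) (nat_lit 117) (nat_lit 5) (nat_lit 321) (nat_lit 321) (nat_lit 258)) (XT.nd (nat_lit 78) (nat_lit 0) (nat_lit 0) (XT.lf (nat_lit 0) (nat_lit 1913767178) (nat_lit 760) (nat_lit 15104838448) (nat_lit 836) (nat_lit 4389230053) (nat_lit 107) (nat_lit 5) (nat_lit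 117) (nat_lit 5) (nat_lit 118) (nat_lit 5) (nat_lit 322) (nat_lit 321) (nat_lit 257)) (XT.lf (nat_lit 76) (nat_lit 1370095075) (nat_lit 0) (nat_lit 1399622348) (nat_lit 836) (nat_lit 19488351065) (nat_lit 108) (nat_lit 5) (nat_lit 107) (nat_lit 5) (nat_lit 118) (nat_lit 5) (nat_lit 323) (nat_lit 321) (nat_lit 256))))))) (XT.nd (nat_lit 936) (nat_lit 2584) (nat_lit 0) (XT.nd (nat_lit 468) (nat_lit 1748) (nat_lit 0) (XT.nd (nat_lit 234) (nat_lit 532) (nat_lit 0) (XT.nd (nat_lit 78) (nat_lit 0) (nat_lit 76) (XT.lf (nat_lit 0) (nat_lit 4180998176) (nat_lit 760) (nat_lit 3721498091) (nat_lit 836) (nat_lit 15249499982) (nat_lit 108) (nat_lit 5) (nat_lit 118) (nat_lit 5) (nat_lit 119) (nat_lit 5) (nat_lit 324) (nat_lit 321) (nat_lit 255)) (XT.nd (nat_lit 78) (nat_lit 0) (nat_lit 76) (XT.lf (nat_lit 0) (nat_lit 6092287170) (nat_lit 760) (nat_lit 8981331863) (nat_lit 836) (nat_lit 9024481547) (nat_lit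 109) (nat_lit 5) (nat_lit 119) (nat_lit 5) (nat_lit 120) (nat_lit 5) (nat_lit 325) (nat_lit 321) (nat_lit 254)) (XT.lf (nat_lit 0) (nat_lit 8537027112) (nat_lit 760) (nat_lit 14465132617) (nat_lit 836) (nat_lit 2098722471) (nat_lit 110) (nat_lit 5) (nat_lit 120) (nat_lit 5) (nat_lit 121) (nat_lit 5) (nat_lit 326) (nat_lit 321) (nat_lit 253)))) (XT.nd (nat_lit 78) (nat_lit 684) (nat_lit 0) (XT.lf (nat_lit 76) (nat_lit 5883805849) (nat_lit 0) (nat_lit 5780798285) (nat_lit 836) (nat_lit 14494934444) (nat_lit 111) (nat_lit 5) (nat_lit 110) (nat_lit 5) (nat_lit 121) (nat_lit 5) (nat_lit 327) (nat_lit 321) (nat_lit 252)) (XT.nd (nat_lit 78) (nat_lit 0) (nat_lit 0) (XT.lf (nat_lit 0) (nat_lit 896460494) (nat_lit 760) (nat_lit 14599509966) (nat_lit 836) (nat_lit 11784251853) (nat_lit 101) (nat_lit 5) (nat_lit 111) (nat_lit 5) (nat_lit 112) (nat_lit 5) (nat_lit 328) (nat_lit 321) (nat_lit 251)) (XT.lf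 (nat_lit 0) (nat_lit 20134504428) (nat_lit 836) (nat_lit 4164571402) (nat_lit 76) (nat_lit 4166464964) (nat_lit 101) (nat_lit 5) (nat_lit 112) (nat_lit 5) (nat_lit 102) (nat_lit 5) (nat_lit 329) (nat_lit 321) (nat_lit 250))))) (XT.nd (nat_lit 234) (nat_lit 608) (nat_lit 0) (XT.nd (nat_lit 78) (nat_lit 760) (nat_lit 0) (XT.lf (nat_lit 0) (nat_lit 20219177856) (nat_lit 380) (nat_lit 5472338506) (nat_lit 456) (nat_lit 4026810636) (nat_lit 96) (nat_lit 5) (nat_lit 101) (nat_lit 5) (nat_lit 102) (nat_lit 5) (nat_lit 330) (nat_lit 321) (nat_lit 249)) (XT.nd (nat_lit 78) (nat_lit 380) (nat_lit 0) (XT.lf (nat_lit 0) (nat_lit 1151041892) (nat_lit 380) (nat_lit 15166719583) (nat_lit 76) (nat_lit 14725640408) (nat_lit 91) (nat_lit 5) (nat_lit 96) (nat_lit 5) (nat_lit 92) (nat_lit 5) (nat_lit 331) (nat_lit 321) (nat_lit 248)) (XT.lf (nat_lit 0) (nat_lit 7095793374) (nat_lit 456) (nat_lit 21175370232)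 (nat_lit 76) (nat_lit 4175340761) (nat_lit 86) (nat_lit 5) (nat_lit 92) (nat_lit 5) (nat_lit 87) (nat_lit 5) (nat_lit 332) (nat_lit 321) (nat_lit 247)))) (XT.nd (nat_lit 78) (nat_lit 304) (nat_lit 0) (XT.lf (nat_lit 0) (nat_lit 6326100841) (nat_lit 304) (nat_lit 7820193358) (nat_lit 380) (nat_lit 19784061466) (nat_lit 82) (nat_lit 5) (nat_lit 86) (nat_lit 5) (nat_lit 87) (nat_lit 5) (nat_lit 333) (nat_lit 321) (nat_lit 246)) (XT.nd (nat_lit 78) (nat_lit 0) (nat_lit 0) (XT.lf (nat_lit 0) (nat_lit 1060717364) (nat_lit 304) (nat_lit 21302736067) (nat_lit 380) (nat_lit 13139339123) (nat_lit 78) (nat_lit 5) (nat_lit 82) (nat_lit 5) (nat_lit 83) (nat_lit 5) (nat_lit 334) (nat_lit 321) (nat_lit 245)) (XT.lf (nat_lit 0) (nat_lit 31853512866) (nat_lit 380) (nat_lit 4331755634) (nat_lit 76) (nat_lit 984987304) (nat_lit 78) (nat_lit 5) (nat_lit 83) (nat_lit 5) (nat_lit 79) (nat_lit 5) (nat_lit 335)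 (nat_lit 321) (nat_lit 244)))))) (XT.nd (nat_lit 468) (nat_lit 988) (nat_lit 0) (XT.nd (nat_lit 234) (nat_lit 760) (nat_lit 0) (XT.nd (nat_lit 78) (nat_lit 532) (nat_lit 0) (XT.lf (nat_lit 0) (nat_lit 3842171450) (nat_lit 304) (nat_lit 10258042616) (nat_lit 76) (nat_lit 24827927047) (nat_lit 74) (nat_lit 5) (nat_lit 78) (nat_lit 5) (nat_lit 75) (nat_lit 5) (nat_lit 336) (nat_lit 321) (nat_lit 243)) (XT.nd (nat_lit 78) (nat_lit 228) (nat_lit 0) (XT.lf (nat_lit 0) (nat_lit 14157787896) (nat_lit 380) (nat_lit 16642138792) (nat_lit 76) (nat_lit 9991865843) (nat_lit 70) (nat_lit 5) (nat_lit 75) (nat_lit 5) (nat_lit 71) (nat_lit 5) (nat_lit 337) (nat_lit 321) (nat_lit 242)) (XT.lf (nat_lit 0) (nat_lit 19243522124) (nat_lit 228) (nat_lit 6765677398) (nat_lit 304) (nat_lit 16759815131) (nat_lit 67) (nat_lit 5) (nat_lit 70) (nat_lit 5) (nat_lit 71) (nat_lit 5) (nat_lit 338) (nat_lit 321) (nat_lit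 241)))) (XT.nd (nat_lit 78) (nat_lit 532) (nat_lit 0) (XT.lf (nat_lit 0) (nat_lit 13830439901) (nat_lit 228) (nat_lit 25779675327) (nat_lit 304) (nat_lit 5254235206) (nat_lit 64) (nat_lit 5) (nat_lit 67) (nat_lit 5) (nat_lit 68) (nat_lit 5) (nat_lit 339) (nat_lit 321) (nat_lit 240)) (XT.nd (nat_lit 78) (nat_lit 228) (nat_lit 0) (XT.lf (nat_lit 0) (nat_lit 7593093087) (nat_lit 304) (nat_lit 39177834993) (nat_lit 76) (nat_lit 318249009) (nat_lit 60) (nat_lit 5) (nat_lit 64) (nat_lit 5) (nat_lit 61) (nat_lit 5) (nat_lit 340) (nat_lit 321) (nat_lit 239)) (XT.lf (nat_lit 0) (nat_lit 1106918450) (nat_lit 228) (nat_lit 21173001006) (nat_lit 304) (nat_lit 27157978387) (nat_lit 57) (nat_lit 5) (nat_lit 60) (nat_lit 5) (nat_lit 61) (nat_lit 5) (nat_lit 341) (nat_lit 321) (nat_lit 238))))) (XT.nd (nat_lit 234) (nat_lit 532) (nat_lit 0) (XT.nd (nat_lit 78) (nat_lit 456) (nat_lit 0) (XT.lf (nat_lit 0)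 (nat_lit 38928662587) (nat_lit 304) (nat_lit 6050801037) (nat_lit 76) (nat_lit 6955708219) (nat_lit 57) (nat_lit 5) (nat_lit 61) (nat_lit 5) (nat_lit 58) (nat_lit 5) (nat_lit 342) (nat_lit 321) (nat_lit 237)) (XT.nd (nat_lit 78) (nat_lit 228) (nat_lit 0) (XT.lf (nat_lit 0) (nat_lit 3203132896) (nat_lit 228) (nat_lit 14093173138) (nat_lit 76) (nat_lit 37284200973) (nat_lit 54) (nat_lit 5) (nat_lit 57) (nat_lit 5) (nat_lit 55) (nat_lit 5) (nat_lit 343) (nat_lit 321) (nat_lit 236)) (XT.lf (nat_lit 0) (nat_lit 21108136180) (nat_lit 304) (nat_lit 23203600256) (nat_lit 76) (nat_lit 13072361114) (nat_lit 51) (nat_lit 5) (nat_lit 55) (nat_lit 5) (nat_lit 52) (nat_lit 5) (nat_lit 344) (nat_lit 321) (nat_lit 235)))) (XT.nd (nat_lit 156) (nat_lit 152) (nat_lit 0) (XT.nd (nat_lit 78) (nat_lit 228) (nat_lit 0) (XT.lf (nat_lit 0) (nat_lit 26977025311) (nat_lit 152) (nat_lit 14424264829) (nat_lit 228)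 (nat_lit 18962900789) (nat_lit 49) (nat_lit 5) (nat_lit 51) (nat_lit 5) (nat_lit 52) (nat_lit 5) (nat_lit 345) (nat_lit 321) (nat_lit 234)) (XT.lf (nat_lit 0) (nat_lit 735545590) (nat_lit 228) (nat_lit 44803223623) (nat_lit 76) (nat_lit 17994538729) (nat_lit 46) (nat_lit 5) (nat_lit 49) (nat_lit 5) (nat_lit 47) (nat_lit 5) (nat_lit 346) (nat_lit 321) (nat_lit 233))) (XT.nd (nat_lit 78) (nat_lit 0) (nat_lit 0) (XT.lf (nat_lit 0) (nat_lit 8987299567) (nat_lit 152) (nat_lit 13335626498) (nat_lit 228) (nat_lit 44568616128) (nat_lit 44) (nat_lit 5) (nat_lit 46) (nat_lit 5) (nat_lit 47) (nat_lit 5) (nat_lit 347) (nat_lit 321) (nat_lit 232)) (XT.lf (nat_lit 0) (nat_lit 46759468945) (nat_lit 228) (nat_lit 2155765919) (nat_lit 76) (nat_lit 21547094078) (nat_lit 44) (nat_lit 5) (nat_lit 47) (nat_lit 5) (nat_lit 45) (nat_lit 5) (nat_lit 348) (nat_lit 321) (nat_lit 231))))))))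
noncomputable def xc83 : XT := (XT.nd (nat_lit 1950) (nat_lit 608) (nat_lit 0) (XT.nd (nat_lit 936) (nat_lit 836) (nat_lit 0) (XT.nd (nat_lit 468) (nat_lit 684) (nat_lit 0) (XT.nd (nat_lit 234) (nat_lit 304) (nat_lit 0) (XT.nd (nat_lit 78) (nat_lit 304) (nat_lit 0) (XT.lf (nat_lit 0) (nat_lit 40412381) (nat_lit 228) (nat_lit 14531372873) (nat_lit 76) (nat_lit 59689363242) (nat_lit 41) (nat_lit 5) (nat_lit 44) (nat_lit 5) (nat_lit 42) (nat_lit 5) (nat_lit 349) (nat_lit 321) (nat_lit 230)) (XT.nd (nat_lit 78) (nat_lit 152) (nat_lit 0) (XT.lf (nat_lit 0) (nat_lit 26040233023) (nat_lit 228) (nat_lit 29220080198) (nat_lit 76) (nat_lit 23024757781) (nat_lit 39) (nat_lit 5) (nat_lit 42) (nat_lit 5) (nat_lit 40) (nat_lit 5) (nat_lit 350) (nat_lit 321) (nat_lit 229)) (XT.lf (nat_lit 0) (nat_lit 36561448577) (nat_lit 152) (nat_lit 18627357421) (nat_lit 228) (nat_lit 27388664756) (nat_lit 37) (nat_lit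 5) (nat_lit 39) (nat_lit 5) (nat_lit 40) (nat_lit 5) (nat_lit 351) (nat_lit 321) (nat_lit 228)))) (XT.nd (nat_lit 78) (nat_lit 152) (nat_lit 0) (XT.lf (nat_lit 0) (nat_lit 672720313) (nat_lit 152) (nat_lit 65349394215) (nat_lit 76) (nat_lit 21131608860) (nat_lit 35) (nat_lit 5) (nat_lit 37) (nat_lit 5) (nat_lit 36) (nat_lit 5) (nat_lit 352) (nat_lit 321) (nat_lit 227)) (XT.nd (nat_lit 78) (nat_lit 0) (nat_lit 0) (XT.lf (nat_lit 0) (nat_lit 3967232805) (nat_lit 152) (nat_lit 27251091193) (nat_lit 228) (nat_lit 60795360304) (nat_lit 33) (nat_lit 5) (nat_lit 35) (nat_lit 5) (nat_lit 36) (nat_lit 5) (nat_lit 353) (nat_lit 321) (nat_lit 226)) (XT.lf (nat_lit 0) (nat_lit 65588342241) (nat_lit 228) (nat_lit 16297706657) (nat_lit 76) (nat_lit 15307356222) (nat_lit 33) (nat_lit 5) (nat_lit 36) (nat_lit 5) (nat_lit 34) (nat_lit 4) (nat_lit 354) (nat_lit 321) (nat_lit 225))))) (XT.nd (nat_lit 234)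 (nat_lit 304) (nat_lit 0) (XT.nd (nat_lit 78) (nat_lit 228) (nat_lit 0) (XT.lf (nat_lit 0) (nat_lit 1381257002) (nat_lit 152) (nat_lit 40006239160) (nat_lit 76) (nat_lit 61327158081) (nat_lit 31) (nat_lit 5) (nat_lit 33) (nat_lit 5) (nat_lit 32) (nat_lit 5) (nat_lit 355) (nat_lit 321) (nat_lit 224)) (XT.nd (nat_lit 78) (nat_lit 76) (nat_lit 0) (XT.lf (nat_lit 0) (nat_lit 36894659131) (nat_lit 228) (nat_lit 67953679988) (nat_lit 76) (nat_lit 3753586279) (nat_lit 29) (nat_lit 5) (nat_lit 32) (nat_lit 5) (nat_lit 30) (nat_lit 4) (nat_lit 356) (nat_lit 321) (nat_lit 223)) (XT.lf (nat_lit 0) (nat_lit 13989750716) (nat_lit 76) (nat_lit 62880066166) (nat_lit 152) (nat_lit 38009328209) (nat_lit 28) (nat_lit 5) (nat_lit 29) (nat_lit 5) (nat_lit 30) (nat_lit 4) (nat_lit 357) (nat_lit 321) (nat_lit 222)))) (XT.nd (nat_lit 78) (nat_lit 304) (nat_lit 0) (XT.lf (nat_lit 0) (nat_lit 104908487447) (nat_lit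 76) (nat_lit 16314481357) (nat_lit 152) (nat_lit 376575420) (nat_lit 28) (nat_lit 5) (nat_lit 29) (nat_lit 5) (nat_lit 30) (nat_lit 4) (nat_lit 358) (nat_lit 321) (nat_lit 221)) (XT.nd (nat_lit 78) (nat_lit 76) (nat_lit 0) (XT.lf (nat_lit 0) (nat_lit 40721916754) (nat_lit 228) (nat_lit 53285248079) (nat_lit 76) (nat_lit 34731782000) (nat_lit 25) (nat_lit 5) (nat_lit 28) (nat_lit 5) (nat_lit 26) (nat_lit 4) (nat_lit 359) (nat_lit 321) (nat_lit 220)) (XT.lf (nat_lit 0) (nat_lit 40122841306) (nat_lit 76) (nat_lit 46166078096) (nat_lit 152) (nat_lit 50100583126) (nat_lit 24) (nat_lit 5) (nat_lit 25) (nat_lit 5) (nat_lit 26) (nat_lit 4) (nat_lit 360) (nat_lit 321) (nat_lit 219)))))) (XT.nd (nat_lit 468) (nat_lit 380) (nat_lit 0) (XT.nd (nat_lit 234) (nat_lit 228) (nat_lit 0) (XT.nd (nat_lit 78) (nat_lit 228) (nat_lit 0) (XT.lf (nat_lit 0) (nat_lit 136527326945) (nat_lit 152) (nat_lit 1806522036)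 (nat_lit 0) (nat_lit 6266952174) (nat_lit 24) (nat_lit 5) (nat_lit 26) (nat_lit 4) (nat_lit 24) (nat_lit 4) (nat_lit 361) (nat_lit 321) (nat_lit 218)) (XT.nd (nat_lit 78) (nat_lit 76) (nat_lit 0) (XT.lf (nat_lit 0) (nat_lit 38539530215) (nat_lit 152) (nat_lit 51257821109) (nat_lit 76) (nat_lit 63521619486) (nat_lit 22) (nat_lit 5) (nat_lit 24) (nat_lit 5) (nat_lit 23) (nat_lit 4) (nat_lit 362) (nat_lit 321) (nat_lit 217)) (XT.lf (nat_lit 0) (nat_lit 53128018159) (nat_lit 76) (nat_lit 36333006948) (nat_lit 152) (nat_lit 73223836644) (nat_lit 21) (nat_lit 5) (nat_lit 22) (nat_lit 5) (nat_lit 23) (nat_lit 4) (nat_lit 363) (nat_lit 321) (nat_lit 216)))) (XT.nd (nat_lit 78) (nat_lit 228) (nat_lit 0) (XT.lf (nat_lit 0) (nat_lit 145695161324) (nat_lit 152) (nat_lit 5414488784) (nat_lit 0) (nat_lit 21628428311) (nat_lit 21) (nat_lit 5) (nat_lit 23) (nat_lit 4) (nat_lit 21) (nat_lit 4) (nat_lit 364)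 (nat_lit 321) (nat_lit 215)) (XT.nd (nat_lit 78) (nat_lit 76) (nat_lit 0) (XT.lf (nat_lit 0) (nat_lit 24466650154) (nat_lit 152) (nat_lit 73912733663) (nat_lit 76) (nat_lit 85080097334) (nat_lit 19) (nat_lit 5) (nat_lit 21) (nat_lit 5) (nat_lit 20) (nat_lit 4) (nat_lit 365) (nat_lit 321) (nat_lit 214)) (XT.lf (nat_lit 0) (nat_lit 39671733129) (nat_lit 76) (nat_lit 40203163458) (nat_lit 152) (nat_lit 115105265333) (nat_lit 18) (nat_lit 5) (nat_lit 19) (nat_lit 5) (nat_lit 20) (nat_lit 4) (nat_lit 366) (nat_lit 321) (nat_lit 213))))) (XT.nd (nat_lit 234) (nat_lit 228) (nat_lit 0) (XT.nd (nat_lit 78) (nat_lit 152) (nat_lit 0) (XT.lf (nat_lit 0) (nat_lit 141375227196) (nat_lit 152) (nat_lit 42754845896) (nat_lit 0) (nat_lit 23209453244) (nat_lit 18) (nat_lit 5) (nat_lit 20) (nat_lit 4) (nat_lit 18) (nat_lit 4) (nat_lit 367) (nat_lit 321) (nat_lit 212)) (XT.nd (nat_lit 78) (nat_lit 76) (nat_lit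 0) (XT.lf (nat_lit 0) (nat_lit 80703797185) (nat_lit 76) (nat_lit 129027413358) (nat_lit 76) (nat_lit 10859648423) (nat_lit 17) (nat_lit 4) (nat_lit 18) (nat_lit 5) (nat_lit 18) (nat_lit 4) (nat_lit 368) (nat_lit 321) (nat_lit 211)) (XT.lf (nat_lit 0) (nat_lit 47850916791) (nat_lit 152) (nat_lit 20075229014) (nat_lit 76) (nat_lit 166900434245) (nat_lit 16) (nat_lit 5) (nat_lit 18) (nat_lit 5) (nat_lit 17) (nat_lit 4) (nat_lit 369) (nat_lit 321) (nat_lit 210)))) (XT.nd (nat_lit 156) (nat_lit 152) (nat_lit 0) (XT.nd (nat_lit 78) (nat_lit 0) (nat_lit 0) (XT.lf (nat_lit 0) (nat_lit 112642716470) (nat_lit 152) (nat_lit 137362691804) (nat_lit 0) (nat_lit 98606582) (nat_lit 15) (nat_lit 5) (nat_lit 17) (nat_lit 4) (nat_lit 15) (nat_lit 4) (nat_lit 370) (nat_lit 321) (nat_lit 209)) (XT.lf (nat_lit 0) (nat_lit 184116662171) (nat_lit 152) (nat_lit 10840995420) (nat_lit 0) (nat_lit 71571047039) (nat_lit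 15) (nat_lit 5) (nat_lit 17) (nat_lit 4) (nat_lit 15) (nat_lit 4) (nat_lit 371) (nat_lit 321) (nat_lit 208))) (XT.nd (nat_lit 78) (nat_lit 76) (nat_lit 0) (XT.lf (nat_lit 0) (nat_lit 129958376091) (nat_lit 76) (nat_lit 133377321953) (nat_lit 76) (nat_lit 20830313077) (nat_lit 14) (nat_lit 4) (nat_lit 15) (nat_lit 5) (nat_lit 15) (nat_lit 4) (nat_lit 372) (nat_lit 321) (nat_lit 207)) (XT.lf (nat_lit 0) (nat_lit 44406128224) (nat_lit 152) (nat_lit 21515736519) (nat_lit 76) (nat_lit 237247271909) (nat_lit 13) (nat_lit 5) (nat_lit 15) (nat_lit 5) (nat_lit 14) (nat_lit 4) (nat_lit 373) (nat_lit 321) (nat_lit 206))))))) (XT.nd (nat_lit 936) (nat_lit 76) (nat_lit 0) (XT.nd (nat_lit 468) (nat_lit 228) (nat_lit 0) (XT.nd (nat_lit 234) (nat_lit 152) (nat_lit 0) (XT.nd (nat_lit 78) (nat_lit 76) (nat_lit 0) (XT.lf (nat_lit 0) (nat_lit 116244498496) (nat_lit 152) (nat_lit 198270795667) (nat_lit 0) (nat_lit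 9054503933) (nat_lit 12) (nat_lit 5) (nat_lit 14) (nat_lit 4) (nat_lit 12) (nat_lit 4) (nat_lit 374) (nat_lit 321) (nat_lit 205)) (XT.nd (nat_lit 78) (nat_lit 76) (nat_lit 0) (XT.lf (nat_lit 0) (nat_lit 195320834328) (nat_lit 152) (nat_lit 62077347477) (nat_lit 0) (nat_lit 88129786052) (nat_lit 12) (nat_lit 5) (nat_lit 14) (nat_lit 4) (nat_lit 12) (nat_lit 4) (nat_lit 375) (nat_lit 321) (nat_lit 204)) (XT.lf (nat_lit 0) (nat_lit 87819470398) (nat_lit 76) (nat_lit 194273431832) (nat_lit 76) (nat_lit 87081407895) (nat_lit 11) (nat_lit 4) (nat_lit 12) (nat_lit 5) (nat_lit 12) (nat_lit 4) (nat_lit 376) (nat_lit 321) (nat_lit 203)))) (XT.nd (nat_lit 78) (nat_lit 152) (nat_lit 0) (XT.lf (nat_lit 0) (nat_lit 251922043152) (nat_lit 76) (nat_lit 124964623775) (nat_lit 76) (nat_lit 17771696449) (nat_lit 11) (nat_lit 4) (nat_lit 12) (nat_lit 5) (nat_lit 12) (nat_lit 4) (nat_lit 377) (nat_lit 321) (nat_lit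 202)) (XT.nd (nat_lit 78) (nat_lit 0) (nat_lit 0) (XT.lf (nat_lit 0) (nat_lit 6278827240) (nat_lit 76) (nat_lit 49073656192) (nat_lit 152) (nat_lit 366779261621) (nat_lit 9) (nat_lit 5) (nat_lit 10) (nat_lit 5) (nat_lit 11) (nat_lit 4) (nat_lit 378) (nat_lit 321) (nat_lit 201)) (XT.lf (nat_lit 0) (nat_lit 136751614309) (nat_lit 152) (nat_lit 280222855791) (nat_lit 0) (nat_lit 34661577825) (nat_lit 9) (nat_lit 5) (nat_lit 11) (nat_lit 4) (nat_lit 9) (nat_lit 4) (nat_lit 379) (nat_lit 321) (nat_lit 200))))) (XT.nd (nat_lit 234) (nat_lit 152) (nat_lit 0) (XT.nd (nat_lit 78) (nat_lit 76) (nat_lit 0) (XT.lf (nat_lit 0) (nat_lit 225488951222) (nat_lit 152) (nat_lit 134572198408) (nat_lit 0) (nat_lit 123398231748) (nat_lit 9) (nat_lit 5) (nat_lit 11) (nat_lit 4) (nat_lit 9) (nat_lit 4) (nat_lit 380) (nat_lit 321) (nat_lit 199)) (XT.nd (nat_lit 78) (nat_lit 0) (nat_lit 0) (XT.lf (nat_lit 0) (nat_lit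 23479848427) (nat_lit 76) (nat_lit 298210905564) (nat_lit 76) (nat_lit 196119553692) (nat_lit 8) (nat_lit 4) (nat_lit 9) (nat_lit 5) (nat_lit 9) (nat_lit 4) (nat_lit 381) (nat_lit 321) (nat_lit 198)) (XT.lf (nat_lit 0) (nat_lit 198979517968) (nat_lit 76) (nat_lit 228952286249) (nat_lit 76) (nat_lit 126860348823) (nat_lit 8) (nat_lit 4) (nat_lit 9) (nat_lit 5) (nat_lit 9) (nat_lit 4) (nat_lit 382) (nat_lit 321) (nat_lit 197)))) (XT.nd (nat_lit 78) (nat_lit 152) (nat_lit 0) (XT.lf (nat_lit 0) (nat_lit 388517243631) (nat_lit 76) (nat_lit 154153915534) (nat_lit 76) (nat_lit 52061435928) (nat_lit 8) (nat_lit 4) (nat_lit 9) (nat_lit 5) (nat_lit 9) (nat_lit 4) (nat_lit 383) (nat_lit 321) (nat_lit 196)) (XT.nd (nat_lit 78) (nat_lit 76) (nat_lit 0) (XT.lf (nat_lit 0) (nat_lit 27801204435) (nat_lit 152) (nat_lit 45100512530) (nat_lit 76) (nat_lit 564944180653) (nat_lit 7) (nat_lit 5) (nat_lit 9) (nat_lit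 5) (nat_lit 8) (nat_lit 4) (nat_lit 384) (nat_lit 321) (nat_lit 195)) (XT.lf (nat_lit 0) (nat_lit 114597400765) (nat_lit 152) (nat_lit 552284217165) (nat_lit 0) (nat_lit 17365546998) (nat_lit 6) (nat_lit 5) (nat_lit 8) (nat_lit 4) (nat_lit 6) (nat_lit 4) (nat_lit 385) (nat_lit 321) (nat_lit 194)))))) (XT.nd (nat_lit 468) (nat_lit 0) (nat_lit 0) (XT.nd (nat_lit 234) (nat_lit 76) (nat_lit 0) (XT.nd (nat_lit 78) (nat_lit 0) (nat_lit 0) (XT.lf (nat_lit 0) (nat_lit 210364222357) (nat_lit 152) (nat_lit 410763006180) (nat_lit 0) (nat_lit 113131958685) (nat_lit 6) (nat_lit 5) (nat_lit 8) (nat_lit 4) (nat_lit 6) (nat_lit 4) (nat_lit 386) (nat_lit 321) (nat_lit 193)) (XT.nd (nat_lit 78) (nat_lit 0) (nat_lit 0) (XT.lf (nat_lit 0) (nat_lit 313791623529) (nat_lit 152) (nat_lit 257921605833) (nat_lit 0) (nat_lit 216558980316) (nat_lit 6) (nat_lit 5) (nat_lit 8) (nat_lit 4) (nat_lit 6) (nat_lit 4) (nat_lit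 387) (nat_lit 321) (nat_lit 192)) (XT.lf (nat_lit 0) (nat_lit 425492507399) (nat_lit 152) (nat_lit 92854289309) (nat_lit 0) (nat_lit 328259512760) (nat_lit 6) (nat_lit 5) (nat_lit 8) (nat_lit 4) (nat_lit 6) (nat_lit 4) (nat_lit 388) (nat_lit 321) (nat_lit 191)))) (XT.nd (nat_lit 78) (nat_lit 0) (nat_lit 0) (XT.lf (nat_lit 0) (nat_lit 88241395828) (nat_lit 76) (nat_lit 459265104789) (nat_lit 76) (nat_lit 362031784754) (nat_lit 5) (nat_lit 4) (nat_lit 6) (nat_lit 5) (nat_lit 6) (nat_lit 4) (nat_lit 389) (nat_lit 321) (nat_lit 190)) (XT.nd (nat_lit 78) (nat_lit 0) (nat_lit 0) (XT.lf (nat_lit 0) (nat_lit 287139296210) (nat_lit 76) (nat_lit 393759151401) (nat_lit 76) (nat_lit 296525530075) (nat_lit 5) (nat_lit 4) (nat_lit 6) (nat_lit 5) (nat_lit 6) (nat_lit 4) (nat_lit 390) (nat_lit 321) (nat_lit 189)) (XT.lf (nat_lit 0) (nat_lit 501947883914) (nat_lit 76) (nat_lit 323013285439) (nat_lit 76)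 (nat_lit 225779385138) (nat_lit 5) (nat_lit 4) (nat_lit 6) (nat_lit 5) (nat_lit 6) (nat_lit 4) (nat_lit 391) (nat_lit 321) (nat_lit 188))))) (XT.nd (nat_lit 41496) (nat_lit 0) (nat_lit 7752) (XT.nd (nat_lit 78) (nat_lit 0) (nat_lit 0) (XT.lf (nat_lit 0) (nat_lit 733940098720) (nat_lit 76) (nat_lit 246608272139) (nat_lit 76) (nat_lit 149374113529) (nat_lit 5) (nat_lit 4) (nat_lit 6) (nat_lit 5) (nat_lit 6) (nat_lit 4) (nat_lit 392) (nat_lit 321) (nat_lit 187)) (XT.nd (nat_lit 41340) (nat_lit 0) (nat_lit 7676) (XT.lf (nat_lit 0) (nat_lit 984490709307) (nat_lit 76) (nat_lit 164091341053) (nat_lit 76) (nat_lit 66856943267) (nat_lit 5) (nat_lit 4) (nat_lit 6) (nat_lit 5) (nat_lit 6) (nat_lit 4) (nat_lit 393) (nat_lit 321) (nat_lit 186)) (XT.lf (nat_lit 0) (nat_lit 1013605367) (nat_lit 836) (nat_lit 5050455884) (nat_lit 836) (nat_lit 5050455884) (nat_lit 106) (nat_lit 3) (nat_lit 117) (nat_lit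 3) (nat_lit 117) (nat_lit 5) (nat_lit 322) (nat_lit 322) (nat_lit 256)))) (XT.nd (nat_lit 156) (nat_lit 0) (nat_lit 76) (XT.nd (nat_lit 78) (nat_lit 0) (nat_lit 0) (XT.lf (nat_lit 0) (nat_lit 2496246239) (nat_lit 760) (nat_lit 16055322427) (nat_lit 836) (nat_lit 4547053309) (nat_lit 107) (nat_lit 5) (nat_lit 117) (nat_lit 5) (nat_lit 118) (nat_lit 5) (nat_lit 323) (nat_lit 322) (nat_lit 255)) (XT.lf (nat_lit 76) (nat_lit 1726397624) (nat_lit 0) (nat_lit 1666320724) (nat_lit 836) (nat_lit 20625580299) (nat_lit 108) (nat_lit 5) (nat_lit 107) (nat_lit 5) (nat_lit 118) (nat_lit 5) (nat_lit 324) (nat_lit 322) (nat_lit 254))) (XT.nd (nat_lit 78) (nat_lit 0) (nat_lit 76) (XT.lf (nat_lit 0) (nat_lit 4884929683) (nat_lit 760) (nat_lit 3769656818) (nat_lit 836) (nat_lit 16330778214) (nat_lit 108) (nat_lit 5) (nat_lit 118) (nat_lit 5) (nat_lit 119) (nat_lit 5) (nat_lit 325) (nat_lit 322) (nat_lit 253))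 (XT.lf (nat_lit 0) (nat_lit 6923809950) (nat_lit 760) (nat_lit 9441865198) (nat_lit 836) (nat_lit 9642771441) (nat_lit 109) (nat_lit 5) (nat_lit 119) (nat_lit 5) (nat_lit 120) (nat_lit 5) (nat_lit 326) (nat_lit 322) (nat_lit 252))))))))
noncomputable def xc84 : XT := (XT.nd (nat_lit 1872) (nat_lit 2204) (nat_lit 0) (XT.nd (nat_lit 936) (nat_lit 2204) (nat_lit 0) (XT.nd (nat_lit 468) (nat_lit 1596) (nat_lit 0) (XT.nd (nat_lit 234) (nat_lit 760) (nat_lit 0) (XT.nd (nat_lit 78) (nat_lit 684) (nat_lit 0) (XT.lf (nat_lit 0) (nat_lit 9541307405) (nat_lit 760) (nat_lit 15358000499) (nat_lit 836) (nat_lit 2193305774) (nat_lit 110) (nat_lit 5) (nat_lit 120) (nat_lit 5) (nat_lit 121) (nat_lit 5) (nat_lit 327) (nat_lit 322) (nat_lit 251)) (XT.nd (nat_lit 78) (nat_lit 684) (nat_lit 0) (XT.lf (nat_lit 76) (nat_lit 6607365031) (nat_lit 0) (nat_lit 6291871985) (nat_lit 836) (nat_lit 15337738465) (nat_lit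 111) (nat_lit 5) (nat_lit 110) (nat_lit 5) (nat_lit 121) (nat_lit 5) (nat_lit 328) (nat_lit 322) (nat_lit 250)) (XT.lf (nat_lit 0) (nat_lit 1225429370) (nat_lit 760) (nat_lit 15792666278) (nat_lit 836) (nat_lit 12430187854) (nat_lit 101) (nat_lit 5) (nat_lit 111) (nat_lit 5) (nat_lit 112) (nat_lit 5) (nat_lit 329) (nat_lit 322) (nat_lit 249)))) (XT.nd (nat_lit 78) (nat_lit 760) (nat_lit 0) (XT.lf (nat_lit 0) (nat_lit 22006426059) (nat_lit 836) (nat_lit 4245883407) (nat_lit 76) (nat_lit 4477199660) (nat_lit 101) (nat_lit 5) (nat_lit 112) (nat_lit 5) (nat_lit 102) (nat_lit 5) (nat_lit 330) (nat_lit 322) (nat_lit 248)) (XT.nd (nat_lit 78) (nat_lit 380) (nat_lit 0) (XT.lf (nat_lit 0) (nat_lit 22077620537) (nat_lit 380) (nat_lit 5914794387) (nat_lit 456) (nat_lit 4090898567) (nat_lit 96) (nat_lit 5) (nat_lit 101) (nat_lit 5) (nat_lit 102) (nat_lit 5) (nat_lit 331) (nat_lit 322) (nat_lit 247))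 (XT.lf (nat_lit 0) (nat_lit 1478197926) (nat_lit 380) (nat_lit 16129661604) (nat_lit 76) (nat_lit 15907083794) (nat_lit 91) (nat_lit 5) (nat_lit 96) (nat_lit 5) (nat_lit 92) (nat_lit 5) (nat_lit 332) (nat_lit 322) (nat_lit 246))))) (XT.nd (nat_lit 234) (nat_lit 608) (nat_lit 0) (XT.nd (nat_lit 78) (nat_lit 608) (nat_lit 0) (XT.lf (nat_lit 0) (nat_lit 7885139030) (nat_lit 456) (nat_lit 22618935076) (nat_lit 76) (nat_lit 4526902542) (nat_lit 86) (nat_lit 5) (nat_lit 92) (nat_lit 5) (nat_lit 87) (nat_lit 5) (nat_lit 333) (nat_lit 322) (nat_lit 245)) (XT.nd (nat_lit 78) (nat_lit 304) (nat_lit 0) (XT.lf (nat_lit 0) (nat_lit 7071768789) (nat_lit 304) (nat_lit 8415230743) (nat_lit 380) (nat_lit 21147182683) (nat_lit 82) (nat_lit 5) (nat_lit 86) (nat_lit 5) (nat_lit 87) (nat_lit 5) (nat_lit 334) (nat_lit 322) (nat_lit 244)) (XT.lf (nat_lit 0) (nat_lit 1384427281) (nat_lit 304) (nat_lit 22965793810)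 (nat_lit 380) (nat_lit 13982769730) (nat_lit 78) (nat_lit 5) (nat_lit 82) (nat_lit 5) (nat_lit 83) (nat_lit 5) (nat_lit 335) (nat_lit 322) (nat_lit 243)))) (XT.nd (nat_lit 78) (nat_lit 608) (nat_lit 0) (XT.lf (nat_lit 0) (nat_lit 34585436512) (nat_lit 380) (nat_lit 4448448840) (nat_lit 76) (nat_lit 1100678629) (nat_lit 78) (nat_lit 5) (nat_lit 83) (nat_lit 5) (nat_lit 79) (nat_lit 5) (nat_lit 336) (nat_lit 322) (nat_lit 242)) (XT.nd (nat_lit 78) (nat_lit 304) (nat_lit 0) (XT.lf (nat_lit 0) (nat_lit 4325977694) (nat_lit 304) (nat_lit 10852879229) (nat_lit 76) (nat_lit 26854599077) (nat_lit 74) (nat_lit 5) (nat_lit 78) (nat_lit 5) (nat_lit 75) (nat_lit 5) (nat_lit 337) (nat_lit 322) (nat_lit 241)) (XT.lf (nat_lit 0) (nat_lit 15457915695) (nat_lit 380) (nat_lit 17749842380) (nat_lit 76) (nat_lit 10838896346) (nat_lit 70) (nat_lit 5) (nat_lit 75) (nat_lit 5) (nat_lit 71) (nat_lit 5) (nat_lit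 338) (nat_lit 322) (nat_lit 240)))))) (XT.nd (nat_lit 468) (nat_lit 988) (nat_lit 0) (XT.nd (nat_lit 234) (nat_lit 456) (nat_lit 0) (XT.nd (nat_lit 78) (nat_lit 532) (nat_lit 0) (XT.lf (nat_lit 0) (nat_lit 20996951092) (nat_lit 228) (nat_lit 7251421714) (nat_lit 304) (nat_lit 17934142751) (nat_lit 67) (nat_lit 5) (nat_lit 70) (nat_lit 5) (nat_lit 71) (nat_lit 5) (nat_lit 339) (nat_lit 322) (nat_lit 239)) (XT.nd (nat_lit 78) (nat_lit 304) (nat_lit 0) (XT.lf (nat_lit 0) (nat_lit 15148367123) (nat_lit 228) (nat_lit 27781362998) (nat_lit 304) (nat_lit 5516136951) (nat_lit 64) (nat_lit 5) (nat_lit 67) (nat_lit 5) (nat_lit 68) (nat_lit 5) (nat_lit 340) (nat_lit 322) (nat_lit 238)) (XT.lf (nat_lit 0) (nat_lit 8346749578) (nat_lit 304) (nat_lit 42098452832) (nat_lit 76) (nat_lit 403718047) (nat_lit 60) (nat_lit 5) (nat_lit 64) (nat_lit 5) (nat_lit 61) (nat_lit 5) (nat_lit 341) (nat_lit 322) (nat_lit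 237)))) (XT.nd (nat_lit 78) (nat_lit 228) (nat_lit 0) (XT.lf (nat_lit 0) (nat_lit 1399797701) (nat_lit 228) (nat_lit 22801084154) (nat_lit 304) (nat_lit 29185044979) (nat_lit 57) (nat_lit 5) (nat_lit 60) (nat_lit 5) (nat_lit 61) (nat_lit 5) (nat_lit 342) (nat_lit 322) (nat_lit 236)) (XT.nd (nat_lit 78) (nat_lit 228) (nat_lit 0) (XT.lf (nat_lit 0) (nat_lit 42172210680) (nat_lit 304) (nat_lit 6340141081) (nat_lit 76) (nat_lit 7571102192) (nat_lit 57) (nat_lit 5) (nat_lit 61) (nat_lit 5) (nat_lit 58) (nat_lit 5) (nat_lit 343) (nat_lit 322) (nat_lit 235)) (XT.lf (nat_lit 0) (nat_lit 3584043619) (nat_lit 228) (nat_lit 15030182849) (nat_lit 76) (nat_lit 40326427351) (nat_lit 54) (nat_lit 5) (nat_lit 57) (nat_lit 5) (nat_lit 55) (nat_lit 5) (nat_lit 344) (nat_lit 322) (nat_lit 234))))) (XT.nd (nat_lit 234) (nat_lit 380) (nat_lit 0) (XT.nd (nat_lit 78) (nat_lit 380) (nat_lit 0) (XT.lf (nat_lit 0)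 (nat_lit 22916054852) (nat_lit 304) (nat_lit 24872748474) (nat_lit 76) (nat_lit 14180002395) (nat_lit 51) (nat_lit 5) (nat_lit 55) (nat_lit 5) (nat_lit 52) (nat_lit 5) (nat_lit 345) (nat_lit 322) (nat_lit 233)) (XT.nd (nat_lit 78) (nat_lit 228) (nat_lit 0) (XT.lf (nat_lit 0) (nat_lit 29314194271) (nat_lit 152) (nat_lit 15512427007) (nat_lit 228) (nat_lit 20360991450) (nat_lit 49) (nat_lit 5) (nat_lit 51) (nat_lit 5) (nat_lit 52) (nat_lit 5) (nat_lit 346) (nat_lit 322) (nat_lit 232)) (XT.lf (nat_lit 0) (nat_lit 904750101) (nat_lit 228) (nat_lit 48208076236) (nat_lit 76) (nat_lit 19497582273) (nat_lit 46) (nat_lit 5) (nat_lit 49) (nat_lit 5) (nat_lit 47) (nat_lit 5) (nat_lit 347) (nat_lit 322) (nat_lit 231)))) (XT.nd (nat_lit 78) (nat_lit 228) (nat_lit 0) (XT.lf (nat_lit 0) (nat_lit 9877892074) (nat_lit 152) (nat_lit 14335733351) (nat_lit 228) (nat_lit 48023954357) (nat_lit 44) (nat_lit 5)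 (nat_lit 46) (nat_lit 5) (nat_lit 47) (nat_lit 5) (nat_lit 348) (nat_lit 322) (nat_lit 230)) (XT.nd (nat_lit 78) (nat_lit 228) (nat_lit 0) (XT.lf (nat_lit 0) (nat_lit 50598288798) (nat_lit 228) (nat_lit 2165401007) (nat_lit 76) (nat_lit 23330682961) (nat_lit 44) (nat_lit 5) (nat_lit 47) (nat_lit 5) (nat_lit 45) (nat_lit 5) (nat_lit 349) (nat_lit 322) (nat_lit 229)) (XT.lf (nat_lit 0) (nat_lit 138439178) (nat_lit 228) (nat_lit 15534963714) (nat_lit 76) (nat_lit 64523863073) (nat_lit 41) (nat_lit 5) (nat_lit 44) (nat_lit 5) (nat_lit 42) (nat_lit 5) (nat_lit 350) (nat_lit 322) (nat_lit 228))))))) (XT.nd (nat_lit 936) (nat_lit 912) (nat_lit 0) (XT.nd (nat_lit 468) (nat_lit 532) (nat_lit 0) (XT.nd (nat_lit 234) (nat_lit 304) (nat_lit 0) (XT.nd (nat_lit 78) (nat_lit 304) (nat_lit 0) (XT.lf (nat_lit 0) (nat_lit 28214562970) (nat_lit 228) (nat_lit 31402100553) (nat_lit 76) (nat_lit 24926625445)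 (nat_lit 39) (nat_lit 5) (nat_lit 42) (nat_lit 5) (nat_lit 40) (nat_lit 5) (nat_lit 351) (nat_lit 322) (nat_lit 227)) (XT.nd (nat_lit 78) (nat_lit 152) (nat_lit 0) (XT.lf (nat_lit 0) (nat_lit 39635188944) (nat_lit 152) (nat_lit 20055407421) (nat_lit 228) (nat_lit 29488707988) (nat_lit 37) (nat_lit 5) (nat_lit 39) (nat_lit 5) (nat_lit 40) (nat_lit 5) (nat_lit 352) (nat_lit 322) (nat_lit 226)) (XT.lf (nat_lit 0) (nat_lit 811368704) (nat_lit 152) (nat_lit 70428911455) (nat_lit 76) (nat_lit 22881473312) (nat_lit 35) (nat_lit 5) (nat_lit 37) (nat_lit 5) (nat_lit 36) (nat_lit 5) (nat_lit 353) (nat_lit 322) (nat_lit 225)))) (XT.nd (nat_lit 78) (nat_lit 152) (nat_lit 0) (XT.lf (nat_lit 0) (nat_lit 4426594953) (nat_lit 152) (nat_lit 29369958731) (nat_lit 228) (nat_lit 65574162869) (nat_lit 33) (nat_lit 5) (nat_lit 35) (nat_lit 5) (nat_lit 36) (nat_lit 5) (nat_lit 354) (nat_lit 322) (nat_lit 224))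 (XT.nd (nat_lit 78) (nat_lit 152) (nat_lit 0) (XT.lf (nat_lit 0) (nat_lit 70911075896) (nat_lit 228) (nat_lit 17467180407) (nat_lit 76) (nat_lit 16586815408) (nat_lit 33) (nat_lit 5) (nat_lit 36) (nat_lit 5) (nat_lit 34) (nat_lit 4) (nat_lit 355) (nat_lit 322) (nat_lit 223)) (XT.lf (nat_lit 0) (nat_lit 1565026850) (nat_lit 152) (nat_lit 43075791425) (nat_lit 76) (nat_lit 66287324997) (nat_lit 31) (nat_lit 5) (nat_lit 33) (nat_lit 5) (nat_lit 32) (nat_lit 5) (nat_lit 356) (nat_lit 322) (nat_lit 222))))) (XT.nd (nat_lit 234) (nat_lit 304) (nat_lit 0) (XT.nd (nat_lit 78) (nat_lit 76) (nat_lit 0) (XT.lf (nat_lit 0) (nat_lit 39916895257) (nat_lit 228) (nat_lit 73262075921) (nat_lit 76) (nat_lit 4107556706) (nat_lit 29) (nat_lit 5) (nat_lit 32) (nat_lit 5) (nat_lit 30) (nat_lit 4) (nat_lit 357) (nat_lit 322) (nat_lit 221)) (XT.nd (nat_lit 78) (nat_lit 0) (nat_lit 0) (XT.lf (nat_lit 0) (nat_lit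 15231270928) (nat_lit 76) (nat_lit 67855470448) (nat_lit 152) (nat_lit 40979351352) (nat_lit 28) (nat_lit 5) (nat_lit 29) (nat_lit 5) (nat_lit 30) (nat_lit 4) (nat_lit 358) (nat_lit 322) (nat_lit 220)) (XT.lf (nat_lit 0) (nat_lit 113414444363) (nat_lit 76) (nat_lit 17568713003) (nat_lit 152) (nat_lit 341217089) (nat_lit 28) (nat_lit 5) (nat_lit 29) (nat_lit 5) (nat_lit 30) (nat_lit 4) (nat_lit 359) (nat_lit 322) (nat_lit 219)))) (XT.nd (nat_lit 78) (nat_lit 76) (nat_lit 0) (XT.lf (nat_lit 0) (nat_lit 44040866342) (nat_lit 228) (nat_lit 57435439028) (nat_lit 76) (nat_lit 37558683505) (nat_lit 25) (nat_lit 5) (nat_lit 28) (nat_lit 5) (nat_lit 26) (nat_lit 4) (nat_lit 360) (nat_lit 322) (nat_lit 218)) (XT.nd (nat_lit 78) (nat_lit 0) (nat_lit 0) (XT.lf (nat_lit 0) (nat_lit 43440402793) (nat_lit 76) (nat_lit 49809975386) (nat_lit 152) (nat_lit 54047354425) (nat_lit 24) (nat_lit 5) (nat_lit 25)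 (nat_lit 5) (nat_lit 26) (nat_lit 4) (nat_lit 361) (nat_lit 322) (nat_lit 217)) (XT.lf (nat_lit 0) (nat_lit 147504250439) (nat_lit 152) (nat_lit 1849290829) (nat_lit 0) (nat_lit 6812575202) (nat_lit 24) (nat_lit 5) (nat_lit 26) (nat_lit 4) (nat_lit 24) (nat_lit 4) (nat_lit 362) (nat_lit 322) (nat_lit 216)))))) (XT.nd (nat_lit 468) (nat_lit 456) (nat_lit 0) (XT.nd (nat_lit 234) (nat_lit 228) (nat_lit 0) (XT.nd (nat_lit 78) (nat_lit 76) (nat_lit 0) (XT.lf (nat_lit 0) (nat_lit 41675761413) (nat_lit 152) (nat_lit 55259350691) (nat_lit 76) (nat_lit 68646712429) (nat_lit 22) (nat_lit 5) (nat_lit 24) (nat_lit 5) (nat_lit 23) (nat_lit 4) (nat_lit 363) (nat_lit 322) (nat_lit 215)) (XT.nd (nat_lit 78) (nat_lit 0) (nat_lit 0) (XT.lf (nat_lit 0) (nat_lit 57473049123) (nat_lit 76) (nat_lit 39195475682) (nat_lit 152) (nat_lit 79028585277) (nat_lit 21) (nat_lit 5) (nat_lit 22) (nat_lit 5) (nat_lit 23)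 (nat_lit 4) (nat_lit 364) (nat_lit 322) (nat_lit 214)) (XT.lf (nat_lit 0) (nat_lit 157398281022) (nat_lit 152) (nat_lit 5758165966) (nat_lit 0) (nat_lit 23398293360) (nat_lit 21) (nat_lit 5) (nat_lit 23) (nat_lit 4) (nat_lit 21) (nat_lit 4) (nat_lit 365) (nat_lit 322) (nat_lit 213)))) (XT.nd (nat_lit 78) (nat_lit 76) (nat_lit 0) (XT.lf (nat_lit 0) (nat_lit 26470057375) (nat_lit 152) (nat_lit 79738627815) (nat_lit 76) (nat_lit 91925242752) (nat_lit 19) (nat_lit 5) (nat_lit 21) (nat_lit 5) (nat_lit 20) (nat_lit 4) (nat_lit 366) (nat_lit 322) (nat_lit 212)) (XT.nd (nat_lit 78) (nat_lit 0) (nat_lit 0) (XT.lf (nat_lit 0) (nat_lit 42928809994) (nat_lit 76) (nat_lit 43380041694) (nat_lit 152) (nat_lit 124267517666) (nat_lit 18) (nat_lit 5) (nat_lit 19) (nat_lit 5) (nat_lit 20) (nat_lit 4) (nat_lit 367) (nat_lit 322) (nat_lit 211)) (XT.lf (nat_lit 0) (nat_lit 152726521413) (nat_lit 152) (nat_lit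 46096595620) (nat_lit 0) (nat_lit 25101500800) (nat_lit 18) (nat_lit 5) (nat_lit 20) (nat_lit 4) (nat_lit 18) (nat_lit 4) (nat_lit 368) (nat_lit 322) (nat_lit 210))))) (XT.nd (nat_lit 234) (nat_lit 228) (nat_lit 0) (XT.nd (nat_lit 78) (nat_lit 152) (nat_lit 0) (XT.lf (nat_lit 0) (nat_lit 87235321398) (nat_lit 76) (nat_lit 139313778947) (nat_lit 76) (nat_lit 11687051387) (nat_lit 17) (nat_lit 4) (nat_lit 18) (nat_lit 5) (nat_lit 18) (nat_lit 4) (nat_lit 369) (nat_lit 322) (nat_lit 209)) (XT.nd (nat_lit 78) (nat_lit 76) (nat_lit 0) (XT.lf (nat_lit 0) (nat_lit 51716068696) (nat_lit 152) (nat_lit 21610367237) (nat_lit 76) (nat_lit 180284411034) (nat_lit 16) (nat_lit 5) (nat_lit 18) (nat_lit 5) (nat_lit 17) (nat_lit 4) (nat_lit 370) (nat_lit 322) (nat_lit 208)) (XT.lf (nat_lit 0) (nat_lit 121690030332) (nat_lit 152) (nat_lit 148282638737) (nat_lit 0) (nat_lit 137867002) (nat_lit 15) (nat_lit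 5) (nat_lit 17) (nat_lit 4) (nat_lit 15) (nat_lit 4) (nat_lit 371) (nat_lit 322) (nat_lit 207)))) (XT.nd (nat_lit 156) (nat_lit 152) (nat_lit 0) (XT.nd (nat_lit 78) (nat_lit 76) (nat_lit 0) (XT.lf (nat_lit 0) (nat_lit 198879232685) (nat_lit 152) (nat_lit 11644322821) (nat_lit 0) (nat_lit 77325778851) (nat_lit 15) (nat_lit 5) (nat_lit 17) (nat_lit 4) (nat_lit 15) (nat_lit 4) (nat_lit 372) (nat_lit 322) (nat_lit 206)) (XT.lf (nat_lit 0) (nat_lit 140416219125) (nat_lit 76) (nat_lit 144018065345) (nat_lit 76) (nat_lit 22463416600) (nat_lit 14) (nat_lit 4) (nat_lit 15) (nat_lit 5) (nat_lit 15) (nat_lit 4) (nat_lit 373) (nat_lit 322) (nat_lit 205))) (XT.nd (nat_lit 78) (nat_lit 76) (nat_lit 0) (XT.lf (nat_lit 0) (nat_lit 47988484248) (nat_lit 152) (nat_lit 23179362435) (nat_lit 76) (nat_lit 256253323723) (nat_lit 13) (nat_lit 5) (nat_lit 15) (nat_lit 5) (nat_lit 14) (nat_lit 4) (nat_lit 374) (nat_lit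 322) (nat_lit 204)) (XT.lf (nat_lit 0) (nat_lit 125572988092) (nat_lit 152) (nat_lit 214076317184) (nat_lit 0) (nat_lit 9804626580) (nat_lit 12) (nat_lit 5) (nat_lit 14) (nat_lit 4) (nat_lit 12) (nat_lit 4) (nat_lit 375) (nat_lit 322) (nat_lit 203))))))))
noncomputable def xc85 : XT := (XT.nd (nat_lit 43290) (nat_lit 0) (nat_lit 2280) (XT.nd (nat_lit 936) (nat_lit 76) (nat_lit 0) (XT.nd (nat_lit 468) (nat_lit 228) (nat_lit 0) (XT.nd (nat_lit 234) (nat_lit 152) (nat_lit 0) (XT.nd (nat_lit 78) (nat_lit 76) (nat_lit 0) (XT.lf (nat_lit 0) (nat_lit 210973287849) (nat_lit 152) (nat_lit 66991551816) (nat_lit 0) (nat_lit 95204022947) (nat_lit 12) (nat_lit 5) (nat_lit 14) (nat_lit 4) (nat_lit 12) (nat_lit 4) (nat_lit 376) (nat_lit 322) (nat_lit 202)) (XT.nd (nat_lit 78) (nat_lit 0) (nat_lit 0) (XT.lf (nat_lit 0) (nat_lit 94894752352) (nat_lit 76) (nat_lit 209791160961) (nat_lit 76) (nat_lit 94021059588)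 (nat_lit 11) (nat_lit 4) (nat_lit 12) (nat_lit 5) (nat_lit 12) (nat_lit 4) (nat_lit 377) (nat_lit 322) (nat_lit 201)) (XT.lf (nat_lit 0) (nat_lit 272121847643) (nat_lit 76) (nat_lit 134939436809) (nat_lit 76) (nat_lit 19168560925) (nat_lit 11) (nat_lit 4) (nat_lit 12) (nat_lit 5) (nat_lit 12) (nat_lit 4) (nat_lit 378) (nat_lit 322) (nat_lit 200)))) (XT.nd (nat_lit 78) (nat_lit 0) (nat_lit 0) (XT.lf (nat_lit 0) (nat_lit 6825937616) (nat_lit 76) (nat_lit 52977735866) (nat_lit 152) (nat_lit 396097459084) (nat_lit 9) (nat_lit 5) (nat_lit 10) (nat_lit 5) (nat_lit 11) (nat_lit 4) (nat_lit 379) (nat_lit 322) (nat_lit 199)) (XT.nd (nat_lit 78) (nat_lit 0) (nat_lit 0) (XT.lf (nat_lit 0) (nat_lit 147713347097) (nat_lit 152) (nat_lit 302598447468) (nat_lit 0) (nat_lit 37454054677) (nat_lit 9) (nat_lit 5) (nat_lit 11) (nat_lit 4) (nat_lit 9) (nat_lit 4) (nat_lit 380) (nat_lit 322) (nat_lit 198)) (XT.lf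 (nat_lit 0) (nat_lit 243548070693) (nat_lit 152) (nat_lit 145298866146) (nat_lit 0) (nat_lit 133288192719) (nat_lit 9) (nat_lit 5) (nat_lit 11) (nat_lit 4) (nat_lit 9) (nat_lit 4) (nat_lit 381) (nat_lit 322) (nat_lit 197))))) (XT.nd (nat_lit 234) (nat_lit 152) (nat_lit 0) (XT.nd (nat_lit 78) (nat_lit 0) (nat_lit 0) (XT.lf (nat_lit 0) (nat_lit 25395644844) (nat_lit 76) (nat_lit 322049475160) (nat_lit 76) (nat_lit 211789055006) (nat_lit 8) (nat_lit 4) (nat_lit 9) (nat_lit 5) (nat_lit 9) (nat_lit 4) (nat_lit 382) (nat_lit 322) (nat_lit 196)) (XT.nd (nat_lit 78) (nat_lit 0) (nat_lit 0) (XT.lf (nat_lit 0) (nat_lit 214932516945) (nat_lit 76) (nat_lit 247251522067) (nat_lit 76) (nat_lit 136990599895) (nat_lit 8) (nat_lit 4) (nat_lit 9) (nat_lit 5) (nat_lit 9) (nat_lit 4) (nat_lit 383) (nat_lit 322) (nat_lit 195)) (XT.lf (nat_lit 0) (nat_lit 419630694917) (nat_lit 76) (nat_lit 166470537034) (nat_lit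 76) (nat_lit 56209150030) (nat_lit 8) (nat_lit 4) (nat_lit 9) (nat_lit 5) (nat_lit 9) (nat_lit 4) (nat_lit 384) (nat_lit 322) (nat_lit 194)))) (XT.nd (nat_lit 78) (nat_lit 76) (nat_lit 0) (XT.lf (nat_lit 0) (nat_lit 30040717680) (nat_lit 152) (nat_lit 48678346159) (nat_lit 76) (nat_lit 610153733231) (nat_lit 7) (nat_lit 5) (nat_lit 9) (nat_lit 5) (nat_lit 8) (nat_lit 4) (nat_lit 385) (nat_lit 322) (nat_lit 193)) (XT.nd (nat_lit 78) (nat_lit 0) (nat_lit 0) (XT.lf (nat_lit 0) (nat_lit 123780140060) (nat_lit 152) (nat_lit 596437543449) (nat_lit 0) (nat_lit 18768505849) (nat_lit 6) (nat_lit 5) (nat_lit 8) (nat_lit 4) (nat_lit 6) (nat_lit 4) (nat_lit 386) (nat_lit 322) (nat_lit 192)) (XT.lf (nat_lit 0) (nat_lit 227207200177) (nat_lit 152) (nat_lit 443596814184) (nat_lit 0) (nat_lit 122195214539) (nat_lit 6) (nat_lit 5) (nat_lit 8) (nat_lit 4) (nat_lit 6) (nat_lit 4) (nat_lit 387) (nat_lit 322)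 (nat_lit 191)))))) (XT.nd (nat_lit 41808) (nat_lit 0) (nat_lit 7676) (XT.nd (nat_lit 234) (nat_lit 0) (nat_lit 0) (XT.nd (nat_lit 78) (nat_lit 76) (nat_lit 0) (XT.lf (nat_lit 0) (nat_lit 338907768255) (nat_lit 152) (nat_lit 278530119031) (nat_lit 0) (nat_lit 233895457222) (nat_lit 6) (nat_lit 5) (nat_lit 8) (nat_lit 4) (nat_lit 6) (nat_lit 4) (nat_lit 388) (nat_lit 322) (nat_lit 190)) (XT.nd (nat_lit 78) (nat_lit 76) (nat_lit 0) (XT.lf (nat_lit 0) (nat_lit 459543773588) (nat_lit 152) (nat_lit 100259284983) (nat_lit 0) (nat_lit 354531161263) (nat_lit 6) (nat_lit 5) (nat_lit 8) (nat_lit 4) (nat_lit 6) (nat_lit 4) (nat_lit 389) (nat_lit 322) (nat_lit 189)) (XT.lf (nat_lit 0) (nat_lit 95323040313) (nat_lit 76) (nat_lit 495995315695) (nat_lit 76) (nat_lit 390982424396) (nat_lit 5) (nat_lit 4) (nat_lit 6) (nat_lit 5) (nat_lit 6) (nat_lit 4) (nat_lit 390) (nat_lit 322) (nat_lit 188)))) (XT.nd (nat_lit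 78) (nat_lit 0) (nat_lit 0) (XT.lf (nat_lit 0) (nat_lit 310131118442) (nat_lit 76) (nat_lit 425249700664) (nat_lit 76) (nat_lit 320236551056) (nat_lit 5) (nat_lit 4) (nat_lit 6) (nat_lit 5) (nat_lit 6) (nat_lit 4) (nat_lit 391) (nat_lit 322) (nat_lit 187)) (XT.nd (nat_lit 78) (nat_lit 0) (nat_lit 0) (XT.lf (nat_lit 0) (nat_lit 542122861419) (nat_lit 76) (nat_lit 348844919710) (nat_lit 76) (nat_lit 243831530926) (nat_lit 5) (nat_lit 4) (nat_lit 6) (nat_lit 5) (nat_lit 6) (nat_lit 4) (nat_lit 392) (nat_lit 322) (nat_lit 186)) (XT.lf (nat_lit 0) (nat_lit 792673035129) (nat_lit 76) (nat_lit 266328203758) (nat_lit 76) (nat_lit 161314593516) (nat_lit 5) (nat_lit 4) (nat_lit 6) (nat_lit 5) (nat_lit 6) (nat_lit 4) (nat_lit 393) (nat_lit 322) (nat_lit 185))))) (XT.nd (nat_lit 234) (nat_lit 0) (nat_lit 152) (XT.nd (nat_lit 78) (nat_lit 0) (nat_lit 76) (XT.lf (nat_lit 0) (nat_lit 1293240643) (nat_lit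 836) (nat_lit 5350169224) (nat_lit 836) (nat_lit 5350169224) (nat_lit 106) (nat_lit 3) (nat_lit 117) (nat_lit 3) (nat_lit 117) (nat_lit 5) (nat_lit 323) (nat_lit 323) (nat_lit 254)) (XT.nd (nat_lit 78) (nat_lit 0) (nat_lit 0) (XT.lf (nat_lit 0) (nat_lit 3064068098) (nat_lit 760) (nat_lit 17118637884) (nat_lit 836) (nat_lit 4745080992) (nat_lit 107) (nat_lit 5) (nat_lit 117) (nat_lit 5) (nat_lit 118) (nat_lit 5) (nat_lit 324) (nat_lit 323) (nat_lit 253)) (XT.lf (nat_lit 76) (nat_lit 2076010585) (nat_lit 0) (nat_lit 1932281208) (nat_lit 836) (nat_lit 21913967900) (nat_lit 108) (nat_lit 5) (nat_lit 107) (nat_lit 5) (nat_lit 118) (nat_lit 5) (nat_lit 325) (nat_lit 323) (nat_lit 252)))) (XT.nd (nat_lit 156) (nat_lit 0) (nat_lit 152) (XT.nd (nat_lit 78) (nat_lit 0) (nat_lit 76) (XT.lf (nat_lit 0) (nat_lit 5592469301) (nat_lit 760) (nat_lit 3857270927) (nat_lit 836) (nat_lit 17518343210) (nat_lit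 108) (nat_lit 5) (nat_lit 118) (nat_lit 5) (nat_lit 119) (nat_lit 5) (nat_lit 326) (nat_lit 323) (nat_lit 251)) (XT.lf (nat_lit 0) (nat_lit 7772759162) (nat_lit 760) (nat_lit 9976043963) (nat_lit 836) (nat_lit 10325314015) (nat_lit 109) (nat_lit 5) (nat_lit 119) (nat_lit 5) (nat_lit 120) (nat_lit 5) (nat_lit 327) (nat_lit 323) (nat_lit 250))) (XT.nd (nat_lit 78) (nat_lit 0) (nat_lit 0) (XT.lf (nat_lit 0) (nat_lit 10580090498) (nat_lit 760) (nat_lit 16360009256) (nat_lit 836) (nat_lit 2305914874) (nat_lit 110) (nat_lit 5) (nat_lit 120) (nat_lit 5) (nat_lit 121) (nat_lit 5) (nat_lit 328) (nat_lit 323) (nat_lit 249)) (XT.lf (nat_lit 76) (nat_lit 7352736397) (nat_lit 0) (nat_lit 6836896845) (nat_lit 836) (nat_lit 16293160547) (nat_lit 111) (nat_lit 5) (nat_lit 110) (nat_lit 5) (nat_lit 121) (nat_lit 5) (nat_lit 329) (nat_lit 323) (nat_lit 248))))))) (XT.nd (nat_lit 936) (nat_lit 2204) (nat_lit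 0) (XT.nd (nat_lit 468) (nat_lit 1368) (nat_lit 0) (XT.nd (nat_lit 234) (nat_lit 1064) (nat_lit 0) (XT.nd (nat_lit 78) (nat_lit 380) (nat_lit 0) (XT.lf (nat_lit 0) (nat_lit 1544015877) (nat_lit 760) (nat_lit 17077680673) (nat_lit 836) (nat_lit 13170141165) (nat_lit 101) (nat_lit 5) (nat_lit 111) (nat_lit 5) (nat_lit 112) (nat_lit 5) (nat_lit 330) (nat_lit 323) (nat_lit 247)) (XT.nd (nat_lit 78) (nat_lit 380) (nat_lit 0) (XT.lf (nat_lit 0) (nat_lit 23990843844) (nat_lit 836) (nat_lit 4369630118) (nat_lit 76) (nat_lit 4816014778) (nat_lit 101) (nat_lit 5) (nat_lit 112) (nat_lit 5) (nat_lit 102) (nat_lit 5) (nat_lit 331) (nat_lit 323) (nat_lit 246)) (XT.lf (nat_lit 0) (nat_lit 24050370349) (nat_lit 380) (nat_lit 6391980682) (nat_lit 456) (nat_lit 4196928237) (nat_lit 96) (nat_lit 5) (nat_lit 101) (nat_lit 5) (nat_lit 102) (nat_lit 5) (nat_lit 332) (nat_lit 323) (nat_lit 245)))) (XT.nd (nat_lit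 78) (nat_lit 684) (nat_lit 0) (XT.lf (nat_lit 0) (nat_lit 1797990696) (nat_lit 380) (nat_lit 17205360709) (nat_lit 76) (nat_lit 17182558723) (nat_lit 91) (nat_lit 5) (nat_lit 96) (nat_lit 5) (nat_lit 92) (nat_lit 5) (nat_lit 333) (nat_lit 323) (nat_lit 244)) (XT.nd (nat_lit 78) (nat_lit 304) (nat_lit 0) (XT.lf (nat_lit 0) (nat_lit 8706006896) (nat_lit 456) (nat_lit 24213716708) (nat_lit 76) (nat_lit 4904087770) (nat_lit 86) (nat_lit 5) (nat_lit 92) (nat_lit 5) (nat_lit 87) (nat_lit 5) (nat_lit 334) (nat_lit 323) (nat_lit 243)) (XT.lf (nat_lit 0) (nat_lit 7842911425) (nat_lit 304) (nat_lit 9062233424) (nat_lit 380) (nat_lit 22650682520) (nat_lit 82) (nat_lit 5) (nat_lit 86) (nat_lit 5) (nat_lit 87) (nat_lit 5) (nat_lit 335) (nat_lit 323) (nat_lit 242))))) (XT.nd (nat_lit 234) (nat_lit 760) (nat_lit 0) (XT.nd (nat_lit 78) (nat_lit 304) (nat_lit 0) (XT.lf (nat_lit 0) (nat_lit 1699959007) (nat_lit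 304) (nat_lit 24767768270) (nat_lit 380) (nat_lit 14923307870) (nat_lit 78) (nat_lit 5) (nat_lit 82) (nat_lit 5) (nat_lit 83) (nat_lit 5) (nat_lit 336) (nat_lit 323) (nat_lit 241)) (XT.nd (nat_lit 78) (nat_lit 304) (nat_lit 0) (XT.lf (nat_lit 0) (nat_lit 37509715377) (nat_lit 380) (nat_lit 4607267782) (nat_lit 76) (nat_lit 1220362156) (nat_lit 78) (nat_lit 5) (nat_lit 83) (nat_lit 5) (nat_lit 79) (nat_lit 5) (nat_lit 337) (nat_lit 323) (nat_lit 240)) (XT.lf (nat_lit 0) (nat_lit 4823318364) (nat_lit 304) (nat_lit 11527516635) (nat_lit 76) (nat_lit 29037635956) (nat_lit 74) (nat_lit 5) (nat_lit 78) (nat_lit 5) (nat_lit 75) (nat_lit 5) (nat_lit 338) (nat_lit 323) (nat_lit 239)))) (XT.nd (nat_lit 78) (nat_lit 456) (nat_lit 0) (XT.lf (nat_lit 0) (nat_lit 16838157290) (nat_lit 380) (nat_lit 18978070926) (nat_lit 76) (nat_lit 11746887029) (nat_lit 70) (nat_lit 5) (nat_lit 75) (nat_lit 5) (nat_lit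 71) (nat_lit 5) (nat_lit 339) (nat_lit 323) (nat_lit 238)) (XT.nd (nat_lit 78) (nat_lit 228) (nat_lit 0) (XT.lf (nat_lit 0) (nat_lit 22860132417) (nat_lit 228) (nat_lit 7783944680) (nat_lit 304) (nat_lit 19226163617) (nat_lit 67) (nat_lit 5) (nat_lit 70) (nat_lit 5) (nat_lit 71) (nat_lit 5) (nat_lit 340) (nat_lit 323) (nat_lit 237)) (XT.lf (nat_lit 0) (nat_lit 16541556821) (nat_lit 228) (nat_lit 29951843269) (nat_lit 304) (nat_lit 5821593655) (nat_lit 64) (nat_lit 5) (nat_lit 67) (nat_lit 5) (nat_lit 68) (nat_lit 5) (nat_lit 341) (nat_lit 323) (nat_lit 236)))))) (XT.nd (nat_lit 468) (nat_lit 1064) (nat_lit 0) (XT.nd (nat_lit 234) (nat_lit 608) (nat_lit 0) (XT.nd (nat_lit 78) (nat_lit 228) (nat_lit 0) (XT.lf (nat_lit 0) (nat_lit 9139840234) (nat_lit 304) (nat_lit 45283193804) (nat_lit 76) (nat_lit 487463637) (nat_lit 60) (nat_lit 5) (nat_lit 64) (nat_lit 5) (nat_lit 61) (nat_lit 5) (nat_lit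 342) (nat_lit 323) (nat_lit 235)) (XT.nd (nat_lit 78) (nat_lit 0) (nat_lit 0) (XT.lf (nat_lit 0) (nat_lit 1686957936) (nat_lit 228) (nat_lit 24568794915) (nat_lit 304) (nat_lit 31395044325) (nat_lit 57) (nat_lit 5) (nat_lit 60) (nat_lit 5) (nat_lit 61) (nat_lit 5) (nat_lit 343) (nat_lit 323) (nat_lit 234)) (XT.lf (nat_lit 0) (nat_lit 45656802937) (nat_lit 304) (nat_lit 6680407889) (nat_lit 76) (nat_lit 8227319615) (nat_lit 57) (nat_lit 5) (nat_lit 61) (nat_lit 5) (nat_lit 58) (nat_lit 5) (nat_lit 344) (nat_lit 323) (nat_lit 233)))) (XT.nd (nat_lit 78) (nat_lit 380) (nat_lit 0) (XT.lf (nat_lit 0) (nat_lit 3977643044) (nat_lit 228) (nat_lit 16069322323) (nat_lit 76) (nat_lit 43603544882) (nat_lit 54) (nat_lit 5) (nat_lit 57) (nat_lit 5) (nat_lit 55) (nat_lit 5) (nat_lit 345) (nat_lit 323) (nat_lit 232)) (XT.nd (nat_lit 78) (nat_lit 152) (nat_lit 0) (XT.lf (nat_lit 0) (nat_lit 24851592135)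 (nat_lit 304) (nat_lit 26702126134) (nat_lit 76) (nat_lit 15367431044) (nat_lit 51) (nat_lit 5) (nat_lit 55) (nat_lit 5) (nat_lit 52) (nat_lit 5) (nat_lit 346) (nat_lit 323) (nat_lit 231)) (XT.lf (nat_lit 0) (nat_lit 31812799407) (nat_lit 152) (nat_lit 16697026270) (nat_lit 228) (nat_lit 21887897685) (nat_lit 49) (nat_lit 5) (nat_lit 51) (nat_lit 5) (nat_lit 52) (nat_lit 5) (nat_lit 347) (nat_lit 323) (nat_lit 230))))) (XT.nd (nat_lit 234) (nat_lit 684) (nat_lit 0) (XT.nd (nat_lit 78) (nat_lit 152) (nat_lit 0) (XT.lf (nat_lit 0) (nat_lit 1071746761) (nat_lit 228) (nat_lit 51910911226) (nat_lit 76) (nat_lit 21111813105) (nat_lit 46) (nat_lit 5) (nat_lit 49) (nat_lit 5) (nat_lit 47) (nat_lit 5) (nat_lit 348) (nat_lit 323) (nat_lit 229)) (XT.nd (nat_lit 78) (nat_lit 0) (nat_lit 0) (XT.lf (nat_lit 0) (nat_lit 10815250106) (nat_lit 152) (nat_lit 15425370425) (nat_lit 228) (nat_lit 51771433924)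 (nat_lit 44) (nat_lit 5) (nat_lit 46) (nat_lit 5) (nat_lit 47) (nat_lit 5) (nat_lit 349) (nat_lit 323) (nat_lit 228)) (XT.lf (nat_lit 0) (nat_lit 54730224550) (nat_lit 228) (nat_lit 2199035879) (nat_lit 76) (nat_lit 25248424770) (nat_lit 44) (nat_lit 5) (nat_lit 47) (nat_lit 5) (nat_lit 45) (nat_lit 5) (nat_lit 350) (nat_lit 323) (nat_lit 227)))) (XT.nd (nat_lit 156) (nat_lit 304) (nat_lit 0) (XT.nd (nat_lit 78) (nat_lit 152) (nat_lit 0) (XT.lf (nat_lit 0) (nat_lit 230784723) (nat_lit 228) (nat_lit 16641513392) (nat_lit 76) (nat_lit 69736655839) (nat_lit 41) (nat_lit 5) (nat_lit 44) (nat_lit 5) (nat_lit 42) (nat_lit 5) (nat_lit 351) (nat_lit 323) (nat_lit 226)) (XT.lf (nat_lit 0) (nat_lit 30549841267) (nat_lit 228) (nat_lit 33780878627) (nat_lit 76) (nat_lit 26972098967) (nat_lit 39) (nat_lit 5) (nat_lit 42) (nat_lit 5) (nat_lit 40) (nat_lit 5) (nat_lit 352) (nat_lit 323) (nat_lit 225)))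 (XT.nd (nat_lit 78) (nat_lit 152) (nat_lit 0) (XT.lf (nat_lit 0) (nat_lit 42933597064) (nat_lit 152) (nat_lit 21606566186) (nat_lit 228) (nat_lit 31769743972) (nat_lit 37) (nat_lit 5) (nat_lit 39) (nat_lit 5) (nat_lit 40) (nat_lit 5) (nat_lit 353) (nat_lit 323) (nat_lit 224)) (XT.lf (nat_lit 0) (nat_lit 949006909) (nat_lit 152) (nat_lit 75935965887) (nat_lit 76) (nat_lit 24762862014) (nat_lit 35) (nat_lit 5) (nat_lit 37) (nat_lit 5) (nat_lit 36) (nat_lit 5) (nat_lit 354) (nat_lit 323) (nat_lit 223))))))))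
noncomputable def xc86 : XT := (XT.nd (nat_lit 1950) (nat_lit 456) (nat_lit 0) (XT.nd (nat_lit 936) (nat_lit 760) (nat_lit 0) (XT.nd (nat_lit 468) (nat_lit 532) (nat_lit 0) (XT.nd (nat_lit 234) (nat_lit 228) (nat_lit 0) (XT.nd (nat_lit 78) (nat_lit 152) (nat_lit 0) (XT.lf (nat_lit 0) (nat_lit 4902450536) (nat_lit 152) (nat_lit 31667069354) (nat_lit 228) (nat_lit 70747371053) (nat_lit 33) (nat_lit 5) (nat_lit 35) (nat_lit 5) (nat_lit 36) (nat_lit 5) (nat_lit 355) (nat_lit 323) (nat_lit 222)) (XT.nd (nat_lit 78) (nat_lit 152) (nat_lit 0) (XT.lf (nat_lit 0) (nat_lit 76648833604) (nat_lit 228) (nat_lit 18749377557) (nat_lit 76) (nat_lit 17960803411) (nat_lit 33) (nat_lit 5) (nat_lit 36) (nat_lit 5) (nat_lit 34) (nat_lit 4) (nat_lit 356) (nat_lit 323) (nat_lit 221)) (XT.lf (nat_lit 0) (nat_lit 1753045604) (nat_lit 152) (nat_lit 46409588905) (nat_lit 76) (nat_lit 71636602380) (nat_lit 31) (nat_lit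 5) (nat_lit 33) (nat_lit 5) (nat_lit 32) (nat_lit 5) (nat_lit 357) (nat_lit 323) (nat_lit 220)))) (XT.nd (nat_lit 78) (nat_lit 76) (nat_lit 0) (XT.lf (nat_lit 0) (nat_lit 43170829350) (nat_lit 228) (nat_lit 79013389676) (nat_lit 76) (nat_lit 4482186212) (nat_lit 29) (nat_lit 5) (nat_lit 32) (nat_lit 5) (nat_lit 30) (nat_lit 4) (nat_lit 358) (nat_lit 323) (nat_lit 219)) (XT.nd (nat_lit 78) (nat_lit 0) (nat_lit 0) (XT.lf (nat_lit 0) (nat_lit 16554659565) (nat_lit 76) (nat_lit 73236753582) (nat_lit 152) (nat_lit 44197065788) (nat_lit 28) (nat_lit 5) (nat_lit 29) (nat_lit 5) (nat_lit 30) (nat_lit 4) (nat_lit 359) (nat_lit 323) (nat_lit 218)) (XT.lf (nat_lit 0) (nat_lit 122584717471) (nat_lit 76) (nat_lit 18930548468) (nat_lit 152) (nat_lit 312372168) (nat_lit 28) (nat_lit 5) (nat_lit 29) (nat_lit 5) (nat_lit 30) (nat_lit 4) (nat_lit 360) (nat_lit 323) (nat_lit 217))))) (XT.nd (nat_lit 234) (nat_lit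 228) (nat_lit 0) (XT.nd (nat_lit 78) (nat_lit 76) (nat_lit 0) (XT.lf (nat_lit 0) (nat_lit 47616601569) (nat_lit 228) (nat_lit 61933713024) (nat_lit 76) (nat_lit 40604838185) (nat_lit 25) (nat_lit 5) (nat_lit 28) (nat_lit 5) (nat_lit 26) (nat_lit 4) (nat_lit 361) (nat_lit 323) (nat_lit 216)) (XT.nd (nat_lit 78) (nat_lit 0) (nat_lit 0) (XT.lf (nat_lit 0) (nat_lit 47007999714) (nat_lit 76) (nat_lit 53752430346) (nat_lit 152) (nat_lit 58318609043) (nat_lit 24) (nat_lit 5) (nat_lit 25) (nat_lit 5) (nat_lit 26) (nat_lit 4) (nat_lit 362) (nat_lit 323) (nat_lit 215)) (XT.lf (nat_lit 0) (nat_lit 159351518920) (nat_lit 152) (nat_lit 1909997324) (nat_lit 0) (nat_lit 7395532911) (nat_lit 24) (nat_lit 5) (nat_lit 26) (nat_lit 4) (nat_lit 24) (nat_lit 4) (nat_lit 363) (nat_lit 323) (nat_lit 214)))) (XT.nd (nat_lit 78) (nat_lit 76) (nat_lit 0) (XT.lf (nat_lit 0) (nat_lit 45055320251) (nat_lit 152) (nat_lit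 59595139807) (nat_lit 76) (nat_lit 74175626536) (nat_lit 22) (nat_lit 5) (nat_lit 24) (nat_lit 5) (nat_lit 23) (nat_lit 4) (nat_lit 364) (nat_lit 323) (nat_lit 213)) (XT.nd (nat_lit 78) (nat_lit 0) (nat_lit 0) (XT.lf (nat_lit 0) (nat_lit 62152159780) (nat_lit 76) (nat_lit 42293243520) (nat_lit 152) (nat_lit 85305297425) (nat_lit 21) (nat_lit 5) (nat_lit 22) (nat_lit 5) (nat_lit 23) (nat_lit 4) (nat_lit 365) (nat_lit 323) (nat_lit 212)) (XT.lf (nat_lit 0) (nat_lit 170030872921) (nat_lit 152) (nat_lit 6142102919) (nat_lit 0) (nat_lit 25304099545) (nat_lit 21) (nat_lit 5) (nat_lit 23) (nat_lit 4) (nat_lit 21) (nat_lit 4) (nat_lit 366) (nat_lit 323) (nat_lit 211)))))) (XT.nd (nat_lit 468) (nat_lit 304) (nat_lit 0) (XT.nd (nat_lit 234) (nat_lit 228) (nat_lit 0) (XT.nd (nat_lit 78) (nat_lit 76) (nat_lit 0) (XT.lf (nat_lit 0) (nat_lit 28627164030) (nat_lit 152) (nat_lit 86043022789) (nat_lit 76)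 (nat_lit 99312473447) (nat_lit 19) (nat_lit 5) (nat_lit 21) (nat_lit 5) (nat_lit 20) (nat_lit 4) (nat_lit 367) (nat_lit 323) (nat_lit 210)) (XT.nd (nat_lit 78) (nat_lit 0) (nat_lit 0) (XT.lf (nat_lit 0) (nat_lit 46434563879) (nat_lit 76) (nat_lit 46816687449) (nat_lit 152) (nat_lit 134169336693) (nat_lit 18) (nat_lit 5) (nat_lit 19) (nat_lit 5) (nat_lit 20) (nat_lit 4) (nat_lit 368) (nat_lit 323) (nat_lit 209)) (XT.lf (nat_lit 0) (nat_lit 164980030679) (nat_lit 152) (nat_lit 49716903904) (nat_lit 0) (nat_lit 27139877462) (nat_lit 18) (nat_lit 5) (nat_lit 20) (nat_lit 4) (nat_lit 18) (nat_lit 4) (nat_lit 369) (nat_lit 323) (nat_lit 208)))) (XT.nd (nat_lit 78) (nat_lit 152) (nat_lit 0) (XT.lf (nat_lit 0) (nat_lit 94278636512) (nat_lit 76) (nat_lit 150428164973) (nat_lit 76) (nat_lit 12586548325) (nat_lit 17) (nat_lit 4) (nat_lit 18) (nat_lit 5) (nat_lit 18) (nat_lit 4) (nat_lit 370) (nat_lit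 323) (nat_lit 207)) (XT.nd (nat_lit 78) (nat_lit 76) (nat_lit 0) (XT.lf (nat_lit 0) (nat_lit 55885143082) (nat_lit 152) (nat_lit 23278428357) (nat_lit 76) (nat_lit 194734549076) (nat_lit 16) (nat_lit 5) (nat_lit 18) (nat_lit 5) (nat_lit 17) (nat_lit 4) (nat_lit 371) (nat_lit 323) (nat_lit 206)) (XT.lf (nat_lit 0) (nat_lit 131456008259) (nat_lit 152) (nat_lit 160086034806) (nat_lit 0) (nat_lit 175792703) (nat_lit 15) (nat_lit 5) (nat_lit 17) (nat_lit 4) (nat_lit 15) (nat_lit 4) (nat_lit 372) (nat_lit 323) (nat_lit 205))))) (XT.nd (nat_lit 234) (nat_lit 152) (nat_lit 0) (XT.nd (nat_lit 78) (nat_lit 152) (nat_lit 0) (XT.lf (nat_lit 0) (nat_lit 214818067134) (nat_lit 152) (nat_lit 12521039915) (nat_lit 0) (nat_lit 83536745179) (nat_lit 15) (nat_lit 5) (nat_lit 17) (nat_lit 4) (nat_lit 15) (nat_lit 4) (nat_lit 373) (nat_lit 323) (nat_lit 204)) (XT.nd (nat_lit 78) (nat_lit 76) (nat_lit 0) (XT.lf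 (nat_lit 0) (nat_lit 151701962596) (nat_lit 76) (nat_lit 155514268490) (nat_lit 76) (nat_lit 24231922092) (nat_lit 14) (nat_lit 4) (nat_lit 15) (nat_lit 5) (nat_lit 15) (nat_lit 4) (nat_lit 374) (nat_lit 323) (nat_lit 203)) (XT.lf (nat_lit 0) (nat_lit 51853168067) (nat_lit 152) (nat_lit 24984300417) (nat_lit 76) (nat_lit 276776111963) (nat_lit 13) (nat_lit 5) (nat_lit 15) (nat_lit 5) (nat_lit 14) (nat_lit 4) (nat_lit 375) (nat_lit 323) (nat_lit 202)))) (XT.nd (nat_lit 156) (nat_lit 76) (nat_lit 0) (XT.nd (nat_lit 78) (nat_lit 0) (nat_lit 0) (XT.lf (nat_lit 0) (nat_lit 135643629707) (nat_lit 152) (nat_lit 231154289725) (nat_lit 0) (nat_lit 10611083753) (nat_lit 12) (nat_lit 5) (nat_lit 14) (nat_lit 4) (nat_lit 12) (nat_lit 4) (nat_lit 376) (nat_lit 323) (nat_lit 201)) (XT.lf (nat_lit 0) (nat_lit 227874116218) (nat_lit 152) (nat_lit 72306308523) (nat_lit 0) (nat_lit 102840795753) (nat_lit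 12) (nat_lit 5) (nat_lit 14) (nat_lit 4) (nat_lit 12) (nat_lit 4) (nat_lit 377) (nat_lit 323) (nat_lit 200))) (XT.nd (nat_lit 78) (nat_lit 0) (nat_lit 0) (XT.lf (nat_lit 0) (nat_lit 102528963131) (nat_lit 76) (nat_lit 226553753034) (nat_lit 76) (nat_lit 101519715430) (nat_lit 11) (nat_lit 4) (nat_lit 12) (nat_lit 5) (nat_lit 12) (nat_lit 4) (nat_lit 378) (nat_lit 323) (nat_lit 199)) (XT.lf (nat_lit 0) (nat_lit 293931068225) (nat_lit 76) (nat_lit 145715424343) (nat_lit 76) (nat_lit 20680722720) (nat_lit 11) (nat_lit 4) (nat_lit 12) (nat_lit 5) (nat_lit 12) (nat_lit 4) (nat_lit 379) (nat_lit 323) (nat_lit 198))))))) (XT.nd (nat_lit 936) (nat_lit 0) (nat_lit 0) (XT.nd (nat_lit 468) (nat_lit 228) (nat_lit 0) (XT.nd (nat_lit 234) (nat_lit 76) (nat_lit 0) (XT.nd (nat_lit 78) (nat_lit 0) (nat_lit 0) (XT.lf (nat_lit 0) (nat_lit 7410425003) (nat_lit 76) (nat_lit 57197253756) (nat_lit 152) (nat_lit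 427764556680) (nat_lit 9) (nat_lit 5) (nat_lit 10) (nat_lit 5) (nat_lit 11) (nat_lit 4) (nat_lit 380) (nat_lit 323) (nat_lit 197)) (XT.nd (nat_lit 78) (nat_lit 0) (nat_lit 0) (XT.lf (nat_lit 0) (nat_lit 159548936507) (nat_lit 152) (nat_lit 326770112030) (nat_lit 0) (nat_lit 40467140561) (nat_lit 9) (nat_lit 5) (nat_lit 11) (nat_lit 4) (nat_lit 9) (nat_lit 4) (nat_lit 381) (nat_lit 323) (nat_lit 196)) (XT.lf (nat_lit 0) (nat_lit 263049066017) (nat_lit 152) (nat_lit 156889246515) (nat_lit 0) (nat_lit 143966768053) (nat_lit 9) (nat_lit 5) (nat_lit 11) (nat_lit 4) (nat_lit 9) (nat_lit 4) (nat_lit 382) (nat_lit 323) (nat_lit 195)))) (XT.nd (nat_lit 78) (nat_lit 0) (nat_lit 0) (XT.lf (nat_lit 0) (nat_lit 27459368228) (nat_lit 76) (nat_lit 347797741430) (nat_lit 76) (nat_lit 228714978634) (nat_lit 8) (nat_lit 4) (nat_lit 9) (nat_lit 5) (nat_lit 9) (nat_lit 4) (nat_lit 383) (nat_lit 323) (nat_lit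 194)) (XT.nd (nat_lit 78) (nat_lit 0) (nat_lit 0) (XT.lf (nat_lit 0) (nat_lit 232156814409) (nat_lit 76) (nat_lit 267017114440) (nat_lit 76) (nat_lit 147933921245) (nat_lit 8) (nat_lit 4) (nat_lit 9) (nat_lit 5) (nat_lit 9) (nat_lit 4) (nat_lit 384) (nat_lit 323) (nat_lit 193)) (XT.lf (nat_lit 0) (nat_lit 453228646907) (nat_lit 76) (nat_lit 179774726856) (nat_lit 76) (nat_lit 60691135143) (nat_lit 8) (nat_lit 4) (nat_lit 9) (nat_lit 5) (nat_lit 9) (nat_lit 4) (nat_lit 385) (nat_lit 323) (nat_lit 192))))) (XT.nd (nat_lit 234) (nat_lit 76) (nat_lit 0) (XT.nd (nat_lit 78) (nat_lit 76) (nat_lit 0) (XT.lf (nat_lit 0) (nat_lit 32457192591) (nat_lit 152) (nat_lit 52546715897) (nat_lit 76) (nat_lit 658978050173) (nat_lit 7) (nat_lit 5) (nat_lit 9) (nat_lit 5) (nat_lit 8) (nat_lit 4) (nat_lit 386) (nat_lit 323) (nat_lit 191)) (XT.nd (nat_lit 78) (nat_lit 0) (nat_lit 0) (XT.lf (nat_lit 0) (nat_lit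 133695366109) (nat_lit 152) (nat_lit 644127331656) (nat_lit 0) (nat_lit 20281744798) (nat_lit 6) (nat_lit 5) (nat_lit 8) (nat_lit 4) (nat_lit 6) (nat_lit 4) (nat_lit 387) (nat_lit 323) (nat_lit 190)) (XT.lf (nat_lit 0) (nat_lit 245395641787) (nat_lit 152) (nat_lit 479061211847) (nat_lit 0) (nat_lit 131981719185) (nat_lit 6) (nat_lit 5) (nat_lit 8) (nat_lit 4) (nat_lit 6) (nat_lit 4) (nat_lit 388) (nat_lit 323) (nat_lit 189)))) (XT.nd (nat_lit 78) (nat_lit 76) (nat_lit 0) (XT.lf (nat_lit 0) (nat_lit 366031376379) (nat_lit 152) (nat_lit 300790910525) (nat_lit 0) (nat_lit 252617174802) (nat_lit 6) (nat_lit 5) (nat_lit 8) (nat_lit 4) (nat_lit 6) (nat_lit 4) (nat_lit 389) (nat_lit 323) (nat_lit 188)) (XT.nd (nat_lit 78) (nat_lit 76) (nat_lit 0) (XT.lf (nat_lit 0) (nat_lit 496317448311) (nat_lit 152) (nat_lit 108260011088) (nat_lit 0) (nat_lit 382902988425) (nat_lit 6) (nat_lit 5) (nat_lit 8)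 (nat_lit 4) (nat_lit 6) (nat_lit 4) (nat_lit 390) (nat_lit 323) (nat_lit 187)) (XT.lf (nat_lit 0) (nat_lit 102968030330) (nat_lit 76) (nat_lit 535665512386) (nat_lit 76) (nat_lit 422250813325) (nat_lit 5) (nat_lit 4) (nat_lit 6) (nat_lit 5) (nat_lit 6) (nat_lit 4) (nat_lit 391) (nat_lit 323) (nat_lit 186)))))) (XT.nd (nat_lit 41886) (nat_lit 0) (nat_lit 6536) (XT.nd (nat_lit 41652) (nat_lit 0) (nat_lit 7752) (XT.nd (nat_lit 78) (nat_lit 0) (nat_lit 0) (XT.lf (nat_lit 0) (nat_lit 334959336429) (nat_lit 76) (nat_lit 459260946566) (nat_lit 76) (nat_lit 345846026046) (nat_lit 5) (nat_lit 4) (nat_lit 6) (nat_lit 5) (nat_lit 6) (nat_lit 4) (nat_lit 392) (nat_lit 323) (nat_lit 185)) (XT.nd (nat_lit 41496) (nat_lit 0) (nat_lit 7676) (XT.lf (nat_lit 0) (nat_lit 585509105621) (nat_lit 76) (nat_lit 376744429812) (nat_lit 76) (nat_lit 263329304238) (nat_lit 5) (nat_lit 4) (nat_lit 6) (nat_lit 5) (nat_lit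 6) (nat_lit 4) (nat_lit 393) (nat_lit 323) (nat_lit 184)) (XT.lf (nat_lit 0) (nat_lit 1566921814) (nat_lit 836) (nat_lit 5688742492) (nat_lit 836) (nat_lit 5688742492) (nat_lit 106) (nat_lit 3) (nat_lit 117) (nat_lit 3) (nat_lit 117) (nat_lit 5) (nat_lit 324) (nat_lit 324) (nat_lit 252)))) (XT.nd (nat_lit 78) (nat_lit 0) (nat_lit 0) (XT.lf (nat_lit 0) (nat_lit 3624798963) (nat_lit 760) (nat_lit 18298562439) (nat_lit 836) (nat_lit 4982595066) (nat_lit 107) (nat_lit 5) (nat_lit 117) (nat_lit 5) (nat_lit 118) (nat_lit 5) (nat_lit 325) (nat_lit 324) (nat_lit 251)) (XT.nd (nat_lit 78) (nat_lit 0) (nat_lit 76) (XT.lf (nat_lit 76) (nat_lit 2423419580) (nat_lit 0) (nat_lit 2200593836) (nat_lit 836) (nat_lit 23357021183) (nat_lit 108) (nat_lit 5) (nat_lit 107) (nat_lit 5) (nat_lit 118) (nat_lit 5) (nat_lit 326) (nat_lit 324) (nat_lit 250)) (XT.lf (nat_lit 0) (nat_lit 6311424839) (nat_lit 760) (nat_lit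 3982417728) (nat_lit 836) (nat_lit 18817875428) (nat_lit 108) (nat_lit 5) (nat_lit 118) (nat_lit 5) (nat_lit 119) (nat_lit 5) (nat_lit 327) (nat_lit 324) (nat_lit 249))))) (XT.nd (nat_lit 234) (nat_lit 1368) (nat_lit 0) (XT.nd (nat_lit 78) (nat_lit 0) (nat_lit 76) (XT.lf (nat_lit 0) (nat_lit 8647532927) (nat_lit 760) (nat_lit 10584509466) (nat_lit 836) (nat_lit 11075139598) (nat_lit 109) (nat_lit 5) (nat_lit 119) (nat_lit 5) (nat_lit 120) (nat_lit 5) (nat_lit 328) (nat_lit 324) (nat_lit 248)) (XT.nd (nat_lit 78) (nat_lit 0) (nat_lit 0) (XT.lf (nat_lit 0) (nat_lit 11662676151) (nat_lit 760) (nat_lit 17474510201) (nat_lit 836) (nat_lit 2436499722) (nat_lit 110) (nat_lit 5) (nat_lit 120) (nat_lit 5) (nat_lit 121) (nat_lit 5) (nat_lit 329) (nat_lit 324) (nat_lit 247)) (XT.lf (nat_lit 76) (nat_lit 8126811072) (nat_lit 0) (nat_lit 7419578274) (nat_lit 836) (nat_lit 17363762743) (nat_lit 111) (nat_lit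 5) (nat_lit 110) (nat_lit 5) (nat_lit 121) (nat_lit 5) (nat_lit 330) (nat_lit 324) (nat_lit 246)))) (XT.nd (nat_lit 156) (nat_lit 760) (nat_lit 0) (XT.nd (nat_lit 78) (nat_lit 0) (nat_lit 0) (XT.lf (nat_lit 0) (nat_lit 1856625073) (nat_lit 760) (nat_lit 18462414583) (nat_lit 836) (nat_lit 14005592550) (nat_lit 101) (nat_lit 5) (nat_lit 111) (nat_lit 5) (nat_lit 112) (nat_lit 5) (nat_lit 331) (nat_lit 324) (nat_lit 245)) (XT.lf (nat_lit 0) (nat_lit 26102072687) (nat_lit 836) (nat_lit 4534080534) (nat_lit 76) (nat_lit 5184697148) (nat_lit 101) (nat_lit 5) (nat_lit 112) (nat_lit 5) (nat_lit 102) (nat_lit 5) (nat_lit 332) (nat_lit 324) (nat_lit 244))) (XT.nd (nat_lit 78) (nat_lit 380) (nat_lit 0) (XT.lf (nat_lit 0) (nat_lit 26151474882) (nat_lit 380) (nat_lit 6906770844) (nat_lit 456) (nat_lit 4343002956) (nat_lit 96) (nat_lit 5) (nat_lit 101) (nat_lit 5) (nat_lit 102) (nat_lit 5) (nat_lit 333)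 (nat_lit 324) (nat_lit 243)) (XT.lf (nat_lit 0) (nat_lit 2114615392) (nat_lit 380) (nat_lit 18397741364) (nat_lit 76) (nat_lit 18559656755) (nat_lit 91) (nat_lit 5) (nat_lit 96) (nat_lit 5) (nat_lit 92) (nat_lit 5) (nat_lit 334) (nat_lit 324) (nat_lit 242))))))))
noncomputable def xc87 : XT := (XT.nd (nat_lit 1950) (nat_lit 1596) (nat_lit 0) (XT.nd (nat_lit 936) (nat_lit 1900) (nat_lit 0) (XT.nd (nat_lit 468) (nat_lit 1216) (nat_lit 0) (XT.nd (nat_lit 234) (nat_lit 608) (nat_lit 0) (XT.nd (nat_lit 78) (nat_lit 608) (nat_lit 0) (XT.lf (nat_lit 0) (nat_lit 9565430472) (nat_lit 456) (nat_lit 25966714959) (nat_lit 76) (nat_lit 5309303187) (nat_lit 86) (nat_lit 5) (nat_lit 92) (nat_lit 5) (nat_lit 87) (nat_lit 5) (nat_lit 335) (nat_lit 324) (nat_lit 241)) (XT.nd (nat_lit 78) (nat_lit 304) (nat_lit 0) (XT.lf (nat_lit 0) (nat_lit 8646442703) (nat_lit 304) (nat_lit 9764736293) (nat_lit 380) (nat_lit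 24301321846) (nat_lit 82) (nat_lit 5) (nat_lit 86) (nat_lit 5) (nat_lit 87) (nat_lit 5) (nat_lit 336) (nat_lit 324) (nat_lit 240)) (XT.lf (nat_lit 0) (nat_lit 2011519466) (nat_lit 304) (nat_lit 26718935064) (nat_lit 380) (nat_lit 15964494654) (nat_lit 78) (nat_lit 5) (nat_lit 82) (nat_lit 5) (nat_lit 83) (nat_lit 5) (nat_lit 337) (nat_lit 324) (nat_lit 239)))) (XT.nd (nat_lit 78) (nat_lit 608) (nat_lit 0) (XT.lf (nat_lit 0) (nat_lit 40645475413) (nat_lit 380) (nat_lit 4806904618) (nat_lit 76) (nat_lit 1345108100) (nat_lit 78) (nat_lit 5) (nat_lit 83) (nat_lit 5) (nat_lit 79) (nat_lit 5) (nat_lit 338) (nat_lit 324) (nat_lit 238)) (XT.nd (nat_lit 78) (nat_lit 304) (nat_lit 0) (XT.lf (nat_lit 0) (nat_lit 5338867008) (nat_lit 304) (nat_lit 12283743230) (nat_lit 76) (nat_lit 31390369871) (nat_lit 74) (nat_lit 5) (nat_lit 78) (nat_lit 5) (nat_lit 75) (nat_lit 5) (nat_lit 339) (nat_lit 324) (nat_lit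 237)) (XT.lf (nat_lit 0) (nat_lit 18308330878) (nat_lit 380) (nat_lit 20331914299) (nat_lit 76) (nat_lit 12721685123) (nat_lit 70) (nat_lit 5) (nat_lit 75) (nat_lit 5) (nat_lit 71) (nat_lit 5) (nat_lit 340) (nat_lit 324) (nat_lit 236))))) (XT.nd (nat_lit 234) (nat_lit 456) (nat_lit 0) (XT.nd (nat_lit 78) (nat_lit 532) (nat_lit 0) (XT.lf (nat_lit 0) (nat_lit 24846200588) (nat_lit 228) (nat_lit 8365858838) (nat_lit 304) (nat_lit 20641905409) (nat_lit 67) (nat_lit 5) (nat_lit 70) (nat_lit 5) (nat_lit 71) (nat_lit 5) (nat_lit 341) (nat_lit 324) (nat_lit 235)) (XT.nd (nat_lit 78) (nat_lit 304) (nat_lit 0) (XT.lf (nat_lit 0) (nat_lit 18020334322) (nat_lit 228) (nat_lit 32303384448) (nat_lit 304) (nat_lit 6170865170) (nat_lit 64) (nat_lit 5) (nat_lit 67) (nat_lit 5) (nat_lit 68) (nat_lit 5) (nat_lit 342) (nat_lit 324) (nat_lit 234)) (XT.lf (nat_lit 0) (nat_lit 9978495464) (nat_lit 304) (nat_lit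 48748840346) (nat_lit 76) (nat_lit 570569221) (nat_lit 60) (nat_lit 5) (nat_lit 64) (nat_lit 5) (nat_lit 61) (nat_lit 5) (nat_lit 343) (nat_lit 324) (nat_lit 233)))) (XT.nd (nat_lit 78) (nat_lit 228) (nat_lit 0) (XT.lf (nat_lit 0) (nat_lit 1972100115) (nat_lit 228) (nat_lit 26485965199) (nat_lit 304) (nat_lit 33799648341) (nat_lit 57) (nat_lit 5) (nat_lit 60) (nat_lit 5) (nat_lit 61) (nat_lit 5) (nat_lit 344) (nat_lit 324) (nat_lit 232)) (XT.nd (nat_lit 78) (nat_lit 228) (nat_lit 0) (XT.lf (nat_lit 0) (nat_lit 49404353518) (nat_lit 304) (nat_lit 7071712539) (nat_lit 76) (nat_lit 8928825871) (nat_lit 57) (nat_lit 5) (nat_lit 61) (nat_lit 5) (nat_lit 58) (nat_lit 5) (nat_lit 345) (nat_lit 324) (nat_lit 231)) (XT.lf (nat_lit 0) (nat_lit 4387483375) (nat_lit 228) (nat_lit 17214885981) (nat_lit 76) (nat_lit 47135555619) (nat_lit 54) (nat_lit 5) (nat_lit 57) (nat_lit 5) (nat_lit 55) (nat_lit 5)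 (nat_lit 346) (nat_lit 324) (nat_lit 230)))))) (XT.nd (nat_lit 468) (nat_lit 912) (nat_lit 0) (XT.nd (nat_lit 234) (nat_lit 380) (nat_lit 0) (XT.nd (nat_lit 78) (nat_lit 380) (nat_lit 0) (XT.lf (nat_lit 0) (nat_lit 26927384883) (nat_lit 304) (nat_lit 28700742883) (nat_lit 76) (nat_lit 16642288882) (nat_lit 51) (nat_lit 5) (nat_lit 55) (nat_lit 5) (nat_lit 52) (nat_lit 5) (nat_lit 347) (nat_lit 324) (nat_lit 229)) (XT.nd (nat_lit 78) (nat_lit 228) (nat_lit 0) (XT.lf (nat_lit 0) (nat_lit 34489398801) (nat_lit 152) (nat_lit 17984438837) (nat_lit 228) (nat_lit 23551504019) (nat_lit 49) (nat_lit 5) (nat_lit 51) (nat_lit 5) (nat_lit 52) (nat_lit 5) (nat_lit 348) (nat_lit 324) (nat_lit 228)) (XT.lf (nat_lit 0) (nat_lit 1238605031) (nat_lit 228) (nat_lit 55931915890) (nat_lit 76) (nat_lit 22847418176) (nat_lit 46) (nat_lit 5) (nat_lit 49) (nat_lit 5) (nat_lit 47) (nat_lit 5) (nat_lit 349) (nat_lit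 324) (nat_lit 227)))) (XT.nd (nat_lit 78) (nat_lit 228) (nat_lit 0) (XT.lf (nat_lit 0) (nat_lit 11806607516) (nat_lit 152) (nat_lit 16610341765) (nat_lit 228) (nat_lit 55832184320) (nat_lit 44) (nat_lit 5) (nat_lit 46) (nat_lit 5) (nat_lit 47) (nat_lit 5) (nat_lit 350) (nat_lit 324) (nat_lit 226)) (XT.nd (nat_lit 78) (nat_lit 228) (nat_lit 0) (XT.lf (nat_lit 0) (nat_lit 59180721259) (nat_lit 228) (nat_lit 2255276643) (nat_lit 76) (nat_lit 27312269235) (nat_lit 44) (nat_lit 5) (nat_lit 47) (nat_lit 5) (nat_lit 45) (nat_lit 5) (nat_lit 351) (nat_lit 324) (nat_lit 225)) (XT.lf (nat_lit 0) (nat_lit 318923778) (nat_lit 228) (nat_lit 17856024263) (nat_lit 76) (nat_lit 75359212895) (nat_lit 41) (nat_lit 5) (nat_lit 44) (nat_lit 5) (nat_lit 42) (nat_lit 5) (nat_lit 352) (nat_lit 324) (nat_lit 224))))) (XT.nd (nat_lit 234) (nat_lit 456) (nat_lit 0) (XT.nd (nat_lit 78) (nat_lit 304) (nat_lit 0) (XT.lf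 (nat_lit 0) (nat_lit 33060798098) (nat_lit 228) (nat_lit 36368988517) (nat_lit 76) (nat_lit 29173885648) (nat_lit 39) (nat_lit 5) (nat_lit 42) (nat_lit 5) (nat_lit 40) (nat_lit 5) (nat_lit 353) (nat_lit 324) (nat_lit 223)) (XT.nd (nat_lit 78) (nat_lit 152) (nat_lit 0) (XT.lf (nat_lit 0) (nat_lit 46477675265) (nat_lit 152) (nat_lit 23289417760) (nat_lit 228) (nat_lit 34244399059) (nat_lit 37) (nat_lit 5) (nat_lit 39) (nat_lit 5) (nat_lit 40) (nat_lit 5) (nat_lit 354) (nat_lit 324) (nat_lit 222)) (XT.lf (nat_lit 0) (nat_lit 1087280607) (nat_lit 152) (nat_lit 81901739518) (nat_lit 76) (nat_lit 26787504518) (nat_lit 35) (nat_lit 5) (nat_lit 37) (nat_lit 5) (nat_lit 36) (nat_lit 5) (nat_lit 355) (nat_lit 324) (nat_lit 221)))) (XT.nd (nat_lit 156) (nat_lit 304) (nat_lit 0) (XT.nd (nat_lit 78) (nat_lit 0) (nat_lit 0) (XT.lf (nat_lit 0) (nat_lit 5399008707) (nat_lit 152) (nat_lit 34155436553) (nat_lit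 228) (nat_lit 76344810904) (nat_lit 33) (nat_lit 5) (nat_lit 35) (nat_lit 5) (nat_lit 36) (nat_lit 5) (nat_lit 356) (nat_lit 324) (nat_lit 220)) (XT.lf (nat_lit 0) (nat_lit 82836357263) (nat_lit 228) (nat_lit 20150581806) (nat_lit 76) (nat_lit 19437999278) (nat_lit 33) (nat_lit 5) (nat_lit 36) (nat_lit 5) (nat_lit 34) (nat_lit 4) (nat_lit 357) (nat_lit 324) (nat_lit 219))) (XT.nd (nat_lit 78) (nat_lit 152) (nat_lit 0) (XT.lf (nat_lit 0) (nat_lit 1947144367) (nat_lit 152) (nat_lit 50026106161) (nat_lit 76) (nat_lit 77407217970) (nat_lit 31) (nat_lit 5) (nat_lit 33) (nat_lit 5) (nat_lit 32) (nat_lit 5) (nat_lit 358) (nat_lit 324) (nat_lit 218)) (XT.lf (nat_lit 0) (nat_lit 46676435404) (nat_lit 228) (nat_lit 85240451659) (nat_lit 76) (nat_lit 4880220103) (nat_lit 29) (nat_lit 5) (nat_lit 32) (nat_lit 5) (nat_lit 30) (nat_lit 4) (nat_lit 359) (nat_lit 324) (nat_lit 217))))))) (XT.nd (nat_lit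 936) (nat_lit 684) (nat_lit 0) (XT.nd (nat_lit 468) (nat_lit 380) (nat_lit 0) (XT.nd (nat_lit 234) (nat_lit 228) (nat_lit 0) (XT.nd (nat_lit 78) (nat_lit 228) (nat_lit 0) (XT.lf (nat_lit 0) (nat_lit 17968955996) (nat_lit 76) (nat_lit 79055266483) (nat_lit 152) (nat_lit 47680847451) (nat_lit 28) (nat_lit 5) (nat_lit 29) (nat_lit 5) (nat_lit 30) (nat_lit 4) (nat_lit 360) (nat_lit 324) (nat_lit 216)) (XT.nd (nat_lit 78) (nat_lit 228) (nat_lit 0) (XT.lf (nat_lit 0) (nat_lit 132474757522) (nat_lit 76) (nat_lit 20407559581) (nat_lit 152) (nat_lit 289228978) (nat_lit 28) (nat_lit 5) (nat_lit 29) (nat_lit 5) (nat_lit 30) (nat_lit 4) (nat_lit 361) (nat_lit 324) (nat_lit 215)) (XT.lf (nat_lit 0) (nat_lit 51470910764) (nat_lit 228) (nat_lit 66805624463) (nat_lit 76) (nat_lit 43888770508) (nat_lit 25) (nat_lit 5) (nat_lit 28) (nat_lit 5) (nat_lit 26) (nat_lit 4) (nat_lit 362) (nat_lit 324) (nat_lit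 214)))) (XT.nd (nat_lit 78) (nat_lit 152) (nat_lit 0) (XT.lf (nat_lit 0) (nat_lit 50847827532) (nat_lit 76) (nat_lit 58016322416) (nat_lit 152) (nat_lit 62939058555) (nat_lit 24) (nat_lit 5) (nat_lit 25) (nat_lit 5) (nat_lit 26) (nat_lit 4) (nat_lit 363) (nat_lit 324) (nat_lit 213)) (XT.nd (nat_lit 78) (nat_lit 152) (nat_lit 0) (XT.lf (nat_lit 0) (nat_lit 172139874011) (nat_lit 152) (nat_lit 1988005639) (nat_lit 0) (nat_lit 8019713003) (nat_lit 24) (nat_lit 5) (nat_lit 26) (nat_lit 4) (nat_lit 24) (nat_lit 4) (nat_lit 364) (nat_lit 324) (nat_lit 212)) (XT.lf (nat_lit 0) (nat_lit 48698753009) (nat_lit 152) (nat_lit 64289912395) (nat_lit 76) (nat_lit 80141550041) (nat_lit 22) (nat_lit 5) (nat_lit 24) (nat_lit 5) (nat_lit 23) (nat_lit 4) (nat_lit 365) (nat_lit 324) (nat_lit 211))))) (XT.nd (nat_lit 234) (nat_lit 152) (nat_lit 0) (XT.nd (nat_lit 78) (nat_lit 152) (nat_lit 0) (XT.lf (nat_lit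 0) (nat_lit 67194005683) (nat_lit 76) (nat_lit 45644235394) (nat_lit 152) (nat_lit 92090648283) (nat_lit 21) (nat_lit 5) (nat_lit 22) (nat_lit 5) (nat_lit 23) (nat_lit 4) (nat_lit 366) (nat_lit 324) (nat_lit 210)) (XT.nd (nat_lit 78) (nat_lit 152) (nat_lit 0) (XT.lf (nat_lit 0) (nat_lit 183668261665) (nat_lit 152) (nat_lit 6567699270) (nat_lit 0) (nat_lit 27357527918) (nat_lit 21) (nat_lit 5) (nat_lit 23) (nat_lit 4) (nat_lit 21) (nat_lit 4) (nat_lit 367) (nat_lit 324) (nat_lit 209)) (XT.lf (nat_lit 0) (nat_lit 30951203806) (nat_lit 152) (nat_lit 92862425474) (nat_lit 76) (nat_lit 107285944638) (nat_lit 19) (nat_lit 5) (nat_lit 21) (nat_lit 5) (nat_lit 20) (nat_lit 4) (nat_lit 368) (nat_lit 324) (nat_lit 208)))) (XT.nd (nat_lit 78) (nat_lit 76) (nat_lit 0) (XT.lf (nat_lit 0) (nat_lit 50210585065) (nat_lit 76) (nat_lit 50533080762) (nat_lit 152) (nat_lit 144868948113) (nat_lit 18) (nat_lit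 5) (nat_lit 19) (nat_lit 5) (nat_lit 20) (nat_lit 4) (nat_lit 369) (nat_lit 324) (nat_lit 207)) (XT.nd (nat_lit 78) (nat_lit 76) (nat_lit 0) (XT.lf (nat_lit 0) (nat_lit 178208772256) (nat_lit 152) (nat_lit 53636454976) (nat_lit 0) (nat_lit 29337007816) (nat_lit 18) (nat_lit 5) (nat_lit 20) (nat_lit 4) (nat_lit 18) (nat_lit 4) (nat_lit 370) (nat_lit 324) (nat_lit 206)) (XT.lf (nat_lit 0) (nat_lit 101876216701) (nat_lit 76) (nat_lit 162436083904) (nat_lit 76) (nat_lit 13563064807) (nat_lit 17) (nat_lit 4) (nat_lit 18) (nat_lit 5) (nat_lit 18) (nat_lit 4) (nat_lit 371) (nat_lit 324) (nat_lit 205)))))) (XT.nd (nat_lit 468) (nat_lit 304) (nat_lit 0) (XT.nd (nat_lit 234) (nat_lit 228) (nat_lit 0) (XT.nd (nat_lit 78) (nat_lit 76) (nat_lit 0) (XT.lf (nat_lit 0) (nat_lit 60383208379) (nat_lit 152) (nat_lit 25088603637) (nat_lit 76) (nat_lit 210336791361) (nat_lit 16) (nat_lit 5) (nat_lit 18) (nat_lit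 5) (nat_lit 17) (nat_lit 4) (nat_lit 372) (nat_lit 324) (nat_lit 204)) (XT.nd (nat_lit 78) (nat_lit 0) (nat_lit 0) (XT.lf (nat_lit 0) (nat_lit 141998873951) (nat_lit 152) (nat_lit 172842150246) (nat_lit 0) (nat_lit 212915398) (nat_lit 15) (nat_lit 5) (nat_lit 17) (nat_lit 4) (nat_lit 15) (nat_lit 4) (nat_lit 373) (nat_lit 324) (nat_lit 203)) (XT.lf (nat_lit 0) (nat_lit 232027943089) (nat_lit 152) (nat_lit 13475716308) (nat_lit 0) (nat_lit 90241035977) (nat_lit 15) (nat_lit 5) (nat_lit 17) (nat_lit 4) (nat_lit 15) (nat_lit 4) (nat_lit 374) (nat_lit 324) (nat_lit 202)))) (XT.nd (nat_lit 78) (nat_lit 152) (nat_lit 0) (XT.lf (nat_lit 0) (nat_lit 163883083546) (nat_lit 76) (nat_lit 167933768952) (nat_lit 76) (nat_lit 26145983545) (nat_lit 14) (nat_lit 4) (nat_lit 15) (nat_lit 5) (nat_lit 15) (nat_lit 4) (nat_lit 375) (nat_lit 324) (nat_lit 201)) (XT.nd (nat_lit 78) (nat_lit 76) (nat_lit 0) (XT.lf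 (nat_lit 0) (nat_lit 56023373742) (nat_lit 152) (nat_lit 26940682471) (nat_lit 76) (nat_lit 298937510199) (nat_lit 13) (nat_lit 5) (nat_lit 15) (nat_lit 5) (nat_lit 14) (nat_lit 4) (nat_lit 376) (nat_lit 324) (nat_lit 200)) (XT.lf (nat_lit 0) (nat_lit 146516384289) (nat_lit 152) (nat_lit 249605366757) (nat_lit 0) (nat_lit 11478906536) (nat_lit 12) (nat_lit 5) (nat_lit 14) (nat_lit 4) (nat_lit 12) (nat_lit 4) (nat_lit 377) (nat_lit 324) (nat_lit 199))))) (XT.nd (nat_lit 234) (nat_lit 228) (nat_lit 0) (XT.nd (nat_lit 78) (nat_lit 76) (nat_lit 0) (XT.lf (nat_lit 0) (nat_lit 246123734594) (nat_lit 152) (nat_lit 78052603810) (nat_lit 0) (nat_lit 111085592823) (nat_lit 12) (nat_lit 5) (nat_lit 14) (nat_lit 4) (nat_lit 12) (nat_lit 4) (nat_lit 378) (nat_lit 324) (nat_lit 198)) (XT.nd (nat_lit 78) (nat_lit 0) (nat_lit 0) (XT.lf (nat_lit 0) (nat_lit 110767829043) (nat_lit 76) (nat_lit 244660305674)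 (nat_lit 76) (nat_lit 109621549072) (nat_lit 11) (nat_lit 4) (nat_lit 12) (nat_lit 5) (nat_lit 12) (nat_lit 4) (nat_lit 379) (nat_lit 324) (nat_lit 197)) (XT.lf (nat_lit 0) (nat_lit 317479395221) (nat_lit 76) (nat_lit 157356225325) (nat_lit 76) (nat_lit 22316899434) (nat_lit 11) (nat_lit 4) (nat_lit 12) (nat_lit 5) (nat_lit 12) (nat_lit 4) (nat_lit 380) (nat_lit 324) (nat_lit 196)))) (XT.nd (nat_lit 156) (nat_lit 76) (nat_lit 0) (XT.nd (nat_lit 78) (nat_lit 0) (nat_lit 0) (XT.lf (nat_lit 0) (nat_lit 8036191426) (nat_lit 76) (nat_lit 61757000981) (nat_lit 152) (nat_lit 461967975046) (nat_lit 9) (nat_lit 5) (nat_lit 10) (nat_lit 5) (nat_lit 11) (nat_lit 4) (nat_lit 381) (nat_lit 324) (nat_lit 195)) (XT.lf (nat_lit 0) (nat_lit 172328730750) (nat_lit 152) (nat_lit 352880675693) (nat_lit 0) (nat_lit 43718882099) (nat_lit 9) (nat_lit 5) (nat_lit 11) (nat_lit 4) (nat_lit 9) (nat_lit 4) (nat_lit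 382) (nat_lit 324) (nat_lit 194))) (XT.nd (nat_lit 78) (nat_lit 76) (nat_lit 0) (XT.lf (nat_lit 0) (nat_lit 284107694375) (nat_lit 152) (nat_lit 169411640589) (nat_lit 0) (nat_lit 155497415325) (nat_lit 9) (nat_lit 5) (nat_lit 11) (nat_lit 4) (nat_lit 9) (nat_lit 4) (nat_lit 383) (nat_lit 324) (nat_lit 193)) (XT.lf (nat_lit 0) (nat_lit 29683614083) (nat_lit 76) (nat_lit 375608107603) (nat_lit 76) (nat_lit 246997430035) (nat_lit 8) (nat_lit 4) (nat_lit 9) (nat_lit 5) (nat_lit 9) (nat_lit 4) (nat_lit 384) (nat_lit 324) (nat_lit 192))))))))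
noncomputable def xc88 : XT := (XT.nd (nat_lit 43446) (nat_lit 0) (nat_lit 1444) (XT.nd (nat_lit 42510) (nat_lit 0) (nat_lit 5244) (XT.nd (nat_lit 468) (nat_lit 76) (nat_lit 0) (XT.nd (nat_lit 234) (nat_lit 76) (nat_lit 0) (XT.nd (nat_lit 78) (nat_lit 76) (nat_lit 0) (XT.lf (nat_lit 0) (nat_lit 250754819187) (nat_lit 76) (nat_lit 288366026984) (nat_lit 76) (nat_lit 159754980417) (nat_lit 8) (nat_lit 4) (nat_lit 9) (nat_lit 5) (nat_lit 9) (nat_lit 4) (nat_lit 385) (nat_lit 324) (nat_lit 191)) (XT.nd (nat_lit 78) (nat_lit 76) (nat_lit 0) (XT.lf (nat_lit 0) (nat_lit 489510512387) (nat_lit 76) (nat_lit 194145171105) (nat_lit 76) (nat_lit 65533782873) (nat_lit 8) (nat_lit 4) (nat_lit 9) (nat_lit 5) (nat_lit 9) (nat_lit 4) (nat_lit 386) (nat_lit 324) (nat_lit 190)) (XT.lf (nat_lit 0) (nat_lit 35065099873) (nat_lit 152) (nat_lit 56728249848) (nat_lit 76) (nat_lit 711706597928) (nat_lit 7) (nat_lit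 5) (nat_lit 9) (nat_lit 5) (nat_lit 8) (nat_lit 4) (nat_lit 387) (nat_lit 324) (nat_lit 189)))) (XT.nd (nat_lit 78) (nat_lit 0) (nat_lit 0) (XT.lf (nat_lit 0) (nat_lit 144401982061) (nat_lit 152) (nat_lit 695635900160) (nat_lit 0) (nat_lit 21914365384) (nat_lit 6) (nat_lit 5) (nat_lit 8) (nat_lit 4) (nat_lit 6) (nat_lit 4) (nat_lit 388) (nat_lit 324) (nat_lit 188)) (XT.nd (nat_lit 78) (nat_lit 0) (nat_lit 0) (XT.lf (nat_lit 0) (nat_lit 265037465967) (nat_lit 152) (nat_lit 517366092102) (nat_lit 0) (nat_lit 142549590980) (nat_lit 6) (nat_lit 5) (nat_lit 8) (nat_lit 4) (nat_lit 6) (nat_lit 4) (nat_lit 389) (nat_lit 324) (nat_lit 187)) (XT.lf (nat_lit 0) (nat_lit 395323305782) (nat_lit 152) (nat_lit 324835649392) (nat_lit 0) (nat_lit 272835191621) (nat_lit 6) (nat_lit 5) (nat_lit 8) (nat_lit 4) (nat_lit 6) (nat_lit 4) (nat_lit 390) (nat_lit 324) (nat_lit 186))))) (XT.nd (nat_lit 41808) (nat_lit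 0) (nat_lit 7752) (XT.nd (nat_lit 78) (nat_lit 76) (nat_lit 0) (XT.lf (nat_lit 0) (nat_lit 536031565744) (nat_lit 152) (nat_lit 116903650887) (nat_lit 0) (nat_lit 413543230123) (nat_lit 6) (nat_lit 5) (nat_lit 8) (nat_lit 4) (nat_lit 6) (nat_lit 4) (nat_lit 391) (nat_lit 324) (nat_lit 185)) (XT.nd (nat_lit 41652) (nat_lit 0) (nat_lit 7676) (XT.lf (nat_lit 0) (nat_lit 111221888044) (nat_lit 76) (nat_lit 578510669903) (nat_lit 76) (nat_lit 456022129228) (nat_lit 5) (nat_lit 4) (nat_lit 6) (nat_lit 5) (nat_lit 6) (nat_lit 4) (nat_lit 392) (nat_lit 324) (nat_lit 184)) (XT.lf (nat_lit 0) (nat_lit 1838213419) (nat_lit 836) (nat_lit 6067161276) (nat_lit 836) (nat_lit 6067161276) (nat_lit 106) (nat_lit 3) (nat_lit 117) (nat_lit 3) (nat_lit 117) (nat_lit 5) (nat_lit 325) (nat_lit 325) (nat_lit 250)))) (XT.nd (nat_lit 78) (nat_lit 0) (nat_lit 0) (XT.lf (nat_lit 0) (nat_lit 4185363657) (nat_lit 760)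 (nat_lit 19599924735) (nat_lit 836) (nat_lit 5259381337) (nat_lit 107) (nat_lit 5) (nat_lit 117) (nat_lit 5) (nat_lit 118) (nat_lit 5) (nat_lit 326) (nat_lit 325) (nat_lit 249)) (XT.nd (nat_lit 78) (nat_lit 0) (nat_lit 76) (XT.lf (nat_lit 76) (nat_lit 2772752807) (nat_lit 0) (nat_lit 2474146600) (nat_lit 836) (nat_lit 24959752846) (nat_lit 108) (nat_lit 5) (nat_lit 107) (nat_lit 5) (nat_lit 118) (nat_lit 5) (nat_lit 327) (nat_lit 325) (nat_lit 248)) (XT.lf (nat_lit 0) (nat_lit 7049156036) (nat_lit 760) (nat_lit 4143745308) (nat_lit 836) (nat_lit 20235912426) (nat_lit 108) (nat_lit 5) (nat_lit 118) (nat_lit 5) (nat_lit 119) (nat_lit 5) (nat_lit 328) (nat_lit 325) (nat_lit 247)))))) (XT.nd (nat_lit 468) (nat_lit 1672) (nat_lit 0) (XT.nd (nat_lit 234) (nat_lit 988) (nat_lit 0) (XT.nd (nat_lit 78) (nat_lit 0) (nat_lit 76) (XT.lf (nat_lit 0) (nat_lit 9556202014) (nat_lit 760) (nat_lit 11268703339)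 (nat_lit 836) (nat_lit 11895821944) (nat_lit 109) (nat_lit 5) (nat_lit 119) (nat_lit 5) (nat_lit 120) (nat_lit 5) (nat_lit 329) (nat_lit 325) (nat_lit 246)) (XT.nd (nat_lit 78) (nat_lit 0) (nat_lit 0) (XT.lf (nat_lit 0) (nat_lit 12798175166) (nat_lit 760) (nat_lit 18705890259) (nat_lit 836) (nat_lit 2585219132) (nat_lit 110) (nat_lit 5) (nat_lit 120) (nat_lit 5) (nat_lit 121) (nat_lit 5) (nat_lit 330) (nat_lit 325) (nat_lit 245)) (XT.lf (nat_lit 76) (nat_lit 8936297319) (nat_lit 0) (nat_lit 8043776979) (nat_lit 836) (nat_lit 18553231863) (nat_lit 111) (nat_lit 5) (nat_lit 110) (nat_lit 5) (nat_lit 121) (nat_lit 5) (nat_lit 331) (nat_lit 325) (nat_lit 244)))) (XT.nd (nat_lit 78) (nat_lit 380) (nat_lit 0) (XT.lf (nat_lit 0) (nat_lit 2167267499) (nat_lit 760) (nat_lit 19955285198) (nat_lit 836) (nat_lit 14939002995) (nat_lit 101) (nat_lit 5) (nat_lit 111) (nat_lit 5) (nat_lit 112) (nat_lit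 5) (nat_lit 332) (nat_lit 325) (nat_lit 243)) (XT.nd (nat_lit 78) (nat_lit 380) (nat_lit 0) (XT.lf (nat_lit 0) (nat_lit 28354814406) (nat_lit 836) (nat_lit 4738096420) (nat_lit 76) (nat_lit 5585242113) (nat_lit 101) (nat_lit 5) (nat_lit 112) (nat_lit 5) (nat_lit 102) (nat_lit 5) (nat_lit 333) (nat_lit 325) (nat_lit 242)) (XT.lf (nat_lit 0) (nat_lit 28395406062) (nat_lit 380) (nat_lit 7462254647) (nat_lit 456) (nat_lit 4527823560) (nat_lit 96) (nat_lit 5) (nat_lit 101) (nat_lit 5) (nat_lit 102) (nat_lit 5) (nat_lit 334) (nat_lit 325) (nat_lit 241))))) (XT.nd (nat_lit 234) (nat_lit 608) (nat_lit 0) (XT.nd (nat_lit 78) (nat_lit 684) (nat_lit 0) (XT.lf (nat_lit 0) (nat_lit 2431920288) (nat_lit 380) (nat_lit 19711769005) (nat_lit 76) (nat_lit 20046566927) (nat_lit 91) (nat_lit 5) (nat_lit 96) (nat_lit 5) (nat_lit 92) (nat_lit 5) (nat_lit 335) (nat_lit 325) (nat_lit 240)) (XT.nd (nat_lit 78) (nat_lit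 304) (nat_lit 0) (XT.lf (nat_lit 0) (nat_lit 10470362290) (nat_lit 456) (nat_lit 27886216862) (nat_lit 76) (nat_lit 5745097164) (nat_lit 86) (nat_lit 5) (nat_lit 92) (nat_lit 5) (nat_lit 87) (nat_lit 5) (nat_lit 336) (nat_lit 325) (nat_lit 239)) (XT.lf (nat_lit 0) (nat_lit 9489134083) (nat_lit 304) (nat_lit 10526645817) (nat_lit 380) (nat_lit 26107040011) (nat_lit 82) (nat_lit 5) (nat_lit 86) (nat_lit 5) (nat_lit 87) (nat_lit 5) (nat_lit 337) (nat_lit 325) (nat_lit 238)))) (XT.nd (nat_lit 78) (nat_lit 304) (nat_lit 0) (XT.lf (nat_lit 0) (nat_lit 2322958631) (nat_lit 304) (nat_lit 28830511368) (nat_lit 380) (nat_lit 17110757582) (nat_lit 78) (nat_lit 5) (nat_lit 82) (nat_lit 5) (nat_lit 83) (nat_lit 5) (nat_lit 338) (nat_lit 325) (nat_lit 237)) (XT.nd (nat_lit 78) (nat_lit 304) (nat_lit 0) (XT.lf (nat_lit 0) (nat_lit 44012839445) (nat_lit 380) (nat_lit 5046614235) (nat_lit 76) (nat_lit 1475965181)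 (nat_lit 78) (nat_lit 5) (nat_lit 83) (nat_lit 5) (nat_lit 79) (nat_lit 5) (nat_lit 339) (nat_lit 325) (nat_lit 236)) (XT.lf (nat_lit 0) (nat_lit 5877158788) (nat_lit 304) (nat_lit 13124146104) (nat_lit 76) (nat_lit 33927082176) (nat_lit 74) (nat_lit 5) (nat_lit 78) (nat_lit 5) (nat_lit 75) (nat_lit 5) (nat_lit 340) (nat_lit 325) (nat_lit 235))))))) (XT.nd (nat_lit 936) (nat_lit 1520) (nat_lit 0) (XT.nd (nat_lit 468) (nat_lit 988) (nat_lit 0) (XT.nd (nat_lit 234) (nat_lit 532) (nat_lit 0) (XT.nd (nat_lit 78) (nat_lit 456) (nat_lit 0) (XT.lf (nat_lit 0) (nat_lit 19878553765) (nat_lit 380) (nat_lit 21817518968) (nat_lit 76) (nat_lit 13769467199) (nat_lit 70) (nat_lit 5) (nat_lit 75) (nat_lit 5) (nat_lit 71) (nat_lit 5) (nat_lit 341) (nat_lit 325) (nat_lit 234)) (XT.nd (nat_lit 78) (nat_lit 228) (nat_lit 0) (XT.lf (nat_lit 0) (nat_lit 26968719661) (nat_lit 228) (nat_lit 9000146907) (nat_lit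 304) (nat_lit 22188361324) (nat_lit 67) (nat_lit 5) (nat_lit 70) (nat_lit 5) (nat_lit 71) (nat_lit 5) (nat_lit 342) (nat_lit 325) (nat_lit 233)) (XT.lf (nat_lit 0) (nat_lit 19595236922) (nat_lit 228) (nat_lit 34849412506) (nat_lit 304) (nat_lit 6564692153) (nat_lit 64) (nat_lit 5) (nat_lit 67) (nat_lit 5) (nat_lit 68) (nat_lit 5) (nat_lit 343) (nat_lit 325) (nat_lit 232)))) (XT.nd (nat_lit 78) (nat_lit 228) (nat_lit 0) (XT.lf (nat_lit 0) (nat_lit 10868911600) (nat_lit 304) (nat_lit 52514137695) (nat_lit 76) (nat_lit 654030682) (nat_lit 60) (nat_lit 5) (nat_lit 64) (nat_lit 5) (nat_lit 61) (nat_lit 5) (nat_lit 344) (nat_lit 325) (nat_lit 231)) (XT.nd (nat_lit 78) (nat_lit 0) (nat_lit 0) (XT.lf (nat_lit 0) (nat_lit 2258628022) (nat_lit 228) (nat_lit 28563404394) (nat_lit 304) (nat_lit 36411885358) (nat_lit 57) (nat_lit 5) (nat_lit 60) (nat_lit 5) (nat_lit 61) (nat_lit 5) (nat_lit 345) (nat_lit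 325) (nat_lit 230)) (XT.lf (nat_lit 0) (nat_lit 53438154428) (nat_lit 304) (nat_lit 7514740367) (nat_lit 76) (nat_lit 9680272446) (nat_lit 57) (nat_lit 5) (nat_lit 61) (nat_lit 5) (nat_lit 58) (nat_lit 5) (nat_lit 346) (nat_lit 325) (nat_lit 229))))) (XT.nd (nat_lit 234) (nat_lit 380) (nat_lit 0) (XT.nd (nat_lit 78) (nat_lit 380) (nat_lit 0) (XT.lf (nat_lit 0) (nat_lit 4817039048) (nat_lit 228) (nat_lit 18472064747) (nat_lit 76) (nat_lit 50943889049) (nat_lit 54) (nat_lit 5) (nat_lit 57) (nat_lit 5) (nat_lit 55) (nat_lit 5) (nat_lit 347) (nat_lit 325) (nat_lit 228)) (XT.nd (nat_lit 78) (nat_lit 152) (nat_lit 0) (XT.lf (nat_lit 0) (nat_lit 29156734604) (nat_lit 304) (nat_lit 30878872493) (nat_lit 76) (nat_lit 18012649491) (nat_lit 51) (nat_lit 5) (nat_lit 55) (nat_lit 5) (nat_lit 52) (nat_lit 5) (nat_lit 348) (nat_lit 325) (nat_lit 227)) (XT.lf (nat_lit 0) (nat_lit 37361355439) (nat_lit 152)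 (nat_lit 19381742011) (nat_lit 228) (nat_lit 25360671082) (nat_lit 49) (nat_lit 5) (nat_lit 51) (nat_lit 5) (nat_lit 52) (nat_lit 5) (nat_lit 349) (nat_lit 325) (nat_lit 226)))) (XT.nd (nat_lit 78) (nat_lit 152) (nat_lit 0) (XT.lf (nat_lit 0) (nat_lit 1407239498) (nat_lit 228) (nat_lit 60293413405) (nat_lit 76) (nat_lit 24715215079) (nat_lit 46) (nat_lit 5) (nat_lit 49) (nat_lit 5) (nat_lit 47) (nat_lit 5) (nat_lit 350) (nat_lit 325) (nat_lit 225)) (XT.nd (nat_lit 78) (nat_lit 0) (nat_lit 0) (XT.lf (nat_lit 0) (nat_lit 12859278608) (nat_lit 152) (nat_lit 17897109526) (nat_lit 228) (nat_lit 60229345212) (nat_lit 44) (nat_lit 5) (nat_lit 46) (nat_lit 5) (nat_lit 47) (nat_lit 5) (nat_lit 351) (nat_lit 325) (nat_lit 224)) (XT.lf (nat_lit 0) (nat_lit 63976974867) (nat_lit 228) (nat_lit 2333090658) (nat_lit 76) (nat_lit 29534948377) (nat_lit 44) (nat_lit 5) (nat_lit 47) (nat_lit 5) (nat_lit 45)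 (nat_lit 5) (nat_lit 352) (nat_lit 325) (nat_lit 223)))))) (XT.nd (nat_lit 468) (nat_lit 684) (nat_lit 0) (XT.nd (nat_lit 234) (nat_lit 304) (nat_lit 0) (XT.nd (nat_lit 78) (nat_lit 304) (nat_lit 0) (XT.lf (nat_lit 0) (nat_lit 404173858) (nat_lit 228) (nat_lit 19184360284) (nat_lit 76) (nat_lit 81425350980) (nat_lit 41) (nat_lit 5) (nat_lit 44) (nat_lit 5) (nat_lit 42) (nat_lit 5) (nat_lit 353) (nat_lit 325) (nat_lit 222)) (XT.nd (nat_lit 78) (nat_lit 152) (nat_lit 0) (XT.lf (nat_lit 0) (nat_lit 35763077523) (nat_lit 228) (nat_lit 39180461989) (nat_lit 76) (nat_lit 31545535494) (nat_lit 39) (nat_lit 5) (nat_lit 42) (nat_lit 5) (nat_lit 40) (nat_lit 5) (nat_lit 354) (nat_lit 325) (nat_lit 221)) (XT.lf (nat_lit 0) (nat_lit 50289673953) (nat_lit 152) (nat_lit 25113413327) (nat_lit 228) (nat_lit 36926574072) (nat_lit 37) (nat_lit 5) (nat_lit 39) (nat_lit 5) (nat_lit 40) (nat_lit 5) (nat_lit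 355) (nat_lit 325) (nat_lit 220)))) (XT.nd (nat_lit 78) (nat_lit 152) (nat_lit 0) (XT.lf (nat_lit 0) (nat_lit 1227720827) (nat_lit 152) (nat_lit 88360339894) (nat_lit 76) (nat_lit 28967896462) (nat_lit 35) (nat_lit 5) (nat_lit 37) (nat_lit 5) (nat_lit 36) (nat_lit 5) (nat_lit 356) (nat_lit 325) (nat_lit 219)) (XT.nd (nat_lit 78) (nat_lit 0) (nat_lit 0) (XT.lf (nat_lit 0) (nat_lit 5920403107) (nat_lit 152) (nat_lit 36849292646) (nat_lit 228) (nat_lit 82398940845) (nat_lit 33) (nat_lit 5) (nat_lit 35) (nat_lit 5) (nat_lit 36) (nat_lit 5) (nat_lit 357) (nat_lit 325) (nat_lit 218)) (XT.lf (nat_lit 0) (nat_lit 89510948433) (nat_lit 228) (nat_lit 21677969610) (nat_lit 76) (nat_lit 21027617061) (nat_lit 33) (nat_lit 5) (nat_lit 36) (nat_lit 5) (nat_lit 34) (nat_lit 4) (nat_lit 358) (nat_lit 325) (nat_lit 217))))) (XT.nd (nat_lit 234) (nat_lit 304) (nat_lit 0) (XT.nd (nat_lit 78) (nat_lit 228) (nat_lit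 0) (XT.lf (nat_lit 0) (nat_lit 2149087997) (nat_lit 152) (nat_lit 53945675915) (nat_lit 76) (nat_lit 83633820956) (nat_lit 31) (nat_lit 5) (nat_lit 33) (nat_lit 5) (nat_lit 32) (nat_lit 5) (nat_lit 359) (nat_lit 325) (nat_lit 216)) (XT.nd (nat_lit 78) (nat_lit 76) (nat_lit 0) (XT.lf (nat_lit 0) (nat_lit 50455080162) (nat_lit 228) (nat_lit 91979090064) (nat_lit 76) (nat_lit 5304467437) (nat_lit 29) (nat_lit 5) (nat_lit 32) (nat_lit 5) (nat_lit 30) (nat_lit 4) (nat_lit 360) (nat_lit 325) (nat_lit 215)) (XT.lf (nat_lit 0) (nat_lit 19483567525) (nat_lit 76) (nat_lit 85345027835) (nat_lit 152) (nat_lit 51450747689) (nat_lit 28) (nat_lit 5) (nat_lit 29) (nat_lit 5) (nat_lit 30) (nat_lit 4) (nat_lit 361) (nat_lit 325) (nat_lit 214)))) (XT.nd (nat_lit 156) (nat_lit 76) (nat_lit 0) (XT.nd (nat_lit 78) (nat_lit 228) (nat_lit 0) (XT.lf (nat_lit 0) (nat_lit 143144122429) (nat_lit 76) (nat_lit 22008071786)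 (nat_lit 152) (nat_lit 271101038) (nat_lit 28) (nat_lit 5) (nat_lit 29) (nat_lit 5) (nat_lit 30) (nat_lit 4) (nat_lit 362) (nat_lit 325) (nat_lit 213)) (XT.lf (nat_lit 0) (nat_lit 55627147642) (nat_lit 228) (nat_lit 72079099110) (nat_lit 76) (nat_lit 47430346487) (nat_lit 25) (nat_lit 5) (nat_lit 28) (nat_lit 5) (nat_lit 26) (nat_lit 4) (nat_lit 363) (nat_lit 325) (nat_lit 212))) (XT.nd (nat_lit 78) (nat_lit 0) (nat_lit 0) (XT.lf (nat_lit 0) (nat_lit 54983544545) (nat_lit 76) (nat_lit 62626504788) (nat_lit 152) (nat_lit 67935569375) (nat_lit 24) (nat_lit 5) (nat_lit 25) (nat_lit 5) (nat_lit 26) (nat_lit 4) (nat_lit 364) (nat_lit 325) (nat_lit 211)) (XT.lf (nat_lit 0) (nat_lit 185945557740) (nat_lit 152) (nat_lit 2082924459) (nat_lit 0) (nat_lit 8689185670) (nat_lit 24) (nat_lit 5) (nat_lit 26) (nat_lit 4) (nat_lit 24) (nat_lit 4) (nat_lit 365) (nat_lit 325) (nat_lit 210))))))))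
noncomputable def xc89 : XT := (XT.nd (nat_lit 1950) (nat_lit 0) (nat_lit 0) (XT.nd (nat_lit 936) (nat_lit 532) (nat_lit 0) (XT.nd (nat_lit 468) (nat_lit 380) (nat_lit 0) (XT.nd (nat_lit 234) (nat_lit 228) (nat_lit 0) (XT.nd (nat_lit 78) (nat_lit 76) (nat_lit 0) (XT.lf (nat_lit 0) (nat_lit 52628095584) (nat_lit 152) (nat_lit 69370658030) (nat_lit 76) (nat_lit 86580200332) (nat_lit 22) (nat_lit 5) (nat_lit 24) (nat_lit 5) (nat_lit 23) (nat_lit 4) (nat_lit 366) (nat_lit 325) (nat_lit 209)) (XT.nd (nat_lit 78) (nat_lit 0) (nat_lit 0) (XT.lf (nat_lit 0) (nat_lit 72629259608) (nat_lit 76) (nat_lit 49267938486) (nat_lit 152) (nat_lit 99424401400) (nat_lit 21) (nat_lit 5) (nat_lit 22) (nat_lit 5) (nat_lit 23) (nat_lit 4) (nat_lit 367) (nat_lit 325) (nat_lit 208)) (XT.lf (nat_lit 0) (nat_lit 198391659936) (nat_lit 152) (nat_lit 7036726423) (nat_lit 0) (nat_lit 29571079061) (nat_lit 21) (nat_lit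 5) (nat_lit 23) (nat_lit 4) (nat_lit 21) (nat_lit 4) (nat_lit 368) (nat_lit 325) (nat_lit 207)))) (XT.nd (nat_lit 78) (nat_lit 76) (nat_lit 0) (XT.lf (nat_lit 0) (nat_lit 33456335308) (nat_lit 152) (nat_lit 100236516273) (nat_lit 76) (nat_lit 115893231487) (nat_lit 19) (nat_lit 5) (nat_lit 21) (nat_lit 5) (nat_lit 20) (nat_lit 4) (nat_lit 369) (nat_lit 325) (nat_lit 206)) (XT.nd (nat_lit 78) (nat_lit 0) (nat_lit 0) (XT.lf (nat_lit 0) (nat_lit 54279949082) (nat_lit 76) (nat_lit 54550914394) (nat_lit 152) (nat_lit 156429369728) (nat_lit 18) (nat_lit 5) (nat_lit 19) (nat_lit 5) (nat_lit 20) (nat_lit 4) (nat_lit 370) (nat_lit 325) (nat_lit 205)) (XT.lf (nat_lit 0) (nat_lit 192491484944) (nat_lit 152) (nat_lit 57877816128) (nat_lit 0) (nat_lit 31706207945) (nat_lit 18) (nat_lit 5) (nat_lit 20) (nat_lit 4) (nat_lit 18) (nat_lit 4) (nat_lit 371) (nat_lit 325) (nat_lit 204))))) (XT.nd (nat_lit 234)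 (nat_lit 152) (nat_lit 0) (XT.nd (nat_lit 78) (nat_lit 152) (nat_lit 0) (XT.lf (nat_lit 0) (nat_lit 110073715673) (nat_lit 76) (nat_lit 175408393226) (nat_lit 76) (nat_lit 14622040561) (nat_lit 17) (nat_lit 4) (nat_lit 18) (nat_lit 5) (nat_lit 18) (nat_lit 4) (nat_lit 372) (nat_lit 325) (nat_lit 203)) (XT.nd (nat_lit 78) (nat_lit 76) (nat_lit 0) (XT.lf (nat_lit 0) (nat_lit 65237230833) (nat_lit 152) (nat_lit 27051025444) (nat_lit 76) (nat_lit 227183863580) (nat_lit 16) (nat_lit 5) (nat_lit 18) (nat_lit 5) (nat_lit 17) (nat_lit 4) (nat_lit 373) (nat_lit 325) (nat_lit 202)) (XT.lf (nat_lit 0) (nat_lit 153381404779) (nat_lit 152) (nat_lit 186625997451) (nat_lit 0) (nat_lit 249718244) (nat_lit 15) (nat_lit 5) (nat_lit 17) (nat_lit 4) (nat_lit 15) (nat_lit 4) (nat_lit 374) (nat_lit 325) (nat_lit 201)))) (XT.nd (nat_lit 78) (nat_lit 152) (nat_lit 0) (XT.lf (nat_lit 0) (nat_lit 250611123825) (nat_lit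 152) (nat_lit 14513472858) (nat_lit 0) (nat_lit 97478624053) (nat_lit 15) (nat_lit 5) (nat_lit 17) (nat_lit 4) (nat_lit 15) (nat_lit 4) (nat_lit 375) (nat_lit 325) (nat_lit 200)) (XT.nd (nat_lit 78) (nat_lit 76) (nat_lit 0) (XT.lf (nat_lit 0) (nat_lit 177032279562) (nat_lit 76) (nat_lit 181349916785) (nat_lit 76) (nat_lit 28216664017) (nat_lit 14) (nat_lit 4) (nat_lit 15) (nat_lit 5) (nat_lit 15) (nat_lit 4) (nat_lit 376) (nat_lit 325) (nat_lit 199)) (XT.lf (nat_lit 0) (nat_lit 60524064140) (nat_lit 152) (nat_lit 29059618499) (nat_lit 76) (nat_lit 322869065609) (nat_lit 13) (nat_lit 5) (nat_lit 15) (nat_lit 5) (nat_lit 14) (nat_lit 4) (nat_lit 377) (nat_lit 325) (nat_lit 198)))))) (XT.nd (nat_lit 468) (nat_lit 228) (nat_lit 0) (XT.nd (nat_lit 234) (nat_lit 152) (nat_lit 0) (XT.nd (nat_lit 78) (nat_lit 76) (nat_lit 0) (XT.lf (nat_lit 0) (nat_lit 158255925660) (nat_lit 152) (nat_lit 269538417029)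 (nat_lit 0) (nat_lit 12413453698) (nat_lit 12) (nat_lit 5) (nat_lit 14) (nat_lit 4) (nat_lit 12) (nat_lit 4) (nat_lit 378) (nat_lit 325) (nat_lit 197)) (XT.nd (nat_lit 78) (nat_lit 76) (nat_lit 0) (XT.lf (nat_lit 0) (nat_lit 265830513573) (nat_lit 152) (nat_lit 84264053718) (nat_lit 0) (nat_lit 119987472322) (nat_lit 12) (nat_lit 5) (nat_lit 14) (nat_lit 4) (nat_lit 12) (nat_lit 4) (nat_lit 379) (nat_lit 325) (nat_lit 196)) (XT.lf (nat_lit 0) (nat_lit 119660590124) (nat_lit 76) (nat_lit 264217914420) (nat_lit 76) (nat_lit 118374346050) (nat_lit 11) (nat_lit 4) (nat_lit 12) (nat_lit 5) (nat_lit 12) (nat_lit 4) (nat_lit 380) (nat_lit 325) (nat_lit 195)))) (XT.nd (nat_lit 78) (nat_lit 152) (nat_lit 0) (XT.lf (nat_lit 0) (nat_lit 342906760502) (nat_lit 76) (nat_lit 169930634732) (nat_lit 76) (nat_lit 24086578289) (nat_lit 11) (nat_lit 4) (nat_lit 12) (nat_lit 5) (nat_lit 12) (nat_lit 4) (nat_lit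 381) (nat_lit 325) (nat_lit 194)) (XT.nd (nat_lit 78) (nat_lit 0) (nat_lit 0) (XT.lf (nat_lit 0) (nat_lit 8707320985) (nat_lit 76) (nat_lit 66683815281) (nat_lit 152) (nat_lit 498910198571) (nat_lit 9) (nat_lit 5) (nat_lit 10) (nat_lit 5) (nat_lit 11) (nat_lit 4) (nat_lit 382) (nat_lit 325) (nat_lit 193)) (XT.lf (nat_lit 0) (nat_lit 186128643169) (nat_lit 152) (nat_lit 381084513409) (nat_lit 0) (nat_lit 47228712878) (nat_lit 9) (nat_lit 5) (nat_lit 11) (nat_lit 4) (nat_lit 9) (nat_lit 4) (nat_lit 383) (nat_lit 325) (nat_lit 192))))) (XT.nd (nat_lit 234) (nat_lit 152) (nat_lit 0) (XT.nd (nat_lit 78) (nat_lit 76) (nat_lit 0) (XT.lf (nat_lit 0) (nat_lit 306848915443) (nat_lit 152) (nat_lit 182939927078) (nat_lit 0) (nat_lit 167948616153) (nat_lit 9) (nat_lit 5) (nat_lit 11) (nat_lit 4) (nat_lit 9) (nat_lit 4) (nat_lit 384) (nat_lit 325) (nat_lit 191)) (XT.nd (nat_lit 78) (nat_lit 0) (nat_lit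 0) (XT.lf (nat_lit 0) (nat_lit 32081876937) (nat_lit 76) (nat_lit 405645222312) (nat_lit 76) (nat_lit 266744581357) (nat_lit 8) (nat_lit 4) (nat_lit 9) (nat_lit 5) (nat_lit 9) (nat_lit 4) (nat_lit 385) (nat_lit 325) (nat_lit 190)) (XT.lf (nat_lit 0) (nat_lit 270837032248) (nat_lit 76) (nat_lit 311424629606) (nat_lit 76) (nat_lit 172523672294) (nat_lit 8) (nat_lit 4) (nat_lit 9) (nat_lit 5) (nat_lit 9) (nat_lit 4) (nat_lit 386) (nat_lit 325) (nat_lit 189)))) (XT.nd (nat_lit 156) (nat_lit 76) (nat_lit 0) (XT.nd (nat_lit 78) (nat_lit 76) (nat_lit 0) (XT.lf (nat_lit 0) (nat_lit 528691564050) (nat_lit 76) (nat_lit 209666896333) (nat_lit 76) (nat_lit 70765646099) (nat_lit 8) (nat_lit 4) (nat_lit 9) (nat_lit 5) (nat_lit 9) (nat_lit 4) (nat_lit 387) (nat_lit 325) (nat_lit 188)) (XT.lf (nat_lit 0) (nat_lit 37880023118) (nat_lit 152) (nat_lit 61247474066) (nat_lit 76) (nat_lit 768651959560) (nat_lit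 7) (nat_lit 5) (nat_lit 9) (nat_lit 5) (nat_lit 8) (nat_lit 4) (nat_lit 388) (nat_lit 325) (nat_lit 187))) (XT.nd (nat_lit 78) (nat_lit 0) (nat_lit 0) (XT.lf (nat_lit 0) (nat_lit 155963559919) (nat_lit 152) (nat_lit 751268238197) (nat_lit 0) (nat_lit 23676157449) (nat_lit 6) (nat_lit 5) (nat_lit 8) (nat_lit 4) (nat_lit 6) (nat_lit 4) (nat_lit 389) (nat_lit 325) (nat_lit 186)) (XT.lf (nat_lit 0) (nat_lit 286249184812) (nat_lit 152) (nat_lit 558738218382) (nat_lit 0) (nat_lit 153961560883) (nat_lit 6) (nat_lit 5) (nat_lit 8) (nat_lit 4) (nat_lit 6) (nat_lit 4) (nat_lit 390) (nat_lit 325) (nat_lit 185))))))) (XT.nd (nat_lit 42588) (nat_lit 0) (nat_lit 3648) (XT.nd (nat_lit 42120) (nat_lit 0) (nat_lit 6840) (XT.nd (nat_lit 41886) (nat_lit 0) (nat_lit 7676) (XT.nd (nat_lit 78) (nat_lit 0) (nat_lit 0) (XT.lf (nat_lit 0) (nat_lit 426957245770) (nat_lit 152) (nat_lit 350806611447) (nat_lit 0) (nat_lit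 294669416788) (nat_lit 6) (nat_lit 5) (nat_lit 8) (nat_lit 4) (nat_lit 6) (nat_lit 4) (nat_lit 391) (nat_lit 325) (nat_lit 184)) (XT.nd (nat_lit 41730) (nat_lit 0) (nat_lit 7600) (XT.lf (nat_lit 0) (nat_lit 578921568342) (nat_lit 152) (nat_lit 126241230091) (nat_lit 0) (nat_lit 446633549494) (nat_lit 6) (nat_lit 5) (nat_lit 8) (nat_lit 4) (nat_lit 6) (nat_lit 4) (nat_lit 392) (nat_lit 325) (nat_lit 183)) (XT.lf (nat_lit 0) (nat_lit 2110388685) (nat_lit 836) (nat_lit 6486792910) (nat_lit 836) (nat_lit 6486792910) (nat_lit 106) (nat_lit 3) (nat_lit 117) (nat_lit 3) (nat_lit 117) (nat_lit 5) (nat_lit 326) (nat_lit 326) (nat_lit 248)))) (XT.nd (nat_lit 78) (nat_lit 0) (nat_lit 0) (XT.lf (nat_lit 0) (nat_lit 4752172153) (nat_lit 760) (nat_lit 21028581696) (nat_lit 836) (nat_lit 5575689684) (nat_lit 107) (nat_lit 5) (nat_lit 117) (nat_lit 5) (nat_lit 118) (nat_lit 5) (nat_lit 327) (nat_lit 326)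 (nat_lit 247)) (XT.nd (nat_lit 78) (nat_lit 0) (nat_lit 76) (XT.lf (nat_lit 76) (nat_lit 3127854633) (nat_lit 0) (nat_lit 2755673370) (nat_lit 836) (nat_lit 26728626668) (nat_lit 108) (nat_lit 5) (nat_lit 107) (nat_lit 5) (nat_lit 118) (nat_lit 5) (nat_lit 328) (nat_lit 326) (nat_lit 246)) (XT.lf (nat_lit 0) (nat_lit 7812691751) (nat_lit 760) (nat_lit 4340414825) (nat_lit 836) (nat_lit 21779859977) (nat_lit 108) (nat_lit 5) (nat_lit 118) (nat_lit 5) (nat_lit 119) (nat_lit 5) (nat_lit 329) (nat_lit 326) (nat_lit 245))))) (XT.nd (nat_lit 234) (nat_lit 988) (nat_lit 0) (XT.nd (nat_lit 78) (nat_lit 0) (nat_lit 76) (XT.lf (nat_lit 0) (nat_lit 10506626205) (nat_lit 760) (nat_lit 12030824706) (nat_lit 836) (nat_lit 12791478765) (nat_lit 109) (nat_lit 5) (nat_lit 119) (nat_lit 5) (nat_lit 120) (nat_lit 5) (nat_lit 330) (nat_lit 326) (nat_lit 244)) (XT.nd (nat_lit 78) (nat_lit 0) (nat_lit 0) (XT.lf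 (nat_lit 0) (nat_lit 13995627363) (nat_lit 760) (nat_lit 20059545329) (nat_lit 836) (nat_lit 2752427122) (nat_lit 110) (nat_lit 5) (nat_lit 120) (nat_lit 5) (nat_lit 121) (nat_lit 5) (nat_lit 331) (nat_lit 326) (nat_lit 243)) (XT.lf (nat_lit 76) (nat_lit 9787810639) (nat_lit 0) (nat_lit 8713541520) (nat_lit 836) (nat_lit 19866338235) (nat_lit 111) (nat_lit 5) (nat_lit 110) (nat_lit 5) (nat_lit 121) (nat_lit 5) (nat_lit 332) (nat_lit 326) (nat_lit 242)))) (XT.nd (nat_lit 78) (nat_lit 380) (nat_lit 0) (XT.lf (nat_lit 0) (nat_lit 2479634170) (nat_lit 760) (nat_lit 21565320367) (nat_lit 836) (nat_lit 15973769190) (nat_lit 101) (nat_lit 5) (nat_lit 111) (nat_lit 5) (nat_lit 112) (nat_lit 5) (nat_lit 333) (nat_lit 326) (nat_lit 241)) (XT.nd (nat_lit 78) (nat_lit 380) (nat_lit 0) (XT.lf (nat_lit 0) (nat_lit 30764296870) (nat_lit 836) (nat_lit 4981075411) (nat_lit 76) (nat_lit 6019860860) (nat_lit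 101) (nat_lit 5) (nat_lit 112) (nat_lit 5) (nat_lit 102) (nat_lit 5) (nat_lit 334) (nat_lit 326) (nat_lit 240)) (XT.lf (nat_lit 0) (nat_lit 30797193888) (nat_lit 380) (nat_lit 8061757427) (nat_lit 456) (nat_lit 4750629320) (nat_lit 96) (nat_lit 5) (nat_lit 101) (nat_lit 5) (nat_lit 102) (nat_lit 5) (nat_lit 335) (nat_lit 326) (nat_lit 239)))))) (XT.nd (nat_lit 468) (nat_lit 1520) (nat_lit 0) (XT.nd (nat_lit 234) (nat_lit 608) (nat_lit 0) (XT.nd (nat_lit 78) (nat_lit 684) (nat_lit 0) (XT.lf (nat_lit 0) (nat_lit 2753476367) (nat_lit 380) (nat_lit 21153429603) (nat_lit 76) (nat_lit 21652124956) (nat_lit 91) (nat_lit 5) (nat_lit 96) (nat_lit 5) (nat_lit 92) (nat_lit 5) (nat_lit 336) (nat_lit 326) (nat_lit 238)) (XT.nd (nat_lit 78) (nat_lit 304) (nat_lit 0) (XT.lf (nat_lit 0) (nat_lit 11427759261) (nat_lit 456) (nat_lit 29981795887) (nat_lit 76) (nat_lit 6214178293) (nat_lit 86) (nat_lit 5) (nat_lit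 92) (nat_lit 5) (nat_lit 87) (nat_lit 5) (nat_lit 337) (nat_lit 326) (nat_lit 237)) (XT.lf (nat_lit 0) (nat_lit 10377702365) (nat_lit 304) (nat_lit 11352257095) (nat_lit 380) (nat_lit 28076958166) (nat_lit 82) (nat_lit 5) (nat_lit 86) (nat_lit 5) (nat_lit 87) (nat_lit 5) (nat_lit 338) (nat_lit 326) (nat_lit 236)))) (XT.nd (nat_lit 78) (nat_lit 304) (nat_lit 0) (XT.lf (nat_lit 0) (nat_lit 2637839910) (nat_lit 304) (nat_lit 31114714193) (nat_lit 380) (nat_lit 18367395415) (nat_lit 78) (nat_lit 5) (nat_lit 82) (nat_lit 5) (nat_lit 83) (nat_lit 5) (nat_lit 339) (nat_lit 326) (nat_lit 235)) (XT.nd (nat_lit 78) (nat_lit 304) (nat_lit 0) (XT.lf (nat_lit 0) (nat_lit 47633082992) (nat_lit 380) (nat_lit 5326164059) (nat_lit 76) (nat_lit 1613974180) (nat_lit 78) (nat_lit 5) (nat_lit 83) (nat_lit 5) (nat_lit 79) (nat_lit 5) (nat_lit 340) (nat_lit 326) (nat_lit 234)) (XT.lf (nat_lit 0) (nat_lit 6442652496)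 (nat_lit 304) (nat_lit 14052081407) (nat_lit 76) (nat_lit 36663096071) (nat_lit 74) (nat_lit 5) (nat_lit 78) (nat_lit 5) (nat_lit 75) (nat_lit 5) (nat_lit 341) (nat_lit 326) (nat_lit 233))))) (XT.nd (nat_lit 234) (nat_lit 760) (nat_lit 0) (XT.nd (nat_lit 78) (nat_lit 456) (nat_lit 0) (XT.lf (nat_lit 0) (nat_lit 21559335680) (nat_lit 380) (nat_lit 23442079887) (nat_lit 76) (nat_lit 14896785263) (nat_lit 70) (nat_lit 5) (nat_lit 75) (nat_lit 5) (nat_lit 71) (nat_lit 5) (nat_lit 342) (nat_lit 326) (nat_lit 232)) (XT.nd (nat_lit 78) (nat_lit 228) (nat_lit 0) (XT.lf (nat_lit 0) (nat_lit 29241806248) (nat_lit 228) (nat_lit 9690168401) (nat_lit 304) (nat_lit 23873498373) (nat_lit 67) (nat_lit 5) (nat_lit 70) (nat_lit 5) (nat_lit 71) (nat_lit 5) (nat_lit 343) (nat_lit 326) (nat_lit 231)) (XT.lf (nat_lit 0) (nat_lit 21277118439) (nat_lit 228) (nat_lit 37604578557) (nat_lit 304) (nat_lit 7004268905)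 (nat_lit 64) (nat_lit 5) (nat_lit 67) (nat_lit 5) (nat_lit 68) (nat_lit 5) (nat_lit 344) (nat_lit 326) (nat_lit 230)))) (XT.nd (nat_lit 156) (nat_lit 228) (nat_lit 0) (XT.nd (nat_lit 78) (nat_lit 228) (nat_lit 0) (XT.lf (nat_lit 0) (nat_lit 11817416725) (nat_lit 304) (nat_lit 56599862436) (nat_lit 76) (nat_lit 738774196) (nat_lit 60) (nat_lit 5) (nat_lit 64) (nat_lit 5) (nat_lit 61) (nat_lit 5) (nat_lit 345) (nat_lit 326) (nat_lit 229)) (XT.lf (nat_lit 0) (nat_lit 2549709122) (nat_lit 228) (nat_lit 30812950320) (nat_lit 304) (nat_lit 39246188337) (nat_lit 57) (nat_lit 5) (nat_lit 60) (nat_lit 5) (nat_lit 61) (nat_lit 5) (nat_lit 346) (nat_lit 326) (nat_lit 228))) (XT.nd (nat_lit 78) (nat_lit 228) (nat_lit 0) (XT.lf (nat_lit 0) (nat_lit 57783039283) (nat_lit 304) (nat_lit 8010716257) (nat_lit 76) (nat_lit 10486536239) (nat_lit 57) (nat_lit 5) (nat_lit 61) (nat_lit 5) (nat_lit 58) (nat_lit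 5) (nat_lit 347) (nat_lit 326) (nat_lit 227)) (XT.lf (nat_lit 0) (nat_lit 5269752141) (nat_lit 228) (nat_lit 19846938884) (nat_lit 76) (nat_lit 55051540931) (nat_lit 54) (nat_lit 5) (nat_lit 57) (nat_lit 5) (nat_lit 55) (nat_lit 5) (nat_lit 348) (nat_lit 326) (nat_lit 226))))))))
noncomputable def xc90 : XT := (XT.nd (nat_lit 1872) (nat_lit 912) (nat_lit 0) (XT.nd (nat_lit 936) (nat_lit 988) (nat_lit 0) (XT.nd (nat_lit 468) (nat_lit 760) (nat_lit 0) (XT.nd (nat_lit 234) (nat_lit 380) (nat_lit 0) (XT.nd (nat_lit 78) (nat_lit 380) (nat_lit 0) (XT.lf (nat_lit 0) (nat_lit 31553710041) (nat_lit 304) (nat_lit 33248076480) (nat_lit 76) (nat_lit 19487078374) (nat_lit 51) (nat_lit 5) (nat_lit 55) (nat_lit 5) (nat_lit 52) (nat_lit 5) (nat_lit 349) (nat_lit 326) (nat_lit 225)) (XT.nd (nat_lit 78) (nat_lit 228) (nat_lit 0) (XT.lf (nat_lit 0) (nat_lit 40446975752) (nat_lit 152) (nat_lit 20896743021)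 (nat_lit 228) (nat_lit 27325264430) (nat_lit 49) (nat_lit 5) (nat_lit 51) (nat_lit 5) (nat_lit 52) (nat_lit 5) (nat_lit 350) (nat_lit 326) (nat_lit 224)) (XT.lf (nat_lit 0) (nat_lit 1579443198) (nat_lit 228) (nat_lit 65019959389) (nat_lit 76) (nat_lit 26726728795) (nat_lit 46) (nat_lit 5) (nat_lit 49) (nat_lit 5) (nat_lit 47) (nat_lit 5) (nat_lit 351) (nat_lit 326) (nat_lit 223)))) (XT.nd (nat_lit 78) (nat_lit 228) (nat_lit 0) (XT.lf (nat_lit 0) (nat_lit 13980735652) (nat_lit 152) (nat_lit 19292818978) (nat_lit 228) (nat_lit 64988181638) (nat_lit 44) (nat_lit 5) (nat_lit 46) (nat_lit 5) (nat_lit 47) (nat_lit 5) (nat_lit 352) (nat_lit 326) (nat_lit 222)) (XT.nd (nat_lit 78) (nat_lit 228) (nat_lit 0) (XT.lf (nat_lit 0) (nat_lit 69148112886) (nat_lit 228) (nat_lit 2431767990) (nat_lit 76) (nat_lit 31930063865) (nat_lit 44) (nat_lit 5) (nat_lit 47) (nat_lit 5) (nat_lit 45) (nat_lit 5) (nat_lit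 353) (nat_lit 326) (nat_lit 221)) (XT.lf (nat_lit 0) (nat_lit 487721911) (nat_lit 228) (nat_lit 20633250122) (nat_lit 76) (nat_lit 87971444434) (nat_lit 41) (nat_lit 5) (nat_lit 44) (nat_lit 5) (nat_lit 42) (nat_lit 5) (nat_lit 354) (nat_lit 326) (nat_lit 220))))) (XT.nd (nat_lit 234) (nat_lit 304) (nat_lit 0) (XT.nd (nat_lit 78) (nat_lit 304) (nat_lit 0) (XT.lf (nat_lit 0) (nat_lit 38673348328) (nat_lit 228) (nat_lit 42230840640) (nat_lit 76) (nat_lit 34101533439) (nat_lit 39) (nat_lit 5) (nat_lit 42) (nat_lit 5) (nat_lit 40) (nat_lit 5) (nat_lit 355) (nat_lit 326) (nat_lit 219)) (XT.nd (nat_lit 78) (nat_lit 152) (nat_lit 0) (XT.lf (nat_lit 0) (nat_lit 54393253106) (nat_lit 152) (nat_lit 27088914844) (nat_lit 228) (nat_lit 39831508543) (nat_lit 37) (nat_lit 5) (nat_lit 39) (nat_lit 5) (nat_lit 40) (nat_lit 5) (nat_lit 356) (nat_lit 326) (nat_lit 218)) (XT.lf (nat_lit 0) (nat_lit 1371769916)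 (nat_lit 152) (nat_lit 95348972654) (nat_lit 76) (nat_lit 31317385435) (nat_lit 35) (nat_lit 5) (nat_lit 37) (nat_lit 5) (nat_lit 36) (nat_lit 5) (nat_lit 357) (nat_lit 326) (nat_lit 217)))) (XT.nd (nat_lit 78) (nat_lit 152) (nat_lit 0) (XT.lf (nat_lit 0) (nat_lit 6470744636) (nat_lit 152) (nat_lit 39764160927) (nat_lit 228) (nat_lit 88945027124) (nat_lit 33) (nat_lit 5) (nat_lit 35) (nat_lit 5) (nat_lit 36) (nat_lit 5) (nat_lit 358) (nat_lit 326) (nat_lit 216)) (XT.nd (nat_lit 78) (nat_lit 152) (nat_lit 0) (XT.lf (nat_lit 0) (nat_lit 96712704442) (nat_lit 228) (nat_lit 23339625953) (nat_lit 76) (nat_lit 22739471352) (nat_lit 33) (nat_lit 5) (nat_lit 36) (nat_lit 5) (nat_lit 34) (nat_lit 4) (nat_lit 359) (nat_lit 326) (nat_lit 215)) (XT.lf (nat_lit 0) (nat_lit 2360600153) (nat_lit 152) (nat_lit 58190583470) (nat_lit 76) (nat_lit 90353698056) (nat_lit 31) (nat_lit 5) (nat_lit 33) (nat_lit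 5) (nat_lit 32) (nat_lit 5) (nat_lit 360) (nat_lit 326) (nat_lit 214)))))) (XT.nd (nat_lit 468) (nat_lit 456) (nat_lit 0) (XT.nd (nat_lit 234) (nat_lit 304) (nat_lit 0) (XT.nd (nat_lit 78) (nat_lit 76) (nat_lit 0) (XT.lf (nat_lit 0) (nat_lit 54529663809) (nat_lit 228) (nat_lit 99268317708) (nat_lit 76) (nat_lit 5757828370) (nat_lit 29) (nat_lit 5) (nat_lit 32) (nat_lit 5) (nat_lit 30) (nat_lit 4) (nat_lit 361) (nat_lit 326) (nat_lit 213)) (XT.nd (nat_lit 78) (nat_lit 0) (nat_lit 0) (XT.lf (nat_lit 0) (nat_lit 21108349506) (nat_lit 76) (nat_lit 92142914727) (nat_lit 152) (nat_lit 55528598006) (nat_lit 28) (nat_lit 5) (nat_lit 29) (nat_lit 5) (nat_lit 30) (nat_lit 4) (nat_lit 362) (nat_lit 326) (nat_lit 212)) (XT.lf (nat_lit 0) (nat_lit 154656852759) (nat_lit 76) (nat_lit 23741203329) (nat_lit 152) (nat_lit 257409956) (nat_lit 28) (nat_lit 5) (nat_lit 29) (nat_lit 5) (nat_lit 30) (nat_lit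 4) (nat_lit 363) (nat_lit 326) (nat_lit 211)))) (XT.nd (nat_lit 78) (nat_lit 76) (nat_lit 0) (XT.lf (nat_lit 0) (nat_lit 60110381883) (nat_lit 228) (nat_lit 77784577150) (nat_lit 76) (nat_lit 51250901039) (nat_lit 25) (nat_lit 5) (nat_lit 28) (nat_lit 5) (nat_lit 26) (nat_lit 4) (nat_lit 364) (nat_lit 326) (nat_lit 210)) (XT.nd (nat_lit 78) (nat_lit 0) (nat_lit 0) (XT.lf (nat_lit 0) (nat_lit 59440433535) (nat_lit 76) (nat_lit 67609941854) (nat_lit 152) (nat_lit 73337309760) (nat_lit 24) (nat_lit 5) (nat_lit 25) (nat_lit 5) (nat_lit 26) (nat_lit 4) (nat_lit 365) (nat_lit 326) (nat_lit 209)) (XT.lf (nat_lit 0) (nat_lit 200850775240) (nat_lit 152) (nat_lit 2194584452) (nat_lit 0) (nat_lit 9408236528) (nat_lit 24) (nat_lit 5) (nat_lit 26) (nat_lit 4) (nat_lit 24) (nat_lit 4) (nat_lit 366) (nat_lit 326) (nat_lit 208))))) (XT.nd (nat_lit 234) (nat_lit 228) (nat_lit 0) (XT.nd (nat_lit 78) (nat_lit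 76) (nat_lit 0) (XT.lf (nat_lit 0) (nat_lit 56867014641) (nat_lit 152) (nat_lit 74866772130) (nat_lit 76) (nat_lit 93530044246) (nat_lit 22) (nat_lit 5) (nat_lit 24) (nat_lit 5) (nat_lit 23) (nat_lit 4) (nat_lit 367) (nat_lit 326) (nat_lit 207)) (XT.nd (nat_lit 78) (nat_lit 0) (nat_lit 0) (XT.lf (nat_lit 0) (nat_lit 78490812200) (nat_lit 76) (nat_lit 53185508904) (nat_lit 152) (nat_lit 107349633737) (nat_lit 21) (nat_lit 5) (nat_lit 22) (nat_lit 5) (nat_lit 23) (nat_lit 4) (nat_lit 368) (nat_lit 326) (nat_lit 206)) (XT.lf (nat_lit 0) (nat_lit 214288659172) (nat_lit 152) (nat_lit 7551320239) (nat_lit 0) (nat_lit 31958155055) (nat_lit 21) (nat_lit 5) (nat_lit 23) (nat_lit 4) (nat_lit 21) (nat_lit 4) (nat_lit 369) (nat_lit 326) (nat_lit 205)))) (XT.nd (nat_lit 78) (nat_lit 76) (nat_lit 0) (XT.lf (nat_lit 0) (nat_lit 36157735134) (nat_lit 152) (nat_lit 108208366896) (nat_lit 76) (nat_lit 125185618743)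 (nat_lit 19) (nat_lit 5) (nat_lit 21) (nat_lit 5) (nat_lit 20) (nat_lit 4) (nat_lit 370) (nat_lit 326) (nat_lit 204)) (XT.nd (nat_lit 78) (nat_lit 0) (nat_lit 0) (XT.lf (nat_lit 0) (nat_lit 58667370053) (nat_lit 76) (nat_lit 58893714544) (nat_lit 152) (nat_lit 168918775689) (nat_lit 18) (nat_lit 5) (nat_lit 19) (nat_lit 5) (nat_lit 20) (nat_lit 4) (nat_lit 371) (nat_lit 326) (nat_lit 203)) (XT.lf (nat_lit 0) (nat_lit 207913103901) (nat_lit 152) (nat_lit 62465555782) (nat_lit 0) (nat_lit 34261771370) (nat_lit 18) (nat_lit 5) (nat_lit 20) (nat_lit 4) (nat_lit 18) (nat_lit 4) (nat_lit 372) (nat_lit 326) (nat_lit 202))))))) (XT.nd (nat_lit 936) (nat_lit 228) (nat_lit 0) (XT.nd (nat_lit 468) (nat_lit 304) (nat_lit 0) (XT.nd (nat_lit 234) (nat_lit 152) (nat_lit 0) (XT.nd (nat_lit 78) (nat_lit 152) (nat_lit 0) (XT.lf (nat_lit 0) (nat_lit 118920252190) (nat_lit 76) (nat_lit 189421708212) (nat_lit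 76) (nat_lit 15769453471) (nat_lit 17) (nat_lit 4) (nat_lit 18) (nat_lit 5) (nat_lit 18) (nat_lit 4) (nat_lit 373) (nat_lit 326) (nat_lit 201)) (XT.nd (nat_lit 78) (nat_lit 76) (nat_lit 0) (XT.lf (nat_lit 0) (nat_lit 70476241693) (nat_lit 152) (nat_lit 29176813168) (nat_lit 76) (nat_lit 245375829961) (nat_lit 16) (nat_lit 5) (nat_lit 18) (nat_lit 5) (nat_lit 17) (nat_lit 4) (nat_lit 374) (nat_lit 326) (nat_lit 200)) (XT.lf (nat_lit 0) (nat_lit 165671310947) (nat_lit 152) (nat_lit 201518761734) (nat_lit 0) (nat_lit 286644961) (nat_lit 15) (nat_lit 5) (nat_lit 17) (nat_lit 4) (nat_lit 15) (nat_lit 4) (nat_lit 375) (nat_lit 326) (nat_lit 199)))) (XT.nd (nat_lit 78) (nat_lit 152) (nat_lit 0) (XT.lf (nat_lit 0) (nat_lit 270677970940) (nat_lit 152) (nat_lit 15639999286) (nat_lit 0) (nat_lit 105292607734) (nat_lit 15) (nat_lit 5) (nat_lit 17) (nat_lit 4) (nat_lit 15) (nat_lit 4) (nat_lit 376) (nat_lit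 326) (nat_lit 198)) (XT.nd (nat_lit 78) (nat_lit 76) (nat_lit 0) (XT.lf (nat_lit 0) (nat_lit 191227911767) (nat_lit 76) (nat_lit 195842003334) (nat_lit 76) (nat_lit 30455994556) (nat_lit 14) (nat_lit 4) (nat_lit 15) (nat_lit 5) (nat_lit 15) (nat_lit 4) (nat_lit 377) (nat_lit 326) (nat_lit 197)) (XT.lf (nat_lit 0) (nat_lit 65382124815) (nat_lit 152) (nat_lit 31353250660) (nat_lit 76) (nat_lit 348712783754) (nat_lit 13) (nat_lit 5) (nat_lit 15) (nat_lit 5) (nat_lit 14) (nat_lit 4) (nat_lit 378) (nat_lit 326) (nat_lit 196))))) (XT.nd (nat_lit 234) (nat_lit 152) (nat_lit 0) (XT.nd (nat_lit 78) (nat_lit 76) (nat_lit 0) (XT.lf (nat_lit 0) (nat_lit 170932029539) (nat_lit 152) (nat_lit 291071158542) (nat_lit 0) (nat_lit 13420448580) (nat_lit 12) (nat_lit 5) (nat_lit 14) (nat_lit 4) (nat_lit 12) (nat_lit 4) (nat_lit 379) (nat_lit 326) (nat_lit 195)) (XT.nd (nat_lit 78) (nat_lit 76) (nat_lit 0) (XT.lf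 (nat_lit 0) (nat_lit 287111426719) (nat_lit 152) (nat_lit 90977092969) (nat_lit 0) (nat_lit 129599357688) (nat_lit 12) (nat_lit 5) (nat_lit 14) (nat_lit 4) (nat_lit 12) (nat_lit 4) (nat_lit 380) (nat_lit 326) (nat_lit 194)) (XT.lf (nat_lit 0) (nat_lit 129260301837) (nat_lit 76) (nat_lit 285342302556) (nat_lit 76) (nat_lit 127829781605) (nat_lit 11) (nat_lit 4) (nat_lit 12) (nat_lit 5) (nat_lit 12) (nat_lit 4) (nat_lit 381) (nat_lit 326) (nat_lit 193)))) (XT.nd (nat_lit 78) (nat_lit 152) (nat_lit 0) (XT.lf (nat_lit 0) (nat_lit 370364175883) (nat_lit 76) (nat_lit 183513006791) (nat_lit 76) (nat_lit 26000067396) (nat_lit 11) (nat_lit 4) (nat_lit 12) (nat_lit 5) (nat_lit 12) (nat_lit 4) (nat_lit 382) (nat_lit 326) (nat_lit 192)) (XT.nd (nat_lit 78) (nat_lit 0) (nat_lit 0) (XT.lf (nat_lit 0) (nat_lit 9428112977) (nat_lit 76) (nat_lit 72006735715) (nat_lit 152) (nat_lit 538809970493) (nat_lit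 9) (nat_lit 5) (nat_lit 10) (nat_lit 5) (nat_lit 11) (nat_lit 4) (nat_lit 383) (nat_lit 326) (nat_lit 191)) (XT.lf (nat_lit 0) (nat_lit 201030606399) (nat_lit 152) (nat_lit 411548455261) (nat_lit 0) (nat_lit 51017572502) (nat_lit 9) (nat_lit 5) (nat_lit 11) (nat_lit 4) (nat_lit 9) (nat_lit 4) (nat_lit 384) (nat_lit 326) (nat_lit 190)))))) (XT.nd (nat_lit 468) (nat_lit 0) (nat_lit 0) (XT.nd (nat_lit 234) (nat_lit 152) (nat_lit 0) (XT.nd (nat_lit 78) (nat_lit 76) (nat_lit 0) (XT.lf (nat_lit 0) (nat_lit 331407635879) (nat_lit 152) (nat_lit 197553992335) (nat_lit 0) (nat_lit 181394285625) (nat_lit 9) (nat_lit 5) (nat_lit 11) (nat_lit 4) (nat_lit 9) (nat_lit 4) (nat_lit 385) (nat_lit 326) (nat_lit 189)) (XT.nd (nat_lit 78) (nat_lit 0) (nat_lit 0) (XT.lf (nat_lit 0) (nat_lit 34668637764) (nat_lit 76) (nat_lit 438086951637) (nat_lit 76) (nat_lit 288073308461) (nat_lit 8) (nat_lit 4) (nat_lit 9)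 (nat_lit 5) (nat_lit 9) (nat_lit 4) (nat_lit 386) (nat_lit 326) (nat_lit 188)) (XT.lf (nat_lit 0) (nat_lit 292522708413) (nat_lit 76) (nat_lit 336329443993) (nat_lit 76) (nat_lit 186315529592) (nat_lit 8) (nat_lit 4) (nat_lit 9) (nat_lit 5) (nat_lit 9) (nat_lit 4) (nat_lit 387) (nat_lit 326) (nat_lit 187)))) (XT.nd (nat_lit 78) (nat_lit 152) (nat_lit 0) (XT.lf (nat_lit 0) (nat_lit 571004216568) (nat_lit 76) (nat_lit 226431770279) (nat_lit 76) (nat_lit 76417604745) (nat_lit 8) (nat_lit 4) (nat_lit 9) (nat_lit 5) (nat_lit 9) (nat_lit 4) (nat_lit 388) (nat_lit 326) (nat_lit 186)) (XT.nd (nat_lit 78) (nat_lit 76) (nat_lit 0) (XT.lf (nat_lit 0) (nat_lit 40918754233) (nat_lit 152) (nat_lit 66130951888) (nat_lit 76) (nat_lit 830151689882) (nat_lit 7) (nat_lit 5) (nat_lit 9) (nat_lit 5) (nat_lit 8) (nat_lit 4) (nat_lit 389) (nat_lit 326) (nat_lit 185)) (XT.lf (nat_lit 0) (nat_lit 168448720238) (nat_lit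 152) (nat_lit 811353807356) (nat_lit 0) (nat_lit 25577659883) (nat_lit 6) (nat_lit 5) (nat_lit 8) (nat_lit 4) (nat_lit 6) (nat_lit 4) (nat_lit 390) (nat_lit 326) (nat_lit 184))))) (XT.nd (nat_lit 41964) (nat_lit 0) (nat_lit 7676) (XT.nd (nat_lit 78) (nat_lit 0) (nat_lit 0) (XT.lf (nat_lit 0) (nat_lit 309156596935) (nat_lit 152) (nat_lit 603422562986) (nat_lit 0) (nat_lit 166285346715) (nat_lit 6) (nat_lit 5) (nat_lit 8) (nat_lit 4) (nat_lit 6) (nat_lit 4) (nat_lit 391) (nat_lit 326) (nat_lit 183)) (XT.nd (nat_lit 41808) (nat_lit 0) (nat_lit 7600) (XT.lf (nat_lit 0) (nat_lit 461120748894) (nat_lit 152) (nat_lit 378857517337) (nat_lit 0) (nat_lit 318249322872) (nat_lit 6) (nat_lit 5) (nat_lit 8) (nat_lit 4) (nat_lit 6) (nat_lit 4) (nat_lit 392) (nat_lit 326) (nat_lit 182)) (XT.lf (nat_lit 0) (nat_lit 2386488464) (nat_lit 836) (nat_lit 6949373802) (nat_lit 836) (nat_lit 6949373802) (nat_lit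 106) (nat_lit 3) (nat_lit 117) (nat_lit 3) (nat_lit 117) (nat_lit 5) (nat_lit 327) (nat_lit 327) (nat_lit 246)))) (XT.nd (nat_lit 156) (nat_lit 0) (nat_lit 76) (XT.nd (nat_lit 78) (nat_lit 0) (nat_lit 0) (XT.lf (nat_lit 0) (nat_lit 5331230874) (nat_lit 760) (nat_lit 22591409196) (nat_lit 836) (nat_lit 5932202541) (nat_lit 107) (nat_lit 5) (nat_lit 117) (nat_lit 5) (nat_lit 118) (nat_lit 5) (nat_lit 328) (nat_lit 327) (nat_lit 245)) (XT.lf (nat_lit 76) (nat_lit 3492350495) (nat_lit 0) (nat_lit 3047796514) (nat_lit 836) (nat_lit 28671523793) (nat_lit 108) (nat_lit 5) (nat_lit 107) (nat_lit 5) (nat_lit 118) (nat_lit 5) (nat_lit 329) (nat_lit 327) (nat_lit 244))) (XT.nd (nat_lit 78) (nat_lit 0) (nat_lit 76) (XT.lf (nat_lit 0) (nat_lit 8608834690) (nat_lit 760) (nat_lit 4572052925) (nat_lit 836) (nat_lit 23458012284) (nat_lit 108) (nat_lit 5) (nat_lit 118) (nat_lit 5) (nat_lit 119) (nat_lit 5)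 (nat_lit 330) (nat_lit 327) (nat_lit 243)) (XT.lf (nat_lit 0) (nat_lit 11506559619) (nat_lit 760) (nat_lit 12873799169) (nat_lit 836) (nat_lit 13766778431) (nat_lit 109) (nat_lit 5) (nat_lit 119) (nat_lit 5) (nat_lit 120) (nat_lit 5) (nat_lit 331) (nat_lit 327) (nat_lit 242))))))))
noncomputable def xc91 : XT := (XT.nd (nat_lit 1950) (nat_lit 2052) (nat_lit 0) (XT.nd (nat_lit 936) (nat_lit 2356) (nat_lit 0) (XT.nd (nat_lit 468) (nat_lit 1596) (nat_lit 0) (XT.nd (nat_lit 234) (nat_lit 760) (nat_lit 0) (XT.nd (nat_lit 78) (nat_lit 684) (nat_lit 0) (XT.lf (nat_lit 0) (nat_lit 15264110015) (nat_lit 760) (nat_lit 21541867126) (nat_lit 836) (nat_lit 2938662496) (nat_lit 110) (nat_lit 5) (nat_lit 120) (nat_lit 5) (nat_lit 121) (nat_lit 5) (nat_lit 332) (nat_lit 327) (nat_lit 241)) (XT.nd (nat_lit 78) (nat_lit 684) (nat_lit 0) (XT.lf (nat_lit 76) (nat_lit 10687956148) (nat_lit 0) (nat_lit 9433140602)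 (nat_lit 836) (nat_lit 21308909888) (nat_lit 111) (nat_lit 5) (nat_lit 110) (nat_lit 5) (nat_lit 121) (nat_lit 5) (nat_lit 333) (nat_lit 327) (nat_lit 240)) (XT.lf (nat_lit 0) (nat_lit 2797162371) (nat_lit 760) (nat_lit 23302216395) (nat_lit 836) (nat_lit 17114192977) (nat_lit 101) (nat_lit 5) (nat_lit 111) (nat_lit 5) (nat_lit 112) (nat_lit 5) (nat_lit 334) (nat_lit 327) (nat_lit 239)))) (XT.nd (nat_lit 78) (nat_lit 760) (nat_lit 0) (XT.lf (nat_lit 0) (nat_lit 33346408822) (nat_lit 836) (nat_lit 5262904447) (nat_lit 76) (nat_lit 6490989661) (nat_lit 101) (nat_lit 5) (nat_lit 112) (nat_lit 5) (nat_lit 102) (nat_lit 5) (nat_lit 335) (nat_lit 327) (nat_lit 238)) (XT.nd (nat_lit 78) (nat_lit 380) (nat_lit 0) (XT.lf (nat_lit 0) (nat_lit 33372556625) (nat_lit 380) (nat_lit 8708860579) (nat_lit 456) (nat_lit 5011149381) (nat_lit 96) (nat_lit 5) (nat_lit 101) (nat_lit 5) (nat_lit 102) (nat_lit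 5) (nat_lit 336) (nat_lit 327) (nat_lit 237)) (XT.lf (nat_lit 0) (nat_lit 3082638612) (nat_lit 380) (nat_lit 22729722385) (nat_lit 76) (nat_lit 23385866176) (nat_lit 91) (nat_lit 5) (nat_lit 96) (nat_lit 5) (nat_lit 92) (nat_lit 5) (nat_lit 337) (nat_lit 327) (nat_lit 236))))) (XT.nd (nat_lit 234) (nat_lit 608) (nat_lit 0) (XT.nd (nat_lit 78) (nat_lit 608) (nat_lit 0) (XT.lf (nat_lit 0) (nat_lit 12444661747) (nat_lit 456) (nat_lit 32264325905) (nat_lit 76) (nat_lit 6719434431) (nat_lit 86) (nat_lit 5) (nat_lit 92) (nat_lit 5) (nat_lit 87) (nat_lit 5) (nat_lit 338) (nat_lit 327) (nat_lit 235)) (XT.nd (nat_lit 78) (nat_lit 304) (nat_lit 0) (XT.lf (nat_lit 0) (nat_lit 11318890395) (nat_lit 304) (nat_lit 12246274093) (nat_lit 380) (nat_lit 30221395815) (nat_lit 82) (nat_lit 5) (nat_lit 86) (nat_lit 5) (nat_lit 87) (nat_lit 5) (nat_lit 339) (nat_lit 327) (nat_lit 234)) (XT.lf (nat_lit 0) (nat_lit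 2959502038) (nat_lit 304) (nat_lit 33584825755) (nat_lit 380) (nat_lit 19740574107) (nat_lit 78) (nat_lit 5) (nat_lit 82) (nat_lit 5) (nat_lit 83) (nat_lit 5) (nat_lit 340) (nat_lit 327) (nat_lit 233)))) (XT.nd (nat_lit 78) (nat_lit 608) (nat_lit 0) (XT.lf (nat_lit 0) (nat_lit 51528791696) (nat_lit 380) (nat_lit 5645793437) (nat_lit 76) (nat_lit 1760180406) (nat_lit 78) (nat_lit 5) (nat_lit 83) (nat_lit 5) (nat_lit 79) (nat_lit 5) (nat_lit 341) (nat_lit 327) (nat_lit 232)) (XT.nd (nat_lit 78) (nat_lit 304) (nat_lit 0) (XT.lf (nat_lit 0) (nat_lit 7039787093) (nat_lit 304) (nat_lit 15071655682) (nat_lit 76) (nat_lit 39614874313) (nat_lit 74) (nat_lit 5) (nat_lit 78) (nat_lit 5) (nat_lit 75) (nat_lit 5) (nat_lit 342) (nat_lit 327) (nat_lit 231)) (XT.lf (nat_lit 0) (nat_lit 23361669652) (nat_lit 380) (nat_lit 25213844941) (nat_lit 76) (nat_lit 16110613722) (nat_lit 70) (nat_lit 5) (nat_lit 75)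 (nat_lit 5) (nat_lit 71) (nat_lit 5) (nat_lit 343) (nat_lit 327) (nat_lit 230)))))) (XT.nd (nat_lit 468) (nat_lit 1140) (nat_lit 0) (XT.nd (nat_lit 234) (nat_lit 456) (nat_lit 0) (XT.nd (nat_lit 78) (nat_lit 532) (nat_lit 0) (XT.lf (nat_lit 0) (nat_lit 31680249697) (nat_lit 228) (nat_lit 10439670060) (nat_lit 304) (nat_lit 25706276171) (nat_lit 67) (nat_lit 5) (nat_lit 70) (nat_lit 5) (nat_lit 71) (nat_lit 5) (nat_lit 344) (nat_lit 327) (nat_lit 229)) (XT.nd (nat_lit 78) (nat_lit 304) (nat_lit 0) (XT.lf (nat_lit 0) (nat_lit 23077249645) (nat_lit 228) (nat_lit 40584835317) (nat_lit 304) (nat_lit 7491223398) (nat_lit 64) (nat_lit 5) (nat_lit 67) (nat_lit 5) (nat_lit 68) (nat_lit 5) (nat_lit 345) (nat_lit 327) (nat_lit 228)) (XT.lf (nat_lit 0) (nat_lit 12830533140) (nat_lit 304) (nat_lit 61028909152) (nat_lit 76) (nat_lit 825671964) (nat_lit 60) (nat_lit 5) (nat_lit 64) (nat_lit 5) (nat_lit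 61) (nat_lit 5) (nat_lit 346) (nat_lit 327) (nat_lit 227)))) (XT.nd (nat_lit 78) (nat_lit 228) (nat_lit 0) (XT.lf (nat_lit 0) (nat_lit 2848328221) (nat_lit 228) (nat_lit 33247528163) (nat_lit 304) (nat_lit 42318455550) (nat_lit 57) (nat_lit 5) (nat_lit 60) (nat_lit 5) (nat_lit 61) (nat_lit 5) (nat_lit 347) (nat_lit 327) (nat_lit 226)) (XT.nd (nat_lit 78) (nat_lit 228) (nat_lit 0) (XT.lf (nat_lit 0) (nat_lit 62465552540) (nat_lit 304) (nat_lit 8561378650) (nat_lit 76) (nat_lit 11352758519) (nat_lit 57) (nat_lit 5) (nat_lit 61) (nat_lit 5) (nat_lit 58) (nat_lit 5) (nat_lit 348) (nat_lit 327) (nat_lit 225)) (XT.lf (nat_lit 0) (nat_lit 5749074054) (nat_lit 228) (nat_lit 21346481509) (nat_lit 76) (nat_lit 59483219725) (nat_lit 54) (nat_lit 5) (nat_lit 57) (nat_lit 5) (nat_lit 55) (nat_lit 5) (nat_lit 349) (nat_lit 327) (nat_lit 224))))) (XT.nd (nat_lit 234) (nat_lit 532) (nat_lit 0) (XT.nd (nat_lit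 78) (nat_lit 380) (nat_lit 0) (XT.lf (nat_lit 0) (nat_lit 34133250902) (nat_lit 304) (nat_lit 35821240660) (nat_lit 76) (nat_lit 21074694269) (nat_lit 51) (nat_lit 5) (nat_lit 55) (nat_lit 5) (nat_lit 52) (nat_lit 5) (nat_lit 350) (nat_lit 327) (nat_lit 223)) (XT.nd (nat_lit 78) (nat_lit 228) (nat_lit 0) (XT.lf (nat_lit 0) (nat_lit 43765648659) (nat_lit 152) (nat_lit 22538014054) (nat_lit 228) (nat_lit 29456192701) (nat_lit 49) (nat_lit 5) (nat_lit 51) (nat_lit 5) (nat_lit 52) (nat_lit 5) (nat_lit 351) (nat_lit 327) (nat_lit 222)) (XT.lf (nat_lit 0) (nat_lit 1756917087) (nat_lit 228) (nat_lit 70138456784) (nat_lit 76) (nat_lit 28894270828) (nat_lit 46) (nat_lit 5) (nat_lit 49) (nat_lit 5) (nat_lit 47) (nat_lit 5) (nat_lit 352) (nat_lit 327) (nat_lit 221)))) (XT.nd (nat_lit 156) (nat_lit 380) (nat_lit 0) (XT.nd (nat_lit 78) (nat_lit 0) (nat_lit 0) (XT.lf (nat_lit 0) (nat_lit 15178682464)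 (nat_lit 152) (nat_lit 20805329449) (nat_lit 228) (nat_lit 70136214915) (nat_lit 44) (nat_lit 5) (nat_lit 46) (nat_lit 5) (nat_lit 47) (nat_lit 5) (nat_lit 353) (nat_lit 327) (nat_lit 220)) (XT.lf (nat_lit 0) (nat_lit 74725383753) (nat_lit 228) (nat_lit 2550889401) (nat_lit 76) (nat_lit 34512177838) (nat_lit 44) (nat_lit 5) (nat_lit 47) (nat_lit 5) (nat_lit 45) (nat_lit 5) (nat_lit 354) (nat_lit 327) (nat_lit 219))) (XT.nd (nat_lit 78) (nat_lit 152) (nat_lit 0) (XT.lf (nat_lit 0) (nat_lit 570647538) (nat_lit 228) (nat_lit 22210299891) (nat_lit 76) (nat_lit 95036650879) (nat_lit 41) (nat_lit 5) (nat_lit 44) (nat_lit 5) (nat_lit 42) (nat_lit 5) (nat_lit 355) (nat_lit 327) (nat_lit 218)) (XT.lf (nat_lit 0) (nat_lit 41809418358) (nat_lit 228) (nat_lit 45537241441) (nat_lit 76) (nat_lit 36857395402) (nat_lit 39) (nat_lit 5) (nat_lit 42) (nat_lit 5) (nat_lit 40) (nat_lit 5) (nat_lit 356) (nat_lit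 327) (nat_lit 217))))))) (XT.nd (nat_lit 936) (nat_lit 760) (nat_lit 0) (XT.nd (nat_lit 468) (nat_lit 532) (nat_lit 0) (XT.nd (nat_lit 234) (nat_lit 304) (nat_lit 0) (XT.nd (nat_lit 78) (nat_lit 304) (nat_lit 0) (XT.lf (nat_lit 0) (nat_lit 58813647884) (nat_lit 152) (nat_lit 29227245840) (nat_lit 228) (nat_lit 42975855484) (nat_lit 37) (nat_lit 5) (nat_lit 39) (nat_lit 5) (nat_lit 40) (nat_lit 5) (nat_lit 357) (nat_lit 327) (nat_lit 216)) (XT.nd (nat_lit 78) (nat_lit 152) (nat_lit 0) (XT.lf (nat_lit 0) (nat_lit 1520804568) (nat_lit 152) (nat_lit 102908136666) (nat_lit 76) (nat_lit 33850260200) (nat_lit 35) (nat_lit 5) (nat_lit 37) (nat_lit 5) (nat_lit 36) (nat_lit 5) (nat_lit 358) (nat_lit 327) (nat_lit 215)) (XT.lf (nat_lit 0) (nat_lit 7054170050) (nat_lit 152) (nat_lit 42916937209) (nat_lit 228) (nat_lit 96021338323) (nat_lit 33) (nat_lit 5) (nat_lit 35) (nat_lit 5) (nat_lit 36) (nat_lit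 5) (nat_lit 359) (nat_lit 327) (nat_lit 214)))) (XT.nd (nat_lit 78) (nat_lit 304) (nat_lit 0) (XT.lf (nat_lit 0) (nat_lit 104484768924) (nat_lit 228) (nat_lit 25144569328) (nat_lit 76) (nat_lit 24584044805) (nat_lit 33) (nat_lit 5) (nat_lit 36) (nat_lit 5) (nat_lit 34) (nat_lit 4) (nat_lit 360) (nat_lit 327) (nat_lit 213)) (XT.nd (nat_lit 78) (nat_lit 152) (nat_lit 0) (XT.lf (nat_lit 0) (nat_lit 2583386023) (nat_lit 152) (nat_lit 62785176411) (nat_lit 76) (nat_lit 97607003695) (nat_lit 31) (nat_lit 5) (nat_lit 33) (nat_lit 5) (nat_lit 32) (nat_lit 5) (nat_lit 361) (nat_lit 327) (nat_lit 212)) (XT.lf (nat_lit 0) (nat_lit 58924767738) (nat_lit 228) (nat_lit 107150541388) (nat_lit 76) (nat_lit 6243320499) (nat_lit 29) (nat_lit 5) (nat_lit 32) (nat_lit 5) (nat_lit 30) (nat_lit 4) (nat_lit 362) (nat_lit 327) (nat_lit 211))))) (XT.nd (nat_lit 234) (nat_lit 228) (nat_lit 0) (XT.nd (nat_lit 78)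 (nat_lit 228) (nat_lit 0) (XT.lf (nat_lit 0) (nat_lit 22853684629) (nat_lit 76) (nat_lit 99488871794) (nat_lit 152) (nat_lit 59938127360) (nat_lit 28) (nat_lit 5) (nat_lit 29) (nat_lit 5) (nat_lit 30) (nat_lit 4) (nat_lit 363) (nat_lit 327) (nat_lit 210)) (XT.nd (nat_lit 78) (nat_lit 228) (nat_lit 0) (XT.lf (nat_lit 0) (nat_lit 167081870575) (nat_lit 76) (nat_lit 25616910605) (nat_lit 152) (nat_lit 247670822) (nat_lit 28) (nat_lit 5) (nat_lit 29) (nat_lit 5) (nat_lit 30) (nat_lit 4) (nat_lit 364) (nat_lit 327) (nat_lit 209)) (XT.lf (nat_lit 0) (nat_lit 64947558137) (nat_lit 228) (nat_lit 83955174350) (nat_lit 76) (nat_lit 55373372670) (nat_lit 25) (nat_lit 5) (nat_lit 28) (nat_lit 5) (nat_lit 26) (nat_lit 4) (nat_lit 365) (nat_lit 327) (nat_lit 208)))) (XT.nd (nat_lit 78) (nat_lit 152) (nat_lit 0) (XT.lf (nat_lit 0) (nat_lit 64245569990) (nat_lit 76) (nat_lit 72995860559) (nat_lit 152) (nat_lit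 79175912197) (nat_lit 24) (nat_lit 5) (nat_lit 25) (nat_lit 5) (nat_lit 26) (nat_lit 4) (nat_lit 366) (nat_lit 327) (nat_lit 207)) (XT.nd (nat_lit 78) (nat_lit 152) (nat_lit 0) (XT.lf (nat_lit 0) (nat_lit 216944191238) (nat_lit 152) (nat_lit 2323019895) (nat_lit 0) (nat_lit 10181399569) (nat_lit 24) (nat_lit 5) (nat_lit 26) (nat_lit 4) (nat_lit 24) (nat_lit 4) (nat_lit 367) (nat_lit 327) (nat_lit 206)) (XT.lf (nat_lit 0) (nat_lit 61440956926) (nat_lit 152) (nat_lit 80810213229) (nat_lit 76) (nat_lit 101032533423) (nat_lit 22) (nat_lit 5) (nat_lit 24) (nat_lit 5) (nat_lit 23) (nat_lit 4) (nat_lit 368) (nat_lit 327) (nat_lit 205)))))) (XT.nd (nat_lit 468) (nat_lit 380) (nat_lit 0) (XT.nd (nat_lit 234) (nat_lit 152) (nat_lit 0) (XT.nd (nat_lit 78) (nat_lit 152) (nat_lit 0) (XT.lf (nat_lit 0) (nat_lit 84813983060) (nat_lit 76) (nat_lit 57419889516) (nat_lit 152) (nat_lit 115912981858) (nat_lit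 21) (nat_lit 5) (nat_lit 22) (nat_lit 5) (nat_lit 23) (nat_lit 4) (nat_lit 369) (nat_lit 327) (nat_lit 204)) (XT.nd (nat_lit 78) (nat_lit 152) (nat_lit 0) (XT.lf (nat_lit 0) (nat_lit 231453756743) (nat_lit 152) (nat_lit 8113978415) (nat_lit 0) (nat_lit 34533145653) (nat_lit 21) (nat_lit 5) (nat_lit 23) (nat_lit 4) (nat_lit 21) (nat_lit 4) (nat_lit 370) (nat_lit 327) (nat_lit 203)) (XT.lf (nat_lit 0) (nat_lit 39071695681) (nat_lit 152) (nat_lit 116824680728) (nat_lit 76) (nat_lit 135218411261) (nat_lit 19) (nat_lit 5) (nat_lit 21) (nat_lit 5) (nat_lit 20) (nat_lit 4) (nat_lit 371) (nat_lit 327) (nat_lit 202)))) (XT.nd (nat_lit 78) (nat_lit 76) (nat_lit 0) (XT.lf (nat_lit 0) (nat_lit 63399361375) (nat_lit 76) (nat_lit 63586973537) (nat_lit 152) (nat_lit 182410892613) (nat_lit 18) (nat_lit 5) (nat_lit 19) (nat_lit 5) (nat_lit 20) (nat_lit 4) (nat_lit 372) (nat_lit 327) (nat_lit 201)) (XT.nd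 (nat_lit 78) (nat_lit 76) (nat_lit 0) (XT.lf (nat_lit 0) (nat_lit 224565271006) (nat_lit 152) (nat_lit 67426375659) (nat_lit 0) (nat_lit 37019059778) (nat_lit 18) (nat_lit 5) (nat_lit 20) (nat_lit 4) (nat_lit 18) (nat_lit 4) (nat_lit 373) (nat_lit 327) (nat_lit 200)) (XT.lf (nat_lit 0) (nat_lit 128468713982) (nat_lit 76) (nat_lit 204558849813) (nat_lit 76) (nat_lit 17011847939) (nat_lit 17) (nat_lit 4) (nat_lit 18) (nat_lit 5) (nat_lit 18) (nat_lit 4) (nat_lit 374) (nat_lit 327) (nat_lit 199))))) (XT.nd (nat_lit 234) (nat_lit 228) (nat_lit 0) (XT.nd (nat_lit 78) (nat_lit 76) (nat_lit 0) (XT.lf (nat_lit 0) (nat_lit 76131515576) (nat_lit 152) (nat_lit 31478127021) (nat_lit 76) (nat_lit 265020691707) (nat_lit 16) (nat_lit 5) (nat_lit 18) (nat_lit 5) (nat_lit 17) (nat_lit 4) (nat_lit 375) (nat_lit 327) (nat_lit 198)) (XT.nd (nat_lit 78) (nat_lit 0) (nat_lit 0) (XT.lf (nat_lit 0) (nat_lit 178941642868)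 (nat_lit 152) (nat_lit 217608270634) (nat_lit 0) (nat_lit 324107814) (nat_lit 15) (nat_lit 5) (nat_lit 17) (nat_lit 4) (nat_lit 15) (nat_lit 4) (nat_lit 376) (nat_lit 327) (nat_lit 197)) (XT.lf (nat_lit 0) (nat_lit 292347604027) (nat_lit 152) (nat_lit 16861576971) (nat_lit 0) (nat_lit 113729471220) (nat_lit 15) (nat_lit 5) (nat_lit 17) (nat_lit 4) (nat_lit 15) (nat_lit 4) (nat_lit 377) (nat_lit 327) (nat_lit 196)))) (XT.nd (nat_lit 156) (nat_lit 76) (nat_lit 0) (XT.nd (nat_lit 78) (nat_lit 76) (nat_lit 0) (XT.lf (nat_lit 0) (nat_lit 206554479619) (nat_lit 76) (nat_lit 211495726089) (nat_lit 76) (nat_lit 32877039808) (nat_lit 14) (nat_lit 4) (nat_lit 15) (nat_lit 5) (nat_lit 15) (nat_lit 4) (nat_lit 378) (nat_lit 327) (nat_lit 195)) (XT.lf (nat_lit 0) (nat_lit 70626528428) (nat_lit 152) (nat_lit 33834815480) (nat_lit 76) (nat_lit 376621974575) (nat_lit 13) (nat_lit 5) (nat_lit 15) (nat_lit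 5) (nat_lit 14) (nat_lit 4) (nat_lit 379) (nat_lit 327) (nat_lit 194))) (XT.nd (nat_lit 78) (nat_lit 0) (nat_lit 0) (XT.lf (nat_lit 0) (nat_lit 184619991958) (nat_lit 152) (nat_lit 314330846553) (nat_lit 0) (nat_lit 14506017411) (nat_lit 12) (nat_lit 5) (nat_lit 14) (nat_lit 4) (nat_lit 12) (nat_lit 4) (nat_lit 380) (nat_lit 327) (nat_lit 193)) (XT.lf (nat_lit 0) (nat_lit 310092748316) (nat_lit 152) (nat_lit 98231182007) (nat_lit 0) (nat_lit 139978355325) (nat_lit 12) (nat_lit 5) (nat_lit 14) (nat_lit 4) (nat_lit 12) (nat_lit 4) (nat_lit 381) (nat_lit 327) (nat_lit 192))))))))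
noncomputable def xc92 : XT := (XT.nd (nat_lit 43680) (nat_lit 0) (nat_lit 1672) (XT.nd (nat_lit 42744) (nat_lit 0) (nat_lit 5776) (XT.nd (nat_lit 468) (nat_lit 152) (nat_lit 0) (XT.nd (nat_lit 234) (nat_lit 76) (nat_lit 0) (XT.nd (nat_lit 78) (nat_lit 152) (nat_lit 0) (XT.lf (nat_lit 0) (nat_lit 139624157967) (nat_lit 76) (nat_lit 308158502760) (nat_lit 76) (nat_lit 138043722321) (nat_lit 11) (nat_lit 4) (nat_lit 12) (nat_lit 5) (nat_lit 12) (nat_lit 4) (nat_lit 382) (nat_lit 327) (nat_lit 191)) (XT.nd (nat_lit 78) (nat_lit 152) (nat_lit 0) (XT.lf (nat_lit 0) (nat_lit 400014635863) (nat_lit 76) (nat_lit 198183691778) (nat_lit 76) (nat_lit 28068552591) (nat_lit 11) (nat_lit 4) (nat_lit 12) (nat_lit 5) (nat_lit 12) (nat_lit 4) (nat_lit 383) (nat_lit 327) (nat_lit 190)) (XT.lf (nat_lit 0) (nat_lit 10203115028) (nat_lit 76) (nat_lit 77757171015) (nat_lit 152) (nat_lit 581903585036) (nat_lit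 9) (nat_lit 5) (nat_lit 10) (nat_lit 5) (nat_lit 11) (nat_lit 4) (nat_lit 384) (nat_lit 327) (nat_lit 189)))) (XT.nd (nat_lit 78) (nat_lit 76) (nat_lit 0) (XT.lf (nat_lit 0) (nat_lit 217123061578) (nat_lit 152) (nat_lit 444452767877) (nat_lit 0) (nat_lit 55108034025) (nat_lit 9) (nat_lit 5) (nat_lit 11) (nat_lit 4) (nat_lit 9) (nat_lit 4) (nat_lit 385) (nat_lit 327) (nat_lit 188)) (XT.nd (nat_lit 78) (nat_lit 76) (nat_lit 0) (XT.lf (nat_lit 0) (nat_lit 357929512181) (nat_lit 152) (nat_lit 213340197089) (nat_lit 0) (nat_lit 195914213404) (nat_lit 9) (nat_lit 5) (nat_lit 11) (nat_lit 4) (nat_lit 9) (nat_lit 4) (nat_lit 386) (nat_lit 327) (nat_lit 187)) (XT.lf (nat_lit 0) (nat_lit 37459456179) (nat_lit 76) (nat_lit 473125430007) (nat_lit 76) (nat_lit 311109880096) (nat_lit 8) (nat_lit 4) (nat_lit 9) (nat_lit 5) (nat_lit 9) (nat_lit 4) (nat_lit 387) (nat_lit 327) (nat_lit 186))))) (XT.nd (nat_lit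 234) (nat_lit 76) (nat_lit 0) (XT.nd (nat_lit 78) (nat_lit 76) (nat_lit 0) (XT.lf (nat_lit 0) (nat_lit 315940568969) (nat_lit 76) (nat_lit 363227949734) (nat_lit 76) (nat_lit 201212167291) (nat_lit 8) (nat_lit 4) (nat_lit 9) (nat_lit 5) (nat_lit 9) (nat_lit 4) (nat_lit 388) (nat_lit 327) (nat_lit 185)) (XT.nd (nat_lit 78) (nat_lit 76) (nat_lit 0) (XT.lf (nat_lit 0) (nat_lit 616699409341) (nat_lit 76) (nat_lit 244539043588) (nat_lit 76) (nat_lit 82523045838) (nat_lit 8) (nat_lit 4) (nat_lit 9) (nat_lit 5) (nat_lit 9) (nat_lit 4) (nat_lit 389) (nat_lit 327) (nat_lit 184)) (XT.lf (nat_lit 0) (nat_lit 44199395574) (nat_lit 152) (nat_lit 71407436180) (nat_lit 76) (nat_lit 896570318178) (nat_lit 7) (nat_lit 5) (nat_lit 9) (nat_lit 5) (nat_lit 8) (nat_lit 4) (nat_lit 390) (nat_lit 327) (nat_lit 183)))) (XT.nd (nat_lit 78) (nat_lit 0) (nat_lit 0) (XT.lf (nat_lit 0) (nat_lit 181931541319) (nat_lit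 152) (nat_lit 876248488920) (nat_lit 0) (nat_lit 27630225415) (nat_lit 6) (nat_lit 5) (nat_lit 8) (nat_lit 4) (nat_lit 6) (nat_lit 4) (nat_lit 391) (nat_lit 327) (nat_lit 182)) (XT.nd (nat_lit 41886) (nat_lit 0) (nat_lit 7600) (XT.lf (nat_lit 0) (nat_lit 333895535303) (nat_lit 152) (nat_lit 651683754112) (nat_lit 0) (nat_lit 179594056620) (nat_lit 6) (nat_lit 5) (nat_lit 8) (nat_lit 4) (nat_lit 6) (nat_lit 4) (nat_lit 392) (nat_lit 327) (nat_lit 181)) (XT.lf (nat_lit 0) (nat_lit 2669373147) (nat_lit 836) (nat_lit 7457001911) (nat_lit 836) (nat_lit 7457001911) (nat_lit 106) (nat_lit 3) (nat_lit 117) (nat_lit 3) (nat_lit 117) (nat_lit 5) (nat_lit 328) (nat_lit 328) (nat_lit 244)))))) (XT.nd (nat_lit 468) (nat_lit 1900) (nat_lit 0) (XT.nd (nat_lit 234) (nat_lit 0) (nat_lit 152) (XT.nd (nat_lit 78) (nat_lit 0) (nat_lit 0) (XT.lf (nat_lit 0) (nat_lit 5928241131) (nat_lit 760) (nat_lit 24296305064)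 (nat_lit 836) (nat_lit 6330010639) (nat_lit 107) (nat_lit 5) (nat_lit 117) (nat_lit 5) (nat_lit 118) (nat_lit 5) (nat_lit 329) (nat_lit 328) (nat_lit 243)) (XT.nd (nat_lit 78) (nat_lit 0) (nat_lit 76) (XT.lf (nat_lit 76) (nat_lit 3869704490) (nat_lit 0) (nat_lit 3353065087) (nat_lit 836) (nat_lit 30797727685) (nat_lit 108) (nat_lit 5) (nat_lit 107) (nat_lit 5) (nat_lit 118) (nat_lit 5) (nat_lit 330) (nat_lit 328) (nat_lit 242)) (XT.lf (nat_lit 0) (nat_lit 9444255800) (nat_lit 760) (nat_lit 4838713005) (nat_lit 836) (nat_lit 25279580830) (nat_lit 108) (nat_lit 5) (nat_lit 118) (nat_lit 5) (nat_lit 119) (nat_lit 5) (nat_lit 331) (nat_lit 328) (nat_lit 241)))) (XT.nd (nat_lit 78) (nat_lit 0) (nat_lit 76) (XT.lf (nat_lit 0) (nat_lit 12563747040) (nat_lit 760) (nat_lit 13801258390) (nat_lit 836) (nat_lit 14826952467) (nat_lit 109) (nat_lit 5) (nat_lit 119) (nat_lit 5) (nat_lit 120) (nat_lit 5)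 (nat_lit 332) (nat_lit 328) (nat_lit 240)) (XT.nd (nat_lit 78) (nat_lit 0) (nat_lit 0) (XT.lf (nat_lit 0) (nat_lit 16612838664) (nat_lit 760) (nat_lit 23160242362) (nat_lit 836) (nat_lit 3144641301) (nat_lit 110) (nat_lit 5) (nat_lit 120) (nat_lit 5) (nat_lit 121) (nat_lit 5) (nat_lit 333) (nat_lit 328) (nat_lit 239)) (XT.lf (nat_lit 76) (nat_lit 11643404726) (nat_lit 0) (nat_lit 10207095485) (nat_lit 836) (nat_lit 22887820720) (nat_lit 111) (nat_lit 5) (nat_lit 110) (nat_lit 5) (nat_lit 121) (nat_lit 5) (nat_lit 334) (nat_lit 328) (nat_lit 238))))) (XT.nd (nat_lit 234) (nat_lit 1064) (nat_lit 0) (XT.nd (nat_lit 78) (nat_lit 380) (nat_lit 0) (XT.lf (nat_lit 0) (nat_lit 3123093684) (nat_lit 760) (nat_lit 25176399192) (nat_lit 836) (nat_lit 18365463404) (nat_lit 101) (nat_lit 5) (nat_lit 111) (nat_lit 5) (nat_lit 112) (nat_lit 5) (nat_lit 335) (nat_lit 328) (nat_lit 237)) (XT.nd (nat_lit 78)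 (nat_lit 380) (nat_lit 0) (XT.lf (nat_lit 0) (nat_lit 36117832264) (nat_lit 836) (nat_lit 5583922230) (nat_lit 76) (nat_lit 7001301012) (nat_lit 101) (nat_lit 5) (nat_lit 112) (nat_lit 5) (nat_lit 102) (nat_lit 5) (nat_lit 336) (nat_lit 328) (nat_lit 236)) (XT.lf (nat_lit 0) (nat_lit 36138029217) (nat_lit 380) (nat_lit 9407423470) (nat_lit 456) (nat_lit 5309563378) (nat_lit 96) (nat_lit 5) (nat_lit 101) (nat_lit 5) (nat_lit 102) (nat_lit 5) (nat_lit 337) (nat_lit 328) (nat_lit 235)))) (XT.nd (nat_lit 78) (nat_lit 684) (nat_lit 0) (XT.lf (nat_lit 0) (nat_lit 3422600298) (nat_lit 380) (nat_lit 24448664659) (nat_lit 76) (nat_lit 25258082541) (nat_lit 91) (nat_lit 5) (nat_lit 96) (nat_lit 5) (nat_lit 92) (nat_lit 5) (nat_lit 338) (nat_lit 328) (nat_lit 234)) (XT.nd (nat_lit 78) (nat_lit 304) (nat_lit 0) (XT.lf (nat_lit 0) (nat_lit 13528267733) (nat_lit 456) (nat_lit 34746008970) (nat_lit 76)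 (nat_lit 7263952385) (nat_lit 86) (nat_lit 5) (nat_lit 92) (nat_lit 5) (nat_lit 87) (nat_lit 5) (nat_lit 339) (nat_lit 328) (nat_lit 233)) (XT.lf (nat_lit 0) (nat_lit 12319542093) (nat_lit 304) (nat_lit 13213833043) (nat_lit 380) (nat_lit 32551899829) (nat_lit 82) (nat_lit 5) (nat_lit 86) (nat_lit 5) (nat_lit 87) (nat_lit 5) (nat_lit 340) (nat_lit 328) (nat_lit 232))))))) (XT.nd (nat_lit 936) (nat_lit 1596) (nat_lit 0) (XT.nd (nat_lit 468) (nat_lit 1140) (nat_lit 0) (XT.nd (nat_lit 234) (nat_lit 760) (nat_lit 0) (XT.nd (nat_lit 78) (nat_lit 304) (nat_lit 0) (XT.lf (nat_lit 0) (nat_lit 3291113826) (nat_lit 304) (nat_lit 36255266160) (nat_lit 380) (nat_lit 21237332946) (nat_lit 78) (nat_lit 5) (nat_lit 82) (nat_lit 5) (nat_lit 83) (nat_lit 5) (nat_lit 341) (nat_lit 328) (nat_lit 231)) (XT.nd (nat_lit 78) (nat_lit 304) (nat_lit 0) (XT.lf (nat_lit 0) (nat_lit 55724022041) (nat_lit 380) (nat_lit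 6006181408) (nat_lit 76) (nat_lit 1915645295) (nat_lit 78) (nat_lit 5) (nat_lit 83) (nat_lit 5) (nat_lit 79) (nat_lit 5) (nat_lit 342) (nat_lit 328) (nat_lit 230)) (XT.lf (nat_lit 0) (nat_lit 7673033845) (nat_lit 304) (nat_lit 16187717151) (nat_lit 76) (nat_lit 42800122691) (nat_lit 74) (nat_lit 5) (nat_lit 78) (nat_lit 5) (nat_lit 75) (nat_lit 5) (nat_lit 343) (nat_lit 328) (nat_lit 229)))) (XT.nd (nat_lit 78) (nat_lit 456) (nat_lit 0) (XT.lf (nat_lit 0) (nat_lit 25297121672) (nat_lit 380) (nat_lit 27142131088) (nat_lit 76) (nat_lit 17418397695) (nat_lit 70) (nat_lit 5) (nat_lit 75) (nat_lit 5) (nat_lit 71) (nat_lit 5) (nat_lit 344) (nat_lit 328) (nat_lit 228)) (XT.nd (nat_lit 78) (nat_lit 228) (nat_lit 0) (XT.lf (nat_lit 0) (nat_lit 34299631049) (nat_lit 228) (nat_lit 11252799930) (nat_lit 304) (nat_lit 27696675665) (nat_lit 67) (nat_lit 5) (nat_lit 70) (nat_lit 5) (nat_lit 71) (nat_lit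 5) (nat_lit 345) (nat_lit 328) (nat_lit 227)) (XT.lf (nat_lit 0) (nat_lit 25007416012) (nat_lit 228) (nat_lit 43807522756) (nat_lit 304) (nat_lit 8027603729) (nat_lit 64) (nat_lit 5) (nat_lit 67) (nat_lit 5) (nat_lit 68) (nat_lit 5) (nat_lit 346) (nat_lit 328) (nat_lit 226))))) (XT.nd (nat_lit 234) (nat_lit 608) (nat_lit 0) (XT.nd (nat_lit 78) (nat_lit 228) (nat_lit 0) (XT.lf (nat_lit 0) (nat_lit 13915037414) (nat_lit 304) (nat_lit 65826394827) (nat_lit 76) (nat_lit 915556167) (nat_lit 60) (nat_lit 5) (nat_lit 64) (nat_lit 5) (nat_lit 61) (nat_lit 5) (nat_lit 347) (nat_lit 328) (nat_lit 225)) (XT.nd (nat_lit 78) (nat_lit 0) (nat_lit 0) (XT.lf (nat_lit 0) (nat_lit 3157335055) (nat_lit 228) (nat_lit 35881217433) (nat_lit 304) (nat_lit 45646123478) (nat_lit 57) (nat_lit 5) (nat_lit 60) (nat_lit 5) (nat_lit 61) (nat_lit 5) (nat_lit 348) (nat_lit 328) (nat_lit 224)) (XT.lf (nat_lit 0) (nat_lit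 67514125716) (nat_lit 304) (nat_lit 9168961347) (nat_lit 76) (nat_lit 12284384020) (nat_lit 57) (nat_lit 5) (nat_lit 61) (nat_lit 5) (nat_lit 58) (nat_lit 5) (nat_lit 349) (nat_lit 328) (nat_lit 223)))) (XT.nd (nat_lit 78) (nat_lit 380) (nat_lit 0) (XT.lf (nat_lit 0) (nat_lit 6258504216) (nat_lit 228) (nat_lit 22978572042) (nat_lit 76) (nat_lit 64265501720) (nat_lit 54) (nat_lit 5) (nat_lit 57) (nat_lit 5) (nat_lit 55) (nat_lit 5) (nat_lit 350) (nat_lit 328) (nat_lit 222)) (XT.nd (nat_lit 78) (nat_lit 152) (nat_lit 0) (XT.lf (nat_lit 0) (nat_lit 36911273850) (nat_lit 304) (nat_lit 38612624123) (nat_lit 76) (nat_lit 22785232246) (nat_lit 51) (nat_lit 5) (nat_lit 55) (nat_lit 5) (nat_lit 52) (nat_lit 5) (nat_lit 351) (nat_lit 328) (nat_lit 221)) (XT.lf (nat_lit 0) (nat_lit 47337986668) (nat_lit 152) (nat_lit 24314933429) (nat_lit 228) (nat_lit 31765454850) (nat_lit 49) (nat_lit 5) (nat_lit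 51) (nat_lit 5) (nat_lit 52) (nat_lit 5) (nat_lit 352) (nat_lit 328) (nat_lit 220)))))) (XT.nd (nat_lit 468) (nat_lit 684) (nat_lit 0) (XT.nd (nat_lit 234) (nat_lit 532) (nat_lit 0) (XT.nd (nat_lit 78) (nat_lit 152) (nat_lit 0) (XT.lf (nat_lit 0) (nat_lit 1941296271) (nat_lit 228) (nat_lit 75678289023) (nat_lit 76) (nat_lit 31231021453) (nat_lit 46) (nat_lit 5) (nat_lit 49) (nat_lit 5) (nat_lit 47) (nat_lit 5) (nat_lit 353) (nat_lit 328) (nat_lit 219)) (XT.nd (nat_lit 78) (nat_lit 0) (nat_lit 0) (XT.lf (nat_lit 0) (nat_lit 16461125174) (nat_lit 152) (nat_lit 22443251135) (nat_lit 228) (nat_lit 75703369606) (nat_lit 44) (nat_lit 5) (nat_lit 46) (nat_lit 5) (nat_lit 47) (nat_lit 5) (nat_lit 354) (nat_lit 328) (nat_lit 218)) (XT.lf (nat_lit 0) (nat_lit 80742356356) (nat_lit 228) (nat_lit 2690300035) (nat_lit 76) (nat_lit 37296907949) (nat_lit 44) (nat_lit 5) (nat_lit 47) (nat_lit 5) (nat_lit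 45) (nat_lit 5) (nat_lit 355) (nat_lit 328) (nat_lit 217)))) (XT.nd (nat_lit 78) (nat_lit 304) (nat_lit 0) (XT.lf (nat_lit 0) (nat_lit 653943266) (nat_lit 228) (nat_lit 23924014965) (nat_lit 76) (nat_lit 102663151958) (nat_lit 41) (nat_lit 5) (nat_lit 44) (nat_lit 5) (nat_lit 42) (nat_lit 5) (nat_lit 356) (nat_lit 328) (nat_lit 216)) (XT.nd (nat_lit 78) (nat_lit 152) (nat_lit 0) (XT.lf (nat_lit 0) (nat_lit 45190353379) (nat_lit 228) (nat_lit 49118435391) (nat_lit 76) (nat_lit 39829769003) (nat_lit 39) (nat_lit 5) (nat_lit 42) (nat_lit 5) (nat_lit 40) (nat_lit 5) (nat_lit 357) (nat_lit 328) (nat_lit 215)) (XT.lf (nat_lit 0) (nat_lit 63577839964) (nat_lit 152) (nat_lit 31540749417) (nat_lit 228) (nat_lit 46377766735) (nat_lit 37) (nat_lit 5) (nat_lit 39) (nat_lit 5) (nat_lit 40) (nat_lit 5) (nat_lit 358) (nat_lit 328) (nat_lit 214))))) (XT.nd (nat_lit 234) (nat_lit 380) (nat_lit 0) (XT.nd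 (nat_lit 78) (nat_lit 152) (nat_lit 0) (XT.lf (nat_lit 0) (nat_lit 1676156397) (nat_lit 152) (nat_lit 111081842298) (nat_lit 76) (nat_lit 36581844056) (nat_lit 35) (nat_lit 5) (nat_lit 37) (nat_lit 5) (nat_lit 36) (nat_lit 5) (nat_lit 359) (nat_lit 328) (nat_lit 213)) (XT.nd (nat_lit 78) (nat_lit 0) (nat_lit 0) (XT.lf (nat_lit 0) (nat_lit 7674887265) (nat_lit 152) (nat_lit 46325980977) (nat_lit 228) (nat_lit 103669359714) (nat_lit 33) (nat_lit 5) (nat_lit 35) (nat_lit 5) (nat_lit 36) (nat_lit 5) (nat_lit 360) (nat_lit 328) (nat_lit 212)) (XT.lf (nat_lit 0) (nat_lit 112873598557) (nat_lit 228) (nat_lit 27102785507) (nat_lit 76) (nat_lit 26572558295) (nat_lit 33) (nat_lit 5) (nat_lit 36) (nat_lit 5) (nat_lit 34) (nat_lit 4) (nat_lit 361) (nat_lit 328) (nat_lit 211)))) (XT.nd (nat_lit 156) (nat_lit 76) (nat_lit 0) (XT.nd (nat_lit 78) (nat_lit 152) (nat_lit 0) (XT.lf (nat_lit 0) (nat_lit 2819153147)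 (nat_lit 152) (nat_lit 67755989721) (nat_lit 76) (nat_lit 105437005857) (nat_lit 31) (nat_lit 5) (nat_lit 33) (nat_lit 5) (nat_lit 32) (nat_lit 5) (nat_lit 362) (nat_lit 328) (nat_lit 210)) (XT.lf (nat_lit 0) (nat_lit 63666810564) (nat_lit 228) (nat_lit 115671794458) (nat_lit 76) (nat_lit 6764104605) (nat_lit 29) (nat_lit 5) (nat_lit 32) (nat_lit 5) (nat_lit 30) (nat_lit 4) (nat_lit 363) (nat_lit 328) (nat_lit 209))) (XT.nd (nat_lit 78) (nat_lit 0) (nat_lit 0) (XT.lf (nat_lit 0) (nat_lit 24730562358) (nat_lit 76) (nat_lit 107426139880) (nat_lit 152) (nat_lit 64705092427) (nat_lit 28) (nat_lit 5) (nat_lit 29) (nat_lit 5) (nat_lit 30) (nat_lit 4) (nat_lit 364) (nat_lit 328) (nat_lit 208)) (XT.lf (nat_lit 0) (nat_lit 180493404441) (nat_lit 76) (nat_lit 27646039695) (nat_lit 152) (nat_lit 241479745) (nat_lit 28) (nat_lit 5) (nat_lit 29) (nat_lit 5) (nat_lit 30) (nat_lit 4) (nat_lit 365) (nat_lit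 328) (nat_lit 207))))))))
noncomputable def xc93 : XT := (XT.nd (nat_lit 1950) (nat_lit 152) (nat_lit 0) (XT.nd (nat_lit 936) (nat_lit 532) (nat_lit 0) (XT.nd (nat_lit 468) (nat_lit 456) (nat_lit 0) (XT.nd (nat_lit 234) (nat_lit 228) (nat_lit 0) (XT.nd (nat_lit 78) (nat_lit 76) (nat_lit 0) (XT.lf (nat_lit 0) (nat_lit 70167664660) (nat_lit 228) (nat_lit 90626861813) (nat_lit 76) (nat_lit 59822446486) (nat_lit 25) (nat_lit 5) (nat_lit 28) (nat_lit 5) (nat_lit 26) (nat_lit 4) (nat_lit 366) (nat_lit 328) (nat_lit 206)) (XT.nd (nat_lit 78) (nat_lit 0) (nat_lit 0) (XT.lf (nat_lit 0) (nat_lit 69427998316) (nat_lit 76) (nat_lit 78815916369) (nat_lit 152) (nat_lit 85485651889) (nat_lit 24) (nat_lit 5) (nat_lit 25) (nat_lit 5) (nat_lit 26) (nat_lit 4) (nat_lit 367) (nat_lit 328) (nat_lit 205)) (XT.lf (nat_lit 0) (nat_lit 234321463487) (nat_lit 152) (nat_lit 2468453982) (nat_lit 0) (nat_lit 11013490511)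 (nat_lit 24) (nat_lit 5) (nat_lit 26) (nat_lit 4) (nat_lit 24) (nat_lit 4) (nat_lit 368) (nat_lit 328) (nat_lit 204)))) (XT.nd (nat_lit 78) (nat_lit 76) (nat_lit 0) (XT.lf (nat_lit 0) (nat_lit 66377307823) (nat_lit 152) (nat_lit 87235677859) (nat_lit 76) (nat_lit 109132356293) (nat_lit 22) (nat_lit 5) (nat_lit 24) (nat_lit 5) (nat_lit 23) (nat_lit 4) (nat_lit 369) (nat_lit 328) (nat_lit 203)) (XT.nd (nat_lit 78) (nat_lit 0) (nat_lit 0) (XT.lf (nat_lit 0) (nat_lit 91636743924) (nat_lit 76) (nat_lit 61995939440) (nat_lit 152) (nat_lit 125164910515) (nat_lit 21) (nat_lit 5) (nat_lit 22) (nat_lit 5) (nat_lit 23) (nat_lit 4) (nat_lit 370) (nat_lit 328) (nat_lit 202)) (XT.lf (nat_lit 0) (nat_lit 249988922883) (nat_lit 152) (nat_lit 8727562187) (nat_lit 0) (nat_lit 37311519350) (nat_lit 21) (nat_lit 5) (nat_lit 23) (nat_lit 4) (nat_lit 21) (nat_lit 4) (nat_lit 371) (nat_lit 328) (nat_lit 201)))))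 (XT.nd (nat_lit 234) (nat_lit 228) (nat_lit 0) (XT.nd (nat_lit 78) (nat_lit 76) (nat_lit 0) (XT.lf (nat_lit 0) (nat_lit 42215728435) (nat_lit 152) (nat_lit 126136056833) (nat_lit 76) (nat_lit 146051267408) (nat_lit 19) (nat_lit 5) (nat_lit 21) (nat_lit 5) (nat_lit 20) (nat_lit 4) (nat_lit 372) (nat_lit 328) (nat_lit 200)) (XT.nd (nat_lit 78) (nat_lit 0) (nat_lit 0) (XT.lf (nat_lit 0) (nat_lit 68504405037) (nat_lit 76) (nat_lit 68658295129) (nat_lit 152) (nat_lit 196985429719) (nat_lit 18) (nat_lit 5) (nat_lit 19) (nat_lit 5) (nat_lit 20) (nat_lit 4) (nat_lit 373) (nat_lit 328) (nat_lit 199)) (XT.lf (nat_lit 0) (nat_lit 242546883971) (nat_lit 152) (nat_lit 72789257501) (nat_lit 0) (nat_lit 39994599220) (nat_lit 18) (nat_lit 5) (nat_lit 20) (nat_lit 4) (nat_lit 18) (nat_lit 4) (nat_lit 374) (nat_lit 328) (nat_lit 198)))) (XT.nd (nat_lit 78) (nat_lit 152) (nat_lit 0) (XT.lf (nat_lit 0) (nat_lit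 138776082172) (nat_lit 76) (nat_lit 220909330213) (nat_lit 76) (nat_lit 18356367611) (nat_lit 17) (nat_lit 4) (nat_lit 18) (nat_lit 5) (nat_lit 18) (nat_lit 4) (nat_lit 375) (nat_lit 328) (nat_lit 197)) (XT.nd (nat_lit 78) (nat_lit 76) (nat_lit 0) (XT.lf (nat_lit 0) (nat_lit 82236761230) (nat_lit 152) (nat_lit 33968229721) (nat_lit 76) (nat_lit 286235031671) (nat_lit 16) (nat_lit 5) (nat_lit 18) (nat_lit 5) (nat_lit 17) (nat_lit 4) (nat_lit 376) (nat_lit 328) (nat_lit 196)) (XT.lf (nat_lit 0) (nat_lit 193271229309) (nat_lit 152) (nat_lit 234989504269) (nat_lit 0) (nat_lit 362494650) (nat_lit 15) (nat_lit 5) (nat_lit 17) (nat_lit 4) (nat_lit 15) (nat_lit 4) (nat_lit 377) (nat_lit 328) (nat_lit 195)))))) (XT.nd (nat_lit 468) (nat_lit 228) (nat_lit 0) (XT.nd (nat_lit 234) (nat_lit 152) (nat_lit 0) (XT.nd (nat_lit 78) (nat_lit 152) (nat_lit 0) (XT.lf (nat_lit 0) (nat_lit 315748611434) (nat_lit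 152) (nat_lit 18185106817) (nat_lit 0) (nat_lit 122839364298) (nat_lit 15) (nat_lit 5) (nat_lit 17) (nat_lit 4) (nat_lit 15) (nat_lit 4) (nat_lit 378) (nat_lit 328) (nat_lit 194)) (XT.nd (nat_lit 78) (nat_lit 76) (nat_lit 0) (XT.lf (nat_lit 0) (nat_lit 223103130607) (nat_lit 76) (nat_lit 228403692208) (nat_lit 76) (nat_lit 35493970557) (nat_lit 14) (nat_lit 4) (nat_lit 15) (nat_lit 5) (nat_lit 15) (nat_lit 4) (nat_lit 379) (nat_lit 328) (nat_lit 193)) (XT.lf (nat_lit 0) (nat_lit 76288510809) (nat_lit 152) (nat_lit 36518713859) (nat_lit 76) (nat_lit 406762164744) (nat_lit 13) (nat_lit 5) (nat_lit 15) (nat_lit 5) (nat_lit 14) (nat_lit 4) (nat_lit 380) (nat_lit 328) (nat_lit 192)))) (XT.nd (nat_lit 78) (nat_lit 76) (nat_lit 0) (XT.lf (nat_lit 0) (nat_lit 199401079703) (nat_lit 152) (nat_lit 339455019462) (nat_lit 0) (nat_lit 15676729380) (nat_lit 12) (nat_lit 5) (nat_lit 14) (nat_lit 4) (nat_lit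 12) (nat_lit 4) (nat_lit 381) (nat_lit 328) (nat_lit 191)) (XT.nd (nat_lit 78) (nat_lit 76) (nat_lit 0) (XT.lf (nat_lit 0) (nat_lit 334910805578) (nat_lit 152) (nat_lit 106069033220) (nat_lit 0) (nat_lit 151186096507) (nat_lit 12) (nat_lit 5) (nat_lit 14) (nat_lit 4) (nat_lit 12) (nat_lit 4) (nat_lit 382) (nat_lit 328) (nat_lit 190)) (XT.lf (nat_lit 0) (nat_lit 150813836816) (nat_lit 76) (nat_lit 332801594504) (nat_lit 76) (nat_lit 149076553259) (nat_lit 11) (nat_lit 4) (nat_lit 12) (nat_lit 5) (nat_lit 12) (nat_lit 4) (nat_lit 383) (nat_lit 328) (nat_lit 189))))) (XT.nd (nat_lit 234) (nat_lit 76) (nat_lit 0) (XT.nd (nat_lit 78) (nat_lit 152) (nat_lit 0) (XT.lf (nat_lit 0) (nat_lit 432034090263) (nat_lit 76) (nat_lit 214029508901) (nat_lit 76) (nat_lit 30304160087) (nat_lit 11) (nat_lit 4) (nat_lit 12) (nat_lit 5) (nat_lit 12) (nat_lit 4) (nat_lit 384) (nat_lit 328) (nat_lit 188)) (XT.nd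 (nat_lit 78) (nat_lit 0) (nat_lit 0) (XT.lf (nat_lit 0) (nat_lit 11037156593) (nat_lit 76) (nat_lit 83969082525) (nat_lit 152) (nat_lit 628446284137) (nat_lit 9) (nat_lit 5) (nat_lit 10) (nat_lit 5) (nat_lit 11) (nat_lit 4) (nat_lit 385) (nat_lit 328) (nat_lit 187)) (XT.lf (nat_lit 0) (nat_lit 234501485608) (nat_lit 152) (nat_lit 479992216499) (nat_lit 0) (nat_lit 59524440569) (nat_lit 9) (nat_lit 5) (nat_lit 11) (nat_lit 4) (nat_lit 9) (nat_lit 4) (nat_lit 386) (nat_lit 328) (nat_lit 186)))) (XT.nd (nat_lit 156) (nat_lit 0) (nat_lit 0) (XT.nd (nat_lit 78) (nat_lit 76) (nat_lit 0) (XT.lf (nat_lit 0) (nat_lit 386571816771) (nat_lit 152) (nat_lit 230391882477) (nat_lit 0) (nat_lit 211594539200) (nat_lit 9) (nat_lit 5) (nat_lit 11) (nat_lit 4) (nat_lit 9) (nat_lit 4) (nat_lit 387) (nat_lit 328) (nat_lit 185)) (XT.lf (nat_lit 0) (nat_lit 40471068120) (nat_lit 76) (nat_lit 510968196095) (nat_lit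 76) (nat_lit 335990703218) (nat_lit 8) (nat_lit 4) (nat_lit 9) (nat_lit 5) (nat_lit 9) (nat_lit 4) (nat_lit 388) (nat_lit 328) (nat_lit 184))) (XT.nd (nat_lit 78) (nat_lit 0) (nat_lit 0) (XT.lf (nat_lit 0) (nat_lit 341229569531) (nat_lit 76) (nat_lit 392279455793) (nat_lit 76) (nat_lit 217301763557) (nat_lit 8) (nat_lit 4) (nat_lit 9) (nat_lit 5) (nat_lit 9) (nat_lit 4) (nat_lit 389) (nat_lit 328) (nat_lit 183)) (XT.lf (nat_lit 0) (nat_lit 666048098240) (nat_lit 76) (nat_lit 264095935668) (nat_lit 76) (nat_lit 89118058842) (nat_lit 8) (nat_lit 4) (nat_lit 9) (nat_lit 5) (nat_lit 9) (nat_lit 4) (nat_lit 390) (nat_lit 328) (nat_lit 182))))))) (XT.nd (nat_lit 42822) (nat_lit 0) (nat_lit 3648) (XT.nd (nat_lit 42354) (nat_lit 0) (nat_lit 6840) (XT.nd (nat_lit 42120) (nat_lit 0) (nat_lit 7676) (XT.nd (nat_lit 78) (nat_lit 76) (nat_lit 0) (XT.lf (nat_lit 0) (nat_lit 47741469479) (nat_lit 152) (nat_lit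 77108035311) (nat_lit 76) (nat_lit 968301510423) (nat_lit 7) (nat_lit 5) (nat_lit 9) (nat_lit 5) (nat_lit 8) (nat_lit 4) (nat_lit 391) (nat_lit 328) (nat_lit 181)) (XT.nd (nat_lit 41964) (nat_lit 0) (nat_lit 7600) (XT.lf (nat_lit 0) (nat_lit 196492000377) (nat_lit 152) (nat_lit 946336688485) (nat_lit 0) (nat_lit 29846089900) (nat_lit 6) (nat_lit 5) (nat_lit 8) (nat_lit 4) (nat_lit 6) (nat_lit 4) (nat_lit 392) (nat_lit 328) (nat_lit 180)) (XT.lf (nat_lit 0) (nat_lit 2961768684) (nat_lit 836) (nat_lit 8012133914) (nat_lit 836) (nat_lit 8012133914) (nat_lit 106) (nat_lit 3) (nat_lit 117) (nat_lit 3) (nat_lit 117) (nat_lit 5) (nat_lit 329) (nat_lit 329) (nat_lit 242)))) (XT.nd (nat_lit 78) (nat_lit 0) (nat_lit 0) (XT.lf (nat_lit 0) (nat_lit 6548686795) (nat_lit 760) (nat_lit 26152203512) (nat_lit 836) (nat_lit 6770595214) (nat_lit 107) (nat_lit 5) (nat_lit 117) (nat_lit 5) (nat_lit 118) (nat_lit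 5) (nat_lit 330) (nat_lit 329) (nat_lit 241)) (XT.nd (nat_lit 78) (nat_lit 0) (nat_lit 76) (XT.lf (nat_lit 76) (nat_lit 4263270867) (nat_lit 0) (nat_lit 3673989350) (nat_lit 836) (nat_lit 33117926205) (nat_lit 108) (nat_lit 5) (nat_lit 107) (nat_lit 5) (nat_lit 118) (nat_lit 5) (nat_lit 331) (nat_lit 329) (nat_lit 240)) (XT.lf (nat_lit 0) (nat_lit 10325580158) (nat_lit 760) (nat_lit 5140844206) (nat_lit 836) (nat_lit 27254731558) (nat_lit 108) (nat_lit 5) (nat_lit 118) (nat_lit 5) (nat_lit 119) (nat_lit 5) (nat_lit 332) (nat_lit 329) (nat_lit 239))))) (XT.nd (nat_lit 234) (nat_lit 988) (nat_lit 0) (XT.nd (nat_lit 78) (nat_lit 0) (nat_lit 76) (XT.lf (nat_lit 0) (nat_lit 13686013000) (nat_lit 760) (nat_lit 14817529232) (nat_lit 836) (nat_lit 15977813534) (nat_lit 109) (nat_lit 5) (nat_lit 119) (nat_lit 5) (nat_lit 120) (nat_lit 5) (nat_lit 333) (nat_lit 329) (nat_lit 238)) (XT.nd (nat_lit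 78) (nat_lit 0) (nat_lit 0) (XT.lf (nat_lit 0) (nat_lit 18051262060) (nat_lit 760) (nat_lit 24923063351) (nat_lit 836) (nat_lit 3371251876) (nat_lit 110) (nat_lit 5) (nat_lit 120) (nat_lit 5) (nat_lit 121) (nat_lit 5) (nat_lit 334) (nat_lit 329) (nat_lit 237)) (XT.lf (nat_lit 76) (nat_lit 12660964283) (nat_lit 0) (nat_lit 11040212880) (nat_lit 836) (nat_lit 24610991474) (nat_lit 111) (nat_lit 5) (nat_lit 110) (nat_lit 5) (nat_lit 121) (nat_lit 5) (nat_lit 335) (nat_lit 329) (nat_lit 236)))) (XT.nd (nat_lit 78) (nat_lit 380) (nat_lit 0) (XT.lf (nat_lit 0) (nat_lit 3460525475) (nat_lit 760) (nat_lit 27199089219) (nat_lit 836) (nat_lit 19733650228) (nat_lit 101) (nat_lit 5) (nat_lit 111) (nat_lit 5) (nat_lit 112) (nat_lit 5) (nat_lit 336) (nat_lit 329) (nat_lit 235)) (XT.nd (nat_lit 78) (nat_lit 380) (nat_lit 0) (XT.lf (nat_lit 0) (nat_lit 39096174086) (nat_lit 836) (nat_lit 5944889633) (nat_lit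 76) (nat_lit 7553716631) (nat_lit 101) (nat_lit 5) (nat_lit 112) (nat_lit 5) (nat_lit 102) (nat_lit 5) (nat_lit 337) (nat_lit 329) (nat_lit 234)) (XT.lf (nat_lit 0) (nat_lit 39111091497) (nat_lit 380) (nat_lit 10161606892) (nat_lit 456) (nat_lit 5646470121) (nat_lit 96) (nat_lit 5) (nat_lit 101) (nat_lit 5) (nat_lit 102) (nat_lit 5) (nat_lit 338) (nat_lit 329) (nat_lit 233)))))) (XT.nd (nat_lit 468) (nat_lit 1520) (nat_lit 0) (XT.nd (nat_lit 234) (nat_lit 608) (nat_lit 0) (XT.nd (nat_lit 78) (nat_lit 684) (nat_lit 0) (XT.lf (nat_lit 0) (nat_lit 3776441412) (nat_lit 380) (nat_lit 26319307903) (nat_lit 76) (nat_lit 27279884041) (nat_lit 91) (nat_lit 5) (nat_lit 96) (nat_lit 5) (nat_lit 92) (nat_lit 5) (nat_lit 339) (nat_lit 329) (nat_lit 232)) (XT.nd (nat_lit 78) (nat_lit 304) (nat_lit 0) (XT.lf (nat_lit 0) (nat_lit 14686003299) (nat_lit 456) (nat_lit 37440416189) (nat_lit 76) (nat_lit 7851038397)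 (nat_lit 86) (nat_lit 5) (nat_lit 92) (nat_lit 5) (nat_lit 87) (nat_lit 5) (nat_lit 340) (nat_lit 329) (nat_lit 231)) (XT.lf (nat_lit 0) (nat_lit 13386673076) (nat_lit 304) (nat_lit 14260529040) (nat_lit 380) (nat_lit 35081285311) (nat_lit 82) (nat_lit 5) (nat_lit 86) (nat_lit 5) (nat_lit 87) (nat_lit 5) (nat_lit 341) (nat_lit 329) (nat_lit 230)))) (XT.nd (nat_lit 78) (nat_lit 304) (nat_lit 0) (XT.lf (nat_lit 0) (nat_lit 3635722912) (nat_lit 304) (nat_lit 39141673688) (nat_lit 380) (nat_lit 22865600198) (nat_lit 78) (nat_lit 5) (nat_lit 82) (nat_lit 5) (nat_lit 83) (nat_lit 5) (nat_lit 342) (nat_lit 329) (nat_lit 229)) (XT.nd (nat_lit 78) (nat_lit 304) (nat_lit 0) (XT.lf (nat_lit 0) (nat_lit 60244466961) (nat_lit 380) (nat_lit 6408421889) (nat_lit 76) (nat_lit 2081457324) (nat_lit 78) (nat_lit 5) (nat_lit 83) (nat_lit 5) (nat_lit 79) (nat_lit 5) (nat_lit 343) (nat_lit 329) (nat_lit 228))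 (XT.lf (nat_lit 0) (nat_lit 8346944954) (nat_lit 304) (nat_lit 17405856106) (nat_lit 76) (nat_lit 46237900025) (nat_lit 74) (nat_lit 5) (nat_lit 78) (nat_lit 5) (nat_lit 75) (nat_lit 5) (nat_lit 344) (nat_lit 329) (nat_lit 227))))) (XT.nd (nat_lit 234) (nat_lit 760) (nat_lit 0) (XT.nd (nat_lit 78) (nat_lit 456) (nat_lit 0) (XT.lf (nat_lit 0) (nat_lit 27377920253) (nat_lit 380) (nat_lit 29237351500) (nat_lit 76) (nat_lit 18828103113) (nat_lit 70) (nat_lit 5) (nat_lit 75) (nat_lit 5) (nat_lit 71) (nat_lit 5) (nat_lit 345) (nat_lit 329) (nat_lit 226)) (XT.nd (nat_lit 78) (nat_lit 228) (nat_lit 0) (XT.lf (nat_lit 0) (nat_lit 37116442219) (nat_lit 228) (nat_lit 12134124974) (nat_lit 304) (nat_lit 29855737394) (nat_lit 67) (nat_lit 5) (nat_lit 70) (nat_lit 5) (nat_lit 71) (nat_lit 5) (nat_lit 346) (nat_lit 329) (nat_lit 225)) (XT.lf (nat_lit 0) (nat_lit 27080014089) (nat_lit 228) (nat_lit 47291463237)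 (nat_lit 304) (nat_lit 8615870377) (nat_lit 64) (nat_lit 5) (nat_lit 67) (nat_lit 5) (nat_lit 68) (nat_lit 5) (nat_lit 347) (nat_lit 329) (nat_lit 224)))) (XT.nd (nat_lit 156) (nat_lit 228) (nat_lit 0) (XT.nd (nat_lit 78) (nat_lit 228) (nat_lit 0) (XT.lf (nat_lit 0) (nat_lit 15078018891) (nat_lit 304) (nat_lit 71019780884) (nat_lit 76) (nat_lit 1009231427) (nat_lit 60) (nat_lit 5) (nat_lit 64) (nat_lit 5) (nat_lit 61) (nat_lit 5) (nat_lit 348) (nat_lit 329) (nat_lit 223)) (XT.lf (nat_lit 0) (nat_lit 3479486826) (nat_lit 228) (nat_lit 38729327154) (nat_lit 304) (nat_lit 49248251870) (nat_lit 57) (nat_lit 5) (nat_lit 60) (nat_lit 5) (nat_lit 61) (nat_lit 5) (nat_lit 349) (nat_lit 329) (nat_lit 222))) (XT.nd (nat_lit 78) (nat_lit 228) (nat_lit 0) (XT.lf (nat_lit 0) (nat_lit 72959262094) (nat_lit 304) (nat_lit 9836182306) (nat_lit 76) (nat_lit 13287200601) (nat_lit 57) (nat_lit 5) (nat_lit 61)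 (nat_lit 5) (nat_lit 58) (nat_lit 5) (nat_lit 350) (nat_lit 329) (nat_lit 221)) (XT.lf (nat_lit 0) (nat_lit 6801626457) (nat_lit 228) (nat_lit 24752018995) (nat_lit 76) (nat_lit 69426995987) (nat_lit 54) (nat_lit 5) (nat_lit 57) (nat_lit 5) (nat_lit 55) (nat_lit 5) (nat_lit 351) (nat_lit 329) (nat_lit 220))))))))
noncomputable def xc94 : XT := (XT.nd (nat_lit 1950) (nat_lit 760) (nat_lit 0) (XT.nd (nat_lit 936) (nat_lit 1064) (nat_lit 0) (XT.nd (nat_lit 468) (nat_lit 760) (nat_lit 0) (XT.nd (nat_lit 234) (nat_lit 380) (nat_lit 0) (XT.nd (nat_lit 78) (nat_lit 380) (nat_lit 0) (XT.lf (nat_lit 0) (nat_lit 39904781789) (nat_lit 304) (nat_lit 41637920240) (nat_lit 76) (nat_lit 24629109156) (nat_lit 51) (nat_lit 5) (nat_lit 55) (nat_lit 5) (nat_lit 52) (nat_lit 5) (nat_lit 352) (nat_lit 329) (nat_lit 219)) (XT.nd (nat_lit 78) (nat_lit 228) (nat_lit 0) (XT.lf (nat_lit 0) (nat_lit 51185970489) (nat_lit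 152) (nat_lit 26237732914) (nat_lit 228) (nat_lit 34266196325) (nat_lit 49) (nat_lit 5) (nat_lit 51) (nat_lit 5) (nat_lit 52) (nat_lit 5) (nat_lit 353) (nat_lit 329) (nat_lit 218)) (XT.lf (nat_lit 0) (nat_lit 2134173547) (nat_lit 228) (nat_lit 81671471637) (nat_lit 76) (nat_lit 33751115788) (nat_lit 46) (nat_lit 5) (nat_lit 49) (nat_lit 5) (nat_lit 47) (nat_lit 5) (nat_lit 354) (nat_lit 329) (nat_lit 217)))) (XT.nd (nat_lit 78) (nat_lit 228) (nat_lit 0) (XT.lf (nat_lit 0) (nat_lit 17836441211) (nat_lit 152) (nat_lit 24215987744) (nat_lit 228) (nat_lit 81722137030) (nat_lit 44) (nat_lit 5) (nat_lit 46) (nat_lit 5) (nat_lit 47) (nat_lit 5) (nat_lit 355) (nat_lit 329) (nat_lit 216)) (XT.nd (nat_lit 78) (nat_lit 228) (nat_lit 0) (XT.lf (nat_lit 0) (nat_lit 87235131270) (nat_lit 228) (nat_lit 2850088065) (nat_lit 76) (nat_lit 40301027426) (nat_lit 44) (nat_lit 5) (nat_lit 47) (nat_lit 5) (nat_lit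 45) (nat_lit 5) (nat_lit 356) (nat_lit 329) (nat_lit 215)) (XT.lf (nat_lit 0) (nat_lit 738532325) (nat_lit 228) (nat_lit 25783830438) (nat_lit 76) (nat_lit 110896410740) (nat_lit 41) (nat_lit 5) (nat_lit 44) (nat_lit 5) (nat_lit 42) (nat_lit 5) (nat_lit 357) (nat_lit 329) (nat_lit 214))))) (XT.nd (nat_lit 234) (nat_lit 304) (nat_lit 0) (XT.nd (nat_lit 78) (nat_lit 304) (nat_lit 0) (XT.lf (nat_lit 0) (nat_lit 48836601500) (nat_lit 228) (nat_lit 52994939230) (nat_lit 76) (nat_lit 43036539728) (nat_lit 39) (nat_lit 5) (nat_lit 42) (nat_lit 5) (nat_lit 40) (nat_lit 5) (nat_lit 358) (nat_lit 329) (nat_lit 213)) (XT.nd (nat_lit 78) (nat_lit 152) (nat_lit 0) (XT.lf (nat_lit 0) (nat_lit 68714736099) (nat_lit 152) (nat_lit 34042853600) (nat_lit 228) (nat_lit 50056989114) (nat_lit 37) (nat_lit 5) (nat_lit 39) (nat_lit 5) (nat_lit 40) (nat_lit 5) (nat_lit 359) (nat_lit 329) (nat_lit 212)) (XT.lf (nat_lit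 0) (nat_lit 1839130480) (nat_lit 152) (nat_lit 119917853587) (nat_lit 76) (nat_lit 39528593090) (nat_lit 35) (nat_lit 5) (nat_lit 37) (nat_lit 5) (nat_lit 36) (nat_lit 5) (nat_lit 360) (nat_lit 329) (nat_lit 211)))) (XT.nd (nat_lit 78) (nat_lit 152) (nat_lit 0) (XT.lf (nat_lit 0) (nat_lit 8337218104) (nat_lit 152) (nat_lit 50011216513) (nat_lit 228) (nat_lit 111934028454) (nat_lit 33) (nat_lit 5) (nat_lit 35) (nat_lit 5) (nat_lit 36) (nat_lit 5) (nat_lit 361) (nat_lit 329) (nat_lit 210)) (XT.nd (nat_lit 78) (nat_lit 152) (nat_lit 0) (XT.lf (nat_lit 0) (nat_lit 121929247861) (nat_lit 228) (nat_lit 29225269863) (nat_lit 76) (nat_lit 28717044290) (nat_lit 33) (nat_lit 5) (nat_lit 36) (nat_lit 5) (nat_lit 34) (nat_lit 4) (nat_lit 362) (nat_lit 329) (nat_lit 209)) (XT.lf (nat_lit 0) (nat_lit 3069630738) (nat_lit 152) (nat_lit 73131886591) (nat_lit 76) (nat_lit 113890349271) (nat_lit 31) (nat_lit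 5) (nat_lit 33) (nat_lit 5) (nat_lit 32) (nat_lit 5) (nat_lit 363) (nat_lit 329) (nat_lit 208)))))) (XT.nd (nat_lit 468) (nat_lit 532) (nat_lit 0) (XT.nd (nat_lit 234) (nat_lit 304) (nat_lit 0) (XT.nd (nat_lit 78) (nat_lit 76) (nat_lit 0) (XT.lf (nat_lit 0) (nat_lit 68784213542) (nat_lit 228) (nat_lit 124881993570) (nat_lit 76) (nat_lit 7323510122) (nat_lit 29) (nat_lit 5) (nat_lit 32) (nat_lit 5) (nat_lit 30) (nat_lit 4) (nat_lit 364) (nat_lit 329) (nat_lit 207)) (XT.nd (nat_lit 78) (nat_lit 0) (nat_lit 0) (XT.lf (nat_lit 0) (nat_lit 26750659403) (nat_lit 76) (nat_lit 116001505368) (nat_lit 152) (nat_lit 69857421357) (nat_lit 28) (nat_lit 5) (nat_lit 29) (nat_lit 5) (nat_lit 30) (nat_lit 4) (nat_lit 365) (nat_lit 329) (nat_lit 206)) (XT.lf (nat_lit 0) (nat_lit 194971443516) (nat_lit 76) (nat_lit 29840384258) (nat_lit 152) (nat_lit 238503249) (nat_lit 28) (nat_lit 5) (nat_lit 29) (nat_lit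 5) (nat_lit 30) (nat_lit 4) (nat_lit 366) (nat_lit 329) (nat_lit 205)))) (XT.nd (nat_lit 78) (nat_lit 76) (nat_lit 0) (XT.lf (nat_lit 0) (nat_lit 75801912772) (nat_lit 228) (nat_lit 97838665006) (nat_lit 76) (nat_lit 64624706541) (nat_lit 25) (nat_lit 5) (nat_lit 28) (nat_lit 5) (nat_lit 26) (nat_lit 4) (nat_lit 367) (nat_lit 329) (nat_lit 204)) (XT.nd (nat_lit 78) (nat_lit 0) (nat_lit 0) (XT.lf (nat_lit 0) (nat_lit 75018917474) (nat_lit 76) (nat_lit 85104374663) (nat_lit 152) (nat_lit 92303642170) (nat_lit 24) (nat_lit 5) (nat_lit 25) (nat_lit 5) (nat_lit 26) (nat_lit 4) (nat_lit 368) (nat_lit 329) (nat_lit 203)) (XT.lf (nat_lit 0) (nat_lit 253085816498) (nat_lit 152) (nat_lit 2631287379) (nat_lit 0) (nat_lit 11909640892) (nat_lit 24) (nat_lit 5) (nat_lit 26) (nat_lit 4) (nat_lit 24) (nat_lit 4) (nat_lit 369) (nat_lit 329) (nat_lit 202))))) (XT.nd (nat_lit 234) (nat_lit 304) (nat_lit 0)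 (XT.nd (nat_lit 78) (nat_lit 76) (nat_lit 0) (XT.lf (nat_lit 0) (nat_lit 71705560301) (nat_lit 152) (nat_lit 94180793725) (nat_lit 76) (nat_lit 117877708340) (nat_lit 22) (nat_lit 5) (nat_lit 24) (nat_lit 5) (nat_lit 23) (nat_lit 4) (nat_lit 370) (nat_lit 329) (nat_lit 201)) (XT.nd (nat_lit 78) (nat_lit 0) (nat_lit 0) (XT.lf (nat_lit 0) (nat_lit 98999955573) (nat_lit 76) (nat_lit 66940575811) (nat_lit 152) (nat_lit 135160005026) (nat_lit 21) (nat_lit 5) (nat_lit 22) (nat_lit 5) (nat_lit 23) (nat_lit 4) (nat_lit 371) (nat_lit 329) (nat_lit 200)) (XT.lf (nat_lit 0) (nat_lit 270004210925) (nat_lit 152) (nat_lit 9395302054) (nat_lit 0) (nat_lit 40309920018) (nat_lit 21) (nat_lit 5) (nat_lit 23) (nat_lit 4) (nat_lit 21) (nat_lit 4) (nat_lit 372) (nat_lit 329) (nat_lit 199)))) (XT.nd (nat_lit 156) (nat_lit 76) (nat_lit 0) (XT.nd (nat_lit 78) (nat_lit 76) (nat_lit 0) (XT.lf (nat_lit 0) (nat_lit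 45608673523) (nat_lit 152) (nat_lit 136197278867) (nat_lit 76) (nat_lit 157748557455) (nat_lit 19) (nat_lit 5) (nat_lit 21) (nat_lit 5) (nat_lit 20) (nat_lit 4) (nat_lit 373) (nat_lit 329) (nat_lit 198)) (XT.lf (nat_lit 0) (nat_lit 74013130855) (nat_lit 76) (nat_lit 74137553140) (nat_lit 152) (nat_lit 212728545386) (nat_lit 18) (nat_lit 5) (nat_lit 19) (nat_lit 5) (nat_lit 20) (nat_lit 4) (nat_lit 374) (nat_lit 329) (nat_lit 197))) (XT.nd (nat_lit 78) (nat_lit 76) (nat_lit 0) (XT.lf (nat_lit 0) (nat_lit 261964687573) (nat_lit 152) (nat_lit 78585624943) (nat_lit 0) (nat_lit 43206182469) (nat_lit 18) (nat_lit 5) (nat_lit 20) (nat_lit 4) (nat_lit 18) (nat_lit 4) (nat_lit 375) (nat_lit 329) (nat_lit 196)) (XT.lf (nat_lit 0) (nat_lit 149903778375) (nat_lit 76) (nat_lit 238569878769) (nat_lit 76) (nat_lit 19810792517) (nat_lit 17) (nat_lit 4) (nat_lit 18) (nat_lit 5) (nat_lit 18) (nat_lit 4) (nat_lit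 376) (nat_lit 329) (nat_lit 195))))))) (XT.nd (nat_lit 936) (nat_lit 152) (nat_lit 0) (XT.nd (nat_lit 468) (nat_lit 228) (nat_lit 0) (XT.nd (nat_lit 234) (nat_lit 228) (nat_lit 0) (XT.nd (nat_lit 78) (nat_lit 76) (nat_lit 0) (XT.lf (nat_lit 0) (nat_lit 88828325934) (nat_lit 152) (nat_lit 36661556187) (nat_lit 76) (nat_lit 309144709228) (nat_lit 16) (nat_lit 5) (nat_lit 18) (nat_lit 5) (nat_lit 17) (nat_lit 4) (nat_lit 377) (nat_lit 329) (nat_lit 194)) (XT.nd (nat_lit 78) (nat_lit 0) (nat_lit 0) (XT.lf (nat_lit 0) (nat_lit 208745149028) (nat_lit 152) (nat_lit 253765149507) (nat_lit 0) (nat_lit 402175129) (nat_lit 15) (nat_lit 5) (nat_lit 17) (nat_lit 4) (nat_lit 15) (nat_lit 4) (nat_lit 378) (nat_lit 329) (nat_lit 193)) (XT.lf (nat_lit 0) (nat_lit 341019816436) (nat_lit 152) (nat_lit 19618142119) (nat_lit 0) (nat_lit 132676403171) (nat_lit 15) (nat_lit 5) (nat_lit 17) (nat_lit 4) (nat_lit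 15) (nat_lit 4) (nat_lit 379) (nat_lit 329) (nat_lit 192)))) (XT.nd (nat_lit 78) (nat_lit 152) (nat_lit 0) (XT.lf (nat_lit 0) (nat_lit 240972208060) (nat_lit 76) (nat_lit 246665963607) (nat_lit 76) (nat_lit 38322143521) (nat_lit 14) (nat_lit 4) (nat_lit 15) (nat_lit 5) (nat_lit 15) (nat_lit 4) (nat_lit 380) (nat_lit 329) (nat_lit 191)) (XT.nd (nat_lit 78) (nat_lit 76) (nat_lit 0) (XT.lf (nat_lit 0) (nat_lit 82401759803) (nat_lit 152) (nat_lit 39420589174) (nat_lit 76) (nat_lit 439312081855) (nat_lit 13) (nat_lit 5) (nat_lit 15) (nat_lit 5) (nat_lit 14) (nat_lit 4) (nat_lit 381) (nat_lit 329) (nat_lit 190)) (XT.lf (nat_lit 0) (nat_lit 215363015520) (nat_lit 152) (nat_lit 366592306809) (nat_lit 0) (nat_lit 16939638801) (nat_lit 12) (nat_lit 5) (nat_lit 14) (nat_lit 4) (nat_lit 12) (nat_lit 4) (nat_lit 382) (nat_lit 329) (nat_lit 189))))) (XT.nd (nat_lit 234) (nat_lit 152) (nat_lit 0) (XT.nd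 (nat_lit 78) (nat_lit 76) (nat_lit 0) (XT.lf (nat_lit 0) (nat_lit 361712789877) (nat_lit 152) (nat_lit 114536857535) (nat_lit 0) (nat_lit 163289105589) (nat_lit 12) (nat_lit 5) (nat_lit 14) (nat_lit 4) (nat_lit 12) (nat_lit 4) (nat_lit 383) (nat_lit 329) (nat_lit 188)) (XT.nd (nat_lit 78) (nat_lit 0) (nat_lit 0) (XT.lf (nat_lit 0) (nat_lit 162895872956) (nat_lit 76) (nat_lit 359417501490) (nat_lit 76) (nat_lit 160993532416) (nat_lit 11) (nat_lit 4) (nat_lit 12) (nat_lit 5) (nat_lit 12) (nat_lit 4) (nat_lit 384) (nat_lit 329) (nat_lit 187)) (XT.lf (nat_lit 0) (nat_lit 466612492664) (nat_lit 76) (nat_lit 231144257970) (nat_lit 76) (nat_lit 32720025206) (nat_lit 11) (nat_lit 4) (nat_lit 12) (nat_lit 5) (nat_lit 12) (nat_lit 4) (nat_lit 385) (nat_lit 329) (nat_lit 186)))) (XT.nd (nat_lit 78) (nat_lit 0) (nat_lit 0) (XT.lf (nat_lit 0) (nat_lit 11935383204) (nat_lit 76) (nat_lit 90679182711) (nat_lit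 152) (nat_lit 678713766958) (nat_lit 9) (nat_lit 5) (nat_lit 10) (nat_lit 5) (nat_lit 11) (nat_lit 4) (nat_lit 386) (nat_lit 329) (nat_lit 185)) (XT.nd (nat_lit 78) (nat_lit 0) (nat_lit 0) (XT.lf (nat_lit 0) (nat_lit 253268959656) (nat_lit 152) (nat_lit 518377213838) (nat_lit 0) (nat_lit 64293052041) (nat_lit 9) (nat_lit 5) (nat_lit 11) (nat_lit 4) (nat_lit 9) (nat_lit 4) (nat_lit 387) (nat_lit 329) (nat_lit 184)) (XT.lf (nat_lit 0) (nat_lit 417504372481) (nat_lit 152) (nat_lit 248809918279) (nat_lit 0) (nat_lit 228528265509) (nat_lit 9) (nat_lit 5) (nat_lit 11) (nat_lit 4) (nat_lit 9) (nat_lit 4) (nat_lit 388) (nat_lit 329) (nat_lit 183)))))) (XT.nd (nat_lit 42432) (nat_lit 0) (nat_lit 7144) (XT.nd (nat_lit 234) (nat_lit 76) (nat_lit 0) (XT.nd (nat_lit 78) (nat_lit 0) (nat_lit 0) (XT.lf (nat_lit 0) (nat_lit 43721489722) (nat_lit 76) (nat_lit 551839420375) (nat_lit 76) (nat_lit 362863128812)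 (nat_lit 8) (nat_lit 4) (nat_lit 9) (nat_lit 5) (nat_lit 9) (nat_lit 4) (nat_lit 389) (nat_lit 329) (nat_lit 182)) (XT.nd (nat_lit 78) (nat_lit 0) (nat_lit 0) (XT.lf (nat_lit 0) (nat_lit 368539727826) (nat_lit 76) (nat_lit 423656042435) (nat_lit 76) (nat_lit 234679579954) (nat_lit 8) (nat_lit 4) (nat_lit 9) (nat_lit 5) (nat_lit 9) (nat_lit 4) (nat_lit 390) (nat_lit 329) (nat_lit 181)) (XT.lf (nat_lit 0) (nat_lit 719342865296) (nat_lit 76) (nat_lit 285218268095) (nat_lit 76) (nat_lit 96241647357) (nat_lit 8) (nat_lit 4) (nat_lit 9) (nat_lit 5) (nat_lit 9) (nat_lit 4) (nat_lit 391) (nat_lit 329) (nat_lit 180)))) (XT.nd (nat_lit 42042) (nat_lit 0) (nat_lit 7524) (XT.lf (nat_lit 0) (nat_lit 51566035887) (nat_lit 152) (nat_lit 83266393702) (nat_lit 76) (nat_lit 1045770403882) (nat_lit 7) (nat_lit 5) (nat_lit 9) (nat_lit 5) (nat_lit 8) (nat_lit 4) (nat_lit 392) (nat_lit 329) (nat_lit 179)) (XT.nd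 (nat_lit 78) (nat_lit 0) (nat_lit 76) (XT.lf (nat_lit 0) (nat_lit 3266307645) (nat_lit 836) (nat_lit 8617586665) (nat_lit 836) (nat_lit 8617586665) (nat_lit 106) (nat_lit 3) (nat_lit 117) (nat_lit 3) (nat_lit 117) (nat_lit 5) (nat_lit 330) (nat_lit 330) (nat_lit 240)) (XT.lf (nat_lit 0) (nat_lit 7197912993) (nat_lit 760) (nat_lit 28169100337) (nat_lit 836) (nat_lit 7255815982) (nat_lit 107) (nat_lit 5) (nat_lit 117) (nat_lit 5) (nat_lit 118) (nat_lit 5) (nat_lit 331) (nat_lit 330) (nat_lit 239))))) (XT.nd (nat_lit 234) (nat_lit 456) (nat_lit 0) (XT.nd (nat_lit 78) (nat_lit 0) (nat_lit 76) (XT.lf (nat_lit 76) (nat_lit 4676340438) (nat_lit 0) (nat_lit 4013072298) (nat_lit 836) (nat_lit 35644229562) (nat_lit 108) (nat_lit 5) (nat_lit 107) (nat_lit 5) (nat_lit 118) (nat_lit 5) (nat_lit 332) (nat_lit 330) (nat_lit 238)) (XT.nd (nat_lit 78) (nat_lit 0) (nat_lit 76) (XT.lf (nat_lit 0) (nat_lit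 11259465987) (nat_lit 760) (nat_lit 5479267231) (nat_lit 836) (nat_lit 29394630197) (nat_lit 108) (nat_lit 5) (nat_lit 118) (nat_lit 5) (nat_lit 119) (nat_lit 5) (nat_lit 333) (nat_lit 330) (nat_lit 237)) (XT.lf (nat_lit 0) (nat_lit 14881345169) (nat_lit 760) (nat_lit 15927631649) (nat_lit 836) (nat_lit 17225778732) (nat_lit 109) (nat_lit 5) (nat_lit 119) (nat_lit 5) (nat_lit 120) (nat_lit 5) (nat_lit 334) (nat_lit 330) (nat_lit 236)))) (XT.nd (nat_lit 156) (nat_lit 684) (nat_lit 0) (XT.nd (nat_lit 78) (nat_lit 0) (nat_lit 0) (XT.lf (nat_lit 0) (nat_lit 19589152722) (nat_lit 760) (nat_lit 26839749296) (nat_lit 836) (nat_lit 3619552224) (nat_lit 110) (nat_lit 5) (nat_lit 120) (nat_lit 5) (nat_lit 121) (nat_lit 5) (nat_lit 335) (nat_lit 330) (nat_lit 235)) (XT.lf (nat_lit 76) (nat_lit 13747647307) (nat_lit 0) (nat_lit 11937618658) (nat_lit 836) (nat_lit 26487402596) (nat_lit 111) (nat_lit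 5) (nat_lit 110) (nat_lit 5) (nat_lit 121) (nat_lit 5) (nat_lit 336) (nat_lit 330) (nat_lit 234))) (XT.nd (nat_lit 78) (nat_lit 0) (nat_lit 0) (XT.lf (nat_lit 0) (nat_lit 3812456930) (nat_lit 760) (nat_lit 29382370687) (nat_lit 836) (nat_lit 21225707945) (nat_lit 101) (nat_lit 5) (nat_lit 111) (nat_lit 5) (nat_lit 112) (nat_lit 5) (nat_lit 337) (nat_lit 330) (nat_lit 233)) (XT.lf (nat_lit 0) (nat_lit 42300098500) (nat_lit 836) (nat_lit 6346967107) (nat_lit 76) (nat_lit 8151422345) (nat_lit 101) (nat_lit 5) (nat_lit 112) (nat_lit 5) (nat_lit 102) (nat_lit 5) (nat_lit 338) (nat_lit 330) (nat_lit 232))))))))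
noncomputable def xc95 : XT := (XT.nd (nat_lit 1950) (nat_lit 1824) (nat_lit 0) (XT.nd (nat_lit 936) (nat_lit 1824) (nat_lit 0) (XT.nd (nat_lit 468) (nat_lit 1596) (nat_lit 0) (XT.nd (nat_lit 234) (nat_lit 608) (nat_lit 0) (XT.nd (nat_lit 78) (nat_lit 760) (nat_lit 0) (XT.lf (nat_lit 0) (nat_lit 42310297697) (nat_lit 380) (nat_lit 10975898222) (nat_lit 456) (nat_lit 6022863375) (nat_lit 96) (nat_lit 5) (nat_lit 101) (nat_lit 5) (nat_lit 102) (nat_lit 5) (nat_lit 339) (nat_lit 330) (nat_lit 231)) (XT.nd (nat_lit 78) (nat_lit 380) (nat_lit 0) (XT.lf (nat_lit 0) (nat_lit 4147172200) (nat_lit 380) (nat_lit 28351764462) (nat_lit 76) (nat_lit 29463264902) (nat_lit 91) (nat_lit 5) (nat_lit 96) (nat_lit 5) (nat_lit 92) (nat_lit 5) (nat_lit 340) (nat_lit 330) (nat_lit 230)) (XT.lf (nat_lit 0) (nat_lit 15925590480) (nat_lit 456) (nat_lit 40362541204) (nat_lit 76) (nat_lit 8484239628) (nat_lit 86)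 (nat_lit 5) (nat_lit 92) (nat_lit 5) (nat_lit 87) (nat_lit 5) (nat_lit 341) (nat_lit 330) (nat_lit 229)))) (XT.nd (nat_lit 78) (nat_lit 304) (nat_lit 0) (XT.lf (nat_lit 0) (nat_lit 14527538006) (nat_lit 304) (nat_lit 15392445912) (nat_lit 380) (nat_lit 37823687909) (nat_lit 82) (nat_lit 5) (nat_lit 86) (nat_lit 5) (nat_lit 87) (nat_lit 5) (nat_lit 342) (nat_lit 330) (nat_lit 228)) (XT.nd (nat_lit 78) (nat_lit 0) (nat_lit 0) (XT.lf (nat_lit 0) (nat_lit 3996299521) (nat_lit 304) (nat_lit 42260993038) (nat_lit 380) (nat_lit 24634217741) (nat_lit 78) (nat_lit 5) (nat_lit 82) (nat_lit 5) (nat_lit 83) (nat_lit 5) (nat_lit 343) (nat_lit 330) (nat_lit 227)) (XT.lf (nat_lit 0) (nat_lit 65117627847) (nat_lit 380) (nat_lit 6854005420) (nat_lit 76) (nat_lit 2258742432) (nat_lit 78) (nat_lit 5) (nat_lit 83) (nat_lit 5) (nat_lit 79) (nat_lit 5) (nat_lit 344) (nat_lit 330) (nat_lit 226))))) (XT.nd (nat_lit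 234) (nat_lit 760) (nat_lit 0) (XT.nd (nat_lit 78) (nat_lit 532) (nat_lit 0) (XT.lf (nat_lit 0) (nat_lit 9066199524) (nat_lit 304) (nat_lit 18732413743) (nat_lit 76) (nat_lit 49948735454) (nat_lit 74) (nat_lit 5) (nat_lit 78) (nat_lit 5) (nat_lit 75) (nat_lit 5) (nat_lit 345) (nat_lit 330) (nat_lit 225)) (XT.nd (nat_lit 78) (nat_lit 228) (nat_lit 0) (XT.lf (nat_lit 0) (nat_lit 29617046918) (nat_lit 380) (nat_lit 31511053205) (nat_lit 76) (nat_lit 20348269061) (nat_lit 70) (nat_lit 5) (nat_lit 75) (nat_lit 5) (nat_lit 71) (nat_lit 5) (nat_lit 346) (nat_lit 330) (nat_lit 224)) (XT.lf (nat_lit 0) (nat_lit 40148206744) (nat_lit 228) (nat_lit 13088652168) (nat_lit 304) (nat_lit 32195609002) (nat_lit 67) (nat_lit 5) (nat_lit 70) (nat_lit 5) (nat_lit 71) (nat_lit 5) (nat_lit 347) (nat_lit 330) (nat_lit 223)))) (XT.nd (nat_lit 78) (nat_lit 532) (nat_lit 0) (XT.lf (nat_lit 0) (nat_lit 29308147724)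 (nat_lit 228) (nat_lit 51057066527) (nat_lit 304) (nat_lit 9258893736) (nat_lit 64) (nat_lit 5) (nat_lit 67) (nat_lit 5) (nat_lit 68) (nat_lit 5) (nat_lit 348) (nat_lit 330) (nat_lit 222)) (XT.nd (nat_lit 78) (nat_lit 228) (nat_lit 0) (XT.lf (nat_lit 0) (nat_lit 16326937428) (nat_lit 304) (nat_lit 76639012936) (nat_lit 76) (nat_lit 1107486031) (nat_lit 60) (nat_lit 5) (nat_lit 64) (nat_lit 5) (nat_lit 61) (nat_lit 5) (nat_lit 349) (nat_lit 330) (nat_lit 221)) (XT.lf (nat_lit 0) (nat_lit 3817486518) (nat_lit 228) (nat_lit 41808479504) (nat_lit 304) (nat_lit 53145621035) (nat_lit 57) (nat_lit 5) (nat_lit 60) (nat_lit 5) (nat_lit 61) (nat_lit 5) (nat_lit 350) (nat_lit 330) (nat_lit 220)))))) (XT.nd (nat_lit 468) (nat_lit 836) (nat_lit 0) (XT.nd (nat_lit 234) (nat_lit 532) (nat_lit 0) (XT.nd (nat_lit 78) (nat_lit 456) (nat_lit 0) (XT.lf (nat_lit 0) (nat_lit 78833731389) (nat_lit 304) (nat_lit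 10566238800) (nat_lit 76) (nat_lit 14367379889) (nat_lit 57) (nat_lit 5) (nat_lit 61) (nat_lit 5) (nat_lit 58) (nat_lit 5) (nat_lit 351) (nat_lit 330) (nat_lit 219)) (XT.nd (nat_lit 78) (nat_lit 228) (nat_lit 0) (XT.lf (nat_lit 0) (nat_lit 7382143666) (nat_lit 228) (nat_lit 26676591686) (nat_lit 76) (nat_lit 74998520317) (nat_lit 54) (nat_lit 5) (nat_lit 57) (nat_lit 5) (nat_lit 55) (nat_lit 5) (nat_lit 352) (nat_lit 330) (nat_lit 218)) (XT.lf (nat_lit 0) (nat_lit 43131977460) (nat_lit 304) (nat_lit 44914329535) (nat_lit 76) (nat_lit 26617492012) (nat_lit 51) (nat_lit 5) (nat_lit 55) (nat_lit 5) (nat_lit 52) (nat_lit 5) (nat_lit 353) (nat_lit 330) (nat_lit 217)))) (XT.nd (nat_lit 78) (nat_lit 380) (nat_lit 0) (XT.lf (nat_lit 0) (nat_lit 55333098547) (nat_lit 152) (nat_lit 28317551281) (nat_lit 228) (nat_lit 36972774170) (nat_lit 49) (nat_lit 5) (nat_lit 51) (nat_lit 5) (nat_lit 52) (nat_lit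 5) (nat_lit 354) (nat_lit 330) (nat_lit 216)) (XT.nd (nat_lit 78) (nat_lit 152) (nat_lit 0) (XT.lf (nat_lit 0) (nat_lit 2337120715) (nat_lit 228) (nat_lit 88152822678) (nat_lit 76) (nat_lit 36469734388) (nat_lit 46) (nat_lit 5) (nat_lit 49) (nat_lit 5) (nat_lit 47) (nat_lit 5) (nat_lit 355) (nat_lit 330) (nat_lit 215)) (XT.lf (nat_lit 0) (nat_lit 19313447406) (nat_lit 152) (nat_lit 26133785040) (nat_lit 228) (nat_lit 88227755947) (nat_lit 44) (nat_lit 5) (nat_lit 46) (nat_lit 5) (nat_lit 47) (nat_lit 5) (nat_lit 356) (nat_lit 330) (nat_lit 214))))) (XT.nd (nat_lit 234) (nat_lit 456) (nat_lit 0) (XT.nd (nat_lit 78) (nat_lit 380) (nat_lit 0) (XT.lf (nat_lit 0) (nat_lit 94242565233) (nat_lit 228) (nat_lit 3030567699) (nat_lit 76) (nat_lit 43542570904) (nat_lit 44) (nat_lit 5) (nat_lit 47) (nat_lit 5) (nat_lit 45) (nat_lit 5) (nat_lit 357) (nat_lit 330) (nat_lit 213)) (XT.nd (nat_lit 78) (nat_lit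 152) (nat_lit 0) (XT.lf (nat_lit 0) (nat_lit 825284320) (nat_lit 228) (nat_lit 27800149935) (nat_lit 76) (nat_lit 119785447523) (nat_lit 41) (nat_lit 5) (nat_lit 44) (nat_lit 5) (nat_lit 42) (nat_lit 5) (nat_lit 358) (nat_lit 330) (nat_lit 212)) (XT.lf (nat_lit 0) (nat_lit 52770124141) (nat_lit 228) (nat_lit 57189120280) (nat_lit 76) (nat_lit 46496943363) (nat_lit 39) (nat_lit 5) (nat_lit 42) (nat_lit 5) (nat_lit 40) (nat_lit 5) (nat_lit 359) (nat_lit 330) (nat_lit 211)))) (XT.nd (nat_lit 156) (nat_lit 152) (nat_lit 0) (XT.nd (nat_lit 78) (nat_lit 152) (nat_lit 0) (XT.lf (nat_lit 0) (nat_lit 74255355434) (nat_lit 152) (nat_lit 36748144225) (nat_lit 228) (nat_lit 54034971631) (nat_lit 37) (nat_lit 5) (nat_lit 39) (nat_lit 5) (nat_lit 40) (nat_lit 5) (nat_lit 360) (nat_lit 330) (nat_lit 210)) (XT.lf (nat_lit 0) (nat_lit 2011022210) (nat_lit 152) (nat_lit 129467955317) (nat_lit 76) (nat_lit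 42708200075) (nat_lit 35) (nat_lit 5) (nat_lit 37) (nat_lit 5) (nat_lit 36) (nat_lit 5) (nat_lit 361) (nat_lit 330) (nat_lit 209))) (XT.nd (nat_lit 78) (nat_lit 0) (nat_lit 0) (XT.lf (nat_lit 0) (nat_lit 9045639190) (nat_lit 152) (nat_lit 53994244371) (nat_lit 228) (nat_lit 120863990754) (nat_lit 33) (nat_lit 5) (nat_lit 35) (nat_lit 5) (nat_lit 36) (nat_lit 5) (nat_lit 362) (nat_lit 330) (nat_lit 208)) (XT.lf (nat_lit 0) (nat_lit 131705673954) (nat_lit 228) (nat_lit 31524078075) (nat_lit 76) (nat_lit 31030424064) (nat_lit 33) (nat_lit 5) (nat_lit 36) (nat_lit 5) (nat_lit 34) (nat_lit 4) (nat_lit 363) (nat_lit 330) (nat_lit 207))))))) (XT.nd (nat_lit 936) (nat_lit 684) (nat_lit 0) (XT.nd (nat_lit 468) (nat_lit 456) (nat_lit 0) (XT.nd (nat_lit 234) (nat_lit 304) (nat_lit 0) (XT.nd (nat_lit 78) (nat_lit 228) (nat_lit 0) (XT.lf (nat_lit 0) (nat_lit 3336587804) (nat_lit 152) (nat_lit 78944215376)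 (nat_lit 76) (nat_lit 123017337625) (nat_lit 31) (nat_lit 5) (nat_lit 33) (nat_lit 5) (nat_lit 32) (nat_lit 5) (nat_lit 364) (nat_lit 330) (nat_lit 206)) (XT.nd (nat_lit 78) (nat_lit 76) (nat_lit 0) (XT.lf (nat_lit 0) (nat_lit 74307576597) (nat_lit 228) (nat_lit 134835220713) (nat_lit 76) (nat_lit 7925060641) (nat_lit 29) (nat_lit 5) (nat_lit 32) (nat_lit 5) (nat_lit 30) (nat_lit 4) (nat_lit 365) (nat_lit 330) (nat_lit 205)) (XT.lf (nat_lit 0) (nat_lit 28926422080) (nat_lit 76) (nat_lit 125265571527) (nat_lit 152) (nat_lit 75425371662) (nat_lit 28) (nat_lit 5) (nat_lit 29) (nat_lit 5) (nat_lit 30) (nat_lit 4) (nat_lit 366) (nat_lit 330) (nat_lit 204)))) (XT.nd (nat_lit 78) (nat_lit 304) (nat_lit 0) (XT.lf (nat_lit 0) (nat_lit 210602223742) (nat_lit 76) (nat_lit 32212749933) (nat_lit 152) (nat_lit 238469247) (nat_lit 28) (nat_lit 5) (nat_lit 29) (nat_lit 5) (nat_lit 30) (nat_lit 4) (nat_lit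 367) (nat_lit 330) (nat_lit 203)) (XT.nd (nat_lit 78) (nat_lit 76) (nat_lit 0) (XT.lf (nat_lit 0) (nat_lit 81883928395) (nat_lit 228) (nat_lit 105632882905) (nat_lit 76) (nat_lit 69808798580) (nat_lit 25) (nat_lit 5) (nat_lit 28) (nat_lit 5) (nat_lit 26) (nat_lit 4) (nat_lit 368) (nat_lit 330) (nat_lit 202)) (XT.lf (nat_lit 0) (nat_lit 81051877453) (nat_lit 76) (nat_lit 91898308470) (nat_lit 152) (nat_lit 99670047853) (nat_lit 24) (nat_lit 5) (nat_lit 25) (nat_lit 5) (nat_lit 26) (nat_lit 4) (nat_lit 369) (nat_lit 330) (nat_lit 201))))) (XT.nd (nat_lit 234) (nat_lit 228) (nat_lit 0) (XT.nd (nat_lit 78) (nat_lit 228) (nat_lit 0) (XT.lf (nat_lit 0) (nat_lit 273348659125) (nat_lit 152) (nat_lit 2812089647) (nat_lit 0) (nat_lit 12875333236) (nat_lit 24) (nat_lit 5) (nat_lit 26) (nat_lit 4) (nat_lit 24) (nat_lit 4) (nat_lit 370) (nat_lit 330) (nat_lit 200)) (XT.nd (nat_lit 78) (nat_lit 76) (nat_lit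 0) (XT.lf (nat_lit 0) (nat_lit 77457495396) (nat_lit 152) (nat_lit 101686332014) (nat_lit 76) (nat_lit 127320582365) (nat_lit 22) (nat_lit 5) (nat_lit 24) (nat_lit 5) (nat_lit 23) (nat_lit 4) (nat_lit 371) (nat_lit 330) (nat_lit 199)) (XT.lf (nat_lit 0) (nat_lit 106947620174) (nat_lit 76) (nat_lit 72282928542) (nat_lit 152) (nat_lit 145957289027) (nat_lit 21) (nat_lit 5) (nat_lit 22) (nat_lit 5) (nat_lit 23) (nat_lit 4) (nat_lit 372) (nat_lit 330) (nat_lit 198)))) (XT.nd (nat_lit 78) (nat_lit 228) (nat_lit 0) (XT.lf (nat_lit 0) (nat_lit 291618414579) (nat_lit 152) (nat_lit 10120807298) (nat_lit 0) (nat_lit 43546269792) (nat_lit 21) (nat_lit 5) (nat_lit 23) (nat_lit 4) (nat_lit 21) (nat_lit 4) (nat_lit 373) (nat_lit 330) (nat_lit 197)) (XT.nd (nat_lit 78) (nat_lit 76) (nat_lit 0) (XT.lf (nat_lit 0) (nat_lit 49270816319) (nat_lit 152) (nat_lit 147067630354) (nat_lit 76) (nat_lit 170379749197)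 (nat_lit 19) (nat_lit 5) (nat_lit 21) (nat_lit 5) (nat_lit 20) (nat_lit 4) (nat_lit 374) (nat_lit 330) (nat_lit 196)) (XT.lf (nat_lit 0) (nat_lit 79958506954) (nat_lit 76) (nat_lit 80057064250) (nat_lit 152) (nat_lit 229733352757) (nat_lit 18) (nat_lit 5) (nat_lit 19) (nat_lit 5) (nat_lit 20) (nat_lit 4) (nat_lit 375) (nat_lit 330) (nat_lit 195)))))) (XT.nd (nat_lit 468) (nat_lit 380) (nat_lit 0) (XT.nd (nat_lit 234) (nat_lit 152) (nat_lit 0) (XT.nd (nat_lit 78) (nat_lit 152) (nat_lit 0) (XT.lf (nat_lit 0) (nat_lit 282933910661) (nat_lit 152) (nat_lit 84849521271) (nat_lit 0) (nat_lit 46672978260) (nat_lit 18) (nat_lit 5) (nat_lit 20) (nat_lit 4) (nat_lit 18) (nat_lit 4) (nat_lit 376) (nat_lit 330) (nat_lit 194)) (XT.nd (nat_lit 78) (nat_lit 76) (nat_lit 0) (XT.lf (nat_lit 0) (nat_lit 161918036774) (nat_lit 76) (nat_lit 257645011371) (nat_lit 76) (nat_lit 21383580728) (nat_lit 17) (nat_lit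 4) (nat_lit 18) (nat_lit 5) (nat_lit 18) (nat_lit 4) (nat_lit 377) (nat_lit 330) (nat_lit 193)) (XT.lf (nat_lit 0) (nat_lit 95945414887) (nat_lit 152) (nat_lit 39573791457) (nat_lit 76) (nat_lit 333885609546) (nat_lit 16) (nat_lit 5) (nat_lit 18) (nat_lit 5) (nat_lit 17) (nat_lit 4) (nat_lit 378) (nat_lit 330) (nat_lit 192)))) (XT.nd (nat_lit 78) (nat_lit 76) (nat_lit 0) (XT.lf (nat_lit 0) (nat_lit 225455238810) (nat_lit 152) (nat_lit 274046201057) (nat_lit 0) (nat_lit 443506296) (nat_lit 15) (nat_lit 5) (nat_lit 17) (nat_lit 4) (nat_lit 15) (nat_lit 4) (nat_lit 379) (nat_lit 330) (nat_lit 191)) (XT.nd (nat_lit 78) (nat_lit 76) (nat_lit 0) (XT.lf (nat_lit 0) (nat_lit 368311103473) (nat_lit 152) (nat_lit 21168926441) (nat_lit 0) (nat_lit 143298994273) (nat_lit 15) (nat_lit 5) (nat_lit 17) (nat_lit 4) (nat_lit 15) (nat_lit 4) (nat_lit 380) (nat_lit 330) (nat_lit 190)) (XT.lf (nat_lit 0) (nat_lit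 260267840505) (nat_lit 76) (nat_lit 266390646750) (nat_lit 76) (nat_lit 41378188767) (nat_lit 14) (nat_lit 4) (nat_lit 15) (nat_lit 5) (nat_lit 15) (nat_lit 4) (nat_lit 381) (nat_lit 330) (nat_lit 189))))) (XT.nd (nat_lit 234) (nat_lit 228) (nat_lit 0) (XT.nd (nat_lit 78) (nat_lit 76) (nat_lit 0) (XT.lf (nat_lit 0) (nat_lit 89002618119) (nat_lit 152) (nat_lit 42557413784) (nat_lit 76) (nat_lit 474464716384) (nat_lit 13) (nat_lit 5) (nat_lit 15) (nat_lit 5) (nat_lit 14) (nat_lit 4) (nat_lit 382) (nat_lit 330) (nat_lit 188)) (XT.nd (nat_lit 78) (nat_lit 0) (nat_lit 0) (XT.lf (nat_lit 0) (nat_lit 232600501070) (nat_lit 152) (nat_lit 395903304000) (nat_lit 0) (nat_lit 18302329684) (nat_lit 12) (nat_lit 5) (nat_lit 14) (nat_lit 4) (nat_lit 12) (nat_lit 4) (nat_lit 383) (nat_lit 330) (nat_lit 187)) (XT.lf (nat_lit 0) (nat_lit 390657631871) (nat_lit 152) (nat_lit 123684632662) (nat_lit 0) (nat_lit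 176359196795) (nat_lit 12) (nat_lit 5) (nat_lit 14) (nat_lit 4) (nat_lit 12) (nat_lit 4) (nat_lit 384) (nat_lit 330) (nat_lit 186)))) (XT.nd (nat_lit 156) (nat_lit 152) (nat_lit 0) (XT.nd (nat_lit 78) (nat_lit 0) (nat_lit 0) (XT.lf (nat_lit 0) (nat_lit 175942056848) (nat_lit 76) (nat_lit 388163853792) (nat_lit 76) (nat_lit 173865174558) (nat_lit 11) (nat_lit 4) (nat_lit 12) (nat_lit 5) (nat_lit 12) (nat_lit 4) (nat_lit 385) (nat_lit 330) (nat_lit 185)) (XT.lf (nat_lit 0) (nat_lit 503954931017) (nat_lit 76) (nat_lit 249629272851) (nat_lit 76) (nat_lit 35330367544) (nat_lit 11) (nat_lit 4) (nat_lit 12) (nat_lit 5) (nat_lit 12) (nat_lit 4) (nat_lit 386) (nat_lit 330) (nat_lit 184))) (XT.nd (nat_lit 78) (nat_lit 0) (nat_lit 0) (XT.lf (nat_lit 0) (nat_lit 12903291779) (nat_lit 76) (nat_lit 97927150373) (nat_lit 152) (nat_lit 733003821067) (nat_lit 9) (nat_lit 5) (nat_lit 10) (nat_lit 5) (nat_lit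 11) (nat_lit 4) (nat_lit 387) (nat_lit 330) (nat_lit 183)) (XT.lf (nat_lit 0) (nat_lit 273536782326) (nat_lit 152) (nat_lit 559835062430) (nat_lit 0) (nat_lit 69442202846) (nat_lit 9) (nat_lit 5) (nat_lit 11) (nat_lit 4) (nat_lit 9) (nat_lit 4) (nat_lit 388) (nat_lit 330) (nat_lit 182))))))))
noncomputable def xc96 : XT := (XT.nd (nat_lit 43914) (nat_lit 0) (nat_lit 836) (XT.nd (nat_lit 42978) (nat_lit 0) (nat_lit 3952) (XT.nd (nat_lit 42510) (nat_lit 0) (nat_lit 7068) (XT.nd (nat_lit 234) (nat_lit 0) (nat_lit 0) (XT.nd (nat_lit 78) (nat_lit 76) (nat_lit 0) (XT.lf (nat_lit 0) (nat_lit 450910561074) (nat_lit 152) (nat_lit 268703296449) (nat_lit 0) (nat_lit 246815810677) (nat_lit 9) (nat_lit 5) (nat_lit 11) (nat_lit 4) (nat_lit 9) (nat_lit 4) (nat_lit 389) (nat_lit 330) (nat_lit 181)) (XT.nd (nat_lit 78) (nat_lit 0) (nat_lit 0) (XT.lf (nat_lit 0) (nat_lit 47230128097) (nat_lit 76) (nat_lit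 595981231578) (nat_lit 76) (nat_lit 391886322924) (nat_lit 8) (nat_lit 4) (nat_lit 9) (nat_lit 5) (nat_lit 9) (nat_lit 4) (nat_lit 390) (nat_lit 330) (nat_lit 180)) (XT.lf (nat_lit 0) (nat_lit 398033016420) (nat_lit 76) (nat_lit 457543579138) (nat_lit 76) (nat_lit 253448523949) (nat_lit 8) (nat_lit 4) (nat_lit 9) (nat_lit 5) (nat_lit 9) (nat_lit 4) (nat_lit 391) (nat_lit 330) (nat_lit 179)))) (XT.nd (nat_lit 42120) (nat_lit 0) (nat_lit 7448) (XT.lf (nat_lit 0) (nat_lit 776899655972) (nat_lit 76) (nat_lit 308031149272) (nat_lit 76) (nat_lit 103935958404) (nat_lit 8) (nat_lit 4) (nat_lit 9) (nat_lit 5) (nat_lit 9) (nat_lit 4) (nat_lit 392) (nat_lit 330) (nat_lit 178)) (XT.nd (nat_lit 78) (nat_lit 0) (nat_lit 76) (XT.lf (nat_lit 0) (nat_lit 3585566188) (nat_lit 836) (nat_lit 9276542671) (nat_lit 836) (nat_lit 9276542671) (nat_lit 106) (nat_lit 3) (nat_lit 117) (nat_lit 3) (nat_lit 117) (nat_lit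 5) (nat_lit 331) (nat_lit 331) (nat_lit 238)) (XT.lf (nat_lit 0) (nat_lit 7881197382) (nat_lit 760) (nat_lit 30358088364) (nat_lit 836) (nat_lit 7787904332) (nat_lit 107) (nat_lit 5) (nat_lit 117) (nat_lit 5) (nat_lit 118) (nat_lit 5) (nat_lit 332) (nat_lit 331) (nat_lit 237))))) (XT.nd (nat_lit 234) (nat_lit 456) (nat_lit 0) (XT.nd (nat_lit 78) (nat_lit 0) (nat_lit 76) (XT.lf (nat_lit 76) (nat_lit 5112182843) (nat_lit 0) (nat_lit 4372838761) (nat_lit 836) (nat_lit 38390203164) (nat_lit 108) (nat_lit 5) (nat_lit 107) (nat_lit 5) (nat_lit 118) (nat_lit 5) (nat_lit 333) (nat_lit 331) (nat_lit 236)) (XT.nd (nat_lit 78) (nat_lit 0) (nat_lit 76) (XT.lf (nat_lit 0) (nat_lit 12252678183) (nat_lit 760) (nat_lit 5855156181) (nat_lit 836) (nat_lit 31711495635) (nat_lit 108) (nat_lit 5) (nat_lit 118) (nat_lit 5) (nat_lit 119) (nat_lit 5) (nat_lit 334) (nat_lit 331) (nat_lit 235)) (XT.lf (nat_lit 0)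 (nat_lit 16157973435) (nat_lit 760) (nat_lit 17137284634) (nat_lit 836) (nat_lit 18577898057) (nat_lit 109) (nat_lit 5) (nat_lit 119) (nat_lit 5) (nat_lit 120) (nat_lit 5) (nat_lit 335) (nat_lit 331) (nat_lit 234)))) (XT.nd (nat_lit 78) (nat_lit 684) (nat_lit 0) (XT.lf (nat_lit 0) (nat_lit 21236694489) (nat_lit 760) (nat_lit 28920777729) (nat_lit 836) (nat_lit 3890769521) (nat_lit 110) (nat_lit 5) (nat_lit 120) (nat_lit 5) (nat_lit 121) (nat_lit 5) (nat_lit 336) (nat_lit 331) (nat_lit 233)) (XT.nd (nat_lit 78) (nat_lit 684) (nat_lit 0) (XT.lf (nat_lit 76) (nat_lit 14910735738) (nat_lit 0) (nat_lit 12904792716) (nat_lit 836) (nat_lit 28527118230) (nat_lit 111) (nat_lit 5) (nat_lit 110) (nat_lit 5) (nat_lit 121) (nat_lit 5) (nat_lit 337) (nat_lit 331) (nat_lit 232)) (XT.lf (nat_lit 0) (nat_lit 4181830557) (nat_lit 760) (nat_lit 31739265495) (nat_lit 836) (nat_lit 22849489631) (nat_lit 101)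 (nat_lit 5) (nat_lit 111) (nat_lit 5) (nat_lit 112) (nat_lit 5) (nat_lit 338) (nat_lit 331) (nat_lit 231)))))) (XT.nd (nat_lit 468) (nat_lit 1368) (nat_lit 0) (XT.nd (nat_lit 234) (nat_lit 988) (nat_lit 0) (XT.nd (nat_lit 78) (nat_lit 760) (nat_lit 0) (XT.lf (nat_lit 0) (nat_lit 45749461736) (nat_lit 836) (nat_lit 6791698330) (nat_lit 76) (nat_lit 8797884884) (nat_lit 101) (nat_lit 5) (nat_lit 112) (nat_lit 5) (nat_lit 102) (nat_lit 5) (nat_lit 339) (nat_lit 331) (nat_lit 230)) (XT.nd (nat_lit 78) (nat_lit 380) (nat_lit 0) (XT.lf (nat_lit 0) (nat_lit 45755408620) (nat_lit 380) (nat_lit 11855138442) (nat_lit 456) (nat_lit 6440113952) (nat_lit 96) (nat_lit 5) (nat_lit 101) (nat_lit 5) (nat_lit 102) (nat_lit 5) (nat_lit 340) (nat_lit 331) (nat_lit 229)) (XT.lf (nat_lit 0) (nat_lit 4537772687) (nat_lit 380) (nat_lit 30557244377) (nat_lit 76) (nat_lit 31821174977) (nat_lit 91) (nat_lit 5) (nat_lit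 96) (nat_lit 5) (nat_lit 92) (nat_lit 5) (nat_lit 341) (nat_lit 331) (nat_lit 228)))) (XT.nd (nat_lit 78) (nat_lit 608) (nat_lit 0) (XT.lf (nat_lit 0) (nat_lit 17255113470) (nat_lit 456) (nat_lit 43528865934) (nat_lit 76) (nat_lit 9167366795) (nat_lit 86) (nat_lit 5) (nat_lit 92) (nat_lit 5) (nat_lit 87) (nat_lit 5) (nat_lit 342) (nat_lit 331) (nat_lit 227)) (XT.nd (nat_lit 78) (nat_lit 304) (nat_lit 0) (XT.lf (nat_lit 0) (nat_lit 15749695679) (nat_lit 304) (nat_lit 16616189449) (nat_lit 380) (nat_lit 40794627329) (nat_lit 82) (nat_lit 5) (nat_lit 86) (nat_lit 5) (nat_lit 87) (nat_lit 5) (nat_lit 343) (nat_lit 331) (nat_lit 226)) (XT.lf (nat_lit 0) (nat_lit 4375776096) (nat_lit 304) (nat_lit 45631571945) (nat_lit 380) (nat_lit 26552974302) (nat_lit 78) (nat_lit 5) (nat_lit 82) (nat_lit 5) (nat_lit 83) (nat_lit 5) (nat_lit 344) (nat_lit 331) (nat_lit 225))))) (XT.nd (nat_lit 234) (nat_lit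 760) (nat_lit 0) (XT.nd (nat_lit 78) (nat_lit 608) (nat_lit 0) (XT.lf (nat_lit 0) (nat_lit 70372994462) (nat_lit 380) (nat_lit 7344806804) (nat_lit 76) (nat_lit 2448674099) (nat_lit 78) (nat_lit 5) (nat_lit 83) (nat_lit 5) (nat_lit 79) (nat_lit 5) (nat_lit 345) (nat_lit 331) (nat_lit 224)) (XT.nd (nat_lit 78) (nat_lit 304) (nat_lit 0) (XT.lf (nat_lit 0) (nat_lit 9835647554) (nat_lit 304) (nat_lit 20174498911) (nat_lit 76) (nat_lit 53954753827) (nat_lit 74) (nat_lit 5) (nat_lit 78) (nat_lit 5) (nat_lit 75) (nat_lit 5) (nat_lit 346) (nat_lit 331) (nat_lit 223)) (XT.lf (nat_lit 0) (nat_lit 32028328577) (nat_lit 380) (nat_lit 33975964882) (nat_lit 76) (nat_lit 21988062769) (nat_lit 70) (nat_lit 5) (nat_lit 75) (nat_lit 5) (nat_lit 71) (nat_lit 5) (nat_lit 347) (nat_lit 331) (nat_lit 222)))) (XT.nd (nat_lit 78) (nat_lit 532) (nat_lit 0) (XT.lf (nat_lit 0) (nat_lit 43413603362) (nat_lit 228) (nat_lit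 14121853049) (nat_lit 304) (nat_lit 34729601872) (nat_lit 67) (nat_lit 5) (nat_lit 70) (nat_lit 5) (nat_lit 71) (nat_lit 5) (nat_lit 348) (nat_lit 331) (nat_lit 221)) (XT.nd (nat_lit 78) (nat_lit 304) (nat_lit 0) (XT.lf (nat_lit 0) (nat_lit 31705725217) (nat_lit 228) (nat_lit 55126445148) (nat_lit 304) (nat_lit 9959956512) (nat_lit 64) (nat_lit 5) (nat_lit 67) (nat_lit 5) (nat_lit 68) (nat_lit 5) (nat_lit 349) (nat_lit 331) (nat_lit 220)) (XT.lf (nat_lit 0) (nat_lit 17669681094) (nat_lit 304) (nat_lit 82716678536) (nat_lit 76) (nat_lit 1211102137) (nat_lit 60) (nat_lit 5) (nat_lit 64) (nat_lit 5) (nat_lit 61) (nat_lit 5) (nat_lit 350) (nat_lit 331) (nat_lit 219))))))) (XT.nd (nat_lit 936) (nat_lit 1216) (nat_lit 0) (XT.nd (nat_lit 468) (nat_lit 836) (nat_lit 0) (XT.nd (nat_lit 234) (nat_lit 608) (nat_lit 0) (XT.nd (nat_lit 78) (nat_lit 228) (nat_lit 0) (XT.lf (nat_lit 0) (nat_lit 4174017766)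 (nat_lit 228) (nat_lit 45136702256) (nat_lit 304) (nat_lit 57360841546) (nat_lit 57) (nat_lit 5) (nat_lit 60) (nat_lit 5) (nat_lit 61) (nat_lit 5) (nat_lit 351) (nat_lit 331) (nat_lit 218)) (XT.nd (nat_lit 78) (nat_lit 228) (nat_lit 0) (XT.lf (nat_lit 0) (nat_lit 85172775860) (nat_lit 304) (nat_lit 11362808402) (nat_lit 76) (nat_lit 15531519287) (nat_lit 57) (nat_lit 5) (nat_lit 61) (nat_lit 5) (nat_lit 58) (nat_lit 5) (nat_lit 352) (nat_lit 331) (nat_lit 217)) (XT.lf (nat_lit 0) (nat_lit 8003911226) (nat_lit 228) (nat_lit 28763060560) (nat_lit 76) (nat_lit 81013289332) (nat_lit 54) (nat_lit 5) (nat_lit 57) (nat_lit 5) (nat_lit 55) (nat_lit 5) (nat_lit 353) (nat_lit 331) (nat_lit 216)))) (XT.nd (nat_lit 78) (nat_lit 380) (nat_lit 0) (XT.lf (nat_lit 0) (nat_lit 46612382302) (nat_lit 304) (nat_lit 48460644344) (nat_lit 76) (nat_lit 28762369874) (nat_lit 51) (nat_lit 5) (nat_lit 55) (nat_lit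 5) (nat_lit 52) (nat_lit 5) (nat_lit 354) (nat_lit 331) (nat_lit 215)) (XT.nd (nat_lit 78) (nat_lit 228) (nat_lit 0) (XT.lf (nat_lit 0) (nat_lit 59804542742) (nat_lit 152) (nat_lit 30566494251) (nat_lit 228) (nat_lit 39900831133) (nat_lit 49) (nat_lit 5) (nat_lit 51) (nat_lit 5) (nat_lit 52) (nat_lit 5) (nat_lit 355) (nat_lit 331) (nat_lit 214)) (XT.lf (nat_lit 0) (nat_lit 2551708071) (nat_lit 228) (nat_lit 95160152496) (nat_lit 76) (nat_lit 39403199059) (nat_lit 46) (nat_lit 5) (nat_lit 49) (nat_lit 5) (nat_lit 47) (nat_lit 5) (nat_lit 356) (nat_lit 331) (nat_lit 213))))) (XT.nd (nat_lit 234) (nat_lit 456) (nat_lit 0) (XT.nd (nat_lit 78) (nat_lit 228) (nat_lit 0) (XT.lf (nat_lit 0) (nat_lit 20901468069) (nat_lit 152) (nat_lit 28207785405) (nat_lit 228) (nat_lit 95258411227) (nat_lit 44) (nat_lit 5) (nat_lit 46) (nat_lit 5) (nat_lit 47) (nat_lit 5) (nat_lit 357) (nat_lit 331) (nat_lit 212))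 (XT.nd (nat_lit 78) (nat_lit 228) (nat_lit 0) (XT.lf (nat_lit 0) (nat_lit 101806510457) (nat_lit 228) (nat_lit 3232266021) (nat_lit 76) (nat_lit 47040946813) (nat_lit 44) (nat_lit 5) (nat_lit 47) (nat_lit 5) (nat_lit 45) (nat_lit 5) (nat_lit 358) (nat_lit 331) (nat_lit 211)) (XT.lf (nat_lit 0) (nat_lit 915029123) (nat_lit 228) (nat_lit 29984392607) (nat_lit 76) (nat_lit 129383135798) (nat_lit 41) (nat_lit 5) (nat_lit 44) (nat_lit 5) (nat_lit 42) (nat_lit 5) (nat_lit 359) (nat_lit 331) (nat_lit 210)))) (XT.nd (nat_lit 78) (nat_lit 304) (nat_lit 0) (XT.lf (nat_lit 0) (nat_lit 57014534588) (nat_lit 228) (nat_lit 61725314642) (nat_lit 76) (nat_lit 50231685506) (nat_lit 39) (nat_lit 5) (nat_lit 42) (nat_lit 5) (nat_lit 40) (nat_lit 5) (nat_lit 360) (nat_lit 331) (nat_lit 209)) (XT.nd (nat_lit 78) (nat_lit 152) (nat_lit 0) (XT.lf (nat_lit 0) (nat_lit 80233027051) (nat_lit 152) (nat_lit 39672445640)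 (nat_lit 228) (nat_lit 58334984200) (nat_lit 37) (nat_lit 5) (nat_lit 39) (nat_lit 5) (nat_lit 40) (nat_lit 5) (nat_lit 361) (nat_lit 331) (nat_lit 208)) (XT.lf (nat_lit 0) (nat_lit 2193132804) (nat_lit 152) (nat_lit 139788246204) (nat_lit 76) (nat_lit 46139704793) (nat_lit 35) (nat_lit 5) (nat_lit 37) (nat_lit 5) (nat_lit 36) (nat_lit 5) (nat_lit 362) (nat_lit 331) (nat_lit 207)))))) (XT.nd (nat_lit 468) (nat_lit 684) (nat_lit 0) (XT.nd (nat_lit 234) (nat_lit 228) (nat_lit 0) (XT.nd (nat_lit 78) (nat_lit 152) (nat_lit 0) (XT.lf (nat_lit 0) (nat_lit 9804821564) (nat_lit 152) (nat_lit 58298463735) (nat_lit 228) (nat_lit 130511882325) (nat_lit 33) (nat_lit 5) (nat_lit 35) (nat_lit 5) (nat_lit 36) (nat_lit 5) (nat_lit 363) (nat_lit 331) (nat_lit 206)) (XT.nd (nat_lit 78) (nat_lit 152) (nat_lit 0) (XT.lf (nat_lit 0) (nat_lit 142261063283) (nat_lit 228) (nat_lit 34012385170) (nat_lit 76) (nat_lit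 33526589325) (nat_lit 33) (nat_lit 5) (nat_lit 36) (nat_lit 5) (nat_lit 34) (nat_lit 4) (nat_lit 364) (nat_lit 331) (nat_lit 205)) (XT.lf (nat_lit 0) (nat_lit 3621850396) (nat_lit 152) (nat_lit 85226983280) (nat_lit 76) (nat_lit 132872236649) (nat_lit 31) (nat_lit 5) (nat_lit 33) (nat_lit 5) (nat_lit 32) (nat_lit 5) (nat_lit 365) (nat_lit 331) (nat_lit 204)))) (XT.nd (nat_lit 78) (nat_lit 76) (nat_lit 0) (XT.lf (nat_lit 0) (nat_lit 80269866171) (nat_lit 228) (nat_lit 145590031903) (nat_lit 76) (nat_lit 8572499742) (nat_lit 29) (nat_lit 5) (nat_lit 32) (nat_lit 5) (nat_lit 30) (nat_lit 4) (nat_lit 366) (nat_lit 331) (nat_lit 203)) (XT.nd (nat_lit 78) (nat_lit 0) (nat_lit 0) (XT.lf (nat_lit 0) (nat_lit 31271151351) (nat_lit 76) (nat_lit 135273053299) (nat_lit 152) (nat_lit 81441703005) (nat_lit 28) (nat_lit 5) (nat_lit 29) (nat_lit 5) (nat_lit 30) (nat_lit 4) (nat_lit 367) (nat_lit 331) (nat_lit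 202)) (XT.lf (nat_lit 0) (nat_lit 227478749331) (nat_lit 76) (nat_lit 34777025530) (nat_lit 152) (nat_lit 241159389) (nat_lit 28) (nat_lit 5) (nat_lit 29) (nat_lit 5) (nat_lit 30) (nat_lit 4) (nat_lit 368) (nat_lit 331) (nat_lit 201))))) (XT.nd (nat_lit 234) (nat_lit 380) (nat_lit 0) (XT.nd (nat_lit 78) (nat_lit 76) (nat_lit 0) (XT.lf (nat_lit 0) (nat_lit 88449956968) (nat_lit 228) (nat_lit 114055328265) (nat_lit 76) (nat_lit 75405604245) (nat_lit 25) (nat_lit 5) (nat_lit 28) (nat_lit 5) (nat_lit 26) (nat_lit 4) (nat_lit 369) (nat_lit 331) (nat_lit 200)) (XT.nd (nat_lit 78) (nat_lit 0) (nat_lit 0) (XT.lf (nat_lit 0) (nat_lit 87562988024) (nat_lit 76) (nat_lit 99237813609) (nat_lit 152) (nat_lit 107628317585) (nat_lit 24) (nat_lit 5) (nat_lit 25) (nat_lit 5) (nat_lit 26) (nat_lit 4) (nat_lit 370) (nat_lit 331) (nat_lit 199)) (XT.lf (nat_lit 0) (nat_lit 295230249821) (nat_lit 152) (nat_lit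 3011593237) (nat_lit 0) (nat_lit 13916437632) (nat_lit 24) (nat_lit 5) (nat_lit 26) (nat_lit 4) (nat_lit 24) (nat_lit 4) (nat_lit 371) (nat_lit 331) (nat_lit 198)))) (XT.nd (nat_lit 156) (nat_lit 152) (nat_lit 0) (XT.nd (nat_lit 78) (nat_lit 76) (nat_lit 0) (XT.lf (nat_lit 0) (nat_lit 83667375438) (nat_lit 152) (nat_lit 109796439870) (nat_lit 76) (nat_lit 137517080600) (nat_lit 22) (nat_lit 5) (nat_lit 24) (nat_lit 5) (nat_lit 23) (nat_lit 4) (nat_lit 372) (nat_lit 331) (nat_lit 197)) (XT.lf (nat_lit 0) (nat_lit 115527150771) (nat_lit 76) (nat_lit 78054508870) (nat_lit 152) (nat_lit 157620569337) (nat_lit 21) (nat_lit 5) (nat_lit 22) (nat_lit 5) (nat_lit 23) (nat_lit 4) (nat_lit 373) (nat_lit 331) (nat_lit 196))) (XT.nd (nat_lit 78) (nat_lit 152) (nat_lit 0) (XT.lf (nat_lit 0) (nat_lit 314959776274) (nat_lit 152) (nat_lit 10908079119) (nat_lit 0) (nat_lit 47039878931) (nat_lit 21) (nat_lit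 5) (nat_lit 23) (nat_lit 4) (nat_lit 21) (nat_lit 4) (nat_lit 374) (nat_lit 331) (nat_lit 195)) (XT.lf (nat_lit 0) (nat_lit 53224011901) (nat_lit 152) (nat_lit 158811237951) (nat_lit 76) (nat_lit 184019823187) (nat_lit 19) (nat_lit 5) (nat_lit 21) (nat_lit 5) (nat_lit 20) (nat_lit 4) (nat_lit 375) (nat_lit 331) (nat_lit 194))))))))
noncomputable def xc97 : XT := (XT.nd (nat_lit 44070) (nat_lit 0) (nat_lit 1900) (XT.nd (nat_lit 936) (nat_lit 228) (nat_lit 0) (XT.nd (nat_lit 468) (nat_lit 304) (nat_lit 0) (XT.nd (nat_lit 234) (nat_lit 152) (nat_lit 0) (XT.nd (nat_lit 78) (nat_lit 76) (nat_lit 0) (XT.lf (nat_lit 0) (nat_lit 86376042817) (nat_lit 76) (nat_lit 86451775874) (nat_lit 152) (nat_lit 248100467257) (nat_lit 18) (nat_lit 5) (nat_lit 19) (nat_lit 5) (nat_lit 20) (nat_lit 4) (nat_lit 376) (nat_lit 331) (nat_lit 193)) (XT.nd (nat_lit 78) (nat_lit 76) (nat_lit 0) (XT.lf (nat_lit 0) (nat_lit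 305578952804) (nat_lit 152) (nat_lit 91617803903) (nat_lit 0) (nat_lit 50415648133) (nat_lit 18) (nat_lit 5) (nat_lit 20) (nat_lit 4) (nat_lit 18) (nat_lit 4) (nat_lit 377) (nat_lit 331) (nat_lit 192)) (XT.lf (nat_lit 0) (nat_lit 174890303558) (nat_lit 76) (nat_lit 278247646489) (nat_lit 76) (nat_lit 23083914657) (nat_lit 17) (nat_lit 4) (nat_lit 18) (nat_lit 5) (nat_lit 18) (nat_lit 4) (nat_lit 378) (nat_lit 331) (nat_lit 191)))) (XT.nd (nat_lit 78) (nat_lit 76) (nat_lit 0) (XT.lf (nat_lit 0) (nat_lit 103630326952) (nat_lit 152) (nat_lit 42721957098) (nat_lit 76) (nat_lit 360604451777) (nat_lit 16) (nat_lit 5) (nat_lit 18) (nat_lit 5) (nat_lit 17) (nat_lit 4) (nat_lit 379) (nat_lit 331) (nat_lit 190)) (XT.nd (nat_lit 78) (nat_lit 0) (nat_lit 0) (XT.lf (nat_lit 0) (nat_lit 243500640990) (nat_lit 152) (nat_lit 295952612839) (nat_lit 0) (nat_lit 486837586) (nat_lit 15) (nat_lit 5) (nat_lit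 17) (nat_lit 4) (nat_lit 15) (nat_lit 4) (nat_lit 380) (nat_lit 331) (nat_lit 189)) (XT.lf (nat_lit 0) (nat_lit 397784309413) (nat_lit 152) (nat_lit 22846436573) (nat_lit 0) (nat_lit 154770183061) (nat_lit 15) (nat_lit 5) (nat_lit 17) (nat_lit 4) (nat_lit 15) (nat_lit 4) (nat_lit 381) (nat_lit 331) (nat_lit 188))))) (XT.nd (nat_lit 234) (nat_lit 76) (nat_lit 0) (XT.nd (nat_lit 78) (nat_lit 152) (nat_lit 0) (XT.lf (nat_lit 0) (nat_lit 281104576216) (nat_lit 76) (nat_lit 287694530567) (nat_lit 76) (nat_lit 44680105190) (nat_lit 14) (nat_lit 4) (nat_lit 15) (nat_lit 5) (nat_lit 15) (nat_lit 4) (nat_lit 382) (nat_lit 331) (nat_lit 187)) (XT.nd (nat_lit 78) (nat_lit 76) (nat_lit 0) (XT.lf (nat_lit 0) (nat_lit 96130301448) (nat_lit 152) (nat_lit 45947584283) (nat_lit 76) (nat_lit 512428467752) (nat_lit 13) (nat_lit 5) (nat_lit 15) (nat_lit 5) (nat_lit 14) (nat_lit 4) (nat_lit 383) (nat_lit 331)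 (nat_lit 186)) (XT.lf (nat_lit 0) (nat_lit 251215780789) (nat_lit 152) (nat_lit 427561518804) (nat_lit 0) (nat_lit 19772963058) (nat_lit 12) (nat_lit 5) (nat_lit 14) (nat_lit 4) (nat_lit 12) (nat_lit 4) (nat_lit 384) (nat_lit 331) (nat_lit 185)))) (XT.nd (nat_lit 78) (nat_lit 76) (nat_lit 0) (XT.lf (nat_lit 0) (nat_lit 421916945785) (nat_lit 152) (nat_lit 133566394464) (nat_lit 0) (nat_lit 190473901981) (nat_lit 12) (nat_lit 5) (nat_lit 14) (nat_lit 4) (nat_lit 12) (nat_lit 4) (nat_lit 385) (nat_lit 331) (nat_lit 184)) (XT.nd (nat_lit 78) (nat_lit 0) (nat_lit 0) (XT.lf (nat_lit 0) (nat_lit 190029864859) (nat_lit 76) (nat_lit 419210919728) (nat_lit 76) (nat_lit 187767666598) (nat_lit 11) (nat_lit 4) (nat_lit 12) (nat_lit 5) (nat_lit 12) (nat_lit 4) (nat_lit 386) (nat_lit 331) (nat_lit 183)) (XT.lf (nat_lit 0) (nat_lit 544282847224) (nat_lit 76) (nat_lit 269594019895) (nat_lit 76) (nat_lit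 38150572944) (nat_lit 11) (nat_lit 4) (nat_lit 12) (nat_lit 5) (nat_lit 12) (nat_lit 4) (nat_lit 387) (nat_lit 331) (nat_lit 182)))))) (XT.nd (nat_lit 42588) (nat_lit 0) (nat_lit 7068) (XT.nd (nat_lit 234) (nat_lit 76) (nat_lit 0) (XT.nd (nat_lit 78) (nat_lit 0) (nat_lit 0) (XT.lf (nat_lit 0) (nat_lit 13946767328) (nat_lit 76) (nat_lit 105755863765) (nat_lit 152) (nat_lit 791638084873) (nat_lit 9) (nat_lit 5) (nat_lit 10) (nat_lit 5) (nat_lit 11) (nat_lit 4) (nat_lit 388) (nat_lit 331) (nat_lit 181)) (XT.nd (nat_lit 78) (nat_lit 0) (nat_lit 0) (XT.lf (nat_lit 0) (nat_lit 295425131202) (nat_lit 152) (nat_lit 604611297710) (nat_lit 0) (nat_lit 75002471599) (nat_lit 9) (nat_lit 5) (nat_lit 11) (nat_lit 4) (nat_lit 9) (nat_lit 4) (nat_lit 389) (nat_lit 331) (nat_lit 180)) (XT.lf (nat_lit 0) (nat_lit 486988411785) (nat_lit 152) (nat_lit 290189773392) (nat_lit 0) (nat_lit 266565605647) (nat_lit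 9) (nat_lit 5) (nat_lit 11) (nat_lit 4) (nat_lit 9) (nat_lit 4) (nat_lit 390) (nat_lit 331) (nat_lit 179)))) (XT.nd (nat_lit 78) (nat_lit 0) (nat_lit 0) (XT.lf (nat_lit 0) (nat_lit 51017899796) (nat_lit 76) (nat_lit 643655149834) (nat_lit 76) (nat_lit 423232208016) (nat_lit 8) (nat_lit 4) (nat_lit 9) (nat_lit 5) (nat_lit 9) (nat_lit 4) (nat_lit 391) (nat_lit 331) (nat_lit 178)) (XT.nd (nat_lit 42198) (nat_lit 0) (nat_lit 7448) (XT.lf (nat_lit 0) (nat_lit 429884325744) (nat_lit 76) (nat_lit 494142824478) (nat_lit 76) (nat_lit 273719757030) (nat_lit 8) (nat_lit 4) (nat_lit 9) (nat_lit 5) (nat_lit 9) (nat_lit 4) (nat_lit 392) (nat_lit 331) (nat_lit 177)) (XT.lf (nat_lit 0) (nat_lit 3922097639) (nat_lit 836) (nat_lit 9992559323) (nat_lit 836) (nat_lit 9992559323) (nat_lit 106) (nat_lit 3) (nat_lit 117) (nat_lit 3) (nat_lit 117) (nat_lit 5) (nat_lit 332) (nat_lit 332) (nat_lit 236))))) (XT.nd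 (nat_lit 234) (nat_lit 456) (nat_lit 0) (XT.nd (nat_lit 78) (nat_lit 0) (nat_lit 0) (XT.lf (nat_lit 0) (nat_lit 8603815385) (nat_lit 760) (nat_lit 32731402786) (nat_lit 836) (nat_lit 8369461260) (nat_lit 107) (nat_lit 5) (nat_lit 117) (nat_lit 5) (nat_lit 118) (nat_lit 5) (nat_lit 333) (nat_lit 332) (nat_lit 235)) (XT.nd (nat_lit 78) (nat_lit 0) (nat_lit 76) (XT.lf (nat_lit 76) (nat_lit 5574085429) (nat_lit 0) (nat_lit 4755862603) (nat_lit 836) (nat_lit 41370914647) (nat_lit 108) (nat_lit 5) (nat_lit 107) (nat_lit 5) (nat_lit 118) (nat_lit 5) (nat_lit 334) (nat_lit 332) (nat_lit 234)) (XT.lf (nat_lit 0) (nat_lit 13312157627) (nat_lit 760) (nat_lit 6270025785) (nat_lit 836) (nat_lit 34218661362) (nat_lit 108) (nat_lit 5) (nat_lit 118) (nat_lit 5) (nat_lit 119) (nat_lit 5) (nat_lit 335) (nat_lit 332) (nat_lit 233)))) (XT.nd (nat_lit 156) (nat_lit 608) (nat_lit 0) (XT.nd (nat_lit 78) (nat_lit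 0) (nat_lit 76) (XT.lf (nat_lit 0) (nat_lit 17524445889) (nat_lit 760) (nat_lit 18452919715) (nat_lit 836) (nat_lit 20041887982) (nat_lit 109) (nat_lit 5) (nat_lit 119) (nat_lit 5) (nat_lit 120) (nat_lit 5) (nat_lit 336) (nat_lit 332) (nat_lit 232)) (XT.lf (nat_lit 0) (nat_lit 23004568275) (nat_lit 760) (nat_lit 31177725689) (nat_lit 836) (nat_lit 4186301589) (nat_lit 110) (nat_lit 5) (nat_lit 120) (nat_lit 5) (nat_lit 121) (nat_lit 5) (nat_lit 337) (nat_lit 332) (nat_lit 231))) (XT.nd (nat_lit 78) (nat_lit 684) (nat_lit 0) (XT.lf (nat_lit 76) (nat_lit 16157844123) (nat_lit 0) (nat_lit 13947605286) (nat_lit 836) (nat_lit 30741320804) (nat_lit 111) (nat_lit 5) (nat_lit 110) (nat_lit 5) (nat_lit 121) (nat_lit 5) (nat_lit 338) (nat_lit 332) (nat_lit 230)) (XT.lf (nat_lit 0) (nat_lit 4571569965) (nat_lit 760) (nat_lit 34283812387) (nat_lit 836) (nat_lit 24613770004) (nat_lit 101) (nat_lit 5)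 (nat_lit 111) (nat_lit 5) (nat_lit 112) (nat_lit 5) (nat_lit 339) (nat_lit 332) (nat_lit 229))))))) (XT.nd (nat_lit 936) (nat_lit 2052) (nat_lit 0) (XT.nd (nat_lit 468) (nat_lit 1368) (nat_lit 0) (XT.nd (nat_lit 234) (nat_lit 988) (nat_lit 0) (XT.nd (nat_lit 78) (nat_lit 760) (nat_lit 0) (XT.lf (nat_lit 0) (nat_lit 49465450358) (nat_lit 836) (nat_lit 7280999435) (nat_lit 76) (nat_lit 9496870639) (nat_lit 101) (nat_lit 5) (nat_lit 112) (nat_lit 5) (nat_lit 102) (nat_lit 5) (nat_lit 340) (nat_lit 332) (nat_lit 228)) (XT.nd (nat_lit 78) (nat_lit 380) (nat_lit 0) (XT.lf (nat_lit 0) (nat_lit 49467527786) (nat_lit 380) (nat_lit 12804551200) (nat_lit 456) (nat_lit 6899957418) (nat_lit 96) (nat_lit 5) (nat_lit 101) (nat_lit 5) (nat_lit 102) (nat_lit 5) (nat_lit 341) (nat_lit 332) (nat_lit 227)) (XT.lf (nat_lit 0) (nat_lit 4951228925) (nat_lit 380) (nat_lit 32948102011) (nat_lit 76) (nat_lit 34367596756)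 (nat_lit 91) (nat_lit 5) (nat_lit 96) (nat_lit 5) (nat_lit 92) (nat_lit 5) (nat_lit 342) (nat_lit 332) (nat_lit 226)))) (XT.nd (nat_lit 78) (nat_lit 608) (nat_lit 0) (XT.lf (nat_lit 0) (nat_lit 18683084063) (nat_lit 456) (nat_lit 46957438441) (nat_lit 76) (nat_lit 9904518138) (nat_lit 86) (nat_lit 5) (nat_lit 92) (nat_lit 5) (nat_lit 87) (nat_lit 5) (nat_lit 343) (nat_lit 332) (nat_lit 225)) (XT.nd (nat_lit 78) (nat_lit 304) (nat_lit 0) (XT.lf (nat_lit 0) (nat_lit 17061072767) (nat_lit 304) (nat_lit 17938924132) (nat_lit 380) (nat_lit 44011081935) (nat_lit 82) (nat_lit 5) (nat_lit 86) (nat_lit 5) (nat_lit 87) (nat_lit 5) (nat_lit 344) (nat_lit 332) (nat_lit 224)) (XT.lf (nat_lit 0) (nat_lit 4777083565) (nat_lit 304) (nat_lit 49273266651) (nat_lit 380) (nat_lit 28632647038) (nat_lit 78) (nat_lit 5) (nat_lit 82) (nat_lit 5) (nat_lit 83) (nat_lit 5) (nat_lit 345) (nat_lit 332) (nat_lit 223)))))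 (XT.nd (nat_lit 234) (nat_lit 760) (nat_lit 0) (XT.nd (nat_lit 78) (nat_lit 608) (nat_lit 0) (XT.lf (nat_lit 0) (nat_lit 76042234213) (nat_lit 380) (nat_lit 7883078034) (nat_lit 76) (nat_lit 2652483213) (nat_lit 78) (nat_lit 5) (nat_lit 83) (nat_lit 5) (nat_lit 79) (nat_lit 5) (nat_lit 346) (nat_lit 332) (nat_lit 222)) (XT.nd (nat_lit 78) (nat_lit 304) (nat_lit 0) (XT.lf (nat_lit 0) (nat_lit 10660352641) (nat_lit 304) (nat_lit 21740012381) (nat_lit 76) (nat_lit 58279810005) (nat_lit 74) (nat_lit 5) (nat_lit 78) (nat_lit 5) (nat_lit 75) (nat_lit 5) (nat_lit 347) (nat_lit 332) (nat_lit 221)) (XT.lf (nat_lit 0) (nat_lit 34626532711) (nat_lit 380) (nat_lit 36646054608) (nat_lit 76) (nat_lit 23757337714) (nat_lit 70) (nat_lit 5) (nat_lit 75) (nat_lit 5) (nat_lit 71) (nat_lit 5) (nat_lit 348) (nat_lit 332) (nat_lit 220)))) (XT.nd (nat_lit 78) (nat_lit 532) (nat_lit 0) (XT.lf (nat_lit 0) (nat_lit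 46932593619) (nat_lit 228) (nat_lit 15239691749) (nat_lit 304) (nat_lit 37472256844) (nat_lit 67) (nat_lit 5) (nat_lit 70) (nat_lit 5) (nat_lit 71) (nat_lit 5) (nat_lit 349) (nat_lit 332) (nat_lit 219)) (XT.nd (nat_lit 78) (nat_lit 304) (nat_lit 0) (XT.lf (nat_lit 0) (nat_lit 34287558471) (nat_lit 228) (nat_lit 59523540611) (nat_lit 304) (nat_lit 10722760643) (nat_lit 64) (nat_lit 5) (nat_lit 67) (nat_lit 5) (nat_lit 68) (nat_lit 5) (nat_lit 350) (nat_lit 332) (nat_lit 218)) (XT.lf (nat_lit 0) (nat_lit 19114624469) (nat_lit 304) (nat_lit 89288183399) (nat_lit 76) (nat_lit 1320865156) (nat_lit 60) (nat_lit 5) (nat_lit 64) (nat_lit 5) (nat_lit 61) (nat_lit 5) (nat_lit 351) (nat_lit 332) (nat_lit 217)))))) (XT.nd (nat_lit 468) (nat_lit 988) (nat_lit 0) (XT.nd (nat_lit 234) (nat_lit 608) (nat_lit 0) (XT.nd (nat_lit 78) (nat_lit 228) (nat_lit 0) (XT.lf (nat_lit 0) (nat_lit 4551776916) (nat_lit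 228) (nat_lit 48733530405) (nat_lit 304) (nat_lit 61918476727) (nat_lit 57) (nat_lit 5) (nat_lit 60) (nat_lit 5) (nat_lit 61) (nat_lit 5) (nat_lit 352) (nat_lit 332) (nat_lit 216)) (XT.nd (nat_lit 78) (nat_lit 228) (nat_lit 0) (XT.lf (nat_lit 0) (nat_lit 92014329376) (nat_lit 304) (nat_lit 12230055381) (nat_lit 76) (nat_lit 16786685725) (nat_lit 57) (nat_lit 5) (nat_lit 61) (nat_lit 5) (nat_lit 58) (nat_lit 5) (nat_lit 353) (nat_lit 332) (nat_lit 215)) (XT.lf (nat_lit 0) (nat_lit 8670969723) (nat_lit 228) (nat_lit 31023245956) (nat_lit 76) (nat_lit 87507116016) (nat_lit 54) (nat_lit 5) (nat_lit 57) (nat_lit 5) (nat_lit 55) (nat_lit 5) (nat_lit 354) (nat_lit 332) (nat_lit 214)))) (XT.nd (nat_lit 78) (nat_lit 380) (nat_lit 0) (XT.lf (nat_lit 0) (nat_lit 50366961574) (nat_lit 304) (nat_lit 52297345382) (nat_lit 76) (nat_lit 31076629784) (nat_lit 51) (nat_lit 5) (nat_lit 55) (nat_lit 5) (nat_lit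 52) (nat_lit 5) (nat_lit 355) (nat_lit 332) (nat_lit 213)) (XT.nd (nat_lit 78) (nat_lit 228) (nat_lit 0) (XT.lf (nat_lit 0) (nat_lit 64627311779) (nat_lit 152) (nat_lit 32997701022) (nat_lit 228) (nat_lit 43067378959) (nat_lit 49) (nat_lit 5) (nat_lit 51) (nat_lit 5) (nat_lit 52) (nat_lit 5) (nat_lit 356) (nat_lit 332) (nat_lit 212)) (XT.lf (nat_lit 0) (nat_lit 2779522442) (nat_lit 228) (nat_lit 102734473615) (nat_lit 76) (nat_lit 42569074599) (nat_lit 46) (nat_lit 5) (nat_lit 49) (nat_lit 5) (nat_lit 47) (nat_lit 5) (nat_lit 357) (nat_lit 332) (nat_lit 211))))) (XT.nd (nat_lit 234) (nat_lit 608) (nat_lit 0) (XT.nd (nat_lit 78) (nat_lit 228) (nat_lit 0) (XT.lf (nat_lit 0) (nat_lit 22610403820) (nat_lit 152) (nat_lit 30450088589) (nat_lit 228) (nat_lit 102855451413) (nat_lit 44) (nat_lit 5) (nat_lit 46) (nat_lit 5) (nat_lit 47) (nat_lit 5) (nat_lit 358) (nat_lit 332) (nat_lit 210)) (XT.nd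 (nat_lit 78) (nat_lit 228) (nat_lit 0) (XT.lf (nat_lit 0) (nat_lit 109972070392) (nat_lit 228) (nat_lit 3455913236) (nat_lit 76) (nat_lit 50817057124) (nat_lit 44) (nat_lit 5) (nat_lit 47) (nat_lit 5) (nat_lit 45) (nat_lit 5) (nat_lit 359) (nat_lit 332) (nat_lit 209)) (XT.lf (nat_lit 0) (nat_lit 1008569295) (nat_lit 228) (nat_lit 32349048232) (nat_lit 76) (nat_lit 139746520264) (nat_lit 41) (nat_lit 5) (nat_lit 44) (nat_lit 5) (nat_lit 42) (nat_lit 5) (nat_lit 360) (nat_lit 332) (nat_lit 208)))) (XT.nd (nat_lit 156) (nat_lit 304) (nat_lit 0) (XT.nd (nat_lit 78) (nat_lit 152) (nat_lit 0) (XT.lf (nat_lit 0) (nat_lit 61595245123) (nat_lit 228) (nat_lit 66629959102) (nat_lit 76) (nat_lit 54263069004) (nat_lit 39) (nat_lit 5) (nat_lit 42) (nat_lit 5) (nat_lit 40) (nat_lit 5) (nat_lit 361) (nat_lit 332) (nat_lit 207)) (XT.lf (nat_lit 0) (nat_lit 86683599240) (nat_lit 152) (nat_lit 42832909567)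 (nat_lit 228) (nat_lit 62982248333) (nat_lit 37) (nat_lit 5) (nat_lit 39) (nat_lit 5) (nat_lit 40) (nat_lit 5) (nat_lit 362) (nat_lit 332) (nat_lit 206))) (XT.nd (nat_lit 78) (nat_lit 152) (nat_lit 0) (XT.lf (nat_lit 0) (nat_lit 2386783717) (nat_lit 152) (nat_lit 150939459588) (nat_lit 76) (nat_lit 49843611554) (nat_lit 35) (nat_lit 5) (nat_lit 37) (nat_lit 5) (nat_lit 36) (nat_lit 5) (nat_lit 363) (nat_lit 332) (nat_lit 205)) (XT.lf (nat_lit 0) (nat_lit 10619669599) (nat_lit 152) (nat_lit 62949206245) (nat_lit 228) (nat_lit 140934633590) (nat_lit 33) (nat_lit 5) (nat_lit 35) (nat_lit 5) (nat_lit 36) (nat_lit 5) (nat_lit 364) (nat_lit 332) (nat_lit 204))))))))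
noncomputable def xc98 : XT := (XT.nd (nat_lit 1872) (nat_lit 152) (nat_lit 0) (XT.nd (nat_lit 936) (nat_lit 608) (nat_lit 0) (XT.nd (nat_lit 468) (nat_lit 456) (nat_lit 0) (XT.nd (nat_lit 234) (nat_lit 304) (nat_lit 0) (XT.nd (nat_lit 78) (nat_lit 304) (nat_lit 0) (XT.lf (nat_lit 0) (nat_lit 153658182409) (nat_lit 228) (nat_lit 36704552981) (nat_lit 76) (nat_lit 36220488879) (nat_lit 33) (nat_lit 5) (nat_lit 36) (nat_lit 5) (nat_lit 34) (nat_lit 4) (nat_lit 365) (nat_lit 332) (nat_lit 203)) (XT.nd (nat_lit 78) (nat_lit 152) (nat_lit 0) (XT.lf (nat_lit 0) (nat_lit 3927318223) (nat_lit 152) (nat_lit 92017047526) (nat_lit 76) (nat_lit 143513599954) (nat_lit 31) (nat_lit 5) (nat_lit 33) (nat_lit 5) (nat_lit 32) (nat_lit 5) (nat_lit 366) (nat_lit 332) (nat_lit 202)) (XT.lf (nat_lit 0) (nat_lit 86706616170) (nat_lit 228) (nat_lit 157209794069) (nat_lit 76) (nat_lit 9269817426) (nat_lit 29) (nat_lit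 5) (nat_lit 32) (nat_lit 5) (nat_lit 30) (nat_lit 4) (nat_lit 367) (nat_lit 332) (nat_lit 201)))) (XT.nd (nat_lit 78) (nat_lit 228) (nat_lit 0) (XT.lf (nat_lit 0) (nat_lit 33799091320) (nat_lit 76) (nat_lit 146083097195) (nat_lit 152) (nat_lit 87941865728) (nat_lit 28) (nat_lit 5) (nat_lit 29) (nat_lit 5) (nat_lit 30) (nat_lit 4) (nat_lit 368) (nat_lit 332) (nat_lit 200)) (XT.nd (nat_lit 78) (nat_lit 228) (nat_lit 0) (XT.lf (nat_lit 0) (nat_lit 245701352852) (nat_lit 76) (nat_lit 37548261306) (nat_lit 152) (nat_lit 246402586) (nat_lit 28) (nat_lit 5) (nat_lit 29) (nat_lit 5) (nat_lit 30) (nat_lit 4) (nat_lit 369) (nat_lit 332) (nat_lit 199)) (XT.lf (nat_lit 0) (nat_lit 95539083071) (nat_lit 228) (nat_lit 123155590199) (nat_lit 76) (nat_lit 81448427909) (nat_lit 25) (nat_lit 5) (nat_lit 28) (nat_lit 5) (nat_lit 26) (nat_lit 4) (nat_lit 370) (nat_lit 332) (nat_lit 198))))) (XT.nd (nat_lit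 234) (nat_lit 228) (nat_lit 0) (XT.nd (nat_lit 78) (nat_lit 152) (nat_lit 0) (XT.lf (nat_lit 0) (nat_lit 94591141241) (nat_lit 76) (nat_lit 107166242385) (nat_lit 152) (nat_lit 116225436475) (nat_lit 24) (nat_lit 5) (nat_lit 25) (nat_lit 5) (nat_lit 26) (nat_lit 4) (nat_lit 371) (nat_lit 332) (nat_lit 197)) (XT.nd (nat_lit 78) (nat_lit 152) (nat_lit 0) (XT.lf (nat_lit 0) (nat_lit 318860413604) (nat_lit 152) (nat_lit 3230689778) (nat_lit 0) (nat_lit 15039250017) (nat_lit 24) (nat_lit 5) (nat_lit 26) (nat_lit 4) (nat_lit 24) (nat_lit 4) (nat_lit 372) (nat_lit 332) (nat_lit 196)) (XT.lf (nat_lit 0) (nat_lit 90372151285) (nat_lit 152) (nat_lit 118558894168) (nat_lit 76) (nat_lit 148527750584) (nat_lit 22) (nat_lit 5) (nat_lit 24) (nat_lit 5) (nat_lit 23) (nat_lit 4) (nat_lit 373) (nat_lit 332) (nat_lit 195)))) (XT.nd (nat_lit 78) (nat_lit 152) (nat_lit 0) (XT.lf (nat_lit 0) (nat_lit 124789659752)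 (nat_lit 76) (nat_lit 84289392594) (nat_lit 152) (nat_lit 170218809866) (nat_lit 21) (nat_lit 5) (nat_lit 22) (nat_lit 5) (nat_lit 23) (nat_lit 4) (nat_lit 374) (nat_lit 332) (nat_lit 194)) (XT.nd (nat_lit 78) (nat_lit 152) (nat_lit 0) (XT.lf (nat_lit 0) (nat_lit 340166750873) (nat_lit 152) (nat_lit 11761527262) (nat_lit 0) (nat_lit 50811563377) (nat_lit 21) (nat_lit 5) (nat_lit 23) (nat_lit 4) (nat_lit 21) (nat_lit 4) (nat_lit 375) (nat_lit 332) (nat_lit 193)) (XT.lf (nat_lit 0) (nat_lit 57491818207) (nat_lit 152) (nat_lit 171497444573) (nat_lit 76) (nat_lit 198749720132) (nat_lit 19) (nat_lit 5) (nat_lit 21) (nat_lit 5) (nat_lit 20) (nat_lit 4) (nat_lit 376) (nat_lit 332) (nat_lit 192)))))) (XT.nd (nat_lit 468) (nat_lit 304) (nat_lit 0) (XT.nd (nat_lit 234) (nat_lit 152) (nat_lit 0) (XT.nd (nat_lit 78) (nat_lit 76) (nat_lit 0) (XT.lf (nat_lit 0) (nat_lit 93304006307) (nat_lit 76) (nat_lit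 93359470143) (nat_lit 152) (nat_lit 267938599184) (nat_lit 18) (nat_lit 5) (nat_lit 19) (nat_lit 5) (nat_lit 20) (nat_lit 4) (nat_lit 377) (nat_lit 332) (nat_lit 191)) (XT.nd (nat_lit 78) (nat_lit 76) (nat_lit 0) (XT.lf (nat_lit 0) (nat_lit 330034124729) (nat_lit 152) (nat_lit 98930356584) (nat_lit 0) (nat_lit 54456471668) (nat_lit 18) (nat_lit 5) (nat_lit 20) (nat_lit 4) (nat_lit 18) (nat_lit 4) (nat_lit 378) (nat_lit 332) (nat_lit 190)) (XT.lf (nat_lit 0) (nat_lit 188897666253) (nat_lit 76) (nat_lit 300499771486) (nat_lit 76) (nat_lit 24921752204) (nat_lit 17) (nat_lit 4) (nat_lit 18) (nat_lit 5) (nat_lit 18) (nat_lit 4) (nat_lit 379) (nat_lit 332) (nat_lit 189)))) (XT.nd (nat_lit 78) (nat_lit 76) (nat_lit 0) (XT.lf (nat_lit 0) (nat_lit 111928708248) (nat_lit 152) (nat_lit 46124506468) (nat_lit 76) (nat_lit 389459661028) (nat_lit 16) (nat_lit 5) (nat_lit 18) (nat_lit 5) (nat_lit 17) (nat_lit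 4) (nat_lit 380) (nat_lit 332) (nat_lit 188)) (XT.nd (nat_lit 78) (nat_lit 0) (nat_lit 0) (XT.lf (nat_lit 0) (nat_lit 262988393808) (nat_lit 152) (nat_lit 319614003362) (nat_lit 0) (nat_lit 532515376) (nat_lit 15) (nat_lit 5) (nat_lit 17) (nat_lit 4) (nat_lit 15) (nat_lit 4) (nat_lit 381) (nat_lit 332) (nat_lit 187)) (XT.lf (nat_lit 0) (nat_lit 429614185221) (nat_lit 152) (nat_lit 24660430662) (nat_lit 0) (nat_lit 167158029913) (nat_lit 15) (nat_lit 5) (nat_lit 17) (nat_lit 4) (nat_lit 15) (nat_lit 4) (nat_lit 382) (nat_lit 332) (nat_lit 186))))) (XT.nd (nat_lit 234) (nat_lit 76) (nat_lit 0) (XT.nd (nat_lit 78) (nat_lit 152) (nat_lit 0) (XT.lf (nat_lit 0) (nat_lit 303606066859) (nat_lit 76) (nat_lit 310703776205) (nat_lit 76) (nat_lit 48247364532) (nat_lit 14) (nat_lit 4) (nat_lit 15) (nat_lit 5) (nat_lit 15) (nat_lit 4) (nat_lit 383) (nat_lit 332) (nat_lit 185)) (XT.nd (nat_lit 78) (nat_lit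 76) (nat_lit 0) (XT.lf (nat_lit 0) (nat_lit 103827133210) (nat_lit 152) (nat_lit 49611025967) (nat_lit 76) (nat_lit 553428381366) (nat_lit 13) (nat_lit 5) (nat_lit 15) (nat_lit 5) (nat_lit 14) (nat_lit 4) (nat_lit 384) (nat_lit 332) (nat_lit 184)) (XT.lf (nat_lit 0) (nat_lit 271319250071) (nat_lit 152) (nat_lit 461754395114) (nat_lit 0) (nat_lit 21360327364) (nat_lit 12) (nat_lit 5) (nat_lit 14) (nat_lit 4) (nat_lit 12) (nat_lit 4) (nat_lit 385) (nat_lit 332) (nat_lit 183)))) (XT.nd (nat_lit 78) (nat_lit 76) (nat_lit 0) (XT.lf (nat_lit 0) (nat_lit 455676048502) (nat_lit 152) (nat_lit 144240553063) (nat_lit 0) (nat_lit 205716931975) (nat_lit 12) (nat_lit 5) (nat_lit 14) (nat_lit 4) (nat_lit 12) (nat_lit 4) (nat_lit 386) (nat_lit 332) (nat_lit 182)) (XT.nd (nat_lit 78) (nat_lit 0) (nat_lit 0) (XT.lf (nat_lit 0) (nat_lit 205242922312) (nat_lit 76) (nat_lit 452742612951) (nat_lit 76) (nat_lit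 202783316960) (nat_lit 11) (nat_lit 4) (nat_lit 12) (nat_lit 5) (nat_lit 12) (nat_lit 4) (nat_lit 387) (nat_lit 332) (nat_lit 181)) (XT.lf (nat_lit 0) (nat_lit 587835353024) (nat_lit 76) (nat_lit 291156744861) (nat_lit 76) (nat_lit 41197282700) (nat_lit 11) (nat_lit 4) (nat_lit 12) (nat_lit 5) (nat_lit 12) (nat_lit 4) (nat_lit 388) (nat_lit 332) (nat_lit 180))))))) (XT.nd (nat_lit 43212) (nat_lit 0) (nat_lit 3648) (XT.nd (nat_lit 42744) (nat_lit 0) (nat_lit 6992) (XT.nd (nat_lit 42510) (nat_lit 0) (nat_lit 7372) (XT.nd (nat_lit 78) (nat_lit 0) (nat_lit 0) (XT.lf (nat_lit 0) (nat_lit 15072121374) (nat_lit 76) (nat_lit 114211652964) (nat_lit 152) (nat_lit 854963951726) (nat_lit 9) (nat_lit 5) (nat_lit 10) (nat_lit 5) (nat_lit 11) (nat_lit 4) (nat_lit 389) (nat_lit 332) (nat_lit 179)) (XT.nd (nat_lit 78) (nat_lit 0) (nat_lit 0) (XT.lf (nat_lit 0) (nat_lit 319063776721) (nat_lit 152) (nat_lit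 652971139700) (nat_lit 0) (nat_lit 81006863878) (nat_lit 9) (nat_lit 5) (nat_lit 11) (nat_lit 4) (nat_lit 9) (nat_lit 4) (nat_lit 390) (nat_lit 332) (nat_lit 178)) (XT.lf (nat_lit 0) (nat_lit 525951776415) (nat_lit 152) (nat_lit 313396564684) (nat_lit 0) (nat_lit 287894737943) (nat_lit 9) (nat_lit 5) (nat_lit 11) (nat_lit 4) (nat_lit 9) (nat_lit 4) (nat_lit 391) (nat_lit 332) (nat_lit 177)))) (XT.nd (nat_lit 78) (nat_lit 0) (nat_lit 76) (XT.lf (nat_lit 0) (nat_lit 4278463321) (nat_lit 836) (nat_lit 10769581728) (nat_lit 836) (nat_lit 10769581728) (nat_lit 106) (nat_lit 3) (nat_lit 117) (nat_lit 3) (nat_lit 117) (nat_lit 5) (nat_lit 333) (nat_lit 333) (nat_lit 234)) (XT.nd (nat_lit 78) (nat_lit 0) (nat_lit 0) (XT.lf (nat_lit 0) (nat_lit 9371100565) (nat_lit 760) (nat_lit 35302476183) (nat_lit 836) (nat_lit 9003459675) (nat_lit 107) (nat_lit 5) (nat_lit 117) (nat_lit 5) (nat_lit 118) (nat_lit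 5) (nat_lit 334) (nat_lit 333) (nat_lit 233)) (XT.lf (nat_lit 76) (nat_lit 6065389456) (nat_lit 0) (nat_lit 5164792466) (nat_lit 836) (nat_lit 44602994567) (nat_lit 108) (nat_lit 5) (nat_lit 107) (nat_lit 5) (nat_lit 118) (nat_lit 5) (nat_lit 335) (nat_lit 333) (nat_lit 232))))) (XT.nd (nat_lit 234) (nat_lit 532) (nat_lit 0) (XT.nd (nat_lit 78) (nat_lit 0) (nat_lit 76) (XT.lf (nat_lit 0) (nat_lit 14445087362) (nat_lit 760) (nat_lit 6725723448) (nat_lit 836) (nat_lit 36930645076) (nat_lit 108) (nat_lit 5) (nat_lit 118) (nat_lit 5) (nat_lit 119) (nat_lit 5) (nat_lit 336) (nat_lit 333) (nat_lit 231)) (XT.nd (nat_lit 78) (nat_lit 0) (nat_lit 76) (XT.lf (nat_lit 0) (nat_lit 18989702810) (nat_lit 760) (nat_lit 19881701568) (nat_lit 836) (nat_lit 21626170161) (nat_lit 109) (nat_lit 5) (nat_lit 119) (nat_lit 5) (nat_lit 120) (nat_lit 5) (nat_lit 337) (nat_lit 333) (nat_lit 230)) (XT.lf (nat_lit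 0) (nat_lit 24904037156) (nat_lit 760) (nat_lit 33623320409) (nat_lit 836) (nat_lit 4507720211) (nat_lit 110) (nat_lit 5) (nat_lit 120) (nat_lit 5) (nat_lit 121) (nat_lit 5) (nat_lit 338) (nat_lit 333) (nat_lit 229)))) (XT.nd (nat_lit 78) (nat_lit 684) (nat_lit 0) (XT.lf (nat_lit 76) (nat_lit 17496981877) (nat_lit 0) (nat_lit 15072355027) (nat_lit 836) (nat_lit 33142355820) (nat_lit 111) (nat_lit 5) (nat_lit 110) (nat_lit 5) (nat_lit 121) (nat_lit 5) (nat_lit 339) (nat_lit 333) (nat_lit 228)) (XT.nd (nat_lit 78) (nat_lit 0) (nat_lit 0) (XT.lf (nat_lit 0) (nat_lit 4984614632) (nat_lit 760) (nat_lit 37031151854) (nat_lit 836) (nat_lit 26528277299) (nat_lit 101) (nat_lit 5) (nat_lit 111) (nat_lit 5) (nat_lit 112) (nat_lit 5) (nat_lit 340) (nat_lit 333) (nat_lit 227)) (XT.lf (nat_lit 0) (nat_lit 53470724525) (nat_lit 836) (nat_lit 7817153291) (nat_lit 76) (nat_lit 10252466454) (nat_lit 101)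 (nat_lit 5) (nat_lit 112) (nat_lit 5) (nat_lit 102) (nat_lit 5) (nat_lit 341) (nat_lit 333) (nat_lit 226)))))) (XT.nd (nat_lit 468) (nat_lit 1596) (nat_lit 0) (XT.nd (nat_lit 234) (nat_lit 608) (nat_lit 0) (XT.nd (nat_lit 78) (nat_lit 760) (nat_lit 0) (XT.lf (nat_lit 0) (nat_lit 53469242832) (nat_lit 380) (nat_lit 13829774078) (nat_lit 456) (nat_lit 7404486891) (nat_lit 96) (nat_lit 5) (nat_lit 101) (nat_lit 5) (nat_lit 102) (nat_lit 5) (nat_lit 342) (nat_lit 333) (nat_lit 225)) (XT.nd (nat_lit 78) (nat_lit 380) (nat_lit 0) (XT.lf (nat_lit 0) (nat_lit 5390566627) (nat_lit 380) (nat_lit 35537892288) (nat_lit 76) (nat_lit 37117628450) (nat_lit 91) (nat_lit 5) (nat_lit 96) (nat_lit 5) (nat_lit 92) (nat_lit 5) (nat_lit 343) (nat_lit 333) (nat_lit 224)) (XT.lf (nat_lit 0) (nat_lit 20218507122) (nat_lit 456) (nat_lit 50667962898) (nat_lit 76) (nat_lit 10700104898) (nat_lit 86) (nat_lit 5) (nat_lit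 92) (nat_lit 5) (nat_lit 87) (nat_lit 5) (nat_lit 344) (nat_lit 333) (nat_lit 223)))) (XT.nd (nat_lit 78) (nat_lit 304) (nat_lit 0) (XT.lf (nat_lit 0) (nat_lit 18470027033) (nat_lit 304) (nat_lit 19368413515) (nat_lit 380) (nat_lit 47491574474) (nat_lit 82) (nat_lit 5) (nat_lit 86) (nat_lit 5) (nat_lit 87) (nat_lit 5) (nat_lit 345) (nat_lit 333) (nat_lit 222)) (XT.nd (nat_lit 78) (nat_lit 0) (nat_lit 0) (XT.lf (nat_lit 0) (nat_lit 5203184905) (nat_lit 304) (nat_lit 53207556782) (nat_lit 380) (nat_lit 30885051319) (nat_lit 78) (nat_lit 5) (nat_lit 82) (nat_lit 5) (nat_lit 83) (nat_lit 5) (nat_lit 346) (nat_lit 333) (nat_lit 221)) (XT.lf (nat_lit 0) (nat_lit 82159392266) (nat_lit 380) (nat_lit 8471446058) (nat_lit 76) (nat_lit 2871467866) (nat_lit 78) (nat_lit 5) (nat_lit 83) (nat_lit 5) (nat_lit 79) (nat_lit 5) (nat_lit 347) (nat_lit 333) (nat_lit 220))))) (XT.nd (nat_lit 234) (nat_lit 760)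 (nat_lit 0) (XT.nd (nat_lit 78) (nat_lit 532) (nat_lit 0) (XT.lf (nat_lit 0) (nat_lit 11545633941) (nat_lit 304) (nat_lit 23437678355) (nat_lit 76) (nat_lit 62949632968) (nat_lit 74) (nat_lit 5) (nat_lit 78) (nat_lit 5) (nat_lit 75) (nat_lit 5) (nat_lit 348) (nat_lit 333) (nat_lit 219)) (XT.nd (nat_lit 78) (nat_lit 228) (nat_lit 0) (XT.lf (nat_lit 0) (nat_lit 37427466239) (nat_lit 380) (nat_lit 39536597461) (nat_lit 76) (nat_lit 25666695242) (nat_lit 70) (nat_lit 5) (nat_lit 75) (nat_lit 5) (nat_lit 71) (nat_lit 5) (nat_lit 349) (nat_lit 333) (nat_lit 218)) (XT.lf (nat_lit 0) (nat_lit 50726554665) (nat_lit 228) (nat_lit 16448656574) (nat_lit 304) (nat_lit 40439419098) (nat_lit 67) (nat_lit 5) (nat_lit 70) (nat_lit 5) (nat_lit 71) (nat_lit 5) (nat_lit 350) (nat_lit 333) (nat_lit 217)))) (XT.nd (nat_lit 156) (nat_lit 228) (nat_lit 0) (XT.nd (nat_lit 78) (nat_lit 304) (nat_lit 0) (XT.lf (nat_lit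 0) (nat_lit 37069465100) (nat_lit 228) (nat_lit 64274261181) (nat_lit 304) (nat_lit 11551438499) (nat_lit 64) (nat_lit 5) (nat_lit 67) (nat_lit 5) (nat_lit 68) (nat_lit 5) (nat_lit 351) (nat_lit 333) (nat_lit 216)) (XT.lf (nat_lit 0) (nat_lit 20670688193) (nat_lit 304) (nat_lit 96391946730) (nat_lit 76) (nat_lit 1437572476) (nat_lit 60) (nat_lit 5) (nat_lit 64) (nat_lit 5) (nat_lit 61) (nat_lit 5) (nat_lit 352) (nat_lit 333) (nat_lit 215))) (XT.nd (nat_lit 78) (nat_lit 0) (nat_lit 0) (XT.lf (nat_lit 0) (nat_lit 4953502856) (nat_lit 228) (nat_lit 52620117474) (nat_lit 304) (nat_lit 66845178337) (nat_lit 57) (nat_lit 5) (nat_lit 60) (nat_lit 5) (nat_lit 61) (nat_lit 5) (nat_lit 353) (nat_lit 333) (nat_lit 214)) (XT.lf (nat_lit 0) (nat_lit 99399250972) (nat_lit 304) (nat_lit 13172642173) (nat_lit 76) (nat_lit 18140461542) (nat_lit 57) (nat_lit 5) (nat_lit 61) (nat_lit 5) (nat_lit 58) (nat_lit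 5) (nat_lit 354) (nat_lit 333) (nat_lit 213))))))))
noncomputable def xc99 : XT := (XT.nd (nat_lit 1950) (nat_lit 684) (nat_lit 0) (XT.nd (nat_lit 936) (nat_lit 1140) (nat_lit 0) (XT.nd (nat_lit 468) (nat_lit 836) (nat_lit 0) (XT.nd (nat_lit 234) (nat_lit 380) (nat_lit 0) (XT.nd (nat_lit 78) (nat_lit 380) (nat_lit 0) (XT.lf (nat_lit 0) (nat_lit 9387577342) (nat_lit 228) (nat_lit 33470075241) (nat_lit 76) (nat_lit 94518627973) (nat_lit 54) (nat_lit 5) (nat_lit 57) (nat_lit 5) (nat_lit 55) (nat_lit 5) (nat_lit 355) (nat_lit 333) (nat_lit 212)) (XT.nd (nat_lit 78) (nat_lit 152) (nat_lit 0) (XT.lf (nat_lit 0) (nat_lit 54418256676) (nat_lit 304) (nat_lit 56446710422) (nat_lit 76) (nat_lit 33574137327) (nat_lit 51) (nat_lit 5) (nat_lit 55) (nat_lit 5) (nat_lit 52) (nat_lit 5) (nat_lit 356) (nat_lit 333) (nat_lit 211)) (XT.lf (nat_lit 0) (nat_lit 69830423347) (nat_lit 152) (nat_lit 35625417680)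 (nat_lit 228) (nat_lit 46490891134) (nat_lit 49) (nat_lit 5) (nat_lit 51) (nat_lit 5) (nat_lit 52) (nat_lit 5) (nat_lit 357) (nat_lit 333) (nat_lit 210)))) (XT.nd (nat_lit 78) (nat_lit 152) (nat_lit 0) (XT.lf (nat_lit 0) (nat_lit 3022184071) (nat_lit 228) (nat_lit 110920231607) (nat_lit 76) (nat_lit 45986277193) (nat_lit 46) (nat_lit 5) (nat_lit 49) (nat_lit 5) (nat_lit 47) (nat_lit 5) (nat_lit 358) (nat_lit 333) (nat_lit 209)) (XT.nd (nat_lit 78) (nat_lit 0) (nat_lit 0) (XT.lf (nat_lit 0) (nat_lit 24450801888) (nat_lit 152) (nat_lit 32873818886) (nat_lit 228) (nat_lit 111063626284) (nat_lit 44) (nat_lit 5) (nat_lit 46) (nat_lit 5) (nat_lit 47) (nat_lit 5) (nat_lit 359) (nat_lit 333) (nat_lit 208)) (XT.lf (nat_lit 0) (nat_lit 118787873659) (nat_lit 228) (nat_lit 3702435964) (nat_lit 76) (nat_lit 54893425264) (nat_lit 44) (nat_lit 5) (nat_lit 47) (nat_lit 5) (nat_lit 45) (nat_lit 5) (nat_lit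 360) (nat_lit 333) (nat_lit 207))))) (XT.nd (nat_lit 234) (nat_lit 304) (nat_lit 0) (XT.nd (nat_lit 78) (nat_lit 304) (nat_lit 0) (XT.lf (nat_lit 0) (nat_lit 1106691259) (nat_lit 228) (nat_lit 34907740451) (nat_lit 76) (nat_lit 150937158896) (nat_lit 41) (nat_lit 5) (nat_lit 44) (nat_lit 5) (nat_lit 42) (nat_lit 5) (nat_lit 361) (nat_lit 333) (nat_lit 206)) (XT.nd (nat_lit 78) (nat_lit 152) (nat_lit 0) (XT.lf (nat_lit 0) (nat_lit 66539623792) (nat_lit 228) (nat_lit 71931737252) (nat_lit 76) (nat_lit 58615130177) (nat_lit 39) (nat_lit 5) (nat_lit 42) (nat_lit 5) (nat_lit 40) (nat_lit 5) (nat_lit 362) (nat_lit 333) (nat_lit 205)) (XT.lf (nat_lit 0) (nat_lit 93645662030) (nat_lit 152) (nat_lit 46248112528) (nat_lit 228) (nat_lit 68004080426) (nat_lit 37) (nat_lit 5) (nat_lit 39) (nat_lit 5) (nat_lit 40) (nat_lit 5) (nat_lit 363) (nat_lit 333) (nat_lit 204)))) (XT.nd (nat_lit 78) (nat_lit 152)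 (nat_lit 0) (XT.lf (nat_lit 0) (nat_lit 2593330228) (nat_lit 152) (nat_lit 162987313275) (nat_lit 76) (nat_lit 53842014725) (nat_lit 35) (nat_lit 5) (nat_lit 37) (nat_lit 5) (nat_lit 36) (nat_lit 5) (nat_lit 364) (nat_lit 333) (nat_lit 203)) (XT.nd (nat_lit 78) (nat_lit 0) (nat_lit 0) (XT.lf (nat_lit 0) (nat_lit 11495359689) (nat_lit 152) (nat_lit 67973881951) (nat_lit 228) (nat_lit 152193801292) (nat_lit 33) (nat_lit 5) (nat_lit 35) (nat_lit 5) (nat_lit 36) (nat_lit 5) (nat_lit 365) (nat_lit 333) (nat_lit 202)) (XT.lf (nat_lit 0) (nat_lit 165964755095) (nat_lit 228) (nat_lit 39616206140) (nat_lit 76) (nat_lit 39128220932) (nat_lit 33) (nat_lit 5) (nat_lit 36) (nat_lit 5) (nat_lit 34) (nat_lit 4) (nat_lit 366) (nat_lit 333) (nat_lit 201)))))) (XT.nd (nat_lit 468) (nat_lit 456) (nat_lit 0) (XT.nd (nat_lit 234) (nat_lit 304) (nat_lit 0) (XT.nd (nat_lit 78) (nat_lit 228) (nat_lit 0) (XT.lf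 (nat_lit 0) (nat_lit 4254980870) (nat_lit 152) (nat_lit 99354324895) (nat_lit 76) (nat_lit 155004619684) (nat_lit 31) (nat_lit 5) (nat_lit 33) (nat_lit 5) (nat_lit 32) (nat_lit 5) (nat_lit 367) (nat_lit 333) (nat_lit 200)) (XT.nd (nat_lit 78) (nat_lit 76) (nat_lit 0) (XT.lf (nat_lit 0) (nat_lit 93656143324) (nat_lit 228) (nat_lit 169763051886) (nat_lit 76) (nat_lit 10021277395) (nat_lit 29) (nat_lit 5) (nat_lit 32) (nat_lit 5) (nat_lit 30) (nat_lit 4) (nat_lit 368) (nat_lit 333) (nat_lit 199)) (XT.lf (nat_lit 0) (nat_lit 36525521936) (nat_lit 76) (nat_lit 157759628057) (nat_lit 152) (nat_lit 94964206140) (nat_lit 28) (nat_lit 5) (nat_lit 29) (nat_lit 5) (nat_lit 30) (nat_lit 4) (nat_lit 369) (nat_lit 333) (nat_lit 198)))) (XT.nd (nat_lit 78) (nat_lit 304) (nat_lit 0) (XT.lf (nat_lit 0) (nat_lit 265378297479) (nat_lit 76) (nat_lit 40542754697) (nat_lit 152) (nat_lit 254069566) (nat_lit 28)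 (nat_lit 5) (nat_lit 29) (nat_lit 5) (nat_lit 30) (nat_lit 4) (nat_lit 370) (nat_lit 333) (nat_lit 197)) (XT.nd (nat_lit 78) (nat_lit 76) (nat_lit 0) (XT.lf (nat_lit 0) (nat_lit 103193466186) (nat_lit 228) (nat_lit 132987320398) (nat_lit 76) (nat_lit 87973197311) (nat_lit 25) (nat_lit 5) (nat_lit 28) (nat_lit 5) (nat_lit 26) (nat_lit 4) (nat_lit 371) (nat_lit 333) (nat_lit 196)) (XT.lf (nat_lit 0) (nat_lit 102178249221) (nat_lit 76) (nat_lit 115730457146) (nat_lit 152) (nat_lit 125512200374) (nat_lit 24) (nat_lit 5) (nat_lit 25) (nat_lit 5) (nat_lit 26) (nat_lit 4) (nat_lit 372) (nat_lit 333) (nat_lit 195))))) (XT.nd (nat_lit 234) (nat_lit 228) (nat_lit 0) (XT.nd (nat_lit 78) (nat_lit 228) (nat_lit 0) (XT.lf (nat_lit 0) (nat_lit 344379315106) (nat_lit 152) (nat_lit 3470428468) (nat_lit 0) (nat_lit 16250532486) (nat_lit 24) (nat_lit 5) (nat_lit 26) (nat_lit 4) (nat_lit 24) (nat_lit 4) (nat_lit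 373) (nat_lit 333) (nat_lit 194)) (XT.nd (nat_lit 78) (nat_lit 76) (nat_lit 0) (XT.lf (nat_lit 0) (nat_lit 97611684886) (nat_lit 152) (nat_lit 128025377913) (nat_lit 76) (nat_lit 160417946914) (nat_lit 22) (nat_lit 5) (nat_lit 24) (nat_lit 5) (nat_lit 23) (nat_lit 4) (nat_lit 374) (nat_lit 333) (nat_lit 193)) (XT.lf (nat_lit 0) (nat_lit 134790268163) (nat_lit 76) (nat_lit 91024419015) (nat_lit 152) (nat_lit 183826536691) (nat_lit 21) (nat_lit 5) (nat_lit 22) (nat_lit 5) (nat_lit 23) (nat_lit 4) (nat_lit 375) (nat_lit 333) (nat_lit 192)))) (XT.nd (nat_lit 156) (nat_lit 76) (nat_lit 0) (XT.nd (nat_lit 78) (nat_lit 152) (nat_lit 0) (XT.lf (nat_lit 0) (nat_lit 367388829366) (nat_lit 152) (nat_lit 12685990093) (nat_lit 0) (nat_lit 54883770796) (nat_lit 21) (nat_lit 5) (nat_lit 23) (nat_lit 4) (nat_lit 21) (nat_lit 4) (nat_lit 376) (nat_lit 333) (nat_lit 191)) (XT.lf (nat_lit 0) (nat_lit 62099638760)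 (nat_lit 152) (nat_lit 185201214406) (nat_lit 76) (nat_lit 214656823162) (nat_lit 19) (nat_lit 5) (nat_lit 21) (nat_lit 5) (nat_lit 20) (nat_lit 4) (nat_lit 377) (nat_lit 333) (nat_lit 190))) (XT.nd (nat_lit 78) (nat_lit 0) (nat_lit 0) (XT.lf (nat_lit 0) (nat_lit 100783656085) (nat_lit 76) (nat_lit 100820985126) (nat_lit 152) (nat_lit 289365194789) (nat_lit 18) (nat_lit 5) (nat_lit 19) (nat_lit 5) (nat_lit 20) (nat_lit 4) (nat_lit 378) (nat_lit 333) (nat_lit 189)) (XT.lf (nat_lit 0) (nat_lit 356444447043) (nat_lit 152) (nat_lit 106830320407) (nat_lit 0) (nat_lit 58819480901) (nat_lit 18) (nat_lit 5) (nat_lit 20) (nat_lit 4) (nat_lit 18) (nat_lit 4) (nat_lit 379) (nat_lit 333) (nat_lit 188))))))) (XT.nd (nat_lit 43290) (nat_lit 0) (nat_lit 5548) (XT.nd (nat_lit 468) (nat_lit 304) (nat_lit 0) (XT.nd (nat_lit 234) (nat_lit 152) (nat_lit 0) (XT.nd (nat_lit 78) (nat_lit 152) (nat_lit 0) (XT.lf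 (nat_lit 0) (nat_lit 204023315638) (nat_lit 76) (nat_lit 324533163080) (nat_lit 76) (nat_lit 26907882962) (nat_lit 17) (nat_lit 4) (nat_lit 18) (nat_lit 5) (nat_lit 18) (nat_lit 4) (nat_lit 380) (nat_lit 333) (nat_lit 187)) (XT.nd (nat_lit 78) (nat_lit 76) (nat_lit 0) (XT.lf (nat_lit 0) (nat_lit 120889825157) (nat_lit 152) (nat_lit 49801429264) (nat_lit 76) (nat_lit 420622309347) (nat_lit 16) (nat_lit 5) (nat_lit 18) (nat_lit 5) (nat_lit 17) (nat_lit 4) (nat_lit 381) (nat_lit 333) (nat_lit 186)) (XT.lf (nat_lit 0) (nat_lit 284034068141) (nat_lit 152) (nat_lit 345170419153) (nat_lit 0) (nat_lit 580887168) (nat_lit 15) (nat_lit 5) (nat_lit 17) (nat_lit 4) (nat_lit 15) (nat_lit 4) (nat_lit 382) (nat_lit 333) (nat_lit 185)))) (XT.nd (nat_lit 78) (nat_lit 152) (nat_lit 0) (XT.lf (nat_lit 0) (nat_lit 463989433768) (nat_lit 152) (nat_lit 26621501709) (nat_lit 0) (nat_lit 180536015419) (nat_lit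 15) (nat_lit 5) (nat_lit 17) (nat_lit 4) (nat_lit 15) (nat_lit 4) (nat_lit 383) (nat_lit 333) (nat_lit 184)) (XT.nd (nat_lit 78) (nat_lit 76) (nat_lit 0) (XT.lf (nat_lit 0) (nat_lit 327905804391) (nat_lit 76) (nat_lit 335554662658) (nat_lit 76) (nat_lit 52101024517) (nat_lit 14) (nat_lit 4) (nat_lit 15) (nat_lit 5) (nat_lit 15) (nat_lit 4) (nat_lit 384) (nat_lit 333) (nat_lit 183)) (XT.lf (nat_lit 0) (nat_lit 112138797391) (nat_lit 152) (nat_lit 53569307001) (nat_lit 76) (nat_lit 597707484004) (nat_lit 13) (nat_lit 5) (nat_lit 15) (nat_lit 5) (nat_lit 14) (nat_lit 4) (nat_lit 385) (nat_lit 333) (nat_lit 182))))) (XT.nd (nat_lit 234) (nat_lit 152) (nat_lit 0) (XT.nd (nat_lit 78) (nat_lit 76) (nat_lit 0) (XT.lf (nat_lit 0) (nat_lit 293030111423) (nat_lit 152) (nat_lit 498684419910) (nat_lit 0) (nat_lit 23073892290) (nat_lit 12) (nat_lit 5) (nat_lit 14) (nat_lit 4) (nat_lit 12) (nat_lit 4)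 (nat_lit 386) (nat_lit 333) (nat_lit 181)) (XT.nd (nat_lit 78) (nat_lit 76) (nat_lit 0) (XT.lf (nat_lit 0) (nat_lit 492135059555) (nat_lit 152) (nat_lit 155770235445) (nat_lit 0) (nat_lit 222178674252) (nat_lit 12) (nat_lit 5) (nat_lit 14) (nat_lit 4) (nat_lit 12) (nat_lit 4) (nat_lit 387) (nat_lit 333) (nat_lit 180)) (XT.lf (nat_lit 0) (nat_lit 221671502414) (nat_lit 76) (nat_lit 488957580666) (nat_lit 76) (nat_lit 219001041502) (nat_lit 11) (nat_lit 4) (nat_lit 12) (nat_lit 5) (nat_lit 12) (nat_lit 4) (nat_lit 388) (nat_lit 333) (nat_lit 179)))) (XT.nd (nat_lit 78) (nat_lit 152) (nat_lit 0) (XT.lf (nat_lit 0) (nat_lit 634870650078) (nat_lit 76) (nat_lit 314445172116) (nat_lit 76) (nat_lit 44488490488) (nat_lit 11) (nat_lit 4) (nat_lit 12) (nat_lit 5) (nat_lit 12) (nat_lit 4) (nat_lit 389) (nat_lit 333) (nat_lit 178)) (XT.nd (nat_lit 78) (nat_lit 0) (nat_lit 0) (XT.lf (nat_lit 0) (nat_lit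 16286132391) (nat_lit 76) (nat_lit 123344572940) (nat_lit 152) (nat_lit 923356626903) (nat_lit 9) (nat_lit 5) (nat_lit 10) (nat_lit 5) (nat_lit 11) (nat_lit 4) (nat_lit 390) (nat_lit 333) (nat_lit 177)) (XT.lf (nat_lit 0) (nat_lit 344592852644) (nat_lit 152) (nat_lit 705201061820) (nat_lit 0) (nat_lit 87491009140) (nat_lit 9) (nat_lit 5) (nat_lit 11) (nat_lit 4) (nat_lit 9) (nat_lit 4) (nat_lit 391) (nat_lit 333) (nat_lit 176)))))) (XT.nd (nat_lit 468) (nat_lit 1824) (nat_lit 0) (XT.nd (nat_lit 234) (nat_lit 0) (nat_lit 152) (XT.nd (nat_lit 78) (nat_lit 0) (nat_lit 76) (XT.lf (nat_lit 0) (nat_lit 4657261194) (nat_lit 836) (nat_lit 11611959017) (nat_lit 836) (nat_lit 11611959017) (nat_lit 106) (nat_lit 3) (nat_lit 117) (nat_lit 3) (nat_lit 117) (nat_lit 5) (nat_lit 334) (nat_lit 334) (nat_lit 232)) (XT.nd (nat_lit 78) (nat_lit 0) (nat_lit 0) (XT.lf (nat_lit 0) (nat_lit 10188501187) (nat_lit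 760) (nat_lit 38086003130) (nat_lit 836) (nat_lit 9693250778) (nat_lit 107) (nat_lit 5) (nat_lit 117) (nat_lit 5) (nat_lit 118) (nat_lit 5) (nat_lit 335) (nat_lit 334) (nat_lit 231)) (XT.lf (nat_lit 76) (nat_lit 6589524242) (nat_lit 0) (nat_lit 5602376459) (nat_lit 836) (nat_lit 48104710425) (nat_lit 108) (nat_lit 5) (nat_lit 107) (nat_lit 5) (nat_lit 118) (nat_lit 5) (nat_lit 336) (nat_lit 334) (nat_lit 230)))) (XT.nd (nat_lit 78) (nat_lit 0) (nat_lit 76) (XT.lf (nat_lit 0) (nat_lit 15658956632) (nat_lit 760) (nat_lit 7224425701) (nat_lit 836) (nat_lit 39863226660) (nat_lit 108) (nat_lit 5) (nat_lit 118) (nat_lit 5) (nat_lit 119) (nat_lit 5) (nat_lit 337) (nat_lit 334) (nat_lit 229)) (XT.nd (nat_lit 78) (nat_lit 0) (nat_lit 76) (XT.lf (nat_lit 0) (nat_lit 20563149655) (nat_lit 760) (nat_lit 21431555488) (nat_lit 836) (nat_lit 23339915299) (nat_lit 109) (nat_lit 5) (nat_lit 119) (nat_lit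 5) (nat_lit 120) (nat_lit 5) (nat_lit 338) (nat_lit 334) (nat_lit 228)) (XT.lf (nat_lit 0) (nat_lit 26947031784) (nat_lit 760) (nat_lit 36271499369) (nat_lit 836) (nat_lit 4856776181) (nat_lit 110) (nat_lit 5) (nat_lit 120) (nat_lit 5) (nat_lit 121) (nat_lit 5) (nat_lit 339) (nat_lit 334) (nat_lit 227))))) (XT.nd (nat_lit 234) (nat_lit 1444) (nat_lit 0) (XT.nd (nat_lit 78) (nat_lit 684) (nat_lit 0) (XT.lf (nat_lit 76) (nat_lit 18936615449) (nat_lit 0) (nat_lit 16285809169) (nat_lit 836) (nat_lit 35743786596) (nat_lit 111) (nat_lit 5) (nat_lit 110) (nat_lit 5) (nat_lit 121) (nat_lit 5) (nat_lit 340) (nat_lit 334) (nat_lit 226)) (XT.nd (nat_lit 78) (nat_lit 0) (nat_lit 0) (XT.lf (nat_lit 0) (nat_lit 5423952278) (nat_lit 760) (nat_lit 39997617318) (nat_lit 836) (nat_lit 28603733665) (nat_lit 101) (nat_lit 5) (nat_lit 111) (nat_lit 5) (nat_lit 112) (nat_lit 5) (nat_lit 341) (nat_lit 334) (nat_lit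 225)) (XT.lf (nat_lit 0) (nat_lit 57789567447) (nat_lit 836) (nat_lit 8402808391) (nat_lit 76) (nat_lit 11069102525) (nat_lit 101) (nat_lit 5) (nat_lit 112) (nat_lit 5) (nat_lit 102) (nat_lit 5) (nat_lit 342) (nat_lit 334) (nat_lit 224)))) (XT.nd (nat_lit 156) (nat_lit 684) (nat_lit 0) (XT.nd (nat_lit 78) (nat_lit 380) (nat_lit 0) (XT.lf (nat_lit 0) (nat_lit 57784773362) (nat_lit 380) (nat_lit 14936892271) (nat_lit 456) (nat_lit 7956150437) (nat_lit 96) (nat_lit 5) (nat_lit 101) (nat_lit 5) (nat_lit 102) (nat_lit 5) (nat_lit 343) (nat_lit 334) (nat_lit 223)) (XT.lf (nat_lit 0) (nat_lit 5858882764) (nat_lit 380) (nat_lit 38341436460) (nat_lit 76) (nat_lit 40087573667) (nat_lit 91) (nat_lit 5) (nat_lit 96) (nat_lit 5) (nat_lit 92) (nat_lit 5) (nat_lit 344) (nat_lit 334) (nat_lit 222))) (XT.nd (nat_lit 78) (nat_lit 304) (nat_lit 0) (XT.lf (nat_lit 0) (nat_lit 21870946826) (nat_lit 456) (nat_lit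 54681901801) (nat_lit 76) (nat_lit 11558878472) (nat_lit 86) (nat_lit 5) (nat_lit 92) (nat_lit 5) (nat_lit 87) (nat_lit 5) (nat_lit 345) (nat_lit 334) (nat_lit 221)) (XT.lf (nat_lit 0) (nat_lit 19985410784) (nat_lit 304) (nat_lit 20913064452) (nat_lit 380) (nat_lit 51256269074) (nat_lit 82) (nat_lit 5) (nat_lit 86) (nat_lit 5) (nat_lit 87) (nat_lit 5) (nat_lit 346) (nat_lit 334) (nat_lit 220))))))))
noncomputable def xc100 : XT := (XT.nd (nat_lit 1872) (nat_lit 1444) (nat_lit 0) (XT.nd (nat_lit 936) (nat_lit 1596) (nat_lit 0) (XT.nd (nat_lit 468) (nat_lit 1140) (nat_lit 0) (XT.nd (nat_lit 234) (nat_lit 760) (nat_lit 0) (XT.nd (nat_lit 78) (nat_lit 304) (nat_lit 0) (XT.lf (nat_lit 0) (nat_lit 5657106583) (nat_lit 304) (nat_lit 57457670240) (nat_lit 380) (nat_lit 33323098666) (nat_lit 78) (nat_lit 5) (nat_lit 82) (nat_lit 5) (nat_lit 83) (nat_lit 5) (nat_lit 347) (nat_lit 334) (nat_lit 219))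 (XT.nd (nat_lit 78) (nat_lit 304) (nat_lit 0) (XT.lf (nat_lit 0) (nat_lit 88761103966) (nat_lit 380) (nat_lit 9112914984) (nat_lit 76) (nat_lit 3107003193) (nat_lit 78) (nat_lit 5) (nat_lit 83) (nat_lit 5) (nat_lit 79) (nat_lit 5) (nat_lit 348) (nat_lit 334) (nat_lit 218)) (XT.lf (nat_lit 0) (nat_lit 12497107949) (nat_lit 304) (nat_lit 25277083041) (nat_lit 76) (nat_lit 67991980630) (nat_lit 74) (nat_lit 5) (nat_lit 78) (nat_lit 5) (nat_lit 75) (nat_lit 5) (nat_lit 349) (nat_lit 334) (nat_lit 217)))) (XT.nd (nat_lit 78) (nat_lit 456) (nat_lit 0) (XT.lf (nat_lit 0) (nat_lit 40448078929) (nat_lit 380) (nat_lit 42664253039) (nat_lit 76) (nat_lit 27727550160) (nat_lit 70) (nat_lit 5) (nat_lit 75) (nat_lit 5) (nat_lit 71) (nat_lit 5) (nat_lit 350) (nat_lit 334) (nat_lit 216)) (XT.nd (nat_lit 78) (nat_lit 228) (nat_lit 0) (XT.lf (nat_lit 0) (nat_lit 54818418369) (nat_lit 228) (nat_lit 17755795229)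 (nat_lit 304) (nat_lit 43648322374) (nat_lit 67) (nat_lit 5) (nat_lit 70) (nat_lit 5) (nat_lit 71) (nat_lit 5) (nat_lit 351) (nat_lit 334) (nat_lit 215)) (XT.lf (nat_lit 0) (nat_lit 40068374461) (nat_lit 228) (nat_lit 69406631877) (nat_lit 304) (nat_lit 12450568158) (nat_lit 64) (nat_lit 5) (nat_lit 67) (nat_lit 5) (nat_lit 68) (nat_lit 5) (nat_lit 352) (nat_lit 334) (nat_lit 214))))) (XT.nd (nat_lit 234) (nat_lit 608) (nat_lit 0) (XT.nd (nat_lit 78) (nat_lit 228) (nat_lit 0) (XT.lf (nat_lit 0) (nat_lit 22347400317) (nat_lit 304) (nat_lit 104069616477) (nat_lit 76) (nat_lit 1562041673) (nat_lit 60) (nat_lit 5) (nat_lit 64) (nat_lit 5) (nat_lit 61) (nat_lit 5) (nat_lit 353) (nat_lit 334) (nat_lit 213)) (XT.nd (nat_lit 78) (nat_lit 0) (nat_lit 0) (XT.lf (nat_lit 0) (nat_lit 5382005124) (nat_lit 228) (nat_lit 56819357047) (nat_lit 304) (nat_lit 72169836046) (nat_lit 57) (nat_lit 5) (nat_lit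 60) (nat_lit 5) (nat_lit 61) (nat_lit 5) (nat_lit 354) (nat_lit 334) (nat_lit 212)) (XT.lf (nat_lit 0) (nat_lit 107371574491) (nat_lit 304) (nat_lit 14195745695) (nat_lit 76) (nat_lit 19600992841) (nat_lit 57) (nat_lit 5) (nat_lit 61) (nat_lit 5) (nat_lit 58) (nat_lit 5) (nat_lit 355) (nat_lit 334) (nat_lit 211)))) (XT.nd (nat_lit 78) (nat_lit 380) (nat_lit 0) (XT.lf (nat_lit 0) (nat_lit 10158242343) (nat_lit 228) (nat_lit 36117648345) (nat_lit 76) (nat_lit 102089499792) (nat_lit 54) (nat_lit 5) (nat_lit 57) (nat_lit 5) (nat_lit 55) (nat_lit 5) (nat_lit 356) (nat_lit 334) (nat_lit 210)) (XT.nd (nat_lit 78) (nat_lit 152) (nat_lit 0) (XT.lf (nat_lit 0) (nat_lit 58790525659) (nat_lit 304) (nat_lit 60932935433) (nat_lit 76) (nat_lit 36269822395) (nat_lit 51) (nat_lit 5) (nat_lit 55) (nat_lit 5) (nat_lit 52) (nat_lit 5) (nat_lit 357) (nat_lit 334) (nat_lit 209)) (XT.lf (nat_lit 0) (nat_lit 75445086490)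 (nat_lit 152) (nat_lit 38465077789) (nat_lit 228) (nat_lit 50191405444) (nat_lit 49) (nat_lit 5) (nat_lit 51) (nat_lit 5) (nat_lit 52) (nat_lit 5) (nat_lit 358) (nat_lit 334) (nat_lit 208)))))) (XT.nd (nat_lit 468) (nat_lit 684) (nat_lit 0) (XT.nd (nat_lit 234) (nat_lit 532) (nat_lit 0) (XT.nd (nat_lit 78) (nat_lit 152) (nat_lit 0) (XT.lf (nat_lit 0) (nat_lit 3281362632) (nat_lit 228) (nat_lit 119765558042) (nat_lit 76) (nat_lit 49675190192) (nat_lit 46) (nat_lit 5) (nat_lit 49) (nat_lit 5) (nat_lit 47) (nat_lit 5) (nat_lit 359) (nat_lit 334) (nat_lit 207)) (XT.nd (nat_lit 78) (nat_lit 0) (nat_lit 0) (XT.lf (nat_lit 0) (nat_lit 26433928592) (nat_lit 152) (nat_lit 35493199028) (nat_lit 228) (nat_lit 119931345637) (nat_lit 44) (nat_lit 5) (nat_lit 46) (nat_lit 5) (nat_lit 47) (nat_lit 5) (nat_lit 360) (nat_lit 334) (nat_lit 206)) (XT.lf (nat_lit 0) (nat_lit 128306367918) (nat_lit 228) (nat_lit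 3972953260) (nat_lit 76) (nat_lit 59294333074) (nat_lit 44) (nat_lit 5) (nat_lit 47) (nat_lit 5) (nat_lit 45) (nat_lit 5) (nat_lit 361) (nat_lit 334) (nat_lit 205)))) (XT.nd (nat_lit 78) (nat_lit 304) (nat_lit 0) (XT.lf (nat_lit 0) (nat_lit 1210175480) (nat_lit 228) (nat_lit 37675298268) (nat_lit 76) (nat_lit 163021491185) (nat_lit 41) (nat_lit 5) (nat_lit 44) (nat_lit 5) (nat_lit 42) (nat_lit 5) (nat_lit 362) (nat_lit 334) (nat_lit 204)) (XT.nd (nat_lit 78) (nat_lit 152) (nat_lit 0) (XT.lf (nat_lit 0) (nat_lit 71877161888) (nat_lit 228) (nat_lit 77661740413) (nat_lit 76) (nat_lit 63313784738) (nat_lit 39) (nat_lit 5) (nat_lit 42) (nat_lit 5) (nat_lit 40) (nat_lit 5) (nat_lit 363) (nat_lit 334) (nat_lit 203)) (XT.lf (nat_lit 0) (nat_lit 101160784514) (nat_lit 152) (nat_lit 49938162315) (nat_lit 228) (nat_lit 73430048343) (nat_lit 37) (nat_lit 5) (nat_lit 39) (nat_lit 5) (nat_lit 40) (nat_lit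 5) (nat_lit 364) (nat_lit 334) (nat_lit 202))))) (XT.nd (nat_lit 234) (nat_lit 380) (nat_lit 0) (XT.nd (nat_lit 78) (nat_lit 152) (nat_lit 0) (XT.lf (nat_lit 0) (nat_lit 2814174402) (nat_lit 152) (nat_lit 176002890347) (nat_lit 76) (nat_lit 58158733111) (nat_lit 35) (nat_lit 5) (nat_lit 37) (nat_lit 5) (nat_lit 36) (nat_lit 5) (nat_lit 365) (nat_lit 334) (nat_lit 201)) (XT.nd (nat_lit 78) (nat_lit 0) (nat_lit 0) (XT.lf (nat_lit 0) (nat_lit 12437379171) (nat_lit 152) (nat_lit 73402138192) (nat_lit 228) (nat_lit 164355928350) (nat_lit 33) (nat_lit 5) (nat_lit 35) (nat_lit 5) (nat_lit 36) (nat_lit 5) (nat_lit 366) (nat_lit 334) (nat_lit 200)) (XT.lf (nat_lit 0) (nat_lit 179253868024) (nat_lit 228) (nat_lit 42764316863) (nat_lit 76) (nat_lit 42267131677) (nat_lit 33) (nat_lit 5) (nat_lit 36) (nat_lit 5) (nat_lit 34) (nat_lit 4) (nat_lit 367) (nat_lit 334) (nat_lit 199)))) (XT.nd (nat_lit 78)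 (nat_lit 228) (nat_lit 0) (XT.lf (nat_lit 0) (nat_lit 4606933858) (nat_lit 152) (nat_lit 107282020652) (nat_lit 76) (nat_lit 167413504119) (nat_lit 31) (nat_lit 5) (nat_lit 33) (nat_lit 5) (nat_lit 32) (nat_lit 5) (nat_lit 368) (nat_lit 334) (nat_lit 198)) (XT.nd (nat_lit 78) (nat_lit 76) (nat_lit 0) (XT.lf (nat_lit 0) (nat_lit 101159778361) (nat_lit 228) (nat_lit 183323926534) (nat_lit 76) (nat_lit 10831445443) (nat_lit 29) (nat_lit 5) (nat_lit 32) (nat_lit 5) (nat_lit 30) (nat_lit 4) (nat_lit 369) (nat_lit 334) (nat_lit 197)) (XT.lf (nat_lit 0) (nat_lit 39466856652) (nat_lit 76) (nat_lit 170371724678) (nat_lit 152) (nat_lit 102550189643) (nat_lit 28) (nat_lit 5) (nat_lit 29) (nat_lit 5) (nat_lit 30) (nat_lit 4) (nat_lit 370) (nat_lit 334) (nat_lit 196))))))) (XT.nd (nat_lit 936) (nat_lit 532) (nat_lit 0) (XT.nd (nat_lit 468) (nat_lit 380) (nat_lit 0) (XT.nd (nat_lit 234) (nat_lit 228)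 (nat_lit 0) (XT.nd (nat_lit 78) (nat_lit 304) (nat_lit 0) (XT.lf (nat_lit 0) (nat_lit 286626425130) (nat_lit 76) (nat_lit 43778143941) (nat_lit 152) (nat_lit 264068290) (nat_lit 28) (nat_lit 5) (nat_lit 29) (nat_lit 5) (nat_lit 30) (nat_lit 4) (nat_lit 371) (nat_lit 334) (nat_lit 195)) (XT.nd (nat_lit 78) (nat_lit 76) (nat_lit 0) (XT.lf (nat_lit 0) (nat_lit 111458594089) (nat_lit 228) (nat_lit 143608544527) (nat_lit 76) (nat_lit 95018679269) (nat_lit 25) (nat_lit 5) (nat_lit 28) (nat_lit 5) (nat_lit 26) (nat_lit 4) (nat_lit 372) (nat_lit 334) (nat_lit 194)) (XT.lf (nat_lit 0) (nat_lit 110369498768) (nat_lit 76) (nat_lit 124981105112) (nat_lit 152) (nat_lit 135543513322) (nat_lit 24) (nat_lit 5) (nat_lit 25) (nat_lit 5) (nat_lit 26) (nat_lit 4) (nat_lit 373) (nat_lit 334) (nat_lit 193)))) (XT.nd (nat_lit 78) (nat_lit 228) (nat_lit 0) (XT.lf (nat_lit 0) (nat_lit 371938292357) (nat_lit 152)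 (nat_lit 3732016369) (nat_lit 0) (nat_lit 17557555938) (nat_lit 24) (nat_lit 5) (nat_lit 26) (nat_lit 4) (nat_lit 24) (nat_lit 4) (nat_lit 374) (nat_lit 334) (nat_lit 192)) (XT.nd (nat_lit 78) (nat_lit 76) (nat_lit 0) (XT.lf (nat_lit 0) (nat_lit 105428988589) (nat_lit 152) (nat_lit 138251780756) (nat_lit 76) (nat_lit 173258221044) (nat_lit 22) (nat_lit 5) (nat_lit 24) (nat_lit 5) (nat_lit 23) (nat_lit 4) (nat_lit 375) (nat_lit 334) (nat_lit 191)) (XT.lf (nat_lit 0) (nat_lit 145588437859) (nat_lit 76) (nat_lit 98299406669) (nat_lit 152) (nat_lit 198524276598) (nat_lit 21) (nat_lit 5) (nat_lit 22) (nat_lit 5) (nat_lit 23) (nat_lit 4) (nat_lit 376) (nat_lit 334) (nat_lit 190))))) (XT.nd (nat_lit 234) (nat_lit 152) (nat_lit 0) (XT.nd (nat_lit 78) (nat_lit 228) (nat_lit 0) (XT.lf (nat_lit 0) (nat_lit 396787427505) (nat_lit 152) (nat_lit 13686758061) (nat_lit 0) (nat_lit 59280715900) (nat_lit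 21) (nat_lit 5) (nat_lit 23) (nat_lit 4) (nat_lit 21) (nat_lit 4) (nat_lit 377) (nat_lit 334) (nat_lit 189)) (XT.nd (nat_lit 78) (nat_lit 76) (nat_lit 0) (XT.lf (nat_lit 0) (nat_lit 67074875891) (nat_lit 152) (nat_lit 200003572076) (nat_lit 76) (nat_lit 231835477913) (nat_lit 19) (nat_lit 5) (nat_lit 21) (nat_lit 5) (nat_lit 20) (nat_lit 4) (nat_lit 378) (nat_lit 334) (nat_lit 188)) (XT.lf (nat_lit 0) (nat_lit 108859490953) (nat_lit 76) (nat_lit 108880454550) (nat_lit 152) (nat_lit 312507129568) (nat_lit 18) (nat_lit 5) (nat_lit 19) (nat_lit 5) (nat_lit 20) (nat_lit 4) (nat_lit 379) (nat_lit 334) (nat_lit 187)))) (XT.nd (nat_lit 78) (nat_lit 152) (nat_lit 0) (XT.lf (nat_lit 0) (nat_lit 384966512011) (nat_lit 152) (nat_lit 115364344887) (nat_lit 0) (nat_lit 63530604787) (nat_lit 18) (nat_lit 5) (nat_lit 20) (nat_lit 4) (nat_lit 18) (nat_lit 4) (nat_lit 380) (nat_lit 334) (nat_lit 186)) (XT.nd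 (nat_lit 78) (nat_lit 76) (nat_lit 0) (XT.lf (nat_lit 0) (nat_lit 220357043103) (nat_lit 76) (nat_lit 350490166157) (nat_lit 76) (nat_lit 29053989749) (nat_lit 17) (nat_lit 4) (nat_lit 18) (nat_lit 5) (nat_lit 18) (nat_lit 4) (nat_lit 381) (nat_lit 334) (nat_lit 185)) (XT.lf (nat_lit 0) (nat_lit 130566858434) (nat_lit 152) (nat_lit 53774365861) (nat_lit 76) (nat_lit 454277131335) (nat_lit 16) (nat_lit 5) (nat_lit 18) (nat_lit 5) (nat_lit 17) (nat_lit 4) (nat_lit 382) (nat_lit 334) (nat_lit 184)))))) (XT.nd (nat_lit 468) (nat_lit 228) (nat_lit 0) (XT.nd (nat_lit 234) (nat_lit 152) (nat_lit 0) (XT.nd (nat_lit 78) (nat_lit 76) (nat_lit 0) (XT.lf (nat_lit 0) (nat_lit 306762454454) (nat_lit 152) (nat_lit 372773160642) (nat_lit 0) (nat_lit 632305468) (nat_lit 15) (nat_lit 5) (nat_lit 17) (nat_lit 4) (nat_lit 15) (nat_lit 4) (nat_lit 383) (nat_lit 334) (nat_lit 183)) (XT.nd (nat_lit 78) (nat_lit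 76) (nat_lit 0) (XT.lf (nat_lit 0) (nat_lit 501113830008) (nat_lit 152) (nat_lit 28741136621) (nat_lit 0) (nat_lit 194983477511) (nat_lit 15) (nat_lit 5) (nat_lit 17) (nat_lit 4) (nat_lit 15) (nat_lit 4) (nat_lit 384) (nat_lit 334) (nat_lit 182)) (XT.lf (nat_lit 0) (nat_lit 354147915675) (nat_lit 76) (nat_lit 362394392630) (nat_lit 76) (nat_lit 56263851696) (nat_lit 14) (nat_lit 4) (nat_lit 15) (nat_lit 5) (nat_lit 15) (nat_lit 4) (nat_lit 385) (nat_lit 334) (nat_lit 181)))) (XT.nd (nat_lit 78) (nat_lit 76) (nat_lit 0) (XT.lf (nat_lit 0) (nat_lit 121114610994) (nat_lit 152) (nat_lit 57845762874) (nat_lit 76) (nat_lit 645528225495) (nat_lit 13) (nat_lit 5) (nat_lit 15) (nat_lit 5) (nat_lit 14) (nat_lit 4) (nat_lit 386) (nat_lit 334) (nat_lit 180)) (XT.nd (nat_lit 78) (nat_lit 0) (nat_lit 0) (XT.lf (nat_lit 0) (nat_lit 316477082534) (nat_lit 152) (nat_lit 538570319925) (nat_lit 0) (nat_lit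 24923866376) (nat_lit 12) (nat_lit 5) (nat_lit 14) (nat_lit 4) (nat_lit 12) (nat_lit 4) (nat_lit 387) (nat_lit 334) (nat_lit 179)) (XT.lf (nat_lit 0) (nat_lit 531510088576) (nat_lit 152) (nat_lit 168223656523) (nat_lit 0) (nat_lit 239956729954) (nat_lit 12) (nat_lit 5) (nat_lit 14) (nat_lit 4) (nat_lit 12) (nat_lit 4) (nat_lit 388) (nat_lit 334) (nat_lit 178))))) (XT.nd (nat_lit 42666) (nat_lit 0) (nat_lit 7372) (XT.nd (nat_lit 78) (nat_lit 152) (nat_lit 0) (XT.lf (nat_lit 0) (nat_lit 239413064100) (nat_lit 76) (nat_lit 528070379403) (nat_lit 76) (nat_lit 236516888870) (nat_lit 11) (nat_lit 4) (nat_lit 12) (nat_lit 5) (nat_lit 12) (nat_lit 4) (nat_lit 389) (nat_lit 334) (nat_lit 177)) (XT.nd (nat_lit 78) (nat_lit 152) (nat_lit 0) (XT.lf (nat_lit 0) (nat_lit 685667562725) (nat_lit 76) (nat_lit 339597260222) (nat_lit 76) (nat_lit 48043647549) (nat_lit 11) (nat_lit 4) (nat_lit 12) (nat_lit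 5) (nat_lit 12) (nat_lit 4) (nat_lit 390) (nat_lit 334) (nat_lit 176)) (XT.lf (nat_lit 0) (nat_lit 17596088575) (nat_lit 76) (nat_lit 133208698908) (nat_lit 152) (nat_lit 997221349646) (nat_lit 9) (nat_lit 5) (nat_lit 10) (nat_lit 5) (nat_lit 11) (nat_lit 4) (nat_lit 391) (nat_lit 334) (nat_lit 175)))) (XT.nd (nat_lit 156) (nat_lit 0) (nat_lit 76) (XT.nd (nat_lit 78) (nat_lit 0) (nat_lit 76) (XT.lf (nat_lit 0) (nat_lit 5061152796) (nat_lit 836) (nat_lit 12524464049) (nat_lit 836) (nat_lit 12524464049) (nat_lit 106) (nat_lit 3) (nat_lit 117) (nat_lit 3) (nat_lit 117) (nat_lit 5) (nat_lit 335) (nat_lit 335) (nat_lit 230)) (XT.lf (nat_lit 0) (nat_lit 11061633903) (nat_lit 760) (nat_lit 41098014426) (nat_lit 836) (nat_lit 10442574291) (nat_lit 107) (nat_lit 5) (nat_lit 117) (nat_lit 5) (nat_lit 118) (nat_lit 5) (nat_lit 336) (nat_lit 335) (nat_lit 229))) (XT.nd (nat_lit 78) (nat_lit 0) (nat_lit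 76) (XT.lf (nat_lit 76) (nat_lit 7150039772) (nat_lit 0) (nat_lit 6071486154) (nat_lit 836) (nat_lit 51896053902) (nat_lit 108) (nat_lit 5) (nat_lit 107) (nat_lit 5) (nat_lit 118) (nat_lit 5) (nat_lit 337) (nat_lit 335) (nat_lit 228)) (XT.lf (nat_lit 0) (nat_lit 16961623677) (nat_lit 760) (nat_lit 7768638654) (nat_lit 836) (nat_lit 43033534773) (nat_lit 108) (nat_lit 5) (nat_lit 118) (nat_lit 5) (nat_lit 119) (nat_lit 5) (nat_lit 338) (nat_lit 335) (nat_lit 227))))))))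
noncomputable def xc101 : XT := (XT.nd (nat_lit 1950) (nat_lit 2204) (nat_lit 0) (XT.nd (nat_lit 936) (nat_lit 2508) (nat_lit 0) (XT.nd (nat_lit 468) (nat_lit 1672) (nat_lit 0) (XT.nd (nat_lit 234) (nat_lit 988) (nat_lit 0) (XT.nd (nat_lit 78) (nat_lit 0) (nat_lit 76) (XT.lf (nat_lit 0) (nat_lit 22254729936) (nat_lit 760) (nat_lit 23111201494) (nat_lit 836) (nat_lit 25193092342) (nat_lit 109) (nat_lit 5) (nat_lit 119) (nat_lit 5) (nat_lit 120) (nat_lit 5) (nat_lit 339) (nat_lit 335) (nat_lit 226)) (XT.nd (nat_lit 78) (nat_lit 0) (nat_lit 0) (XT.lf (nat_lit 0) (nat_lit 29146237104) (nat_lit 760) (nat_lit 39137479716) (nat_lit 836) (nat_lit 5235406026) (nat_lit 110) (nat_lit 5) (nat_lit 120) (nat_lit 5) (nat_lit 121) (nat_lit 5) (nat_lit 340) (nat_lit 335) (nat_lit 225)) (XT.lf (nat_lit 76) (nat_lit 20485731088) (nat_lit 0) (nat_lit 17595246038) (nat_lit 836) (nat_lit 38560458858) (nat_lit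 111) (nat_lit 5) (nat_lit 110) (nat_lit 5) (nat_lit 121) (nat_lit 5) (nat_lit 341) (nat_lit 335) (nat_lit 224)))) (XT.nd (nat_lit 78) (nat_lit 380) (nat_lit 0) (XT.lf (nat_lit 0) (nat_lit 5892649389) (nat_lit 760) (nat_lit 43200833182) (nat_lit 836) (nat_lit 30851903914) (nat_lit 101) (nat_lit 5) (nat_lit 111) (nat_lit 5) (nat_lit 112) (nat_lit 5) (nat_lit 342) (nat_lit 335) (nat_lit 223)) (XT.nd (nat_lit 78) (nat_lit 380) (nat_lit 0) (XT.lf (nat_lit 0) (nat_lit 62448042308) (nat_lit 836) (nat_lit 9040981997) (nat_lit 76) (nat_lit 11951577533) (nat_lit 101) (nat_lit 5) (nat_lit 112) (nat_lit 5) (nat_lit 102) (nat_lit 5) (nat_lit 343) (nat_lit 335) (nat_lit 222)) (XT.lf (nat_lit 0) (nat_lit 62440126478) (nat_lit 380) (nat_lit 16132474883) (nat_lit 456) (nat_lit 8557752722) (nat_lit 96) (nat_lit 5) (nat_lit 101) (nat_lit 5) (nat_lit 102) (nat_lit 5) (nat_lit 344) (nat_lit 335) (nat_lit 221)))))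 (XT.nd (nat_lit 234) (nat_lit 608) (nat_lit 0) (XT.nd (nat_lit 78) (nat_lit 684) (nat_lit 0) (XT.lf (nat_lit 0) (nat_lit 6359375626) (nat_lit 380) (nat_lit 41374897457) (nat_lit 76) (nat_lit 43295038185) (nat_lit 91) (nat_lit 5) (nat_lit 96) (nat_lit 5) (nat_lit 92) (nat_lit 5) (nat_lit 345) (nat_lit 335) (nat_lit 220)) (XT.nd (nat_lit 78) (nat_lit 304) (nat_lit 0) (XT.lf (nat_lit 0) (nat_lit 23650594394) (nat_lit 456) (nat_lit 59022590666) (nat_lit 76) (nat_lit 12485959448) (nat_lit 86) (nat_lit 5) (nat_lit 92) (nat_lit 5) (nat_lit 87) (nat_lit 5) (nat_lit 346) (nat_lit 335) (nat_lit 219)) (XT.lf (nat_lit 0) (nat_lit 21616635269) (nat_lit 304) (nat_lit 22581975397) (nat_lit 380) (nat_lit 55327079792) (nat_lit 82) (nat_lit 5) (nat_lit 86) (nat_lit 5) (nat_lit 87) (nat_lit 5) (nat_lit 347) (nat_lit 335) (nat_lit 218)))) (XT.nd (nat_lit 78) (nat_lit 304) (nat_lit 0) (XT.lf (nat_lit 0) (nat_lit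 6141968393) (nat_lit 304) (nat_lit 62048718800) (nat_lit 380) (nat_lit 35960862919) (nat_lit 78) (nat_lit 5) (nat_lit 82) (nat_lit 5) (nat_lit 83) (nat_lit 5) (nat_lit 348) (nat_lit 335) (nat_lit 217)) (XT.nd (nat_lit 78) (nat_lit 304) (nat_lit 0) (XT.lf (nat_lit 0) (nat_lit 95886821089) (nat_lit 380) (nat_lit 9810872430) (nat_lit 76) (nat_lit 3360551358) (nat_lit 78) (nat_lit 5) (nat_lit 83) (nat_lit 5) (nat_lit 79) (nat_lit 5) (nat_lit 349) (nat_lit 335) (nat_lit 216)) (XT.lf (nat_lit 0) (nat_lit 13520730574) (nat_lit 304) (nat_lit 27268720207) (nat_lit 76) (nat_lit 73436806351) (nat_lit 74) (nat_lit 5) (nat_lit 78) (nat_lit 5) (nat_lit 75) (nat_lit 5) (nat_lit 350) (nat_lit 335) (nat_lit 215)))))) (XT.nd (nat_lit 468) (nat_lit 1216) (nat_lit 0) (XT.nd (nat_lit 234) (nat_lit 532) (nat_lit 0) (XT.nd (nat_lit 78) (nat_lit 456) (nat_lit 0) (XT.lf (nat_lit 0) (nat_lit 43706572184) (nat_lit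 380) (nat_lit 46047153039) (nat_lit 76) (nat_lit 29952200760) (nat_lit 70) (nat_lit 5) (nat_lit 75) (nat_lit 5) (nat_lit 71) (nat_lit 5) (nat_lit 351) (nat_lit 335) (nat_lit 214)) (XT.nd (nat_lit 78) (nat_lit 228) (nat_lit 0) (XT.lf (nat_lit 0) (nat_lit 59232817877) (nat_lit 228) (nat_lit 19168753815) (nat_lit 304) (nat_lit 47117682804) (nat_lit 67) (nat_lit 5) (nat_lit 70) (nat_lit 5) (nat_lit 71) (nat_lit 5) (nat_lit 352) (nat_lit 335) (nat_lit 213)) (XT.lf (nat_lit 0) (nat_lit 43302438513) (nat_lit 228) (nat_lit 74950957525) (nat_lit 304) (nat_lit 13425192639) (nat_lit 64) (nat_lit 5) (nat_lit 67) (nat_lit 5) (nat_lit 68) (nat_lit 5) (nat_lit 353) (nat_lit 335) (nat_lit 212)))) (XT.nd (nat_lit 78) (nat_lit 228) (nat_lit 0) (XT.lf (nat_lit 0) (nat_lit 24154960063) (nat_lit 304) (nat_lit 112366305488) (nat_lit 76) (nat_lit 1695118345) (nat_lit 60) (nat_lit 5) (nat_lit 64) (nat_lit 5) (nat_lit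 61) (nat_lit 5) (nat_lit 354) (nat_lit 335) (nat_lit 211)) (XT.nd (nat_lit 78) (nat_lit 0) (nat_lit 0) (XT.lf (nat_lit 0) (nat_lit 5840190739) (nat_lit 228) (nat_lit 61356015157) (nat_lit 304) (nat_lit 77923741382) (nat_lit 57) (nat_lit 5) (nat_lit 60) (nat_lit 5) (nat_lit 61) (nat_lit 5) (nat_lit 355) (nat_lit 335) (nat_lit 210)) (XT.lf (nat_lit 0) (nat_lit 115978775966) (nat_lit 304) (nat_lit 15305078317) (nat_lit 76) (nat_lit 21177040698) (nat_lit 57) (nat_lit 5) (nat_lit 61) (nat_lit 5) (nat_lit 58) (nat_lit 5) (nat_lit 356) (nat_lit 335) (nat_lit 209))))) (XT.nd (nat_lit 234) (nat_lit 608) (nat_lit 0) (XT.nd (nat_lit 78) (nat_lit 380) (nat_lit 0) (XT.lf (nat_lit 0) (nat_lit 10987755994) (nat_lit 228) (nat_lit 38981311829) (nat_lit 76) (nat_lit 110264702969) (nat_lit 54) (nat_lit 5) (nat_lit 57) (nat_lit 5) (nat_lit 55) (nat_lit 5) (nat_lit 357) (nat_lit 335) (nat_lit 208)) (XT.nd (nat_lit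 78) (nat_lit 152) (nat_lit 0) (XT.lf (nat_lit 0) (nat_lit 63509892926) (nat_lit 304) (nat_lit 65782268636) (nat_lit 76) (nat_lit 39179770739) (nat_lit 51) (nat_lit 5) (nat_lit 55) (nat_lit 5) (nat_lit 52) (nat_lit 5) (nat_lit 358) (nat_lit 335) (nat_lit 207)) (XT.lf (nat_lit 0) (nat_lit 81504895463) (nat_lit 152) (nat_lit 41533390574) (nat_lit 228) (nat_lit 54190636793) (nat_lit 49) (nat_lit 5) (nat_lit 51) (nat_lit 5) (nat_lit 52) (nat_lit 5) (nat_lit 359) (nat_lit 335) (nat_lit 206)))) (XT.nd (nat_lit 156) (nat_lit 228) (nat_lit 0) (XT.nd (nat_lit 78) (nat_lit 152) (nat_lit 0) (XT.lf (nat_lit 0) (nat_lit 3558792626) (nat_lit 228) (nat_lit 129322546776) (nat_lit 76) (nat_lit 53657788076) (nat_lit 46) (nat_lit 5) (nat_lit 49) (nat_lit 5) (nat_lit 47) (nat_lit 5) (nat_lit 360) (nat_lit 335) (nat_lit 205)) (XT.lf (nat_lit 0) (nat_lit 28571844657) (nat_lit 152) (nat_lit 38323631143) (nat_lit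 228) (nat_lit 129510960670) (nat_lit 44) (nat_lit 5) (nat_lit 46) (nat_lit 5) (nat_lit 47) (nat_lit 5) (nat_lit 361) (nat_lit 335) (nat_lit 204))) (XT.nd (nat_lit 78) (nat_lit 228) (nat_lit 0) (XT.lf (nat_lit 0) (nat_lit 138584135552) (nat_lit 228) (nat_lit 4268775133) (nat_lit 76) (nat_lit 64045967673) (nat_lit 44) (nat_lit 5) (nat_lit 47) (nat_lit 5) (nat_lit 45) (nat_lit 5) (nat_lit 362) (nat_lit 335) (nat_lit 203)) (XT.lf (nat_lit 0) (nat_lit 1319805809) (nat_lit 228) (nat_lit 40667836002) (nat_lit 76) (nat_lit 176071234809) (nat_lit 41) (nat_lit 5) (nat_lit 44) (nat_lit 5) (nat_lit 42) (nat_lit 5) (nat_lit 363) (nat_lit 335) (nat_lit 202))))))) (XT.nd (nat_lit 936) (nat_lit 912) (nat_lit 0) (XT.nd (nat_lit 468) (nat_lit 532) (nat_lit 0) (XT.nd (nat_lit 234) (nat_lit 304) (nat_lit 0) (XT.nd (nat_lit 78) (nat_lit 304) (nat_lit 0) (XT.lf (nat_lit 0) (nat_lit 77639653248) (nat_lit 228)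 (nat_lit 83853644136) (nat_lit 76) (nat_lit 68386984351) (nat_lit 39) (nat_lit 5) (nat_lit 42) (nat_lit 5) (nat_lit 40) (nat_lit 5) (nat_lit 364) (nat_lit 335) (nat_lit 201)) (XT.nd (nat_lit 78) (nat_lit 152) (nat_lit 0) (XT.lf (nat_lit 0) (nat_lit 109273768608) (nat_lit 152) (nat_lit 53924814053) (nat_lit 228) (nat_lit 79292142097) (nat_lit 37) (nat_lit 5) (nat_lit 39) (nat_lit 5) (nat_lit 40) (nat_lit 5) (nat_lit 365) (nat_lit 335) (nat_lit 200)) (XT.lf (nat_lit 0) (nat_lit 3050777623) (nat_lit 152) (nat_lit 190063052996) (nat_lit 76) (nat_lit 62819454057) (nat_lit 35) (nat_lit 5) (nat_lit 37) (nat_lit 5) (nat_lit 36) (nat_lit 5) (nat_lit 366) (nat_lit 335) (nat_lit 199)))) (XT.nd (nat_lit 78) (nat_lit 152) (nat_lit 0) (XT.lf (nat_lit 0) (nat_lit 13451565928) (nat_lit 152) (nat_lit 79266032229) (nat_lit 228) (nat_lit 177492933958) (nat_lit 33) (nat_lit 5) (nat_lit 35) (nat_lit 5) (nat_lit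 36) (nat_lit 5) (nat_lit 367) (nat_lit 335) (nat_lit 198)) (XT.nd (nat_lit 78) (nat_lit 152) (nat_lit 0) (XT.lf (nat_lit 0) (nat_lit 193604407680) (nat_lit 228) (nat_lit 46167298831) (nat_lit 76) (nat_lit 45655920825) (nat_lit 33) (nat_lit 5) (nat_lit 36) (nat_lit 5) (nat_lit 34) (nat_lit 4) (nat_lit 368) (nat_lit 335) (nat_lit 197)) (XT.lf (nat_lit 0) (nat_lit 4985394704) (nat_lit 152) (nat_lit 115846878057) (nat_lit 76) (nat_lit 180813884569) (nat_lit 31) (nat_lit 5) (nat_lit 33) (nat_lit 5) (nat_lit 32) (nat_lit 5) (nat_lit 369) (nat_lit 335) (nat_lit 196))))) (XT.nd (nat_lit 234) (nat_lit 304) (nat_lit 0) (XT.nd (nat_lit 78) (nat_lit 76) (nat_lit 0) (XT.lf (nat_lit 0) (nat_lit 109262114446) (nat_lit 228) (nat_lit 197972548558) (nat_lit 76) (nat_lit 11705219185) (nat_lit 29) (nat_lit 5) (nat_lit 32) (nat_lit 5) (nat_lit 30) (nat_lit 4) (nat_lit 370) (nat_lit 335) (nat_lit 195)) (XT.nd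 (nat_lit 78) (nat_lit 0) (nat_lit 0) (XT.lf (nat_lit 0) (nat_lit 42640745789) (nat_lit 76) (nat_lit 183994026419) (nat_lit 152) (nat_lit 110744642925) (nat_lit 28) (nat_lit 5) (nat_lit 29) (nat_lit 5) (nat_lit 30) (nat_lit 4) (nat_lit 371) (nat_lit 335) (nat_lit 194)) (XT.lf (nat_lit 0) (nat_lit 309571854515) (nat_lit 76) (nat_lit 47273510054) (nat_lit 152) (nat_lit 276340152) (nat_lit 28) (nat_lit 5) (nat_lit 29) (nat_lit 5) (nat_lit 30) (nat_lit 4) (nat_lit 372) (nat_lit 335) (nat_lit 193)))) (XT.nd (nat_lit 78) (nat_lit 76) (nat_lit 0) (XT.lf (nat_lit 0) (nat_lit 120383555457) (nat_lit 228) (nat_lit 155082000464) (nat_lit 76) (nat_lit 102626711826) (nat_lit 25) (nat_lit 5) (nat_lit 28) (nat_lit 5) (nat_lit 26) (nat_lit 4) (nat_lit 373) (nat_lit 335) (nat_lit 192)) (XT.nd (nat_lit 78) (nat_lit 0) (nat_lit 0) (XT.lf (nat_lit 0) (nat_lit 119213624521) (nat_lit 76) (nat_lit 134972916047)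 (nat_lit 152) (nat_lit 146378709852) (nat_lit 24) (nat_lit 5) (nat_lit 25) (nat_lit 5) (nat_lit 26) (nat_lit 4) (nat_lit 374) (nat_lit 335) (nat_lit 191)) (XT.lf (nat_lit 0) (nat_lit 401700756330) (nat_lit 152) (nat_lit 4016820498) (nat_lit 0) (nat_lit 18968145370) (nat_lit 24) (nat_lit 5) (nat_lit 26) (nat_lit 4) (nat_lit 24) (nat_lit 4) (nat_lit 375) (nat_lit 335) (nat_lit 190)))))) (XT.nd (nat_lit 468) (nat_lit 456) (nat_lit 0) (XT.nd (nat_lit 234) (nat_lit 228) (nat_lit 0) (XT.nd (nat_lit 78) (nat_lit 76) (nat_lit 0) (XT.lf (nat_lit 0) (nat_lit 113870482669) (nat_lit 152) (nat_lit 149298525248) (nat_lit 76) (nat_lit 187124741533) (nat_lit 22) (nat_lit 5) (nat_lit 24) (nat_lit 5) (nat_lit 23) (nat_lit 4) (nat_lit 376) (nat_lit 335) (nat_lit 189)) (XT.nd (nat_lit 78) (nat_lit 0) (nat_lit 0) (XT.lf (nat_lit 0) (nat_lit 157248328597) (nat_lit 76) (nat_lit 106157387095) (nat_lit 152) (nat_lit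 214399031630) (nat_lit 21) (nat_lit 5) (nat_lit 22) (nat_lit 5) (nat_lit 23) (nat_lit 4) (nat_lit 377) (nat_lit 335) (nat_lit 188)) (XT.lf (nat_lit 0) (nat_lit 428536844708) (nat_lit 152) (nat_lit 14769600593) (nat_lit 0) (nat_lit 64028525916) (nat_lit 21) (nat_lit 5) (nat_lit 23) (nat_lit 4) (nat_lit 21) (nat_lit 4) (nat_lit 378) (nat_lit 335) (nat_lit 187)))) (XT.nd (nat_lit 78) (nat_lit 76) (nat_lit 0) (XT.lf (nat_lit 0) (nat_lit 72447095412) (nat_lit 152) (nat_lit 215992078451) (nat_lit 76) (nat_lit 250387553543) (nat_lit 19) (nat_lit 5) (nat_lit 21) (nat_lit 5) (nat_lit 20) (nat_lit 4) (nat_lit 379) (nat_lit 335) (nat_lit 186)) (XT.nd (nat_lit 78) (nat_lit 0) (nat_lit 0) (XT.lf (nat_lit 0) (nat_lit 117579517703) (nat_lit 76) (nat_lit 117585567366) (nat_lit 152) (nat_lit 337501457817) (nat_lit 18) (nat_lit 5) (nat_lit 19) (nat_lit 5) (nat_lit 20) (nat_lit 4) (nat_lit 380) (nat_lit 335)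 (nat_lit 185)) (XT.lf (nat_lit 0) (nat_lit 415769413565) (nat_lit 152) (nat_lit 124582860489) (nat_lit 0) (nat_lit 68617824616) (nat_lit 18) (nat_lit 5) (nat_lit 20) (nat_lit 4) (nat_lit 18) (nat_lit 4) (nat_lit 381) (nat_lit 335) (nat_lit 184))))) (XT.nd (nat_lit 234) (nat_lit 228) (nat_lit 0) (XT.nd (nat_lit 78) (nat_lit 152) (nat_lit 0) (XT.lf (nat_lit 0) (nat_lit 237995776487) (nat_lit 76) (nat_lit 378524535511) (nat_lit 76) (nat_lit 31372715779) (nat_lit 17) (nat_lit 4) (nat_lit 18) (nat_lit 5) (nat_lit 18) (nat_lit 4) (nat_lit 382) (nat_lit 335) (nat_lit 183)) (XT.nd (nat_lit 78) (nat_lit 76) (nat_lit 0) (XT.lf (nat_lit 0) (nat_lit 141017220196) (nat_lit 152) (nat_lit 58066732016) (nat_lit 76) (nat_lit 490623620463) (nat_lit 16) (nat_lit 5) (nat_lit 18) (nat_lit 5) (nat_lit 17) (nat_lit 4) (nat_lit 383) (nat_lit 335) (nat_lit 182)) (XT.lf (nat_lit 0) (nat_lit 331308304086) (nat_lit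 152) (nat_lit 402585675323) (nat_lit 0) (nat_lit 687131441) (nat_lit 15) (nat_lit 5) (nat_lit 17) (nat_lit 4) (nat_lit 15) (nat_lit 4) (nat_lit 384) (nat_lit 335) (nat_lit 181)))) (XT.nd (nat_lit 156) (nat_lit 152) (nat_lit 0) (XT.nd (nat_lit 78) (nat_lit 76) (nat_lit 0) (XT.lf (nat_lit 0) (nat_lit 541207430183) (nat_lit 152) (nat_lit 31031781096) (nat_lit 0) (nat_lit 210586083059) (nat_lit 15) (nat_lit 5) (nat_lit 17) (nat_lit 4) (nat_lit 15) (nat_lit 4) (nat_lit 385) (nat_lit 335) (nat_lit 180)) (XT.lf (nat_lit 0) (nat_lit 382488019620) (nat_lit 76) (nat_lit 391381963381) (nat_lit 76) (nat_lit 60760454703) (nat_lit 14) (nat_lit 4) (nat_lit 15) (nat_lit 5) (nat_lit 15) (nat_lit 4) (nat_lit 386) (nat_lit 335) (nat_lit 179))) (XT.nd (nat_lit 78) (nat_lit 76) (nat_lit 0) (XT.lf (nat_lit 0) (nat_lit 130807817777) (nat_lit 152) (nat_lit 62465631820) (nat_lit 76) (nat_lit 697174035294) (nat_lit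 13) (nat_lit 5) (nat_lit 15) (nat_lit 5) (nat_lit 14) (nat_lit 4) (nat_lit 387) (nat_lit 335) (nat_lit 178)) (XT.lf (nat_lit 0) (nat_lit 341799160485) (nat_lit 152) (nat_lit 581648355004) (nat_lit 0) (nat_lit 26921258798) (nat_lit 12) (nat_lit 5) (nat_lit 14) (nat_lit 4) (nat_lit 12) (nat_lit 4) (nat_lit 388) (nat_lit 335) (nat_lit 177))))))))
noncomputable def xc102 : XT := (XT.nd (nat_lit 44460) (nat_lit 0) (nat_lit 532) (XT.nd (nat_lit 43446) (nat_lit 0) (nat_lit 3496) (XT.nd (nat_lit 42978) (nat_lit 0) (nat_lit 6840) (XT.nd (nat_lit 42744) (nat_lit 0) (nat_lit 7220) (XT.nd (nat_lit 78) (nat_lit 76) (nat_lit 0) (XT.lf (nat_lit 0) (nat_lit 574034517281) (nat_lit 152) (nat_lit 181674520789) (nat_lit 0) (nat_lit 259156493455) (nat_lit 12) (nat_lit 5) (nat_lit 14) (nat_lit 4) (nat_lit 12) (nat_lit 4) (nat_lit 389) (nat_lit 335) (nat_lit 176)) (XT.nd (nat_lit 78) (nat_lit 0) (nat_lit 0) (XT.lf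 (nat_lit 0) (nat_lit 258572832044) (nat_lit 76) (nat_lit 570312745253) (nat_lit 76) (nat_lit 255434608333) (nat_lit 11) (nat_lit 4) (nat_lit 12) (nat_lit 5) (nat_lit 12) (nat_lit 4) (nat_lit 390) (nat_lit 335) (nat_lit 175)) (XT.lf (nat_lit 0) (nat_lit 740527192573) (nat_lit 76) (nat_lit 366762018352) (nat_lit 76) (nat_lit 51883776717) (nat_lit 11) (nat_lit 4) (nat_lit 12) (nat_lit 5) (nat_lit 12) (nat_lit 4) (nat_lit 391) (nat_lit 335) (nat_lit 174)))) (XT.nd (nat_lit 78) (nat_lit 0) (nat_lit 76) (XT.lf (nat_lit 0) (nat_lit 5492888903) (nat_lit 836) (nat_lit 13512316502) (nat_lit 836) (nat_lit 13512316502) (nat_lit 106) (nat_lit 3) (nat_lit 117) (nat_lit 3) (nat_lit 117) (nat_lit 5) (nat_lit 336) (nat_lit 336) (nat_lit 228)) (XT.nd (nat_lit 78) (nat_lit 0) (nat_lit 0) (XT.lf (nat_lit 0) (nat_lit 11996335380) (nat_lit 760) (nat_lit 44355961073) (nat_lit 836) (nat_lit 11255572357) (nat_lit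 107) (nat_lit 5) (nat_lit 117) (nat_lit 5) (nat_lit 118) (nat_lit 5) (nat_lit 337) (nat_lit 336) (nat_lit 227)) (XT.lf (nat_lit 76) (nat_lit 7750638283) (nat_lit 0) (nat_lit 6575140213) (nat_lit 836) (nat_lit 55998841304) (nat_lit 108) (nat_lit 5) (nat_lit 107) (nat_lit 5) (nat_lit 118) (nat_lit 5) (nat_lit 338) (nat_lit 336) (nat_lit 226))))) (XT.nd (nat_lit 234) (nat_lit 532) (nat_lit 0) (XT.nd (nat_lit 78) (nat_lit 0) (nat_lit 76) (XT.lf (nat_lit 0) (nat_lit 18361378087) (nat_lit 760) (nat_lit 8361202188) (nat_lit 836) (nat_lit 46460142436) (nat_lit 108) (nat_lit 5) (nat_lit 118) (nat_lit 5) (nat_lit 119) (nat_lit 5) (nat_lit 339) (nat_lit 336) (nat_lit 225)) (XT.nd (nat_lit 78) (nat_lit 0) (nat_lit 76) (XT.lf (nat_lit 0) (nat_lit 24074998856) (nat_lit 760) (nat_lit 24930194978) (nat_lit 836) (nat_lit 27196523112) (nat_lit 109) (nat_lit 5) (nat_lit 119) (nat_lit 5) (nat_lit 120) (nat_lit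 5) (nat_lit 340) (nat_lit 336) (nat_lit 224)) (XT.lf (nat_lit 0) (nat_lit 31515181251) (nat_lit 760) (nat_lit 42237837144) (nat_lit 836) (nat_lit 5645740353) (nat_lit 110) (nat_lit 5) (nat_lit 120) (nat_lit 5) (nat_lit 121) (nat_lit 5) (nat_lit 341) (nat_lit 336) (nat_lit 223)))) (XT.nd (nat_lit 78) (nat_lit 684) (nat_lit 0) (XT.lf (nat_lit 76) (nat_lit 22153898906) (nat_lit 0) (nat_lit 19008500268) (nat_lit 836) (nat_lit 41608575174) (nat_lit 111) (nat_lit 5) (nat_lit 110) (nat_lit 5) (nat_lit 121) (nat_lit 5) (nat_lit 342) (nat_lit 336) (nat_lit 222)) (XT.nd (nat_lit 78) (nat_lit 0) (nat_lit 0) (XT.lf (nat_lit 0) (nat_lit 6393880381) (nat_lit 760) (nat_lit 46659820343) (nat_lit 836) (nat_lit 33285652555) (nat_lit 101) (nat_lit 5) (nat_lit 111) (nat_lit 5) (nat_lit 112) (nat_lit 5) (nat_lit 343) (nat_lit 336) (nat_lit 221)) (XT.lf (nat_lit 0) (nat_lit 67474157868) (nat_lit 836) (nat_lit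 9735067256) (nat_lit 76) (nat_lit 12905086114) (nat_lit 101) (nat_lit 5) (nat_lit 112) (nat_lit 5) (nat_lit 102) (nat_lit 5) (nat_lit 344) (nat_lit 336) (nat_lit 220)))))) (XT.nd (nat_lit 468) (nat_lit 1596) (nat_lit 0) (XT.nd (nat_lit 234) (nat_lit 608) (nat_lit 0) (XT.nd (nat_lit 78) (nat_lit 760) (nat_lit 0) (XT.lf (nat_lit 0) (nat_lit 67463261192) (nat_lit 380) (nat_lit 17423614051) (nat_lit 456) (nat_lit 9212460602) (nat_lit 96) (nat_lit 5) (nat_lit 101) (nat_lit 5) (nat_lit 102) (nat_lit 5) (nat_lit 345) (nat_lit 336) (nat_lit 219)) (XT.nd (nat_lit 78) (nat_lit 380) (nat_lit 0) (XT.lf (nat_lit 0) (nat_lit 6895373826) (nat_lit 380) (nat_lit 44655864974) (nat_lit 76) (nat_lit 46759034437) (nat_lit 91) (nat_lit 5) (nat_lit 96) (nat_lit 5) (nat_lit 92) (nat_lit 5) (nat_lit 346) (nat_lit 336) (nat_lit 218)) (XT.lf (nat_lit 0) (nat_lit 25568337953) (nat_lit 456) (nat_lit 63715365616) (nat_lit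 76) (nat_lit 13486868695) (nat_lit 86) (nat_lit 5) (nat_lit 92) (nat_lit 5) (nat_lit 87) (nat_lit 5) (nat_lit 347) (nat_lit 336) (nat_lit 217)))) (XT.nd (nat_lit 78) (nat_lit 304) (nat_lit 0) (XT.lf (nat_lit 0) (nat_lit 23373736686) (nat_lit 304) (nat_lit 24384989010) (nat_lit 380) (nat_lit 59727791094) (nat_lit 82) (nat_lit 5) (nat_lit 86) (nat_lit 5) (nat_lit 87) (nat_lit 5) (nat_lit 348) (nat_lit 336) (nat_lit 216)) (XT.nd (nat_lit 78) (nat_lit 0) (nat_lit 0) (XT.lf (nat_lit 0) (nat_lit 6661012149) (nat_lit 304) (nat_lit 67007845163) (nat_lit 380) (nat_lit 38813654758) (nat_lit 78) (nat_lit 5) (nat_lit 82) (nat_lit 5) (nat_lit 83) (nat_lit 5) (nat_lit 349) (nat_lit 336) (nat_lit 215)) (XT.lf (nat_lit 0) (nat_lit 103579053475) (nat_lit 380) (nat_lit 10569099775) (nat_lit 76) (nat_lit 3633671795) (nat_lit 78) (nat_lit 5) (nat_lit 83) (nat_lit 5) (nat_lit 79) (nat_lit 5) (nat_lit 350) (nat_lit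 336) (nat_lit 214))))) (XT.nd (nat_lit 234) (nat_lit 760) (nat_lit 0) (XT.nd (nat_lit 78) (nat_lit 532) (nat_lit 0) (XT.lf (nat_lit 0) (nat_lit 14622839970) (nat_lit 304) (nat_lit 29424043718) (nat_lit 76) (nat_lit 79316438163) (nat_lit 74) (nat_lit 5) (nat_lit 78) (nat_lit 5) (nat_lit 75) (nat_lit 5) (nat_lit 351) (nat_lit 336) (nat_lit 213)) (XT.nd (nat_lit 78) (nat_lit 228) (nat_lit 0) (XT.lf (nat_lit 0) (nat_lit 47222514059) (nat_lit 380) (nat_lit 49704999149) (nat_lit 76) (nat_lit 32353903731) (nat_lit 70) (nat_lit 5) (nat_lit 75) (nat_lit 5) (nat_lit 71) (nat_lit 5) (nat_lit 352) (nat_lit 336) (nat_lit 212)) (XT.lf (nat_lit 0) (nat_lit 63996242723) (nat_lit 228) (nat_lit 20695819764) (nat_lit 304) (nat_lit 50867802710) (nat_lit 67) (nat_lit 5) (nat_lit 70) (nat_lit 5) (nat_lit 71) (nat_lit 5) (nat_lit 353) (nat_lit 336) (nat_lit 211)))) (XT.nd (nat_lit 156) (nat_lit 228) (nat_lit 0)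 (XT.nd (nat_lit 78) (nat_lit 304) (nat_lit 0) (XT.lf (nat_lit 0) (nat_lit 46791148422) (nat_lit 228) (nat_lit 80939999746) (nat_lit 304) (nat_lit 14480843020) (nat_lit 64) (nat_lit 5) (nat_lit 67) (nat_lit 5) (nat_lit 68) (nat_lit 5) (nat_lit 354) (nat_lit 336) (nat_lit 210)) (XT.lf (nat_lit 0) (nat_lit 26104304503) (nat_lit 304) (nat_lit 121330849717) (nat_lit 76) (nat_lit 1837683693) (nat_lit 60) (nat_lit 5) (nat_lit 64) (nat_lit 5) (nat_lit 61) (nat_lit 5) (nat_lit 355) (nat_lit 336) (nat_lit 209))) (XT.nd (nat_lit 78) (nat_lit 0) (nat_lit 0) (XT.lf (nat_lit 0) (nat_lit 6331090159) (nat_lit 228) (nat_lit 66256874239) (nat_lit 304) (nat_lit 84140766938) (nat_lit 57) (nat_lit 5) (nat_lit 60) (nat_lit 5) (nat_lit 61) (nat_lit 5) (nat_lit 356) (nat_lit 336) (nat_lit 208)) (XT.lf (nat_lit 0) (nat_lit 125272060481) (nat_lit 304) (nat_lit 16506913394) (nat_lit 76) (nat_lit 22878035597) (nat_lit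 57) (nat_lit 5) (nat_lit 61) (nat_lit 5) (nat_lit 58) (nat_lit 5) (nat_lit 357) (nat_lit 336) (nat_lit 207))))))) (XT.nd (nat_lit 936) (nat_lit 1140) (nat_lit 0) (XT.nd (nat_lit 468) (nat_lit 836) (nat_lit 0) (XT.nd (nat_lit 234) (nat_lit 380) (nat_lit 0) (XT.nd (nat_lit 78) (nat_lit 380) (nat_lit 0) (XT.lf (nat_lit 0) (nat_lit 11881226289) (nat_lit 228) (nat_lit 42077741687) (nat_lit 76) (nat_lit 119092774948) (nat_lit 54) (nat_lit 5) (nat_lit 57) (nat_lit 5) (nat_lit 55) (nat_lit 5) (nat_lit 358) (nat_lit 336) (nat_lit 206)) (XT.nd (nat_lit 78) (nat_lit 152) (nat_lit 0) (XT.lf (nat_lit 0) (nat_lit 68604509131) (nat_lit 304) (nat_lit 71023158056) (nat_lit 76) (nat_lit 42321321939) (nat_lit 51) (nat_lit 5) (nat_lit 55) (nat_lit 5) (nat_lit 52) (nat_lit 5) (nat_lit 359) (nat_lit 336) (nat_lit 205)) (XT.lf (nat_lit 0) (nat_lit 88046036460) (nat_lit 152) (nat_lit 44848437130) (nat_lit 228)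 (nat_lit 58512100796) (nat_lit 49) (nat_lit 5) (nat_lit 51) (nat_lit 5) (nat_lit 52) (nat_lit 5) (nat_lit 360) (nat_lit 336) (nat_lit 204)))) (XT.nd (nat_lit 78) (nat_lit 152) (nat_lit 0) (XT.lf (nat_lit 0) (nat_lit 3856288374) (nat_lit 228) (nat_lit 139647554984) (nat_lit 76) (nat_lit 57957769377) (nat_lit 46) (nat_lit 5) (nat_lit 49) (nat_lit 5) (nat_lit 47) (nat_lit 5) (nat_lit 361) (nat_lit 336) (nat_lit 203)) (XT.nd (nat_lit 78) (nat_lit 0) (nat_lit 0) (XT.lf (nat_lit 0) (nat_lit 30877484014) (nat_lit 152) (nat_lit 41381785174) (nat_lit 228) (nat_lit 139859069504) (nat_lit 44) (nat_lit 5) (nat_lit 46) (nat_lit 5) (nat_lit 47) (nat_lit 5) (nat_lit 362) (nat_lit 336) (nat_lit 202)) (XT.lf (nat_lit 0) (nat_lit 149682233167) (nat_lit 228) (nat_lit 4591403355) (nat_lit 76) (nat_lit 69176579203) (nat_lit 44) (nat_lit 5) (nat_lit 47) (nat_lit 5) (nat_lit 45) (nat_lit 5) (nat_lit 363) (nat_lit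 336) (nat_lit 201))))) (XT.nd (nat_lit 234) (nat_lit 304) (nat_lit 0) (XT.nd (nat_lit 78) (nat_lit 304) (nat_lit 0) (XT.lf (nat_lit 0) (nat_lit 1436378176) (nat_lit 228) (nat_lit 43902841991) (nat_lit 76) (nat_lit 190163813162) (nat_lit 41) (nat_lit 5) (nat_lit 44) (nat_lit 5) (nat_lit 42) (nat_lit 5) (nat_lit 364) (nat_lit 336) (nat_lit 200)) (XT.nd (nat_lit 78) (nat_lit 152) (nat_lit 0) (XT.lf (nat_lit 0) (nat_lit 83861386558) (nat_lit 228) (nat_lit 90543901108) (nat_lit 76) (nat_lit 73864884829) (nat_lit 39) (nat_lit 5) (nat_lit 42) (nat_lit 5) (nat_lit 40) (nat_lit 5) (nat_lit 365) (nat_lit 336) (nat_lit 199)) (XT.lf (nat_lit 0) (nat_lit 118032920896) (nat_lit 152) (nat_lit 58231596462) (nat_lit 228) (nat_lit 85624959527) (nat_lit 37) (nat_lit 5) (nat_lit 39) (nat_lit 5) (nat_lit 40) (nat_lit 5) (nat_lit 366) (nat_lit 336) (nat_lit 198)))) (XT.nd (nat_lit 78) (nat_lit 152) (nat_lit 0)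 (XT.lf (nat_lit 0) (nat_lit 3304672883) (nat_lit 152) (nat_lit 205250891664) (nat_lit 76) (nat_lit 67851888208) (nat_lit 35) (nat_lit 5) (nat_lit 37) (nat_lit 5) (nat_lit 36) (nat_lit 5) (nat_lit 367) (nat_lit 336) (nat_lit 197)) (XT.nd (nat_lit 78) (nat_lit 0) (nat_lit 0) (XT.lf (nat_lit 0) (nat_lit 14544149041) (nat_lit 152) (nat_lit 85600218597) (nat_lit 228) (nat_lit 191682536148) (nat_lit 33) (nat_lit 5) (nat_lit 35) (nat_lit 5) (nat_lit 36) (nat_lit 5) (nat_lit 368) (nat_lit 336) (nat_lit 196)) (XT.lf (nat_lit 0) (nat_lit 209101531054) (nat_lit 228) (nat_lit 49845110566) (nat_lit 76) (nat_lit 49314754757) (nat_lit 33) (nat_lit 5) (nat_lit 36) (nat_lit 5) (nat_lit 34) (nat_lit 4) (nat_lit 369) (nat_lit 336) (nat_lit 195)))))) (XT.nd (nat_lit 468) (nat_lit 456) (nat_lit 0) (XT.nd (nat_lit 234) (nat_lit 304) (nat_lit 0) (XT.nd (nat_lit 78) (nat_lit 228) (nat_lit 0) (XT.lf (nat_lit 0)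 (nat_lit 5392719196) (nat_lit 152) (nat_lit 125099449763) (nat_lit 76) (nat_lit 195285254012) (nat_lit 31) (nat_lit 5) (nat_lit 33) (nat_lit 5) (nat_lit 32) (nat_lit 5) (nat_lit 370) (nat_lit 336) (nat_lit 194)) (XT.nd (nat_lit 78) (nat_lit 76) (nat_lit 0) (XT.lf (nat_lit 0) (nat_lit 118011274458) (nat_lit 228) (nat_lit 213795527256) (nat_lit 76) (nat_lit 12647859377) (nat_lit 29) (nat_lit 5) (nat_lit 32) (nat_lit 5) (nat_lit 30) (nat_lit 4) (nat_lit 371) (nat_lit 336) (nat_lit 193)) (XT.lf (nat_lit 0) (nat_lit 46066186354) (nat_lit 76) (nat_lit 198707173160) (nat_lit 152) (nat_lit 119596016580) (nat_lit 28) (nat_lit 5) (nat_lit 29) (nat_lit 5) (nat_lit 30) (nat_lit 4) (nat_lit 372) (nat_lit 336) (nat_lit 192)))) (XT.nd (nat_lit 78) (nat_lit 304) (nat_lit 0) (XT.lf (nat_lit 0) (nat_lit 334350733342) (nat_lit 76) (nat_lit 51049487737) (nat_lit 152) (nat_lit 290856828) (nat_lit 28) (nat_lit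 5) (nat_lit 29) (nat_lit 5) (nat_lit 30) (nat_lit 4) (nat_lit 373) (nat_lit 336) (nat_lit 191)) (XT.nd (nat_lit 78) (nat_lit 76) (nat_lit 0) (XT.lf (nat_lit 0) (nat_lit 130021333378) (nat_lit 228) (nat_lit 167475505266) (nat_lit 76) (nat_lit 110842454237) (nat_lit 25) (nat_lit 5) (nat_lit 28) (nat_lit 5) (nat_lit 26) (nat_lit 4) (nat_lit 374) (nat_lit 336) (nat_lit 190)) (XT.lf (nat_lit 0) (nat_lit 128763202353) (nat_lit 76) (nat_lit 145765024473) (nat_lit 152) (nat_lit 158081903986) (nat_lit 24) (nat_lit 5) (nat_lit 25) (nat_lit 5) (nat_lit 26) (nat_lit 4) (nat_lit 375) (nat_lit 336) (nat_lit 189))))) (XT.nd (nat_lit 234) (nat_lit 228) (nat_lit 0) (XT.nd (nat_lit 78) (nat_lit 228) (nat_lit 0) (XT.lf (nat_lit 0) (nat_lit 433843161645) (nat_lit 152) (nat_lit 4326371572) (nat_lit 0) (nat_lit 20490728136) (nat_lit 24) (nat_lit 5) (nat_lit 26) (nat_lit 4) (nat_lit 24) (nat_lit 4) (nat_lit 376)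 (nat_lit 336) (nat_lit 188)) (XT.nd (nat_lit 78) (nat_lit 76) (nat_lit 0) (XT.lf (nat_lit 0) (nat_lit 122986272682) (nat_lit 152) (nat_lit 161230920669) (nat_lit 76) (nat_lit 202099747267) (nat_lit 22) (nat_lit 5) (nat_lit 24) (nat_lit 5) (nat_lit 23) (nat_lit 4) (nat_lit 377) (nat_lit 336) (nat_lit 187)) (XT.lf (nat_lit 0) (nat_lit 169839182289) (nat_lit 76) (nat_lit 114644857942) (nat_lit 152) (nat_lit 231544792384) (nat_lit 21) (nat_lit 5) (nat_lit 22) (nat_lit 5) (nat_lit 23) (nat_lit 4) (nat_lit 378) (nat_lit 336) (nat_lit 186)))) (XT.nd (nat_lit 156) (nat_lit 76) (nat_lit 0) (XT.nd (nat_lit 78) (nat_lit 152) (nat_lit 0) (XT.lf (nat_lit 0) (nat_lit 462825298974) (nat_lit 152) (nat_lit 15940796458) (nat_lit 0) (nat_lit 69155397105) (nat_lit 21) (nat_lit 5) (nat_lit 23) (nat_lit 4) (nat_lit 21) (nat_lit 4) (nat_lit 379) (nat_lit 336) (nat_lit 185)) (XT.lf (nat_lit 0) (nat_lit 78248203794)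 (nat_lit 152) (nat_lit 233261345797) (nat_lit 76) (nat_lit 270423048049) (nat_lit 19) (nat_lit 5) (nat_lit 21) (nat_lit 5) (nat_lit 20) (nat_lit 4) (nat_lit 380) (nat_lit 336) (nat_lit 184))) (XT.nd (nat_lit 78) (nat_lit 0) (nat_lit 0) (XT.lf (nat_lit 0) (nat_lit 126995539162) (nat_lit 76) (nat_lit 126987848671) (nat_lit 152) (nat_lit 364496222834) (nat_lit 18) (nat_lit 5) (nat_lit 19) (nat_lit 5) (nat_lit 20) (nat_lit 4) (nat_lit 381) (nat_lit 336) (nat_lit 183)) (XT.lf (nat_lit 0) (nat_lit 449035751110) (nat_lit 152) (nat_lit 134540374111) (nat_lit 0) (nat_lit 74111341331) (nat_lit 18) (nat_lit 5) (nat_lit 20) (nat_lit 4) (nat_lit 18) (nat_lit 4) (nat_lit 382) (nat_lit 336) (nat_lit 182))))))))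
noncomputable def xc103 : XT := (XT.nd (nat_lit 44538) (nat_lit 0) (nat_lit 988) (XT.nd (nat_lit 43524) (nat_lit 0) (nat_lit 4788) (XT.nd (nat_lit 468) (nat_lit 152) (nat_lit 0) (XT.nd (nat_lit 234) (nat_lit 152) (nat_lit 0) (XT.nd (nat_lit 78) (nat_lit 152) (nat_lit 0) (XT.lf (nat_lit 0) (nat_lit 257044157687) (nat_lit 76) (nat_lit 408802345455) (nat_lit 76) (nat_lit 33877737817) (nat_lit 17) (nat_lit 4) (nat_lit 18) (nat_lit 5) (nat_lit 18) (nat_lit 4) (nat_lit 383) (nat_lit 336) (nat_lit 181)) (XT.nd (nat_lit 78) (nat_lit 76) (nat_lit 0) (XT.lf (nat_lit 0) (nat_lit 152302895726) (nat_lit 152) (nat_lit 62703854601) (nat_lit 76) (nat_lit 529877212622) (nat_lit 16) (nat_lit 5) (nat_lit 18) (nat_lit 5) (nat_lit 17) (nat_lit 4) (nat_lit 384) (nat_lit 336) (nat_lit 180)) (XT.lf (nat_lit 0) (nat_lit 357817129315) (nat_lit 152) (nat_lit 434784523372) (nat_lit 0) (nat_lit 745738389) (nat_lit 15)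 (nat_lit 5) (nat_lit 17) (nat_lit 4) (nat_lit 15) (nat_lit 4) (nat_lit 385) (nat_lit 336) (nat_lit 179)))) (XT.nd (nat_lit 78) (nat_lit 152) (nat_lit 0) (XT.lf (nat_lit 0) (nat_lit 584507877284) (nat_lit 152) (nat_lit 33506910642) (nat_lit 0) (nat_lit 227436336771) (nat_lit 15) (nat_lit 5) (nat_lit 17) (nat_lit 4) (nat_lit 15) (nat_lit 4) (nat_lit 386) (nat_lit 336) (nat_lit 178)) (XT.nd (nat_lit 78) (nat_lit 76) (nat_lit 0) (XT.lf (nat_lit 0) (nat_lit 413094151973) (nat_lit 76) (nat_lit 422689107677) (nat_lit 76) (nat_lit 65617428657) (nat_lit 14) (nat_lit 4) (nat_lit 15) (nat_lit 5) (nat_lit 15) (nat_lit 4) (nat_lit 387) (nat_lit 336) (nat_lit 177)) (XT.lf (nat_lit 0) (nat_lit 141275905051) (nat_lit 152) (nat_lit 67456201909) (nat_lit 76) (nat_lit 752951003178) (nat_lit 13) (nat_lit 5) (nat_lit 15) (nat_lit 5) (nat_lit 14) (nat_lit 4) (nat_lit 388) (nat_lit 336) (nat_lit 176))))) (XT.nd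 (nat_lit 42822) (nat_lit 0) (nat_lit 7220) (XT.nd (nat_lit 78) (nat_lit 76) (nat_lit 0) (XT.lf (nat_lit 0) (nat_lit 369146446675) (nat_lit 152) (nat_lit 628173715760) (nat_lit 0) (nat_lit 29077945710) (nat_lit 12) (nat_lit 5) (nat_lit 14) (nat_lit 4) (nat_lit 12) (nat_lit 4) (nat_lit 389) (nat_lit 336) (nat_lit 175)) (XT.nd (nat_lit 78) (nat_lit 76) (nat_lit 0) (XT.lf (nat_lit 0) (nat_lit 619960383619) (nat_lit 152) (nat_lit 196202456856) (nat_lit 0) (nat_lit 279891777938) (nat_lit 12) (nat_lit 5) (nat_lit 14) (nat_lit 4) (nat_lit 12) (nat_lit 4) (nat_lit 390) (nat_lit 336) (nat_lit 174)) (XT.lf (nat_lit 0) (nat_lit 279264422339) (nat_lit 76) (nat_lit 615934966088) (nat_lit 76) (nat_lit 275866263449) (nat_lit 11) (nat_lit 4) (nat_lit 12) (nat_lit 5) (nat_lit 12) (nat_lit 4) (nat_lit 391) (nat_lit 336) (nat_lit 173)))) (XT.nd (nat_lit 78) (nat_lit 0) (nat_lit 76) (XT.lf (nat_lit 0) (nat_lit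 5955334319) (nat_lit 836) (nat_lit 14581209340) (nat_lit 836) (nat_lit 14581209340) (nat_lit 106) (nat_lit 3) (nat_lit 117) (nat_lit 3) (nat_lit 117) (nat_lit 5) (nat_lit 337) (nat_lit 337) (nat_lit 226)) (XT.nd (nat_lit 78) (nat_lit 0) (nat_lit 0) (XT.lf (nat_lit 0) (nat_lit 12998712620) (nat_lit 760) (nat_lit 47878808237) (nat_lit 836) (nat_lit 12136807001) (nat_lit 107) (nat_lit 5) (nat_lit 117) (nat_lit 5) (nat_lit 118) (nat_lit 5) (nat_lit 338) (nat_lit 337) (nat_lit 225)) (XT.lf (nat_lit 76) (nat_lit 8395205231) (nat_lit 0) (nat_lit 7116527944) (nat_lit 836) (nat_lit 60436827388) (nat_lit 108) (nat_lit 5) (nat_lit 107) (nat_lit 5) (nat_lit 118) (nat_lit 5) (nat_lit 339) (nat_lit 337) (nat_lit 224)))))) (XT.nd (nat_lit 468) (nat_lit 2052) (nat_lit 0) (XT.nd (nat_lit 234) (nat_lit 532) (nat_lit 0) (XT.nd (nat_lit 78) (nat_lit 0) (nat_lit 76) (XT.lf (nat_lit 0) (nat_lit 19867003454) (nat_lit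 760) (nat_lit 9005297645) (nat_lit 836) (nat_lit 50163172007) (nat_lit 108) (nat_lit 5) (nat_lit 118) (nat_lit 5) (nat_lit 119) (nat_lit 5) (nat_lit 340) (nat_lit 337) (nat_lit 223)) (XT.nd (nat_lit 78) (nat_lit 0) (nat_lit 76) (XT.lf (nat_lit 0) (nat_lit 26035198461) (nat_lit 760) (nat_lit 26898973887) (nat_lit 836) (nat_lit 29361942650) (nat_lit 109) (nat_lit 5) (nat_lit 119) (nat_lit 5) (nat_lit 120) (nat_lit 5) (nat_lit 341) (nat_lit 337) (nat_lit 222)) (XT.lf (nat_lit 0) (nat_lit 34068327489) (nat_lit 760) (nat_lit 45590594440) (nat_lit 836) (nat_lit 6090113782) (nat_lit 110) (nat_lit 5) (nat_lit 120) (nat_lit 5) (nat_lit 121) (nat_lit 5) (nat_lit 342) (nat_lit 337) (nat_lit 221)))) (XT.nd (nat_lit 78) (nat_lit 684) (nat_lit 0) (XT.lf (nat_lit 76) (nat_lit 23951338845) (nat_lit 0) (nat_lit 20534011006) (nat_lit 836) (nat_lit 44905779370) (nat_lit 111) (nat_lit 5) (nat_lit 110) (nat_lit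 5) (nat_lit 121) (nat_lit 5) (nat_lit 343) (nat_lit 337) (nat_lit 220)) (XT.nd (nat_lit 78) (nat_lit 0) (nat_lit 0) (XT.lf (nat_lit 0) (nat_lit 6930955833) (nat_lit 760) (nat_lit 50395109833) (nat_lit 836) (nat_lit 35919009155) (nat_lit 101) (nat_lit 5) (nat_lit 111) (nat_lit 5) (nat_lit 112) (nat_lit 5) (nat_lit 344) (nat_lit 337) (nat_lit 219)) (XT.lf (nat_lit 0) (nat_lit 72898044008) (nat_lit 836) (nat_lit 10488844087) (nat_lit 76) (nat_lit 13935248814) (nat_lit 101) (nat_lit 5) (nat_lit 112) (nat_lit 5) (nat_lit 102) (nat_lit 5) (nat_lit 345) (nat_lit 337) (nat_lit 218))))) (XT.nd (nat_lit 234) (nat_lit 912) (nat_lit 0) (XT.nd (nat_lit 78) (nat_lit 760) (nat_lit 0) (XT.lf (nat_lit 0) (nat_lit 72884262926) (nat_lit 380) (nat_lit 18817967148) (nat_lit 456) (nat_lit 9923812441) (nat_lit 96) (nat_lit 5) (nat_lit 101) (nat_lit 5) (nat_lit 102) (nat_lit 5) (nat_lit 346) (nat_lit 337) (nat_lit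 217)) (XT.nd (nat_lit 78) (nat_lit 380) (nat_lit 0) (XT.lf (nat_lit 0) (nat_lit 7470364628) (nat_lit 380) (nat_lit 48203450530) (nat_lit 76) (nat_lit 50500094296) (nat_lit 91) (nat_lit 5) (nat_lit 96) (nat_lit 5) (nat_lit 92) (nat_lit 5) (nat_lit 347) (nat_lit 337) (nat_lit 216)) (XT.lf (nat_lit 0) (nat_lit 27635835173) (nat_lit 456) (nat_lit 68787704344) (nat_lit 76) (nat_lit 14567560724) (nat_lit 86) (nat_lit 5) (nat_lit 92) (nat_lit 5) (nat_lit 87) (nat_lit 5) (nat_lit 348) (nat_lit 337) (nat_lit 215)))) (XT.nd (nat_lit 156) (nat_lit 304) (nat_lit 0) (XT.nd (nat_lit 78) (nat_lit 304) (nat_lit 0) (XT.lf (nat_lit 0) (nat_lit 25267444431) (nat_lit 304) (nat_lit 26332749362) (nat_lit 380) (nat_lit 64484190751) (nat_lit 82) (nat_lit 5) (nat_lit 86) (nat_lit 5) (nat_lit 87) (nat_lit 5) (nat_lit 349) (nat_lit 337) (nat_lit 214)) (XT.lf (nat_lit 0) (nat_lit 7217629648) (nat_lit 304) (nat_lit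 72364382292) (nat_lit 380) (nat_lit 41898104825) (nat_lit 78) (nat_lit 5) (nat_lit 82) (nat_lit 5) (nat_lit 83) (nat_lit 5) (nat_lit 350) (nat_lit 337) (nat_lit 213))) (XT.nd (nat_lit 78) (nat_lit 304) (nat_lit 0) (XT.lf (nat_lit 0) (nat_lit 111883627667) (nat_lit 380) (nat_lit 11391786151) (nat_lit 76) (nat_lit 3928031801) (nat_lit 78) (nat_lit 5) (nat_lit 83) (nat_lit 5) (nat_lit 79) (nat_lit 5) (nat_lit 351) (nat_lit 337) (nat_lit 212)) (XT.lf (nat_lit 0) (nat_lit 15810200562) (nat_lit 304) (nat_lit 31755527139) (nat_lit 76) (nat_lit 85665771823) (nat_lit 74) (nat_lit 5) (nat_lit 78) (nat_lit 5) (nat_lit 75) (nat_lit 5) (nat_lit 352) (nat_lit 337) (nat_lit 211))))))) (XT.nd (nat_lit 936) (nat_lit 1520) (nat_lit 0) (XT.nd (nat_lit 468) (nat_lit 988) (nat_lit 0) (XT.nd (nat_lit 234) (nat_lit 532) (nat_lit 0) (XT.nd (nat_lit 78) (nat_lit 456) (nat_lit 0) (XT.lf (nat_lit 0) (nat_lit 51016961361)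 (nat_lit 380) (nat_lit 53659171599) (nat_lit 76) (nat_lit 34946954463) (nat_lit 70) (nat_lit 5) (nat_lit 75) (nat_lit 5) (nat_lit 71) (nat_lit 5) (nat_lit 353) (nat_lit 337) (nat_lit 210)) (XT.nd (nat_lit 78) (nat_lit 228) (nat_lit 0) (XT.lf (nat_lit 0) (nat_lit 69137203643) (nat_lit 228) (nat_lit 22345968921) (nat_lit 304) (nat_lit 54920684815) (nat_lit 67) (nat_lit 5) (nat_lit 70) (nat_lit 5) (nat_lit 71) (nat_lit 5) (nat_lit 354) (nat_lit 337) (nat_lit 209)) (XT.lf (nat_lit 0) (nat_lit 50555457810) (nat_lit 228) (nat_lit 87409168877) (nat_lit 304) (nat_lit 15623565408) (nat_lit 64) (nat_lit 5) (nat_lit 67) (nat_lit 5) (nat_lit 68) (nat_lit 5) (nat_lit 355) (nat_lit 337) (nat_lit 208)))) (XT.nd (nat_lit 78) (nat_lit 228) (nat_lit 0) (XT.lf (nat_lit 0) (nat_lit 28207178728) (nat_lit 304) (nat_lit 131016089806) (nat_lit 76) (nat_lit 1990661934) (nat_lit 60) (nat_lit 5) (nat_lit 64) (nat_lit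 5) (nat_lit 61) (nat_lit 5) (nat_lit 356) (nat_lit 337) (nat_lit 207)) (XT.nd (nat_lit 78) (nat_lit 0) (nat_lit 0) (XT.lf (nat_lit 0) (nat_lit 6857882722) (nat_lit 228) (nat_lit 71550889430) (nat_lit 304) (nat_lit 90857561768) (nat_lit 57) (nat_lit 5) (nat_lit 60) (nat_lit 5) (nat_lit 61) (nat_lit 5) (nat_lit 357) (nat_lit 337) (nat_lit 206)) (XT.lf (nat_lit 0) (nat_lit 135306670345) (nat_lit 304) (nat_lit 17808115310) (nat_lit 76) (nat_lit 24714135478) (nat_lit 57) (nat_lit 5) (nat_lit 61) (nat_lit 5) (nat_lit 58) (nat_lit 5) (nat_lit 358) (nat_lit 337) (nat_lit 205))))) (XT.nd (nat_lit 234) (nat_lit 380) (nat_lit 0) (XT.nd (nat_lit 78) (nat_lit 380) (nat_lit 0) (XT.lf (nat_lit 0) (nat_lit 12844112779) (nat_lit 228) (nat_lit 45425035191) (nat_lit 76) (nat_lit 128626108932) (nat_lit 54) (nat_lit 5) (nat_lit 57) (nat_lit 5) (nat_lit 55) (nat_lit 5) (nat_lit 359) (nat_lit 337) (nat_lit 204))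 (XT.nd (nat_lit 78) (nat_lit 152) (nat_lit 0) (XT.lf (nat_lit 0) (nat_lit 74104722376) (nat_lit 304) (nat_lit 76686413247) (nat_lit 76) (nat_lit 45713174420) (nat_lit 51) (nat_lit 5) (nat_lit 55) (nat_lit 5) (nat_lit 52) (nat_lit 5) (nat_lit 360) (nat_lit 337) (nat_lit 203)) (XT.lf (nat_lit 0) (nat_lit 95107508609) (nat_lit 152) (nat_lit 48429775158) (nat_lit 228) (nat_lit 63181248780) (nat_lit 49) (nat_lit 5) (nat_lit 51) (nat_lit 5) (nat_lit 52) (nat_lit 5) (nat_lit 361) (nat_lit 337) (nat_lit 202)))) (XT.nd (nat_lit 78) (nat_lit 152) (nat_lit 0) (XT.lf (nat_lit 0) (nat_lit 4175758812) (nat_lit 228) (nat_lit 150801530565) (nat_lit 76) (nat_lit 62600699444) (nat_lit 46) (nat_lit 5) (nat_lit 49) (nat_lit 5) (nat_lit 47) (nat_lit 5) (nat_lit 362) (nat_lit 337) (nat_lit 201)) (XT.nd (nat_lit 78) (nat_lit 0) (nat_lit 0) (XT.lf (nat_lit 0) (nat_lit 33364736735) (nat_lit 152) (nat_lit 44685695220)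 (nat_lit 228) (nat_lit 151036848546) (nat_lit 44) (nat_lit 5) (nat_lit 46) (nat_lit 5) (nat_lit 47) (nat_lit 5) (nat_lit 363) (nat_lit 337) (nat_lit 200)) (XT.lf (nat_lit 0) (nat_lit 161666556994) (nat_lit 228) (nat_lit 4942534392) (nat_lit 76) (nat_lit 74716650426) (nat_lit 44) (nat_lit 5) (nat_lit 47) (nat_lit 5) (nat_lit 45) (nat_lit 5) (nat_lit 364) (nat_lit 337) (nat_lit 199)))))) (XT.nd (nat_lit 468) (nat_lit 684) (nat_lit 0) (XT.nd (nat_lit 234) (nat_lit 304) (nat_lit 0) (XT.nd (nat_lit 78) (nat_lit 304) (nat_lit 0) (XT.lf (nat_lit 0) (nat_lit 1560708786) (nat_lit 228) (nat_lit 47399276405) (nat_lit 76) (nat_lit 205382816337) (nat_lit 41) (nat_lit 5) (nat_lit 44) (nat_lit 5) (nat_lit 42) (nat_lit 5) (nat_lit 365) (nat_lit 337) (nat_lit 198)) (XT.nd (nat_lit 78) (nat_lit 152) (nat_lit 0) (XT.lf (nat_lit 0) (nat_lit 90579351882) (nat_lit 228) (nat_lit 97771951469) (nat_lit 76) (nat_lit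 79780027030) (nat_lit 39) (nat_lit 5) (nat_lit 42) (nat_lit 5) (nat_lit 40) (nat_lit 5) (nat_lit 366) (nat_lit 337) (nat_lit 197)) (XT.lf (nat_lit 0) (nat_lit 127490344347) (nat_lit 152) (nat_lit 62883949011) (nat_lit 228) (nat_lit 92465907988) (nat_lit 37) (nat_lit 5) (nat_lit 39) (nat_lit 5) (nat_lit 40) (nat_lit 5) (nat_lit 367) (nat_lit 337) (nat_lit 196)))) (XT.nd (nat_lit 78) (nat_lit 152) (nat_lit 0) (XT.lf (nat_lit 0) (nat_lit 3577476969) (nat_lit 152) (nat_lit 221656211993) (nat_lit 76) (nat_lit 73285935893) (nat_lit 35) (nat_lit 5) (nat_lit 37) (nat_lit 5) (nat_lit 36) (nat_lit 5) (nat_lit 368) (nat_lit 337) (nat_lit 195)) (XT.nd (nat_lit 78) (nat_lit 0) (nat_lit 0) (XT.lf (nat_lit 0) (nat_lit 15721790908) (nat_lit 152) (nat_lit 92442152229) (nat_lit 228) (nat_lit 207008709232) (nat_lit 33) (nat_lit 5) (nat_lit 35) (nat_lit 5) (nat_lit 36) (nat_lit 5) (nat_lit 369) (nat_lit 337)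 (nat_lit 194)) (XT.lf (nat_lit 0) (nat_lit 225837173051) (nat_lit 228) (nat_lit 53819368784) (nat_lit 76) (nat_lit 53265388040) (nat_lit 33) (nat_lit 5) (nat_lit 36) (nat_lit 5) (nat_lit 34) (nat_lit 4) (nat_lit 370) (nat_lit 337) (nat_lit 193))))) (XT.nd (nat_lit 234) (nat_lit 304) (nat_lit 0) (XT.nd (nat_lit 78) (nat_lit 228) (nat_lit 0) (XT.lf (nat_lit 0) (nat_lit 5831418039) (nat_lit 152) (nat_lit 135094392594) (nat_lit 76) (nat_lit 210913440139) (nat_lit 31) (nat_lit 5) (nat_lit 33) (nat_lit 5) (nat_lit 32) (nat_lit 5) (nat_lit 371) (nat_lit 337) (nat_lit 192)) (XT.nd (nat_lit 78) (nat_lit 76) (nat_lit 0) (XT.lf (nat_lit 0) (nat_lit 127459198755) (nat_lit 228) (nat_lit 230886459228) (nat_lit 76) (nat_lit 13665023053) (nat_lit 29) (nat_lit 5) (nat_lit 32) (nat_lit 5) (nat_lit 30) (nat_lit 4) (nat_lit 372) (nat_lit 337) (nat_lit 191)) (XT.lf (nat_lit 0) (nat_lit 49763639101) (nat_lit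 76) (nat_lit 214598281160) (nat_lit 152) (nat_lit 129156669632) (nat_lit 28) (nat_lit 5) (nat_lit 29) (nat_lit 5) (nat_lit 30) (nat_lit 4) (nat_lit 373) (nat_lit 337) (nat_lit 190)))) (XT.nd (nat_lit 156) (nat_lit 76) (nat_lit 0) (XT.nd (nat_lit 78) (nat_lit 228) (nat_lit 0) (XT.lf (nat_lit 0) (nat_lit 361110049267) (nat_lit 76) (nat_lit 55128385780) (nat_lit 152) (nat_lit 307617713) (nat_lit 28) (nat_lit 5) (nat_lit 29) (nat_lit 5) (nat_lit 30) (nat_lit 4) (nat_lit 374) (nat_lit 337) (nat_lit 189)) (XT.lf (nat_lit 0) (nat_lit 140429121568) (nat_lit 228) (nat_lit 180862352928) (nat_lit 76) (nat_lit 119714656359) (nat_lit 25) (nat_lit 5) (nat_lit 28) (nat_lit 5) (nat_lit 26) (nat_lit 4) (nat_lit 375) (nat_lit 337) (nat_lit 188))) (XT.nd (nat_lit 78) (nat_lit 0) (nat_lit 0) (XT.lf (nat_lit 0) (nat_lit 139074964877) (nat_lit 76) (nat_lit 157421318288) (nat_lit 152) (nat_lit 170722366925) (nat_lit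 24) (nat_lit 5) (nat_lit 25) (nat_lit 5) (nat_lit 26) (nat_lit 4) (nat_lit 376) (nat_lit 337) (nat_lit 187)) (XT.lf (nat_lit 0) (nat_lit 468556054228) (nat_lit 152) (nat_lit 4662369359) (nat_lit 0) (nat_lit 22134385508) (nat_lit 24) (nat_lit 5) (nat_lit 26) (nat_lit 4) (nat_lit 24) (nat_lit 4) (nat_lit 377) (nat_lit 337) (nat_lit 186))))))))
noncomputable def xc104 : XT := (XT.nd (nat_lit 44538) (nat_lit 0) (nat_lit 1444) (XT.nd (nat_lit 936) (nat_lit 76) (nat_lit 0) (XT.nd (nat_lit 468) (nat_lit 380) (nat_lit 0) (XT.nd (nat_lit 234) (nat_lit 228) (nat_lit 0) (XT.nd (nat_lit 78) (nat_lit 76) (nat_lit 0) (XT.lf (nat_lit 0) (nat_lit 132830448330) (nat_lit 152) (nat_lit 174119546416) (nat_lit 76) (nat_lit 218272036386) (nat_lit 22) (nat_lit 5) (nat_lit 24) (nat_lit 5) (nat_lit 23) (nat_lit 4) (nat_lit 378) (nat_lit 337) (nat_lit 185)) (XT.nd (nat_lit 78) (nat_lit 0) (nat_lit 0) (XT.lf (nat_lit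 0) (nat_lit 183435736801) (nat_lit 76) (nat_lit 123812056900) (nat_lit 152) (nat_lit 250063093045) (nat_lit 21) (nat_lit 5) (nat_lit 22) (nat_lit 5) (nat_lit 23) (nat_lit 4) (nat_lit 379) (nat_lit 337) (nat_lit 184)) (XT.lf (nat_lit 0) (nat_lit 499856043990) (nat_lit 152) (nat_lit 17207167700) (nat_lit 0) (nat_lit 74691763300) (nat_lit 21) (nat_lit 5) (nat_lit 23) (nat_lit 4) (nat_lit 21) (nat_lit 4) (nat_lit 380) (nat_lit 337) (nat_lit 183)))) (XT.nd (nat_lit 78) (nat_lit 76) (nat_lit 0) (XT.lf (nat_lit 0) (nat_lit 84512638928) (nat_lit 152) (nat_lit 251913595257) (nat_lit 76) (nat_lit 292060741535) (nat_lit 19) (nat_lit 5) (nat_lit 21) (nat_lit 5) (nat_lit 20) (nat_lit 4) (nat_lit 381) (nat_lit 337) (nat_lit 182)) (XT.nd (nat_lit 78) (nat_lit 0) (nat_lit 0) (XT.lf (nat_lit 0) (nat_lit 137163464225) (nat_lit 76) (nat_lit 137142963598) (nat_lit 152) (nat_lit 393651332520) (nat_lit 18) (nat_lit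 5) (nat_lit 19) (nat_lit 5) (nat_lit 20) (nat_lit 4) (nat_lit 382) (nat_lit 337) (nat_lit 181)) (XT.lf (nat_lit 0) (nat_lit 484962713102) (nat_lit 152) (nat_lit 145295789211) (nat_lit 0) (nat_lit 80043755792) (nat_lit 18) (nat_lit 5) (nat_lit 20) (nat_lit 4) (nat_lit 18) (nat_lit 4) (nat_lit 383) (nat_lit 337) (nat_lit 180))))) (XT.nd (nat_lit 234) (nat_lit 152) (nat_lit 0) (XT.nd (nat_lit 78) (nat_lit 152) (nat_lit 0) (XT.lf (nat_lit 0) (nat_lit 277615165509) (nat_lit 76) (nat_lit 441502972653) (nat_lit 76) (nat_lit 36583845711) (nat_lit 17) (nat_lit 4) (nat_lit 18) (nat_lit 5) (nat_lit 18) (nat_lit 4) (nat_lit 384) (nat_lit 337) (nat_lit 179)) (XT.nd (nat_lit 78) (nat_lit 76) (nat_lit 0) (XT.lf (nat_lit 0) (nat_lit 164490812152) (nat_lit 152) (nat_lit 67713119094) (nat_lit 76) (nat_lit 572270563947) (nat_lit 16) (nat_lit 5) (nat_lit 18) (nat_lit 5) (nat_lit 17) (nat_lit 4) (nat_lit 385)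 (nat_lit 337) (nat_lit 178)) (XT.lf (nat_lit 0) (nat_lit 386446066963) (nat_lit 152) (nat_lit 469560421408) (nat_lit 0) (nat_lit 808515115) (nat_lit 15) (nat_lit 5) (nat_lit 17) (nat_lit 4) (nat_lit 15) (nat_lit 4) (nat_lit 386) (nat_lit 337) (nat_lit 177)))) (XT.nd (nat_lit 78) (nat_lit 152) (nat_lit 0) (XT.lf (nat_lit 0) (nat_lit 631271810525) (nat_lit 152) (nat_lit 36181108091) (nat_lit 0) (nat_lit 245634130431) (nat_lit 15) (nat_lit 5) (nat_lit 17) (nat_lit 4) (nat_lit 15) (nat_lit 4) (nat_lit 387) (nat_lit 337) (nat_lit 176)) (XT.nd (nat_lit 78) (nat_lit 76) (nat_lit 0) (XT.lf (nat_lit 0) (nat_lit 446147763335) (nat_lit 76) (nat_lit 456501310388) (nat_lit 76) (nat_lit 70863511546) (nat_lit 14) (nat_lit 4) (nat_lit 15) (nat_lit 5) (nat_lit 15) (nat_lit 4) (nat_lit 388) (nat_lit 337) (nat_lit 175)) (XT.lf (nat_lit 0) (nat_lit 152580945436) (nat_lit 152) (nat_lit 72846970648) (nat_lit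 76) (nat_lit 813189694080) (nat_lit 13) (nat_lit 5) (nat_lit 15) (nat_lit 5) (nat_lit 14) (nat_lit 4) (nat_lit 389) (nat_lit 337) (nat_lit 174)))))) (XT.nd (nat_lit 43134) (nat_lit 0) (nat_lit 6384) (XT.nd (nat_lit 42900) (nat_lit 0) (nat_lit 7220) (XT.nd (nat_lit 78) (nat_lit 0) (nat_lit 0) (XT.lf (nat_lit 0) (nat_lit 398681037367) (nat_lit 152) (nat_lit 678422033765) (nat_lit 0) (nat_lit 31406741559) (nat_lit 12) (nat_lit 5) (nat_lit 14) (nat_lit 4) (nat_lit 12) (nat_lit 4) (nat_lit 390) (nat_lit 337) (nat_lit 173)) (XT.nd (nat_lit 42744) (nat_lit 0) (nat_lit 7144) (XT.lf (nat_lit 0) (nat_lit 669559876306) (nat_lit 152) (nat_lit 211893487427) (nat_lit 0) (nat_lit 302285490721) (nat_lit 12) (nat_lit 5) (nat_lit 14) (nat_lit 4) (nat_lit 12) (nat_lit 4) (nat_lit 391) (nat_lit 337) (nat_lit 172)) (XT.lf (nat_lit 0) (nat_lit 6451492121) (nat_lit 836) (nat_lit 15737338733) (nat_lit 836) (nat_lit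 15737338733) (nat_lit 106) (nat_lit 3) (nat_lit 117) (nat_lit 3) (nat_lit 117) (nat_lit 5) (nat_lit 338) (nat_lit 338) (nat_lit 224)))) (XT.nd (nat_lit 78) (nat_lit 0) (nat_lit 0) (XT.lf (nat_lit 0) (nat_lit 14075192628) (nat_lit 760) (nat_lit 51687139540) (nat_lit 836) (nat_lit 13091281102) (nat_lit 107) (nat_lit 5) (nat_lit 117) (nat_lit 5) (nat_lit 118) (nat_lit 5) (nat_lit 339) (nat_lit 338) (nat_lit 223)) (XT.nd (nat_lit 78) (nat_lit 0) (nat_lit 76) (XT.lf (nat_lit 76) (nat_lit 9087840070) (nat_lit 0) (nat_lit 7699033063) (nat_lit 836) (nat_lit 65235832890) (nat_lit 108) (nat_lit 5) (nat_lit 107) (nat_lit 5) (nat_lit 118) (nat_lit 5) (nat_lit 340) (nat_lit 338) (nat_lit 222)) (XT.lf (nat_lit 0) (nat_lit 21487841027) (nat_lit 760) (nat_lit 9704458838) (nat_lit 836) (nat_lit 54164410075) (nat_lit 108) (nat_lit 5) (nat_lit 118) (nat_lit 5) (nat_lit 119) (nat_lit 5) (nat_lit 341) (nat_lit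 338) (nat_lit 221))))) (XT.nd (nat_lit 234) (nat_lit 988) (nat_lit 0) (XT.nd (nat_lit 78) (nat_lit 0) (nat_lit 76) (XT.lf (nat_lit 0) (nat_lit 28147335065) (nat_lit 760) (nat_lit 29028912468) (nat_lit 836) (nat_lit 31702065490) (nat_lit 109) (nat_lit 5) (nat_lit 119) (nat_lit 5) (nat_lit 120) (nat_lit 5) (nat_lit 342) (nat_lit 338) (nat_lit 220)) (XT.nd (nat_lit 78) (nat_lit 0) (nat_lit 0) (XT.lf (nat_lit 0) (nat_lit 36821170007) (nat_lit 760) (nat_lit 49215319983) (nat_lit 836) (nat_lit 6571076486) (nat_lit 110) (nat_lit 5) (nat_lit 120) (nat_lit 5) (nat_lit 121) (nat_lit 5) (nat_lit 343) (nat_lit 338) (nat_lit 219)) (XT.lf (nat_lit 76) (nat_lit 25888989186) (nat_lit 0) (nat_lit 22180873447) (nat_lit 836) (nat_lit 48471251134) (nat_lit 111) (nat_lit 5) (nat_lit 110) (nat_lit 5) (nat_lit 121) (nat_lit 5) (nat_lit 344) (nat_lit 338) (nat_lit 218)))) (XT.nd (nat_lit 78) (nat_lit 380) (nat_lit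 0) (XT.lf (nat_lit 0) (nat_lit 7507350184) (nat_lit 760) (nat_lit 54428865279) (nat_lit 836) (nat_lit 38767242160) (nat_lit 101) (nat_lit 5) (nat_lit 111) (nat_lit 5) (nat_lit 112) (nat_lit 5) (nat_lit 345) (nat_lit 338) (nat_lit 217)) (XT.nd (nat_lit 78) (nat_lit 380) (nat_lit 0) (XT.lf (nat_lit 0) (nat_lit 78752138482) (nat_lit 836) (nat_lit 11306493667) (nat_lit 76) (nat_lit 15048144689) (nat_lit 101) (nat_lit 5) (nat_lit 112) (nat_lit 5) (nat_lit 102) (nat_lit 5) (nat_lit 346) (nat_lit 338) (nat_lit 216)) (XT.lf (nat_lit 0) (nat_lit 78735529372) (nat_lit 380) (nat_lit 20323802302) (nat_lit 456) (nat_lit 10695730976) (nat_lit 96) (nat_lit 5) (nat_lit 101) (nat_lit 5) (nat_lit 102) (nat_lit 5) (nat_lit 347) (nat_lit 338) (nat_lit 215))))))) (XT.nd (nat_lit 936) (nat_lit 1976) (nat_lit 0) (XT.nd (nat_lit 468) (nat_lit 1292) (nat_lit 0) (XT.nd (nat_lit 234) (nat_lit 608) (nat_lit 0) (XT.nd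 (nat_lit 78) (nat_lit 684) (nat_lit 0) (XT.lf (nat_lit 0) (nat_lit 8088022001) (nat_lit 380) (nat_lit 52038392861) (nat_lit 76) (nat_lit 54540390851) (nat_lit 91) (nat_lit 5) (nat_lit 96) (nat_lit 5) (nat_lit 92) (nat_lit 5) (nat_lit 348) (nat_lit 338) (nat_lit 214)) (XT.nd (nat_lit 78) (nat_lit 304) (nat_lit 0) (XT.lf (nat_lit 0) (nat_lit 29865589319) (nat_lit 456) (nat_lit 74269381081) (nat_lit 76) (nat_lit 15734459524) (nat_lit 86) (nat_lit 5) (nat_lit 92) (nat_lit 5) (nat_lit 87) (nat_lit 5) (nat_lit 349) (nat_lit 338) (nat_lit 213)) (XT.lf (nat_lit 0) (nat_lit 27309252202) (nat_lit 304) (nat_lit 28436764057) (nat_lit 380) (nat_lit 69624215766) (nat_lit 82) (nat_lit 5) (nat_lit 86) (nat_lit 5) (nat_lit 87) (nat_lit 5) (nat_lit 350) (nat_lit 338) (nat_lit 212)))) (XT.nd (nat_lit 78) (nat_lit 304) (nat_lit 0) (XT.lf (nat_lit 0) (nat_lit 7815390266) (nat_lit 304) (nat_lit 78150025944) (nat_lit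 380) (nat_lit 45232255754) (nat_lit 78) (nat_lit 5) (nat_lit 82) (nat_lit 5) (nat_lit 83) (nat_lit 5) (nat_lit 351) (nat_lit 338) (nat_lit 211)) (XT.nd (nat_lit 78) (nat_lit 304) (nat_lit 0) (XT.lf (nat_lit 0) (nat_lit 120849964239) (nat_lit 380) (nat_lit 12283546048) (nat_lit 76) (nat_lit 4245417575) (nat_lit 78) (nat_lit 5) (nat_lit 83) (nat_lit 5) (nat_lit 79) (nat_lit 5) (nat_lit 352) (nat_lit 338) (nat_lit 210)) (XT.lf (nat_lit 0) (nat_lit 17090048666) (nat_lit 304) (nat_lit 34276730560) (nat_lit 76) (nat_lit 92522478877) (nat_lit 74) (nat_lit 5) (nat_lit 78) (nat_lit 5) (nat_lit 75) (nat_lit 5) (nat_lit 353) (nat_lit 338) (nat_lit 209))))) (XT.nd (nat_lit 234) (nat_lit 532) (nat_lit 0) (XT.nd (nat_lit 78) (nat_lit 456) (nat_lit 0) (XT.lf (nat_lit 0) (nat_lit 55112589684) (nat_lit 380) (nat_lit 57932848845) (nat_lit 76) (nat_lit 37746773264) (nat_lit 70) (nat_lit 5) (nat_lit 75) (nat_lit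 5) (nat_lit 71) (nat_lit 5) (nat_lit 354) (nat_lit 338) (nat_lit 208)) (XT.nd (nat_lit 78) (nat_lit 228) (nat_lit 0) (XT.lf (nat_lit 0) (nat_lit 74686408245) (nat_lit 228) (nat_lit 24128916991) (nat_lit 304) (nat_lit 59300157406) (nat_lit 67) (nat_lit 5) (nat_lit 70) (nat_lit 5) (nat_lit 71) (nat_lit 5) (nat_lit 355) (nat_lit 338) (nat_lit 207)) (XT.lf (nat_lit 0) (nat_lit 54617913565) (nat_lit 228) (nat_lit 94396731907) (nat_lit 304) (nat_lit 16859951795) (nat_lit 64) (nat_lit 5) (nat_lit 67) (nat_lit 5) (nat_lit 68) (nat_lit 5) (nat_lit 356) (nat_lit 338) (nat_lit 206)))) (XT.nd (nat_lit 78) (nat_lit 228) (nat_lit 0) (XT.lf (nat_lit 0) (nat_lit 30476210043) (nat_lit 304) (nat_lit 141479177497) (nat_lit 76) (nat_lit 2155027669) (nat_lit 60) (nat_lit 5) (nat_lit 64) (nat_lit 5) (nat_lit 61) (nat_lit 5) (nat_lit 357) (nat_lit 338) (nat_lit 205)) (XT.nd (nat_lit 78) (nat_lit 0) (nat_lit 0)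 (XT.lf (nat_lit 0) (nat_lit 7423921905) (nat_lit 228) (nat_lit 77269358090) (nat_lit 304) (nat_lit 98113763995) (nat_lit 57) (nat_lit 5) (nat_lit 60) (nat_lit 5) (nat_lit 61) (nat_lit 5) (nat_lit 358) (nat_lit 338) (nat_lit 204)) (XT.lf (nat_lit 0) (nat_lit 146142216511) (nat_lit 304) (nat_lit 19216174038) (nat_lit 76) (nat_lit 26696287778) (nat_lit 57) (nat_lit 5) (nat_lit 61) (nat_lit 5) (nat_lit 58) (nat_lit 5) (nat_lit 359) (nat_lit 338) (nat_lit 203)))))) (XT.nd (nat_lit 468) (nat_lit 988) (nat_lit 0) (XT.nd (nat_lit 234) (nat_lit 380) (nat_lit 0) (XT.nd (nat_lit 78) (nat_lit 380) (nat_lit 0) (XT.lf (nat_lit 0) (nat_lit 13882262847) (nat_lit 228) (nat_lit 49042812158) (nat_lit 76) (nat_lit 138921266222) (nat_lit 54) (nat_lit 5) (nat_lit 57) (nat_lit 5) (nat_lit 55) (nat_lit 5) (nat_lit 360) (nat_lit 338) (nat_lit 202)) (XT.nd (nat_lit 78) (nat_lit 152) (nat_lit 0) (XT.lf (nat_lit 0)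 (nat_lit 80043261786) (nat_lit 304) (nat_lit 82805381987) (nat_lit 76) (nat_lit 49375498200) (nat_lit 51) (nat_lit 5) (nat_lit 55) (nat_lit 5) (nat_lit 52) (nat_lit 5) (nat_lit 361) (nat_lit 338) (nat_lit 201)) (XT.lf (nat_lit 0) (nat_lit 102731360696) (nat_lit 152) (nat_lit 52298552796) (nat_lit 228) (nat_lit 68225614870) (nat_lit 49) (nat_lit 5) (nat_lit 51) (nat_lit 5) (nat_lit 52) (nat_lit 5) (nat_lit 362) (nat_lit 338) (nat_lit 200)))) (XT.nd (nat_lit 78) (nat_lit 152) (nat_lit 0) (XT.lf (nat_lit 0) (nat_lit 4519222268) (nat_lit 228) (nat_lit 162850367673) (nat_lit 76) (nat_lit 67614163937) (nat_lit 46) (nat_lit 5) (nat_lit 49) (nat_lit 5) (nat_lit 47) (nat_lit 5) (nat_lit 363) (nat_lit 338) (nat_lit 199)) (XT.nd (nat_lit 78) (nat_lit 0) (nat_lit 0) (XT.lf (nat_lit 0) (nat_lit 36048536729) (nat_lit 152) (nat_lit 48254864308) (nat_lit 228) (nat_lit 163110411554) (nat_lit 44) (nat_lit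 5) (nat_lit 46) (nat_lit 5) (nat_lit 47) (nat_lit 5) (nat_lit 364) (nat_lit 338) (nat_lit 198)) (XT.lf (nat_lit 0) (nat_lit 174608236469) (nat_lit 228) (nat_lit 5324064345) (nat_lit 76) (nat_lit 80699079243) (nat_lit 44) (nat_lit 5) (nat_lit 47) (nat_lit 5) (nat_lit 45) (nat_lit 5) (nat_lit 365) (nat_lit 338) (nat_lit 197))))) (XT.nd (nat_lit 234) (nat_lit 456) (nat_lit 0) (XT.nd (nat_lit 78) (nat_lit 304) (nat_lit 0) (XT.lf (nat_lit 0) (nat_lit 1693641926) (nat_lit 228) (nat_lit 51177678612) (nat_lit 76) (nat_lit 221818498332) (nat_lit 41) (nat_lit 5) (nat_lit 44) (nat_lit 5) (nat_lit 42) (nat_lit 5) (nat_lit 366) (nat_lit 338) (nat_lit 196)) (XT.nd (nat_lit 78) (nat_lit 152) (nat_lit 0) (XT.lf (nat_lit 0) (nat_lit 97833462720) (nat_lit 228) (nat_lit 105580451647) (nat_lit 76) (nat_lit 86167531571) (nat_lit 39) (nat_lit 5) (nat_lit 42) (nat_lit 5) (nat_lit 40) (nat_lit 5) (nat_lit 367)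 (nat_lit 338) (nat_lit 195)) (XT.lf (nat_lit 0) (nat_lit 137702251748) (nat_lit 152) (nat_lit 67909370721) (nat_lit 228) (nat_lit 99855423167) (nat_lit 37) (nat_lit 5) (nat_lit 39) (nat_lit 5) (nat_lit 40) (nat_lit 5) (nat_lit 368) (nat_lit 338) (nat_lit 194)))) (XT.nd (nat_lit 156) (nat_lit 152) (nat_lit 0) (XT.nd (nat_lit 78) (nat_lit 152) (nat_lit 0) (XT.lf (nat_lit 0) (nat_lit 3870902711) (nat_lit 152) (nat_lit 239376062344) (nat_lit 76) (nat_lit 79153866172) (nat_lit 35) (nat_lit 5) (nat_lit 37) (nat_lit 5) (nat_lit 36) (nat_lit 5) (nat_lit 369) (nat_lit 338) (nat_lit 193)) (XT.lf (nat_lit 0) (nat_lit 16991631183) (nat_lit 152) (nat_lit 99832308481) (nat_lit 228) (nat_lit 223562178770) (nat_lit 33) (nat_lit 5) (nat_lit 35) (nat_lit 5) (nat_lit 36) (nat_lit 5) (nat_lit 370) (nat_lit 338) (nat_lit 192))) (XT.nd (nat_lit 78) (nat_lit 152) (nat_lit 0) (XT.lf (nat_lit 0) (nat_lit 243910593665)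 (nat_lit 228) (nat_lit 58113472276) (nat_lit 76) (nat_lit 57531294069) (nat_lit 33) (nat_lit 5) (nat_lit 36) (nat_lit 5) (nat_lit 34) (nat_lit 4) (nat_lit 371) (nat_lit 338) (nat_lit 191)) (XT.lf (nat_lit 0) (nat_lit 6304174029) (nat_lit 152) (nat_lit 145890787322) (nat_lit 76) (nat_lit 227791115664) (nat_lit 31) (nat_lit 5) (nat_lit 33) (nat_lit 5) (nat_lit 32) (nat_lit 5) (nat_lit 372) (nat_lit 338) (nat_lit 190))))))))
noncomputable def xc105 : XT := (XT.nd (nat_lit 44694) (nat_lit 0) (nat_lit 1900) (XT.nd (nat_lit 936) (nat_lit 456) (nat_lit 0) (XT.nd (nat_lit 468) (nat_lit 456) (nat_lit 0) (XT.nd (nat_lit 234) (nat_lit 304) (nat_lit 0) (XT.nd (nat_lit 78) (nat_lit 76) (nat_lit 0) (XT.lf (nat_lit 0) (nat_lit 137661955180) (nat_lit 228) (nat_lit 249346479012) (nat_lit 76) (nat_lit 14762798736) (nat_lit 29) (nat_lit 5) (nat_lit 32) (nat_lit 5) (nat_lit 30) (nat_lit 4) (nat_lit 373) (nat_lit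 338) (nat_lit 189)) (XT.nd (nat_lit 78) (nat_lit 0) (nat_lit 0) (XT.lf (nat_lit 0) (nat_lit 53755153616) (nat_lit 76) (nat_lit 231761457564) (nat_lit 152) (nat_lit 139483177590) (nat_lit 28) (nat_lit 5) (nat_lit 29) (nat_lit 5) (nat_lit 30) (nat_lit 4) (nat_lit 374) (nat_lit 338) (nat_lit 188)) (XT.lf (nat_lit 0) (nat_lit 390008504492) (nat_lit 76) (nat_lit 59534317671) (nat_lit 152) (nat_lit 326647859) (nat_lit 28) (nat_lit 5) (nat_lit 29) (nat_lit 5) (nat_lit 30) (nat_lit 4) (nat_lit 375) (nat_lit 338) (nat_lit 187)))) (XT.nd (nat_lit 78) (nat_lit 76) (nat_lit 0) (XT.lf (nat_lit 0) (nat_lit 151668665217) (nat_lit 228) (nat_lit 195321745176) (nat_lit 76) (nat_lit 129295949052) (nat_lit 25) (nat_lit 5) (nat_lit 28) (nat_lit 5) (nat_lit 26) (nat_lit 4) (nat_lit 376) (nat_lit 338) (nat_lit 186)) (XT.nd (nat_lit 78) (nat_lit 0) (nat_lit 0) (XT.lf (nat_lit 0) (nat_lit 150210141024) (nat_lit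 76) (nat_lit 170010815809) (nat_lit 152) (nat_lit 184374935616) (nat_lit 24) (nat_lit 5) (nat_lit 25) (nat_lit 5) (nat_lit 26) (nat_lit 4) (nat_lit 377) (nat_lit 338) (nat_lit 185)) (XT.lf (nat_lit 0) (nat_lit 506045202190) (nat_lit 152) (nat_lit 5026689550) (nat_lit 0) (nat_lit 23908907887) (nat_lit 24) (nat_lit 5) (nat_lit 26) (nat_lit 4) (nat_lit 24) (nat_lit 4) (nat_lit 378) (nat_lit 338) (nat_lit 184))))) (XT.nd (nat_lit 234) (nat_lit 228) (nat_lit 0) (XT.nd (nat_lit 78) (nat_lit 76) (nat_lit 0) (XT.lf (nat_lit 0) (nat_lit 143461405659) (nat_lit 152) (nat_lit 188040667137) (nat_lit 76) (nat_lit 235737493859) (nat_lit 22) (nat_lit 5) (nat_lit 24) (nat_lit 5) (nat_lit 23) (nat_lit 4) (nat_lit 379) (nat_lit 338) (nat_lit 183)) (XT.nd (nat_lit 78) (nat_lit 0) (nat_lit 0) (XT.lf (nat_lit 0) (nat_lit 198118671816) (nat_lit 76) (nat_lit 133713258010) (nat_lit 152) (nat_lit 270063611399) (nat_lit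 21) (nat_lit 5) (nat_lit 22) (nat_lit 5) (nat_lit 23) (nat_lit 4) (nat_lit 380) (nat_lit 338) (nat_lit 182)) (XT.lf (nat_lit 0) (nat_lit 539848575090) (nat_lit 152) (nat_lit 18576117252) (nat_lit 0) (nat_lit 80670477500) (nat_lit 21) (nat_lit 5) (nat_lit 23) (nat_lit 4) (nat_lit 21) (nat_lit 4) (nat_lit 381) (nat_lit 338) (nat_lit 181)))) (XT.nd (nat_lit 78) (nat_lit 76) (nat_lit 0) (XT.lf (nat_lit 0) (nat_lit 91277575653) (nat_lit 152) (nat_lit 272059259863) (nat_lit 76) (nat_lit 315428901306) (nat_lit 19) (nat_lit 5) (nat_lit 21) (nat_lit 5) (nat_lit 20) (nat_lit 4) (nat_lit 382) (nat_lit 338) (nat_lit 180)) (XT.nd (nat_lit 78) (nat_lit 0) (nat_lit 0) (XT.lf (nat_lit 0) (nat_lit 148143641782) (nat_lit 76) (nat_lit 148111045947) (nat_lit 152) (nat_lit 425139505529) (nat_lit 18) (nat_lit 5) (nat_lit 19) (nat_lit 5) (nat_lit 20) (nat_lit 4) (nat_lit 383) (nat_lit 338) (nat_lit 179)) (XT.lf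 (nat_lit 0) (nat_lit 523763246871) (nat_lit 152) (nat_lit 156912752391) (nat_lit 0) (nat_lit 86450263075) (nat_lit 18) (nat_lit 5) (nat_lit 20) (nat_lit 4) (nat_lit 18) (nat_lit 4) (nat_lit 384) (nat_lit 338) (nat_lit 178)))))) (XT.nd (nat_lit 468) (nat_lit 76) (nat_lit 0) (XT.nd (nat_lit 234) (nat_lit 152) (nat_lit 0) (XT.nd (nat_lit 78) (nat_lit 152) (nat_lit 0) (XT.lf (nat_lit 0) (nat_lit 299830787534) (nat_lit 76) (nat_lit 476820157962) (nat_lit 76) (nat_lit 39507028735) (nat_lit 17) (nat_lit 4) (nat_lit 18) (nat_lit 5) (nat_lit 18) (nat_lit 4) (nat_lit 385) (nat_lit 338) (nat_lit 177)) (XT.nd (nat_lit 78) (nat_lit 76) (nat_lit 0) (XT.lf (nat_lit 0) (nat_lit 177653236220) (nat_lit 152) (nat_lit 73124129635) (nat_lit 76) (nat_lit 618054930527) (nat_lit 16) (nat_lit 5) (nat_lit 18) (nat_lit 5) (nat_lit 17) (nat_lit 4) (nat_lit 386) (nat_lit 338) (nat_lit 176)) (XT.lf (nat_lit 0) (nat_lit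 417364810707) (nat_lit 152) (nat_lit 507119370489) (nat_lit 0) (nat_lit 875869211) (nat_lit 15) (nat_lit 5) (nat_lit 17) (nat_lit 4) (nat_lit 15) (nat_lit 4) (nat_lit 387) (nat_lit 338) (nat_lit 175)))) (XT.nd (nat_lit 78) (nat_lit 152) (nat_lit 0) (XT.lf (nat_lit 0) (nat_lit 681776387207) (nat_lit 152) (nat_lit 39070148006) (nat_lit 0) (nat_lit 265287335760) (nat_lit 15) (nat_lit 5) (nat_lit 17) (nat_lit 4) (nat_lit 15) (nat_lit 4) (nat_lit 388) (nat_lit 338) (nat_lit 174)) (XT.nd (nat_lit 78) (nat_lit 76) (nat_lit 0) (XT.lf (nat_lit 0) (nat_lit 481844796340) (nat_lit 76) (nat_lit 493018906728) (nat_lit 76) (nat_lit 76529753474) (nat_lit 14) (nat_lit 4) (nat_lit 15) (nat_lit 5) (nat_lit 15) (nat_lit 4) (nat_lit 389) (nat_lit 338) (nat_lit 173)) (XT.lf (nat_lit 0) (nat_lit 164789965635) (nat_lit 152) (nat_lit 78669817965) (nat_lit 76) (nat_lit 878247107817) (nat_lit 13) (nat_lit 5) (nat_lit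 15) (nat_lit 5) (nat_lit 14) (nat_lit 4) (nat_lit 390) (nat_lit 338) (nat_lit 172))))) (XT.nd (nat_lit 42978) (nat_lit 0) (nat_lit 7220) (XT.nd (nat_lit 42822) (nat_lit 0) (nat_lit 7144) (XT.lf (nat_lit 0) (nat_lit 430577985170) (nat_lit 152) (nat_lit 732691013154) (nat_lit 0) (nat_lit 33921475835) (nat_lit 12) (nat_lit 5) (nat_lit 14) (nat_lit 4) (nat_lit 12) (nat_lit 4) (nat_lit 391) (nat_lit 338) (nat_lit 171)) (XT.nd (nat_lit 78) (nat_lit 0) (nat_lit 76) (XT.lf (nat_lit 0) (nat_lit 6984527691) (nat_lit 836) (nat_lit 16987437496) (nat_lit 836) (nat_lit 16987437496) (nat_lit 106) (nat_lit 3) (nat_lit 117) (nat_lit 3) (nat_lit 117) (nat_lit 5) (nat_lit 339) (nat_lit 339) (nat_lit 222)) (XT.lf (nat_lit 0) (nat_lit 15232572062) (nat_lit 760) (nat_lit 55803272093) (nat_lit 836) (nat_lit 14124462826) (nat_lit 107) (nat_lit 5) (nat_lit 117) (nat_lit 5) (nat_lit 118) (nat_lit 5) (nat_lit 340)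 (nat_lit 339) (nat_lit 221)))) (XT.nd (nat_lit 156) (nat_lit 0) (nat_lit 152) (XT.nd (nat_lit 78) (nat_lit 0) (nat_lit 76) (XT.lf (nat_lit 76) (nat_lit 9832887183) (nat_lit 0) (nat_lit 8326257905) (nat_lit 836) (nat_lit 70423886174) (nat_lit 108) (nat_lit 5) (nat_lit 107) (nat_lit 5) (nat_lit 118) (nat_lit 5) (nat_lit 341) (nat_lit 339) (nat_lit 220)) (XT.lf (nat_lit 0) (nat_lit 23233855019) (nat_lit 760) (nat_lit 10462586276) (nat_lit 836) (nat_lit 58487432829) (nat_lit 108) (nat_lit 5) (nat_lit 118) (nat_lit 5) (nat_lit 119) (nat_lit 5) (nat_lit 342) (nat_lit 339) (nat_lit 219))) (XT.nd (nat_lit 78) (nat_lit 0) (nat_lit 76) (XT.lf (nat_lit 0) (nat_lit 30424259668) (nat_lit 760) (nat_lit 31332381734) (nat_lit 836) (nat_lit 34230658222) (nat_lit 109) (nat_lit 5) (nat_lit 119) (nat_lit 5) (nat_lit 120) (nat_lit 5) (nat_lit 343) (nat_lit 339) (nat_lit 218)) (XT.lf (nat_lit 0) (nat_lit 39790334388)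 (nat_lit 760) (nat_lit 53133236586) (nat_lit 836) (nat_lit 7091407326) (nat_lit 110) (nat_lit 5) (nat_lit 120) (nat_lit 5) (nat_lit 121) (nat_lit 5) (nat_lit 344) (nat_lit 339) (nat_lit 217))))))) (XT.nd (nat_lit 936) (nat_lit 2280) (nat_lit 0) (XT.nd (nat_lit 468) (nat_lit 1444) (nat_lit 0) (XT.nd (nat_lit 234) (nat_lit 1140) (nat_lit 0) (XT.nd (nat_lit 78) (nat_lit 684) (nat_lit 0) (XT.lf (nat_lit 76) (nat_lit 27978578171) (nat_lit 0) (nat_lit 23958894043) (nat_lit 836) (nat_lit 52325811149) (nat_lit 111) (nat_lit 5) (nat_lit 110) (nat_lit 5) (nat_lit 121) (nat_lit 5) (nat_lit 345) (nat_lit 339) (nat_lit 216)) (XT.nd (nat_lit 78) (nat_lit 0) (nat_lit 0) (XT.lf (nat_lit 0) (nat_lit 8126729253) (nat_lit 760) (nat_lit 58785014915) (nat_lit 836) (nat_lit 41846941383) (nat_lit 101) (nat_lit 5) (nat_lit 111) (nat_lit 5) (nat_lit 112) (nat_lit 5) (nat_lit 346) (nat_lit 339) (nat_lit 215)) (XT.lf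 (nat_lit 0) (nat_lit 85071386166) (nat_lit 836) (nat_lit 12192616429) (nat_lit 76) (nat_lit 16250346719) (nat_lit 101) (nat_lit 5) (nat_lit 112) (nat_lit 5) (nat_lit 102) (nat_lit 5) (nat_lit 347) (nat_lit 339) (nat_lit 214)))) (XT.nd (nat_lit 78) (nat_lit 760) (nat_lit 0) (XT.lf (nat_lit 0) (nat_lit 85051968953) (nat_lit 380) (nat_lit 21950047520) (nat_lit 456) (nat_lit 11532539607) (nat_lit 96) (nat_lit 5) (nat_lit 101) (nat_lit 5) (nat_lit 102) (nat_lit 5) (nat_lit 348) (nat_lit 339) (nat_lit 213)) (XT.nd (nat_lit 78) (nat_lit 380) (nat_lit 0) (XT.lf (nat_lit 0) (nat_lit 8752234718) (nat_lit 380) (nat_lit 56183174070) (nat_lit 76) (nat_lit 58903869900) (nat_lit 91) (nat_lit 5) (nat_lit 96) (nat_lit 5) (nat_lit 92) (nat_lit 5) (nat_lit 349) (nat_lit 339) (nat_lit 212)) (XT.lf (nat_lit 0) (nat_lit 32271029308) (nat_lit 456) (nat_lit 80192636292) (nat_lit 76) (nat_lit 16994497101) (nat_lit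 86) (nat_lit 5) (nat_lit 92) (nat_lit 5) (nat_lit 87) (nat_lit 5) (nat_lit 350) (nat_lit 339) (nat_lit 211))))) (XT.nd (nat_lit 234) (nat_lit 836) (nat_lit 0) (XT.nd (nat_lit 78) (nat_lit 304) (nat_lit 0) (XT.lf (nat_lit 0) (nat_lit 29511492563) (nat_lit 304) (nat_lit 30709471596) (nat_lit 380) (nat_lit 75178112008) (nat_lit 82) (nat_lit 5) (nat_lit 86) (nat_lit 5) (nat_lit 87) (nat_lit 5) (nat_lit 351) (nat_lit 339) (nat_lit 210)) (XT.nd (nat_lit 78) (nat_lit 0) (nat_lit 0) (XT.lf (nat_lit 0) (nat_lit 8458068543) (nat_lit 304) (nat_lit 84399021391) (nat_lit 380) (nat_lit 48835663497) (nat_lit 78) (nat_lit 5) (nat_lit 82) (nat_lit 5) (nat_lit 83) (nat_lit 5) (nat_lit 352) (nat_lit 339) (nat_lit 209)) (XT.lf (nat_lit 0) (nat_lit 130531375610) (nat_lit 380) (nat_lit 13249440469) (nat_lit 76) (nat_lit 4587745793) (nat_lit 78) (nat_lit 5) (nat_lit 83) (nat_lit 5) (nat_lit 79) (nat_lit 5) (nat_lit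 353) (nat_lit 339) (nat_lit 208)))) (XT.nd (nat_lit 78) (nat_lit 532) (nat_lit 0) (XT.lf (nat_lit 0) (nat_lit 18470140127) (nat_lit 304) (nat_lit 37002374879) (nat_lit 76) (nat_lit 99927230983) (nat_lit 74) (nat_lit 5) (nat_lit 78) (nat_lit 5) (nat_lit 75) (nat_lit 5) (nat_lit 354) (nat_lit 339) (nat_lit 207)) (XT.nd (nat_lit 78) (nat_lit 228) (nat_lit 0) (XT.lf (nat_lit 0) (nat_lit 59533832295) (nat_lit 380) (nat_lit 62551138890) (nat_lit 76) (nat_lit 40769998015) (nat_lit 70) (nat_lit 5) (nat_lit 75) (nat_lit 5) (nat_lit 71) (nat_lit 5) (nat_lit 355) (nat_lit 339) (nat_lit 206)) (XT.lf (nat_lit 0) (nat_lit 80676948744) (nat_lit 228) (nat_lit 26055175614) (nat_lit 304) (nat_lit 64032011053) (nat_lit 67) (nat_lit 5) (nat_lit 70) (nat_lit 5) (nat_lit 71) (nat_lit 5) (nat_lit 356) (nat_lit 339) (nat_lit 205)))))) (XT.nd (nat_lit 468) (nat_lit 1064) (nat_lit 0) (XT.nd (nat_lit 234) (nat_lit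 456) (nat_lit 0) (XT.nd (nat_lit 78) (nat_lit 532) (nat_lit 0) (XT.lf (nat_lit 0) (nat_lit 59002795151) (nat_lit 228) (nat_lit 101944037607) (nat_lit 304) (nat_lit 18197174854) (nat_lit 64) (nat_lit 5) (nat_lit 67) (nat_lit 5) (nat_lit 68) (nat_lit 5) (nat_lit 357) (nat_lit 339) (nat_lit 204)) (XT.nd (nat_lit 78) (nat_lit 228) (nat_lit 0) (XT.lf (nat_lit 0) (nat_lit 32924986731) (nat_lit 304) (nat_lit 152781908565) (nat_lit 76) (nat_lit 2331813266) (nat_lit 60) (nat_lit 5) (nat_lit 64) (nat_lit 5) (nat_lit 61) (nat_lit 5) (nat_lit 358) (nat_lit 339) (nat_lit 203)) (XT.lf (nat_lit 0) (nat_lit 8032760697) (nat_lit 228) (nat_lit 83446103502) (nat_lit 304) (nat_lit 105952231787) (nat_lit 57) (nat_lit 5) (nat_lit 60) (nat_lit 5) (nat_lit 61) (nat_lit 5) (nat_lit 359) (nat_lit 339) (nat_lit 202)))) (XT.nd (nat_lit 78) (nat_lit 456) (nat_lit 0) (XT.lf (nat_lit 0) (nat_lit 157843035310) (nat_lit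 304) (nat_lit 20739244284) (nat_lit 76) (nat_lit 28836295895) (nat_lit 57) (nat_lit 5) (nat_lit 61) (nat_lit 5) (nat_lit 58) (nat_lit 5) (nat_lit 360) (nat_lit 339) (nat_lit 201)) (XT.nd (nat_lit 78) (nat_lit 228) (nat_lit 0) (XT.lf (nat_lit 0) (nat_lit 15001949709) (nat_lit 228) (nat_lit 52952326080) (nat_lit 76) (nat_lit 150039313007) (nat_lit 54) (nat_lit 5) (nat_lit 57) (nat_lit 5) (nat_lit 55) (nat_lit 5) (nat_lit 361) (nat_lit 339) (nat_lit 200)) (XT.lf (nat_lit 0) (nat_lit 86455434680) (nat_lit 304) (nat_lit 89416142861) (nat_lit 76) (nat_lit 53330056083) (nat_lit 51) (nat_lit 5) (nat_lit 55) (nat_lit 5) (nat_lit 52) (nat_lit 5) (nat_lit 362) (nat_lit 339) (nat_lit 199))))) (XT.nd (nat_lit 234) (nat_lit 532) (nat_lit 0) (XT.nd (nat_lit 78) (nat_lit 380) (nat_lit 0) (XT.lf (nat_lit 0) (nat_lit 110962945168) (nat_lit 152) (nat_lit 56477632172) (nat_lit 228) (nat_lit 73674975948) (nat_lit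 49) (nat_lit 5) (nat_lit 51) (nat_lit 5) (nat_lit 52) (nat_lit 5) (nat_lit 363) (nat_lit 339) (nat_lit 198)) (XT.nd (nat_lit 78) (nat_lit 152) (nat_lit 0) (XT.lf (nat_lit 0) (nat_lit 4888821392) (nat_lit 228) (nat_lit 175865292373) (nat_lit 76) (nat_lit 73027934000) (nat_lit 46) (nat_lit 5) (nat_lit 49) (nat_lit 5) (nat_lit 47) (nat_lit 5) (nat_lit 364) (nat_lit 339) (nat_lit 197)) (XT.lf (nat_lit 0) (nat_lit 38944954866) (nat_lit 152) (nat_lit 52110378170) (nat_lit 228) (nat_lit 176151198461) (nat_lit 44) (nat_lit 5) (nat_lit 46) (nat_lit 5) (nat_lit 47) (nat_lit 5) (nat_lit 365) (nat_lit 339) (nat_lit 196)))) (XT.nd (nat_lit 156) (nat_lit 304) (nat_lit 0) (XT.nd (nat_lit 78) (nat_lit 228) (nat_lit 0) (XT.lf (nat_lit 0) (nat_lit 188584058380) (nat_lit 228) (nat_lit 5738095804) (nat_lit 76) (nat_lit 87159375251) (nat_lit 44) (nat_lit 5) (nat_lit 47) (nat_lit 5) (nat_lit 45) (nat_lit 5) (nat_lit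 366) (nat_lit 339) (nat_lit 195)) (XT.lf (nat_lit 0) (nat_lit 1836057522) (nat_lit 228) (nat_lit 55260284615) (nat_lit 76) (nat_lit 239568313494) (nat_lit 41) (nat_lit 5) (nat_lit 44) (nat_lit 5) (nat_lit 42) (nat_lit 5) (nat_lit 367) (nat_lit 339) (nat_lit 194))) (XT.nd (nat_lit 78) (nat_lit 152) (nat_lit 0) (XT.lf (nat_lit 0) (nat_lit 105666794990) (nat_lit 228) (nat_lit 114015522947) (nat_lit 76) (nat_lit 93065308564) (nat_lit 39) (nat_lit 5) (nat_lit 42) (nat_lit 5) (nat_lit 40) (nat_lit 5) (nat_lit 368) (nat_lit 339) (nat_lit 193)) (XT.lf (nat_lit 0) (nat_lit 148729302817) (nat_lit 152) (nat_lit 73337581446) (nat_lit 228) (nat_lit 107837206249) (nat_lit 37) (nat_lit 5) (nat_lit 39) (nat_lit 5) (nat_lit 40) (nat_lit 5) (nat_lit 369) (nat_lit 339) (nat_lit 192))))))))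
noncomputable def xc106 : XT := (XT.nd (nat_lit 44772) (nat_lit 0) (nat_lit 2280) (XT.nd (nat_lit 936) (nat_lit 532) (nat_lit 0) (XT.nd (nat_lit 468) (nat_lit 532) (nat_lit 0) (XT.nd (nat_lit 234) (nat_lit 380) (nat_lit 0) (XT.nd (nat_lit 78) (nat_lit 152) (nat_lit 0) (XT.lf (nat_lit 0) (nat_lit 4186771417) (nat_lit 152) (nat_lit 258515304902) (nat_lit 76) (nat_lit 85490509664) (nat_lit 35) (nat_lit 5) (nat_lit 37) (nat_lit 5) (nat_lit 36) (nat_lit 5) (nat_lit 370) (nat_lit 339) (nat_lit 191)) (XT.nd (nat_lit 78) (nat_lit 0) (nat_lit 0) (XT.lf (nat_lit 0) (nat_lit 18361332907) (nat_lit 152) (nat_lit 107814421343) (nat_lit 228) (nat_lit 241440956911) (nat_lit 33) (nat_lit 5) (nat_lit 35) (nat_lit 5) (nat_lit 36) (nat_lit 5) (nat_lit 371) (nat_lit 339) (nat_lit 190)) (XT.lf (nat_lit 0) (nat_lit 263428968225) (nat_lit 228) (nat_lit 62752736948) (nat_lit 76) (nat_lit 62137805640) (nat_lit 33)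 (nat_lit 5) (nat_lit 36) (nat_lit 5) (nat_lit 34) (nat_lit 4) (nat_lit 372) (nat_lit 339) (nat_lit 189)))) (XT.nd (nat_lit 78) (nat_lit 228) (nat_lit 0) (XT.lf (nat_lit 0) (nat_lit 6813859928) (nat_lit 152) (nat_lit 157552485254) (nat_lit 76) (nat_lit 246018348945) (nat_lit 31) (nat_lit 5) (nat_lit 33) (nat_lit 5) (nat_lit 32) (nat_lit 5) (nat_lit 373) (nat_lit 339) (nat_lit 188)) (XT.nd (nat_lit 78) (nat_lit 76) (nat_lit 0) (XT.lf (nat_lit 0) (nat_lit 148680073224) (nat_lit 228) (nat_lit 269284854950) (nat_lit 76) (nat_lit 15947743964) (nat_lit 29) (nat_lit 5) (nat_lit 32) (nat_lit 5) (nat_lit 30) (nat_lit 4) (nat_lit 374) (nat_lit 339) (nat_lit 187)) (XT.lf (nat_lit 0) (nat_lit 58064502279) (nat_lit 76) (nat_lit 250298356603) (nat_lit 152) (nat_lit 150636665805) (nat_lit 28) (nat_lit 5) (nat_lit 29) (nat_lit 5) (nat_lit 30) (nat_lit 4) (nat_lit 375) (nat_lit 339) (nat_lit 186))))) (XT.nd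 (nat_lit 234) (nat_lit 228) (nat_lit 0) (XT.nd (nat_lit 78) (nat_lit 304) (nat_lit 0) (XT.lf (nat_lit 0) (nat_lit 421217459272) (nat_lit 76) (nat_lit 64293343117) (nat_lit 152) (nat_lit 347996362) (nat_lit 28) (nat_lit 5) (nat_lit 29) (nat_lit 5) (nat_lit 30) (nat_lit 4) (nat_lit 376) (nat_lit 339) (nat_lit 185)) (XT.nd (nat_lit 78) (nat_lit 76) (nat_lit 0) (XT.lf (nat_lit 0) (nat_lit 163806628533) (nat_lit 228) (nat_lit 210939257777) (nat_lit 76) (nat_lit 139643157370) (nat_lit 25) (nat_lit 5) (nat_lit 28) (nat_lit 5) (nat_lit 26) (nat_lit 4) (nat_lit 377) (nat_lit 339) (nat_lit 184)) (XT.lf (nat_lit 0) (nat_lit 162234821783) (nat_lit 76) (nat_lit 183608073442) (nat_lit 152) (nat_lit 199120454589) (nat_lit 24) (nat_lit 5) (nat_lit 25) (nat_lit 5) (nat_lit 26) (nat_lit 4) (nat_lit 378) (nat_lit 339) (nat_lit 183)))) (XT.nd (nat_lit 78) (nat_lit 228) (nat_lit 0) (XT.lf (nat_lit 0) (nat_lit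 546532816670) (nat_lit 152) (nat_lit 5421392137) (nat_lit 0) (nat_lit 25824854004) (nat_lit 24) (nat_lit 5) (nat_lit 26) (nat_lit 4) (nat_lit 24) (nat_lit 4) (nat_lit 379) (nat_lit 339) (nat_lit 182)) (XT.nd (nat_lit 78) (nat_lit 76) (nat_lit 0) (XT.lf (nat_lit 0) (nat_lit 154942194537) (nat_lit 152) (nat_lit 203076682002) (nat_lit 76) (nat_lit 254599660860) (nat_lit 22) (nat_lit 5) (nat_lit 24) (nat_lit 5) (nat_lit 23) (nat_lit 4) (nat_lit 380) (nat_lit 339) (nat_lit 181)) (XT.lf (nat_lit 0) (nat_lit 213975089490) (nat_lit 76) (nat_lit 144407092107) (nat_lit 152) (nat_lit 291664817347) (nat_lit 21) (nat_lit 5) (nat_lit 22) (nat_lit 5) (nat_lit 23) (nat_lit 4) (nat_lit 381) (nat_lit 339) (nat_lit 180)))))) (XT.nd (nat_lit 468) (nat_lit 152) (nat_lit 0) (XT.nd (nat_lit 234) (nat_lit 152) (nat_lit 0) (XT.nd (nat_lit 78) (nat_lit 228) (nat_lit 0) (XT.lf (nat_lit 0) (nat_lit 583039931245) (nat_lit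 152) (nat_lit 20055670398) (nat_lit 0) (nat_lit 87127007621) (nat_lit 21) (nat_lit 5) (nat_lit 23) (nat_lit 4) (nat_lit 21) (nat_lit 4) (nat_lit 382) (nat_lit 339) (nat_lit 179)) (XT.nd (nat_lit 78) (nat_lit 76) (nat_lit 0) (XT.lf (nat_lit 0) (nat_lit 98583147283) (nat_lit 152) (nat_lit 293817636613) (nat_lit 76) (nat_lit 340666043013) (nat_lit 19) (nat_lit 5) (nat_lit 21) (nat_lit 5) (nat_lit 20) (nat_lit 4) (nat_lit 383) (nat_lit 339) (nat_lit 178)) (XT.lf (nat_lit 0) (nat_lit 160001220590) (nat_lit 76) (nat_lit 159957053476) (nat_lit 152) (nat_lit 459147293551) (nat_lit 18) (nat_lit 5) (nat_lit 19) (nat_lit 5) (nat_lit 20) (nat_lit 4) (nat_lit 384) (nat_lit 339) (nat_lit 177)))) (XT.nd (nat_lit 78) (nat_lit 152) (nat_lit 0) (XT.lf (nat_lit 0) (nat_lit 565667321642) (nat_lit 152) (nat_lit 169460028449) (nat_lit 0) (nat_lit 93368861985) (nat_lit 18) (nat_lit 5) (nat_lit 20) (nat_lit 4)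 (nat_lit 18) (nat_lit 4) (nat_lit 385) (nat_lit 339) (nat_lit 176)) (XT.nd (nat_lit 78) (nat_lit 76) (nat_lit 0) (XT.lf (nat_lit 0) (nat_lit 323822745037) (nat_lit 76) (nat_lit 514963153570) (nat_lit 76) (nat_lit 42664569229) (nat_lit 17) (nat_lit 4) (nat_lit 18) (nat_lit 5) (nat_lit 18) (nat_lit 4) (nat_lit 386) (nat_lit 339) (nat_lit 175)) (XT.lf (nat_lit 0) (nat_lit 191868203532) (nat_lit 152) (nat_lit 78968882547) (nat_lit 76) (nat_lit 667501658186) (nat_lit 16) (nat_lit 5) (nat_lit 18) (nat_lit 5) (nat_lit 17) (nat_lit 4) (nat_lit 387) (nat_lit 339) (nat_lit 174))))) (XT.nd (nat_lit 43134) (nat_lit 0) (nat_lit 6992) (XT.nd (nat_lit 78) (nat_lit 76) (nat_lit 0) (XT.lf (nat_lit 0) (nat_lit 450756617638) (nat_lit 152) (nat_lit 547683875004) (nat_lit 0) (nat_lit 948230318) (nat_lit 15) (nat_lit 5) (nat_lit 17) (nat_lit 4) (nat_lit 15) (nat_lit 4) (nat_lit 388) (nat_lit 339) (nat_lit 173))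 (XT.nd (nat_lit 78) (nat_lit 76) (nat_lit 0) (XT.lf (nat_lit 0) (nat_lit 736320926030) (nat_lit 152) (nat_lit 42191088436) (nat_lit 0) (nat_lit 286512444445) (nat_lit 15) (nat_lit 5) (nat_lit 17) (nat_lit 4) (nat_lit 15) (nat_lit 4) (nat_lit 389) (nat_lit 339) (nat_lit 172)) (XT.lf (nat_lit 0) (nat_lit 520396848444) (nat_lit 76) (nat_lit 532458268640) (nat_lit 76) (nat_lit 82649699772) (nat_lit 14) (nat_lit 4) (nat_lit 15) (nat_lit 5) (nat_lit 15) (nat_lit 4) (nat_lit 390) (nat_lit 339) (nat_lit 171)))) (XT.nd (nat_lit 78) (nat_lit 0) (nat_lit 76) (XT.lf (nat_lit 0) (nat_lit 7557792822) (nat_lit 836) (nat_lit 18338812181) (nat_lit 836) (nat_lit 18338812181) (nat_lit 106) (nat_lit 3) (nat_lit 117) (nat_lit 3) (nat_lit 117) (nat_lit 5) (nat_lit 340) (nat_lit 340) (nat_lit 220)) (XT.nd (nat_lit 78) (nat_lit 0) (nat_lit 0) (XT.lf (nat_lit 0) (nat_lit 16478067423) (nat_lit 760) (nat_lit 60251382788)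 (nat_lit 836) (nat_lit 15242313573) (nat_lit 107) (nat_lit 5) (nat_lit 117) (nat_lit 5) (nat_lit 118) (nat_lit 5) (nat_lit 341) (nat_lit 340) (nat_lit 219)) (XT.lf (nat_lit 76) (nat_lit 10634967324) (nat_lit 0) (nat_lit 9002048350) (nat_lit 836) (nat_lit 76031379588) (nat_lit 108) (nat_lit 5) (nat_lit 107) (nat_lit 5) (nat_lit 118) (nat_lit 5) (nat_lit 342) (nat_lit 340) (nat_lit 218))))))) (XT.nd (nat_lit 936) (nat_lit 2584) (nat_lit 0) (XT.nd (nat_lit 468) (nat_lit 1748) (nat_lit 0) (XT.nd (nat_lit 234) (nat_lit 532) (nat_lit 0) (XT.nd (nat_lit 78) (nat_lit 0) (nat_lit 76) (XT.lf (nat_lit 0) (nat_lit 25115700174) (nat_lit 760) (nat_lit 11283964519) (nat_lit 836) (nat_lit 63157742568) (nat_lit 108) (nat_lit 5) (nat_lit 118) (nat_lit 5) (nat_lit 119) (nat_lit 5) (nat_lit 343) (nat_lit 340) (nat_lit 217)) (XT.nd (nat_lit 78) (nat_lit 0) (nat_lit 76) (XT.lf (nat_lit 0) (nat_lit 32879752051)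 (nat_lit 760) (nat_lit 33822816809) (nat_lit 836) (nat_lit 36962618676) (nat_lit 109) (nat_lit 5) (nat_lit 119) (nat_lit 5) (nat_lit 120) (nat_lit 5) (nat_lit 344) (nat_lit 340) (nat_lit 216)) (XT.lf (nat_lit 0) (nat_lit 42993683551) (nat_lit 760) (nat_lit 57367341162) (nat_lit 836) (nat_lit 7654128623) (nat_lit 110) (nat_lit 5) (nat_lit 120) (nat_lit 5) (nat_lit 121) (nat_lit 5) (nat_lit 345) (nat_lit 340) (nat_lit 215)))) (XT.nd (nat_lit 78) (nat_lit 684) (nat_lit 0) (XT.lf (nat_lit 76) (nat_lit 30232699344) (nat_lit 0) (nat_lit 25878649737) (nat_lit 836) (nat_lit 56492037155) (nat_lit 111) (nat_lit 5) (nat_lit 110) (nat_lit 5) (nat_lit 121) (nat_lit 5) (nat_lit 346) (nat_lit 340) (nat_lit 214)) (XT.nd (nat_lit 78) (nat_lit 0) (nat_lit 0) (XT.lf (nat_lit 0) (nat_lit 8792977893) (nat_lit 760) (nat_lit 63489393967) (nat_lit 836) (nat_lit 45176109460) (nat_lit 101) (nat_lit 5) (nat_lit 111)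 (nat_lit 5) (nat_lit 112) (nat_lit 5) (nat_lit 347) (nat_lit 340) (nat_lit 213)) (XT.lf (nat_lit 0) (nat_lit 91893452173) (nat_lit 836) (nat_lit 13152253512) (nat_lit 76) (nat_lit 17548960237) (nat_lit 101) (nat_lit 5) (nat_lit 112) (nat_lit 5) (nat_lit 102) (nat_lit 5) (nat_lit 348) (nat_lit 340) (nat_lit 212))))) (XT.nd (nat_lit 234) (nat_lit 608) (nat_lit 0) (XT.nd (nat_lit 78) (nat_lit 760) (nat_lit 0) (XT.lf (nat_lit 0) (nat_lit 91871213259) (nat_lit 380) (nat_lit 23706343704) (nat_lit 456) (nat_lit 12438982070) (nat_lit 96) (nat_lit 5) (nat_lit 101) (nat_lit 5) (nat_lit 102) (nat_lit 5) (nat_lit 349) (nat_lit 340) (nat_lit 211)) (XT.nd (nat_lit 78) (nat_lit 380) (nat_lit 0) (XT.lf (nat_lit 0) (nat_lit 9467134822) (nat_lit 380) (nat_lit 60662147081) (nat_lit 76) (nat_lit 63616391924) (nat_lit 91) (nat_lit 5) (nat_lit 96) (nat_lit 5) (nat_lit 92) (nat_lit 5) (nat_lit 350) (nat_lit 340)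 (nat_lit 210)) (XT.lf (nat_lit 0) (nat_lit 34866594406) (nat_lit 456) (nat_lit 86592361944) (nat_lit 76) (nat_lit 18355154961) (nat_lit 86) (nat_lit 5) (nat_lit 92) (nat_lit 5) (nat_lit 87) (nat_lit 5) (nat_lit 351) (nat_lit 340) (nat_lit 209)))) (XT.nd (nat_lit 78) (nat_lit 304) (nat_lit 0) (XT.lf (nat_lit 0) (nat_lit 31887415557) (nat_lit 304) (nat_lit 33164314384) (nat_lit 380) (nat_lit 81178608380) (nat_lit 82) (nat_lit 5) (nat_lit 86) (nat_lit 5) (nat_lit 87) (nat_lit 5) (nat_lit 352) (nat_lit 340) (nat_lit 208)) (XT.nd (nat_lit 78) (nat_lit 0) (nat_lit 0) (XT.lf (nat_lit 0) (nat_lit 9149672065) (nat_lit 304) (nat_lit 91148365403) (nat_lit 380) (nat_lit 52729508417) (nat_lit 78) (nat_lit 5) (nat_lit 82) (nat_lit 5) (nat_lit 83) (nat_lit 5) (nat_lit 353) (nat_lit 340) (nat_lit 207)) (XT.lf (nat_lit 0) (nat_lit 140985386199) (nat_lit 380) (nat_lit 14295001620) (nat_lit 76) (nat_lit 4957075824)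 (nat_lit 78) (nat_lit 5) (nat_lit 83) (nat_lit 5) (nat_lit 79) (nat_lit 5) (nat_lit 354) (nat_lit 340) (nat_lit 206)))))) (XT.nd (nat_lit 468) (nat_lit 988) (nat_lit 0) (XT.nd (nat_lit 234) (nat_lit 760) (nat_lit 0) (XT.nd (nat_lit 78) (nat_lit 532) (nat_lit 0) (XT.lf (nat_lit 0) (nat_lit 19958800350) (nat_lit 304) (nat_lit 39948423814) (nat_lit 76) (nat_lit 107923941866) (nat_lit 74) (nat_lit 5) (nat_lit 78) (nat_lit 5) (nat_lit 75) (nat_lit 5) (nat_lit 355) (nat_lit 340) (nat_lit 205)) (XT.nd (nat_lit 78) (nat_lit 228) (nat_lit 0) (XT.lf (nat_lit 0) (nat_lit 64307028794) (nat_lit 380) (nat_lit 67541222918) (nat_lit 76) (nat_lit 44034583874) (nat_lit 70) (nat_lit 5) (nat_lit 75) (nat_lit 5) (nat_lit 71) (nat_lit 5) (nat_lit 356) (nat_lit 340) (nat_lit 204)) (XT.lf (nat_lit 0) (nat_lit 87144502996) (nat_lit 228) (nat_lit 28136113381) (nat_lit 304) (nat_lit 69144147601) (nat_lit 67) (nat_lit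 5) (nat_lit 70) (nat_lit 5) (nat_lit 71) (nat_lit 5) (nat_lit 357) (nat_lit 340) (nat_lit 203)))) (XT.nd (nat_lit 78) (nat_lit 532) (nat_lit 0) (XT.lf (nat_lit 0) (nat_lit 63736263362) (nat_lit 228) (nat_lit 110095760158) (nat_lit 304) (nat_lit 19643026788) (nat_lit 64) (nat_lit 5) (nat_lit 67) (nat_lit 5) (nat_lit 68) (nat_lit 5) (nat_lit 358) (nat_lit 340) (nat_lit 202)) (XT.nd (nat_lit 78) (nat_lit 228) (nat_lit 0) (XT.lf (nat_lit 0) (nat_lit 35568141949) (nat_lit 304) (nat_lit 164991084080) (nat_lit 76) (nat_lit 2522116373) (nat_lit 60) (nat_lit 5) (nat_lit 64) (nat_lit 5) (nat_lit 61) (nat_lit 5) (nat_lit 359) (nat_lit 340) (nat_lit 201)) (XT.lf (nat_lit 0) (nat_lit 8688177368) (nat_lit 228) (nat_lit 90117673783) (nat_lit 304) (nat_lit 114419293965) (nat_lit 57) (nat_lit 5) (nat_lit 60) (nat_lit 5) (nat_lit 61) (nat_lit 5) (nat_lit 360) (nat_lit 340) (nat_lit 200))))) (XT.nd (nat_lit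 234) (nat_lit 532) (nat_lit 0) (XT.nd (nat_lit 78) (nat_lit 456) (nat_lit 0) (XT.lf (nat_lit 0) (nat_lit 170478572680) (nat_lit 304) (nat_lit 22386189317) (nat_lit 76) (nat_lit 31146890491) (nat_lit 57) (nat_lit 5) (nat_lit 61) (nat_lit 5) (nat_lit 58) (nat_lit 5) (nat_lit 361) (nat_lit 340) (nat_lit 199)) (XT.nd (nat_lit 78) (nat_lit 228) (nat_lit 0) (XT.lf (nat_lit 0) (nat_lit 16209912472) (nat_lit 228) (nat_lit 57176585682) (nat_lit 76) (nat_lit 162046183603) (nat_lit 54) (nat_lit 5) (nat_lit 57) (nat_lit 5) (nat_lit 55) (nat_lit 5) (nat_lit 362) (nat_lit 340) (nat_lit 198)) (XT.lf (nat_lit 0) (nat_lit 93379338548) (nat_lit 304) (nat_lit 96557714739) (nat_lit 76) (nat_lit 57600334050) (nat_lit 51) (nat_lit 5) (nat_lit 55) (nat_lit 5) (nat_lit 52) (nat_lit 5) (nat_lit 363) (nat_lit 340) (nat_lit 197)))) (XT.nd (nat_lit 156) (nat_lit 152) (nat_lit 0) (XT.nd (nat_lit 78) (nat_lit 228) (nat_lit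 0) (XT.lf (nat_lit 0) (nat_lit 119851191015) (nat_lit 152) (nat_lit 60991723363) (nat_lit 228) (nat_lit 79561525369) (nat_lit 49) (nat_lit 5) (nat_lit 51) (nat_lit 5) (nat_lit 52) (nat_lit 5) (nat_lit 364) (nat_lit 340) (nat_lit 196)) (XT.lf (nat_lit 0) (nat_lit 5286838406) (nat_lit 228) (nat_lit 189923280584) (nat_lit 76) (nat_lit 78874144156) (nat_lit 46) (nat_lit 5) (nat_lit 49) (nat_lit 5) (nat_lit 47) (nat_lit 5) (nat_lit 365) (nat_lit 340) (nat_lit 195))) (XT.nd (nat_lit 78) (nat_lit 0) (nat_lit 0) (XT.lf (nat_lit 0) (nat_lit 42071298168) (nat_lit 152) (nat_lit 56275028655) (nat_lit 228) (nat_lit 190236396174) (nat_lit 44) (nat_lit 5) (nat_lit 46) (nat_lit 5) (nat_lit 47) (nat_lit 5) (nat_lit 366) (nat_lit 340) (nat_lit 194)) (XT.lf (nat_lit 0) (nat_lit 203676924163) (nat_lit 228) (nat_lit 6186946548) (nat_lit 76) (nat_lit 94135871559) (nat_lit 44) (nat_lit 5) (nat_lit 47) (nat_lit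 5) (nat_lit 45) (nat_lit 5) (nat_lit 367) (nat_lit 340) (nat_lit 193))))))))
noncomputable def xc107 : XT := (XT.nd (nat_lit 44928) (nat_lit 0) (nat_lit 2204) (XT.nd (nat_lit 936) (nat_lit 684) (nat_lit 0) (XT.nd (nat_lit 468) (nat_lit 684) (nat_lit 0) (XT.nd (nat_lit 234) (nat_lit 304) (nat_lit 0) (XT.nd (nat_lit 78) (nat_lit 304) (nat_lit 0) (XT.lf (nat_lit 0) (nat_lit 1988878546) (nat_lit 228) (nat_lit 59671155150) (nat_lit 76) (nat_lit 258737495390) (nat_lit 41) (nat_lit 5) (nat_lit 44) (nat_lit 5) (nat_lit 42) (nat_lit 5) (nat_lit 368) (nat_lit 340) (nat_lit 192)) (XT.nd (nat_lit 78) (nat_lit 152) (nat_lit 0) (XT.lf (nat_lit 0) (nat_lit 114125844397) (nat_lit 228) (nat_lit 123127021272) (nat_lit 76) (nat_lit 100514283650) (nat_lit 39) (nat_lit 5) (nat_lit 42) (nat_lit 5) (nat_lit 40) (nat_lit 5) (nat_lit 369) (nat_lit 340) (nat_lit 191)) (XT.lf (nat_lit 0) (nat_lit 160636967113) (nat_lit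 152) (nat_lit 79200696559) (nat_lit 228) (nat_lit 116458480785) (nat_lit 37) (nat_lit 5) (nat_lit 39) (nat_lit 5) (nat_lit 40) (nat_lit 5) (nat_lit 370) (nat_lit 340) (nat_lit 190)))) (XT.nd (nat_lit 78) (nat_lit 152) (nat_lit 0) (XT.lf (nat_lit 0) (nat_lit 4527025622) (nat_lit 152) (nat_lit 279187233660) (nat_lit 76) (nat_lit 92333466313) (nat_lit 35) (nat_lit 5) (nat_lit 37) (nat_lit 5) (nat_lit 36) (nat_lit 5) (nat_lit 371) (nat_lit 340) (nat_lit 189)) (XT.nd (nat_lit 78) (nat_lit 0) (nat_lit 0) (XT.lf (nat_lit 0) (nat_lit 19839131198) (nat_lit 152) (nat_lit 116435741189) (nat_lit 228) (nat_lit 260750921255) (nat_lit 33) (nat_lit 5) (nat_lit 35) (nat_lit 5) (nat_lit 36) (nat_lit 5) (nat_lit 372) (nat_lit 340) (nat_lit 188)) (XT.lf (nat_lit 0) (nat_lit 284508024251) (nat_lit 228) (nat_lit 67764542744) (nat_lit 76) (nat_lit 67112266345) (nat_lit 33) (nat_lit 5) (nat_lit 36) (nat_lit 5)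 (nat_lit 34) (nat_lit 4) (nat_lit 373) (nat_lit 340) (nat_lit 187))))) (XT.nd (nat_lit 234) (nat_lit 304) (nat_lit 0) (XT.nd (nat_lit 78) (nat_lit 228) (nat_lit 0) (XT.lf (nat_lit 0) (nat_lit 7363557181) (nat_lit 152) (nat_lit 170148483582) (nat_lit 76) (nat_lit 265703198229) (nat_lit 31) (nat_lit 5) (nat_lit 33) (nat_lit 5) (nat_lit 32) (nat_lit 5) (nat_lit 374) (nat_lit 340) (nat_lit 186)) (XT.nd (nat_lit 78) (nat_lit 76) (nat_lit 0) (XT.lf (nat_lit 0) (nat_lit 160578904347) (nat_lit 228) (nat_lit 290819633759) (nat_lit 76) (nat_lit 17226925389) (nat_lit 29) (nat_lit 5) (nat_lit 32) (nat_lit 5) (nat_lit 30) (nat_lit 4) (nat_lit 375) (nat_lit 340) (nat_lit 185)) (XT.lf (nat_lit 0) (nat_lit 62717323962) (nat_lit 76) (nat_lit 270318780716) (nat_lit 152) (nat_lit 162683170065) (nat_lit 28) (nat_lit 5) (nat_lit 29) (nat_lit 5) (nat_lit 30) (nat_lit 4) (nat_lit 376) (nat_lit 340) (nat_lit 184))))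 (XT.nd (nat_lit 78) (nat_lit 304) (nat_lit 0) (XT.lf (nat_lit 0) (nat_lit 454921949995) (nat_lit 76) (nat_lit 69433621293) (nat_lit 152) (nat_lit 371735140) (nat_lit 28) (nat_lit 5) (nat_lit 29) (nat_lit 5) (nat_lit 30) (nat_lit 4) (nat_lit 377) (nat_lit 340) (nat_lit 183)) (XT.nd (nat_lit 78) (nat_lit 76) (nat_lit 0) (XT.lf (nat_lit 0) (nat_lit 176914991205) (nat_lit 228) (nat_lit 227807345062) (nat_lit 76) (nat_lit 150817638418) (nat_lit 25) (nat_lit 5) (nat_lit 28) (nat_lit 5) (nat_lit 26) (nat_lit 4) (nat_lit 378) (nat_lit 340) (nat_lit 182)) (XT.lf (nat_lit 0) (nat_lit 175220354333) (nat_lit 76) (nat_lit 198293626355) (nat_lit 152) (nat_lit 215046253613) (nat_lit 24) (nat_lit 5) (nat_lit 25) (nat_lit 5) (nat_lit 26) (nat_lit 4) (nat_lit 379) (nat_lit 340) (nat_lit 181)))))) (XT.nd (nat_lit 468) (nat_lit 228) (nat_lit 0) (XT.nd (nat_lit 234) (nat_lit 228) (nat_lit 0) (XT.nd (nat_lit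 78) (nat_lit 228) (nat_lit 0) (XT.lf (nat_lit 0) (nat_lit 590258869907) (nat_lit 152) (nat_lit 5848731272) (nat_lit 0) (nat_lit 27893614517) (nat_lit 24) (nat_lit 5) (nat_lit 26) (nat_lit 4) (nat_lit 24) (nat_lit 4) (nat_lit 380) (nat_lit 340) (nat_lit 180)) (XT.nd (nat_lit 78) (nat_lit 76) (nat_lit 0) (XT.lf (nat_lit 0) (nat_lit 167340893510) (nat_lit 152) (nat_lit 219316610711) (nat_lit 76) (nat_lit 274970349342) (nat_lit 22) (nat_lit 5) (nat_lit 24) (nat_lit 5) (nat_lit 23) (nat_lit 4) (nat_lit 381) (nat_lit 340) (nat_lit 179)) (XT.lf (nat_lit 0) (nat_lit 231099032803) (nat_lit 76) (nat_lit 155956893234) (nat_lit 152) (nat_lit 314994673719) (nat_lit 21) (nat_lit 5) (nat_lit 22) (nat_lit 5) (nat_lit 23) (nat_lit 4) (nat_lit 382) (nat_lit 340) (nat_lit 178)))) (XT.nd (nat_lit 78) (nat_lit 228) (nat_lit 0) (XT.lf (nat_lit 0) (nat_lit 629686100838) (nat_lit 152) (nat_lit 21654520263) (nat_lit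 0) (nat_lit 94099647587) (nat_lit 21) (nat_lit 5) (nat_lit 23) (nat_lit 4) (nat_lit 21) (nat_lit 4) (nat_lit 383) (nat_lit 340) (nat_lit 177)) (XT.nd (nat_lit 78) (nat_lit 76) (nat_lit 0) (XT.lf (nat_lit 0) (nat_lit 106472684506) (nat_lit 152) (nat_lit 317317591405) (nat_lit 76) (nat_lit 367921752382) (nat_lit 19) (nat_lit 5) (nat_lit 21) (nat_lit 5) (nat_lit 20) (nat_lit 4) (nat_lit 384) (nat_lit 340) (nat_lit 176)) (XT.lf (nat_lit 0) (nat_lit 172806537258) (nat_lit 76) (nat_lit 172751151921) (nat_lit 152) (nat_lit 495876185727) (nat_lit 18) (nat_lit 5) (nat_lit 19) (nat_lit 5) (nat_lit 20) (nat_lit 4) (nat_lit 385) (nat_lit 340) (nat_lit 175))))) (XT.nd (nat_lit 234) (nat_lit 76) (nat_lit 0) (XT.nd (nat_lit 78) (nat_lit 152) (nat_lit 0) (XT.lf (nat_lit 0) (nat_lit 610923292268) (nat_lit 152) (nat_lit 183011906057) (nat_lit 0) (nat_lit 100840581046) (nat_lit 18) (nat_lit 5) (nat_lit 20)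 (nat_lit 4) (nat_lit 18) (nat_lit 4) (nat_lit 386) (nat_lit 340) (nat_lit 174)) (XT.nd (nat_lit 78) (nat_lit 76) (nat_lit 0) (XT.lf (nat_lit 0) (nat_lit 349733275288) (nat_lit 76) (nat_lit 556157962175) (nat_lit 76) (nat_lit 46075144057) (nat_lit 17) (nat_lit 4) (nat_lit 18) (nat_lit 5) (nat_lit 18) (nat_lit 4) (nat_lit 387) (nat_lit 340) (nat_lit 173)) (XT.lf (nat_lit 0) (nat_lit 207219981844) (nat_lit 152) (nat_lit 85281954315) (nat_lit 76) (nat_lit 720903791198) (nat_lit 16) (nat_lit 5) (nat_lit 18) (nat_lit 5) (nat_lit 17) (nat_lit 4) (nat_lit 388) (nat_lit 340) (nat_lit 172)))) (XT.nd (nat_lit 43134) (nat_lit 0) (nat_lit 6916) (XT.nd (nat_lit 78) (nat_lit 0) (nat_lit 0) (XT.lf (nat_lit 0) (nat_lit 486819395055) (nat_lit 152) (nat_lit 591494259625) (nat_lit 0) (nat_lit 1026053395) (nat_lit 15) (nat_lit 5) (nat_lit 17) (nat_lit 4) (nat_lit 15) (nat_lit 4) (nat_lit 389) (nat_lit 340) (nat_lit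 171)) (XT.lf (nat_lit 0) (nat_lit 795228681600) (nat_lit 152) (nat_lit 45562370529) (nat_lit 0) (nat_lit 309435259122) (nat_lit 15) (nat_lit 5) (nat_lit 17) (nat_lit 4) (nat_lit 15) (nat_lit 4) (nat_lit 390) (nat_lit 340) (nat_lit 170))) (XT.nd (nat_lit 78) (nat_lit 0) (nat_lit 76) (XT.lf (nat_lit 0) (nat_lit 8174850160) (nat_lit 836) (nat_lit 19799383964) (nat_lit 836) (nat_lit 19799383964) (nat_lit 106) (nat_lit 3) (nat_lit 117) (nat_lit 3) (nat_lit 117) (nat_lit 5) (nat_lit 341) (nat_lit 341) (nat_lit 218)) (XT.lf (nat_lit 0) (nat_lit 17819366312) (nat_lit 760) (nat_lit 65057646470) (nat_lit 836) (nat_lit 16451319476) (nat_lit 107) (nat_lit 5) (nat_lit 117) (nat_lit 5) (nat_lit 118) (nat_lit 5) (nat_lit 342) (nat_lit 341) (nat_lit 217))))))) (XT.nd (nat_lit 936) (nat_lit 2584) (nat_lit 0) (XT.nd (nat_lit 468) (nat_lit 1748) (nat_lit 0) (XT.nd (nat_lit 234) (nat_lit 456) (nat_lit 0) (XT.nd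 (nat_lit 78) (nat_lit 0) (nat_lit 76) (XT.lf (nat_lit 76) (nat_lit 11499009880) (nat_lit 0) (nat_lit 9730519670) (nat_lit 836) (nat_lit 82091241224) (nat_lit 108) (nat_lit 5) (nat_lit 107) (nat_lit 5) (nat_lit 118) (nat_lit 5) (nat_lit 343) (nat_lit 341) (nat_lit 216)) (XT.nd (nat_lit 78) (nat_lit 0) (nat_lit 76) (XT.lf (nat_lit 0) (nat_lit 27144792224) (nat_lit 760) (nat_lit 12173282624) (nat_lit 836) (nat_lit 68202916083) (nat_lit 108) (nat_lit 5) (nat_lit 118) (nat_lit 5) (nat_lit 119) (nat_lit 5) (nat_lit 344) (nat_lit 341) (nat_lit 215)) (XT.lf (nat_lit 0) (nat_lit 35528609246) (nat_lit 760) (nat_lit 36514791448) (nat_lit 836) (nat_lit 39914062151) (nat_lit 109) (nat_lit 5) (nat_lit 119) (nat_lit 5) (nat_lit 120) (nat_lit 5) (nat_lit 345) (nat_lit 341) (nat_lit 214)))) (XT.nd (nat_lit 78) (nat_lit 684) (nat_lit 0) (XT.lf (nat_lit 0) (nat_lit 46450429959) (nat_lit 760) (nat_lit 61942535767)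 (nat_lit 836) (nat_lit 8262522622) (nat_lit 110) (nat_lit 5) (nat_lit 120) (nat_lit 5) (nat_lit 121) (nat_lit 5) (nat_lit 346) (nat_lit 341) (nat_lit 213)) (XT.nd (nat_lit 78) (nat_lit 684) (nat_lit 0) (XT.lf (nat_lit 76) (nat_lit 32664891183) (nat_lit 0) (nat_lit 27951551601) (nat_lit 836) (nat_lit 60994391481) (nat_lit 111) (nat_lit 5) (nat_lit 110) (nat_lit 5) (nat_lit 121) (nat_lit 5) (nat_lit 347) (nat_lit 341) (nat_lit 212)) (XT.lf (nat_lit 0) (nat_lit 9510228110) (nat_lit 760) (nat_lit 68569898244) (nat_lit 836) (nat_lit 48774262660) (nat_lit 101) (nat_lit 5) (nat_lit 111) (nat_lit 5) (nat_lit 112) (nat_lit 5) (nat_lit 348) (nat_lit 341) (nat_lit 211))))) (XT.nd (nat_lit 234) (nat_lit 988) (nat_lit 0) (XT.nd (nat_lit 78) (nat_lit 760) (nat_lit 0) (XT.lf (nat_lit 0) (nat_lit 99258950221) (nat_lit 836) (nat_lit 14190911646) (nat_lit 76) (nat_lit 18951664590) (nat_lit 101) (nat_lit 5)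 (nat_lit 112) (nat_lit 5) (nat_lit 102) (nat_lit 5) (nat_lit 349) (nat_lit 341) (nat_lit 210)) (XT.nd (nat_lit 78) (nat_lit 380) (nat_lit 0) (XT.lf (nat_lit 0) (nat_lit 99233844811) (nat_lit 380) (nat_lit 25603101870) (nat_lit 456) (nat_lit 13420245436) (nat_lit 96) (nat_lit 5) (nat_lit 101) (nat_lit 5) (nat_lit 102) (nat_lit 5) (nat_lit 350) (nat_lit 341) (nat_lit 209)) (XT.lf (nat_lit 0) (nat_lit 10237126773) (nat_lit 380) (nat_lit 65501674990) (nat_lit 76) (nat_lit 68705885405) (nat_lit 91) (nat_lit 5) (nat_lit 96) (nat_lit 5) (nat_lit 92) (nat_lit 5) (nat_lit 351) (nat_lit 341) (nat_lit 208)))) (XT.nd (nat_lit 78) (nat_lit 608) (nat_lit 0) (XT.lf (nat_lit 0) (nat_lit 37667824182) (nat_lit 456) (nat_lit 93506303326) (nat_lit 76) (nat_lit 19824508794) (nat_lit 86) (nat_lit 5) (nat_lit 92) (nat_lit 5) (nat_lit 87) (nat_lit 5) (nat_lit 352) (nat_lit 341) (nat_lit 207)) (XT.nd (nat_lit 78)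 (nat_lit 304) (nat_lit 0) (XT.lf (nat_lit 0) (nat_lit 34451271961) (nat_lit 304) (nat_lit 35815817783) (nat_lit 380) (nat_lit 87661106422) (nat_lit 82) (nat_lit 5) (nat_lit 86) (nat_lit 5) (nat_lit 87) (nat_lit 5) (nat_lit 353) (nat_lit 341) (nat_lit 206)) (XT.lf (nat_lit 0) (nat_lit 9894469938) (nat_lit 304) (nat_lit 98438024674) (nat_lit 380) (nat_lit 56936716691) (nat_lit 78) (nat_lit 5) (nat_lit 82) (nat_lit 5) (nat_lit 83) (nat_lit 5) (nat_lit 354) (nat_lit 341) (nat_lit 205)))))) (XT.nd (nat_lit 468) (nat_lit 1216) (nat_lit 0) (XT.nd (nat_lit 234) (nat_lit 760) (nat_lit 0) (XT.nd (nat_lit 78) (nat_lit 608) (nat_lit 0) (XT.lf (nat_lit 0) (nat_lit 152274076956) (nat_lit 380) (nat_lit 15426261141) (nat_lit 76) (nat_lit 5355622657) (nat_lit 78) (nat_lit 5) (nat_lit 83) (nat_lit 5) (nat_lit 79) (nat_lit 5) (nat_lit 355) (nat_lit 341) (nat_lit 204)) (XT.nd (nat_lit 78) (nat_lit 304) (nat_lit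 0) (XT.lf (nat_lit 0) (nat_lit 21564977125) (nat_lit 304) (nat_lit 43132174044) (nat_lit 76) (nat_lit 116560028344) (nat_lit 74) (nat_lit 5) (nat_lit 78) (nat_lit 5) (nat_lit 75) (nat_lit 5) (nat_lit 356) (nat_lit 341) (nat_lit 203)) (XT.lf (nat_lit 0) (nat_lit 69460584509) (nat_lit 380) (nat_lit 72932511935) (nat_lit 76) (nat_lit 47559910612) (nat_lit 70) (nat_lit 5) (nat_lit 75) (nat_lit 5) (nat_lit 71) (nat_lit 5) (nat_lit 357) (nat_lit 341) (nat_lit 202)))) (XT.nd (nat_lit 78) (nat_lit 532) (nat_lit 0) (XT.lf (nat_lit 0) (nat_lit 94127550164) (nat_lit 228) (nat_lit 30384022100) (nat_lit 304) (nat_lit 74666742222) (nat_lit 67) (nat_lit 5) (nat_lit 70) (nat_lit 5) (nat_lit 71) (nat_lit 5) (nat_lit 358) (nat_lit 341) (nat_lit 201)) (XT.nd (nat_lit 78) (nat_lit 304) (nat_lit 0) (XT.lf (nat_lit 0) (nat_lit 68846519539) (nat_lit 228) (nat_lit 118900162691) (nat_lit 304) (nat_lit 21205962369)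 (nat_lit 64) (nat_lit 5) (nat_lit 67) (nat_lit 5) (nat_lit 68) (nat_lit 5) (nat_lit 359) (nat_lit 341) (nat_lit 200)) (XT.lf (nat_lit 0) (nat_lit 38421443339) (nat_lit 304) (nat_lit 178178902039) (nat_lit 76) (nat_lit 2727107602) (nat_lit 60) (nat_lit 5) (nat_lit 64) (nat_lit 5) (nat_lit 61) (nat_lit 5) (nat_lit 360) (nat_lit 341) (nat_lit 199))))) (XT.nd (nat_lit 234) (nat_lit 760) (nat_lit 0) (XT.nd (nat_lit 78) (nat_lit 228) (nat_lit 0) (XT.lf (nat_lit 0) (nat_lit 9394201906) (nat_lit 228) (nat_lit 97323557164) (nat_lit 304) (nat_lit 123565021669) (nat_lit 57) (nat_lit 5) (nat_lit 60) (nat_lit 5) (nat_lit 61) (nat_lit 5) (nat_lit 361) (nat_lit 341) (nat_lit 198)) (XT.nd (nat_lit 78) (nat_lit 228) (nat_lit 0) (XT.lf (nat_lit 0) (nat_lit 184123798262) (nat_lit 304) (nat_lit 24166629635) (nat_lit 76) (nat_lit 33641806103) (nat_lit 57) (nat_lit 5) (nat_lit 61) (nat_lit 5) (nat_lit 58) (nat_lit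 5) (nat_lit 362) (nat_lit 341) (nat_lit 197)) (XT.lf (nat_lit 0) (nat_lit 17513398530) (nat_lit 228) (nat_lit 61740487500) (nat_lit 76) (nat_lit 175013072354) (nat_lit 54) (nat_lit 5) (nat_lit 57) (nat_lit 5) (nat_lit 55) (nat_lit 5) (nat_lit 363) (nat_lit 341) (nat_lit 196)))) (XT.nd (nat_lit 156) (nat_lit 380) (nat_lit 0) (XT.nd (nat_lit 78) (nat_lit 152) (nat_lit 0) (XT.lf (nat_lit 0) (nat_lit 100856089177) (nat_lit 304) (nat_lit 104272284293) (nat_lit 76) (nat_lit 62211681658) (nat_lit 51) (nat_lit 5) (nat_lit 55) (nat_lit 5) (nat_lit 52) (nat_lit 5) (nat_lit 364) (nat_lit 341) (nat_lit 195)) (XT.lf (nat_lit 0) (nat_lit 129448897265) (nat_lit 152) (nat_lit 65867529526) (nat_lit 228) (nat_lit 85920061378) (nat_lit 49) (nat_lit 5) (nat_lit 51) (nat_lit 5) (nat_lit 52) (nat_lit 5) (nat_lit 365) (nat_lit 341) (nat_lit 194))) (XT.nd (nat_lit 78) (nat_lit 152) (nat_lit 0) (XT.lf (nat_lit 0)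 (nat_lit 5715710806) (nat_lit 228) (nat_lit 205107510675) (nat_lit 76) (nat_lit 85187483984) (nat_lit 46) (nat_lit 5) (nat_lit 49) (nat_lit 5) (nat_lit 47) (nat_lit 5) (nat_lit 366) (nat_lit 341) (nat_lit 193)) (XT.lf (nat_lit 0) (nat_lit 45446215766) (nat_lit 152) (nat_lit 60773447469) (nat_lit 228) (nat_lit 205449393805) (nat_lit 44) (nat_lit 5) (nat_lit 46) (nat_lit 5) (nat_lit 47) (nat_lit 5) (nat_lit 367) (nat_lit 341) (nat_lit 192))))))))
noncomputable def xc108 : XT := (XT.nd (nat_lit 44928) (nat_lit 0) (nat_lit 2356) (XT.nd (nat_lit 936) (nat_lit 760) (nat_lit 0) (XT.nd (nat_lit 468) (nat_lit 608) (nat_lit 0) (XT.nd (nat_lit 234) (nat_lit 456) (nat_lit 0) (XT.nd (nat_lit 78) (nat_lit 380) (nat_lit 0) (XT.lf (nat_lit 0) (nat_lit 219976343110) (nat_lit 228) (nat_lit 6673160055) (nat_lit 76) (nat_lit 101669953121) (nat_lit 44) (nat_lit 5) (nat_lit 47) (nat_lit 5) (nat_lit 45) (nat_lit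 5) (nat_lit 368) (nat_lit 341) (nat_lit 191)) (XT.nd (nat_lit 78) (nat_lit 152) (nat_lit 0) (XT.lf (nat_lit 0) (nat_lit 2153078355) (nat_lit 228) (nat_lit 64436315125) (nat_lit 76) (nat_lit 279439681593) (nat_lit 41) (nat_lit 5) (nat_lit 44) (nat_lit 5) (nat_lit 42) (nat_lit 5) (nat_lit 369) (nat_lit 341) (nat_lit 190)) (XT.lf (nat_lit 0) (nat_lit 123260803758) (nat_lit 228) (nat_lit 132968829484) (nat_lit 76) (nat_lit 108558641706) (nat_lit 39) (nat_lit 5) (nat_lit 42) (nat_lit 5) (nat_lit 40) (nat_lit 5) (nat_lit 370) (nat_lit 341) (nat_lit 189)))) (XT.nd (nat_lit 78) (nat_lit 304) (nat_lit 0) (XT.lf (nat_lit 0) (nat_lit 173495914939) (nat_lit 152) (nat_lit 85533416033) (nat_lit 228) (nat_lit 125770270732) (nat_lit 37) (nat_lit 5) (nat_lit 39) (nat_lit 5) (nat_lit 40) (nat_lit 5) (nat_lit 371) (nat_lit 341) (nat_lit 188)) (XT.nd (nat_lit 78) (nat_lit 152) (nat_lit 0) (XT.lf (nat_lit 0)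 (nat_lit 4893742276) (nat_lit 152) (nat_lit 301514242844) (nat_lit 76) (nat_lit 99723329382) (nat_lit 35) (nat_lit 5) (nat_lit 37) (nat_lit 5) (nat_lit 36) (nat_lit 5) (nat_lit 372) (nat_lit 341) (nat_lit 187)) (XT.lf (nat_lit 0) (nat_lit 21433884858) (nat_lit 152) (nat_lit 125747313566) (nat_lit 228) (nat_lit 281606440593) (nat_lit 33) (nat_lit 5) (nat_lit 35) (nat_lit 5) (nat_lit 36) (nat_lit 5) (nat_lit 373) (nat_lit 341) (nat_lit 186))))) (XT.nd (nat_lit 234) (nat_lit 304) (nat_lit 0) (XT.nd (nat_lit 78) (nat_lit 304) (nat_lit 0) (XT.lf (nat_lit 0) (nat_lit 307272728750) (nat_lit 228) (nat_lit 73178493235) (nat_lit 76) (nat_lit 72484193687) (nat_lit 33) (nat_lit 5) (nat_lit 36) (nat_lit 5) (nat_lit 34) (nat_lit 4) (nat_lit 374) (nat_lit 341) (nat_lit 185)) (XT.nd (nat_lit 78) (nat_lit 152) (nat_lit 0) (XT.lf (nat_lit 0) (nat_lit 7956575619) (nat_lit 152) (nat_lit 183753331668) (nat_lit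 76) (nat_lit 286962353066) (nat_lit 31) (nat_lit 5) (nat_lit 33) (nat_lit 5) (nat_lit 32) (nat_lit 5) (nat_lit 375) (nat_lit 341) (nat_lit 184)) (XT.lf (nat_lit 0) (nat_lit 173429010646) (nat_lit 228) (nat_lit 314078337529) (nat_lit 76) (nat_lit 18607961715) (nat_lit 29) (nat_lit 5) (nat_lit 32) (nat_lit 5) (nat_lit 30) (nat_lit 4) (nat_lit 376) (nat_lit 341) (nat_lit 183)))) (XT.nd (nat_lit 78) (nat_lit 228) (nat_lit 0) (XT.lf (nat_lit 0) (nat_lit 67741278380) (nat_lit 76) (nat_lit 291941330143) (nat_lit 152) (nat_lit 175694026512) (nat_lit 28) (nat_lit 5) (nat_lit 29) (nat_lit 5) (nat_lit 30) (nat_lit 4) (nat_lit 377) (nat_lit 341) (nat_lit 182)) (XT.nd (nat_lit 78) (nat_lit 228) (nat_lit 0) (XT.lf (nat_lit 0) (nat_lit 491321787941) (nat_lit 76) (nat_lit 74985576709) (nat_lit 152) (nat_lit 397958065) (nat_lit 28) (nat_lit 5) (nat_lit 29) (nat_lit 5) (nat_lit 30) (nat_lit 4) (nat_lit 378)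 (nat_lit 341) (nat_lit 181)) (XT.lf (nat_lit 0) (nat_lit 191071476157) (nat_lit 228) (nat_lit 246025885568) (nat_lit 76) (nat_lit 162885645906) (nat_lit 25) (nat_lit 5) (nat_lit 28) (nat_lit 5) (nat_lit 26) (nat_lit 4) (nat_lit 379) (nat_lit 341) (nat_lit 180)))))) (XT.nd (nat_lit 468) (nat_lit 304) (nat_lit 0) (XT.nd (nat_lit 234) (nat_lit 228) (nat_lit 0) (XT.nd (nat_lit 78) (nat_lit 152) (nat_lit 0) (XT.lf (nat_lit 0) (nat_lit 189243766979) (nat_lit 76) (nat_lit 214154464747) (nat_lit 152) (nat_lit 232246663999) (nat_lit 24) (nat_lit 5) (nat_lit 25) (nat_lit 5) (nat_lit 26) (nat_lit 4) (nat_lit 380) (nat_lit 341) (nat_lit 179)) (XT.nd (nat_lit 78) (nat_lit 152) (nat_lit 0) (XT.lf (nat_lit 0) (nat_lit 637482518373) (nat_lit 152) (nat_lit 6311166608) (nat_lit 0) (nat_lit 30127480387) (nat_lit 24) (nat_lit 5) (nat_lit 26) (nat_lit 4) (nat_lit 24) (nat_lit 4) (nat_lit 381) (nat_lit 341) (nat_lit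 178)) (XT.lf (nat_lit 0) (nat_lit 180731014280) (nat_lit 152) (nat_lit 236856619050) (nat_lit 76) (nat_lit 296970305491) (nat_lit 22) (nat_lit 5) (nat_lit 24) (nat_lit 5) (nat_lit 23) (nat_lit 4) (nat_lit 382) (nat_lit 341) (nat_lit 177)))) (XT.nd (nat_lit 78) (nat_lit 152) (nat_lit 0) (XT.lf (nat_lit 0) (nat_lit 249592044721) (nat_lit 76) (nat_lit 168431073087) (nat_lit 152) (nat_lit 340191393521) (nat_lit 21) (nat_lit 5) (nat_lit 22) (nat_lit 5) (nat_lit 23) (nat_lit 4) (nat_lit 383) (nat_lit 341) (nat_lit 176)) (XT.nd (nat_lit 78) (nat_lit 152) (nat_lit 0) (XT.lf (nat_lit 0) (nat_lit 680063539567) (nat_lit 152) (nat_lit 23382077557) (nat_lit 0) (nat_lit 101629745043) (nat_lit 21) (nat_lit 5) (nat_lit 23) (nat_lit 4) (nat_lit 21) (nat_lit 4) (nat_lit 384) (nat_lit 341) (nat_lit 175)) (XT.lf (nat_lit 0) (nat_lit 114992973066) (nat_lit 152) (nat_lit 342698320958) (nat_lit 76) (nat_lit 397357572414)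 (nat_lit 19) (nat_lit 5) (nat_lit 21) (nat_lit 5) (nat_lit 20) (nat_lit 4) (nat_lit 385) (nat_lit 341) (nat_lit 174))))) (XT.nd (nat_lit 234) (nat_lit 152) (nat_lit 0) (XT.nd (nat_lit 78) (nat_lit 76) (nat_lit 0) (XT.lf (nat_lit 0) (nat_lit 186635534707) (nat_lit 76) (nat_lit 186569130021) (nat_lit 152) (nat_lit 535543801756) (nat_lit 18) (nat_lit 5) (nat_lit 19) (nat_lit 5) (nat_lit 20) (nat_lit 4) (nat_lit 386) (nat_lit 341) (nat_lit 173)) (XT.nd (nat_lit 78) (nat_lit 76) (nat_lit 0) (XT.lf (nat_lit 0) (nat_lit 659799371780) (nat_lit 152) (nat_lit 197648636432) (nat_lit 0) (nat_lit 108909722337) (nat_lit 18) (nat_lit 5) (nat_lit 20) (nat_lit 4) (nat_lit 18) (nat_lit 4) (nat_lit 387) (nat_lit 341) (nat_lit 172)) (XT.lf (nat_lit 0) (nat_lit 377715975933) (nat_lit 76) (nat_lit 600648675554) (nat_lit 76) (nat_lit 49758934465) (nat_lit 17) (nat_lit 4) (nat_lit 18) (nat_lit 5) (nat_lit 18) (nat_lit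 4) (nat_lit 388) (nat_lit 341) (nat_lit 171)))) (XT.nd (nat_lit 78) (nat_lit 76) (nat_lit 0) (XT.lf (nat_lit 0) (nat_lit 223799571157) (nat_lit 152) (nat_lit 92100705073) (nat_lit 76) (nat_lit 778577809478) (nat_lit 16) (nat_lit 5) (nat_lit 18) (nat_lit 5) (nat_lit 17) (nat_lit 4) (nat_lit 389) (nat_lit 341) (nat_lit 170)) (XT.nd (nat_lit 43134) (nat_lit 0) (nat_lit 6916) (XT.lf (nat_lit 0) (nat_lit 525766873962) (nat_lit 152) (nat_lit 638810092079) (nat_lit 0) (nat_lit 1109822039) (nat_lit 15) (nat_lit 5) (nat_lit 17) (nat_lit 4) (nat_lit 15) (nat_lit 4) (nat_lit 390) (nat_lit 341) (nat_lit 169)) (XT.lf (nat_lit 0) (nat_lit 8839498248) (nat_lit 836) (nat_lit 21377733522) (nat_lit 836) (nat_lit 21377733522) (nat_lit 106) (nat_lit 3) (nat_lit 117) (nat_lit 3) (nat_lit 117) (nat_lit 5) (nat_lit 342) (nat_lit 342) (nat_lit 216))))))) (XT.nd (nat_lit 936) (nat_lit 2736) (nat_lit 0) (XT.nd (nat_lit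 468) (nat_lit 1900) (nat_lit 0) (XT.nd (nat_lit 234) (nat_lit 0) (nat_lit 152) (XT.nd (nat_lit 78) (nat_lit 0) (nat_lit 0) (XT.lf (nat_lit 0) (nat_lit 19264680272) (nat_lit 760) (nat_lit 70250386667) (nat_lit 836) (nat_lit 17758526557) (nat_lit 107) (nat_lit 5) (nat_lit 117) (nat_lit 5) (nat_lit 118) (nat_lit 5) (nat_lit 343) (nat_lit 342) (nat_lit 215)) (XT.nd (nat_lit 78) (nat_lit 0) (nat_lit 76) (XT.lf (nat_lit 76) (nat_lit 12430286269) (nat_lit 0) (nat_lit 10516083545) (nat_lit 836) (nat_lit 88639122886) (nat_lit 108) (nat_lit 5) (nat_lit 107) (nat_lit 5) (nat_lit 118) (nat_lit 5) (nat_lit 344) (nat_lit 342) (nat_lit 214)) (XT.lf (nat_lit 0) (nat_lit 29333381807) (nat_lit 760) (nat_lit 13135657703) (nat_lit 836) (nat_lit 73652765719) (nat_lit 108) (nat_lit 5) (nat_lit 118) (nat_lit 5) (nat_lit 119) (nat_lit 5) (nat_lit 345) (nat_lit 342) (nat_lit 213)))) (XT.nd (nat_lit 78) (nat_lit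 0) (nat_lit 76) (XT.lf (nat_lit 0) (nat_lit 38386739063) (nat_lit 760) (nat_lit 39424100016) (nat_lit 836) (nat_lit 43102415160) (nat_lit 109) (nat_lit 5) (nat_lit 119) (nat_lit 5) (nat_lit 120) (nat_lit 5) (nat_lit 346) (nat_lit 342) (nat_lit 212)) (XT.nd (nat_lit 78) (nat_lit 0) (nat_lit 0) (XT.lf (nat_lit 0) (nat_lit 50181254929) (nat_lit 760) (nat_lit 66885770686) (nat_lit 836) (nat_lit 8920149697) (nat_lit 110) (nat_lit 5) (nat_lit 120) (nat_lit 5) (nat_lit 121) (nat_lit 5) (nat_lit 347) (nat_lit 342) (nat_lit 211)) (XT.lf (nat_lit 76) (nat_lit 35289721616) (nat_lit 0) (nat_lit 30189913286) (nat_lit 836) (nat_lit 65859360626) (nat_lit 111) (nat_lit 5) (nat_lit 110) (nat_lit 5) (nat_lit 121) (nat_lit 5) (nat_lit 348) (nat_lit 342) (nat_lit 210))))) (XT.nd (nat_lit 234) (nat_lit 1064) (nat_lit 0) (XT.nd (nat_lit 78) (nat_lit 380) (nat_lit 0) (XT.lf (nat_lit 0) (nat_lit 10282887910) (nat_lit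 760) (nat_lit 74056649876) (nat_lit 836) (nat_lit 52662541500) (nat_lit 101) (nat_lit 5) (nat_lit 111) (nat_lit 5) (nat_lit 112) (nat_lit 5) (nat_lit 349) (nat_lit 342) (nat_lit 209)) (XT.nd (nat_lit 78) (nat_lit 380) (nat_lit 0) (XT.lf (nat_lit 0) (nat_lit 107211687737) (nat_lit 836) (nat_lit 15314591517) (nat_lit 76) (nat_lit 20466758264) (nat_lit 101) (nat_lit 5) (nat_lit 112) (nat_lit 5) (nat_lit 102) (nat_lit 5) (nat_lit 350) (nat_lit 342) (nat_lit 208)) (XT.lf (nat_lit 0) (nat_lit 107183641636) (nat_lit 380) (nat_lit 27651564929) (nat_lit 456) (nat_lit 14481986470) (nat_lit 96) (nat_lit 5) (nat_lit 101) (nat_lit 5) (nat_lit 102) (nat_lit 5) (nat_lit 351) (nat_lit 342) (nat_lit 207)))) (XT.nd (nat_lit 78) (nat_lit 684) (nat_lit 0) (XT.lf (nat_lit 0) (nat_lit 11066917530) (nat_lit 380) (nat_lit 70730283049) (nat_lit 76) (nat_lit 74202512381) (nat_lit 91) (nat_lit 5) (nat_lit 96) (nat_lit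 5) (nat_lit 92) (nat_lit 5) (nat_lit 352) (nat_lit 342) (nat_lit 206)) (XT.nd (nat_lit 78) (nat_lit 304) (nat_lit 0) (XT.lf (nat_lit 0) (nat_lit 40691454354) (nat_lit 456) (nat_lit 100975278465) (nat_lit 76) (nat_lit 21411276628) (nat_lit 86) (nat_lit 5) (nat_lit 92) (nat_lit 5) (nat_lit 87) (nat_lit 5) (nat_lit 353) (nat_lit 342) (nat_lit 205)) (XT.lf (nat_lit 0) (nat_lit 37218401803) (nat_lit 304) (nat_lit 38679675668) (nat_lit 380) (nat_lit 94663886372) (nat_lit 82) (nat_lit 5) (nat_lit 86) (nat_lit 5) (nat_lit 87) (nat_lit 5) (nat_lit 354) (nat_lit 342) (nat_lit 204)))))) (XT.nd (nat_lit 468) (nat_lit 1368) (nat_lit 0) (XT.nd (nat_lit 234) (nat_lit 760) (nat_lit 0) (XT.nd (nat_lit 78) (nat_lit 304) (nat_lit 0) (XT.lf (nat_lit 0) (nat_lit 10697022137) (nat_lit 304) (nat_lit 106311171962) (nat_lit 380) (nat_lit 61482092641) (nat_lit 78) (nat_lit 5) (nat_lit 82) (nat_lit 5) (nat_lit 83)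 (nat_lit 5) (nat_lit 355) (nat_lit 342) (nat_lit 203)) (XT.nd (nat_lit 78) (nat_lit 304) (nat_lit 0) (XT.lf (nat_lit 0) (nat_lit 164464456353) (nat_lit 380) (nat_lit 16649781949) (nat_lit 76) (nat_lit 5785770659) (nat_lit 78) (nat_lit 5) (nat_lit 83) (nat_lit 5) (nat_lit 79) (nat_lit 5) (nat_lit 356) (nat_lit 342) (nat_lit 202)) (XT.lf (nat_lit 0) (nat_lit 23298296649) (nat_lit 304) (nat_lit 46572353870) (nat_lit 76) (nat_lit 125886692004) (nat_lit 74) (nat_lit 5) (nat_lit 78) (nat_lit 5) (nat_lit 75) (nat_lit 5) (nat_lit 357) (nat_lit 342) (nat_lit 201)))) (XT.nd (nat_lit 78) (nat_lit 456) (nat_lit 0) (XT.lf (nat_lit 0) (nat_lit 75025141671) (nat_lit 380) (nat_lit 78756817266) (nat_lit 76) (nat_lit 51366898273) (nat_lit 70) (nat_lit 5) (nat_lit 75) (nat_lit 5) (nat_lit 71) (nat_lit 5) (nat_lit 358) (nat_lit 342) (nat_lit 200)) (XT.nd (nat_lit 78) (nat_lit 228) (nat_lit 0) (XT.lf (nat_lit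 0) (nat_lit 101667602366) (nat_lit 228) (nat_lit 32812188696) (nat_lit 304) (nat_lit 80632419401) (nat_lit 67) (nat_lit 5) (nat_lit 70) (nat_lit 5) (nat_lit 71) (nat_lit 5) (nat_lit 359) (nat_lit 342) (nat_lit 199)) (XT.lf (nat_lit 0) (nat_lit 74363976278) (nat_lit 228) (nat_lit 128409382257) (nat_lit 304) (nat_lit 22895146352) (nat_lit 64) (nat_lit 5) (nat_lit 67) (nat_lit 5) (nat_lit 68) (nat_lit 5) (nat_lit 360) (nat_lit 342) (nat_lit 198))))) (XT.nd (nat_lit 234) (nat_lit 836) (nat_lit 0) (XT.nd (nat_lit 78) (nat_lit 228) (nat_lit 0) (XT.lf (nat_lit 0) (nat_lit 41501888945) (nat_lit 304) (nat_lit 192423381582) (nat_lit 76) (nat_lit 2948038486) (nat_lit 60) (nat_lit 5) (nat_lit 64) (nat_lit 5) (nat_lit 61) (nat_lit 5) (nat_lit 361) (nat_lit 342) (nat_lit 197)) (XT.nd (nat_lit 78) (nat_lit 0) (nat_lit 0) (XT.lf (nat_lit 0) (nat_lit 10155143365) (nat_lit 228) (nat_lit 105106414884) (nat_lit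 304) (nat_lit 133443522603) (nat_lit 57) (nat_lit 5) (nat_lit 60) (nat_lit 5) (nat_lit 61) (nat_lit 5) (nat_lit 362) (nat_lit 342) (nat_lit 196)) (XT.lf (nat_lit 0) (nat_lit 198859651855) (nat_lit 304) (nat_lit 26090996676) (nat_lit 76) (nat_lit 36335863531) (nat_lit 57) (nat_lit 5) (nat_lit 61) (nat_lit 5) (nat_lit 58) (nat_lit 5) (nat_lit 363) (nat_lit 342) (nat_lit 195)))) (XT.nd (nat_lit 156) (nat_lit 380) (nat_lit 0) (XT.nd (nat_lit 78) (nat_lit 228) (nat_lit 0) (XT.lf (nat_lit 0) (nat_lit 18920208632) (nat_lit 228) (nat_lit 66670960178) (nat_lit 76) (nat_lit 189016856536) (nat_lit 54) (nat_lit 5) (nat_lit 57) (nat_lit 5) (nat_lit 55) (nat_lit 5) (nat_lit 364) (nat_lit 342) (nat_lit 194)) (XT.lf (nat_lit 0) (nat_lit 108930066318) (nat_lit 304) (nat_lit 112605452816) (nat_lit 76) (nat_lit 67191463314) (nat_lit 51) (nat_lit 5) (nat_lit 55) (nat_lit 5) (nat_lit 52) (nat_lit 5) (nat_lit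 365) (nat_lit 342) (nat_lit 193))) (XT.nd (nat_lit 78) (nat_lit 228) (nat_lit 0) (XT.lf (nat_lit 0) (nat_lit 139813048903) (nat_lit 152) (nat_lit 71133904019) (nat_lit 228) (nat_lit 92788191304) (nat_lit 49) (nat_lit 5) (nat_lit 51) (nat_lit 5) (nat_lit 52) (nat_lit 5) (nat_lit 366) (nat_lit 342) (nat_lit 192)) (XT.lf (nat_lit 0) (nat_lit 6178047685) (nat_lit 228) (nat_lit 221507853337) (nat_lit 76) (nat_lit 92005404767) (nat_lit 46) (nat_lit 5) (nat_lit 49) (nat_lit 5) (nat_lit 47) (nat_lit 5) (nat_lit 367) (nat_lit 342) (nat_lit 191))))))))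
noncomputable def xc109 : XT := (XT.nd (nat_lit 45084) (nat_lit 0) (nat_lit 2128) (XT.nd (nat_lit 936) (nat_lit 912) (nat_lit 0) (XT.nd (nat_lit 468) (nat_lit 532) (nat_lit 0) (XT.nd (nat_lit 234) (nat_lit 456) (nat_lit 0) (XT.nd (nat_lit 78) (nat_lit 228) (nat_lit 0) (XT.lf (nat_lit 0) (nat_lit 49089812329) (nat_lit 152) (nat_lit 65632251012) (nat_lit 228) (nat_lit 221880274953) (nat_lit 44) (nat_lit 5) (nat_lit 46) (nat_lit 5) (nat_lit 47) (nat_lit 5) (nat_lit 368) (nat_lit 342) (nat_lit 190)) (XT.nd (nat_lit 78) (nat_lit 228) (nat_lit 0) (XT.lf (nat_lit 0) (nat_lit 237578964459) (nat_lit 228) (nat_lit 7199517819) (nat_lit 76) (nat_lit 109806303004) (nat_lit 44) (nat_lit 5) (nat_lit 47) (nat_lit 5) (nat_lit 45) (nat_lit 5) (nat_lit 369) (nat_lit 342) (nat_lit 189)) (XT.lf (nat_lit 0) (nat_lit 2329688071) (nat_lit 228) (nat_lit 69583905146) (nat_lit 76) (nat_lit 301797588092) (nat_lit 41)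 (nat_lit 5) (nat_lit 44) (nat_lit 5) (nat_lit 42) (nat_lit 5) (nat_lit 370) (nat_lit 342) (nat_lit 188)))) (XT.nd (nat_lit 78) (nat_lit 304) (nat_lit 0) (XT.lf (nat_lit 0) (nat_lit 133125861997) (nat_lit 228) (nat_lit 143599174071) (nat_lit 76) (nat_lit 117246089699) (nat_lit 39) (nat_lit 5) (nat_lit 42) (nat_lit 5) (nat_lit 40) (nat_lit 5) (nat_lit 371) (nat_lit 342) (nat_lit 187)) (XT.nd (nat_lit 78) (nat_lit 152) (nat_lit 0) (XT.lf (nat_lit 0) (nat_lit 187382438664) (nat_lit 152) (nat_lit 92373229018) (nat_lit 228) (nat_lit 135827701277) (nat_lit 37) (nat_lit 5) (nat_lit 39) (nat_lit 5) (nat_lit 40) (nat_lit 5) (nat_lit 372) (nat_lit 342) (nat_lit 186)) (XT.lf (nat_lit 0) (nat_lit 5289146497) (nat_lit 152) (nat_lit 325628549702) (nat_lit 76) (nat_lit 107703927012) (nat_lit 35) (nat_lit 5) (nat_lit 37) (nat_lit 5) (nat_lit 36) (nat_lit 5) (nat_lit 373) (nat_lit 342) (nat_lit 185))))) (XT.nd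 (nat_lit 234) (nat_lit 228) (nat_lit 0) (XT.nd (nat_lit 78) (nat_lit 152) (nat_lit 0) (XT.lf (nat_lit 0) (nat_lit 23155131280) (nat_lit 152) (nat_lit 135804280649) (nat_lit 228) (nat_lit 304131051209) (nat_lit 33) (nat_lit 5) (nat_lit 35) (nat_lit 5) (nat_lit 36) (nat_lit 5) (nat_lit 374) (nat_lit 342) (nat_lit 184)) (XT.nd (nat_lit 78) (nat_lit 152) (nat_lit 0) (XT.lf (nat_lit 0) (nat_lit 331858030040) (nat_lit 228) (nat_lit 79026588770) (nat_lit 76) (nat_lit 78285454931) (nat_lit 33) (nat_lit 5) (nat_lit 36) (nat_lit 5) (nat_lit 34) (nat_lit 4) (nat_lit 375) (nat_lit 342) (nat_lit 183)) (XT.lf (nat_lit 0) (nat_lit 8596474322) (nat_lit 152) (nat_lit 198447570595) (nat_lit 76) (nat_lit 309921826718) (nat_lit 31) (nat_lit 5) (nat_lit 33) (nat_lit 5) (nat_lit 32) (nat_lit 5) (nat_lit 376) (nat_lit 342) (nat_lit 182)))) (XT.nd (nat_lit 78) (nat_lit 76) (nat_lit 0) (XT.lf (nat_lit 0) (nat_lit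 187306584200) (nat_lit 228) (nat_lit 339198717246) (nat_lit 76) (nat_lit 20099069755) (nat_lit 29) (nat_lit 5) (nat_lit 32) (nat_lit 5) (nat_lit 30) (nat_lit 4) (nat_lit 377) (nat_lit 342) (nat_lit 181)) (XT.nd (nat_lit 78) (nat_lit 0) (nat_lit 0) (XT.lf (nat_lit 0) (nat_lit 73166212082) (nat_lit 76) (nat_lit 315294104807) (nat_lit 152) (nat_lit 189746293182) (nat_lit 28) (nat_lit 5) (nat_lit 29) (nat_lit 5) (nat_lit 30) (nat_lit 4) (nat_lit 378) (nat_lit 342) (nat_lit 180)) (XT.lf (nat_lit 0) (nat_lit 530632745265) (nat_lit 76) (nat_lit 80982078634) (nat_lit 152) (nat_lit 426780404) (nat_lit 28) (nat_lit 5) (nat_lit 29) (nat_lit 5) (nat_lit 30) (nat_lit 4) (nat_lit 379) (nat_lit 342) (nat_lit 179)))))) (XT.nd (nat_lit 468) (nat_lit 380) (nat_lit 0) (XT.nd (nat_lit 234) (nat_lit 228) (nat_lit 0) (XT.nd (nat_lit 78) (nat_lit 76) (nat_lit 0) (XT.lf (nat_lit 0) (nat_lit 206360011170) (nat_lit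 228) (nat_lit 265702772000) (nat_lit 76) (nat_lit 175918723586) (nat_lit 25) (nat_lit 5) (nat_lit 28) (nat_lit 5) (nat_lit 26) (nat_lit 4) (nat_lit 380) (nat_lit 342) (nat_lit 178)) (XT.nd (nat_lit 78) (nat_lit 0) (nat_lit 0) (XT.lf (nat_lit 0) (nat_lit 204388227443) (nat_lit 76) (nat_lit 231284548507) (nat_lit 152) (nat_lit 250823576557) (nat_lit 24) (nat_lit 5) (nat_lit 25) (nat_lit 5) (nat_lit 26) (nat_lit 4) (nat_lit 381) (nat_lit 342) (nat_lit 177)) (XT.lf (nat_lit 0) (nat_lit 688483639454) (nat_lit 152) (nat_lit 6811376152) (nat_lit 0) (nat_lit 32539716463) (nat_lit 24) (nat_lit 5) (nat_lit 26) (nat_lit 4) (nat_lit 24) (nat_lit 4) (nat_lit 382) (nat_lit 342) (nat_lit 176)))) (XT.nd (nat_lit 78) (nat_lit 76) (nat_lit 0) (XT.lf (nat_lit 0) (nat_lit 195191938227) (nat_lit 152) (nat_lit 255800587088) (nat_lit 76) (nat_lit 320729925987) (nat_lit 22) (nat_lit 5) (nat_lit 24) (nat_lit 5)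 (nat_lit 23) (nat_lit 4) (nat_lit 383) (nat_lit 342) (nat_lit 175)) (XT.nd (nat_lit 78) (nat_lit 0) (nat_lit 0) (XT.lf (nat_lit 0) (nat_lit 269563771549) (nat_lit 76) (nat_lit 181903525663) (nat_lit 152) (nat_lit 367404258077) (nat_lit 21) (nat_lit 5) (nat_lit 22) (nat_lit 5) (nat_lit 23) (nat_lit 4) (nat_lit 384) (nat_lit 342) (nat_lit 174)) (XT.lf (nat_lit 0) (nat_lit 734470809515) (nat_lit 152) (nat_lit 25248524825) (nat_lit 0) (nat_lit 109761947047) (nat_lit 21) (nat_lit 5) (nat_lit 23) (nat_lit 4) (nat_lit 21) (nat_lit 4) (nat_lit 385) (nat_lit 342) (nat_lit 173))))) (XT.nd (nat_lit 234) (nat_lit 152) (nat_lit 0) (XT.nd (nat_lit 78) (nat_lit 76) (nat_lit 0) (XT.lf (nat_lit 0) (nat_lit 124194531796) (nat_lit 152) (nat_lit 370110176211) (nat_lit 76) (nat_lit 429147961337) (nat_lit 19) (nat_lit 5) (nat_lit 21) (nat_lit 5) (nat_lit 20) (nat_lit 4) (nat_lit 386) (nat_lit 342) (nat_lit 172))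 (XT.nd (nat_lit 78) (nat_lit 0) (nat_lit 0) (XT.lf (nat_lit 0) (nat_lit 201570213620) (nat_lit 76) (nat_lit 201492847962) (nat_lit 152) (nat_lit 578385180699) (nat_lit 18) (nat_lit 5) (nat_lit 19) (nat_lit 5) (nat_lit 20) (nat_lit 4) (nat_lit 387) (nat_lit 342) (nat_lit 171)) (XT.lf (nat_lit 0) (nat_lit 712585221497) (nat_lit 152) (nat_lit 213456907569) (nat_lit 0) (nat_lit 117624124615) (nat_lit 18) (nat_lit 5) (nat_lit 20) (nat_lit 4) (nat_lit 18) (nat_lit 4) (nat_lit 388) (nat_lit 342) (nat_lit 170)))) (XT.nd (nat_lit 43290) (nat_lit 0) (nat_lit 6840) (XT.nd (nat_lit 78) (nat_lit 76) (nat_lit 0) (XT.lf (nat_lit 0) (nat_lit 407936716474) (nat_lit 76) (nat_lit 648698920426) (nat_lit 76) (nat_lit 53737744972) (nat_lit 17) (nat_lit 4) (nat_lit 18) (nat_lit 5) (nat_lit 18) (nat_lit 4) (nat_lit 389) (nat_lit 342) (nat_lit 169)) (XT.lf (nat_lit 0) (nat_lit 241705243611) (nat_lit 152) (nat_lit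 99465498802) (nat_lit 76) (nat_lit 840865504559) (nat_lit 16) (nat_lit 5) (nat_lit 18) (nat_lit 5) (nat_lit 17) (nat_lit 4) (nat_lit 390) (nat_lit 342) (nat_lit 168))) (XT.nd (nat_lit 78) (nat_lit 0) (nat_lit 76) (XT.lf (nat_lit 0) (nat_lit 9555797405) (nat_lit 836) (nat_lit 23083150113) (nat_lit 836) (nat_lit 23083150113) (nat_lit 106) (nat_lit 3) (nat_lit 117) (nat_lit 3) (nat_lit 117) (nat_lit 5) (nat_lit 343) (nat_lit 343) (nat_lit 214)) (XT.lf (nat_lit 0) (nat_lit 20822799700) (nat_lit 760) (nat_lit 75860239686) (nat_lit 836) (nat_lit 19171579672) (nat_lit 107) (nat_lit 5) (nat_lit 117) (nat_lit 5) (nat_lit 118) (nat_lit 5) (nat_lit 344) (nat_lit 343) (nat_lit 213))))))) (XT.nd (nat_lit 936) (nat_lit 2584) (nat_lit 0) (XT.nd (nat_lit 468) (nat_lit 1748) (nat_lit 0) (XT.nd (nat_lit 234) (nat_lit 456) (nat_lit 0) (XT.nd (nat_lit 78) (nat_lit 0) (nat_lit 76) (XT.lf (nat_lit 76) (nat_lit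 13434444766) (nat_lit 0) (nat_lit 11363476454) (nat_lit 836) (nat_lit 95713605224) (nat_lit 108) (nat_lit 5) (nat_lit 107) (nat_lit 5) (nat_lit 118) (nat_lit 5) (nat_lit 345) (nat_lit 343) (nat_lit 212)) (XT.nd (nat_lit 78) (nat_lit 0) (nat_lit 76) (XT.lf (nat_lit 0) (nat_lit 31694632430) (nat_lit 760) (nat_lit 14176661612) (nat_lit 836) (nat_lit 79539514024) (nat_lit 108) (nat_lit 5) (nat_lit 118) (nat_lit 5) (nat_lit 119) (nat_lit 5) (nat_lit 346) (nat_lit 343) (nat_lit 211)) (XT.lf (nat_lit 0) (nat_lit 41471259358) (nat_lit 760) (nat_lit 42567847335) (nat_lit 836) (nat_lit 46546517183) (nat_lit 109) (nat_lit 5) (nat_lit 119) (nat_lit 5) (nat_lit 120) (nat_lit 5) (nat_lit 347) (nat_lit 343) (nat_lit 210)))) (XT.nd (nat_lit 78) (nat_lit 684) (nat_lit 0) (XT.lf (nat_lit 0) (nat_lit 54208435856) (nat_lit 760) (nat_lit 72226200291) (nat_lit 836) (nat_lit 9630868382) (nat_lit 110) (nat_lit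 5) (nat_lit 120) (nat_lit 5) (nat_lit 121) (nat_lit 5) (nat_lit 348) (nat_lit 343) (nat_lit 209)) (XT.nd (nat_lit 78) (nat_lit 684) (nat_lit 0) (XT.lf (nat_lit 76) (nat_lit 38122878031) (nat_lit 0) (nat_lit 32607024692) (nat_lit 836) (nat_lit 71115607613) (nat_lit 111) (nat_lit 5) (nat_lit 110) (nat_lit 5) (nat_lit 121) (nat_lit 5) (nat_lit 349) (nat_lit 343) (nat_lit 208)) (XT.lf (nat_lit 0) (nat_lit 11115671165) (nat_lit 760) (nat_lit 79982176185) (nat_lit 836) (nat_lit 56863831710) (nat_lit 101) (nat_lit 5) (nat_lit 111) (nat_lit 5) (nat_lit 112) (nat_lit 5) (nat_lit 350) (nat_lit 343) (nat_lit 207))))) (XT.nd (nat_lit 234) (nat_lit 988) (nat_lit 0) (XT.nd (nat_lit 78) (nat_lit 760) (nat_lit 0) (XT.lf (nat_lit 0) (nat_lit 115798929252) (nat_lit 836) (nat_lit 16529819657) (nat_lit 76) (nat_lit 22103207727) (nat_lit 101) (nat_lit 5) (nat_lit 112) (nat_lit 5) (nat_lit 102) (nat_lit 5) (nat_lit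 351) (nat_lit 343) (nat_lit 206)) (XT.nd (nat_lit 78) (nat_lit 380) (nat_lit 0) (XT.lf (nat_lit 0) (nat_lit 115767840204) (nat_lit 380) (nat_lit 29863874373) (nat_lit 456) (nat_lit 15630361402) (nat_lit 96) (nat_lit 5) (nat_lit 101) (nat_lit 5) (nat_lit 102) (nat_lit 5) (nat_lit 352) (nat_lit 343) (nat_lit 205)) (XT.lf (nat_lit 0) (nat_lit 11961547866) (nat_lit 380) (nat_lit 76378824056) (nat_lit 76) (nat_lit 80138847240) (nat_lit 91) (nat_lit 5) (nat_lit 96) (nat_lit 5) (nat_lit 92) (nat_lit 5) (nat_lit 353) (nat_lit 343) (nat_lit 204)))) (XT.nd (nat_lit 78) (nat_lit 608) (nat_lit 0) (XT.lf (nat_lit 0) (nat_lit 43955519192) (nat_lit 456) (nat_lit 109043416374) (nat_lit 76) (nat_lit 23124870743) (nat_lit 86) (nat_lit 5) (nat_lit 92) (nat_lit 5) (nat_lit 87) (nat_lit 5) (nat_lit 354) (nat_lit 343) (nat_lit 203)) (XT.nd (nat_lit 78) (nat_lit 304) (nat_lit 0) (XT.lf (nat_lit 0) (nat_lit 40205328753)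 (nat_lit 304) (nat_lit 41772842985) (nat_lit 380) (nat_lit 102228330818) (nat_lit 82) (nat_lit 5) (nat_lit 86) (nat_lit 5) (nat_lit 87) (nat_lit 5) (nat_lit 355) (nat_lit 343) (nat_lit 202)) (XT.lf (nat_lit 0) (nat_lit 11562210010) (nat_lit 304) (nat_lit 114814441332) (nat_lit 380) (nat_lit 66392462705) (nat_lit 78) (nat_lit 5) (nat_lit 82) (nat_lit 5) (nat_lit 83) (nat_lit 5) (nat_lit 356) (nat_lit 343) (nat_lit 201)))))) (XT.nd (nat_lit 468) (nat_lit 1216) (nat_lit 0) (XT.nd (nat_lit 234) (nat_lit 760) (nat_lit 0) (XT.nd (nat_lit 78) (nat_lit 608) (nat_lit 0) (XT.lf (nat_lit 0) (nat_lit 177628860153) (nat_lit 380) (nat_lit 17972693789) (nat_lit 76) (nat_lit 6250088235) (nat_lit 78) (nat_lit 5) (nat_lit 83) (nat_lit 5) (nat_lit 79) (nat_lit 5) (nat_lit 357) (nat_lit 343) (nat_lit 200)) (XT.nd (nat_lit 78) (nat_lit 304) (nat_lit 0) (XT.lf (nat_lit 0) (nat_lit 25169123133) (nat_lit 304) (nat_lit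 50289230916) (nat_lit 76) (nat_lit 135959223209) (nat_lit 74) (nat_lit 5) (nat_lit 78) (nat_lit 5) (nat_lit 75) (nat_lit 5) (nat_lit 358) (nat_lit 343) (nat_lit 199)) (XT.lf (nat_lit 0) (nat_lit 81033763430) (nat_lit 380) (nat_lit 85048535808) (nat_lit 76) (nat_lit 55478131832) (nat_lit 70) (nat_lit 5) (nat_lit 75) (nat_lit 5) (nat_lit 71) (nat_lit 5) (nat_lit 359) (nat_lit 343) (nat_lit 198)))) (XT.nd (nat_lit 78) (nat_lit 532) (nat_lit 0) (XT.lf (nat_lit 0) (nat_lit 109809453790) (nat_lit 228) (nat_lit 35434973145) (nat_lit 304) (nat_lit 87076443853) (nat_lit 67) (nat_lit 5) (nat_lit 70) (nat_lit 5) (nat_lit 71) (nat_lit 5) (nat_lit 360) (nat_lit 343) (nat_lit 197)) (XT.nd (nat_lit 78) (nat_lit 304) (nat_lit 0) (XT.lf (nat_lit 0) (nat_lit 80321440724) (nat_lit 228) (nat_lit 138679737904) (nat_lit 304) (nat_lit 24720505483) (nat_lit 64) (nat_lit 5) (nat_lit 67) (nat_lit 5) (nat_lit 68)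 (nat_lit 5) (nat_lit 361) (nat_lit 343) (nat_lit 196)) (XT.lf (nat_lit 0) (nat_lit 44827810070) (nat_lit 304) (nat_lit 207808822222) (nat_lit 76) (nat_lit 3186249771) (nat_lit 60) (nat_lit 5) (nat_lit 64) (nat_lit 5) (nat_lit 61) (nat_lit 5) (nat_lit 362) (nat_lit 343) (nat_lit 195))))) (XT.nd (nat_lit 234) (nat_lit 760) (nat_lit 0) (XT.nd (nat_lit 78) (nat_lit 228) (nat_lit 0) (XT.lf (nat_lit 0) (nat_lit 10975618368) (nat_lit 228) (nat_lit 113512333036) (nat_lit 304) (nat_lit 144113259555) (nat_lit 57) (nat_lit 5) (nat_lit 60) (nat_lit 5) (nat_lit 61) (nat_lit 5) (nat_lit 363) (nat_lit 343) (nat_lit 194)) (XT.nd (nat_lit 78) (nat_lit 228) (nat_lit 0) (XT.lf (nat_lit 0) (nat_lit 214773524940) (nat_lit 304) (nat_lit 28170591800) (nat_lit 76) (nat_lit 39245058522) (nat_lit 57) (nat_lit 5) (nat_lit 61) (nat_lit 5) (nat_lit 58) (nat_lit 5) (nat_lit 364) (nat_lit 343) (nat_lit 193)) (XT.lf (nat_lit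 0) (nat_lit 20438744922) (nat_lit 228) (nat_lit 71997121285) (nat_lit 76) (nat_lit 204140552791) (nat_lit 54) (nat_lit 5) (nat_lit 57) (nat_lit 5) (nat_lit 55) (nat_lit 5) (nat_lit 365) (nat_lit 343) (nat_lit 192)))) (XT.nd (nat_lit 156) (nat_lit 380) (nat_lit 0) (XT.nd (nat_lit 78) (nat_lit 152) (nat_lit 0) (XT.lf (nat_lit 0) (nat_lit 117649178419) (nat_lit 304) (nat_lit 121606503737) (nat_lit 76) (nat_lit 72569221329) (nat_lit 51) (nat_lit 5) (nat_lit 55) (nat_lit 5) (nat_lit 52) (nat_lit 5) (nat_lit 366) (nat_lit 343) (nat_lit 191)) (XT.lf (nat_lit 0) (nat_lit 151005157163) (nat_lit 152) (nat_lit 76822020431) (nat_lit 228) (nat_lit 100206552693) (nat_lit 49) (nat_lit 5) (nat_lit 51) (nat_lit 5) (nat_lit 52) (nat_lit 5) (nat_lit 367) (nat_lit 343) (nat_lit 190))) (XT.nd (nat_lit 78) (nat_lit 152) (nat_lit 0) (XT.lf (nat_lit 0) (nat_lit 6676646792) (nat_lit 228) (nat_lit 239221401535) (nat_lit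 76) (nat_lit 99368342348) (nat_lit 46) (nat_lit 5) (nat_lit 49) (nat_lit 5) (nat_lit 47) (nat_lit 5) (nat_lit 368) (nat_lit 343) (nat_lit 189)) (XT.lf (nat_lit 0) (nat_lit 53023769693) (nat_lit 152) (nat_lit 70880197130) (nat_lit 228) (nat_lit 239626349936) (nat_lit 44) (nat_lit 5) (nat_lit 46) (nat_lit 5) (nat_lit 47) (nat_lit 5) (nat_lit 369) (nat_lit 343) (nat_lit 188))))))))
noncomputable def xc110 : XT := (XT.nd (nat_lit 45162) (nat_lit 0) (nat_lit 1824) (XT.nd (nat_lit 936) (nat_lit 608) (nat_lit 0) (XT.nd (nat_lit 468) (nat_lit 608) (nat_lit 0) (XT.nd (nat_lit 234) (nat_lit 456) (nat_lit 0) (XT.nd (nat_lit 78) (nat_lit 380) (nat_lit 0) (XT.lf (nat_lit 0) (nat_lit 256589151559) (nat_lit 228) (nat_lit 7769053454) (nat_lit 76) (nat_lit 118593168040) (nat_lit 44) (nat_lit 5) (nat_lit 47) (nat_lit 5) (nat_lit 45) (nat_lit 5) (nat_lit 370) (nat_lit 343) (nat_lit 187)) (XT.nd (nat_lit 78)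 (nat_lit 152) (nat_lit 0) (XT.lf (nat_lit 0) (nat_lit 2519804069) (nat_lit 228) (nat_lit 75144345961) (nat_lit 76) (nat_lit 325943737365) (nat_lit 41) (nat_lit 5) (nat_lit 44) (nat_lit 5) (nat_lit 42) (nat_lit 5) (nat_lit 371) (nat_lit 343) (nat_lit 186)) (XT.lf (nat_lit 0) (nat_lit 143779526583) (nat_lit 228) (nat_lit 155080967932) (nat_lit 76) (nat_lit 126628140263) (nat_lit 39) (nat_lit 5) (nat_lit 42) (nat_lit 5) (nat_lit 40) (nat_lit 5) (nat_lit 372) (nat_lit 343) (nat_lit 185)))) (XT.nd (nat_lit 78) (nat_lit 304) (nat_lit 0) (XT.lf (nat_lit 0) (nat_lit 202378906983) (nat_lit 152) (nat_lit 99760635096) (nat_lit 228) (nat_lit 146690324174) (nat_lit 37) (nat_lit 5) (nat_lit 39) (nat_lit 5) (nat_lit 40) (nat_lit 5) (nat_lit 373) (nat_lit 343) (nat_lit 184)) (XT.nd (nat_lit 78) (nat_lit 152) (nat_lit 0) (XT.lf (nat_lit 0) (nat_lit 5715625987) (nat_lit 152) (nat_lit 351672975851) (nat_lit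 76) (nat_lit 116322582806) (nat_lit 35) (nat_lit 5) (nat_lit 37) (nat_lit 5) (nat_lit 36) (nat_lit 5) (nat_lit 374) (nat_lit 343) (nat_lit 183)) (XT.lf (nat_lit 0) (nat_lit 25013145036) (nat_lit 152) (nat_lit 146666207118) (nat_lit 228) (nat_lit 328458187713) (nat_lit 33) (nat_lit 5) (nat_lit 35) (nat_lit 5) (nat_lit 36) (nat_lit 5) (nat_lit 375) (nat_lit 343) (nat_lit 182))))) (XT.nd (nat_lit 234) (nat_lit 304) (nat_lit 0) (XT.nd (nat_lit 78) (nat_lit 304) (nat_lit 0) (XT.lf (nat_lit 0) (nat_lit 358409658545) (nat_lit 228) (nat_lit 85343414154) (nat_lit 76) (nat_lit 84550456748) (nat_lit 33) (nat_lit 5) (nat_lit 36) (nat_lit 5) (nat_lit 34) (nat_lit 4) (nat_lit 376) (nat_lit 343) (nat_lit 181)) (XT.nd (nat_lit 78) (nat_lit 152) (nat_lit 0) (XT.lf (nat_lit 0) (nat_lit 9287083775) (nat_lit 152) (nat_lit 214318208542) (nat_lit 76) (nat_lit 334717703691) (nat_lit 31) (nat_lit 5) (nat_lit 33)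 (nat_lit 5) (nat_lit 32) (nat_lit 5) (nat_lit 377) (nat_lit 343) (nat_lit 180)) (XT.lf (nat_lit 0) (nat_lit 202293899604) (nat_lit 228) (nat_lit 366329567227) (nat_lit 76) (nat_lit 21709113907) (nat_lit 29) (nat_lit 5) (nat_lit 32) (nat_lit 5) (nat_lit 30) (nat_lit 4) (nat_lit 378) (nat_lit 343) (nat_lit 179)))) (XT.nd (nat_lit 78) (nat_lit 228) (nat_lit 0) (XT.lf (nat_lit 0) (nat_lit 79024337094) (nat_lit 76) (nat_lit 340515462625) (nat_lit 152) (nat_lit 204923205612) (nat_lit 28) (nat_lit 5) (nat_lit 29) (nat_lit 5) (nat_lit 30) (nat_lit 4) (nat_lit 379) (nat_lit 343) (nat_lit 178)) (XT.nd (nat_lit 78) (nat_lit 228) (nat_lit 0) (XT.lf (nat_lit 0) (nat_lit 573087835298) (nat_lit 76) (nat_lit 87458635142) (nat_lit 152) (nat_lit 458338554) (nat_lit 28) (nat_lit 5) (nat_lit 29) (nat_lit 5) (nat_lit 30) (nat_lit 4) (nat_lit 380) (nat_lit 343) (nat_lit 177)) (XT.lf (nat_lit 0) (nat_lit 222871227119)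 (nat_lit 228) (nat_lit 286954548961) (nat_lit 76) (nat_lit 189994129916) (nat_lit 25) (nat_lit 5) (nat_lit 28) (nat_lit 5) (nat_lit 26) (nat_lit 4) (nat_lit 381) (nat_lit 343) (nat_lit 176)))))) (XT.nd (nat_lit 468) (nat_lit 152) (nat_lit 0) (XT.nd (nat_lit 234) (nat_lit 228) (nat_lit 0) (XT.nd (nat_lit 78) (nat_lit 152) (nat_lit 0) (XT.lf (nat_lit 0) (nat_lit 220743537272) (nat_lit 76) (nat_lit 249785363296) (nat_lit 152) (nat_lit 270887044505) (nat_lit 24) (nat_lit 5) (nat_lit 25) (nat_lit 5) (nat_lit 26) (nat_lit 4) (nat_lit 382) (nat_lit 343) (nat_lit 175)) (XT.nd (nat_lit 78) (nat_lit 152) (nat_lit 0) (XT.lf (nat_lit 0) (nat_lit 743564490771) (nat_lit 152) (nat_lit 7352270654) (nat_lit 0) (nat_lit 35144640732) (nat_lit 24) (nat_lit 5) (nat_lit 26) (nat_lit 4) (nat_lit 24) (nat_lit 4) (nat_lit 383) (nat_lit 343) (nat_lit 174)) (XT.lf (nat_lit 0) (nat_lit 210809387598) (nat_lit 152) (nat_lit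 276260723316) (nat_lit 76) (nat_lit 346390031363) (nat_lit 22) (nat_lit 5) (nat_lit 24) (nat_lit 5) (nat_lit 23) (nat_lit 4) (nat_lit 384) (nat_lit 343) (nat_lit 173)))) (XT.nd (nat_lit 78) (nat_lit 152) (nat_lit 0) (XT.lf (nat_lit 0) (nat_lit 291132614056) (nat_lit 76) (nat_lit 196454064515) (nat_lit 152) (nat_lit 396794500879) (nat_lit 21) (nat_lit 5) (nat_lit 22) (nat_lit 5) (nat_lit 23) (nat_lit 4) (nat_lit 385) (nat_lit 343) (nat_lit 172)) (XT.nd (nat_lit 78) (nat_lit 152) (nat_lit 0) (XT.lf (nat_lit 0) (nat_lit 793230349089) (nat_lit 152) (nat_lit 27264875487) (nat_lit 0) (nat_lit 118544465226) (nat_lit 21) (nat_lit 5) (nat_lit 23) (nat_lit 4) (nat_lit 21) (nat_lit 4) (nat_lit 386) (nat_lit 343) (nat_lit 171)) (XT.lf (nat_lit 0) (nat_lit 134131912657) (nat_lit 152) (nat_lit 399715552016) (nat_lit 76) (nat_lit 463481326990) (nat_lit 19) (nat_lit 5) (nat_lit 21) (nat_lit 5) (nat_lit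 20) (nat_lit 4) (nat_lit 387) (nat_lit 343) (nat_lit 170))))) (XT.nd (nat_lit 43446) (nat_lit 0) (nat_lit 6764) (XT.nd (nat_lit 78) (nat_lit 76) (nat_lit 0) (XT.lf (nat_lit 0) (nat_lit 217699119578) (nat_lit 76) (nat_lit 217610721906) (nat_lit 152) (nat_lit 624654173141) (nat_lit 18) (nat_lit 5) (nat_lit 19) (nat_lit 5) (nat_lit 20) (nat_lit 4) (nat_lit 388) (nat_lit 343) (nat_lit 169)) (XT.nd (nat_lit 78) (nat_lit 76) (nat_lit 0) (XT.lf (nat_lit 0) (nat_lit 769593668139) (nat_lit 152) (nat_lit 230530356798) (nat_lit 0) (nat_lit 127035447324) (nat_lit 18) (nat_lit 5) (nat_lit 20) (nat_lit 4) (nat_lit 18) (nat_lit 4) (nat_lit 389) (nat_lit 343) (nat_lit 168)) (XT.lf (nat_lit 0) (nat_lit 440574622300) (nat_lit 76) (nat_lit 700593420161) (nat_lit 76) (nat_lit 58035131983) (nat_lit 17) (nat_lit 4) (nat_lit 18) (nat_lit 5) (nat_lit 18) (nat_lit 4) (nat_lit 390) (nat_lit 343) (nat_lit 167))))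 (XT.nd (nat_lit 156) (nat_lit 0) (nat_lit 76) (XT.nd (nat_lit 78) (nat_lit 0) (nat_lit 76) (XT.lf (nat_lit 0) (nat_lit 10328096671) (nat_lit 836) (nat_lit 24925685103) (nat_lit 836) (nat_lit 24925685103) (nat_lit 106) (nat_lit 3) (nat_lit 117) (nat_lit 3) (nat_lit 117) (nat_lit 5) (nat_lit 344) (nat_lit 344) (nat_lit 212)) (XT.lf (nat_lit 0) (nat_lit 22503151289) (nat_lit 760) (nat_lit 81920332939) (nat_lit 836) (nat_lit 20698765400) (nat_lit 107) (nat_lit 5) (nat_lit 117) (nat_lit 5) (nat_lit 118) (nat_lit 5) (nat_lit 345) (nat_lit 344) (nat_lit 211))) (XT.nd (nat_lit 78) (nat_lit 0) (nat_lit 76) (XT.lf (nat_lit 76) (nat_lit 14517547051) (nat_lit 0) (nat_lit 12277789674) (nat_lit 836) (nat_lit 103356421100) (nat_lit 108) (nat_lit 5) (nat_lit 107) (nat_lit 5) (nat_lit 118) (nat_lit 5) (nat_lit 346) (nat_lit 344) (nat_lit 210)) (XT.lf (nat_lit 0) (nat_lit 34242703093) (nat_lit 760) (nat_lit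 15302350863) (nat_lit 836) (nat_lit 85897982972) (nat_lit 108) (nat_lit 5) (nat_lit 118) (nat_lit 5) (nat_lit 119) (nat_lit 5) (nat_lit 347) (nat_lit 344) (nat_lit 209))))))) (XT.nd (nat_lit 936) (nat_lit 2508) (nat_lit 0) (XT.nd (nat_lit 468) (nat_lit 1672) (nat_lit 0) (XT.nd (nat_lit 234) (nat_lit 988) (nat_lit 0) (XT.nd (nat_lit 78) (nat_lit 0) (nat_lit 76) (XT.lf (nat_lit 0) (nat_lit 44800603770) (nat_lit 760) (nat_lit 45964546828) (nat_lit 836) (nat_lit 50266731021) (nat_lit 109) (nat_lit 5) (nat_lit 119) (nat_lit 5) (nat_lit 120) (nat_lit 5) (nat_lit 348) (nat_lit 344) (nat_lit 208)) (XT.nd (nat_lit 78) (nat_lit 0) (nat_lit 0) (XT.lf (nat_lit 0) (nat_lit 58555982238) (nat_lit 760) (nat_lit 77995352514) (nat_lit 836) (nat_lit 10398857322) (nat_lit 110) (nat_lit 5) (nat_lit 120) (nat_lit 5) (nat_lit 121) (nat_lit 5) (nat_lit 349) (nat_lit 344) (nat_lit 207)) (XT.lf (nat_lit 76) (nat_lit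 41181263387) (nat_lit 0) (nat_lit 35217231338) (nat_lit 836) (nat_lit 76794137890) (nat_lit 111) (nat_lit 5) (nat_lit 110) (nat_lit 5) (nat_lit 121) (nat_lit 5) (nat_lit 350) (nat_lit 344) (nat_lit 206)))) (XT.nd (nat_lit 78) (nat_lit 380) (nat_lit 0) (XT.lf (nat_lit 0) (nat_lit 12013628752) (nat_lit 760) (nat_lit 86381602748) (nat_lit 836) (nat_lit 61402896143) (nat_lit 101) (nat_lit 5) (nat_lit 111) (nat_lit 5) (nat_lit 112) (nat_lit 5) (nat_lit 351) (nat_lit 344) (nat_lit 205)) (XT.nd (nat_lit 78) (nat_lit 380) (nat_lit 0) (XT.lf (nat_lit 0) (nat_lit 125071679751) (nat_lit 836) (nat_lit 17843683983) (nat_lit 76) (nat_lit 23870700286) (nat_lit 101) (nat_lit 5) (nat_lit 112) (nat_lit 5) (nat_lit 102) (nat_lit 5) (nat_lit 352) (nat_lit 344) (nat_lit 204)) (XT.lf (nat_lit 0) (nat_lit 125037418344) (nat_lit 380) (nat_lit 32253142288) (nat_lit 456) (nat_lit 16872059188) (nat_lit 96) (nat_lit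 5) (nat_lit 101) (nat_lit 5) (nat_lit 102) (nat_lit 5) (nat_lit 353) (nat_lit 344) (nat_lit 203))))) (XT.nd (nat_lit 234) (nat_lit 608) (nat_lit 0) (XT.nd (nat_lit 78) (nat_lit 684) (nat_lit 0) (XT.lf (nat_lit 0) (nat_lit 12926425170) (nat_lit 380) (nat_lit 82480658071) (nat_lit 76) (nat_lit 86550069789) (nat_lit 91) (nat_lit 5) (nat_lit 96) (nat_lit 5) (nat_lit 92) (nat_lit 5) (nat_lit 354) (nat_lit 344) (nat_lit 202)) (XT.nd (nat_lit 78) (nat_lit 304) (nat_lit 0) (XT.lf (nat_lit 0) (nat_lit 47479461147) (nat_lit 456) (nat_lit 117758415431) (nat_lit 76) (nat_lit 24975453667) (nat_lit 86) (nat_lit 5) (nat_lit 92) (nat_lit 5) (nat_lit 87) (nat_lit 5) (nat_lit 355) (nat_lit 344) (nat_lit 201)) (XT.lf (nat_lit 0) (nat_lit 43429861026) (nat_lit 304) (nat_lit 45113635841) (nat_lit 380) (nat_lit 110399167188) (nat_lit 82) (nat_lit 5) (nat_lit 86) (nat_lit 5) (nat_lit 87) (nat_lit 5) (nat_lit 356)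 (nat_lit 344) (nat_lit 200)))) (XT.nd (nat_lit 78) (nat_lit 304) (nat_lit 0) (XT.lf (nat_lit 0) (nat_lit 12495268173) (nat_lit 304) (nat_lit 123998203988) (nat_lit 380) (nat_lit 71696831818) (nat_lit 78) (nat_lit 5) (nat_lit 82) (nat_lit 5) (nat_lit 83) (nat_lit 5) (nat_lit 357) (nat_lit 344) (nat_lit 199)) (XT.nd (nat_lit 78) (nat_lit 304) (nat_lit 0) (XT.lf (nat_lit 0) (nat_lit 191845382350) (nat_lit 380) (nat_lit 19402732615) (nat_lit 76) (nat_lit 6751343513) (nat_lit 78) (nat_lit 5) (nat_lit 83) (nat_lit 5) (nat_lit 79) (nat_lit 5) (nat_lit 358) (nat_lit 344) (nat_lit 198)) (XT.lf (nat_lit 0) (nat_lit 27188622421) (nat_lit 304) (nat_lit 54304729418) (nat_lit 76) (nat_lit 146837329245) (nat_lit 74) (nat_lit 5) (nat_lit 78) (nat_lit 5) (nat_lit 75) (nat_lit 5) (nat_lit 359) (nat_lit 344) (nat_lit 197)))))) (XT.nd (nat_lit 468) (nat_lit 1216) (nat_lit 0) (XT.nd (nat_lit 234) (nat_lit 532)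 (nat_lit 0) (XT.nd (nat_lit 78) (nat_lit 456) (nat_lit 0) (XT.lf (nat_lit 0) (nat_lit 87522131879) (nat_lit 380) (nat_lit 91844851082) (nat_lit 76) (nat_lit 59917995631) (nat_lit 70) (nat_lit 5) (nat_lit 75) (nat_lit 5) (nat_lit 71) (nat_lit 5) (nat_lit 360) (nat_lit 344) (nat_lit 196)) (XT.nd (nat_lit 78) (nat_lit 228) (nat_lit 0) (XT.lf (nat_lit 0) (nat_lit 118601448806) (nat_lit 228) (nat_lit 38267892869) (nat_lit 304) (nat_lit 94036927417) (nat_lit 67) (nat_lit 5) (nat_lit 70) (nat_lit 5) (nat_lit 71) (nat_lit 5) (nat_lit 361) (nat_lit 344) (nat_lit 195)) (XT.lf (nat_lit 0) (nat_lit 86754311627) (nat_lit 228) (nat_lit 149772063668) (nat_lit 304) (nat_lit 26692785344) (nat_lit 64) (nat_lit 5) (nat_lit 67) (nat_lit 5) (nat_lit 68) (nat_lit 5) (nat_lit 362) (nat_lit 344) (nat_lit 194)))) (XT.nd (nat_lit 78) (nat_lit 228) (nat_lit 0) (XT.lf (nat_lit 0) (nat_lit 48418981728) (nat_lit 304)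 (nat_lit 224426300731) (nat_lit 76) (nat_lit 3443180107) (nat_lit 60) (nat_lit 5) (nat_lit 64) (nat_lit 5) (nat_lit 61) (nat_lit 5) (nat_lit 363) (nat_lit 344) (nat_lit 193)) (XT.nd (nat_lit 78) (nat_lit 0) (nat_lit 0) (XT.lf (nat_lit 0) (nat_lit 11860581018) (nat_lit 228) (nat_lit 122591094852) (nat_lit 304) (nat_lit 155637395031) (nat_lit 57) (nat_lit 5) (nat_lit 60) (nat_lit 5) (nat_lit 61) (nat_lit 5) (nat_lit 364) (nat_lit 344) (nat_lit 192)) (XT.lf (nat_lit 0) (nat_lit 231959780166) (nat_lit 304) (nat_lit 30417650830) (nat_lit 76) (nat_lit 42386657295) (nat_lit 57) (nat_lit 5) (nat_lit 61) (nat_lit 5) (nat_lit 58) (nat_lit 5) (nat_lit 365) (nat_lit 344) (nat_lit 191))))) (XT.nd (nat_lit 234) (nat_lit 608) (nat_lit 0) (XT.nd (nat_lit 78) (nat_lit 380) (nat_lit 0) (XT.lf (nat_lit 0) (nat_lit 22078062279) (nat_lit 228) (nat_lit 77750447480) (nat_lit 76) (nat_lit 220473809815) (nat_lit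 54) (nat_lit 5) (nat_lit 57) (nat_lit 5) (nat_lit 55) (nat_lit 5) (nat_lit 366) (nat_lit 344) (nat_lit 190)) (XT.nd (nat_lit 78) (nat_lit 152) (nat_lit 0) (XT.lf (nat_lit 0) (nat_lit 127065148012) (nat_lit 304) (nat_lit 131328692327) (nat_lit 76) (nat_lit 78376851756) (nat_lit 51) (nat_lit 5) (nat_lit 55) (nat_lit 5) (nat_lit 52) (nat_lit 5) (nat_lit 367) (nat_lit 344) (nat_lit 189)) (XT.lf (nat_lit 0) (nat_lit 163091626277) (nat_lit 152) (nat_lit 82965556491) (nat_lit 228) (nat_lit 108219052631) (nat_lit 49) (nat_lit 5) (nat_lit 51) (nat_lit 5) (nat_lit 52) (nat_lit 5) (nat_lit 368) (nat_lit 344) (nat_lit 188)))) (XT.nd (nat_lit 156) (nat_lit 228) (nat_lit 0) (XT.nd (nat_lit 78) (nat_lit 152) (nat_lit 0) (XT.lf (nat_lit 0) (nat_lit 7214512497) (nat_lit 228) (nat_lit 258353043640) (nat_lit 76) (nat_lit 107319957540) (nat_lit 46) (nat_lit 5) (nat_lit 49) (nat_lit 5) (nat_lit 47) (nat_lit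 5) (nat_lit 369) (nat_lit 344) (nat_lit 187)) (XT.lf (nat_lit 0) (nat_lit 57271477491) (nat_lit 152) (nat_lit 76548354701) (nat_lit 228) (nat_lit 258792731068) (nat_lit 44) (nat_lit 5) (nat_lit 46) (nat_lit 5) (nat_lit 47) (nat_lit 5) (nat_lit 370) (nat_lit 344) (nat_lit 186))) (XT.nd (nat_lit 78) (nat_lit 228) (nat_lit 0) (XT.lf (nat_lit 0) (nat_lit 277119601535) (nat_lit 228) (nat_lit 8385068652) (nat_lit 76) (nat_lit 128082645486) (nat_lit 44) (nat_lit 5) (nat_lit 47) (nat_lit 5) (nat_lit 45) (nat_lit 5) (nat_lit 371) (nat_lit 344) (nat_lit 185)) (XT.lf (nat_lit 0) (nat_lit 2724595659) (nat_lit 228) (nat_lit 81150516756) (nat_lit 76) (nat_lit 352021244434) (nat_lit 41) (nat_lit 5) (nat_lit 44) (nat_lit 5) (nat_lit 42) (nat_lit 5) (nat_lit 372) (nat_lit 344) (nat_lit 184))))))))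
noncomputable def xc111 : XT := (XT.nd (nat_lit 45318) (nat_lit 0) (nat_lit 1140) (XT.nd (nat_lit 936) (nat_lit 456) (nat_lit 0) (XT.nd (nat_lit 468) (nat_lit 532) (nat_lit 0) (XT.nd (nat_lit 234) (nat_lit 304) (nat_lit 0) (XT.nd (nat_lit 78) (nat_lit 304) (nat_lit 0) (XT.lf (nat_lit 0) (nat_lit 155284971380) (nat_lit 228) (nat_lit 167482181250) (nat_lit 76) (nat_lit 136760417709) (nat_lit 39) (nat_lit 5) (nat_lit 42) (nat_lit 5) (nat_lit 40) (nat_lit 5) (nat_lit 373) (nat_lit 344) (nat_lit 183)) (XT.nd (nat_lit 78) (nat_lit 152) (nat_lit 0) (XT.lf (nat_lit 0) (nat_lit 218574254885) (nat_lit 152) (nat_lit 107739383499) (nat_lit 228) (nat_lit 158422469514) (nat_lit 37) (nat_lit 5) (nat_lit 39) (nat_lit 5) (nat_lit 40) (nat_lit 5) (nat_lit 374) (nat_lit 344) (nat_lit 182)) (XT.lf (nat_lit 0) (nat_lit 6175746240) (nat_lit 152) (nat_lit 379801791777) (nat_lit 76) (nat_lit 125630397002) (nat_lit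 35) (nat_lit 5) (nat_lit 37) (nat_lit 5) (nat_lit 36) (nat_lit 5) (nat_lit 375) (nat_lit 344) (nat_lit 181)))) (XT.nd (nat_lit 78) (nat_lit 152) (nat_lit 0) (XT.lf (nat_lit 0) (nat_lit 27019000525) (nat_lit 152) (nat_lit 158397432372) (nat_lit 228) (nat_lit 354731972709) (nat_lit 33) (nat_lit 5) (nat_lit 35) (nat_lit 5) (nat_lit 36) (nat_lit 5) (nat_lit 376) (nat_lit 344) (nat_lit 180)) (XT.nd (nat_lit 78) (nat_lit 152) (nat_lit 0) (XT.lf (nat_lit 0) (nat_lit 387084991329) (nat_lit 228) (nat_lit 92166341918) (nat_lit 76) (nat_lit 91316349788) (nat_lit 33) (nat_lit 5) (nat_lit 36) (nat_lit 5) (nat_lit 34) (nat_lit 4) (nat_lit 377) (nat_lit 344) (nat_lit 179)) (XT.lf (nat_lit 0) (nat_lit 10032529478) (nat_lit 152) (nat_lit 231459234754) (nat_lit 76) (nat_lit 361496946834) (nat_lit 31) (nat_lit 5) (nat_lit 33) (nat_lit 5) (nat_lit 32) (nat_lit 5) (nat_lit 378) (nat_lit 344) (nat_lit 178)))))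 (XT.nd (nat_lit 234) (nat_lit 304) (nat_lit 0) (XT.nd (nat_lit 78) (nat_lit 76) (nat_lit 0) (XT.lf (nat_lit 0) (nat_lit 218479802405) (nat_lit 228) (nat_lit 395631605275) (nat_lit 76) (nat_lit 23447659354) (nat_lit 29) (nat_lit 5) (nat_lit 32) (nat_lit 5) (nat_lit 30) (nat_lit 4) (nat_lit 379) (nat_lit 344) (nat_lit 177)) (XT.nd (nat_lit 78) (nat_lit 0) (nat_lit 0) (XT.lf (nat_lit 0) (nat_lit 85350423332) (nat_lit 76) (nat_lit 367754838725) (nat_lit 152) (nat_lit 221314669208) (nat_lit 28) (nat_lit 5) (nat_lit 29) (nat_lit 5) (nat_lit 30) (nat_lit 4) (nat_lit 380) (nat_lit 344) (nat_lit 176)) (XT.lf (nat_lit 0) (nat_lit 618938694779) (nat_lit 76) (nat_lit 94453602888) (nat_lit 152) (nat_lit 492790033) (nat_lit 28) (nat_lit 5) (nat_lit 29) (nat_lit 5) (nat_lit 30) (nat_lit 4) (nat_lit 381) (nat_lit 344) (nat_lit 175)))) (XT.nd (nat_lit 78) (nat_lit 76) (nat_lit 0) (XT.lf (nat_lit 0) (nat_lit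 240702995809) (nat_lit 228) (nat_lit 309907102180) (nat_lit 76) (nat_lit 205195296491) (nat_lit 25) (nat_lit 5) (nat_lit 28) (nat_lit 5) (nat_lit 26) (nat_lit 4) (nat_lit 382) (nat_lit 344) (nat_lit 174)) (XT.nd (nat_lit 78) (nat_lit 0) (nat_lit 0) (XT.lf (nat_lit 0) (nat_lit 238406665344) (nat_lit 76) (nat_lit 269766521329) (nat_lit 152) (nat_lit 292555934869) (nat_lit 24) (nat_lit 5) (nat_lit 25) (nat_lit 5) (nat_lit 26) (nat_lit 4) (nat_lit 383) (nat_lit 344) (nat_lit 173)) (XT.lf (nat_lit 0) (nat_lit 803051502021) (nat_lit 152) (nat_lit 7937009586) (nat_lit 0) (nat_lit 37957709720) (nat_lit 24) (nat_lit 5) (nat_lit 26) (nat_lit 4) (nat_lit 24) (nat_lit 4) (nat_lit 384) (nat_lit 344) (nat_lit 172)))))) (XT.nd (nat_lit 43836) (nat_lit 0) (nat_lit 6308) (XT.nd (nat_lit 234) (nat_lit 228) (nat_lit 0) (XT.nd (nat_lit 78) (nat_lit 76) (nat_lit 0) (XT.lf (nat_lit 0) (nat_lit 227675934140) (nat_lit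 152) (nat_lit 298358228352) (nat_lit 76) (nat_lit 374102701034) (nat_lit 22) (nat_lit 5) (nat_lit 24) (nat_lit 5) (nat_lit 23) (nat_lit 4) (nat_lit 385) (nat_lit 344) (nat_lit 171)) (XT.nd (nat_lit 78) (nat_lit 0) (nat_lit 0) (XT.lf (nat_lit 0) (nat_lit 314426430299) (nat_lit 76) (nat_lit 212168895162) (nat_lit 152) (nat_lit 428536262385) (nat_lit 21) (nat_lit 5) (nat_lit 22) (nat_lit 5) (nat_lit 23) (nat_lit 4) (nat_lit 386) (nat_lit 344) (nat_lit 170)) (XT.lf (nat_lit 0) (nat_lit 856690384366) (nat_lit 152) (nat_lit 29443037985) (nat_lit 0) (nat_lit 128029361963) (nat_lit 21) (nat_lit 5) (nat_lit 23) (nat_lit 4) (nat_lit 21) (nat_lit 4) (nat_lit 387) (nat_lit 344) (nat_lit 169)))) (XT.nd (nat_lit 78) (nat_lit 76) (nat_lit 0) (XT.lf (nat_lit 0) (nat_lit 144864024583) (nat_lit 152) (nat_lit 431689848396) (nat_lit 76) (nat_lit 500561143802) (nat_lit 19) (nat_lit 5) (nat_lit 21) (nat_lit 5)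 (nat_lit 20) (nat_lit 4) (nat_lit 388) (nat_lit 344) (nat_lit 168)) (XT.nd (nat_lit 43446) (nat_lit 0) (nat_lit 6688) (XT.lf (nat_lit 0) (nat_lit 235117868818) (nat_lit 76) (nat_lit 235018247446) (nat_lit 152) (nat_lit 674624944908) (nat_lit 18) (nat_lit 5) (nat_lit 19) (nat_lit 5) (nat_lit 20) (nat_lit 4) (nat_lit 389) (nat_lit 344) (nat_lit 167)) (XT.lf (nat_lit 0) (nat_lit 11161062060) (nat_lit 836) (nat_lit 26916210230) (nat_lit 836) (nat_lit 26916210230) (nat_lit 106) (nat_lit 3) (nat_lit 117) (nat_lit 3) (nat_lit 117) (nat_lit 5) (nat_lit 345) (nat_lit 345) (nat_lit 210))))) (XT.nd (nat_lit 234) (nat_lit 456) (nat_lit 0) (XT.nd (nat_lit 78) (nat_lit 0) (nat_lit 0) (XT.lf (nat_lit 0) (nat_lit 24315858477) (nat_lit 760) (nat_lit 88466478502) (nat_lit 836) (nat_lit 22349059082) (nat_lit 107) (nat_lit 5) (nat_lit 117) (nat_lit 5) (nat_lit 118) (nat_lit 5) (nat_lit 346) (nat_lit 345) (nat_lit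 209)) (XT.nd (nat_lit 78) (nat_lit 0) (nat_lit 76) (XT.lf (nat_lit 76) (nat_lit 15686106769) (nat_lit 0) (nat_lit 13264501106) (nat_lit 836) (nat_lit 111612698384) (nat_lit 108) (nat_lit 5) (nat_lit 107) (nat_lit 5) (nat_lit 118) (nat_lit 5) (nat_lit 347) (nat_lit 345) (nat_lit 208)) (XT.lf (nat_lit 0) (nat_lit 36992836134) (nat_lit 760) (nat_lit 16519299839) (nat_lit 836) (nat_lit 92765798827) (nat_lit 108) (nat_lit 5) (nat_lit 118) (nat_lit 5) (nat_lit 119) (nat_lit 5) (nat_lit 348) (nat_lit 345) (nat_lit 207)))) (XT.nd (nat_lit 156) (nat_lit 608) (nat_lit 0) (XT.nd (nat_lit 78) (nat_lit 0) (nat_lit 76) (XT.lf (nat_lit 0) (nat_lit 48394634637) (nat_lit 760) (nat_lit 49634227468) (nat_lit 836) (nat_lit 54285062356) (nat_lit 109) (nat_lit 5) (nat_lit 119) (nat_lit 5) (nat_lit 120) (nat_lit 5) (nat_lit 349) (nat_lit 345) (nat_lit 206)) (XT.lf (nat_lit 0) (nat_lit 63249781387) (nat_lit 760)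 (nat_lit 84227312847) (nat_lit 836) (nat_lit 11228639252) (nat_lit 110) (nat_lit 5) (nat_lit 120) (nat_lit 5) (nat_lit 121) (nat_lit 5) (nat_lit 350) (nat_lit 345) (nat_lit 205))) (XT.nd (nat_lit 78) (nat_lit 684) (nat_lit 0) (XT.lf (nat_lit 76) (nat_lit 44483099090) (nat_lit 0) (nat_lit 38036019885) (nat_lit 836) (nat_lit 82928479678) (nat_lit 111) (nat_lit 5) (nat_lit 110) (nat_lit 5) (nat_lit 121) (nat_lit 5) (nat_lit 351) (nat_lit 345) (nat_lit 204)) (XT.lf (nat_lit 0) (nat_lit 12982181238) (nat_lit 760) (nat_lit 93292861821) (nat_lit 836) (nat_lit 66306518349) (nat_lit 101) (nat_lit 5) (nat_lit 111) (nat_lit 5) (nat_lit 112) (nat_lit 5) (nat_lit 352) (nat_lit 345) (nat_lit 203))))))) (XT.nd (nat_lit 936) (nat_lit 2052) (nat_lit 0) (XT.nd (nat_lit 468) (nat_lit 1368) (nat_lit 0) (XT.nd (nat_lit 234) (nat_lit 988) (nat_lit 0) (XT.nd (nat_lit 78) (nat_lit 760) (nat_lit 0) (XT.lf (nat_lit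 0) (nat_lit 135084989714) (nat_lit 836) (nat_lit 19263873107) (nat_lit 76) (nat_lit 25779701252) (nat_lit 101) (nat_lit 5) (nat_lit 112) (nat_lit 5) (nat_lit 102) (nat_lit 5) (nat_lit 353) (nat_lit 345) (nat_lit 202)) (XT.nd (nat_lit 78) (nat_lit 380) (nat_lit 0) (XT.lf (nat_lit 0) (nat_lit 135047399914) (nat_lit 380) (nat_lit 34833529100) (nat_lit 456) (nat_lit 18214338389) (nat_lit 96) (nat_lit 5) (nat_lit 101) (nat_lit 5) (nat_lit 102) (nat_lit 5) (nat_lit 354) (nat_lit 345) (nat_lit 201)) (XT.lf (nat_lit 0) (nat_lit 13967358007) (nat_lit 380) (nat_lit 89071847418) (nat_lit 76) (nat_lit 93474173770) (nat_lit 91) (nat_lit 5) (nat_lit 96) (nat_lit 5) (nat_lit 92) (nat_lit 5) (nat_lit 355) (nat_lit 345) (nat_lit 200)))) (XT.nd (nat_lit 78) (nat_lit 608) (nat_lit 0) (XT.lf (nat_lit 0) (nat_lit 51284248439) (nat_lit 456) (nat_lit 127171823359) (nat_lit 76) (nat_lit 26973998590) (nat_lit 86)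 (nat_lit 5) (nat_lit 92) (nat_lit 5) (nat_lit 87) (nat_lit 5) (nat_lit 356) (nat_lit 345) (nat_lit 199)) (XT.nd (nat_lit 78) (nat_lit 304) (nat_lit 0) (XT.lf (nat_lit 0) (nat_lit 46911199472) (nat_lit 304) (nat_lit 48721839721) (nat_lit 380) (nat_lit 119224730454) (nat_lit 82) (nat_lit 5) (nat_lit 86) (nat_lit 5) (nat_lit 87) (nat_lit 5) (nat_lit 357) (nat_lit 345) (nat_lit 198)) (XT.lf (nat_lit 0) (nat_lit 13501818093) (nat_lit 304) (nat_lit 133916866333) (nat_lit 380) (nat_lit 77426553069) (nat_lit 78) (nat_lit 5) (nat_lit 82) (nat_lit 5) (nat_lit 83) (nat_lit 5) (nat_lit 358) (nat_lit 345) (nat_lit 197))))) (XT.nd (nat_lit 234) (nat_lit 760) (nat_lit 0) (XT.nd (nat_lit 78) (nat_lit 608) (nat_lit 0) (XT.lf (nat_lit 0) (nat_lit 207198339914) (nat_lit 380) (nat_lit 20948283978) (nat_lit 76) (nat_lit 7292521141) (nat_lit 78) (nat_lit 5) (nat_lit 83) (nat_lit 5) (nat_lit 79) (nat_lit 5) (nat_lit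 359) (nat_lit 345) (nat_lit 196)) (XT.nd (nat_lit 78) (nat_lit 304) (nat_lit 0) (XT.lf (nat_lit 0) (nat_lit 29368830046) (nat_lit 304) (nat_lit 58642557726) (nat_lit 76) (nat_lit 158585488578) (nat_lit 74) (nat_lit 5) (nat_lit 78) (nat_lit 5) (nat_lit 75) (nat_lit 5) (nat_lit 360) (nat_lit 345) (nat_lit 195)) (XT.lf (nat_lit 0) (nat_lit 94528761290) (nat_lit 380) (nat_lit 99185951178) (nat_lit 76) (nat_lit 64712818385) (nat_lit 70) (nat_lit 5) (nat_lit 75) (nat_lit 5) (nat_lit 71) (nat_lit 5) (nat_lit 361) (nat_lit 345) (nat_lit 194)))) (XT.nd (nat_lit 78) (nat_lit 532) (nat_lit 0) (XT.lf (nat_lit 0) (nat_lit 128095770741) (nat_lit 228) (nat_lit 41327714107) (nat_lit 304) (nat_lit 101555053126) (nat_lit 67) (nat_lit 5) (nat_lit 70) (nat_lit 5) (nat_lit 71) (nat_lit 5) (nat_lit 362) (nat_lit 345) (nat_lit 193)) (XT.nd (nat_lit 78) (nat_lit 304) (nat_lit 0) (XT.lf (nat_lit 0) (nat_lit 93700791369)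 (nat_lit 228) (nat_lit 161752068414) (nat_lit 304) (nat_lit 28823612340) (nat_lit 64) (nat_lit 5) (nat_lit 67) (nat_lit 5) (nat_lit 68) (nat_lit 5) (nat_lit 363) (nat_lit 345) (nat_lit 192)) (XT.lf (nat_lit 0) (nat_lit 52296741395) (nat_lit 304) (nat_lit 242374208571) (nat_lit 76) (nat_lit 3720375218) (nat_lit 60) (nat_lit 5) (nat_lit 64) (nat_lit 5) (nat_lit 61) (nat_lit 5) (nat_lit 364) (nat_lit 345) (nat_lit 191)))))) (XT.nd (nat_lit 468) (nat_lit 988) (nat_lit 0) (XT.nd (nat_lit 234) (nat_lit 608) (nat_lit 0) (XT.nd (nat_lit 78) (nat_lit 228) (nat_lit 0) (XT.lf (nat_lit 0) (nat_lit 12815354438) (nat_lit 228) (nat_lit 132396475009) (nat_lit 304) (nat_lit 168084163992) (nat_lit 57) (nat_lit 5) (nat_lit 60) (nat_lit 5) (nat_lit 61) (nat_lit 5) (nat_lit 365) (nat_lit 345) (nat_lit 190)) (XT.nd (nat_lit 78) (nat_lit 228) (nat_lit 0) (XT.lf (nat_lit 0) (nat_lit 250520311919) (nat_lit 304)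 (nat_lit 32845414478) (nat_lit 76) (nat_lit 45779299491) (nat_lit 57) (nat_lit 5) (nat_lit 61) (nat_lit 5) (nat_lit 58) (nat_lit 5) (nat_lit 366) (nat_lit 345) (nat_lit 189)) (XT.lf (nat_lit 0) (nat_lit 23847923314) (nat_lit 228) (nat_lit 83964959009) (nat_lit 76) (nat_lit 238113440253) (nat_lit 54) (nat_lit 5) (nat_lit 57) (nat_lit 5) (nat_lit 55) (nat_lit 5) (nat_lit 367) (nat_lit 345) (nat_lit 188)))) (XT.nd (nat_lit 78) (nat_lit 380) (nat_lit 0) (XT.lf (nat_lit 0) (nat_lit 137233819489) (nat_lit 304) (nat_lit 141829559293) (nat_lit 76) (nat_lit 84648794067) (nat_lit 51) (nat_lit 5) (nat_lit 55) (nat_lit 5) (nat_lit 52) (nat_lit 5) (nat_lit 368) (nat_lit 345) (nat_lit 187)) (XT.nd (nat_lit 78) (nat_lit 228) (nat_lit 0) (XT.lf (nat_lit 0) (nat_lit 176144148886) (nat_lit 152) (nat_lit 89600892939) (nat_lit 228) (nat_lit 116873126674) (nat_lit 49) (nat_lit 5) (nat_lit 51) (nat_lit 5) (nat_lit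 52) (nat_lit 5) (nat_lit 369) (nat_lit 345) (nat_lit 186)) (XT.lf (nat_lit 0) (nat_lit 7794874767) (nat_lit 228) (nat_lit 279016083069) (nat_lit 76) (nat_lit 115907395540) (nat_lit 46) (nat_lit 5) (nat_lit 49) (nat_lit 5) (nat_lit 47) (nat_lit 5) (nat_lit 370) (nat_lit 345) (nat_lit 185))))) (XT.nd (nat_lit 234) (nat_lit 608) (nat_lit 0) (XT.nd (nat_lit 78) (nat_lit 228) (nat_lit 0) (XT.lf (nat_lit 0) (nat_lit 61858173590) (nat_lit 152) (nat_lit 82670287035) (nat_lit 228) (nat_lit 279492954369) (nat_lit 44) (nat_lit 5) (nat_lit 46) (nat_lit 5) (nat_lit 47) (nat_lit 5) (nat_lit 371) (nat_lit 345) (nat_lit 184)) (XT.nd (nat_lit 78) (nat_lit 228) (nat_lit 0) (XT.lf (nat_lit 0) (nat_lit 299292014181) (nat_lit 228) (nat_lit 9051150996) (nat_lit 76) (nat_lit 138330992381) (nat_lit 44) (nat_lit 5) (nat_lit 47) (nat_lit 5) (nat_lit 45) (nat_lit 5) (nat_lit 372) (nat_lit 345) (nat_lit 183)) (XT.lf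 (nat_lit 0) (nat_lit 2945313024) (nat_lit 228) (nat_lit 87637948286) (nat_lit 76) (nat_lit 380184665595) (nat_lit 41) (nat_lit 5) (nat_lit 44) (nat_lit 5) (nat_lit 42) (nat_lit 5) (nat_lit 373) (nat_lit 345) (nat_lit 182)))) (XT.nd (nat_lit 156) (nat_lit 304) (nat_lit 0) (XT.nd (nat_lit 78) (nat_lit 152) (nat_lit 0) (XT.lf (nat_lit 0) (nat_lit 167710411983) (nat_lit 228) (nat_lit 180876242619) (nat_lit 76) (nat_lit 147702988287) (nat_lit 39) (nat_lit 5) (nat_lit 42) (nat_lit 5) (nat_lit 40) (nat_lit 5) (nat_lit 374) (nat_lit 345) (nat_lit 181)) (XT.lf (nat_lit 0) (nat_lit 236064512272) (nat_lit 152) (nat_lit 116356731707) (nat_lit 228) (nat_lit 171093625962) (nat_lit 37) (nat_lit 5) (nat_lit 39) (nat_lit 5) (nat_lit 40) (nat_lit 5) (nat_lit 375) (nat_lit 345) (nat_lit 180))) (XT.nd (nat_lit 78) (nat_lit 152) (nat_lit 0) (XT.lf (nat_lit 0) (nat_lit 6672266650) (nat_lit 152) (nat_lit 410181629442)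 (nat_lit 76) (nat_lit 135682549932) (nat_lit 35) (nat_lit 5) (nat_lit 37) (nat_lit 5) (nat_lit 36) (nat_lit 5) (nat_lit 376) (nat_lit 345) (nat_lit 179)) (XT.lf (nat_lit 0) (nat_lit 29184639125) (nat_lit 152) (nat_lit 171067451142) (nat_lit 228) (nat_lit 383108069946) (nat_lit 33) (nat_lit 5) (nat_lit 35) (nat_lit 5) (nat_lit 36) (nat_lit 5) (nat_lit 377) (nat_lit 345) (nat_lit 178))))))))
noncomputable def xc112 : XT := (XT.nd (nat_lit 45318) (nat_lit 0) (nat_lit 684) (XT.nd (nat_lit 44382) (nat_lit 0) (nat_lit 5092) (XT.nd (nat_lit 468) (nat_lit 456) (nat_lit 0) (XT.nd (nat_lit 234) (nat_lit 304) (nat_lit 0) (XT.nd (nat_lit 78) (nat_lit 304) (nat_lit 0) (XT.lf (nat_lit 0) (nat_lit 418053985510) (nat_lit 228) (nat_lit 99535752350) (nat_lit 76) (nat_lit 98623249422) (nat_lit 33) (nat_lit 5) (nat_lit 36) (nat_lit 5) (nat_lit 34) (nat_lit 4) (nat_lit 378) (nat_lit 345) (nat_lit 177)) (XT.nd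 (nat_lit 78) (nat_lit 152) (nat_lit 0) (XT.lf (nat_lit 0) (nat_lit 10837257180) (nat_lit 152) (nat_lit 249972175120) (nat_lit 76) (nat_lit 390418268809) (nat_lit 31) (nat_lit 5) (nat_lit 33) (nat_lit 5) (nat_lit 32) (nat_lit 5) (nat_lit 379) (nat_lit 345) (nat_lit 176)) (XT.lf (nat_lit 0) (nat_lit 235960236352) (nat_lit 228) (nat_lit 427278423708) (nat_lit 76) (nat_lit 25325029317) (nat_lit 29) (nat_lit 5) (nat_lit 32) (nat_lit 5) (nat_lit 30) (nat_lit 4) (nat_lit 380) (nat_lit 345) (nat_lit 175)))) (XT.nd (nat_lit 78) (nat_lit 228) (nat_lit 0) (XT.lf (nat_lit 0) (nat_lit 92182005955) (nat_lit 76) (nat_lit 397173630393) (nat_lit 152) (nat_lit 239017791258) (nat_lit 28) (nat_lit 5) (nat_lit 29) (nat_lit 5) (nat_lit 30) (nat_lit 4) (nat_lit 381) (nat_lit 345) (nat_lit 174)) (XT.nd (nat_lit 78) (nat_lit 228) (nat_lit 0) (XT.lf (nat_lit 0) (nat_lit 668457076248) (nat_lit 76) (nat_lit 102008413869)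 (nat_lit 152) (nat_lit 530313711) (nat_lit 28) (nat_lit 5) (nat_lit 29) (nat_lit 5) (nat_lit 30) (nat_lit 4) (nat_lit 382) (nat_lit 345) (nat_lit 173)) (XT.lf (nat_lit 0) (nat_lit 259961010612) (nat_lit 228) (nat_lit 334696403294) (nat_lit 76) (nat_lit 221612322972) (nat_lit 25) (nat_lit 5) (nat_lit 28) (nat_lit 5) (nat_lit 26) (nat_lit 4) (nat_lit 383) (nat_lit 345) (nat_lit 172))))) (XT.nd (nat_lit 234) (nat_lit 228) (nat_lit 0) (XT.nd (nat_lit 78) (nat_lit 152) (nat_lit 0) (XT.lf (nat_lit 0) (nat_lit 257482323648) (nat_lit 76) (nat_lit 291346410395) (nat_lit 152) (nat_lit 315958632226) (nat_lit 24) (nat_lit 5) (nat_lit 25) (nat_lit 5) (nat_lit 26) (nat_lit 4) (nat_lit 384) (nat_lit 345) (nat_lit 171)) (XT.nd (nat_lit 78) (nat_lit 152) (nat_lit 0) (XT.lf (nat_lit 0) (nat_lit 867297209965) (nat_lit 152) (nat_lit 8569018774) (nat_lit 0) (nat_lit 40995610560) (nat_lit 24) (nat_lit 5) (nat_lit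 26) (nat_lit 4) (nat_lit 24) (nat_lit 4) (nat_lit 385) (nat_lit 345) (nat_lit 170)) (XT.lf (nat_lit 0) (nat_lit 245891548253) (nat_lit 152) (nat_lit 322224012111) (nat_lit 76) (nat_lit 404032174971) (nat_lit 22) (nat_lit 5) (nat_lit 24) (nat_lit 5) (nat_lit 23) (nat_lit 4) (nat_lit 386) (nat_lit 345) (nat_lit 169)))) (XT.nd (nat_lit 78) (nat_lit 152) (nat_lit 0) (XT.lf (nat_lit 0) (nat_lit 339583294310) (nat_lit 76) (nat_lit 229141125470) (nat_lit 152) (nat_lit 462817621397) (nat_lit 21) (nat_lit 5) (nat_lit 22) (nat_lit 5) (nat_lit 23) (nat_lit 4) (nat_lit 387) (nat_lit 345) (nat_lit 168)) (XT.nd (nat_lit 78) (nat_lit 152) (nat_lit 0) (XT.lf (nat_lit 0) (nat_lit 925226993159) (nat_lit 152) (nat_lit 31795885395) (nat_lit 0) (nat_lit 138272859341) (nat_lit 21) (nat_lit 5) (nat_lit 23) (nat_lit 4) (nat_lit 21) (nat_lit 4) (nat_lit 388) (nat_lit 345) (nat_lit 167)) (XT.lf (nat_lit 0) (nat_lit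 156454483067) (nat_lit 152) (nat_lit 466222509020) (nat_lit 76) (nat_lit 540607158980) (nat_lit 19) (nat_lit 5) (nat_lit 21) (nat_lit 5) (nat_lit 20) (nat_lit 4) (nat_lit 389) (nat_lit 345) (nat_lit 166)))))) (XT.nd (nat_lit 468) (nat_lit 1520) (nat_lit 0) (XT.nd (nat_lit 234) (nat_lit 0) (nat_lit 152) (XT.nd (nat_lit 78) (nat_lit 0) (nat_lit 76) (XT.lf (nat_lit 0) (nat_lit 12059706332) (nat_lit 836) (nat_lit 29066480917) (nat_lit 836) (nat_lit 29066480917) (nat_lit 106) (nat_lit 3) (nat_lit 117) (nat_lit 3) (nat_lit 117) (nat_lit 5) (nat_lit 346) (nat_lit 346) (nat_lit 208)) (XT.nd (nat_lit 78) (nat_lit 0) (nat_lit 0) (XT.lf (nat_lit 0) (nat_lit 26271805384) (nat_lit 760) (nat_lit 95537382970) (nat_lit 836) (nat_lit 24132176239) (nat_lit 107) (nat_lit 5) (nat_lit 117) (nat_lit 5) (nat_lit 118) (nat_lit 5) (nat_lit 347) (nat_lit 346) (nat_lit 207)) (XT.lf (nat_lit 76) (nat_lit 16947130387)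 (nat_lit 0) (nat_lit 14329509153) (nat_lit 836) (nat_lit 120531223510) (nat_lit 108) (nat_lit 5) (nat_lit 107) (nat_lit 5) (nat_lit 118) (nat_lit 5) (nat_lit 348) (nat_lit 346) (nat_lit 206)))) (XT.nd (nat_lit 78) (nat_lit 0) (nat_lit 76) (XT.lf (nat_lit 0) (nat_lit 39961450947) (nat_lit 760) (nat_lit 17834637470) (nat_lit 836) (nat_lit 100183613845) (nat_lit 108) (nat_lit 5) (nat_lit 118) (nat_lit 5) (nat_lit 119) (nat_lit 5) (nat_lit 349) (nat_lit 346) (nat_lit 205)) (XT.nd (nat_lit 78) (nat_lit 0) (nat_lit 76) (XT.lf (nat_lit 0) (nat_lit 52274763849) (nat_lit 760) (nat_lit 53598550109) (nat_lit 836) (nat_lit 58625289201) (nat_lit 109) (nat_lit 5) (nat_lit 119) (nat_lit 5) (nat_lit 120) (nat_lit 5) (nat_lit 350) (nat_lit 346) (nat_lit 204)) (XT.lf (nat_lit 0) (nat_lit 68317754784) (nat_lit 760) (nat_lit 90958923914) (nat_lit 836) (nat_lit 12125107129) (nat_lit 110) (nat_lit 5) (nat_lit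 120) (nat_lit 5) (nat_lit 121) (nat_lit 5) (nat_lit 351) (nat_lit 346) (nat_lit 203))))) (XT.nd (nat_lit 234) (nat_lit 1140) (nat_lit 0) (XT.nd (nat_lit 78) (nat_lit 684) (nat_lit 0) (XT.lf (nat_lit 76) (nat_lit 48048035282) (nat_lit 0) (nat_lit 41080110358) (nat_lit 836) (nat_lit 89554879758) (nat_lit 111) (nat_lit 5) (nat_lit 110) (nat_lit 5) (nat_lit 121) (nat_lit 5) (nat_lit 352) (nat_lit 346) (nat_lit 202)) (XT.nd (nat_lit 78) (nat_lit 0) (nat_lit 0) (XT.lf (nat_lit 0) (nat_lit 14027153359) (nat_lit 760) (nat_lit 100756917356) (nat_lit 836) (nat_lit 71603658570) (nat_lit 101) (nat_lit 5) (nat_lit 111) (nat_lit 5) (nat_lit 112) (nat_lit 5) (nat_lit 353) (nat_lit 346) (nat_lit 201)) (XT.lf (nat_lit 0) (nat_lit 145898283732) (nat_lit 836) (nat_lit 20798719585) (nat_lit 76) (nat_lit 27841515746) (nat_lit 101) (nat_lit 5) (nat_lit 112) (nat_lit 5) (nat_lit 102) (nat_lit 5) (nat_lit 354)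 (nat_lit 346) (nat_lit 200)))) (XT.nd (nat_lit 78) (nat_lit 760) (nat_lit 0) (XT.lf (nat_lit 0) (nat_lit 145857183079) (nat_lit 380) (nat_lit 37620327537) (nat_lit 456) (nat_lit 19665067822) (nat_lit 96) (nat_lit 5) (nat_lit 101) (nat_lit 5) (nat_lit 102) (nat_lit 5) (nat_lit 355) (nat_lit 346) (nat_lit 199)) (XT.nd (nat_lit 78) (nat_lit 380) (nat_lit 0) (XT.lf (nat_lit 0) (nat_lit 15090592689) (nat_lit 380) (nat_lit 96191368105) (nat_lit 76) (nat_lit 100952192031) (nat_lit 91) (nat_lit 5) (nat_lit 96) (nat_lit 5) (nat_lit 92) (nat_lit 5) (nat_lit 356) (nat_lit 346) (nat_lit 198)) (XT.lf (nat_lit 0) (nat_lit 55392501346) (nat_lit 456) (nat_lit 137339340399) (nat_lit 76) (nat_lit 29132354544) (nat_lit 86) (nat_lit 5) (nat_lit 92) (nat_lit 5) (nat_lit 87) (nat_lit 5) (nat_lit 357) (nat_lit 346) (nat_lit 197))))))) (XT.nd (nat_lit 936) (nat_lit 1748) (nat_lit 0) (XT.nd (nat_lit 468) (nat_lit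 1216) (nat_lit 0) (XT.nd (nat_lit 234) (nat_lit 836) (nat_lit 0) (XT.nd (nat_lit 78) (nat_lit 304) (nat_lit 0) (XT.lf (nat_lit 0) (nat_lit 50670053561) (nat_lit 304) (nat_lit 52618826450) (nat_lit 380) (nat_lit 128757247548) (nat_lit 82) (nat_lit 5) (nat_lit 86) (nat_lit 5) (nat_lit 87) (nat_lit 5) (nat_lit 358) (nat_lit 346) (nat_lit 196)) (XT.nd (nat_lit 78) (nat_lit 0) (nat_lit 0) (XT.lf (nat_lit 0) (nat_lit 14587903584) (nat_lit 304) (nat_lit 144629192000) (nat_lit 380) (nat_lit 83615511595) (nat_lit 78) (nat_lit 5) (nat_lit 82) (nat_lit 5) (nat_lit 83) (nat_lit 5) (nat_lit 359) (nat_lit 346) (nat_lit 195)) (XT.lf (nat_lit 0) (nat_lit 223778774130) (nat_lit 380) (nat_lit 22618430606) (nat_lit 76) (nat_lit 7876840311) (nat_lit 78) (nat_lit 5) (nat_lit 83) (nat_lit 5) (nat_lit 79) (nat_lit 5) (nat_lit 360) (nat_lit 346) (nat_lit 194)))) (XT.nd (nat_lit 78) (nat_lit 532) (nat_lit 0) (XT.lf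 (nat_lit 0) (nat_lit 31722724164) (nat_lit 304) (nat_lit 63328346737) (nat_lit 76) (nat_lit 171273333317) (nat_lit 74) (nat_lit 5) (nat_lit 78) (nat_lit 5) (nat_lit 75) (nat_lit 5) (nat_lit 361) (nat_lit 346) (nat_lit 193)) (XT.nd (nat_lit 78) (nat_lit 228) (nat_lit 0) (XT.lf (nat_lit 0) (nat_lit 102095227883) (nat_lit 380) (nat_lit 107115264867) (nat_lit 76) (nat_lit 69891029644) (nat_lit 70) (nat_lit 5) (nat_lit 75) (nat_lit 5) (nat_lit 71) (nat_lit 5) (nat_lit 362) (nat_lit 346) (nat_lit 192)) (XT.lf (nat_lit 0) (nat_lit 138348753070) (nat_lit 228) (nat_lit 44632550756) (nat_lit 304) (nat_lit 109675317729) (nat_lit 67) (nat_lit 5) (nat_lit 70) (nat_lit 5) (nat_lit 71) (nat_lit 5) (nat_lit 363) (nat_lit 346) (nat_lit 191))))) (XT.nd (nat_lit 234) (nat_lit 456) (nat_lit 0) (XT.nd (nat_lit 78) (nat_lit 532) (nat_lit 0) (XT.lf (nat_lit 0) (nat_lit 101202114291) (nat_lit 228) (nat_lit 174690724674)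 (nat_lit 304) (nat_lit 31125561143) (nat_lit 64) (nat_lit 5) (nat_lit 67) (nat_lit 5) (nat_lit 68) (nat_lit 5) (nat_lit 364) (nat_lit 346) (nat_lit 190)) (XT.nd (nat_lit 78) (nat_lit 228) (nat_lit 0) (XT.lf (nat_lit 0) (nat_lit 56484116792) (nat_lit 304) (nat_lit 261758832998) (nat_lit 76) (nat_lit 4019497607) (nat_lit 60) (nat_lit 5) (nat_lit 64) (nat_lit 5) (nat_lit 61) (nat_lit 5) (nat_lit 365) (nat_lit 346) (nat_lit 189)) (XT.lf (nat_lit 0) (nat_lit 13845664187) (nat_lit 228) (nat_lit 142986557695) (nat_lit 304) (nat_lit 181527276878) (nat_lit 57) (nat_lit 5) (nat_lit 60) (nat_lit 5) (nat_lit 61) (nat_lit 5) (nat_lit 366) (nat_lit 346) (nat_lit 188)))) (XT.nd (nat_lit 78) (nat_lit 456) (nat_lit 0) (XT.lf (nat_lit 0) (nat_lit 270565151328) (nat_lit 304) (nat_lit 35468205029) (nat_lit 76) (nat_lit 49443109167) (nat_lit 57) (nat_lit 5) (nat_lit 61) (nat_lit 5) (nat_lit 58) (nat_lit 5) (nat_lit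 367) (nat_lit 346) (nat_lit 187)) (XT.nd (nat_lit 78) (nat_lit 228) (nat_lit 0) (XT.lf (nat_lit 0) (nat_lit 25758857361) (nat_lit 228) (nat_lit 90677419559) (nat_lit 76) (nat_lit 257163994943) (nat_lit 54) (nat_lit 5) (nat_lit 57) (nat_lit 5) (nat_lit 55) (nat_lit 5) (nat_lit 368) (nat_lit 346) (nat_lit 186)) (XT.lf (nat_lit 0) (nat_lit 148215491128) (nat_lit 304) (nat_lit 153171270042) (nat_lit 76) (nat_lit 91422235805) (nat_lit 51) (nat_lit 5) (nat_lit 55) (nat_lit 5) (nat_lit 52) (nat_lit 5) (nat_lit 369) (nat_lit 346) (nat_lit 185)))))) (XT.nd (nat_lit 468) (nat_lit 836) (nat_lit 0) (XT.nd (nat_lit 234) (nat_lit 380) (nat_lit 0) (XT.nd (nat_lit 78) (nat_lit 380) (nat_lit 0) (XT.lf (nat_lit 0) (nat_lit 190240132535) (nat_lit 152) (nat_lit 96767328511) (nat_lit 228) (nat_lit 126220018844) (nat_lit 49) (nat_lit 5) (nat_lit 51) (nat_lit 5) (nat_lit 52) (nat_lit 5) (nat_lit 370) (nat_lit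 346) (nat_lit 184)) (XT.nd (nat_lit 78) (nat_lit 152) (nat_lit 0) (XT.lf (nat_lit 0) (nat_lit 8421209322) (nat_lit 228) (nat_lit 301332908070) (nat_lit 76) (nat_lit 125181565883) (nat_lit 46) (nat_lit 5) (nat_lit 49) (nat_lit 5) (nat_lit 47) (nat_lit 5) (nat_lit 371) (nat_lit 346) (nat_lit 183)) (XT.lf (nat_lit 0) (nat_lit 66811095224) (nat_lit 152) (nat_lit 89282250154) (nat_lit 228) (nat_lit 301849651363) (nat_lit 44) (nat_lit 5) (nat_lit 46) (nat_lit 5) (nat_lit 47) (nat_lit 5) (nat_lit 372) (nat_lit 346) (nat_lit 182)))) (XT.nd (nat_lit 78) (nat_lit 380) (nat_lit 0) (XT.lf (nat_lit 0) (nat_lit 323237814036) (nat_lit 228) (nat_lit 9771193739) (nat_lit 76) (nat_lit 149398959473) (nat_lit 44) (nat_lit 5) (nat_lit 47) (nat_lit 5) (nat_lit 45) (nat_lit 5) (nat_lit 373) (nat_lit 346) (nat_lit 181)) (XT.nd (nat_lit 78) (nat_lit 152) (nat_lit 0) (XT.lf (nat_lit 0) (nat_lit 3183295500) (nat_lit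 228) (nat_lit 94645031980) (nat_lit 76) (nat_lit 410600914841) (nat_lit 41) (nat_lit 5) (nat_lit 44) (nat_lit 5) (nat_lit 42) (nat_lit 5) (nat_lit 374) (nat_lit 346) (nat_lit 180)) (XT.lf (nat_lit 0) (nat_lit 181129510796) (nat_lit 228) (nat_lit 195342472746) (nat_lit 76) (nat_lit 159520716686) (nat_lit 39) (nat_lit 5) (nat_lit 42) (nat_lit 5) (nat_lit 40) (nat_lit 5) (nat_lit 375) (nat_lit 346) (nat_lit 179))))) (XT.nd (nat_lit 234) (nat_lit 380) (nat_lit 0) (XT.nd (nat_lit 78) (nat_lit 304) (nat_lit 0) (XT.lf (nat_lit 0) (nat_lit 254953374382) (nat_lit 152) (nat_lit 125663724913) (nat_lit 228) (nat_lit 184778851711) (nat_lit 37) (nat_lit 5) (nat_lit 39) (nat_lit 5) (nat_lit 40) (nat_lit 5) (nat_lit 376) (nat_lit 346) (nat_lit 178)) (XT.nd (nat_lit 78) (nat_lit 152) (nat_lit 0) (XT.lf (nat_lit 0) (nat_lit 7208157646) (nat_lit 152) (nat_lit 442992468373) (nat_lit 76) (nat_lit 146538629552)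 (nat_lit 35) (nat_lit 5) (nat_lit 37) (nat_lit 5) (nat_lit 36) (nat_lit 5) (nat_lit 377) (nat_lit 346) (nat_lit 177)) (XT.lf (nat_lit 0) (nat_lit 31522941255) (nat_lit 152) (nat_lit 184751324754) (nat_lit 228) (nat_lit 413754605990) (nat_lit 33) (nat_lit 5) (nat_lit 35) (nat_lit 5) (nat_lit 36) (nat_lit 5) (nat_lit 378) (nat_lit 346) (nat_lit 176)))) (XT.nd (nat_lit 156) (nat_lit 228) (nat_lit 0) (XT.nd (nat_lit 78) (nat_lit 152) (nat_lit 0) (XT.lf (nat_lit 0) (nat_lit 451500186101) (nat_lit 228) (nat_lit 107495271557) (nat_lit 76) (nat_lit 106514473959) (nat_lit 33) (nat_lit 5) (nat_lit 36) (nat_lit 5) (nat_lit 34) (nat_lit 4) (nat_lit 379) (nat_lit 346) (nat_lit 175)) (XT.lf (nat_lit 0) (nat_lit 11706059895) (nat_lit 152) (nat_lit 269966692602) (nat_lit 76) (nat_lit 421653073101) (nat_lit 31) (nat_lit 5) (nat_lit 33) (nat_lit 5) (nat_lit 32) (nat_lit 5) (nat_lit 380) (nat_lit 346) (nat_lit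 174))) (XT.nd (nat_lit 78) (nat_lit 76) (nat_lit 0) (XT.lf (nat_lit 0) (nat_lit 254838812594) (nat_lit 228) (nat_lit 461457516887) (nat_lit 76) (nat_lit 27352366722) (nat_lit 29) (nat_lit 5) (nat_lit 32) (nat_lit 5) (nat_lit 30) (nat_lit 4) (nat_lit 381) (nat_lit 346) (nat_lit 173)) (XT.lf (nat_lit 0) (nat_lit 99559608919) (nat_lit 76) (nat_lit 428946152999) (nat_lit 152) (nat_lit 258137455740) (nat_lit 28) (nat_lit 5) (nat_lit 29) (nat_lit 5) (nat_lit 30) (nat_lit 4) (nat_lit 382) (nat_lit 346) (nat_lit 172))))))))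
noncomputable def xc113 : XT := (XT.nd (nat_lit 45474) (nat_lit 0) (nat_lit 0) (XT.nd (nat_lit 44460) (nat_lit 0) (nat_lit 3496) (XT.nd (nat_lit 468) (nat_lit 0) (nat_lit 0) (XT.nd (nat_lit 234) (nat_lit 228) (nat_lit 0) (XT.nd (nat_lit 78) (nat_lit 304) (nat_lit 0) (XT.lf (nat_lit 0) (nat_lit 721936459465) (nat_lit 76) (nat_lit 110167820474) (nat_lit 152) (nat_lit 571110272) (nat_lit 28) (nat_lit 5) (nat_lit 29) (nat_lit 5) (nat_lit 30) (nat_lit 4) (nat_lit 383) (nat_lit 346) (nat_lit 171)) (XT.nd (nat_lit 78) (nat_lit 76) (nat_lit 0) (XT.lf (nat_lit 0) (nat_lit 280759413355) (nat_lit 228) (nat_lit 361469314581) (nat_lit 76) (nat_lit 239342511452) (nat_lit 25) (nat_lit 5) (nat_lit 28) (nat_lit 5) (nat_lit 26) (nat_lit 4) (nat_lit 384) (nat_lit 346) (nat_lit 170)) (XT.lf (nat_lit 0) (nat_lit 278083588790) (nat_lit 76) (nat_lit 314652894969) (nat_lit 152) (nat_lit 341233798942) (nat_lit 24)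 (nat_lit 5) (nat_lit 25) (nat_lit 5) (nat_lit 26) (nat_lit 4) (nat_lit 385) (nat_lit 346) (nat_lit 169)))) (XT.nd (nat_lit 78) (nat_lit 228) (nat_lit 0) (XT.lf (nat_lit 0) (nat_lit 936682348030) (nat_lit 152) (nat_lit 9252009773) (nat_lit 0) (nat_lit 44276360280) (nat_lit 24) (nat_lit 5) (nat_lit 26) (nat_lit 4) (nat_lit 24) (nat_lit 4) (nat_lit 386) (nat_lit 346) (nat_lit 168)) (XT.nd (nat_lit 78) (nat_lit 76) (nat_lit 0) (XT.lf (nat_lit 0) (nat_lit 265564191886) (nat_lit 152) (nat_lit 347999468650) (nat_lit 76) (nat_lit 436355827376) (nat_lit 22) (nat_lit 5) (nat_lit 24) (nat_lit 5) (nat_lit 23) (nat_lit 4) (nat_lit 387) (nat_lit 346) (nat_lit 167)) (XT.lf (nat_lit 0) (nat_lit 366752315183) (nat_lit 76) (nat_lit 247471316995) (nat_lit 152) (nat_lit 499841709111) (nat_lit 21) (nat_lit 5) (nat_lit 22) (nat_lit 5) (nat_lit 23) (nat_lit 4) (nat_lit 388) (nat_lit 346) (nat_lit 166))))) (XT.nd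 (nat_lit 43758) (nat_lit 0) (nat_lit 6536) (XT.nd (nat_lit 43602) (nat_lit 0) (nat_lit 6460) (XT.lf (nat_lit 0) (nat_lit 999246334062) (nat_lit 152) (nat_lit 34337330893) (nat_lit 0) (nat_lit 149335672675) (nat_lit 21) (nat_lit 5) (nat_lit 23) (nat_lit 4) (nat_lit 21) (nat_lit 4) (nat_lit 389) (nat_lit 346) (nat_lit 165)) (XT.nd (nat_lit 78) (nat_lit 0) (nat_lit 76) (XT.lf (nat_lit 0) (nat_lit 13029420517) (nat_lit 836) (nat_lit 31389204970) (nat_lit 836) (nat_lit 31389204970) (nat_lit 106) (nat_lit 3) (nat_lit 117) (nat_lit 3) (nat_lit 117) (nat_lit 5) (nat_lit 347) (nat_lit 347) (nat_lit 206)) (XT.lf (nat_lit 0) (nat_lit 28382704675) (nat_lit 760) (nat_lit 103174874796) (nat_lit 836) (nat_lit 26058628622) (nat_lit 107) (nat_lit 5) (nat_lit 117) (nat_lit 5) (nat_lit 118) (nat_lit 5) (nat_lit 348) (nat_lit 347) (nat_lit 205)))) (XT.nd (nat_lit 78) (nat_lit 0) (nat_lit 76) (XT.lf (nat_lit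 76) (nat_lit 18308160657) (nat_lit 0) (nat_lit 15479168889) (nat_lit 836) (nat_lit 130164727268) (nat_lit 108) (nat_lit 5) (nat_lit 107) (nat_lit 5) (nat_lit 118) (nat_lit 5) (nat_lit 349) (nat_lit 347) (nat_lit 204)) (XT.nd (nat_lit 78) (nat_lit 0) (nat_lit 76) (XT.lf (nat_lit 0) (nat_lit 43166244186) (nat_lit 760) (nat_lit 19256087518) (nat_lit 836) (nat_lit 108195346087) (nat_lit 108) (nat_lit 5) (nat_lit 118) (nat_lit 5) (nat_lit 119) (nat_lit 5) (nat_lit 350) (nat_lit 347) (nat_lit 203)) (XT.lf (nat_lit 0) (nat_lit 56464082440) (nat_lit 760) (nat_lit 57880933812) (nat_lit 836) (nat_lit 63313101995) (nat_lit 109) (nat_lit 5) (nat_lit 119) (nat_lit 5) (nat_lit 120) (nat_lit 5) (nat_lit 351) (nat_lit 347) (nat_lit 202)))))) (XT.nd (nat_lit 468) (nat_lit 1824) (nat_lit 0) (XT.nd (nat_lit 234) (nat_lit 760) (nat_lit 0) (XT.nd (nat_lit 78) (nat_lit 684) (nat_lit 0) (XT.lf (nat_lit 0) (nat_lit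 73790026064) (nat_lit 760) (nat_lit 98230001716) (nat_lit 836) (nat_lit 13093552544) (nat_lit 110) (nat_lit 5) (nat_lit 120) (nat_lit 5) (nat_lit 121) (nat_lit 5) (nat_lit 352) (nat_lit 347) (nat_lit 201)) (XT.nd (nat_lit 78) (nat_lit 684) (nat_lit 0) (XT.lf (nat_lit 76) (nat_lit 51897269277) (nat_lit 0) (nat_lit 44367555608) (nat_lit 836) (nat_lit 96712515771) (nat_lit 111) (nat_lit 5) (nat_lit 110) (nat_lit 5) (nat_lit 121) (nat_lit 5) (nat_lit 353) (nat_lit 347) (nat_lit 200)) (XT.lf (nat_lit 0) (nat_lit 15154810557) (nat_lit 760) (nat_lit 108818007944) (nat_lit 836) (nat_lit 77325623027) (nat_lit 101) (nat_lit 5) (nat_lit 111) (nat_lit 5) (nat_lit 112) (nat_lit 5) (nat_lit 354) (nat_lit 347) (nat_lit 199)))) (XT.nd (nat_lit 78) (nat_lit 760) (nat_lit 0) (XT.lf (nat_lit 0) (nat_lit 157575714710) (nat_lit 836) (nat_lit 22457247321) (nat_lit 76) (nat_lit 30068355519) (nat_lit 101) (nat_lit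 5) (nat_lit 112) (nat_lit 5) (nat_lit 102) (nat_lit 5) (nat_lit 355) (nat_lit 347) (nat_lit 198)) (XT.nd (nat_lit 78) (nat_lit 380) (nat_lit 0) (XT.lf (nat_lit 0) (nat_lit 157530894189) (nat_lit 380) (nat_lit 40630053285) (nat_lit 456) (nat_lit 21232771157) (nat_lit 96) (nat_lit 5) (nat_lit 101) (nat_lit 5) (nat_lit 102) (nat_lit 5) (nat_lit 356) (nat_lit 347) (nat_lit 197)) (XT.lf (nat_lit 0) (nat_lit 16302852143) (nat_lit 380) (nat_lit 103881338813) (nat_lit 76) (nat_lit 109028439719) (nat_lit 91) (nat_lit 5) (nat_lit 96) (nat_lit 5) (nat_lit 92) (nat_lit 5) (nat_lit 357) (nat_lit 347) (nat_lit 196))))) (XT.nd (nat_lit 234) (nat_lit 836) (nat_lit 0) (XT.nd (nat_lit 78) (nat_lit 608) (nat_lit 0) (XT.lf (nat_lit 0) (nat_lit 59828627991) (nat_lit 456) (nat_lit 148321147415) (nat_lit 76) (nat_lit 31463316765) (nat_lit 86) (nat_lit 5) (nat_lit 92) (nat_lit 5) (nat_lit 87) (nat_lit 5) (nat_lit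 358) (nat_lit 347) (nat_lit 195)) (XT.nd (nat_lit 78) (nat_lit 304) (nat_lit 0) (XT.lf (nat_lit 0) (nat_lit 54728765984) (nat_lit 304) (nat_lit 56827680604) (nat_lit 380) (nat_lit 139053145131) (nat_lit 82) (nat_lit 5) (nat_lit 86) (nat_lit 5) (nat_lit 87) (nat_lit 5) (nat_lit 359) (nat_lit 347) (nat_lit 194)) (XT.lf (nat_lit 0) (nat_lit 15760028500) (nat_lit 304) (nat_lit 156198649754) (nat_lit 380) (nat_lit 90300323751) (nat_lit 78) (nat_lit 5) (nat_lit 82) (nat_lit 5) (nat_lit 83) (nat_lit 5) (nat_lit 360) (nat_lit 347) (nat_lit 193)))) (XT.nd (nat_lit 156) (nat_lit 532) (nat_lit 0) (XT.nd (nat_lit 78) (nat_lit 304) (nat_lit 0) (XT.lf (nat_lit 0) (nat_lit 241684991547) (nat_lit 380) (nat_lit 24423004429) (nat_lit 76) (nat_lit 8507774126) (nat_lit 78) (nat_lit 5) (nat_lit 83) (nat_lit 5) (nat_lit 79) (nat_lit 5) (nat_lit 361) (nat_lit 347) (nat_lit 192)) (XT.lf (nat_lit 0) (nat_lit 34264303856)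 (nat_lit 304) (nat_lit 68389799998) (nat_lit 76) (nat_lit 184976062167) (nat_lit 74) (nat_lit 5) (nat_lit 78) (nat_lit 5) (nat_lit 75) (nat_lit 5) (nat_lit 362) (nat_lit 347) (nat_lit 191))) (XT.nd (nat_lit 78) (nat_lit 228) (nat_lit 0) (XT.lf (nat_lit 0) (nat_lit 110266417521) (nat_lit 380) (nat_lit 115679717190) (nat_lit 76) (nat_lit 75483328639) (nat_lit 70) (nat_lit 5) (nat_lit 75) (nat_lit 5) (nat_lit 71) (nat_lit 5) (nat_lit 363) (nat_lit 347) (nat_lit 190)) (XT.lf (nat_lit 0) (nat_lit 149421214933) (nat_lit 228) (nat_lit 48201971278) (nat_lit 304) (nat_lit 118445794067) (nat_lit 67) (nat_lit 5) (nat_lit 70) (nat_lit 5) (nat_lit 71) (nat_lit 5) (nat_lit 364) (nat_lit 347) (nat_lit 189))))))) (XT.nd (nat_lit 936) (nat_lit 1368) (nat_lit 0) (XT.nd (nat_lit 468) (nat_lit 912) (nat_lit 0) (XT.nd (nat_lit 234) (nat_lit 456) (nat_lit 0) (XT.nd (nat_lit 78) (nat_lit 532) (nat_lit 0) (XT.lf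 (nat_lit 0) (nat_lit 109302792704) (nat_lit 228) (nat_lit 188664688740) (nat_lit 304) (nat_lit 33612227962) (nat_lit 64) (nat_lit 5) (nat_lit 67) (nat_lit 5) (nat_lit 68) (nat_lit 5) (nat_lit 365) (nat_lit 347) (nat_lit 188)) (XT.nd (nat_lit 78) (nat_lit 228) (nat_lit 0) (XT.lf (nat_lit 0) (nat_lit 61005963492) (nat_lit 304) (nat_lit 282694985232) (nat_lit 76) (nat_lit 4342336884) (nat_lit 60) (nat_lit 5) (nat_lit 64) (nat_lit 5) (nat_lit 61) (nat_lit 5) (nat_lit 366) (nat_lit 347) (nat_lit 187)) (XT.lf (nat_lit 0) (nat_lit 14957673799) (nat_lit 228) (nat_lit 154424080293) (nat_lit 304) (nat_lit 196046355261) (nat_lit 57) (nat_lit 5) (nat_lit 60) (nat_lit 5) (nat_lit 61) (nat_lit 5) (nat_lit 367) (nat_lit 347) (nat_lit 186)))) (XT.nd (nat_lit 78) (nat_lit 456) (nat_lit 0) (XT.lf (nat_lit 0) (nat_lit 292213119312) (nat_lit 304) (nat_lit 38301509675) (nat_lit 76) (nat_lit 53399814517) (nat_lit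 57) (nat_lit 5) (nat_lit 61) (nat_lit 5) (nat_lit 58) (nat_lit 5) (nat_lit 368) (nat_lit 347) (nat_lit 185)) (XT.nd (nat_lit 78) (nat_lit 228) (nat_lit 0) (XT.lf (nat_lit 0) (nat_lit 27822223856) (nat_lit 228) (nat_lit 97927552620) (nat_lit 76) (nat_lit 277738382944) (nat_lit 54) (nat_lit 5) (nat_lit 57) (nat_lit 5) (nat_lit 55) (nat_lit 5) (nat_lit 369) (nat_lit 347) (nat_lit 184)) (XT.lf (nat_lit 0) (nat_lit 160075273354) (nat_lit 304) (nat_lit 165420981595) (nat_lit 76) (nat_lit 98737333438) (nat_lit 51) (nat_lit 5) (nat_lit 55) (nat_lit 5) (nat_lit 52) (nat_lit 5) (nat_lit 370) (nat_lit 347) (nat_lit 183))))) (XT.nd (nat_lit 234) (nat_lit 380) (nat_lit 0) (XT.nd (nat_lit 78) (nat_lit 380) (nat_lit 0) (XT.lf (nat_lit 0) (nat_lit 205463159786) (nat_lit 152) (nat_lit 104507312303) (nat_lit 228) (nat_lit 136315084375) (nat_lit 49) (nat_lit 5) (nat_lit 51) (nat_lit 5) (nat_lit 52) (nat_lit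 5) (nat_lit 371) (nat_lit 347) (nat_lit 182)) (XT.nd (nat_lit 78) (nat_lit 152) (nat_lit 0) (XT.lf (nat_lit 0) (nat_lit 9097259097) (nat_lit 228) (nat_lit 325435715575) (nat_lit 76) (nat_lit 135197444635) (nat_lit 46) (nat_lit 5) (nat_lit 49) (nat_lit 5) (nat_lit 47) (nat_lit 5) (nat_lit 372) (nat_lit 347) (nat_lit 181)) (XT.lf (nat_lit 0) (nat_lit 72159641747) (nat_lit 152) (nat_lit 96423407118) (nat_lit 228) (nat_lit 325995274916) (nat_lit 44) (nat_lit 5) (nat_lit 46) (nat_lit 5) (nat_lit 47) (nat_lit 5) (nat_lit 373) (nat_lit 347) (nat_lit 180)))) (XT.nd (nat_lit 78) (nat_lit 380) (nat_lit 0) (XT.lf (nat_lit 0) (nat_lit 349098929968) (nat_lit 228) (nat_lit 10549417583) (nat_lit 76) (nat_lit 161352151696) (nat_lit 44) (nat_lit 5) (nat_lit 47) (nat_lit 5) (nat_lit 45) (nat_lit 5) (nat_lit 374) (nat_lit 347) (nat_lit 179)) (XT.nd (nat_lit 78) (nat_lit 152) (nat_lit 0) (XT.lf (nat_lit 0)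 (nat_lit 3439980261) (nat_lit 228) (nat_lit 102213246190) (nat_lit 76) (nat_lit 443450253460) (nat_lit 41) (nat_lit 5) (nat_lit 44) (nat_lit 5) (nat_lit 42) (nat_lit 5) (nat_lit 375) (nat_lit 347) (nat_lit 178)) (XT.lf (nat_lit 0) (nat_lit 195621814265) (nat_lit 228) (nat_lit 210966553280) (nat_lit 76) (nat_lit 172283650886) (nat_lit 39) (nat_lit 5) (nat_lit 42) (nat_lit 5) (nat_lit 40) (nat_lit 5) (nat_lit 376) (nat_lit 347) (nat_lit 177)))))) (XT.nd (nat_lit 468) (nat_lit 608) (nat_lit 0) (XT.nd (nat_lit 234) (nat_lit 304) (nat_lit 0) (XT.nd (nat_lit 78) (nat_lit 304) (nat_lit 0) (XT.lf (nat_lit 0) (nat_lit 275352817453) (nat_lit 152) (nat_lit 135715498035) (nat_lit 228) (nat_lit 199559218551) (nat_lit 37) (nat_lit 5) (nat_lit 39) (nat_lit 5) (nat_lit 40) (nat_lit 5) (nat_lit 377) (nat_lit 347) (nat_lit 176)) (XT.nd (nat_lit 78) (nat_lit 152) (nat_lit 0) (XT.lf (nat_lit 0) (nat_lit 7786618953)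 (nat_lit 152) (nat_lit 478428701041) (nat_lit 76) (nat_lit 158262985027) (nat_lit 35) (nat_lit 5) (nat_lit 37) (nat_lit 5) (nat_lit 36) (nat_lit 5) (nat_lit 378) (nat_lit 347) (nat_lit 175)) (XT.lf (nat_lit 0) (nat_lit 34047803818) (nat_lit 152) (nat_lit 199530125454) (nat_lit 228) (nat_lit 446853165869) (nat_lit 33) (nat_lit 5) (nat_lit 35) (nat_lit 5) (nat_lit 36) (nat_lit 5) (nat_lit 379) (nat_lit 347) (nat_lit 174)))) (XT.nd (nat_lit 78) (nat_lit 304) (nat_lit 0) (XT.lf (nat_lit 0) (nat_lit 487621814287) (nat_lit 228) (nat_lit 116092028928) (nat_lit 76) (nat_lit 115036801786) (nat_lit 33) (nat_lit 5) (nat_lit 36) (nat_lit 5) (nat_lit 34) (nat_lit 4) (nat_lit 380) (nat_lit 347) (nat_lit 173)) (XT.nd (nat_lit 78) (nat_lit 152) (nat_lit 0) (XT.lf (nat_lit 0) (nat_lit 12644106878) (nat_lit 152) (nat_lit 291561236062) (nat_lit 76) (nat_lit 455386470174) (nat_lit 31) (nat_lit 5) (nat_lit 33)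 (nat_lit 5) (nat_lit 32) (nat_lit 5) (nat_lit 381) (nat_lit 347) (nat_lit 172)) (XT.lf (nat_lit 0) (nat_lit 275227424232) (nat_lit 228) (nat_lit 498371391286) (nat_lit 76) (nat_lit 29541700658) (nat_lit 29) (nat_lit 5) (nat_lit 32) (nat_lit 5) (nat_lit 30) (nat_lit 4) (nat_lit 382) (nat_lit 347) (nat_lit 171))))) (XT.nd (nat_lit 234) (nat_lit 304) (nat_lit 0) (XT.nd (nat_lit 78) (nat_lit 228) (nat_lit 0) (XT.lf (nat_lit 0) (nat_lit 107526986075) (nat_lit 76) (nat_lit 463260672550) (nat_lit 152) (nat_lit 278786944295) (nat_lit 28) (nat_lit 5) (nat_lit 29) (nat_lit 5) (nat_lit 30) (nat_lit 4) (nat_lit 383) (nat_lit 347) (nat_lit 170)) (XT.nd (nat_lit 78) (nat_lit 228) (nat_lit 0) (XT.lf (nat_lit 0) (nat_lit 779693791447) (nat_lit 76) (nat_lit 118980160289) (nat_lit 152) (nat_lit 615402887) (nat_lit 28) (nat_lit 5) (nat_lit 29) (nat_lit 5) (nat_lit 30) (nat_lit 4) (nat_lit 384) (nat_lit 347)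 (nat_lit 169)) (XT.lf (nat_lit 0) (nat_lit 303221471203) (nat_lit 228) (nat_lit 390384458361) (nat_lit 76) (nat_lit 258490943441) (nat_lit 25) (nat_lit 5) (nat_lit 28) (nat_lit 5) (nat_lit 26) (nat_lit 4) (nat_lit 385) (nat_lit 347) (nat_lit 168)))) (XT.nd (nat_lit 156) (nat_lit 228) (nat_lit 0) (XT.nd (nat_lit 78) (nat_lit 0) (nat_lit 0) (XT.lf (nat_lit 0) (nat_lit 300332572919) (nat_lit 76) (nat_lit 339824073533) (nat_lit 152) (nat_lit 368531196392) (nat_lit 24) (nat_lit 5) (nat_lit 25) (nat_lit 5) (nat_lit 26) (nat_lit 4) (nat_lit 386) (nat_lit 347) (nat_lit 167)) (XT.lf (nat_lit 0) (nat_lit 1011618102940) (nat_lit 152) (nat_lit 9990001057) (nat_lit 0) (nat_lit 47819412927) (nat_lit 24) (nat_lit 5) (nat_lit 26) (nat_lit 4) (nat_lit 24) (nat_lit 4) (nat_lit 387) (nat_lit 347) (nat_lit 166))) (XT.nd (nat_lit 78) (nat_lit 76) (nat_lit 0) (XT.lf (nat_lit 0) (nat_lit 286810458728) (nat_lit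 152) (nat_lit 375837313292) (nat_lit 76) (nat_lit 471265218127) (nat_lit 22) (nat_lit 5) (nat_lit 24) (nat_lit 5) (nat_lit 23) (nat_lit 4) (nat_lit 388) (nat_lit 347) (nat_lit 165)) (XT.lf (nat_lit 0) (nat_lit 396094521427) (nat_lit 76) (nat_lit 267268080557) (nat_lit 152) (nat_lit 539827912440) (nat_lit 21) (nat_lit 5) (nat_lit 22) (nat_lit 5) (nat_lit 23) (nat_lit 4) (nat_lit 389) (nat_lit 347) (nat_lit 164))))))))
noncomputable def xc114 : XT := (XT.nd (nat_lit 1872) (nat_lit 2204) (nat_lit 0) (XT.nd (nat_lit 936) (nat_lit 2660) (nat_lit 0) (XT.nd (nat_lit 468) (nat_lit 1520) (nat_lit 0) (XT.nd (nat_lit 234) (nat_lit 0) (nat_lit 152) (XT.nd (nat_lit 78) (nat_lit 0) (nat_lit 76) (XT.lf (nat_lit 0) (nat_lit 14076007421) (nat_lit 836) (nat_lit 33898117070) (nat_lit 836) (nat_lit 33898117070) (nat_lit 106) (nat_lit 3) (nat_lit 117) (nat_lit 3) (nat_lit 117) (nat_lit 5) (nat_lit 348) (nat_lit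 348) (nat_lit 204)) (XT.nd (nat_lit 78) (nat_lit 0) (nat_lit 0) (XT.lf (nat_lit 0) (nat_lit 30661169865) (nat_lit 760) (nat_lit 111424150436) (nat_lit 836) (nat_lit 28139785204) (nat_lit 107) (nat_lit 5) (nat_lit 117) (nat_lit 5) (nat_lit 118) (nat_lit 5) (nat_lit 349) (nat_lit 348) (nat_lit 203)) (XT.lf (nat_lit 76) (nat_lit 19777322974) (nat_lit 0) (nat_lit 16720330764) (nat_lit 836) (nat_lit 140570194439) (nat_lit 108) (nat_lit 5) (nat_lit 107) (nat_lit 5) (nat_lit 118) (nat_lit 5) (nat_lit 350) (nat_lit 348) (nat_lit 202)))) (XT.nd (nat_lit 78) (nat_lit 0) (nat_lit 76) (XT.lf (nat_lit 0) (nat_lit 46626297119) (nat_lit 760) (nat_lit 20792012663) (nat_lit 836) (nat_lit 116848438738) (nat_lit 108) (nat_lit 5) (nat_lit 118) (nat_lit 5) (nat_lit 119) (nat_lit 5) (nat_lit 351) (nat_lit 348) (nat_lit 201)) (XT.nd (nat_lit 78) (nat_lit 0) (nat_lit 76) (XT.lf (nat_lit 0) (nat_lit 60987499745)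 (nat_lit 760) (nat_lit 62506692891) (nat_lit 836) (nat_lit 68376255142) (nat_lit 109) (nat_lit 5) (nat_lit 119) (nat_lit 5) (nat_lit 120) (nat_lit 5) (nat_lit 352) (nat_lit 348) (nat_lit 200)) (XT.lf (nat_lit 0) (nat_lit 79699101689) (nat_lit 760) (nat_lit 106083569796) (nat_lit 836) (nat_lit 14139696594) (nat_lit 110) (nat_lit 5) (nat_lit 120) (nat_lit 5) (nat_lit 121) (nat_lit 5) (nat_lit 353) (nat_lit 348) (nat_lit 199))))) (XT.nd (nat_lit 234) (nat_lit 1140) (nat_lit 0) (XT.nd (nat_lit 78) (nat_lit 684) (nat_lit 0) (XT.lf (nat_lit 76) (nat_lit 56053672882) (nat_lit 0) (nat_lit 47917848621) (nat_lit 836) (nat_lit 104443726251) (nat_lit 111) (nat_lit 5) (nat_lit 110) (nat_lit 5) (nat_lit 121) (nat_lit 5) (nat_lit 354) (nat_lit 348) (nat_lit 198)) (XT.nd (nat_lit 78) (nat_lit 0) (nat_lit 0) (XT.lf (nat_lit 0) (nat_lit 16371897844) (nat_lit 760) (nat_lit 117523909142) (nat_lit 836) (nat_lit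 83506247433) (nat_lit 101) (nat_lit 5) (nat_lit 111) (nat_lit 5) (nat_lit 112) (nat_lit 5) (nat_lit 355) (nat_lit 348) (nat_lit 197)) (XT.lf (nat_lit 0) (nat_lit 170186545789) (nat_lit 836) (nat_lit 24249223343) (nat_lit 76) (nat_lit 32473411163) (nat_lit 101) (nat_lit 5) (nat_lit 112) (nat_lit 5) (nat_lit 102) (nat_lit 5) (nat_lit 356) (nat_lit 348) (nat_lit 196)))) (XT.nd (nat_lit 78) (nat_lit 760) (nat_lit 0) (XT.lf (nat_lit 0) (nat_lit 170137769415) (nat_lit 380) (nat_lit 43880542891) (nat_lit 456) (nat_lit 22926675694) (nat_lit 96) (nat_lit 5) (nat_lit 101) (nat_lit 5) (nat_lit 102) (nat_lit 5) (nat_lit 357) (nat_lit 348) (nat_lit 195)) (XT.nd (nat_lit 78) (nat_lit 380) (nat_lit 0) (XT.lf (nat_lit 0) (nat_lit 17611377329) (nat_lit 380) (nat_lit 112187268808) (nat_lit 76) (nat_lit 117750776903) (nat_lit 91) (nat_lit 5) (nat_lit 96) (nat_lit 5) (nat_lit 92) (nat_lit 5) (nat_lit 358) (nat_lit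 348) (nat_lit 194)) (XT.lf (nat_lit 0) (nat_lit 64618970473) (nat_lit 456) (nat_lit 160182260833) (nat_lit 76) (nat_lit 33980702629) (nat_lit 86) (nat_lit 5) (nat_lit 92) (nat_lit 5) (nat_lit 87) (nat_lit 5) (nat_lit 359) (nat_lit 348) (nat_lit 193)))))) (XT.nd (nat_lit 468) (nat_lit 1216) (nat_lit 0) (XT.nd (nat_lit 234) (nat_lit 836) (nat_lit 0) (XT.nd (nat_lit 78) (nat_lit 304) (nat_lit 0) (XT.lf (nat_lit 0) (nat_lit 59111446667) (nat_lit 304) (nat_lit 61373336100) (nat_lit 380) (nat_lit 150173382492) (nat_lit 82) (nat_lit 5) (nat_lit 86) (nat_lit 5) (nat_lit 87) (nat_lit 5) (nat_lit 360) (nat_lit 348) (nat_lit 192)) (XT.nd (nat_lit 78) (nat_lit 0) (nat_lit 0) (XT.lf (nat_lit 0) (nat_lit 17025196889) (nat_lit 304) (nat_lit 168693789329) (nat_lit 380) (nat_lit 97520552694) (nat_lit 78) (nat_lit 5) (nat_lit 82) (nat_lit 5) (nat_lit 83) (nat_lit 5) (nat_lit 361) (nat_lit 348) (nat_lit 191))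 (XT.lf (nat_lit 0) (nat_lit 261023147769) (nat_lit 380) (nat_lit 26372643287) (nat_lit 76) (nat_lit 9189070431) (nat_lit 78) (nat_lit 5) (nat_lit 83) (nat_lit 5) (nat_lit 79) (nat_lit 5) (nat_lit 362) (nat_lit 348) (nat_lit 190)))) (XT.nd (nat_lit 78) (nat_lit 532) (nat_lit 0) (XT.lf (nat_lit 0) (nat_lit 37008673265) (nat_lit 304) (nat_lit 73856856358) (nat_lit 76) (nat_lit 199774886325) (nat_lit 74) (nat_lit 5) (nat_lit 78) (nat_lit 5) (nat_lit 75) (nat_lit 5) (nat_lit 363) (nat_lit 348) (nat_lit 189)) (XT.nd (nat_lit 78) (nat_lit 228) (nat_lit 0) (XT.lf (nat_lit 0) (nat_lit 119090792829) (nat_lit 380) (nat_lit 124930006032) (nat_lit 76) (nat_lit 81522866520) (nat_lit 70) (nat_lit 5) (nat_lit 75) (nat_lit 5) (nat_lit 71) (nat_lit 5) (nat_lit 364) (nat_lit 348) (nat_lit 188)) (XT.lf (nat_lit 0) (nat_lit 161378822979) (nat_lit 228) (nat_lit 52057114286) (nat_lit 304) (nat_lit 127918414828)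 (nat_lit 67) (nat_lit 5) (nat_lit 70) (nat_lit 5) (nat_lit 71) (nat_lit 5) (nat_lit 365) (nat_lit 348) (nat_lit 187))))) (XT.nd (nat_lit 234) (nat_lit 456) (nat_lit 0) (XT.nd (nat_lit 78) (nat_lit 532) (nat_lit 0) (XT.lf (nat_lit 0) (nat_lit 118050882093) (nat_lit 228) (nat_lit 203756754522) (nat_lit 304) (nat_lit 36298310046) (nat_lit 64) (nat_lit 5) (nat_lit 67) (nat_lit 5) (nat_lit 68) (nat_lit 5) (nat_lit 366) (nat_lit 348) (nat_lit 186)) (XT.nd (nat_lit 78) (nat_lit 228) (nat_lit 0) (XT.lf (nat_lit 0) (nat_lit 65889113202) (nat_lit 304) (nat_lit 305306679382) (nat_lit 76) (nat_lit 4690820773) (nat_lit 60) (nat_lit 5) (nat_lit 64) (nat_lit 5) (nat_lit 61) (nat_lit 5) (nat_lit 367) (nat_lit 348) (nat_lit 185)) (XT.lf (nat_lit 0) (nat_lit 16158022679) (nat_lit 228) (nat_lit 166776804711) (nat_lit 304) (nat_lit 211727402702) (nat_lit 57) (nat_lit 5) (nat_lit 60) (nat_lit 5) (nat_lit 61)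 (nat_lit 5) (nat_lit 368) (nat_lit 348) (nat_lit 184)))) (XT.nd (nat_lit 78) (nat_lit 456) (nat_lit 0) (XT.lf (nat_lit 0) (nat_lit 315592531577) (nat_lit 304) (nat_lit 41362070988) (nat_lit 76) (nat_lit 57672877024) (nat_lit 57) (nat_lit 5) (nat_lit 61) (nat_lit 5) (nat_lit 58) (nat_lit 5) (nat_lit 369) (nat_lit 348) (nat_lit 183)) (XT.nd (nat_lit 78) (nat_lit 228) (nat_lit 0) (XT.lf (nat_lit 0) (nat_lit 30050280491) (nat_lit 228) (nat_lit 105758275603) (nat_lit 76) (nat_lit 299958541034) (nat_lit 54) (nat_lit 5) (nat_lit 57) (nat_lit 5) (nat_lit 55) (nat_lit 5) (nat_lit 370) (nat_lit 348) (nat_lit 182)) (XT.lf (nat_lit 0) (nat_lit 172883475380) (nat_lit 304) (nat_lit 178651239297) (nat_lit 76) (nat_lit 106637450745) (nat_lit 51) (nat_lit 5) (nat_lit 55) (nat_lit 5) (nat_lit 52) (nat_lit 5) (nat_lit 371) (nat_lit 348) (nat_lit 181))))))) (XT.nd (nat_lit 936) (nat_lit 532) (nat_lit 0) (XT.nd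 (nat_lit 468) (nat_lit 760) (nat_lit 0) (XT.nd (nat_lit 234) (nat_lit 380) (nat_lit 0) (XT.nd (nat_lit 78) (nat_lit 380) (nat_lit 0) (XT.lf (nat_lit 0) (nat_lit 221903484729) (nat_lit 152) (nat_lit 112866694878) (nat_lit 228) (nat_lit 147218116934) (nat_lit 49) (nat_lit 5) (nat_lit 51) (nat_lit 5) (nat_lit 52) (nat_lit 5) (nat_lit 372) (nat_lit 348) (nat_lit 180)) (XT.nd (nat_lit 78) (nat_lit 152) (nat_lit 0) (XT.lf (nat_lit 0) (nat_lit 9827057168) (nat_lit 228) (nat_lit 351467293379) (nat_lit 76) (nat_lit 146014400598) (nat_lit 46) (nat_lit 5) (nat_lit 49) (nat_lit 5) (nat_lit 47) (nat_lit 5) (nat_lit 373) (nat_lit 348) (nat_lit 179)) (XT.lf (nat_lit 0) (nat_lit 77935550008) (nat_lit 152) (nat_lit 104136059653) (nat_lit 228) (nat_lit 352072883401) (nat_lit 44) (nat_lit 5) (nat_lit 46) (nat_lit 5) (nat_lit 47) (nat_lit 5) (nat_lit 374) (nat_lit 348) (nat_lit 178)))) (XT.nd (nat_lit 78) (nat_lit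 380) (nat_lit 0) (XT.lf (nat_lit 0) (nat_lit 377028636898) (nat_lit 228) (nat_lit 11390394606) (nat_lit 76) (nat_lit 174261417337) (nat_lit 44) (nat_lit 5) (nat_lit 47) (nat_lit 5) (nat_lit 45) (nat_lit 5) (nat_lit 375) (nat_lit 348) (nat_lit 177)) (XT.nd (nat_lit 78) (nat_lit 152) (nat_lit 0) (XT.lf (nat_lit 0) (nat_lit 3716911467) (nat_lit 228) (nat_lit 110387400923) (nat_lit 76) (nat_lit 478927358640) (nat_lit 41) (nat_lit 5) (nat_lit 44) (nat_lit 5) (nat_lit 42) (nat_lit 5) (nat_lit 376) (nat_lit 348) (nat_lit 176)) (XT.lf (nat_lit 0) (nat_lit 211273224876) (nat_lit 228) (nat_lit 227841033505) (nat_lit 76) (nat_lit 186067437663) (nat_lit 39) (nat_lit 5) (nat_lit 42) (nat_lit 5) (nat_lit 40) (nat_lit 5) (nat_lit 377) (nat_lit 348) (nat_lit 175))))) (XT.nd (nat_lit 234) (nat_lit 304) (nat_lit 0) (XT.nd (nat_lit 78) (nat_lit 304) (nat_lit 0) (XT.lf (nat_lit 0) (nat_lit 297383763289) (nat_lit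 152) (nat_lit 146571602015) (nat_lit 228) (nat_lit 215522291686) (nat_lit 37) (nat_lit 5) (nat_lit 39) (nat_lit 5) (nat_lit 40) (nat_lit 5) (nat_lit 378) (nat_lit 348) (nat_lit 174)) (XT.nd (nat_lit 78) (nat_lit 152) (nat_lit 0) (XT.lf (nat_lit 0) (nat_lit 8411099135) (nat_lit 152) (nat_lit 516700283817) (nat_lit 76) (nat_lit 170925108458) (nat_lit 35) (nat_lit 5) (nat_lit 37) (nat_lit 5) (nat_lit 36) (nat_lit 5) (nat_lit 379) (nat_lit 348) (nat_lit 173)) (XT.lf (nat_lit 0) (nat_lit 36774223514) (nat_lit 152) (nat_lit 215491416423) (nat_lit 228) (nat_lit 482599868556) (nat_lit 33) (nat_lit 5) (nat_lit 35) (nat_lit 5) (nat_lit 36) (nat_lit 5) (nat_lit 380) (nat_lit 348) (nat_lit 172)))) (XT.nd (nat_lit 78) (nat_lit 304) (nat_lit 0) (XT.lf (nat_lit 0) (nat_lit 526632942573) (nat_lit 228) (nat_lit 125376935522) (nat_lit 76) (nat_lit 124240748939) (nat_lit 33) (nat_lit 5) (nat_lit 36) (nat_lit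 5) (nat_lit 34) (nat_lit 4) (nat_lit 381) (nat_lit 348) (nat_lit 171)) (XT.nd (nat_lit 78) (nat_lit 152) (nat_lit 0) (XT.lf (nat_lit 0) (nat_lit 13656974755) (nat_lit 152) (nat_lit 314883741301) (nat_lit 76) (nat_lit 491818374777) (nat_lit 31) (nat_lit 5) (nat_lit 33) (nat_lit 5) (nat_lit 32) (nat_lit 5) (nat_lit 382) (nat_lit 348) (nat_lit 170)) (XT.lf (nat_lit 0) (nat_lit 297246909863) (nat_lit 228) (nat_lit 538238764667) (nat_lit 76) (nat_lit 31906018020) (nat_lit 29) (nat_lit 5) (nat_lit 32) (nat_lit 5) (nat_lit 30) (nat_lit 4) (nat_lit 383) (nat_lit 348) (nat_lit 169)))))) (XT.nd (nat_lit 44148) (nat_lit 0) (nat_lit 6384) (XT.nd (nat_lit 234) (nat_lit 228) (nat_lit 0) (XT.nd (nat_lit 78) (nat_lit 228) (nat_lit 0) (XT.lf (nat_lit 0) (nat_lit 116131381280) (nat_lit 76) (nat_lit 500320520962) (nat_lit 152) (nat_lit 301088607055) (nat_lit 28) (nat_lit 5) (nat_lit 29) (nat_lit 5) (nat_lit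 30) (nat_lit 4) (nat_lit 384) (nat_lit 348) (nat_lit 168)) (XT.nd (nat_lit 78) (nat_lit 228) (nat_lit 0) (XT.lf (nat_lit 0) (nat_lit 842071365428) (nat_lit 76) (nat_lit 128497642194) (nat_lit 152) (nat_lit 663438095) (nat_lit 28) (nat_lit 5) (nat_lit 29) (nat_lit 5) (nat_lit 30) (nat_lit 4) (nat_lit 385) (nat_lit 348) (nat_lit 167)) (XT.lf (nat_lit 0) (nat_lit 327480307537) (nat_lit 228) (nat_lit 421613156228) (nat_lit 76) (nat_lit 279171102894) (nat_lit 25) (nat_lit 5) (nat_lit 28) (nat_lit 5) (nat_lit 26) (nat_lit 4) (nat_lit 386) (nat_lit 348) (nat_lit 166)))) (XT.nd (nat_lit 78) (nat_lit 152) (nat_lit 0) (XT.lf (nat_lit 0) (nat_lit 324361148081) (nat_lit 76) (nat_lit 367009096609) (nat_lit 152) (nat_lit 398012572020) (nat_lit 24) (nat_lit 5) (nat_lit 25) (nat_lit 5) (nat_lit 26) (nat_lit 4) (nat_lit 387) (nat_lit 348) (nat_lit 165)) (XT.nd (nat_lit 78) (nat_lit 152) (nat_lit 0) (XT.lf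 (nat_lit 0) (nat_lit 1092548551747) (nat_lit 152) (nat_lit 10787341146) (nat_lit 0) (nat_lit 51645775137) (nat_lit 24) (nat_lit 5) (nat_lit 26) (nat_lit 4) (nat_lit 24) (nat_lit 4) (nat_lit 388) (nat_lit 348) (nat_lit 164)) (XT.lf (nat_lit 0) (nat_lit 309756265498) (nat_lit 152) (nat_lit 405902486926) (nat_lit 76) (nat_lit 508967228239) (nat_lit 22) (nat_lit 5) (nat_lit 24) (nat_lit 5) (nat_lit 23) (nat_lit 4) (nat_lit 389) (nat_lit 348) (nat_lit 163))))) (XT.nd (nat_lit 234) (nat_lit 0) (nat_lit 152) (XT.nd (nat_lit 78) (nat_lit 0) (nat_lit 76) (XT.lf (nat_lit 0) (nat_lit 15205717355) (nat_lit 836) (nat_lit 36608059460) (nat_lit 836) (nat_lit 36608059460) (nat_lit 106) (nat_lit 3) (nat_lit 117) (nat_lit 3) (nat_lit 117) (nat_lit 5) (nat_lit 349) (nat_lit 349) (nat_lit 202)) (XT.nd (nat_lit 78) (nat_lit 0) (nat_lit 0) (XT.lf (nat_lit 0) (nat_lit 33120792550) (nat_lit 760) (nat_lit 120334040681)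 (nat_lit 836) (nat_lit 30387938436) (nat_lit 107) (nat_lit 5) (nat_lit 117) (nat_lit 5) (nat_lit 118) (nat_lit 5) (nat_lit 350) (nat_lit 349) (nat_lit 201)) (XT.lf (nat_lit 76) (nat_lit 21363374951) (nat_lit 0) (nat_lit 18060382091) (nat_lit 836) (nat_lit 151809199046) (nat_lit 108) (nat_lit 5) (nat_lit 107) (nat_lit 5) (nat_lit 118) (nat_lit 5) (nat_lit 351) (nat_lit 349) (nat_lit 200)))) (XT.nd (nat_lit 156) (nat_lit 0) (nat_lit 152) (XT.nd (nat_lit 78) (nat_lit 0) (nat_lit 76) (XT.lf (nat_lit 0) (nat_lit 50362190839) (nat_lit 760) (nat_lit 22451462619) (nat_lit 836) (nat_lit 126194140453) (nat_lit 108) (nat_lit 5) (nat_lit 118) (nat_lit 5) (nat_lit 119) (nat_lit 5) (nat_lit 352) (nat_lit 349) (nat_lit 199)) (XT.lf (nat_lit 0) (nat_lit 65871892994) (nat_lit 760) (nat_lit 67503185434) (nat_lit 836) (nat_lit 73844730886) (nat_lit 109) (nat_lit 5) (nat_lit 119) (nat_lit 5) (nat_lit 120) (nat_lit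 5) (nat_lit 353) (nat_lit 349) (nat_lit 198))) (XT.nd (nat_lit 78) (nat_lit 0) (nat_lit 0) (XT.lf (nat_lit 0) (nat_lit 86080065438) (nat_lit 760) (nat_lit 114566112669) (nat_lit 836) (nat_lit 15269723356) (nat_lit 110) (nat_lit 5) (nat_lit 120) (nat_lit 5) (nat_lit 121) (nat_lit 5) (nat_lit 354) (nat_lit 349) (nat_lit 197)) (XT.lf (nat_lit 76) (nat_lit 60541929385) (nat_lit 0) (nat_lit 51752038312) (nat_lit 836) (nat_lit 112794259689) (nat_lit 111) (nat_lit 5) (nat_lit 110) (nat_lit 5) (nat_lit 121) (nat_lit 5) (nat_lit 355) (nat_lit 349) (nat_lit 196))))))))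
noncomputable def xc115 : XT := (XT.nd (nat_lit 1950) (nat_lit 836) (nat_lit 0) (XT.nd (nat_lit 936) (nat_lit 2204) (nat_lit 0) (XT.nd (nat_lit 468) (nat_lit 1368) (nat_lit 0) (XT.nd (nat_lit 234) (nat_lit 1064) (nat_lit 0) (XT.nd (nat_lit 78) (nat_lit 380) (nat_lit 0) (XT.lf (nat_lit 0) (nat_lit 17685681259) (nat_lit 760) (nat_lit 126926216731) (nat_lit 836) (nat_lit 90182095790) (nat_lit 101) (nat_lit 5) (nat_lit 111) (nat_lit 5) (nat_lit 112) (nat_lit 5) (nat_lit 356) (nat_lit 349) (nat_lit 195)) (XT.nd (nat_lit 78) (nat_lit 380) (nat_lit 0) (XT.lf (nat_lit 0) (nat_lit 183805562303) (nat_lit 836) (nat_lit 26185214225) (nat_lit 76) (nat_lit 35070930149) (nat_lit 101) (nat_lit 5) (nat_lit 112) (nat_lit 5) (nat_lit 102) (nat_lit 5) (nat_lit 357) (nat_lit 349) (nat_lit 194)) (XT.lf (nat_lit 0) (nat_lit 183752566423) (nat_lit 380) (nat_lit 47391059491) (nat_lit 456) (nat_lit 24756765549) (nat_lit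 96) (nat_lit 5) (nat_lit 101) (nat_lit 5) (nat_lit 102) (nat_lit 5) (nat_lit 358) (nat_lit 349) (nat_lit 193)))) (XT.nd (nat_lit 78) (nat_lit 684) (nat_lit 0) (XT.lf (nat_lit 0) (nat_lit 19023971514) (nat_lit 380) (nat_lit 121158326179) (nat_lit 76) (nat_lit 127170892216) (nat_lit 91) (nat_lit 5) (nat_lit 96) (nat_lit 5) (nat_lit 92) (nat_lit 5) (nat_lit 359) (nat_lit 349) (nat_lit 192)) (XT.nd (nat_lit 78) (nat_lit 304) (nat_lit 0) (XT.lf (nat_lit 0) (nat_lit 69791962257) (nat_lit 456) (nat_lit 172992916481) (nat_lit 76) (nat_lit 36699433636) (nat_lit 86) (nat_lit 5) (nat_lit 92) (nat_lit 5) (nat_lit 87) (nat_lit 5) (nat_lit 360) (nat_lit 349) (nat_lit 191)) (XT.lf (nat_lit 0) (nat_lit 63844117034) (nat_lit 304) (nat_lit 66282723776) (nat_lit 380) (nat_lit 162183811519) (nat_lit 82) (nat_lit 5) (nat_lit 86) (nat_lit 5) (nat_lit 87) (nat_lit 5) (nat_lit 361) (nat_lit 349) (nat_lit 190)))))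 (XT.nd (nat_lit 234) (nat_lit 760) (nat_lit 0) (XT.nd (nat_lit 78) (nat_lit 304) (nat_lit 0) (XT.lf (nat_lit 0) (nat_lit 18390955874) (nat_lit 304) (nat_lit 182188647408) (nat_lit 380) (nat_lit 105318941630) (nat_lit 78) (nat_lit 5) (nat_lit 82) (nat_lit 5) (nat_lit 83) (nat_lit 5) (nat_lit 362) (nat_lit 349) (nat_lit 189)) (XT.nd (nat_lit 78) (nat_lit 304) (nat_lit 0) (XT.lf (nat_lit 0) (nat_lit 281907877590) (nat_lit 380) (nat_lit 28478852644) (nat_lit 76) (nat_lit 9924774232) (nat_lit 78) (nat_lit 5) (nat_lit 83) (nat_lit 5) (nat_lit 79) (nat_lit 5) (nat_lit 363) (nat_lit 349) (nat_lit 188)) (XT.lf (nat_lit 0) (nat_lit 39972132131) (nat_lit 304) (nat_lit 79761866082) (nat_lit 76) (nat_lit 215757510963) (nat_lit 74) (nat_lit 5) (nat_lit 78) (nat_lit 5) (nat_lit 75) (nat_lit 5) (nat_lit 364) (nat_lit 349) (nat_lit 187)))) (XT.nd (nat_lit 78) (nat_lit 456) (nat_lit 0) (XT.lf (nat_lit 0)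 (nat_lit 128620681347) (nat_lit 380) (nat_lit 134920901255) (nat_lit 76) (nat_lit 88045443089) (nat_lit 70) (nat_lit 5) (nat_lit 75) (nat_lit 5) (nat_lit 71) (nat_lit 5) (nat_lit 365) (nat_lit 349) (nat_lit 186)) (XT.nd (nat_lit 78) (nat_lit 228) (nat_lit 0) (XT.lf (nat_lit 0) (nat_lit 174292481742) (nat_lit 228) (nat_lit 56220813493) (nat_lit 304) (nat_lit 138149279334) (nat_lit 67) (nat_lit 5) (nat_lit 70) (nat_lit 5) (nat_lit 71) (nat_lit 5) (nat_lit 366) (nat_lit 349) (nat_lit 185)) (XT.lf (nat_lit 0) (nat_lit 127498267108) (nat_lit 228) (nat_lit 220056343823) (nat_lit 304) (nat_lit 39199691865) (nat_lit 64) (nat_lit 5) (nat_lit 67) (nat_lit 5) (nat_lit 68) (nat_lit 5) (nat_lit 367) (nat_lit 349) (nat_lit 184)))))) (XT.nd (nat_lit 468) (nat_lit 1064) (nat_lit 0) (XT.nd (nat_lit 234) (nat_lit 608) (nat_lit 0) (XT.nd (nat_lit 78) (nat_lit 228) (nat_lit 0) (XT.lf (nat_lit 0) (nat_lit 71162533608)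 (nat_lit 304) (nat_lit 329727866109) (nat_lit 76) (nat_lit 5067026882) (nat_lit 60) (nat_lit 5) (nat_lit 64) (nat_lit 5) (nat_lit 61) (nat_lit 5) (nat_lit 368) (nat_lit 349) (nat_lit 183)) (XT.nd (nat_lit 78) (nat_lit 0) (nat_lit 0) (XT.lf (nat_lit 0) (nat_lit 17453866634) (nat_lit 228) (nat_lit 180117918562) (nat_lit 304) (nat_lit 228663313557) (nat_lit 57) (nat_lit 5) (nat_lit 60) (nat_lit 5) (nat_lit 61) (nat_lit 5) (nat_lit 369) (nat_lit 349) (nat_lit 182)) (XT.lf (nat_lit 0) (nat_lit 340841959755) (nat_lit 304) (nat_lit 44667985003) (nat_lit 76) (nat_lit 62287630836) (nat_lit 57) (nat_lit 5) (nat_lit 61) (nat_lit 5) (nat_lit 58) (nat_lit 5) (nat_lit 370) (nat_lit 349) (nat_lit 181)))) (XT.nd (nat_lit 78) (nat_lit 380) (nat_lit 0) (XT.lf (nat_lit 0) (nat_lit 32456256570) (nat_lit 228) (nat_lit 114215953060) (nat_lit 76) (nat_lit 323956156633) (nat_lit 54) (nat_lit 5) (nat_lit 57) (nat_lit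 5) (nat_lit 55) (nat_lit 5) (nat_lit 371) (nat_lit 349) (nat_lit 180)) (XT.nd (nat_lit 78) (nat_lit 152) (nat_lit 0) (XT.lf (nat_lit 0) (nat_lit 186716022543) (nat_lit 304) (nat_lit 192940405635) (nat_lit 76) (nat_lit 115169416139) (nat_lit 51) (nat_lit 5) (nat_lit 55) (nat_lit 5) (nat_lit 52) (nat_lit 5) (nat_lit 372) (nat_lit 349) (nat_lit 179)) (XT.lf (nat_lit 0) (nat_lit 239658568858) (nat_lit 152) (nat_lit 121894999597) (nat_lit 228) (nat_lit 158993702270) (nat_lit 49) (nat_lit 5) (nat_lit 51) (nat_lit 5) (nat_lit 52) (nat_lit 5) (nat_lit 373) (nat_lit 349) (nat_lit 178))))) (XT.nd (nat_lit 234) (nat_lit 684) (nat_lit 0) (XT.nd (nat_lit 78) (nat_lit 152) (nat_lit 0) (XT.lf (nat_lit 0) (nat_lit 10614951288) (nat_lit 228) (nat_lit 379581865257) (nat_lit 76) (nat_lit 157696547494) (nat_lit 46) (nat_lit 5) (nat_lit 49) (nat_lit 5) (nat_lit 47) (nat_lit 5) (nat_lit 374) (nat_lit 349) (nat_lit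 177)) (XT.nd (nat_lit 78) (nat_lit 0) (nat_lit 0) (XT.lf (nat_lit 0) (nat_lit 84173083413) (nat_lit 152) (nat_lit 112465898442) (nat_lit 228) (nat_lit 380236987814) (nat_lit 44) (nat_lit 5) (nat_lit 46) (nat_lit 5) (nat_lit 47) (nat_lit 5) (nat_lit 375) (nat_lit 349) (nat_lit 176)) (XT.lf (nat_lit 0) (nat_lit 407192464657) (nat_lit 228) (nat_lit 12299074405) (nat_lit 76) (nat_lit 188203268229) (nat_lit 44) (nat_lit 5) (nat_lit 47) (nat_lit 5) (nat_lit 45) (nat_lit 5) (nat_lit 376) (nat_lit 349) (nat_lit 175)))) (XT.nd (nat_lit 156) (nat_lit 304) (nat_lit 0) (XT.nd (nat_lit 78) (nat_lit 152) (nat_lit 0) (XT.lf (nat_lit 0) (nat_lit 4015749968) (nat_lit 228) (nat_lit 119215902460) (nat_lit 76) (nat_lit 517242477461) (nat_lit 41) (nat_lit 5) (nat_lit 44) (nat_lit 5) (nat_lit 42) (nat_lit 5) (nat_lit 377) (nat_lit 349) (nat_lit 174)) (XT.lf (nat_lit 0) (nat_lit 228176510739) (nat_lit 228) (nat_lit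 246065877881) (nat_lit 76) (nat_lit 200953771210) (nat_lit 39) (nat_lit 5) (nat_lit 42) (nat_lit 5) (nat_lit 40) (nat_lit 5) (nat_lit 378) (nat_lit 349) (nat_lit 173))) (XT.nd (nat_lit 78) (nat_lit 152) (nat_lit 0) (XT.lf (nat_lit 0) (nat_lit 321176796691) (nat_lit 152) (nat_lit 158296356356) (nat_lit 228) (nat_lit 232762648110) (nat_lit 37) (nat_lit 5) (nat_lit 39) (nat_lit 5) (nat_lit 40) (nat_lit 5) (nat_lit 379) (nat_lit 349) (nat_lit 172)) (XT.lf (nat_lit 0) (nat_lit 9085316512) (nat_lit 152) (nat_lit 558033980299) (nat_lit 76) (nat_lit 184600047029) (nat_lit 35) (nat_lit 5) (nat_lit 37) (nat_lit 5) (nat_lit 36) (nat_lit 5) (nat_lit 380) (nat_lit 349) (nat_lit 171))))))) (XT.nd (nat_lit 44772) (nat_lit 0) (nat_lit 3496) (XT.nd (nat_lit 468) (nat_lit 304) (nat_lit 0) (XT.nd (nat_lit 234) (nat_lit 228) (nat_lit 0) (XT.nd (nat_lit 78) (nat_lit 152) (nat_lit 0) (XT.lf (nat_lit 0) (nat_lit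 39718386524) (nat_lit 152) (nat_lit 232729770317) (nat_lit 228) (nat_lit 521206528665) (nat_lit 33) (nat_lit 5) (nat_lit 35) (nat_lit 5) (nat_lit 36) (nat_lit 5) (nat_lit 381) (nat_lit 349) (nat_lit 170)) (XT.nd (nat_lit 78) (nat_lit 152) (nat_lit 0) (XT.lf (nat_lit 0) (nat_lit 568764763802) (nat_lit 228) (nat_lit 135404984978) (nat_lit 76) (nat_lit 134180868773) (nat_lit 33) (nat_lit 5) (nat_lit 36) (nat_lit 5) (nat_lit 34) (nat_lit 4) (nat_lit 382) (nat_lit 349) (nat_lit 169)) (XT.lf (nat_lit 0) (nat_lit 14750680993) (nat_lit 152) (nat_lit 340072388440) (nat_lit 76) (nat_lit 531164690943) (nat_lit 31) (nat_lit 5) (nat_lit 33) (nat_lit 5) (nat_lit 32) (nat_lit 5) (nat_lit 383) (nat_lit 349) (nat_lit 168)))) (XT.nd (nat_lit 78) (nat_lit 76) (nat_lit 0) (XT.lf (nat_lit 0) (nat_lit 321027770070) (nat_lit 228) (nat_lit 581295861449) (nat_lit 76) (nat_lit 34459340776) (nat_lit 29) (nat_lit 5)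 (nat_lit 32) (nat_lit 5) (nat_lit 30) (nat_lit 4) (nat_lit 384) (nat_lit 349) (nat_lit 167)) (XT.nd (nat_lit 78) (nat_lit 0) (nat_lit 0) (XT.lf (nat_lit 0) (nat_lit 125423809065) (nat_lit 76) (nat_lit 540345300678) (nat_lit 152) (nat_lit 325174587265) (nat_lit 28) (nat_lit 5) (nat_lit 29) (nat_lit 5) (nat_lit 30) (nat_lit 4) (nat_lit 385) (nat_lit 349) (nat_lit 166)) (XT.lf (nat_lit 0) (nat_lit 909438849925) (nat_lit 76) (nat_lit 138776655457) (nat_lit 152) (nat_lit 715486889) (nat_lit 28) (nat_lit 5) (nat_lit 29) (nat_lit 5) (nat_lit 30) (nat_lit 4) (nat_lit 386) (nat_lit 349) (nat_lit 165))))) (XT.nd (nat_lit 44070) (nat_lit 0) (nat_lit 6308) (XT.nd (nat_lit 78) (nat_lit 76) (nat_lit 0) (XT.lf (nat_lit 0) (nat_lit 353679691191) (nat_lit 228) (nat_lit 455340443635) (nat_lit 76) (nat_lit 301505548995) (nat_lit 25) (nat_lit 5) (nat_lit 28) (nat_lit 5) (nat_lit 26) (nat_lit 4) (nat_lit 387)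 (nat_lit 349) (nat_lit 164)) (XT.nd (nat_lit 43914) (nat_lit 0) (nat_lit 6232) (XT.lf (nat_lit 0) (nat_lit 350311728310) (nat_lit 76) (nat_lit 396369050327) (nat_lit 152) (nat_lit 429852617490) (nat_lit 24) (nat_lit 5) (nat_lit 25) (nat_lit 5) (nat_lit 26) (nat_lit 4) (nat_lit 388) (nat_lit 349) (nat_lit 163)) (XT.lf (nat_lit 0) (nat_lit 16425286318) (nat_lit 836) (nat_lit 39535069292) (nat_lit 836) (nat_lit 39535069292) (nat_lit 106) (nat_lit 3) (nat_lit 117) (nat_lit 3) (nat_lit 117) (nat_lit 5) (nat_lit 350) (nat_lit 350) (nat_lit 200)))) (XT.nd (nat_lit 78) (nat_lit 0) (nat_lit 0) (XT.lf (nat_lit 0) (nat_lit 35776225068) (nat_lit 760) (nat_lit 129957298752) (nat_lit 836) (nat_lit 32816376130) (nat_lit 107) (nat_lit 5) (nat_lit 117) (nat_lit 5) (nat_lit 118) (nat_lit 5) (nat_lit 351) (nat_lit 350) (nat_lit 199)) (XT.nd (nat_lit 78) (nat_lit 0) (nat_lit 76) (XT.lf (nat_lit 76) (nat_lit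 23075759538) (nat_lit 0) (nat_lit 19507291590) (nat_lit 836) (nat_lit 163948267146) (nat_lit 108) (nat_lit 5) (nat_lit 107) (nat_lit 5) (nat_lit 118) (nat_lit 5) (nat_lit 352) (nat_lit 350) (nat_lit 198)) (XT.lf (nat_lit 0) (nat_lit 54396130055) (nat_lit 760) (nat_lit 24244226528) (nat_lit 836) (nat_lit 136287808362) (nat_lit 108) (nat_lit 5) (nat_lit 118) (nat_lit 5) (nat_lit 119) (nat_lit 5) (nat_lit 353) (nat_lit 350) (nat_lit 197)))))) (XT.nd (nat_lit 468) (nat_lit 1976) (nat_lit 0) (XT.nd (nat_lit 234) (nat_lit 988) (nat_lit 0) (XT.nd (nat_lit 78) (nat_lit 0) (nat_lit 76) (XT.lf (nat_lit 0) (nat_lit 71146268293) (nat_lit 760) (nat_lit 72899974143) (nat_lit 836) (nat_lit 79750916466) (nat_lit 109) (nat_lit 5) (nat_lit 119) (nat_lit 5) (nat_lit 120) (nat_lit 5) (nat_lit 354) (nat_lit 350) (nat_lit 196)) (XT.nd (nat_lit 78) (nat_lit 0) (nat_lit 0) (XT.lf (nat_lit 0) (nat_lit 92970787901)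 (nat_lit 760) (nat_lit 123727849976) (nat_lit 836) (nat_lit 16490316171) (nat_lit 110) (nat_lit 5) (nat_lit 120) (nat_lit 5) (nat_lit 121) (nat_lit 5) (nat_lit 355) (nat_lit 350) (nat_lit 195)) (XT.lf (nat_lit 76) (nat_lit 65388681090) (nat_lit 0) (nat_lit 55892854498) (nat_lit 836) (nat_lit 121813544067) (nat_lit 111) (nat_lit 5) (nat_lit 110) (nat_lit 5) (nat_lit 121) (nat_lit 5) (nat_lit 356) (nat_lit 350) (nat_lit 194)))) (XT.nd (nat_lit 78) (nat_lit 380) (nat_lit 0) (XT.lf (nat_lit 0) (nat_lit 19103992195) (nat_lit 760) (nat_lit 137080652596) (nat_lit 836) (nat_lit 97392675595) (nat_lit 101) (nat_lit 5) (nat_lit 111) (nat_lit 5) (nat_lit 112) (nat_lit 5) (nat_lit 357) (nat_lit 350) (nat_lit 193)) (XT.nd (nat_lit 78) (nat_lit 380) (nat_lit 0) (XT.lf (nat_lit 0) (nat_lit 198513516248) (nat_lit 836) (nat_lit 28276647459) (nat_lit 76) (nat_lit 37876301143) (nat_lit 101) (nat_lit 5) (nat_lit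 112) (nat_lit 5) (nat_lit 102) (nat_lit 5) (nat_lit 358) (nat_lit 350) (nat_lit 192)) (XT.lf (nat_lit 0) (nat_lit 198456008580) (nat_lit 380) (nat_lit 51182406980) (nat_lit 456) (nat_lit 26733839542) (nat_lit 96) (nat_lit 5) (nat_lit 101) (nat_lit 5) (nat_lit 102) (nat_lit 5) (nat_lit 359) (nat_lit 350) (nat_lit 191))))) (XT.nd (nat_lit 234) (nat_lit 912) (nat_lit 0) (XT.nd (nat_lit 78) (nat_lit 684) (nat_lit 0) (XT.lf (nat_lit 0) (nat_lit 20549047669) (nat_lit 380) (nat_lit 130847627961) (nat_lit 76) (nat_lit 137344609171) (nat_lit 91) (nat_lit 5) (nat_lit 96) (nat_lit 5) (nat_lit 92) (nat_lit 5) (nat_lit 360) (nat_lit 350) (nat_lit 190)) (XT.nd (nat_lit 78) (nat_lit 304) (nat_lit 0) (XT.lf (nat_lit 0) (nat_lit 75378297757) (nat_lit 456) (nat_lit 186828984557) (nat_lit 76) (nat_lit 39635623920) (nat_lit 86) (nat_lit 5) (nat_lit 92) (nat_lit 5) (nat_lit 87) (nat_lit 5) (nat_lit 361) (nat_lit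 350) (nat_lit 189)) (XT.lf (nat_lit 0) (nat_lit 68954865390) (nat_lit 304) (nat_lit 71584930831) (nat_lit 380) (nat_lit 175155565848) (nat_lit 82) (nat_lit 5) (nat_lit 86) (nat_lit 5) (nat_lit 87) (nat_lit 5) (nat_lit 362) (nat_lit 350) (nat_lit 188)))) (XT.nd (nat_lit 156) (nat_lit 608) (nat_lit 0) (XT.nd (nat_lit 78) (nat_lit 0) (nat_lit 0) (XT.lf (nat_lit 0) (nat_lit 19865441565) (nat_lit 304) (nat_lit 196763186160) (nat_lit 380) (nat_lit 113741666083) (nat_lit 78) (nat_lit 5) (nat_lit 82) (nat_lit 5) (nat_lit 83) (nat_lit 5) (nat_lit 363) (nat_lit 350) (nat_lit 187)) (XT.lf (nat_lit 0) (nat_lit 304462975218) (nat_lit 380) (nat_lit 30754072630) (nat_lit 76) (nat_lit 10719251856) (nat_lit 78) (nat_lit 5) (nat_lit 83) (nat_lit 5) (nat_lit 79) (nat_lit 5) (nat_lit 364) (nat_lit 350) (nat_lit 186))) (XT.nd (nat_lit 78) (nat_lit 304) (nat_lit 0) (XT.lf (nat_lit 0) (nat_lit 43172273248) (nat_lit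 304) (nat_lit 86139781431) (nat_lit 76) (nat_lit 233018655163) (nat_lit 74) (nat_lit 5) (nat_lit 78) (nat_lit 5) (nat_lit 75) (nat_lit 5) (nat_lit 365) (nat_lit 350) (nat_lit 185)) (XT.lf (nat_lit 0) (nat_lit 138912586447) (nat_lit 380) (nat_lit 145711568161) (nat_lit 76) (nat_lit 95089719181) (nat_lit 70) (nat_lit 5) (nat_lit 75) (nat_lit 5) (nat_lit 71) (nat_lit 5) (nat_lit 366) (nat_lit 350) (nat_lit 184))))))))
noncomputable def xc116 : XT := (XT.nd (nat_lit 45786) (nat_lit 0) (nat_lit 1444) (XT.nd (nat_lit 936) (nat_lit 1216) (nat_lit 0) (XT.nd (nat_lit 468) (nat_lit 988) (nat_lit 0) (XT.nd (nat_lit 234) (nat_lit 456) (nat_lit 0) (XT.nd (nat_lit 78) (nat_lit 532) (nat_lit 0) (XT.lf (nat_lit 0) (nat_lit 188238754874) (nat_lit 228) (nat_lit 60717732742) (nat_lit 304) (nat_lit 149198985158) (nat_lit 67) (nat_lit 5) (nat_lit 70) (nat_lit 5) (nat_lit 71) (nat_lit 5) (nat_lit 367) (nat_lit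 350) (nat_lit 183)) (XT.nd (nat_lit 78) (nat_lit 304) (nat_lit 0) (XT.lf (nat_lit 0) (nat_lit 137700970082) (nat_lit 228) (nat_lit 237660035948) (nat_lit 304) (nat_lit 42333538455) (nat_lit 64) (nat_lit 5) (nat_lit 67) (nat_lit 5) (nat_lit 68) (nat_lit 5) (nat_lit 368) (nat_lit 350) (nat_lit 182)) (XT.lf (nat_lit 0) (nat_lit 76857500760) (nat_lit 304) (nat_lit 356103225350) (nat_lit 76) (nat_lit 5473195314) (nat_lit 60) (nat_lit 5) (nat_lit 64) (nat_lit 5) (nat_lit 61) (nat_lit 5) (nat_lit 369) (nat_lit 350) (nat_lit 181)))) (XT.nd (nat_lit 78) (nat_lit 228) (nat_lit 0) (XT.lf (nat_lit 0) (nat_lit 18852921284) (nat_lit 228) (nat_lit 194526468538) (nat_lit 304) (nat_lit 246954422742) (nat_lit 57) (nat_lit 5) (nat_lit 60) (nat_lit 5) (nat_lit 61) (nat_lit 5) (nat_lit 370) (nat_lit 350) (nat_lit 180)) (XT.nd (nat_lit 78) (nat_lit 228) (nat_lit 0) (XT.lf (nat_lit 0) (nat_lit 368111053206) (nat_lit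 304) (nat_lit 48238807493) (nat_lit 76) (nat_lit 67271433184) (nat_lit 57) (nat_lit 5) (nat_lit 61) (nat_lit 5) (nat_lit 58) (nat_lit 5) (nat_lit 371) (nat_lit 350) (nat_lit 179)) (XT.lf (nat_lit 0) (nat_lit 35054432028) (nat_lit 228) (nat_lit 123350670500) (nat_lit 76) (nat_lit 349873448475) (nat_lit 54) (nat_lit 5) (nat_lit 57) (nat_lit 5) (nat_lit 55) (nat_lit 5) (nat_lit 372) (nat_lit 350) (nat_lit 178))))) (XT.nd (nat_lit 234) (nat_lit 380) (nat_lit 0) (XT.nd (nat_lit 78) (nat_lit 380) (nat_lit 0) (XT.lf (nat_lit 0) (nat_lit 201654906828) (nat_lit 304) (nat_lit 208373123677) (nat_lit 76) (nat_lit 124383800478) (nat_lit 51) (nat_lit 5) (nat_lit 55) (nat_lit 5) (nat_lit 52) (nat_lit 5) (nat_lit 373) (nat_lit 350) (nat_lit 177)) (XT.nd (nat_lit 78) (nat_lit 228) (nat_lit 0) (XT.lf (nat_lit 0) (nat_lit 258833659502) (nat_lit 152) (nat_lit 131645715759) (nat_lit 228) (nat_lit 171711600356)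 (nat_lit 49) (nat_lit 5) (nat_lit 51) (nat_lit 5) (nat_lit 52) (nat_lit 5) (nat_lit 374) (nat_lit 350) (nat_lit 176)) (XT.lf (nat_lit 0) (nat_lit 11465630199) (nat_lit 228) (nat_lit 409946003990) (nat_lit 76) (nat_lit 170313124217) (nat_lit 46) (nat_lit 5) (nat_lit 49) (nat_lit 5) (nat_lit 47) (nat_lit 5) (nat_lit 375) (nat_lit 350) (nat_lit 175)))) (XT.nd (nat_lit 78) (nat_lit 228) (nat_lit 0) (XT.lf (nat_lit 0) (nat_lit 90909235817) (nat_lit 152) (nat_lit 121462273556) (nat_lit 228) (nat_lit 410654466851) (nat_lit 44) (nat_lit 5) (nat_lit 46) (nat_lit 5) (nat_lit 47) (nat_lit 5) (nat_lit 376) (nat_lit 350) (nat_lit 174)) (XT.nd (nat_lit 78) (nat_lit 228) (nat_lit 0) (XT.lf (nat_lit 0) (nat_lit 439769179395) (nat_lit 228) (nat_lit 13280812626) (nat_lit 76) (nat_lit 203260333447) (nat_lit 44) (nat_lit 5) (nat_lit 47) (nat_lit 5) (nat_lit 45) (nat_lit 5) (nat_lit 377) (nat_lit 350) (nat_lit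 173)) (XT.lf (nat_lit 0) (nat_lit 4338283614) (nat_lit 228) (nat_lit 128751039423) (nat_lit 76) (nat_lit 558622673095) (nat_lit 41) (nat_lit 5) (nat_lit 44) (nat_lit 5) (nat_lit 42) (nat_lit 5) (nat_lit 378) (nat_lit 350) (nat_lit 172)))))) (XT.nd (nat_lit 468) (nat_lit 456) (nat_lit 0) (XT.nd (nat_lit 234) (nat_lit 304) (nat_lit 0) (XT.nd (nat_lit 78) (nat_lit 304) (nat_lit 0) (XT.lf (nat_lit 0) (nat_lit 246431855769) (nat_lit 228) (nat_lit 265749057659) (nat_lit 76) (nat_lit 217030877549) (nat_lit 39) (nat_lit 5) (nat_lit 42) (nat_lit 5) (nat_lit 40) (nat_lit 5) (nat_lit 379) (nat_lit 350) (nat_lit 171)) (XT.nd (nat_lit 78) (nat_lit 152) (nat_lit 0) (XT.lf (nat_lit 0) (nat_lit 346872940030) (nat_lit 152) (nat_lit 170959229971) (nat_lit 228) (nat_lit 251382436613) (nat_lit 37) (nat_lit 5) (nat_lit 39) (nat_lit 5) (nat_lit 40) (nat_lit 5) (nat_lit 380) (nat_lit 350) (nat_lit 170)) (XT.lf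 (nat_lit 0) (nat_lit 9813281618) (nat_lit 152) (nat_lit 602674704361) (nat_lit 76) (nat_lit 199368848026) (nat_lit 35) (nat_lit 5) (nat_lit 37) (nat_lit 5) (nat_lit 36) (nat_lit 5) (nat_lit 381) (nat_lit 350) (nat_lit 169)))) (XT.nd (nat_lit 78) (nat_lit 152) (nat_lit 0) (XT.lf (nat_lit 0) (nat_lit 42897765135) (nat_lit 152) (nat_lit 251347329394) (nat_lit 228) (nat_lit 562901911234) (nat_lit 33) (nat_lit 5) (nat_lit 35) (nat_lit 5) (nat_lit 36) (nat_lit 5) (nat_lit 382) (nat_lit 350) (nat_lit 168)) (XT.nd (nat_lit 78) (nat_lit 152) (nat_lit 0) (XT.lf (nat_lit 0) (nat_lit 614266961557) (nat_lit 228) (nat_lit 146235578748) (nat_lit 76) (nat_lit 144916075517) (nat_lit 33) (nat_lit 5) (nat_lit 36) (nat_lit 5) (nat_lit 34) (nat_lit 4) (nat_lit 383) (nat_lit 350) (nat_lit 167)) (XT.lf (nat_lit 0) (nat_lit 15931719918) (nat_lit 152) (nat_lit 367276420115) (nat_lit 76) (nat_lit 573658591685) (nat_lit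 31) (nat_lit 5) (nat_lit 33) (nat_lit 5) (nat_lit 32) (nat_lit 5) (nat_lit 384) (nat_lit 350) (nat_lit 166))))) (XT.nd (nat_lit 234) (nat_lit 228) (nat_lit 0) (XT.nd (nat_lit 78) (nat_lit 76) (nat_lit 0) (XT.lf (nat_lit 0) (nat_lit 346710941109) (nat_lit 228) (nat_lit 627797811922) (nat_lit 76) (nat_lit 37216809329) (nat_lit 29) (nat_lit 5) (nat_lit 32) (nat_lit 5) (nat_lit 30) (nat_lit 4) (nat_lit 385) (nat_lit 350) (nat_lit 165)) (XT.nd (nat_lit 78) (nat_lit 0) (nat_lit 0) (XT.lf (nat_lit 0) (nat_lit 135459357552) (nat_lit 76) (nat_lit 583572185739) (nat_lit 152) (nat_lit 351187604011) (nat_lit 28) (nat_lit 5) (nat_lit 29) (nat_lit 5) (nat_lit 30) (nat_lit 4) (nat_lit 386) (nat_lit 350) (nat_lit 164)) (XT.lf (nat_lit 0) (nat_lit 982195479920) (nat_lit 76) (nat_lit 149878103640) (nat_lit 152) (nat_lit 771845993) (nat_lit 28) (nat_lit 5) (nat_lit 29) (nat_lit 5) (nat_lit 30) (nat_lit 4)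 (nat_lit 387) (nat_lit 350) (nat_lit 163)))) (XT.nd (nat_lit 43992) (nat_lit 0) (nat_lit 6156) (XT.lf (nat_lit 0) (nat_lit 381974888719) (nat_lit 228) (nat_lit 491766165845) (nat_lit 76) (nat_lit 325626642665) (nat_lit 25) (nat_lit 5) (nat_lit 28) (nat_lit 5) (nat_lit 26) (nat_lit 4) (nat_lit 388) (nat_lit 350) (nat_lit 162)) (XT.nd (nat_lit 78) (nat_lit 0) (nat_lit 76) (XT.lf (nat_lit 0) (nat_lit 17741976897) (nat_lit 836) (nat_lit 42696473150) (nat_lit 836) (nat_lit 42696473150) (nat_lit 106) (nat_lit 3) (nat_lit 117) (nat_lit 3) (nat_lit 117) (nat_lit 5) (nat_lit 351) (nat_lit 351) (nat_lit 198)) (XT.lf (nat_lit 0) (nat_lit 38643269160) (nat_lit 760) (nat_lit 140350911816) (nat_lit 836) (nat_lit 35439459385) (nat_lit 107) (nat_lit 5) (nat_lit 117) (nat_lit 5) (nat_lit 118) (nat_lit 5) (nat_lit 352) (nat_lit 351) (nat_lit 197))))))) (XT.nd (nat_lit 936) (nat_lit 2584) (nat_lit 0) (XT.nd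 (nat_lit 468) (nat_lit 1748) (nat_lit 0) (XT.nd (nat_lit 234) (nat_lit 456) (nat_lit 0) (XT.nd (nat_lit 78) (nat_lit 0) (nat_lit 76) (XT.lf (nat_lit 76) (nat_lit 24924662028) (nat_lit 0) (nat_lit 21069657266) (nat_lit 836) (nat_lit 177059269274) (nat_lit 108) (nat_lit 5) (nat_lit 107) (nat_lit 5) (nat_lit 118) (nat_lit 5) (nat_lit 353) (nat_lit 351) (nat_lit 196)) (XT.nd (nat_lit 78) (nat_lit 0) (nat_lit 76) (XT.lf (nat_lit 0) (nat_lit 58752076245) (nat_lit 760) (nat_lit 26180889906) (nat_lit 836) (nat_lit 147189235529) (nat_lit 108) (nat_lit 5) (nat_lit 118) (nat_lit 5) (nat_lit 119) (nat_lit 5) (nat_lit 354) (nat_lit 351) (nat_lit 195)) (XT.lf (nat_lit 0) (nat_lit 76841933970) (nat_lit 760) (nat_lit 78729000430) (nat_lit 836) (nat_lit 86129795604) (nat_lit 109) (nat_lit 5) (nat_lit 119) (nat_lit 5) (nat_lit 120) (nat_lit 5) (nat_lit 355) (nat_lit 351) (nat_lit 194)))) (XT.nd (nat_lit 78)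 (nat_lit 684) (nat_lit 0) (XT.lf (nat_lit 0) (nat_lit 100412152259) (nat_lit 760) (nat_lit 133623032959) (nat_lit 836) (nat_lit 17808696941) (nat_lit 110) (nat_lit 5) (nat_lit 120) (nat_lit 5) (nat_lit 121) (nat_lit 5) (nat_lit 356) (nat_lit 351) (nat_lit 193)) (XT.nd (nat_lit 78) (nat_lit 684) (nat_lit 0) (XT.lf (nat_lit 76) (nat_lit 70622688260) (nat_lit 0) (nat_lit 60364842804) (nat_lit 836) (nat_lit 131554978418) (nat_lit 111) (nat_lit 5) (nat_lit 110) (nat_lit 5) (nat_lit 121) (nat_lit 5) (nat_lit 357) (nat_lit 351) (nat_lit 192)) (XT.lf (nat_lit 0) (nat_lit 20635274908) (nat_lit 760) (nat_lit 148047395036) (nat_lit 836) (nat_lit 105180670698) (nat_lit 101) (nat_lit 5) (nat_lit 111) (nat_lit 5) (nat_lit 112) (nat_lit 5) (nat_lit 358) (nat_lit 351) (nat_lit 191))))) (XT.nd (nat_lit 234) (nat_lit 988) (nat_lit 0) (XT.nd (nat_lit 78) (nat_lit 760) (nat_lit 0) (XT.lf (nat_lit 0) (nat_lit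 214397605916) (nat_lit 836) (nat_lit 30535878103) (nat_lit 76) (nat_lit 40906145102) (nat_lit 101) (nat_lit 5) (nat_lit 112) (nat_lit 5) (nat_lit 102) (nat_lit 5) (nat_lit 359) (nat_lit 351) (nat_lit 190)) (XT.nd (nat_lit 78) (nat_lit 380) (nat_lit 0) (XT.lf (nat_lit 0) (nat_lit 214335264338) (nat_lit 380) (nat_lit 55277053319) (nat_lit 456) (nat_lit 28869574098) (nat_lit 96) (nat_lit 5) (nat_lit 101) (nat_lit 5) (nat_lit 102) (nat_lit 5) (nat_lit 360) (nat_lit 351) (nat_lit 189)) (XT.lf (nat_lit 0) (nat_lit 22195679331) (nat_lit 380) (nat_lit 141312553842) (nat_lit 76) (nat_lit 148332216979) (nat_lit 91) (nat_lit 5) (nat_lit 96) (nat_lit 5) (nat_lit 92) (nat_lit 5) (nat_lit 361) (nat_lit 351) (nat_lit 188)))) (XT.nd (nat_lit 78) (nat_lit 608) (nat_lit 0) (XT.lf (nat_lit 0) (nat_lit 81411115178) (nat_lit 456) (nat_lit 201772418169) (nat_lit 76) (nat_lit 42806675818) (nat_lit 86) (nat_lit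 5) (nat_lit 92) (nat_lit 5) (nat_lit 87) (nat_lit 5) (nat_lit 362) (nat_lit 351) (nat_lit 187)) (XT.nd (nat_lit 78) (nat_lit 304) (nat_lit 0) (XT.lf (nat_lit 0) (nat_lit 74474014389) (nat_lit 304) (nat_lit 77311373063) (nat_lit 380) (nat_lit 189165481457) (nat_lit 82) (nat_lit 5) (nat_lit 86) (nat_lit 5) (nat_lit 87) (nat_lit 5) (nat_lit 363) (nat_lit 351) (nat_lit 186)) (XT.lf (nat_lit 0) (nat_lit 21457428279) (nat_lit 304) (nat_lit 212503766910) (nat_lit 380) (nat_lit 122838606642) (nat_lit 78) (nat_lit 5) (nat_lit 82) (nat_lit 5) (nat_lit 83) (nat_lit 5) (nat_lit 364) (nat_lit 351) (nat_lit 185)))))) (XT.nd (nat_lit 468) (nat_lit 1216) (nat_lit 0) (XT.nd (nat_lit 234) (nat_lit 760) (nat_lit 0) (XT.nd (nat_lit 78) (nat_lit 608) (nat_lit 0) (XT.lf (nat_lit 0) (nat_lit 328822128650) (nat_lit 380) (nat_lit 33211750785) (nat_lit 76) (nat_lit 11577216975) (nat_lit 78) (nat_lit 5) (nat_lit 83)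 (nat_lit 5) (nat_lit 79) (nat_lit 5) (nat_lit 365) (nat_lit 351) (nat_lit 184)) (XT.nd (nat_lit 78) (nat_lit 304) (nat_lit 0) (XT.lf (nat_lit 0) (nat_lit 46628087468) (nat_lit 304) (nat_lit 93028362832) (nat_lit 76) (nat_lit 251660613387) (nat_lit 74) (nat_lit 5) (nat_lit 78) (nat_lit 5) (nat_lit 75) (nat_lit 5) (nat_lit 366) (nat_lit 351) (nat_lit 183)) (XT.lf (nat_lit 0) (nat_lit 150027522883) (nat_lit 380) (nat_lit 157365917144) (nat_lit 76) (nat_lit 102697445965) (nat_lit 70) (nat_lit 5) (nat_lit 75) (nat_lit 5) (nat_lit 71) (nat_lit 5) (nat_lit 367) (nat_lit 351) (nat_lit 182)))) (XT.nd (nat_lit 78) (nat_lit 532) (nat_lit 0) (XT.lf (nat_lit 0) (nat_lit 203300319764) (nat_lit 228) (nat_lit 65574511933) (nat_lit 304) (nat_lit 161132986513) (nat_lit 67) (nat_lit 5) (nat_lit 70) (nat_lit 5) (nat_lit 71) (nat_lit 5) (nat_lit 368) (nat_lit 351) (nat_lit 181)) (XT.nd (nat_lit 78) (nat_lit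 304) (nat_lit 0) (XT.lf (nat_lit 0) (nat_lit 148719483907) (nat_lit 228) (nat_lit 256672139765) (nat_lit 304) (nat_lit 45718396464) (nat_lit 64) (nat_lit 5) (nat_lit 67) (nat_lit 5) (nat_lit 68) (nat_lit 5) (nat_lit 369) (nat_lit 351) (nat_lit 180)) (XT.lf (nat_lit 0) (nat_lit 83007785031) (nat_lit 304) (nat_lit 384589022774) (nat_lit 76) (nat_lit 5911742196) (nat_lit 60) (nat_lit 5) (nat_lit 64) (nat_lit 5) (nat_lit 61) (nat_lit 5) (nat_lit 370) (nat_lit 351) (nat_lit 179))))) (XT.nd (nat_lit 234) (nat_lit 760) (nat_lit 0) (XT.nd (nat_lit 78) (nat_lit 228) (nat_lit 0) (XT.lf (nat_lit 0) (nat_lit 20363508656) (nat_lit 228) (nat_lit 210087828554) (nat_lit 304) (nat_lit 266709099693) (nat_lit 57) (nat_lit 5) (nat_lit 60) (nat_lit 5) (nat_lit 61) (nat_lit 5) (nat_lit 371) (nat_lit 351) (nat_lit 178)) (XT.nd (nat_lit 78) (nat_lit 228) (nat_lit 0) (XT.lf (nat_lit 0) (nat_lit 397561426377) (nat_lit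 304) (nat_lit 52095669028) (nat_lit 76) (nat_lit 72653826749) (nat_lit 57) (nat_lit 5) (nat_lit 61) (nat_lit 5) (nat_lit 58) (nat_lit 5) (nat_lit 372) (nat_lit 351) (nat_lit 177)) (XT.lf (nat_lit 0) (nat_lit 37860222574) (nat_lit 228) (nat_lit 133216530376) (nat_lit 76) (nat_lit 377864009634) (nat_lit 54) (nat_lit 5) (nat_lit 57) (nat_lit 5) (nat_lit 55) (nat_lit 5) (nat_lit 373) (nat_lit 351) (nat_lit 176)))) (XT.nd (nat_lit 156) (nat_lit 380) (nat_lit 0) (XT.nd (nat_lit 78) (nat_lit 152) (nat_lit 0) (XT.lf (nat_lit 0) (nat_lit 217788673243) (nat_lit 304) (nat_lit 225040817871) (nat_lit 76) (nat_lit 134335217007) (nat_lit 51) (nat_lit 5) (nat_lit 55) (nat_lit 5) (nat_lit 52) (nat_lit 5) (nat_lit 374) (nat_lit 351) (nat_lit 175)) (XT.lf (nat_lit 0) (nat_lit 279542414278) (nat_lit 152) (nat_lit 142176615298) (nat_lit 228) (nat_lit 185447158275) (nat_lit 49) (nat_lit 5) (nat_lit 51) (nat_lit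 5) (nat_lit 52) (nat_lit 5) (nat_lit 375) (nat_lit 351) (nat_lit 174))) (XT.nd (nat_lit 78) (nat_lit 152) (nat_lit 0) (XT.lf (nat_lit 0) (nat_lit 12384151883) (nat_lit 228) (nat_lit 442739617705) (nat_lit 76) (nat_lit 183938905398) (nat_lit 46) (nat_lit 5) (nat_lit 49) (nat_lit 5) (nat_lit 47) (nat_lit 5) (nat_lit 376) (nat_lit 351) (nat_lit 173)) (XT.lf (nat_lit 0) (nat_lit 98183951474) (nat_lit 152) (nat_lit 131178486612) (nat_lit 228) (nat_lit 443505555347) (nat_lit 44) (nat_lit 5) (nat_lit 46) (nat_lit 5) (nat_lit 47) (nat_lit 5) (nat_lit 377) (nat_lit 351) (nat_lit 172))))))))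
noncomputable def xc117 : XT := (XT.nd (nat_lit 45942) (nat_lit 0) (nat_lit 0) (XT.nd (nat_lit 44928) (nat_lit 0) (nat_lit 3800) (XT.nd (nat_lit 468) (nat_lit 380) (nat_lit 0) (XT.nd (nat_lit 234) (nat_lit 456) (nat_lit 0) (XT.nd (nat_lit 78) (nat_lit 380) (nat_lit 0) (XT.lf (nat_lit 0) (nat_lit 474951843346) (nat_lit 228) (nat_lit 14341402010) (nat_lit 76) (nat_lit 219521849217) (nat_lit 44) (nat_lit 5) (nat_lit 47) (nat_lit 5) (nat_lit 45) (nat_lit 5) (nat_lit 378) (nat_lit 351) (nat_lit 171)) (XT.nd (nat_lit 78) (nat_lit 152) (nat_lit 0) (XT.lf (nat_lit 0) (nat_lit 4686438252) (nat_lit 228) (nat_lit 139049291958) (nat_lit 76) (nat_lit 603313170616) (nat_lit 41) (nat_lit 5) (nat_lit 44) (nat_lit 5) (nat_lit 42) (nat_lit 5) (nat_lit 379) (nat_lit 351) (nat_lit 170)) (XT.lf (nat_lit 0) (nat_lit 266147453760) (nat_lit 228) (nat_lit 287007190045) (nat_lit 76) (nat_lit 234394037603) (nat_lit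 39) (nat_lit 5) (nat_lit 42) (nat_lit 5) (nat_lit 40) (nat_lit 5) (nat_lit 380) (nat_lit 351) (nat_lit 169)))) (XT.nd (nat_lit 78) (nat_lit 304) (nat_lit 0) (XT.lf (nat_lit 0) (nat_lit 374624489571) (nat_lit 152) (nat_lit 184635252582) (nat_lit 228) (nat_lit 271491982719) (nat_lit 37) (nat_lit 5) (nat_lit 39) (nat_lit 5) (nat_lit 40) (nat_lit 5) (nat_lit 381) (nat_lit 351) (nat_lit 168)) (XT.nd (nat_lit 78) (nat_lit 152) (nat_lit 0) (XT.lf (nat_lit 0) (nat_lit 10599321330) (nat_lit 152) (nat_lit 650886970866) (nat_lit 76) (nat_lit 215319039368) (nat_lit 35) (nat_lit 5) (nat_lit 37) (nat_lit 5) (nat_lit 36) (nat_lit 5) (nat_lit 382) (nat_lit 351) (nat_lit 167)) (XT.lf (nat_lit 0) (nat_lit 46331221882) (nat_lit 152) (nat_lit 271454410543) (nat_lit 228) (nat_lit 607933087002) (nat_lit 33) (nat_lit 5) (nat_lit 35) (nat_lit 5) (nat_lit 36) (nat_lit 5) (nat_lit 383) (nat_lit 351) (nat_lit 166)))))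 (XT.nd (nat_lit 234) (nat_lit 76) (nat_lit 0) (XT.nd (nat_lit 78) (nat_lit 304) (nat_lit 0) (XT.lf (nat_lit 0) (nat_lit 663409190096) (nat_lit 228) (nat_lit 157932877527) (nat_lit 76) (nat_lit 156509993625) (nat_lit 33) (nat_lit 5) (nat_lit 36) (nat_lit 5) (nat_lit 34) (nat_lit 4) (nat_lit 384) (nat_lit 351) (nat_lit 165)) (XT.nd (nat_lit 78) (nat_lit 152) (nat_lit 0) (XT.lf (nat_lit 0) (nat_lit 17207101514) (nat_lit 152) (nat_lit 396657025321) (nat_lit 76) (nat_lit 619551900991) (nat_lit 31) (nat_lit 5) (nat_lit 33) (nat_lit 5) (nat_lit 32) (nat_lit 5) (nat_lit 385) (nat_lit 351) (nat_lit 164)) (XT.lf (nat_lit 0) (nat_lit 374448630383) (nat_lit 228) (nat_lit 678020163588) (nat_lit 76) (nat_lit 40194772467) (nat_lit 29) (nat_lit 5) (nat_lit 32) (nat_lit 5) (nat_lit 30) (nat_lit 4) (nat_lit 386) (nat_lit 351) (nat_lit 163)))) (XT.nd (nat_lit 78) (nat_lit 0) (nat_lit 0) (XT.lf (nat_lit 0)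 (nat_lit 146297515416) (nat_lit 76) (nat_lit 630257327031) (nat_lit 152) (nat_lit 379281797658) (nat_lit 28) (nat_lit 5) (nat_lit 29) (nat_lit 5) (nat_lit 30) (nat_lit 4) (nat_lit 387) (nat_lit 351) (nat_lit 162)) (XT.nd (nat_lit 44070) (nat_lit 0) (nat_lit 5928) (XT.lf (nat_lit 0) (nat_lit 1060772423184) (nat_lit 76) (nat_lit 161867765295) (nat_lit 152) (nat_lit 832839345) (nat_lit 28) (nat_lit 5) (nat_lit 29) (nat_lit 5) (nat_lit 30) (nat_lit 4) (nat_lit 388) (nat_lit 351) (nat_lit 161)) (XT.lf (nat_lit 0) (nat_lit 19163622149) (nat_lit 836) (nat_lit 46110989284) (nat_lit 836) (nat_lit 46110989284) (nat_lit 106) (nat_lit 3) (nat_lit 117) (nat_lit 3) (nat_lit 117) (nat_lit 5) (nat_lit 352) (nat_lit 352) (nat_lit 196)))))) (XT.nd (nat_lit 468) (nat_lit 2204) (nat_lit 0) (XT.nd (nat_lit 234) (nat_lit 0) (nat_lit 152) (XT.nd (nat_lit 78) (nat_lit 0) (nat_lit 0) (XT.lf (nat_lit 0) (nat_lit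 41738971164) (nat_lit 760) (nat_lit 151576437747) (nat_lit 836) (nat_lit 38272706984) (nat_lit 107) (nat_lit 5) (nat_lit 117) (nat_lit 5) (nat_lit 118) (nat_lit 5) (nat_lit 353) (nat_lit 352) (nat_lit 195)) (XT.nd (nat_lit 78) (nat_lit 0) (nat_lit 76) (XT.lf (nat_lit 76) (nat_lit 26921071314) (nat_lit 0) (nat_lit 22756757925) (nat_lit 836) (nat_lit 191219844797) (nat_lit 108) (nat_lit 5) (nat_lit 107) (nat_lit 5) (nat_lit 118) (nat_lit 5) (nat_lit 354) (nat_lit 352) (nat_lit 194)) (XT.lf (nat_lit 0) (nat_lit 63455890996) (nat_lit 760) (nat_lit 28272896470) (nat_lit 836) (nat_lit 158963004770) (nat_lit 108) (nat_lit 5) (nat_lit 118) (nat_lit 5) (nat_lit 119) (nat_lit 5) (nat_lit 355) (nat_lit 352) (nat_lit 193)))) (XT.nd (nat_lit 78) (nat_lit 0) (nat_lit 76) (XT.lf (nat_lit 0) (nat_lit 82992687363) (nat_lit 760) (nat_lit 85024772759) (nat_lit 836) (nat_lit 93019155436) (nat_lit 109) (nat_lit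 5) (nat_lit 119) (nat_lit 5) (nat_lit 120) (nat_lit 5) (nat_lit 356) (nat_lit 352) (nat_lit 192)) (XT.nd (nat_lit 78) (nat_lit 0) (nat_lit 0) (XT.lf (nat_lit 0) (nat_lit 108448297731) (nat_lit 760) (nat_lit 144310264985) (nat_lit 836) (nat_lit 19232668653) (nat_lit 110) (nat_lit 5) (nat_lit 120) (nat_lit 5) (nat_lit 121) (nat_lit 5) (nat_lit 357) (nat_lit 352) (nat_lit 191)) (XT.lf (nat_lit 76) (nat_lit 76275000477) (nat_lit 0) (nat_lit 65194510292) (nat_lit 836) (nat_lit 142076248112) (nat_lit 111) (nat_lit 5) (nat_lit 110) (nat_lit 5) (nat_lit 121) (nat_lit 5) (nat_lit 358) (nat_lit 352) (nat_lit 190))))) (XT.nd (nat_lit 234) (nat_lit 1368) (nat_lit 0) (XT.nd (nat_lit 78) (nat_lit 380) (nat_lit 0) (XT.lf (nat_lit 0) (nat_lit 22288637484) (nat_lit 760) (nat_lit 159891435466) (nat_lit 836) (nat_lit 113592193159) (nat_lit 101) (nat_lit 5) (nat_lit 111) (nat_lit 5) (nat_lit 112) (nat_lit 5)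 (nat_lit 359) (nat_lit 352) (nat_lit 189)) (XT.nd (nat_lit 78) (nat_lit 380) (nat_lit 0) (XT.lf (nat_lit 0) (nat_lit 231551993580) (nat_lit 836) (nat_lit 32976261081) (nat_lit 76) (nat_lit 44178413689) (nat_lit 101) (nat_lit 5) (nat_lit 112) (nat_lit 5) (nat_lit 102) (nat_lit 5) (nat_lit 360) (nat_lit 352) (nat_lit 188)) (XT.lf (nat_lit 0) (nat_lit 231484464662) (nat_lit 380) (nat_lit 59699263693) (nat_lit 456) (nat_lit 31176591493) (nat_lit 96) (nat_lit 5) (nat_lit 101) (nat_lit 5) (nat_lit 102) (nat_lit 5) (nat_lit 361) (nat_lit 352) (nat_lit 187)))) (XT.nd (nat_lit 156) (nat_lit 608) (nat_lit 0) (XT.nd (nat_lit 78) (nat_lit 380) (nat_lit 0) (XT.lf (nat_lit 0) (nat_lit 23973655221) (nat_lit 380) (nat_lit 152615085280) (nat_lit 76) (nat_lit 160198827838) (nat_lit 91) (nat_lit 5) (nat_lit 96) (nat_lit 5) (nat_lit 92) (nat_lit 5) (nat_lit 362) (nat_lit 352) (nat_lit 186)) (XT.lf (nat_lit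 0) (nat_lit 87926193694) (nat_lit 456) (nat_lit 217911738068) (nat_lit 76) (nat_lit 46231383051) (nat_lit 86) (nat_lit 5) (nat_lit 92) (nat_lit 5) (nat_lit 87) (nat_lit 5) (nat_lit 363) (nat_lit 352) (nat_lit 185))) (XT.nd (nat_lit 78) (nat_lit 304) (nat_lit 0) (XT.lf (nat_lit 0) (nat_lit 80434301596) (nat_lit 304) (nat_lit 83495980923) (nat_lit 380) (nat_lit 204296551200) (nat_lit 82) (nat_lit 5) (nat_lit 86) (nat_lit 5) (nat_lit 87) (nat_lit 5) (nat_lit 364) (nat_lit 352) (nat_lit 184)) (XT.lf (nat_lit 0) (nat_lit 23176381414) (nat_lit 304) (nat_lit 229503661761) (nat_lit 380) (nat_lit 132663643796) (nat_lit 78) (nat_lit 5) (nat_lit 82) (nat_lit 5) (nat_lit 83) (nat_lit 5) (nat_lit 365) (nat_lit 352) (nat_lit 183))))))) (XT.nd (nat_lit 936) (nat_lit 1368) (nat_lit 0) (XT.nd (nat_lit 468) (nat_lit 1064) (nat_lit 0) (XT.nd (nat_lit 234) (nat_lit 760) (nat_lit 0) (XT.nd (nat_lit 78) (nat_lit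 608) (nat_lit 0) (XT.lf (nat_lit 0) (nat_lit 355129712570) (nat_lit 380) (nat_lit 35866420909) (nat_lit 76) (nat_lit 12503758676) (nat_lit 78) (nat_lit 5) (nat_lit 83) (nat_lit 5) (nat_lit 79) (nat_lit 5) (nat_lit 366) (nat_lit 352) (nat_lit 182)) (XT.nd (nat_lit 78) (nat_lit 304) (nat_lit 0) (XT.lf (nat_lit 0) (nat_lit 50360076888) (nat_lit 304) (nat_lit 100468401824) (nat_lit 76) (nat_lit 271793861817) (nat_lit 74) (nat_lit 5) (nat_lit 78) (nat_lit 5) (nat_lit 75) (nat_lit 5) (nat_lit 367) (nat_lit 352) (nat_lit 181)) (XT.lf (nat_lit 0) (nat_lit 162031378966) (nat_lit 380) (nat_lit 169952981608) (nat_lit 76) (nat_lit 110913712535) (nat_lit 70) (nat_lit 5) (nat_lit 75) (nat_lit 5) (nat_lit 71) (nat_lit 5) (nat_lit 368) (nat_lit 352) (nat_lit 180)))) (XT.nd (nat_lit 78) (nat_lit 532) (nat_lit 0) (XT.lf (nat_lit 0) (nat_lit 219566458256) (nat_lit 228) (nat_lit 70819924680) (nat_lit 304) (nat_lit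 174021981523) (nat_lit 67) (nat_lit 5) (nat_lit 70) (nat_lit 5) (nat_lit 71) (nat_lit 5) (nat_lit 369) (nat_lit 352) (nat_lit 179)) (XT.nd (nat_lit 78) (nat_lit 304) (nat_lit 0) (XT.lf (nat_lit 0) (nat_lit 160619131284) (nat_lit 228) (nat_lit 277205311617) (nat_lit 304) (nat_lit 49374303479) (nat_lit 64) (nat_lit 5) (nat_lit 67) (nat_lit 5) (nat_lit 68) (nat_lit 5) (nat_lit 370) (nat_lit 352) (nat_lit 178)) (XT.lf (nat_lit 0) (nat_lit 89649851773) (nat_lit 304) (nat_lit 415354035025) (nat_lit 76) (nat_lit 6385274213) (nat_lit 60) (nat_lit 5) (nat_lit 64) (nat_lit 5) (nat_lit 61) (nat_lit 5) (nat_lit 371) (nat_lit 352) (nat_lit 177))))) (XT.nd (nat_lit 234) (nat_lit 608) (nat_lit 0) (XT.nd (nat_lit 78) (nat_lit 228) (nat_lit 0) (XT.lf (nat_lit 0) (nat_lit 21994607240) (nat_lit 228) (nat_lit 226894205432) (nat_lit 304) (nat_lit 288044390023) (nat_lit 57) (nat_lit 5) (nat_lit 60) (nat_lit 5)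 (nat_lit 61) (nat_lit 5) (nat_lit 372) (nat_lit 352) (nat_lit 176)) (XT.nd (nat_lit 78) (nat_lit 228) (nat_lit 0) (XT.lf (nat_lit 0) (nat_lit 429367616992) (nat_lit 304) (nat_lit 56261399484) (nat_lit 76) (nat_lit 78466714946) (nat_lit 57) (nat_lit 5) (nat_lit 61) (nat_lit 5) (nat_lit 58) (nat_lit 5) (nat_lit 373) (nat_lit 352) (nat_lit 175)) (XT.lf (nat_lit 0) (nat_lit 40890271505) (nat_lit 228) (nat_lit 143871972008) (nat_lit 76) (nat_lit 408093717922) (nat_lit 54) (nat_lit 5) (nat_lit 57) (nat_lit 5) (nat_lit 55) (nat_lit 5) (nat_lit 374) (nat_lit 352) (nat_lit 174)))) (XT.nd (nat_lit 78) (nat_lit 380) (nat_lit 0) (XT.lf (nat_lit 0) (nat_lit 235212944974) (nat_lit 304) (nat_lit 243042235136) (nat_lit 76) (nat_lit 145082645212) (nat_lit 51) (nat_lit 5) (nat_lit 55) (nat_lit 5) (nat_lit 52) (nat_lit 5) (nat_lit 375) (nat_lit 352) (nat_lit 173)) (XT.nd (nat_lit 78) (nat_lit 228) (nat_lit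 0) (XT.lf (nat_lit 0) (nat_lit 301907575267) (nat_lit 152) (nat_lit 153550094898) (nat_lit 228) (nat_lit 200281756289) (nat_lit 49) (nat_lit 5) (nat_lit 51) (nat_lit 5) (nat_lit 52) (nat_lit 5) (nat_lit 376) (nat_lit 352) (nat_lit 172)) (XT.lf (nat_lit 0) (nat_lit 13375973942) (nat_lit 228) (nat_lit 478157015341) (nat_lit 76) (nat_lit 198654644753) (nat_lit 46) (nat_lit 5) (nat_lit 49) (nat_lit 5) (nat_lit 47) (nat_lit 5) (nat_lit 377) (nat_lit 352) (nat_lit 171)))))) (XT.nd (nat_lit 468) (nat_lit 532) (nat_lit 0) (XT.nd (nat_lit 234) (nat_lit 456) (nat_lit 0) (XT.nd (nat_lit 78) (nat_lit 228) (nat_lit 0) (XT.lf (nat_lit 0) (nat_lit 106040362373) (nat_lit 152) (nat_lit 141672106394) (nat_lit 228) (nat_lit 478984911939) (nat_lit 44) (nat_lit 5) (nat_lit 46) (nat_lit 5) (nat_lit 47) (nat_lit 5) (nat_lit 378) (nat_lit 352) (nat_lit 170)) (XT.nd (nat_lit 78) (nat_lit 228) (nat_lit 0) (XT.lf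 (nat_lit 0) (nat_lit 512948959263) (nat_lit 228) (nat_lit 15487106123) (nat_lit 76) (nat_lit 237084187941) (nat_lit 44) (nat_lit 5) (nat_lit 47) (nat_lit 5) (nat_lit 45) (nat_lit 5) (nat_lit 379) (nat_lit 352) (nat_lit 169)) (XT.lf (nat_lit 0) (nat_lit 5062289482) (nat_lit 228) (nat_lit 150171665853) (nat_lit 76) (nat_lit 651578810404) (nat_lit 41) (nat_lit 5) (nat_lit 44) (nat_lit 5) (nat_lit 42) (nat_lit 5) (nat_lit 380) (nat_lit 352) (nat_lit 168)))) (XT.nd (nat_lit 78) (nat_lit 304) (nat_lit 0) (XT.lf (nat_lit 0) (nat_lit 287440149862) (nat_lit 228) (nat_lit 309966228703) (nat_lit 76) (nat_lit 253146152047) (nat_lit 39) (nat_lit 5) (nat_lit 42) (nat_lit 5) (nat_lit 40) (nat_lit 5) (nat_lit 381) (nat_lit 352) (nat_lit 167)) (XT.nd (nat_lit 78) (nat_lit 152) (nat_lit 0) (XT.lf (nat_lit 0) (nat_lit 404595918506) (nat_lit 152) (nat_lit 199405459117) (nat_lit 228) (nat_lit 293210442141) (nat_lit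 37) (nat_lit 5) (nat_lit 39) (nat_lit 5) (nat_lit 40) (nat_lit 5) (nat_lit 382) (nat_lit 352) (nat_lit 166)) (XT.lf (nat_lit 0) (nat_lit 11448104812) (nat_lit 152) (nat_lit 702956462620) (nat_lit 76) (nat_lit 232545148509) (nat_lit 35) (nat_lit 5) (nat_lit 37) (nat_lit 5) (nat_lit 36) (nat_lit 5) (nat_lit 383) (nat_lit 352) (nat_lit 165))))) (XT.nd (nat_lit 234) (nat_lit 228) (nat_lit 0) (XT.nd (nat_lit 78) (nat_lit 152) (nat_lit 0) (XT.lf (nat_lit 0) (nat_lit 50039121841) (nat_lit 152) (nat_lit 293170158789) (nat_lit 228) (nat_lit 656566896231) (nat_lit 33) (nat_lit 5) (nat_lit 35) (nat_lit 5) (nat_lit 36) (nat_lit 5) (nat_lit 384) (nat_lit 352) (nat_lit 164)) (XT.nd (nat_lit 78) (nat_lit 152) (nat_lit 0) (XT.lf (nat_lit 0) (nat_lit 716482672573) (nat_lit 228) (nat_lit 170566180980) (nat_lit 76) (nat_lit 169031335010) (nat_lit 33) (nat_lit 5) (nat_lit 36) (nat_lit 5) (nat_lit 34) (nat_lit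 4) (nat_lit 385) (nat_lit 352) (nat_lit 163)) (XT.lf (nat_lit 0) (nat_lit 18584393232) (nat_lit 152) (nat_lit 428388294135) (nat_lit 76) (nat_lit 669116586309) (nat_lit 31) (nat_lit 5) (nat_lit 33) (nat_lit 5) (nat_lit 32) (nat_lit 5) (nat_lit 386) (nat_lit 352) (nat_lit 162)))) (XT.nd (nat_lit 44226) (nat_lit 0) (nat_lit 5928) (XT.nd (nat_lit 78) (nat_lit 76) (nat_lit 0) (XT.lf (nat_lit 0) (nat_lit 404405218675) (nat_lit 228) (nat_lit 732260513569) (nat_lit 76) (nat_lit 43410884435) (nat_lit 29) (nat_lit 5) (nat_lit 32) (nat_lit 5) (nat_lit 30) (nat_lit 4) (nat_lit 387) (nat_lit 352) (nat_lit 161)) (XT.lf (nat_lit 0) (nat_lit 158002524863) (nat_lit 76) (nat_lit 680677370011) (nat_lit 152) (nat_lit 409623643020) (nat_lit 28) (nat_lit 5) (nat_lit 29) (nat_lit 5) (nat_lit 30) (nat_lit 4) (nat_lit 388) (nat_lit 352) (nat_lit 160))) (XT.nd (nat_lit 78) (nat_lit 0) (nat_lit 76) (XT.lf (nat_lit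 0) (nat_lit 20698672740) (nat_lit 836) (nat_lit 49798838146) (nat_lit 836) (nat_lit 49798838146) (nat_lit 106) (nat_lit 3) (nat_lit 117) (nat_lit 3) (nat_lit 117) (nat_lit 5) (nat_lit 353) (nat_lit 353) (nat_lit 194)) (XT.lf (nat_lit 0) (nat_lit 45081724378) (nat_lit 760) (nat_lit 163700369114) (nat_lit 836) (nat_lit 41332886752) (nat_lit 107) (nat_lit 5) (nat_lit 117) (nat_lit 5) (nat_lit 118) (nat_lit 5) (nat_lit 354) (nat_lit 353) (nat_lit 193))))))))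
noncomputable def xc118 : XT := (XT.nd (nat_lit 1950) (nat_lit 1140) (nat_lit 0) (XT.nd (nat_lit 936) (nat_lit 2584) (nat_lit 0) (XT.nd (nat_lit 468) (nat_lit 1748) (nat_lit 0) (XT.nd (nat_lit 234) (nat_lit 456) (nat_lit 0) (XT.nd (nat_lit 78) (nat_lit 0) (nat_lit 76) (XT.lf (nat_lit 76) (nat_lit 29076845773) (nat_lit 0) (nat_lit 24578608638) (nat_lit 836) (nat_lit 206513860690) (nat_lit 108) (nat_lit 5) (nat_lit 107) (nat_lit 5) (nat_lit 118) (nat_lit 5) (nat_lit 355) (nat_lit 353) (nat_lit 192)) (XT.nd (nat_lit 78) (nat_lit 0) (nat_lit 76) (XT.lf (nat_lit 0) (nat_lit 68535490405) (nat_lit 760) (nat_lit 30532615165) (nat_lit 836) (nat_lit 171678870940) (nat_lit 108) (nat_lit 5) (nat_lit 118) (nat_lit 5) (nat_lit 119) (nat_lit 5) (nat_lit 356) (nat_lit 353) (nat_lit 191)) (XT.lf (nat_lit 0) (nat_lit 89635016167) (nat_lit 760) (nat_lit 91824570332) (nat_lit 836) (nat_lit 100459810114) (nat_lit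 109) (nat_lit 5) (nat_lit 119) (nat_lit 5) (nat_lit 120) (nat_lit 5) (nat_lit 357) (nat_lit 353) (nat_lit 190)))) (XT.nd (nat_lit 78) (nat_lit 684) (nat_lit 0) (XT.lf (nat_lit 0) (nat_lit 117126882135) (nat_lit 760) (nat_lit 155852848006) (nat_lit 836) (nat_lit 20770661395) (nat_lit 110) (nat_lit 5) (nat_lit 120) (nat_lit 5) (nat_lit 121) (nat_lit 5) (nat_lit 358) (nat_lit 353) (nat_lit 189)) (XT.nd (nat_lit 78) (nat_lit 684) (nat_lit 0) (XT.lf (nat_lit 76) (nat_lit 82379141425) (nat_lit 0) (nat_lit 70410482693) (nat_lit 836) (nat_lit 153439665709) (nat_lit 111) (nat_lit 5) (nat_lit 110) (nat_lit 5) (nat_lit 121) (nat_lit 5) (nat_lit 359) (nat_lit 353) (nat_lit 188)) (XT.lf (nat_lit 0) (nat_lit 24073906624) (nat_lit 760) (nat_lit 172682963632) (nat_lit 836) (nat_lit 122677055585) (nat_lit 101) (nat_lit 5) (nat_lit 111) (nat_lit 5) (nat_lit 112) (nat_lit 5) (nat_lit 360) (nat_lit 353) (nat_lit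 187))))) (XT.nd (nat_lit 234) (nat_lit 988) (nat_lit 0) (XT.nd (nat_lit 78) (nat_lit 760) (nat_lit 0) (XT.lf (nat_lit 0) (nat_lit 250078364307) (nat_lit 836) (nat_lit 35612229534) (nat_lit 76) (nat_lit 47712495579) (nat_lit 101) (nat_lit 5) (nat_lit 112) (nat_lit 5) (nat_lit 102) (nat_lit 5) (nat_lit 361) (nat_lit 353) (nat_lit 186)) (XT.nd (nat_lit 78) (nat_lit 380) (nat_lit 0) (XT.lf (nat_lit 0) (nat_lit 250005261596) (nat_lit 380) (nat_lit 64475244319) (nat_lit 456) (nat_lit 33668533856) (nat_lit 96) (nat_lit 5) (nat_lit 101) (nat_lit 5) (nat_lit 102) (nat_lit 5) (nat_lit 362) (nat_lit 353) (nat_lit 185)) (XT.lf (nat_lit 0) (nat_lit 25893537988) (nat_lit 380) (nat_lit 164822172015) (nat_lit 76) (nat_lit 173014762786) (nat_lit 91) (nat_lit 5) (nat_lit 96) (nat_lit 5) (nat_lit 92) (nat_lit 5) (nat_lit 363) (nat_lit 353) (nat_lit 184)))) (XT.nd (nat_lit 78) (nat_lit 608) (nat_lit 0) (XT.lf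 (nat_lit 0) (nat_lit 94962166162) (nat_lit 456) (nat_lit 235342556440) (nat_lit 76) (nat_lit 49930042159) (nat_lit 86) (nat_lit 5) (nat_lit 92) (nat_lit 5) (nat_lit 87) (nat_lit 5) (nat_lit 364) (nat_lit 353) (nat_lit 183)) (XT.nd (nat_lit 78) (nat_lit 304) (nat_lit 0) (XT.lf (nat_lit 0) (nat_lit 86871074235) (nat_lit 304) (nat_lit 90175400494) (nat_lit 380) (nat_lit 220638415922) (nat_lit 82) (nat_lit 5) (nat_lit 86) (nat_lit 5) (nat_lit 87) (nat_lit 5) (nat_lit 365) (nat_lit 353) (nat_lit 182)) (XT.lf (nat_lit 0) (nat_lit 25032514280) (nat_lit 304) (nat_lit 247863606193) (nat_lit 380) (nat_lit 143274976573) (nat_lit 78) (nat_lit 5) (nat_lit 82) (nat_lit 5) (nat_lit 83) (nat_lit 5) (nat_lit 366) (nat_lit 353) (nat_lit 181)))))) (XT.nd (nat_lit 468) (nat_lit 1216) (nat_lit 0) (XT.nd (nat_lit 234) (nat_lit 760) (nat_lit 0) (XT.nd (nat_lit 78) (nat_lit 608) (nat_lit 0) (XT.lf (nat_lit 0) (nat_lit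 383541644469) (nat_lit 380) (nat_lit 38733788476) (nat_lit 76) (nat_lit 13504371736) (nat_lit 78) (nat_lit 5) (nat_lit 83) (nat_lit 5) (nat_lit 79) (nat_lit 5) (nat_lit 367) (nat_lit 353) (nat_lit 180)) (XT.nd (nat_lit 78) (nat_lit 304) (nat_lit 0) (XT.lf (nat_lit 0) (nat_lit 54390376885) (nat_lit 304) (nat_lit 108503962074) (nat_lit 76) (nat_lit 293537713148) (nat_lit 74) (nat_lit 5) (nat_lit 78) (nat_lit 5) (nat_lit 75) (nat_lit 5) (nat_lit 368) (nat_lit 353) (nat_lit 179)) (XT.lf (nat_lit 0) (nat_lit 174995307539) (nat_lit 380) (nat_lit 183547326354) (nat_lit 76) (nat_lit 119787213253) (nat_lit 70) (nat_lit 5) (nat_lit 75) (nat_lit 5) (nat_lit 71) (nat_lit 5) (nat_lit 369) (nat_lit 353) (nat_lit 178)))) (XT.nd (nat_lit 78) (nat_lit 532) (nat_lit 0) (XT.lf (nat_lit 0) (nat_lit 237133586398) (nat_lit 228) (nat_lit 76485048655) (nat_lit 304) (nat_lit 187942330657) (nat_lit 67) (nat_lit 5)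 (nat_lit 70) (nat_lit 5) (nat_lit 71) (nat_lit 5) (nat_lit 370) (nat_lit 353) (nat_lit 177)) (XT.nd (nat_lit 78) (nat_lit 304) (nat_lit 0) (XT.lf (nat_lit 0) (nat_lit 173470452479) (nat_lit 228) (nat_lit 299381222718) (nat_lit 304) (nat_lit 53322906279) (nat_lit 64) (nat_lit 5) (nat_lit 67) (nat_lit 5) (nat_lit 68) (nat_lit 5) (nat_lit 371) (nat_lit 353) (nat_lit 176)) (XT.lf (nat_lit 0) (nat_lit 96823077860) (nat_lit 304) (nat_lit 448580549210) (nat_lit 76) (nat_lit 6896604245) (nat_lit 60) (nat_lit 5) (nat_lit 64) (nat_lit 5) (nat_lit 61) (nat_lit 5) (nat_lit 372) (nat_lit 353) (nat_lit 175))))) (XT.nd (nat_lit 234) (nat_lit 760) (nat_lit 0) (XT.nd (nat_lit 78) (nat_lit 228) (nat_lit 0) (XT.lf (nat_lit 0) (nat_lit 23755905836) (nat_lit 228) (nat_lit 245045185106) (nat_lit 304) (nat_lit 311086708677) (nat_lit 57) (nat_lit 5) (nat_lit 60) (nat_lit 5) (nat_lit 61) (nat_lit 5) (nat_lit 373)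 (nat_lit 353) (nat_lit 174)) (XT.nd (nat_lit 78) (nat_lit 228) (nat_lit 0) (XT.lf (nat_lit 0) (nat_lit 463718120748) (nat_lit 304) (nat_lit 60760662723) (nat_lit 76) (nat_lit 84744551161) (nat_lit 57) (nat_lit 5) (nat_lit 61) (nat_lit 5) (nat_lit 58) (nat_lit 5) (nat_lit 374) (nat_lit 353) (nat_lit 173)) (XT.lf (nat_lit 0) (nat_lit 44162548717) (nat_lit 228) (nat_lit 155380117287) (nat_lit 76) (nat_lit 440741719057) (nat_lit 54) (nat_lit 5) (nat_lit 57) (nat_lit 5) (nat_lit 55) (nat_lit 5) (nat_lit 375) (nat_lit 353) (nat_lit 172)))) (XT.nd (nat_lit 156) (nat_lit 380) (nat_lit 0) (XT.nd (nat_lit 78) (nat_lit 152) (nat_lit 0) (XT.lf (nat_lit 0) (nat_lit 254030990406) (nat_lit 304) (nat_lit 262484029442) (nat_lit 76) (nat_lit 156689780531) (nat_lit 51) (nat_lit 5) (nat_lit 55) (nat_lit 5) (nat_lit 52) (nat_lit 5) (nat_lit 376) (nat_lit 353) (nat_lit 171)) (XT.lf (nat_lit 0) (nat_lit 326061696931)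 (nat_lit 152) (nat_lit 165833545542) (nat_lit 228) (nat_lit 216303289721) (nat_lit 49) (nat_lit 5) (nat_lit 51) (nat_lit 5) (nat_lit 52) (nat_lit 5) (nat_lit 377) (nat_lit 353) (nat_lit 170))) (XT.nd (nat_lit 78) (nat_lit 152) (nat_lit 0) (XT.lf (nat_lit 0) (nat_lit 14446986277) (nat_lit 228) (nat_lit 516408057552) (nat_lit 76) (nat_lit 214547553820) (nat_lit 46) (nat_lit 5) (nat_lit 49) (nat_lit 5) (nat_lit 47) (nat_lit 5) (nat_lit 378) (nat_lit 353) (nat_lit 169)) (XT.lf (nat_lit 0) (nat_lit 114525044365) (nat_lit 152) (nat_lit 153005309793) (nat_lit 228) (nat_lit 517302772250) (nat_lit 44) (nat_lit 5) (nat_lit 46) (nat_lit 5) (nat_lit 47) (nat_lit 5) (nat_lit 379) (nat_lit 353) (nat_lit 168))))))) (XT.nd (nat_lit 45084) (nat_lit 0) (nat_lit 3420) (XT.nd (nat_lit 468) (nat_lit 304) (nat_lit 0) (XT.nd (nat_lit 234) (nat_lit 456) (nat_lit 0) (XT.nd (nat_lit 78) (nat_lit 380) (nat_lit 0)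 (XT.lf (nat_lit 0) (nat_lit 553985706293) (nat_lit 228) (nat_lit 16724695971) (nat_lit 76) (nat_lit 256051429481) (nat_lit 44) (nat_lit 5) (nat_lit 47) (nat_lit 5) (nat_lit 45) (nat_lit 5) (nat_lit 380) (nat_lit 353) (nat_lit 167)) (XT.nd (nat_lit 78) (nat_lit 152) (nat_lit 0) (XT.lf (nat_lit 0) (nat_lit 5468075255) (nat_lit 228) (nat_lit 162184053562) (nat_lit 76) (nat_lit 703705617757) (nat_lit 41) (nat_lit 5) (nat_lit 44) (nat_lit 5) (nat_lit 42) (nat_lit 5) (nat_lit 381) (nat_lit 353) (nat_lit 166)) (XT.lf (nat_lit 0) (nat_lit 310436133287) (nat_lit 228) (nat_lit 334762209660) (nat_lit 76) (nat_lit 273398351272) (nat_lit 39) (nat_lit 5) (nat_lit 42) (nat_lit 5) (nat_lit 40) (nat_lit 5) (nat_lit 382) (nat_lit 353) (nat_lit 165)))) (XT.nd (nat_lit 78) (nat_lit 304) (nat_lit 0) (XT.lf (nat_lit 0) (nat_lit 436964852076) (nat_lit 152) (nat_lit 215357369722) (nat_lit 228) (nat_lit 316666506597)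 (nat_lit 37) (nat_lit 5) (nat_lit 39) (nat_lit 5) (nat_lit 40) (nat_lit 5) (nat_lit 383) (nat_lit 353) (nat_lit 164)) (XT.nd (nat_lit 78) (nat_lit 152) (nat_lit 0) (XT.lf (nat_lit 0) (nat_lit 12364671456) (nat_lit 152) (nat_lit 759191722843) (nat_lit 76) (nat_lit 251149262782) (nat_lit 35) (nat_lit 5) (nat_lit 37) (nat_lit 5) (nat_lit 36) (nat_lit 5) (nat_lit 384) (nat_lit 353) (nat_lit 163)) (XT.lf (nat_lit 0) (nat_lit 54043453756) (nat_lit 152) (nat_lit 316623253147) (nat_lit 228) (nat_lit 709091529709) (nat_lit 33) (nat_lit 5) (nat_lit 35) (nat_lit 5) (nat_lit 36) (nat_lit 5) (nat_lit 385) (nat_lit 353) (nat_lit 162))))) (XT.nd (nat_lit 44382) (nat_lit 0) (nat_lit 5852) (XT.nd (nat_lit 78) (nat_lit 304) (nat_lit 0) (XT.lf (nat_lit 0) (nat_lit 773801927042) (nat_lit 228) (nat_lit 184210337984) (nat_lit 76) (nat_lit 182554306398) (nat_lit 33) (nat_lit 5) (nat_lit 36) (nat_lit 5) (nat_lit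 34) (nat_lit 4) (nat_lit 386) (nat_lit 353) (nat_lit 161)) (XT.nd (nat_lit 78) (nat_lit 152) (nat_lit 0) (XT.lf (nat_lit 0) (nat_lit 20071765059) (nat_lit 152) (nat_lit 462658248944) (nat_lit 76) (nat_lit 722646370381) (nat_lit 31) (nat_lit 5) (nat_lit 33) (nat_lit 5) (nat_lit 32) (nat_lit 5) (nat_lit 387) (nat_lit 353) (nat_lit 160)) (XT.lf (nat_lit 0) (nat_lit 436758234473) (nat_lit 228) (nat_lit 790840271744) (nat_lit 76) (nat_lit 46884209725) (nat_lit 29) (nat_lit 5) (nat_lit 32) (nat_lit 5) (nat_lit 30) (nat_lit 4) (nat_lit 388) (nat_lit 353) (nat_lit 159)))) (XT.nd (nat_lit 78) (nat_lit 0) (nat_lit 76) (XT.lf (nat_lit 0) (nat_lit 22356247647) (nat_lit 836) (nat_lit 53781861899) (nat_lit 836) (nat_lit 53781861899) (nat_lit 106) (nat_lit 3) (nat_lit 117) (nat_lit 3) (nat_lit 117) (nat_lit 5) (nat_lit 354) (nat_lit 354) (nat_lit 192)) (XT.nd (nat_lit 78) (nat_lit 0) (nat_lit 0) (XT.lf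 (nat_lit 0) (nat_lit 48691379201) (nat_lit 760) (nat_lit 176794526512) (nat_lit 836) (nat_lit 44638114409) (nat_lit 107) (nat_lit 5) (nat_lit 117) (nat_lit 5) (nat_lit 118) (nat_lit 5) (nat_lit 355) (nat_lit 354) (nat_lit 191)) (XT.lf (nat_lit 76) (nat_lit 31404784206) (nat_lit 0) (nat_lit 26546020512) (nat_lit 836) (nat_lit 223031907397) (nat_lit 108) (nat_lit 5) (nat_lit 107) (nat_lit 5) (nat_lit 118) (nat_lit 5) (nat_lit 356) (nat_lit 354) (nat_lit 190)))))) (XT.nd (nat_lit 468) (nat_lit 2052) (nat_lit 0) (XT.nd (nat_lit 234) (nat_lit 532) (nat_lit 0) (XT.nd (nat_lit 78) (nat_lit 0) (nat_lit 76) (XT.lf (nat_lit 0) (nat_lit 74021011505) (nat_lit 760) (nat_lit 32973412802) (nat_lit 836) (nat_lit 185412173917) (nat_lit 108) (nat_lit 5) (nat_lit 118) (nat_lit 5) (nat_lit 119) (nat_lit 5) (nat_lit 357) (nat_lit 354) (nat_lit 189)) (XT.nd (nat_lit 78) (nat_lit 0) (nat_lit 76) (XT.lf (nat_lit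 0) (nat_lit 96808315588) (nat_lit 760) (nat_lit 99168663319) (nat_lit 836) (nat_lit 108495842387) (nat_lit 109) (nat_lit 5) (nat_lit 119) (nat_lit 5) (nat_lit 120) (nat_lit 5) (nat_lit 358) (nat_lit 354) (nat_lit 188)) (XT.lf (nat_lit 0) (nat_lit 126499365170) (nat_lit 760) (nat_lit 168319156970) (nat_lit 836) (nat_lit 22431782113) (nat_lit 110) (nat_lit 5) (nat_lit 120) (nat_lit 5) (nat_lit 121) (nat_lit 5) (nat_lit 359) (nat_lit 354) (nat_lit 187)))) (XT.nd (nat_lit 78) (nat_lit 684) (nat_lit 0) (XT.lf (nat_lit 76) (nat_lit 88971308223) (nat_lit 0) (nat_lit 76043674169) (nat_lit 836) (nat_lit 165712539367) (nat_lit 111) (nat_lit 5) (nat_lit 110) (nat_lit 5) (nat_lit 121) (nat_lit 5) (nat_lit 360) (nat_lit 354) (nat_lit 186)) (XT.nd (nat_lit 78) (nat_lit 0) (nat_lit 0) (XT.lf (nat_lit 0) (nat_lit 26001686559) (nat_lit 760) (nat_lit 186497783618) (nat_lit 836) (nat_lit 132489065516) (nat_lit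 101) (nat_lit 5) (nat_lit 111) (nat_lit 5) (nat_lit 112) (nat_lit 5) (nat_lit 361) (nat_lit 354) (nat_lit 185)) (XT.lf (nat_lit 0) (nat_lit 270086529234) (nat_lit 836) (nat_lit 38459379679) (nat_lit 76) (nat_lit 51529331298) (nat_lit 101) (nat_lit 5) (nat_lit 112) (nat_lit 5) (nat_lit 102) (nat_lit 5) (nat_lit 362) (nat_lit 354) (nat_lit 184))))) (XT.nd (nat_lit 234) (nat_lit 912) (nat_lit 0) (XT.nd (nat_lit 78) (nat_lit 760) (nat_lit 0) (XT.lf (nat_lit 0) (nat_lit 270007431289) (nat_lit 380) (nat_lit 69633297756) (nat_lit 456) (nat_lit 36360143318) (nat_lit 96) (nat_lit 5) (nat_lit 101) (nat_lit 5) (nat_lit 102) (nat_lit 5) (nat_lit 363) (nat_lit 354) (nat_lit 183)) (XT.nd (nat_lit 78) (nat_lit 380) (nat_lit 0) (XT.lf (nat_lit 0) (nat_lit 27966727431) (nat_lit 380) (nat_lit 178006128143) (nat_lit 76) (nat_lit 186855968433) (nat_lit 91) (nat_lit 5) (nat_lit 96) (nat_lit 5) (nat_lit 92) (nat_lit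 5) (nat_lit 364) (nat_lit 354) (nat_lit 182)) (XT.lf (nat_lit 0) (nat_lit 102560748656) (nat_lit 456) (nat_lit 254168142820) (nat_lit 76) (nat_lit 53924572816) (nat_lit 86) (nat_lit 5) (nat_lit 92) (nat_lit 5) (nat_lit 87) (nat_lit 5) (nat_lit 365) (nat_lit 354) (nat_lit 181)))) (XT.nd (nat_lit 156) (nat_lit 304) (nat_lit 0) (XT.nd (nat_lit 78) (nat_lit 304) (nat_lit 0) (XT.lf (nat_lit 0) (nat_lit 93822499296) (nat_lit 304) (nat_lit 97389210565) (nat_lit 380) (nat_lit 238287895082) (nat_lit 82) (nat_lit 5) (nat_lit 86) (nat_lit 5) (nat_lit 87) (nat_lit 5) (nat_lit 366) (nat_lit 354) (nat_lit 180)) (XT.lf (nat_lit 0) (nat_lit 27036849265) (nat_lit 304) (nat_lit 267692395898) (nat_lit 380) (nat_lit 154735466875) (nat_lit 78) (nat_lit 5) (nat_lit 82) (nat_lit 5) (nat_lit 83) (nat_lit 5) (nat_lit 367) (nat_lit 354) (nat_lit 179))) (XT.nd (nat_lit 78) (nat_lit 304) (nat_lit 0) (XT.lf (nat_lit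 0) (nat_lit 414226309097) (nat_lit 380) (nat_lit 41830823082) (nat_lit 76) (nat_lit 14584989278) (nat_lit 78) (nat_lit 5) (nat_lit 83) (nat_lit 5) (nat_lit 79) (nat_lit 5) (nat_lit 368) (nat_lit 354) (nat_lit 178)) (XT.lf (nat_lit 0) (nat_lit 58742887768) (nat_lit 304) (nat_lit 117182639898) (nat_lit 76) (nat_lit 317021023740) (nat_lit 74) (nat_lit 5) (nat_lit 78) (nat_lit 5) (nat_lit 75) (nat_lit 5) (nat_lit 369) (nat_lit 354) (nat_lit 177))))))))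
noncomputable def xc119 : XT := (XT.nd (nat_lit 46254) (nat_lit 0) (nat_lit 152) (XT.nd (nat_lit 936) (nat_lit 836) (nat_lit 0) (XT.nd (nat_lit 468) (nat_lit 988) (nat_lit 0) (XT.nd (nat_lit 234) (nat_lit 532) (nat_lit 0) (XT.nd (nat_lit 78) (nat_lit 456) (nat_lit 0) (XT.lf (nat_lit 0) (nat_lit 188996148067) (nat_lit 380) (nat_lit 198229488849) (nat_lit 76) (nat_lit 129370536433) (nat_lit 70) (nat_lit 5) (nat_lit 75) (nat_lit 5) (nat_lit 71) (nat_lit 5) (nat_lit 370) (nat_lit 354) (nat_lit 176)) (XT.nd (nat_lit 78) (nat_lit 228) (nat_lit 0) (XT.lf (nat_lit 0) (nat_lit 256105826363) (nat_lit 228) (nat_lit 82603449598) (nat_lit 304) (nat_lit 202976508786) (nat_lit 67) (nat_lit 5) (nat_lit 70) (nat_lit 5) (nat_lit 71) (nat_lit 5) (nat_lit 371) (nat_lit 354) (nat_lit 175)) (XT.lf (nat_lit 0) (nat_lit 187349623909) (nat_lit 228) (nat_lit 323331280010) (nat_lit 304) (nat_lit 57587588679) (nat_lit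 64) (nat_lit 5) (nat_lit 67) (nat_lit 5) (nat_lit 68) (nat_lit 5) (nat_lit 372) (nat_lit 354) (nat_lit 174)))) (XT.nd (nat_lit 78) (nat_lit 228) (nat_lit 0) (XT.lf (nat_lit 0) (nat_lit 104569985427) (nat_lit 304) (nat_lit 484465442550) (nat_lit 76) (nat_lit 7448768193) (nat_lit 60) (nat_lit 5) (nat_lit 64) (nat_lit 5) (nat_lit 61) (nat_lit 5) (nat_lit 373) (nat_lit 354) (nat_lit 173)) (XT.nd (nat_lit 78) (nat_lit 0) (nat_lit 0) (XT.lf (nat_lit 0) (nat_lit 25657861513) (nat_lit 228) (nat_lit 264648322582) (nat_lit 304) (nat_lit 335972588659) (nat_lit 57) (nat_lit 5) (nat_lit 60) (nat_lit 5) (nat_lit 61) (nat_lit 5) (nat_lit 374) (nat_lit 354) (nat_lit 172)) (XT.lf (nat_lit 0) (nat_lit 500816508677) (nat_lit 304) (nat_lit 65620102230) (nat_lit 76) (nat_lit 91524543082) (nat_lit 57) (nat_lit 5) (nat_lit 61) (nat_lit 5) (nat_lit 58) (nat_lit 5) (nat_lit 375) (nat_lit 354) (nat_lit 171))))) (XT.nd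 (nat_lit 234) (nat_lit 380) (nat_lit 0) (XT.nd (nat_lit 78) (nat_lit 380) (nat_lit 0) (XT.lf (nat_lit 0) (nat_lit 47696457528) (nat_lit 228) (nat_lit 167809144227) (nat_lit 76) (nat_lit 476001488425) (nat_lit 54) (nat_lit 5) (nat_lit 57) (nat_lit 5) (nat_lit 55) (nat_lit 5) (nat_lit 376) (nat_lit 354) (nat_lit 170)) (XT.nd (nat_lit 78) (nat_lit 152) (nat_lit 0) (XT.lf (nat_lit 0) (nat_lit 274354335409) (nat_lit 304) (nat_lit 283481393341) (nat_lit 76) (nat_lit 169225411963) (nat_lit 51) (nat_lit 5) (nat_lit 55) (nat_lit 5) (nat_lit 52) (nat_lit 5) (nat_lit 377) (nat_lit 354) (nat_lit 169)) (XT.lf (nat_lit 0) (nat_lit 352147932106) (nat_lit 152) (nat_lit 179099751693) (nat_lit 228) (nat_lit 233606689497) (nat_lit 49) (nat_lit 5) (nat_lit 51) (nat_lit 5) (nat_lit 52) (nat_lit 5) (nat_lit 378) (nat_lit 354) (nat_lit 168)))) (XT.nd (nat_lit 78) (nat_lit 152) (nat_lit 0) (XT.lf (nat_lit 0) (nat_lit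 15603546294) (nat_lit 228) (nat_lit 557719399845) (nat_lit 76) (nat_lit 231711818933) (nat_lit 46) (nat_lit 5) (nat_lit 49) (nat_lit 5) (nat_lit 47) (nat_lit 5) (nat_lit 379) (nat_lit 354) (nat_lit 167)) (XT.nd (nat_lit 78) (nat_lit 0) (nat_lit 0) (XT.lf (nat_lit 0) (nat_lit 123688293629) (nat_lit 152) (nat_lit 165245250084) (nat_lit 228) (nat_lit 558686194439) (nat_lit 44) (nat_lit 5) (nat_lit 46) (nat_lit 5) (nat_lit 47) (nat_lit 5) (nat_lit 380) (nat_lit 354) (nat_lit 166)) (XT.lf (nat_lit 0) (nat_lit 598305274636) (nat_lit 228) (nat_lit 18061489686) (nat_lit 76) (nat_lit 276535978086) (nat_lit 44) (nat_lit 5) (nat_lit 47) (nat_lit 5) (nat_lit 45) (nat_lit 5) (nat_lit 381) (nat_lit 354) (nat_lit 165)))))) (XT.nd (nat_lit 44772) (nat_lit 0) (nat_lit 5548) (XT.nd (nat_lit 234) (nat_lit 304) (nat_lit 0) (XT.nd (nat_lit 78) (nat_lit 304) (nat_lit 0) (XT.lf (nat_lit 0) (nat_lit 5906209389)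 (nat_lit 228) (nat_lit 175157624247) (nat_lit 76) (nat_lit 760002498008) (nat_lit 41) (nat_lit 5) (nat_lit 44) (nat_lit 5) (nat_lit 42) (nat_lit 5) (nat_lit 382) (nat_lit 354) (nat_lit 164)) (XT.nd (nat_lit 78) (nat_lit 152) (nat_lit 0) (XT.lf (nat_lit 0) (nat_lit 335271685331) (nat_lit 228) (nat_lit 361542057026) (nat_lit 76) (nat_lit 295270654097) (nat_lit 39) (nat_lit 5) (nat_lit 42) (nat_lit 5) (nat_lit 40) (nat_lit 5) (nat_lit 383) (nat_lit 354) (nat_lit 163)) (XT.lf (nat_lit 0) (nat_lit 471923120566) (nat_lit 152) (nat_lit 232585508233) (nat_lit 228) (nat_lit 341999166188) (nat_lit 37) (nat_lit 5) (nat_lit 39) (nat_lit 5) (nat_lit 40) (nat_lit 5) (nat_lit 384) (nat_lit 354) (nat_lit 162)))) (XT.nd (nat_lit 78) (nat_lit 152) (nat_lit 0) (XT.lf (nat_lit 0) (nat_lit 13354460963) (nat_lit 152) (nat_lit 819925983179) (nat_lit 76) (nat_lit 271241634526) (nat_lit 35) (nat_lit 5) (nat_lit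 37) (nat_lit 5) (nat_lit 36) (nat_lit 5) (nat_lit 385) (nat_lit 354) (nat_lit 161)) (XT.nd (nat_lit 78) (nat_lit 0) (nat_lit 0) (XT.lf (nat_lit 0) (nat_lit 58367960722) (nat_lit 152) (nat_lit 341952669002) (nat_lit 228) (nat_lit 765818236328) (nat_lit 33) (nat_lit 5) (nat_lit 35) (nat_lit 5) (nat_lit 36) (nat_lit 5) (nat_lit 386) (nat_lit 354) (nat_lit 160)) (XT.lf (nat_lit 0) (nat_lit 835706630470) (nat_lit 228) (nat_lit 198946189822) (nat_lit 76) (nat_lit 197159049219) (nat_lit 33) (nat_lit 5) (nat_lit 36) (nat_lit 5) (nat_lit 34) (nat_lit 4) (nat_lit 387) (nat_lit 354) (nat_lit 159))))) (XT.nd (nat_lit 234) (nat_lit 0) (nat_lit 152) (XT.nd (nat_lit 78) (nat_lit 0) (nat_lit 76) (XT.lf (nat_lit 0) (nat_lit 24146188719) (nat_lit 836) (nat_lit 58083653564) (nat_lit 836) (nat_lit 58083653564) (nat_lit 106) (nat_lit 3) (nat_lit 117) (nat_lit 3) (nat_lit 117) (nat_lit 5) (nat_lit 355) (nat_lit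 355) (nat_lit 190)) (XT.nd (nat_lit 78) (nat_lit 0) (nat_lit 0) (XT.lf (nat_lit 0) (nat_lit 52589361754) (nat_lit 760) (nat_lit 190936483583) (nat_lit 836) (nat_lit 48207960472) (nat_lit 107) (nat_lit 5) (nat_lit 117) (nat_lit 5) (nat_lit 118) (nat_lit 5) (nat_lit 356) (nat_lit 355) (nat_lit 189)) (XT.lf (nat_lit 76) (nat_lit 33918702239) (nat_lit 0) (nat_lit 28670665100) (nat_lit 836) (nat_lit 240871834691) (nat_lit 108) (nat_lit 5) (nat_lit 107) (nat_lit 5) (nat_lit 118) (nat_lit 5) (nat_lit 357) (nat_lit 355) (nat_lit 188)))) (XT.nd (nat_lit 156) (nat_lit 0) (nat_lit 152) (XT.nd (nat_lit 78) (nat_lit 0) (nat_lit 76) (XT.lf (nat_lit 0) (nat_lit 79944991694) (nat_lit 760) (nat_lit 35609732692) (nat_lit 836) (nat_lit 200244284750) (nat_lit 108) (nat_lit 5) (nat_lit 118) (nat_lit 5) (nat_lit 119) (nat_lit 5) (nat_lit 358) (nat_lit 355) (nat_lit 187)) (XT.lf (nat_lit 0) (nat_lit 104555122577)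 (nat_lit 760) (nat_lit 107100550898) (nat_lit 836) (nat_lit 117174864600) (nat_lit 109) (nat_lit 5) (nat_lit 119) (nat_lit 5) (nat_lit 120) (nat_lit 5) (nat_lit 359) (nat_lit 355) (nat_lit 186))) (XT.nd (nat_lit 78) (nat_lit 0) (nat_lit 0) (XT.lf (nat_lit 0) (nat_lit 136621314095) (nat_lit 760) (nat_lit 181783044401) (nat_lit 836) (nat_lit 24225868412) (nat_lit 110) (nat_lit 5) (nat_lit 120) (nat_lit 5) (nat_lit 121) (nat_lit 5) (nat_lit 360) (nat_lit 355) (nat_lit 185)) (XT.lf (nat_lit 76) (nat_lit 96090586513) (nat_lit 0) (nat_lit 82127470625) (nat_lit 836) (nat_lit 178967570980) (nat_lit 111) (nat_lit 5) (nat_lit 110) (nat_lit 5) (nat_lit 121) (nat_lit 5) (nat_lit 361) (nat_lit 355) (nat_lit 184))))))) (XT.nd (nat_lit 936) (nat_lit 2204) (nat_lit 0) (XT.nd (nat_lit 468) (nat_lit 1368) (nat_lit 0) (XT.nd (nat_lit 234) (nat_lit 1064) (nat_lit 0) (XT.nd (nat_lit 78) (nat_lit 380) (nat_lit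 0) (XT.lf (nat_lit 0) (nat_lit 28083422482) (nat_lit 760) (nat_lit 201417763111) (nat_lit 836) (nat_lit 143086343608) (nat_lit 101) (nat_lit 5) (nat_lit 111) (nat_lit 5) (nat_lit 112) (nat_lit 5) (nat_lit 362) (nat_lit 355) (nat_lit 183)) (XT.nd (nat_lit 78) (nat_lit 380) (nat_lit 0) (XT.lf (nat_lit 0) (nat_lit 291695076900) (nat_lit 836) (nat_lit 41534562651) (nat_lit 76) (nat_lit 55651537261) (nat_lit 101) (nat_lit 5) (nat_lit 112) (nat_lit 5) (nat_lit 102) (nat_lit 5) (nat_lit 363) (nat_lit 355) (nat_lit 182)) (XT.lf (nat_lit 0) (nat_lit 291609525078) (nat_lit 380) (nat_lit 75203990632) (nat_lit 456) (nat_lit 39267348775) (nat_lit 96) (nat_lit 5) (nat_lit 101) (nat_lit 5) (nat_lit 102) (nat_lit 5) (nat_lit 364) (nat_lit 355) (nat_lit 181)))) (XT.nd (nat_lit 78) (nat_lit 684) (nat_lit 0) (XT.lf (nat_lit 0) (nat_lit 30205528592) (nat_lit 380) (nat_lit 192245060067) (nat_lit 76) (nat_lit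 201804467019) (nat_lit 91) (nat_lit 5) (nat_lit 96) (nat_lit 5) (nat_lit 92) (nat_lit 5) (nat_lit 365) (nat_lit 355) (nat_lit 180)) (XT.nd (nat_lit 78) (nat_lit 304) (nat_lit 0) (XT.lf (nat_lit 0) (nat_lit 110766988180) (nat_lit 456) (nat_lit 274500035487) (nat_lit 76) (nat_lit 58238647767) (nat_lit 86) (nat_lit 5) (nat_lit 92) (nat_lit 5) (nat_lit 87) (nat_lit 5) (nat_lit 366) (nat_lit 355) (nat_lit 179)) (XT.lf (nat_lit 0) (nat_lit 101329790256) (nat_lit 304) (nat_lit 105180157109) (nat_lit 380) (nat_lit 257349559993) (nat_lit 82) (nat_lit 5) (nat_lit 86) (nat_lit 5) (nat_lit 87) (nat_lit 5) (nat_lit 367) (nat_lit 355) (nat_lit 178))))) (XT.nd (nat_lit 234) (nat_lit 760) (nat_lit 0) (XT.nd (nat_lit 78) (nat_lit 304) (nat_lit 0) (XT.lf (nat_lit 0) (nat_lit 29201283696) (nat_lit 304) (nat_lit 289107531405) (nat_lit 380) (nat_lit 167113011509) (nat_lit 78) (nat_lit 5) (nat_lit 82) (nat_lit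 5) (nat_lit 83) (nat_lit 5) (nat_lit 368) (nat_lit 355) (nat_lit 177)) (XT.nd (nat_lit 78) (nat_lit 304) (nat_lit 0) (XT.lf (nat_lit 0) (nat_lit 447365556718) (nat_lit 380) (nat_lit 45175858483) (nat_lit 76) (nat_lit 15752018019) (nat_lit 78) (nat_lit 5) (nat_lit 83) (nat_lit 5) (nat_lit 79) (nat_lit 5) (nat_lit 369) (nat_lit 355) (nat_lit 176)) (XT.lf (nat_lit 0) (nat_lit 63443416811) (nat_lit 304) (nat_lit 126555845789) (nat_lit 76) (nat_lit 342382957303) (nat_lit 74) (nat_lit 5) (nat_lit 78) (nat_lit 5) (nat_lit 75) (nat_lit 5) (nat_lit 370) (nat_lit 355) (nat_lit 175)))) (XT.nd (nat_lit 78) (nat_lit 456) (nat_lit 0) (XT.lf (nat_lit 0) (nat_lit 204116882372) (nat_lit 380) (nat_lit 214086455970) (nat_lit 76) (nat_lit 139720476091) (nat_lit 70) (nat_lit 5) (nat_lit 75) (nat_lit 5) (nat_lit 71) (nat_lit 5) (nat_lit 371) (nat_lit 355) (nat_lit 174)) (XT.nd (nat_lit 78) (nat_lit 228) (nat_lit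 0) (XT.lf (nat_lit 0) (nat_lit 276595623964) (nat_lit 228) (nat_lit 89211380103) (nat_lit 304) (nat_lit 219213593546) (nat_lit 67) (nat_lit 5) (nat_lit 70) (nat_lit 5) (nat_lit 71) (nat_lit 5) (nat_lit 372) (nat_lit 355) (nat_lit 173)) (XT.lf (nat_lit 0) (nat_lit 202338910034) (nat_lit 228) (nat_lit 349197404732) (nat_lit 304) (nat_lit 62193609746) (nat_lit 64) (nat_lit 5) (nat_lit 67) (nat_lit 5) (nat_lit 68) (nat_lit 5) (nat_lit 373) (nat_lit 355) (nat_lit 172)))))) (XT.nd (nat_lit 468) (nat_lit 1064) (nat_lit 0) (XT.nd (nat_lit 234) (nat_lit 608) (nat_lit 0) (XT.nd (nat_lit 78) (nat_lit 228) (nat_lit 0) (XT.lf (nat_lit 0) (nat_lit 112936494188) (nat_lit 304) (nat_lit 523221348566) (nat_lit 76) (nat_lit 8045043113) (nat_lit 60) (nat_lit 5) (nat_lit 64) (nat_lit 5) (nat_lit 61) (nat_lit 5) (nat_lit 374) (nat_lit 355) (nat_lit 171)) (XT.nd (nat_lit 78) (nat_lit 0) (nat_lit 0) (XT.lf (nat_lit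 0) (nat_lit 27711762048) (nat_lit 228) (nat_lit 285819779153) (nat_lit 304) (nat_lit 362849489792) (nat_lit 57) (nat_lit 5) (nat_lit 60) (nat_lit 5) (nat_lit 61) (nat_lit 5) (nat_lit 375) (nat_lit 355) (nat_lit 170)) (XT.lf (nat_lit 0) (nat_lit 540882633785) (nat_lit 304) (nat_lit 70868498551) (nat_lit 76) (nat_lit 98846873323) (nat_lit 57) (nat_lit 5) (nat_lit 61) (nat_lit 5) (nat_lit 58) (nat_lit 5) (nat_lit 376) (nat_lit 355) (nat_lit 169)))) (XT.nd (nat_lit 78) (nat_lit 380) (nat_lit 0) (XT.lf (nat_lit 0) (nat_lit 51512949947) (nat_lit 228) (nat_lit 181232690543) (nat_lit 76) (nat_lit 514081977734) (nat_lit 54) (nat_lit 5) (nat_lit 57) (nat_lit 5) (nat_lit 55) (nat_lit 5) (nat_lit 377) (nat_lit 355) (nat_lit 168)) (XT.nd (nat_lit 78) (nat_lit 152) (nat_lit 0) (XT.lf (nat_lit 0) (nat_lit 296303424501) (nat_lit 304) (nat_lit 306158740151) (nat_lit 76) (nat_lit 182763829856) (nat_lit 51)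 (nat_lit 5) (nat_lit 55) (nat_lit 5) (nat_lit 52) (nat_lit 5) (nat_lit 378) (nat_lit 355) (nat_lit 167)) (XT.lf (nat_lit 0) (nat_lit 380320880717) (nat_lit 152) (nat_lit 193427322455) (nat_lit 228) (nat_lit 252294484430) (nat_lit 49) (nat_lit 5) (nat_lit 51) (nat_lit 5) (nat_lit 52) (nat_lit 5) (nat_lit 379) (nat_lit 355) (nat_lit 166))))) (XT.nd (nat_lit 234) (nat_lit 684) (nat_lit 0) (XT.nd (nat_lit 78) (nat_lit 152) (nat_lit 0) (XT.lf (nat_lit 0) (nat_lit 16852516825) (nat_lit 228) (nat_lit 602335835310) (nat_lit 76) (nat_lit 250249159516) (nat_lit 46) (nat_lit 5) (nat_lit 49) (nat_lit 5) (nat_lit 47) (nat_lit 5) (nat_lit 380) (nat_lit 355) (nat_lit 165)) (XT.nd (nat_lit 78) (nat_lit 0) (nat_lit 0) (XT.lf (nat_lit 0) (nat_lit 133584425118) (nat_lit 152) (nat_lit 178464454717) (nat_lit 228) (nat_lit 603380404473) (nat_lit 44) (nat_lit 5) (nat_lit 46) (nat_lit 5) (nat_lit 47) (nat_lit 5)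 (nat_lit 381) (nat_lit 355) (nat_lit 164)) (XT.lf (nat_lit 0) (nat_lit 646170306894) (nat_lit 228) (nat_lit 19505395518) (nat_lit 76) (nat_lit 298659228628) (nat_lit 44) (nat_lit 5) (nat_lit 47) (nat_lit 5) (nat_lit 45) (nat_lit 5) (nat_lit 382) (nat_lit 355) (nat_lit 163)))) (XT.nd (nat_lit 156) (nat_lit 304) (nat_lit 0) (XT.nd (nat_lit 78) (nat_lit 152) (nat_lit 0) (XT.lf (nat_lit 0) (nat_lit 6379296085) (nat_lit 228) (nat_lit 189169245160) (nat_lit 76) (nat_lit 820803067216) (nat_lit 41) (nat_lit 5) (nat_lit 44) (nat_lit 5) (nat_lit 42) (nat_lit 5) (nat_lit 383) (nat_lit 355) (nat_lit 162)) (XT.lf (nat_lit 0) (nat_lit 362093987185) (nat_lit 228) (nat_lit 390464453304) (nat_lit 76) (nat_lit 318892679129) (nat_lit 39) (nat_lit 5) (nat_lit 42) (nat_lit 5) (nat_lit 40) (nat_lit 5) (nat_lit 384) (nat_lit 355) (nat_lit 161))) (XT.nd (nat_lit 78) (nat_lit 152) (nat_lit 0) (XT.lf (nat_lit 0)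 (nat_lit 509677896415) (nat_lit 152) (nat_lit 251191962174) (nat_lit 228) (nat_lit 369358532838) (nat_lit 37) (nat_lit 5) (nat_lit 39) (nat_lit 5) (nat_lit 40) (nat_lit 5) (nat_lit 385) (nat_lit 355) (nat_lit 160)) (XT.lf (nat_lit 0) (nat_lit 14423345781) (nat_lit 152) (nat_lit 885519138058) (nat_lit 76) (nat_lit 292941334562) (nat_lit 35) (nat_lit 5) (nat_lit 37) (nat_lit 5) (nat_lit 36) (nat_lit 5) (nat_lit 386) (nat_lit 355) (nat_lit 159))))))))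
noncomputable def xc120 : XT := (XT.nd (nat_lit 46254) (nat_lit 0) (nat_lit 152) (XT.nd (nat_lit 45318) (nat_lit 0) (nat_lit 1596) (XT.nd (nat_lit 44850) (nat_lit 0) (nat_lit 4408) (XT.nd (nat_lit 44616) (nat_lit 0) (nat_lit 5624) (XT.nd (nat_lit 44460) (nat_lit 0) (nat_lit 5548) (XT.lf (nat_lit 0) (nat_lit 63038281209) (nat_lit 152) (nat_lit 369308501523) (nat_lit 228) (nat_lit 827083167321) (nat_lit 33) (nat_lit 5) (nat_lit 35) (nat_lit 5) (nat_lit 36) (nat_lit 5) (nat_lit 387) (nat_lit 355) (nat_lit 158)) (XT.nd (nat_lit 78) (nat_lit 0) (nat_lit 76) (XT.lf (nat_lit 0) (nat_lit 26079119466) (nat_lit 836) (nat_lit 62729696599) (nat_lit 836) (nat_lit 62729696599) (nat_lit 106) (nat_lit 3) (nat_lit 117) (nat_lit 3) (nat_lit 117) (nat_lit 5) (nat_lit 356) (nat_lit 356) (nat_lit 188)) (XT.lf (nat_lit 0) (nat_lit 56798801689) (nat_lit 760) (nat_lit 206210026197) (nat_lit 836) (nat_lit 52063565854)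 (nat_lit 107) (nat_lit 5) (nat_lit 117) (nat_lit 5) (nat_lit 118) (nat_lit 5) (nat_lit 357) (nat_lit 356) (nat_lit 187)))) (XT.nd (nat_lit 78) (nat_lit 0) (nat_lit 76) (XT.lf (nat_lit 76) (nat_lit 36633514688) (nat_lit 0) (nat_lit 30965143881) (nat_lit 836) (nat_lit 260139330695) (nat_lit 108) (nat_lit 5) (nat_lit 107) (nat_lit 5) (nat_lit 118) (nat_lit 5) (nat_lit 358) (nat_lit 356) (nat_lit 186)) (XT.nd (nat_lit 78) (nat_lit 0) (nat_lit 76) (XT.lf (nat_lit 0) (nat_lit 86342562282) (nat_lit 760) (nat_lit 38457179745) (nat_lit 836) (nat_lit 216263087577) (nat_lit 108) (nat_lit 5) (nat_lit 118) (nat_lit 5) (nat_lit 119) (nat_lit 5) (nat_lit 359) (nat_lit 356) (nat_lit 185)) (XT.lf (nat_lit 0) (nat_lit 112921368581) (nat_lit 760) (nat_lit 115667218523) (nat_lit 836) (nat_lit 126548300632) (nat_lit 109) (nat_lit 5) (nat_lit 119) (nat_lit 5) (nat_lit 120) (nat_lit 5) (nat_lit 360) (nat_lit 356)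 (nat_lit 184))))) (XT.nd (nat_lit 234) (nat_lit 760) (nat_lit 0) (XT.nd (nat_lit 78) (nat_lit 684) (nat_lit 0) (XT.lf (nat_lit 0) (nat_lit 147552733653) (nat_lit 760) (nat_lit 196324277522) (nat_lit 836) (nat_lit 26163546707) (nat_lit 110) (nat_lit 5) (nat_lit 120) (nat_lit 5) (nat_lit 121) (nat_lit 5) (nat_lit 361) (nat_lit 356) (nat_lit 183)) (XT.nd (nat_lit 78) (nat_lit 684) (nat_lit 0) (XT.lf (nat_lit 76) (nat_lit 103779182570) (nat_lit 0) (nat_lit 88697927638) (nat_lit 836) (nat_lit 193283286385) (nat_lit 111) (nat_lit 5) (nat_lit 110) (nat_lit 5) (nat_lit 121) (nat_lit 5) (nat_lit 362) (nat_lit 356) (nat_lit 182)) (XT.lf (nat_lit 0) (nat_lit 30331468879) (nat_lit 760) (nat_lit 217531318594) (nat_lit 836) (nat_lit 154531667464) (nat_lit 101) (nat_lit 5) (nat_lit 111) (nat_lit 5) (nat_lit 112) (nat_lit 5) (nat_lit 363) (nat_lit 356) (nat_lit 181)))) (XT.nd (nat_lit 78) (nat_lit 760)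 (nat_lit 0) (XT.lf (nat_lit 0) (nat_lit 315032076509) (nat_lit 836) (nat_lit 44855983868) (nat_lit 76) (nat_lit 60103539750) (nat_lit 101) (nat_lit 5) (nat_lit 112) (nat_lit 5) (nat_lit 102) (nat_lit 5) (nat_lit 364) (nat_lit 356) (nat_lit 180)) (XT.nd (nat_lit 78) (nat_lit 380) (nat_lit 0) (XT.lf (nat_lit 0) (nat_lit 314939572479) (nat_lit 380) (nat_lit 81220334794) (nat_lit 456) (nat_lit 42407359784) (nat_lit 96) (nat_lit 5) (nat_lit 101) (nat_lit 5) (nat_lit 102) (nat_lit 5) (nat_lit 365) (nat_lit 356) (nat_lit 179)) (XT.lf (nat_lit 0) (nat_lit 32623225137) (nat_lit 380) (nat_lit 207623328858) (nat_lit 76) (nat_lit 217948842479) (nat_lit 91) (nat_lit 5) (nat_lit 96) (nat_lit 5) (nat_lit 92) (nat_lit 5) (nat_lit 366) (nat_lit 356) (nat_lit 178)))))) (XT.nd (nat_lit 468) (nat_lit 1216) (nat_lit 0) (XT.nd (nat_lit 234) (nat_lit 608) (nat_lit 0) (XT.nd (nat_lit 78) (nat_lit 608) (nat_lit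 0) (XT.lf (nat_lit 0) (nat_lit 119629530045) (nat_lit 456) (nat_lit 296458701942) (nat_lit 76) (nat_lit 62897833146) (nat_lit 86) (nat_lit 5) (nat_lit 92) (nat_lit 5) (nat_lit 87) (nat_lit 5) (nat_lit 367) (nat_lit 356) (nat_lit 177)) (XT.nd (nat_lit 78) (nat_lit 304) (nat_lit 0) (XT.lf (nat_lit 0) (nat_lit 109437451783) (nat_lit 304) (nat_lit 113594406525) (nat_lit 380) (nat_lit 277936353071) (nat_lit 82) (nat_lit 5) (nat_lit 86) (nat_lit 5) (nat_lit 87) (nat_lit 5) (nat_lit 368) (nat_lit 356) (nat_lit 176)) (XT.lf (nat_lit 0) (nat_lit 31538660817) (nat_lit 304) (nat_lit 312235914297) (nat_lit 380) (nat_lit 180480944134) (nat_lit 78) (nat_lit 5) (nat_lit 82) (nat_lit 5) (nat_lit 83) (nat_lit 5) (nat_lit 369) (nat_lit 356) (nat_lit 175)))) (XT.nd (nat_lit 78) (nat_lit 608) (nat_lit 0) (XT.lf (nat_lit 0) (nat_lit 483155781102) (nat_lit 380) (nat_lit 48788700785) (nat_lit 76) (nat_lit 17012376303)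 (nat_lit 78) (nat_lit 5) (nat_lit 83) (nat_lit 5) (nat_lit 79) (nat_lit 5) (nat_lit 370) (nat_lit 356) (nat_lit 174)) (XT.nd (nat_lit 78) (nat_lit 304) (nat_lit 0) (XT.lf (nat_lit 0) (nat_lit 68519831532) (nat_lit 304) (nat_lit 136679108634) (nat_lit 76) (nat_lit 369773809648) (nat_lit 74) (nat_lit 5) (nat_lit 78) (nat_lit 5) (nat_lit 75) (nat_lit 5) (nat_lit 371) (nat_lit 356) (nat_lit 173)) (XT.lf (nat_lit 0) (nat_lit 220447126703) (nat_lit 380) (nat_lit 231212179044) (nat_lit 76) (nat_lit 150898368587) (nat_lit 70) (nat_lit 5) (nat_lit 75) (nat_lit 5) (nat_lit 71) (nat_lit 5) (nat_lit 372) (nat_lit 356) (nat_lit 172))))) (XT.nd (nat_lit 234) (nat_lit 456) (nat_lit 0) (XT.nd (nat_lit 78) (nat_lit 532) (nat_lit 0) (XT.lf (nat_lit 0) (nat_lit 298724415422) (nat_lit 228) (nat_lit 96347994331) (nat_lit 304) (nat_lit 236749792875) (nat_lit 67) (nat_lit 5) (nat_lit 70) (nat_lit 5) (nat_lit 71)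 (nat_lit 5) (nat_lit 373) (nat_lit 356) (nat_lit 171)) (XT.nd (nat_lit 78) (nat_lit 304) (nat_lit 0) (XT.lf (nat_lit 0) (nat_lit 218527151277) (nat_lit 228) (nat_lit 377132873311) (nat_lit 304) (nat_lit 67168253166) (nat_lit 64) (nat_lit 5) (nat_lit 67) (nat_lit 5) (nat_lit 68) (nat_lit 5) (nat_lit 374) (nat_lit 356) (nat_lit 170)) (XT.lf (nat_lit 0) (nat_lit 121972193839) (nat_lit 304) (nat_lit 565077916716) (nat_lit 76) (nat_lit 8688966748) (nat_lit 60) (nat_lit 5) (nat_lit 64) (nat_lit 5) (nat_lit 61) (nat_lit 5) (nat_lit 375) (nat_lit 356) (nat_lit 169)))) (XT.nd (nat_lit 78) (nat_lit 228) (nat_lit 0) (XT.lf (nat_lit 0) (nat_lit 29929793216) (nat_lit 228) (nat_lit 308685010631) (nat_lit 304) (nat_lit 391876672260) (nat_lit 57) (nat_lit 5) (nat_lit 60) (nat_lit 5) (nat_lit 61) (nat_lit 5) (nat_lit 376) (nat_lit 356) (nat_lit 168)) (XT.nd (nat_lit 78) (nat_lit 228) (nat_lit 0) (XT.lf (nat_lit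 0) (nat_lit 584153934144) (nat_lit 304) (nat_lit 76536939462) (nat_lit 76) (nat_lit 106754937656) (nat_lit 57) (nat_lit 5) (nat_lit 61) (nat_lit 5) (nat_lit 58) (nat_lit 5) (nat_lit 377) (nat_lit 356) (nat_lit 167)) (XT.lf (nat_lit 0) (nat_lit 55634651082) (nat_lit 228) (nat_lit 195730289649) (nat_lit 76) (nat_lit 555208853371) (nat_lit 54) (nat_lit 5) (nat_lit 57) (nat_lit 5) (nat_lit 55) (nat_lit 5) (nat_lit 378) (nat_lit 356) (nat_lit 166))))))) (XT.nd (nat_lit 45396) (nat_lit 0) (nat_lit 2964) (XT.nd (nat_lit 468) (nat_lit 456) (nat_lit 0) (XT.nd (nat_lit 234) (nat_lit 380) (nat_lit 0) (XT.nd (nat_lit 78) (nat_lit 380) (nat_lit 0) (XT.lf (nat_lit 0) (nat_lit 320008334828) (nat_lit 304) (nat_lit 330650440857) (nat_lit 76) (nat_lit 197385266265) (nat_lit 51) (nat_lit 5) (nat_lit 55) (nat_lit 5) (nat_lit 52) (nat_lit 5) (nat_lit 379) (nat_lit 356) (nat_lit 165)) (XT.nd (nat_lit 78) (nat_lit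 228) (nat_lit 0) (XT.lf (nat_lit 0) (nat_lit 410747506287) (nat_lit 152) (nat_lit 208901157280) (nat_lit 228) (nat_lit 272477408558) (nat_lit 49) (nat_lit 5) (nat_lit 51) (nat_lit 5) (nat_lit 52) (nat_lit 5) (nat_lit 380) (nat_lit 356) (nat_lit 164)) (XT.lf (nat_lit 0) (nat_lit 18201307014) (nat_lit 228) (nat_lit 650521744897) (nat_lit 76) (nat_lit 270269430984) (nat_lit 46) (nat_lit 5) (nat_lit 49) (nat_lit 5) (nat_lit 47) (nat_lit 5) (nat_lit 381) (nat_lit 356) (nat_lit 163)))) (XT.nd (nat_lit 78) (nat_lit 228) (nat_lit 0) (XT.lf (nat_lit 0) (nat_lit 144272094765) (nat_lit 152) (nat_lit 192741254977) (nat_lit 228) (nat_lit 651650249107) (nat_lit 44) (nat_lit 5) (nat_lit 46) (nat_lit 5) (nat_lit 47) (nat_lit 5) (nat_lit 382) (nat_lit 356) (nat_lit 162)) (XT.nd (nat_lit 78) (nat_lit 228) (nat_lit 0) (XT.lf (nat_lit 0) (nat_lit 697864454668) (nat_lit 228) (nat_lit 21064958381) (nat_lit 76)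 (nat_lit 322552286103) (nat_lit 44) (nat_lit 5) (nat_lit 47) (nat_lit 5) (nat_lit 45) (nat_lit 5) (nat_lit 383) (nat_lit 356) (nat_lit 161)) (XT.lf (nat_lit 0) (nat_lit 6890145556) (nat_lit 228) (nat_lit 204301936842) (nat_lit 76) (nat_lit 886467629266) (nat_lit 41) (nat_lit 5) (nat_lit 44) (nat_lit 5) (nat_lit 42) (nat_lit 5) (nat_lit 384) (nat_lit 356) (nat_lit 160))))) (XT.nd (nat_lit 44694) (nat_lit 0) (nat_lit 5396) (XT.nd (nat_lit 78) (nat_lit 304) (nat_lit 0) (XT.lf (nat_lit 0) (nat_lit 391061992295) (nat_lit 228) (nat_lit 421700779421) (nat_lit 76) (nat_lit 344404412994) (nat_lit 39) (nat_lit 5) (nat_lit 42) (nat_lit 5) (nat_lit 40) (nat_lit 5) (nat_lit 385) (nat_lit 356) (nat_lit 159)) (XT.nd (nat_lit 78) (nat_lit 152) (nat_lit 0) (XT.lf (nat_lit 0) (nat_lit 550452922199) (nat_lit 152) (nat_lit 271286987600) (nat_lit 228) (nat_lit 398906729657) (nat_lit 37) (nat_lit 5) (nat_lit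 39) (nat_lit 5) (nat_lit 40) (nat_lit 5) (nat_lit 386) (nat_lit 356) (nat_lit 158)) (XT.lf (nat_lit 0) (nat_lit 15577666068) (nat_lit 152) (nat_lit 956359877114) (nat_lit 76) (nat_lit 316376957920) (nat_lit 35) (nat_lit 5) (nat_lit 37) (nat_lit 5) (nat_lit 36) (nat_lit 5) (nat_lit 387) (nat_lit 356) (nat_lit 157)))) (XT.nd (nat_lit 78) (nat_lit 0) (nat_lit 76) (XT.lf (nat_lit 0) (nat_lit 28166508393) (nat_lit 836) (nat_lit 67747515698) (nat_lit 836) (nat_lit 67747515698) (nat_lit 106) (nat_lit 3) (nat_lit 117) (nat_lit 3) (nat_lit 117) (nat_lit 5) (nat_lit 357) (nat_lit 357) (nat_lit 186)) (XT.nd (nat_lit 78) (nat_lit 0) (nat_lit 0) (XT.lf (nat_lit 0) (nat_lit 61344669983) (nat_lit 760) (nat_lit 222705648533) (nat_lit 836) (nat_lit 56227766815) (nat_lit 107) (nat_lit 5) (nat_lit 117) (nat_lit 5) (nat_lit 118) (nat_lit 5) (nat_lit 358) (nat_lit 357) (nat_lit 185)) (XT.lf (nat_lit 76) (nat_lit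 39565324352) (nat_lit 0) (nat_lit 33443063187) (nat_lit 836) (nat_lit 280948547478) (nat_lit 108) (nat_lit 5) (nat_lit 107) (nat_lit 5) (nat_lit 118) (nat_lit 5) (nat_lit 359) (nat_lit 357) (nat_lit 184)))))) (XT.nd (nat_lit 468) (nat_lit 2052) (nat_lit 0) (XT.nd (nat_lit 234) (nat_lit 532) (nat_lit 0) (XT.nd (nat_lit 78) (nat_lit 0) (nat_lit 76) (XT.lf (nat_lit 0) (nat_lit 93251657296) (nat_lit 760) (nat_lit 41532612524) (nat_lit 836) (nat_lit 233563500193) (nat_lit 108) (nat_lit 5) (nat_lit 118) (nat_lit 5) (nat_lit 119) (nat_lit 5) (nat_lit 360) (nat_lit 357) (nat_lit 183)) (XT.nd (nat_lit 78) (nat_lit 0) (nat_lit 76) (XT.lf (nat_lit 0) (nat_lit 121956652311) (nat_lit 760) (nat_lit 124919415925) (nat_lit 836) (nat_lit 136671690458) (nat_lit 109) (nat_lit 5) (nat_lit 119) (nat_lit 5) (nat_lit 120) (nat_lit 5) (nat_lit 361) (nat_lit 357) (nat_lit 182)) (XT.lf (nat_lit 0) (nat_lit 159358422193)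 (nat_lit 760) (nat_lit 212029010506) (nat_lit 836) (nat_lit 28256295071) (nat_lit 110) (nat_lit 5) (nat_lit 120) (nat_lit 5) (nat_lit 121) (nat_lit 5) (nat_lit 362) (nat_lit 357) (nat_lit 181)))) (XT.nd (nat_lit 78) (nat_lit 684) (nat_lit 0) (XT.lf (nat_lit 76) (nat_lit 112082673842) (nat_lit 0) (nat_lit 95793984211) (nat_lit 836) (nat_lit 208744500158) (nat_lit 111) (nat_lit 5) (nat_lit 110) (nat_lit 5) (nat_lit 121) (nat_lit 5) (nat_lit 363) (nat_lit 357) (nat_lit 180)) (XT.nd (nat_lit 78) (nat_lit 0) (nat_lit 0) (XT.lf (nat_lit 0) (nat_lit 32759163171) (nat_lit 760) (nat_lit 234933939336) (nat_lit 836) (nat_lit 166892843151) (nat_lit 101) (nat_lit 5) (nat_lit 111) (nat_lit 5) (nat_lit 112) (nat_lit 5) (nat_lit 364) (nat_lit 357) (nat_lit 179)) (XT.lf (nat_lit 0) (nat_lit 340235837294) (nat_lit 836) (nat_lit 48443310490) (nat_lit 76) (nat_lit 64911719628) (nat_lit 101) (nat_lit 5) (nat_lit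 112) (nat_lit 5) (nat_lit 102) (nat_lit 5) (nat_lit 365) (nat_lit 357) (nat_lit 178))))) (XT.nd (nat_lit 234) (nat_lit 912) (nat_lit 0) (XT.nd (nat_lit 78) (nat_lit 760) (nat_lit 0) (XT.lf (nat_lit 0) (nat_lit 340135840296) (nat_lit 380) (nat_lit 87717982934) (nat_lit 456) (nat_lit 45798768104) (nat_lit 96) (nat_lit 5) (nat_lit 101) (nat_lit 5) (nat_lit 102) (nat_lit 5) (nat_lit 366) (nat_lit 357) (nat_lit 177)) (XT.nd (nat_lit 78) (nat_lit 380) (nat_lit 0) (XT.lf (nat_lit 0) (nat_lit 35234158472) (nat_lit 380) (nat_lit 224232049749) (nat_lit 76) (nat_lit 235384765395) (nat_lit 91) (nat_lit 5) (nat_lit 96) (nat_lit 5) (nat_lit 92) (nat_lit 5) (nat_lit 367) (nat_lit 357) (nat_lit 176)) (XT.lf (nat_lit 0) (nat_lit 129200906519) (nat_lit 456) (nat_lit 320174252364) (nat_lit 76) (nat_lit 67929740008) (nat_lit 86) (nat_lit 5) (nat_lit 92) (nat_lit 5) (nat_lit 87) (nat_lit 5) (nat_lit 368) (nat_lit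 357) (nat_lit 175)))) (XT.nd (nat_lit 156) (nat_lit 304) (nat_lit 0) (XT.nd (nat_lit 78) (nat_lit 304) (nat_lit 0) (XT.lf (nat_lit 0) (nat_lit 118193543867) (nat_lit 304) (nat_lit 122681819170) (nat_lit 380) (nat_lit 300170256755) (nat_lit 82) (nat_lit 5) (nat_lit 86) (nat_lit 5) (nat_lit 87) (nat_lit 5) (nat_lit 369) (nat_lit 357) (nat_lit 174)) (XT.lf (nat_lit 0) (nat_lit 34062846297) (nat_lit 304) (nat_lit 337214599152) (nat_lit 380) (nat_lit 194918469480) (nat_lit 78) (nat_lit 5) (nat_lit 82) (nat_lit 5) (nat_lit 83) (nat_lit 5) (nat_lit 370) (nat_lit 357) (nat_lit 173))) (XT.nd (nat_lit 78) (nat_lit 304) (nat_lit 0) (XT.lf (nat_lit 0) (nat_lit 521809083651) (nat_lit 380) (nat_lit 52690745427) (nat_lit 76) (nat_lit 18373535169) (nat_lit 78) (nat_lit 5) (nat_lit 83) (nat_lit 5) (nat_lit 79) (nat_lit 5) (nat_lit 371) (nat_lit 357) (nat_lit 172)) (XT.lf (nat_lit 0) (nat_lit 74002225133)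 (nat_lit 304) (nat_lit 147612404387) (nat_lit 76) (nat_lit 399355899400) (nat_lit 74) (nat_lit 5) (nat_lit 78) (nat_lit 5) (nat_lit 75) (nat_lit 5) (nat_lit 372) (nat_lit 357) (nat_lit 171))))))))
noncomputable def xc121 : XT := (XT.nd (nat_lit 46566) (nat_lit 0) (nat_lit 304) (XT.nd (nat_lit 1014) (nat_lit 532) (nat_lit 0) (XT.nd (nat_lit 468) (nat_lit 988) (nat_lit 0) (XT.nd (nat_lit 234) (nat_lit 532) (nat_lit 0) (XT.nd (nat_lit 78) (nat_lit 456) (nat_lit 0) (XT.lf (nat_lit 0) (nat_lit 238083663078) (nat_lit 380) (nat_lit 249708130216) (nat_lit 76) (nat_lit 162970456188) (nat_lit 70) (nat_lit 5) (nat_lit 75) (nat_lit 5) (nat_lit 71) (nat_lit 5) (nat_lit 373) (nat_lit 357) (nat_lit 170)) (XT.nd (nat_lit 78) (nat_lit 228) (nat_lit 0) (XT.lf (nat_lit 0) (nat_lit 322623347342) (nat_lit 228) (nat_lit 104055579952) (nat_lit 304) (nat_lit 255689014857) (nat_lit 67) (nat_lit 5) (nat_lit 70) (nat_lit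 5) (nat_lit 71) (nat_lit 5) (nat_lit 374) (nat_lit 357) (nat_lit 169)) (XT.lf (nat_lit 0) (nat_lit 236010290835) (nat_lit 228) (nat_lit 407303225571) (nat_lit 304) (nat_lit 72540988660) (nat_lit 64) (nat_lit 5) (nat_lit 67) (nat_lit 5) (nat_lit 68) (nat_lit 5) (nat_lit 375) (nat_lit 357) (nat_lit 168)))) (XT.nd (nat_lit 78) (nat_lit 228) (nat_lit 0) (XT.lf (nat_lit 0) (nat_lit 131730638169) (nat_lit 304) (nat_lit 610283172914) (nat_lit 76) (nat_lit 9384358596) (nat_lit 60) (nat_lit 5) (nat_lit 64) (nat_lit 5) (nat_lit 61) (nat_lit 5) (nat_lit 376) (nat_lit 357) (nat_lit 167)) (XT.nd (nat_lit 78) (nat_lit 0) (nat_lit 0) (XT.lf (nat_lit 0) (nat_lit 32325111347) (nat_lit 228) (nat_lit 333379510681) (nat_lit 304) (nat_lit 423226140134) (nat_lit 57) (nat_lit 5) (nat_lit 60) (nat_lit 5) (nat_lit 61) (nat_lit 5) (nat_lit 377) (nat_lit 357) (nat_lit 166)) (XT.lf (nat_lit 0) (nat_lit 630886840144)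 (nat_lit 304) (nat_lit 82659003867) (nat_lit 76) (nat_lit 115295602273) (nat_lit 57) (nat_lit 5) (nat_lit 61) (nat_lit 5) (nat_lit 58) (nat_lit 5) (nat_lit 378) (nat_lit 357) (nat_lit 165))))) (XT.nd (nat_lit 234) (nat_lit 380) (nat_lit 0) (XT.nd (nat_lit 78) (nat_lit 380) (nat_lit 0) (XT.lf (nat_lit 0) (nat_lit 60085993417) (nat_lit 228) (nat_lit 211387841647) (nat_lit 76) (nat_lit 599625833775) (nat_lit 54) (nat_lit 5) (nat_lit 57) (nat_lit 5) (nat_lit 55) (nat_lit 5) (nat_lit 379) (nat_lit 357) (nat_lit 164)) (XT.nd (nat_lit 78) (nat_lit 152) (nat_lit 0) (XT.lf (nat_lit 0) (nat_lit 345609547196) (nat_lit 304) (nat_lit 357101620067) (nat_lit 76) (nat_lit 213176370506) (nat_lit 51) (nat_lit 5) (nat_lit 55) (nat_lit 5) (nat_lit 52) (nat_lit 5) (nat_lit 380) (nat_lit 357) (nat_lit 163)) (XT.lf (nat_lit 0) (nat_lit 443608125645) (nat_lit 152) (nat_lit 225612948961) (nat_lit 228) (nat_lit 294275057154)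 (nat_lit 49) (nat_lit 5) (nat_lit 51) (nat_lit 5) (nat_lit 52) (nat_lit 5) (nat_lit 381) (nat_lit 357) (nat_lit 162)))) (XT.nd (nat_lit 78) (nat_lit 152) (nat_lit 0) (XT.lf (nat_lit 0) (nat_lit 19657916413) (nat_lit 228) (nat_lit 702562663812) (nat_lit 76) (nat_lit 291891275850) (nat_lit 46) (nat_lit 5) (nat_lit 49) (nat_lit 5) (nat_lit 47) (nat_lit 5) (nat_lit 382) (nat_lit 357) (nat_lit 161)) (XT.nd (nat_lit 78) (nat_lit 0) (nat_lit 0) (XT.lf (nat_lit 0) (nat_lit 155814647358) (nat_lit 152) (nat_lit 208160250063) (nat_lit 228) (nat_lit 703781765157) (nat_lit 44) (nat_lit 5) (nat_lit 46) (nat_lit 5) (nat_lit 47) (nat_lit 5) (nat_lit 383) (nat_lit 357) (nat_lit 160)) (XT.lf (nat_lit 0) (nat_lit 753694059621) (nat_lit 228) (nat_lit 22749410215) (nat_lit 76) (nat_lit 348356742640) (nat_lit 44) (nat_lit 5) (nat_lit 47) (nat_lit 5) (nat_lit 45) (nat_lit 5) (nat_lit 384) (nat_lit 357) (nat_lit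 159)))))) (XT.nd (nat_lit 45006) (nat_lit 0) (nat_lit 4104) (XT.nd (nat_lit 44772) (nat_lit 0) (nat_lit 5320) (XT.nd (nat_lit 78) (nat_lit 152) (nat_lit 0) (XT.lf (nat_lit 0) (nat_lit 422347368461) (nat_lit 228) (nat_lit 455436130056) (nat_lit 76) (nat_lit 371957039983) (nat_lit 39) (nat_lit 5) (nat_lit 42) (nat_lit 5) (nat_lit 40) (nat_lit 5) (nat_lit 386) (nat_lit 357) (nat_lit 157)) (XT.nd (nat_lit 44616) (nat_lit 0) (nat_lit 5244) (XT.lf (nat_lit 0) (nat_lit 594489836762) (nat_lit 152) (nat_lit 292989662360) (nat_lit 228) (nat_lit 430818851528) (nat_lit 37) (nat_lit 5) (nat_lit 39) (nat_lit 5) (nat_lit 40) (nat_lit 5) (nat_lit 387) (nat_lit 357) (nat_lit 156)) (XT.lf (nat_lit 0) (nat_lit 30420737304) (nat_lit 836) (nat_lit 73166839735) (nat_lit 836) (nat_lit 73166839735) (nat_lit 106) (nat_lit 3) (nat_lit 117) (nat_lit 3) (nat_lit 117) (nat_lit 5) (nat_lit 358) (nat_lit 358) (nat_lit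 184)))) (XT.nd (nat_lit 78) (nat_lit 0) (nat_lit 0) (XT.lf (nat_lit 0) (nat_lit 66253927531) (nat_lit 760) (nat_lit 240521088962) (nat_lit 836) (nat_lit 60725230010) (nat_lit 107) (nat_lit 5) (nat_lit 117) (nat_lit 5) (nat_lit 118) (nat_lit 5) (nat_lit 359) (nat_lit 358) (nat_lit 183)) (XT.nd (nat_lit 78) (nat_lit 0) (nat_lit 76) (XT.lf (nat_lit 76) (nat_lit 42731517798) (nat_lit 0) (nat_lit 36119115062) (nat_lit 836) (nat_lit 303422776893) (nat_lit 108) (nat_lit 5) (nat_lit 107) (nat_lit 5) (nat_lit 118) (nat_lit 5) (nat_lit 360) (nat_lit 358) (nat_lit 182)) (XT.lf (nat_lit 0) (nat_lit 100713238809) (nat_lit 760) (nat_lit 44854242788) (nat_lit 836) (nat_lit 252248036321) (nat_lit 108) (nat_lit 5) (nat_lit 118) (nat_lit 5) (nat_lit 119) (nat_lit 5) (nat_lit 361) (nat_lit 358) (nat_lit 181))))) (XT.nd (nat_lit 234) (nat_lit 1368) (nat_lit 0) (XT.nd (nat_lit 78) (nat_lit 0) (nat_lit 76) (XT.lf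 (nat_lit 0) (nat_lit 131714534157) (nat_lit 760) (nat_lit 134911957470) (nat_lit 836) (nat_lit 147605019123) (nat_lit 109) (nat_lit 5) (nat_lit 119) (nat_lit 5) (nat_lit 120) (nat_lit 5) (nat_lit 362) (nat_lit 358) (nat_lit 180)) (XT.nd (nat_lit 78) (nat_lit 0) (nat_lit 0) (XT.lf (nat_lit 0) (nat_lit 172108356126) (nat_lit 760) (nat_lit 228990294637) (nat_lit 836) (nat_lit 30516511150) (nat_lit 110) (nat_lit 5) (nat_lit 120) (nat_lit 5) (nat_lit 121) (nat_lit 5) (nat_lit 363) (nat_lit 358) (nat_lit 179)) (XT.lf (nat_lit 76) (nat_lit 121050279404) (nat_lit 0) (nat_lit 103457693588) (nat_lit 836) (nat_lit 225442817769) (nat_lit 111) (nat_lit 5) (nat_lit 110) (nat_lit 5) (nat_lit 121) (nat_lit 5) (nat_lit 364) (nat_lit 358) (nat_lit 178)))) (XT.nd (nat_lit 156) (nat_lit 760) (nat_lit 0) (XT.nd (nat_lit 78) (nat_lit 0) (nat_lit 0) (XT.lf (nat_lit 0) (nat_lit 35380905125) (nat_lit 760) (nat_lit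 253728753296) (nat_lit 836) (nat_lit 180243106585) (nat_lit 101) (nat_lit 5) (nat_lit 111) (nat_lit 5) (nat_lit 112) (nat_lit 5) (nat_lit 365) (nat_lit 358) (nat_lit 177)) (XT.lf (nat_lit 0) (nat_lit 367455728509) (nat_lit 836) (nat_lit 52317787600) (nat_lit 76) (nat_lit 70104568633) (nat_lit 101) (nat_lit 5) (nat_lit 112) (nat_lit 5) (nat_lit 102) (nat_lit 5) (nat_lit 366) (nat_lit 358) (nat_lit 176))) (XT.nd (nat_lit 78) (nat_lit 380) (nat_lit 0) (XT.lf (nat_lit 0) (nat_lit 367347652324) (nat_lit 380) (nat_lit 94735439879) (nat_lit 456) (nat_lit 49461657495) (nat_lit 96) (nat_lit 5) (nat_lit 101) (nat_lit 5) (nat_lit 102) (nat_lit 5) (nat_lit 367) (nat_lit 358) (nat_lit 175)) (XT.lf (nat_lit 0) (nat_lit 38053813067) (nat_lit 380) (nat_lit 242169631719) (nat_lit 76) (nat_lit 254215559930) (nat_lit 91) (nat_lit 5) (nat_lit 96) (nat_lit 5) (nat_lit 92) (nat_lit 5) (nat_lit 368) (nat_lit 358)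 (nat_lit 174))))))) (XT.nd (nat_lit 936) (nat_lit 988) (nat_lit 0) (XT.nd (nat_lit 468) (nat_lit 1216) (nat_lit 0) (XT.nd (nat_lit 234) (nat_lit 608) (nat_lit 0) (XT.nd (nat_lit 78) (nat_lit 608) (nat_lit 0) (XT.lf (nat_lit 0) (nat_lit 139537848442) (nat_lit 456) (nat_lit 345787210271) (nat_lit 76) (nat_lit 73364187976) (nat_lit 86) (nat_lit 5) (nat_lit 92) (nat_lit 5) (nat_lit 87) (nat_lit 5) (nat_lit 369) (nat_lit 358) (nat_lit 173)) (XT.nd (nat_lit 78) (nat_lit 304) (nat_lit 0) (XT.lf (nat_lit 0) (nat_lit 127649966970) (nat_lit 304) (nat_lit 132496244781) (nat_lit 380) (nat_lit 324183016045) (nat_lit 82) (nat_lit 5) (nat_lit 86) (nat_lit 5) (nat_lit 87) (nat_lit 5) (nat_lit 370) (nat_lit 358) (nat_lit 172)) (XT.lf (nat_lit 0) (nat_lit 36788810742) (nat_lit 304) (nat_lit 364191605657) (nat_lit 380) (nat_lit 210511132408) (nat_lit 78) (nat_lit 5) (nat_lit 82) (nat_lit 5) (nat_lit 83) (nat_lit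 5) (nat_lit 371) (nat_lit 358) (nat_lit 171)))) (XT.nd (nat_lit 78) (nat_lit 608) (nat_lit 0) (XT.lf (nat_lit 0) (nat_lit 563554530560) (nat_lit 380) (nat_lit 56905103638) (nat_lit 76) (nat_lit 19843562669) (nat_lit 78) (nat_lit 5) (nat_lit 83) (nat_lit 5) (nat_lit 79) (nat_lit 5) (nat_lit 372) (nat_lit 358) (nat_lit 170)) (XT.nd (nat_lit 78) (nat_lit 304) (nat_lit 0) (XT.lf (nat_lit 0) (nat_lit 79923095083) (nat_lit 304) (nat_lit 159420511161) (nat_lit 76) (nat_lit 431304529943) (nat_lit 74) (nat_lit 5) (nat_lit 78) (nat_lit 5) (nat_lit 75) (nat_lit 5) (nat_lit 373) (nat_lit 358) (nat_lit 169)) (XT.lf (nat_lit 0) (nat_lit 257131013051) (nat_lit 380) (nat_lit 269683903445) (nat_lit 76) (nat_lit 176008279681) (nat_lit 70) (nat_lit 5) (nat_lit 75) (nat_lit 5) (nat_lit 71) (nat_lit 5) (nat_lit 374) (nat_lit 358) (nat_lit 168))))) (XT.nd (nat_lit 234) (nat_lit 456) (nat_lit 0) (XT.nd (nat_lit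 78) (nat_lit 532) (nat_lit 0) (XT.lf (nat_lit 0) (nat_lit 348434054196) (nat_lit 228) (nat_lit 112379808647) (nat_lit 304) (nat_lit 276143483226) (nat_lit 67) (nat_lit 5) (nat_lit 70) (nat_lit 5) (nat_lit 71) (nat_lit 5) (nat_lit 375) (nat_lit 358) (nat_lit 167)) (XT.nd (nat_lit 78) (nat_lit 304) (nat_lit 0) (XT.lf (nat_lit 0) (nat_lit 254891943540) (nat_lit 228) (nat_lit 439887245614) (nat_lit 304) (nat_lit 78343646388) (nat_lit 64) (nat_lit 5) (nat_lit 67) (nat_lit 5) (nat_lit 68) (nat_lit 5) (nat_lit 376) (nat_lit 358) (nat_lit 166)) (XT.lf (nat_lit 0) (nat_lit 142269662631) (nat_lit 304) (nat_lit 659104989007) (nat_lit 76) (nat_lit 10135342629) (nat_lit 60) (nat_lit 5) (nat_lit 64) (nat_lit 5) (nat_lit 61) (nat_lit 5) (nat_lit 377) (nat_lit 358) (nat_lit 165)))) (XT.nd (nat_lit 78) (nat_lit 228) (nat_lit 0) (XT.lf (nat_lit 0) (nat_lit 34911921588) (nat_lit 228) (nat_lit 360049613648)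 (nat_lit 304) (nat_lit 457083660436) (nat_lit 57) (nat_lit 5) (nat_lit 60) (nat_lit 5) (nat_lit 61) (nat_lit 5) (nat_lit 378) (nat_lit 358) (nat_lit 164)) (XT.nd (nat_lit 78) (nat_lit 228) (nat_lit 0) (XT.lf (nat_lit 0) (nat_lit 681358294273) (nat_lit 304) (nat_lit 89270960500) (nat_lit 76) (nat_lit 124519481598) (nat_lit 57) (nat_lit 5) (nat_lit 61) (nat_lit 5) (nat_lit 58) (nat_lit 5) (nat_lit 379) (nat_lit 358) (nat_lit 163)) (XT.lf (nat_lit 0) (nat_lit 64893361787) (nat_lit 228) (nat_lit 228298122088) (nat_lit 76) (nat_lit 647596133788) (nat_lit 54) (nat_lit 5) (nat_lit 57) (nat_lit 5) (nat_lit 55) (nat_lit 5) (nat_lit 380) (nat_lit 358) (nat_lit 162)))))) (XT.nd (nat_lit 45240) (nat_lit 0) (nat_lit 4560) (XT.nd (nat_lit 234) (nat_lit 380) (nat_lit 0) (XT.nd (nat_lit 78) (nat_lit 380) (nat_lit 0) (XT.lf (nat_lit 0) (nat_lit 373258778721) (nat_lit 304) (nat_lit 385669015740) (nat_lit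 76) (nat_lit 230230722721) (nat_lit 51) (nat_lit 5) (nat_lit 55) (nat_lit 5) (nat_lit 52) (nat_lit 5) (nat_lit 381) (nat_lit 358) (nat_lit 161)) (XT.nd (nat_lit 78) (nat_lit 228) (nat_lit 0) (XT.lf (nat_lit 0) (nat_lit 479097477733) (nat_lit 152) (nat_lit 243661726903) (nat_lit 228) (nat_lit 317816595257) (nat_lit 49) (nat_lit 5) (nat_lit 51) (nat_lit 5) (nat_lit 52) (nat_lit 5) (nat_lit 382) (nat_lit 358) (nat_lit 160)) (XT.lf (nat_lit 0) (nat_lit 21230982544) (nat_lit 228) (nat_lit 758766973318) (nat_lit 76) (nat_lit 315242826878) (nat_lit 46) (nat_lit 5) (nat_lit 49) (nat_lit 5) (nat_lit 47) (nat_lit 5) (nat_lit 383) (nat_lit 358) (nat_lit 159)))) (XT.nd (nat_lit 156) (nat_lit 228) (nat_lit 0) (XT.lf (nat_lit 0) (nat_lit 168280492168) (nat_lit 152) (nat_lit 224812808312) (nat_lit 228) (nat_lit 760083874375) (nat_lit 44) (nat_lit 5) (nat_lit 46) (nat_lit 5) (nat_lit 47) (nat_lit 5) (nat_lit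 384) (nat_lit 358) (nat_lit 158)) (XT.nd (nat_lit 44772) (nat_lit 0) (nat_lit 4940) (XT.lf (nat_lit 0) (nat_lit 8037505860) (nat_lit 228) (nat_lit 238296370757) (nat_lit 76) (nat_lit 1033976368756) (nat_lit 41) (nat_lit 5) (nat_lit 44) (nat_lit 5) (nat_lit 42) (nat_lit 5) (nat_lit 386) (nat_lit 358) (nat_lit 156)) (XT.lf (nat_lit 0) (nat_lit 32855174956) (nat_lit 836) (nat_lit 79019777776) (nat_lit 836) (nat_lit 79019777776) (nat_lit 106) (nat_lit 3) (nat_lit 117) (nat_lit 3) (nat_lit 117) (nat_lit 5) (nat_lit 359) (nat_lit 359) (nat_lit 182))))) (XT.nd (nat_lit 234) (nat_lit 456) (nat_lit 0) (XT.nd (nat_lit 78) (nat_lit 0) (nat_lit 0) (XT.lf (nat_lit 0) (nat_lit 71555685449) (nat_lit 760) (nat_lit 259761908920) (nat_lit 836) (nat_lit 65582598419) (nat_lit 107) (nat_lit 5) (nat_lit 117) (nat_lit 5) (nat_lit 118) (nat_lit 5) (nat_lit 360) (nat_lit 359) (nat_lit 181)) (XT.nd (nat_lit 78) (nat_lit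 0) (nat_lit 76) (XT.lf (nat_lit 76) (nat_lit 46150868695) (nat_lit 0) (nat_lit 39009164518) (nat_lit 836) (nat_lit 327695180677) (nat_lit 108) (nat_lit 5) (nat_lit 107) (nat_lit 5) (nat_lit 118) (nat_lit 5) (nat_lit 361) (nat_lit 359) (nat_lit 180)) (XT.lf (nat_lit 0) (nat_lit 108771540137) (nat_lit 760) (nat_lit 48441743101) (nat_lit 836) (nat_lit 272427412931) (nat_lit 108) (nat_lit 5) (nat_lit 118) (nat_lit 5) (nat_lit 119) (nat_lit 5) (nat_lit 362) (nat_lit 359) (nat_lit 179)))) (XT.nd (nat_lit 156) (nat_lit 608) (nat_lit 0) (XT.nd (nat_lit 78) (nat_lit 0) (nat_lit 76) (XT.lf (nat_lit 0) (nat_lit 142252854006) (nat_lit 760) (nat_lit 145704046673) (nat_lit 836) (nat_lit 159413072083) (nat_lit 109) (nat_lit 5) (nat_lit 119) (nat_lit 5) (nat_lit 120) (nat_lit 5) (nat_lit 363) (nat_lit 359) (nat_lit 178)) (XT.lf (nat_lit 0) (nat_lit 185878104998) (nat_lit 760) (nat_lit 247308629397) (nat_lit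 836) (nat_lit 32957585533) (nat_lit 110) (nat_lit 5) (nat_lit 120) (nat_lit 5) (nat_lit 121) (nat_lit 5) (nat_lit 364) (nat_lit 359) (nat_lit 177))) (XT.nd (nat_lit 78) (nat_lit 684) (nat_lit 0) (XT.lf (nat_lit 76) (nat_lit 130735151941) (nat_lit 0) (nat_lit 111734472518) (nat_lit 836) (nat_lit 243477178032) (nat_lit 111) (nat_lit 5) (nat_lit 110) (nat_lit 5) (nat_lit 121) (nat_lit 5) (nat_lit 365) (nat_lit 359) (nat_lit 176)) (XT.lf (nat_lit 0) (nat_lit 38212242505) (nat_lit 760) (nat_lit 274027138276) (nat_lit 836) (nat_lit 194661557154) (nat_lit 101) (nat_lit 5) (nat_lit 111) (nat_lit 5) (nat_lit 112) (nat_lit 5) (nat_lit 366) (nat_lit 359) (nat_lit 175))))))))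
noncomputable def xc122 : XT := (XT.nd (nat_lit 46644) (nat_lit 0) (nat_lit 0) (XT.nd (nat_lit 936) (nat_lit 1216) (nat_lit 0) (XT.nd (nat_lit 468) (nat_lit 1368) (nat_lit 0) (XT.nd (nat_lit 234) (nat_lit 988) (nat_lit 0) (XT.nd (nat_lit 78) (nat_lit 760) (nat_lit 0) (XT.lf (nat_lit 0) (nat_lit 396853064904) (nat_lit 836) (nat_lit 56502363789) (nat_lit 76) (nat_lit 75712858194) (nat_lit 101) (nat_lit 5) (nat_lit 112) (nat_lit 5) (nat_lit 102) (nat_lit 5) (nat_lit 367) (nat_lit 359) (nat_lit 174)) (XT.nd (nat_lit 78) (nat_lit 380) (nat_lit 0) (XT.lf (nat_lit 0) (nat_lit 396736274527) (nat_lit 380) (nat_lit 102314290768) (nat_lit 456) (nat_lit 53417722418) (nat_lit 96) (nat_lit 5) (nat_lit 101) (nat_lit 5) (nat_lit 102) (nat_lit 5) (nat_lit 368) (nat_lit 359) (nat_lit 173)) (XT.lf (nat_lit 0) (nat_lit 41098908507) (nat_lit 380) (nat_lit 261542360340) (nat_lit 76) (nat_lit 274552816130) (nat_lit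 91) (nat_lit 5) (nat_lit 96) (nat_lit 5) (nat_lit 92) (nat_lit 5) (nat_lit 369) (nat_lit 359) (nat_lit 172)))) (XT.nd (nat_lit 78) (nat_lit 608) (nat_lit 0) (XT.lf (nat_lit 0) (nat_lit 150701621689) (nat_lit 456) (nat_lit 373449344944) (nat_lit 76) (nat_lit 79233381971) (nat_lit 86) (nat_lit 5) (nat_lit 92) (nat_lit 5) (nat_lit 87) (nat_lit 5) (nat_lit 370) (nat_lit 359) (nat_lit 171)) (XT.nd (nat_lit 78) (nat_lit 304) (nat_lit 0) (XT.lf (nat_lit 0) (nat_lit 137862769878) (nat_lit 304) (nat_lit 143095841549) (nat_lit 380) (nat_lit 350116918946) (nat_lit 82) (nat_lit 5) (nat_lit 86) (nat_lit 5) (nat_lit 87) (nat_lit 5) (nat_lit 371) (nat_lit 359) (nat_lit 170)) (XT.lf (nat_lit 0) (nat_lit 39732718705) (nat_lit 304) (nat_lit 393326795712) (nat_lit 380) (nat_lit 227351324586) (nat_lit 78) (nat_lit 5) (nat_lit 82) (nat_lit 5) (nat_lit 83) (nat_lit 5) (nat_lit 372) (nat_lit 359) (nat_lit 169)))))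 (XT.nd (nat_lit 234) (nat_lit 760) (nat_lit 0) (XT.nd (nat_lit 78) (nat_lit 608) (nat_lit 0) (XT.lf (nat_lit 0) (nat_lit 608639510474) (nat_lit 380) (nat_lit 61456739104) (nat_lit 76) (nat_lit 21431171727) (nat_lit 78) (nat_lit 5) (nat_lit 83) (nat_lit 5) (nat_lit 79) (nat_lit 5) (nat_lit 373) (nat_lit 359) (nat_lit 168)) (XT.nd (nat_lit 78) (nat_lit 304) (nat_lit 0) (XT.lf (nat_lit 0) (nat_lit 86317535917) (nat_lit 304) (nat_lit 172173392813) (nat_lit 76) (nat_lit 465809028305) (nat_lit 74) (nat_lit 5) (nat_lit 78) (nat_lit 5) (nat_lit 75) (nat_lit 5) (nat_lit 374) (nat_lit 359) (nat_lit 167)) (XT.lf (nat_lit 0) (nat_lit 277702057304) (nat_lit 380) (nat_lit 291257863674) (nat_lit 76) (nat_lit 190089102377) (nat_lit 70) (nat_lit 5) (nat_lit 75) (nat_lit 5) (nat_lit 71) (nat_lit 5) (nat_lit 375) (nat_lit 359) (nat_lit 166)))) (XT.nd (nat_lit 78) (nat_lit 532) (nat_lit 0) (XT.lf (nat_lit 0)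 (nat_lit 376309497895) (nat_lit 228) (nat_lit 121370006696) (nat_lit 304) (nat_lit 298234402196) (nat_lit 67) (nat_lit 5) (nat_lit 70) (nat_lit 5) (nat_lit 71) (nat_lit 5) (nat_lit 376) (nat_lit 359) (nat_lit 165)) (XT.nd (nat_lit 78) (nat_lit 304) (nat_lit 0) (XT.lf (nat_lit 0) (nat_lit 275284010132) (nat_lit 228) (nat_lit 475078021215) (nat_lit 304) (nat_lit 84610605379) (nat_lit 64) (nat_lit 5) (nat_lit 67) (nat_lit 5) (nat_lit 68) (nat_lit 5) (nat_lit 377) (nat_lit 359) (nat_lit 164)) (XT.lf (nat_lit 0) (nat_lit 153651727246) (nat_lit 304) (nat_lit 711832669901) (nat_lit 76) (nat_lit 10946371811) (nat_lit 60) (nat_lit 5) (nat_lit 64) (nat_lit 5) (nat_lit 61) (nat_lit 5) (nat_lit 378) (nat_lit 359) (nat_lit 163)))))) (XT.nd (nat_lit 468) (nat_lit 152) (nat_lit 0) (XT.nd (nat_lit 234) (nat_lit 608) (nat_lit 0) (XT.nd (nat_lit 78) (nat_lit 228) (nat_lit 0) (XT.lf (nat_lit 0) (nat_lit 37705562328)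 (nat_lit 228) (nat_lit 388853361642) (nat_lit 304) (nat_lit 493649863809) (nat_lit 57) (nat_lit 5) (nat_lit 60) (nat_lit 5) (nat_lit 61) (nat_lit 5) (nat_lit 379) (nat_lit 359) (nat_lit 162)) (XT.nd (nat_lit 78) (nat_lit 228) (nat_lit 0) (XT.lf (nat_lit 0) (nat_lit 735867392415) (nat_lit 304) (nat_lit 96411982611) (nat_lit 76) (nat_lit 134481238293) (nat_lit 57) (nat_lit 5) (nat_lit 61) (nat_lit 5) (nat_lit 58) (nat_lit 5) (nat_lit 380) (nat_lit 359) (nat_lit 161)) (XT.lf (nat_lit 0) (nat_lit 70085249880) (nat_lit 228) (nat_lit 246561331517) (nat_lit 76) (nat_lit 699404024518) (nat_lit 54) (nat_lit 5) (nat_lit 57) (nat_lit 5) (nat_lit 55) (nat_lit 5) (nat_lit 381) (nat_lit 359) (nat_lit 160)))) (XT.nd (nat_lit 78) (nat_lit 380) (nat_lit 0) (XT.lf (nat_lit 0) (nat_lit 403119882038) (nat_lit 304) (nat_lit 416521907771) (nat_lit 76) (nat_lit 248649388508) (nat_lit 51) (nat_lit 5) (nat_lit 55)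 (nat_lit 5) (nat_lit 52) (nat_lit 5) (nat_lit 382) (nat_lit 359) (nat_lit 159)) (XT.nd (nat_lit 78) (nat_lit 228) (nat_lit 0) (XT.lf (nat_lit 0) (nat_lit 517425877834) (nat_lit 152) (nat_lit 263154443884) (nat_lit 228) (nat_lit 343241522956) (nat_lit 49) (nat_lit 5) (nat_lit 51) (nat_lit 5) (nat_lit 52) (nat_lit 5) (nat_lit 383) (nat_lit 359) (nat_lit 158)) (XT.lf (nat_lit 0) (nat_lit 22929832218) (nat_lit 228) (nat_lit 819467727962) (nat_lit 76) (nat_lit 340462466471) (nat_lit 46) (nat_lit 5) (nat_lit 49) (nat_lit 5) (nat_lit 47) (nat_lit 5) (nat_lit 384) (nat_lit 359) (nat_lit 157))))) (XT.nd (nat_lit 45006) (nat_lit 0) (nat_lit 4788) (XT.nd (nat_lit 78) (nat_lit 0) (nat_lit 0) (XT.lf (nat_lit 0) (nat_lit 181743508548) (nat_lit 152) (nat_lit 242797608563) (nat_lit 228) (nat_lit 820890213959) (nat_lit 44) (nat_lit 5) (nat_lit 46) (nat_lit 5) (nat_lit 47) (nat_lit 5) (nat_lit 385) (nat_lit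 359) (nat_lit 156)) (XT.nd (nat_lit 44850) (nat_lit 0) (nat_lit 4712) (XT.lf (nat_lit 0) (nat_lit 879109496213) (nat_lit 228) (nat_lit 26533674933) (nat_lit 76) (nat_lit 406323759133) (nat_lit 44) (nat_lit 5) (nat_lit 47) (nat_lit 5) (nat_lit 45) (nat_lit 5) (nat_lit 386) (nat_lit 359) (nat_lit 155)) (XT.lf (nat_lit 0) (nat_lit 35484256536) (nat_lit 836) (nat_lit 85341009227) (nat_lit 836) (nat_lit 85341009227) (nat_lit 106) (nat_lit 3) (nat_lit 117) (nat_lit 3) (nat_lit 117) (nat_lit 5) (nat_lit 360) (nat_lit 360) (nat_lit 180)))) (XT.nd (nat_lit 78) (nat_lit 0) (nat_lit 0) (XT.lf (nat_lit 0) (nat_lit 77281378038) (nat_lit 760) (nat_lit 280542118185) (nat_lit 836) (nat_lit 70828649029) (nat_lit 107) (nat_lit 5) (nat_lit 117) (nat_lit 5) (nat_lit 118) (nat_lit 5) (nat_lit 361) (nat_lit 360) (nat_lit 179)) (XT.nd (nat_lit 78) (nat_lit 0) (nat_lit 76) (XT.lf (nat_lit 76) (nat_lit 49843649330)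 (nat_lit 0) (nat_lit 42130343710) (nat_lit 836) (nat_lit 353909579110) (nat_lit 108) (nat_lit 5) (nat_lit 107) (nat_lit 5) (nat_lit 118) (nat_lit 5) (nat_lit 362) (nat_lit 360) (nat_lit 178)) (XT.lf (nat_lit 0) (nat_lit 117474328354) (nat_lit 760) (nat_lit 52316363147) (nat_lit 836) (nat_lit 294221206192) (nat_lit 108) (nat_lit 5) (nat_lit 118) (nat_lit 5) (nat_lit 119) (nat_lit 5) (nat_lit 363) (nat_lit 360) (nat_lit 177))))))) (XT.nd (nat_lit 936) (nat_lit 2280) (nat_lit 0) (XT.nd (nat_lit 468) (nat_lit 1672) (nat_lit 0) (XT.nd (nat_lit 234) (nat_lit 988) (nat_lit 0) (XT.nd (nat_lit 78) (nat_lit 0) (nat_lit 76) (XT.lf (nat_lit 0) (nat_lit 153634074367) (nat_lit 760) (nat_lit 157359626755) (nat_lit 836) (nat_lit 172165819008) (nat_lit 109) (nat_lit 5) (nat_lit 119) (nat_lit 5) (nat_lit 120) (nat_lit 5) (nat_lit 364) (nat_lit 360) (nat_lit 176)) (XT.nd (nat_lit 78) (nat_lit 0) (nat_lit 0)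 (XT.lf (nat_lit 0) (nat_lit 200749279651) (nat_lit 760) (nat_lit 267092557736) (nat_lit 836) (nat_lit 35593981035) (nat_lit 110) (nat_lit 5) (nat_lit 120) (nat_lit 5) (nat_lit 121) (nat_lit 5) (nat_lit 365) (nat_lit 360) (nat_lit 175)) (XT.lf (nat_lit 76) (nat_lit 141194692993) (nat_lit 0) (nat_lit 120673370446) (nat_lit 836) (nat_lit 262954439072) (nat_lit 111) (nat_lit 5) (nat_lit 110) (nat_lit 5) (nat_lit 121) (nat_lit 5) (nat_lit 366) (nat_lit 360) (nat_lit 174)))) (XT.nd (nat_lit 78) (nat_lit 380) (nat_lit 0) (XT.lf (nat_lit 0) (nat_lit 41269963478) (nat_lit 760) (nat_lit 295949381968) (nat_lit 836) (nat_lit 210233626139) (nat_lit 101) (nat_lit 5) (nat_lit 111) (nat_lit 5) (nat_lit 112) (nat_lit 5) (nat_lit 367) (nat_lit 360) (nat_lit 173)) (XT.nd (nat_lit 78) (nat_lit 380) (nat_lit 0) (XT.lf (nat_lit 0) (nat_lit 428602062938) (nat_lit 836) (nat_lit 61021826882) (nat_lit 76) (nat_lit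 81769821752) (nat_lit 101) (nat_lit 5) (nat_lit 112) (nat_lit 5) (nat_lit 102) (nat_lit 5) (nat_lit 368) (nat_lit 360) (nat_lit 172)) (XT.lf (nat_lit 0) (nat_lit 428475870948) (nat_lit 380) (nat_lit 110499447488) (nat_lit 456) (nat_lit 57690396319) (nat_lit 96) (nat_lit 5) (nat_lit 101) (nat_lit 5) (nat_lit 102) (nat_lit 5) (nat_lit 369) (nat_lit 360) (nat_lit 171))))) (XT.nd (nat_lit 234) (nat_lit 608) (nat_lit 0) (XT.nd (nat_lit 78) (nat_lit 684) (nat_lit 0) (XT.lf (nat_lit 0) (nat_lit 44387498824) (nat_lit 380) (nat_lit 282465027360) (nat_lit 76) (nat_lit 296517051199) (nat_lit 91) (nat_lit 5) (nat_lit 96) (nat_lit 5) (nat_lit 92) (nat_lit 5) (nat_lit 370) (nat_lit 360) (nat_lit 170)) (XT.nd (nat_lit 78) (nat_lit 304) (nat_lit 0) (XT.lf (nat_lit 0) (nat_lit 162758390461) (nat_lit 456) (nat_lit 403324570533) (nat_lit 76) (nat_lit 85572103075) (nat_lit 86) (nat_lit 5) (nat_lit 92) (nat_lit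 5) (nat_lit 87) (nat_lit 5) (nat_lit 371) (nat_lit 360) (nat_lit 169)) (XT.lf (nat_lit 0) (nat_lit 148892482097) (nat_lit 304) (nat_lit 154543420727) (nat_lit 380) (nat_lit 378125639417) (nat_lit 82) (nat_lit 5) (nat_lit 86) (nat_lit 5) (nat_lit 87) (nat_lit 5) (nat_lit 372) (nat_lit 360) (nat_lit 168)))) (XT.nd (nat_lit 78) (nat_lit 304) (nat_lit 0) (XT.lf (nat_lit 0) (nat_lit 42912024734) (nat_lit 304) (nat_lit 424792820715) (nat_lit 380) (nat_lit 245538831775) (nat_lit 78) (nat_lit 5) (nat_lit 82) (nat_lit 5) (nat_lit 83) (nat_lit 5) (nat_lit 373) (nat_lit 360) (nat_lit 167)) (XT.nd (nat_lit 78) (nat_lit 304) (nat_lit 0) (XT.lf (nat_lit 0) (nat_lit 657331200693) (nat_lit 380) (nat_lit 66372615659) (nat_lit 76) (nat_lit 23145771813) (nat_lit 78) (nat_lit 5) (nat_lit 83) (nat_lit 5) (nat_lit 79) (nat_lit 5) (nat_lit 374) (nat_lit 360) (nat_lit 166)) (XT.lf (nat_lit 0) (nat_lit 93223447387)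 (nat_lit 304) (nat_lit 185946613313) (nat_lit 76) (nat_lit 503073867138) (nat_lit 74) (nat_lit 5) (nat_lit 78) (nat_lit 5) (nat_lit 75) (nat_lit 5) (nat_lit 375) (nat_lit 360) (nat_lit 165)))))) (XT.nd (nat_lit 468) (nat_lit 988) (nat_lit 0) (XT.nd (nat_lit 234) (nat_lit 532) (nat_lit 0) (XT.nd (nat_lit 78) (nat_lit 456) (nat_lit 0) (XT.lf (nat_lit 0) (nat_lit 299918704749) (nat_lit 380) (nat_lit 314557848009) (nat_lit 76) (nat_lit 205296368016) (nat_lit 70) (nat_lit 5) (nat_lit 75) (nat_lit 5) (nat_lit 71) (nat_lit 5) (nat_lit 376) (nat_lit 360) (nat_lit 164)) (XT.nd (nat_lit 78) (nat_lit 228) (nat_lit 0) (XT.lf (nat_lit 0) (nat_lit 406414874466) (nat_lit 228) (nat_lit 131079447215) (nat_lit 304) (nat_lit 322092674530) (nat_lit 67) (nat_lit 5) (nat_lit 70) (nat_lit 5) (nat_lit 71) (nat_lit 5) (nat_lit 377) (nat_lit 360) (nat_lit 163)) (XT.lf (nat_lit 0) (nat_lit 297307340604) (nat_lit 228)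 (nat_lit 513084087974) (nat_lit 304) (nat_lit 91378997088) (nat_lit 64) (nat_lit 5) (nat_lit 67) (nat_lit 5) (nat_lit 68) (nat_lit 5) (nat_lit 378) (nat_lit 360) (nat_lit 162)))) (XT.nd (nat_lit 78) (nat_lit 228) (nat_lit 0) (XT.lf (nat_lit 0) (nat_lit 165944286898) (nat_lit 304) (nat_lit 768778667729) (nat_lit 76) (nat_lit 11822254542) (nat_lit 60) (nat_lit 5) (nat_lit 64) (nat_lit 5) (nat_lit 61) (nat_lit 5) (nat_lit 379) (nat_lit 360) (nat_lit 161)) (XT.nd (nat_lit 78) (nat_lit 0) (nat_lit 0) (XT.lf (nat_lit 0) (nat_lit 40722596318) (nat_lit 228) (nat_lit 419961441018) (nat_lit 304) (nat_lit 533141433279) (nat_lit 57) (nat_lit 5) (nat_lit 60) (nat_lit 5) (nat_lit 61) (nat_lit 5) (nat_lit 380) (nat_lit 360) (nat_lit 160)) (XT.lf (nat_lit 0) (nat_lit 794737156407) (nat_lit 304) (nat_lit 104124379896) (nat_lit 76) (nat_lit 145239907253) (nat_lit 57) (nat_lit 5) (nat_lit 61) (nat_lit 5) (nat_lit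 58) (nat_lit 5) (nat_lit 381) (nat_lit 360) (nat_lit 159))))) (XT.nd (nat_lit 234) (nat_lit 380) (nat_lit 0) (XT.nd (nat_lit 78) (nat_lit 380) (nat_lit 0) (XT.lf (nat_lit 0) (nat_lit 75692429224) (nat_lit 228) (nat_lit 266285689051) (nat_lit 76) (nat_lit 755356517970) (nat_lit 54) (nat_lit 5) (nat_lit 57) (nat_lit 5) (nat_lit 55) (nat_lit 5) (nat_lit 382) (nat_lit 360) (nat_lit 158)) (XT.nd (nat_lit 78) (nat_lit 152) (nat_lit 0) (XT.lf (nat_lit 0) (nat_lit 435369816410) (nat_lit 304) (nat_lit 449843120931) (nat_lit 76) (nat_lit 268541517889) (nat_lit 51) (nat_lit 5) (nat_lit 55) (nat_lit 5) (nat_lit 52) (nat_lit 5) (nat_lit 383) (nat_lit 360) (nat_lit 157)) (XT.lf (nat_lit 0) (nat_lit 558820464079) (nat_lit 152) (nat_lit 284206609775) (nat_lit 228) (nat_lit 370700501924) (nat_lit 49) (nat_lit 5) (nat_lit 51) (nat_lit 5) (nat_lit 52) (nat_lit 5) (nat_lit 384) (nat_lit 360) (nat_lit 156))))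 (XT.nd (nat_lit 45006) (nat_lit 0) (nat_lit 4712) (XT.nd (nat_lit 78) (nat_lit 152) (nat_lit 0) (XT.lf (nat_lit 0) (nat_lit 24764536930) (nat_lit 228) (nat_lit 885024629033) (nat_lit 76) (nat_lit 367699646782) (nat_lit 46) (nat_lit 5) (nat_lit 49) (nat_lit 5) (nat_lit 47) (nat_lit 5) (nat_lit 385) (nat_lit 360) (nat_lit 155)) (XT.lf (nat_lit 0) (nat_lit 196283483922) (nat_lit 152) (nat_lit 262221224850) (nat_lit 228) (nat_lit 886561113547) (nat_lit 44) (nat_lit 5) (nat_lit 46) (nat_lit 5) (nat_lit 47) (nat_lit 5) (nat_lit 386) (nat_lit 360) (nat_lit 154))) (XT.nd (nat_lit 78) (nat_lit 0) (nat_lit 76) (XT.lf (nat_lit 0) (nat_lit 38323569403) (nat_lit 836) (nat_lit 92167989237) (nat_lit 836) (nat_lit 92167989237) (nat_lit 106) (nat_lit 3) (nat_lit 117) (nat_lit 3) (nat_lit 117) (nat_lit 5) (nat_lit 361) (nat_lit 361) (nat_lit 178)) (XT.lf (nat_lit 0) (nat_lit 83464949455) (nat_lit 760) (nat_lit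 302984850252) (nat_lit 836) (nat_lit 76494463188) (nat_lit 107) (nat_lit 5) (nat_lit 117) (nat_lit 5) (nat_lit 118) (nat_lit 5) (nat_lit 362) (nat_lit 361) (nat_lit 177))))))))
noncomputable def xc123 : XT := (XT.nd (nat_lit 46956) (nat_lit 0) (nat_lit 380) (XT.nd (nat_lit 936) (nat_lit 2432) (nat_lit 0) (XT.nd (nat_lit 468) (nat_lit 1748) (nat_lit 0) (XT.nd (nat_lit 234) (nat_lit 456) (nat_lit 0) (XT.nd (nat_lit 78) (nat_lit 0) (nat_lit 76) (XT.lf (nat_lit 76) (nat_lit 53831750964) (nat_lit 0) (nat_lit 45501153607) (nat_lit 836) (nat_lit 382221302897) (nat_lit 108) (nat_lit 5) (nat_lit 107) (nat_lit 5) (nat_lit 118) (nat_lit 5) (nat_lit 363) (nat_lit 361) (nat_lit 176)) (XT.nd (nat_lit 78) (nat_lit 0) (nat_lit 76) (XT.lf (nat_lit 0) (nat_lit 126873187694) (nat_lit 760) (nat_lit 56501055428) (nat_lit 836) (nat_lit 317758559946) (nat_lit 108) (nat_lit 5) (nat_lit 118) (nat_lit 5) (nat_lit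 119) (nat_lit 5) (nat_lit 364) (nat_lit 361) (nat_lit 175)) (XT.lf (nat_lit 0) (nat_lit 165925650831) (nat_lit 760) (nat_lit 169947759335) (nat_lit 836) (nat_lit 185938828319) (nat_lit 109) (nat_lit 5) (nat_lit 119) (nat_lit 5) (nat_lit 120) (nat_lit 5) (nat_lit 365) (nat_lit 361) (nat_lit 174)))) (XT.nd (nat_lit 78) (nat_lit 684) (nat_lit 0) (XT.lf (nat_lit 0) (nat_lit 216810016136) (nat_lit 760) (nat_lit 288459309053) (nat_lit 836) (nat_lit 38441318326) (nat_lit 110) (nat_lit 5) (nat_lit 120) (nat_lit 5) (nat_lit 121) (nat_lit 5) (nat_lit 366) (nat_lit 361) (nat_lit 173)) (XT.nd (nat_lit 78) (nat_lit 684) (nat_lit 0) (XT.lf (nat_lit 76) (nat_lit 152490893343) (nat_lit 0) (nat_lit 130327360217) (nat_lit 836) (nat_lit 283990011274) (nat_lit 111) (nat_lit 5) (nat_lit 110) (nat_lit 5) (nat_lit 121) (nat_lit 5) (nat_lit 367) (nat_lit 361) (nat_lit 172)) (XT.lf (nat_lit 0) (nat_lit 44572196335)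 (nat_lit 760) (nat_lit 319625394794) (nat_lit 836) (nat_lit 227051582702) (nat_lit 101) (nat_lit 5) (nat_lit 111) (nat_lit 5) (nat_lit 112) (nat_lit 5) (nat_lit 368) (nat_lit 361) (nat_lit 171))))) (XT.nd (nat_lit 234) (nat_lit 988) (nat_lit 0) (XT.nd (nat_lit 78) (nat_lit 760) (nat_lit 0) (XT.lf (nat_lit 0) (nat_lit 462890873413) (nat_lit 836) (nat_lit 65902950595) (nat_lit 76) (nat_lit 88311351681) (nat_lit 101) (nat_lit 5) (nat_lit 112) (nat_lit 5) (nat_lit 102) (nat_lit 5) (nat_lit 369) (nat_lit 361) (nat_lit 170)) (XT.nd (nat_lit 78) (nat_lit 380) (nat_lit 0) (XT.lf (nat_lit 0) (nat_lit 462754536011) (nat_lit 380) (nat_lit 119339414826) (nat_lit 456) (nat_lit 62304990257) (nat_lit 96) (nat_lit 5) (nat_lit 101) (nat_lit 5) (nat_lit 102) (nat_lit 5) (nat_lit 370) (nat_lit 361) (nat_lit 169)) (XT.lf (nat_lit 0) (nat_lit 47939079694) (nat_lit 380) (nat_lit 305061610716) (nat_lit 76) (nat_lit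 320238423679) (nat_lit 91) (nat_lit 5) (nat_lit 96) (nat_lit 5) (nat_lit 92) (nat_lit 5) (nat_lit 371) (nat_lit 361) (nat_lit 168)))) (XT.nd (nat_lit 78) (nat_lit 608) (nat_lit 0) (XT.lf (nat_lit 0) (nat_lit 175779609568) (nat_lit 456) (nat_lit 435589917171) (nat_lit 76) (nat_lit 92417914657) (nat_lit 86) (nat_lit 5) (nat_lit 92) (nat_lit 5) (nat_lit 87) (nat_lit 5) (nat_lit 372) (nat_lit 361) (nat_lit 167)) (XT.nd (nat_lit 78) (nat_lit 304) (nat_lit 0) (XT.lf (nat_lit 0) (nat_lit 160804472768) (nat_lit 304) (nat_lit 166906818814) (nat_lit 380) (nat_lit 408375147837) (nat_lit 82) (nat_lit 5) (nat_lit 86) (nat_lit 5) (nat_lit 87) (nat_lit 5) (nat_lit 373) (nat_lit 361) (nat_lit 166)) (XT.lf (nat_lit 0) (nat_lit 46345577019) (nat_lit 304) (nat_lit 458776144645) (nat_lit 380) (nat_lit 265181424962) (nat_lit 78) (nat_lit 5) (nat_lit 82) (nat_lit 5) (nat_lit 83) (nat_lit 5) (nat_lit 374) (nat_lit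 361) (nat_lit 165)))))) (XT.nd (nat_lit 468) (nat_lit 1064) (nat_lit 0) (XT.nd (nat_lit 234) (nat_lit 760) (nat_lit 0) (XT.nd (nat_lit 78) (nat_lit 608) (nat_lit 0) (XT.lf (nat_lit 0) (nat_lit 709918150607) (nat_lit 380) (nat_lit 71681856862) (nat_lit 76) (nat_lit 24997524735) (nat_lit 78) (nat_lit 5) (nat_lit 83) (nat_lit 5) (nat_lit 79) (nat_lit 5) (nat_lit 375) (nat_lit 361) (nat_lit 164)) (XT.nd (nat_lit 78) (nat_lit 304) (nat_lit 0) (XT.lf (nat_lit 0) (nat_lit 100681759217) (nat_lit 304) (nat_lit 200821784313) (nat_lit 76) (nat_lit 543319876448) (nat_lit 74) (nat_lit 5) (nat_lit 78) (nat_lit 5) (nat_lit 75) (nat_lit 5) (nat_lit 376) (nat_lit 361) (nat_lit 163)) (XT.lf (nat_lit 0) (nat_lit 323912615104) (nat_lit 380) (nat_lit 339721923072) (nat_lit 76) (nat_lit 221720195298) (nat_lit 70) (nat_lit 5) (nat_lit 75) (nat_lit 5) (nat_lit 71) (nat_lit 5) (nat_lit 377) (nat_lit 361) (nat_lit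 162)))) (XT.nd (nat_lit 78) (nat_lit 532) (nat_lit 0) (XT.lf (nat_lit 0) (nat_lit 438928593177) (nat_lit 228) (nat_lit 141565665804) (nat_lit 304) (nat_lit 347859677105) (nat_lit 67) (nat_lit 5) (nat_lit 70) (nat_lit 5) (nat_lit 71) (nat_lit 5) (nat_lit 378) (nat_lit 361) (nat_lit 161)) (XT.nd (nat_lit 78) (nat_lit 304) (nat_lit 0) (XT.lf (nat_lit 0) (nat_lit 321092450538) (nat_lit 228) (nat_lit 554130665030) (nat_lit 304) (nat_lit 98688925290) (nat_lit 64) (nat_lit 5) (nat_lit 67) (nat_lit 5) (nat_lit 68) (nat_lit 5) (nat_lit 379) (nat_lit 361) (nat_lit 160)) (XT.lf (nat_lit 0) (nat_lit 179220191194) (nat_lit 304) (nat_lit 830280433230) (nat_lit 76) (nat_lit 12768183214) (nat_lit 60) (nat_lit 5) (nat_lit 64) (nat_lit 5) (nat_lit 61) (nat_lit 5) (nat_lit 380) (nat_lit 361) (nat_lit 159))))) (XT.nd (nat_lit 312) (nat_lit 608) (nat_lit 0) (XT.nd (nat_lit 78) (nat_lit 228) (nat_lit 0) (XT.lf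 (nat_lit 0) (nat_lit 43980908999) (nat_lit 228) (nat_lit 453558193786) (nat_lit 304) (nat_lit 575792388172) (nat_lit 57) (nat_lit 5) (nat_lit 60) (nat_lit 5) (nat_lit 61) (nat_lit 5) (nat_lit 381) (nat_lit 361) (nat_lit 158)) (XT.nd (nat_lit 78) (nat_lit 228) (nat_lit 0) (XT.lf (nat_lit 0) (nat_lit 858316448364) (nat_lit 304) (nat_lit 112453849042) (nat_lit 76) (nat_lit 156859245493) (nat_lit 57) (nat_lit 5) (nat_lit 61) (nat_lit 5) (nat_lit 58) (nat_lit 5) (nat_lit 382) (nat_lit 361) (nat_lit 157)) (XT.lf (nat_lit 0) (nat_lit 81748131650) (nat_lit 228) (nat_lit 287588073507) (nat_lit 76) (nat_lit 815785186433) (nat_lit 54) (nat_lit 5) (nat_lit 57) (nat_lit 5) (nat_lit 55) (nat_lit 5) (nat_lit 383) (nat_lit 361) (nat_lit 156)))) (XT.nd (nat_lit 45084) (nat_lit 0) (nat_lit 4560) (XT.nd (nat_lit 78) (nat_lit 228) (nat_lit 0) (XT.lf (nat_lit 0) (nat_lit 603526543607) (nat_lit 152) (nat_lit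 306942975990) (nat_lit 228) (nat_lit 400356248123) (nat_lit 49) (nat_lit 5) (nat_lit 51) (nat_lit 5) (nat_lit 52) (nat_lit 5) (nat_lit 385) (nat_lit 361) (nat_lit 154)) (XT.lf (nat_lit 0) (nat_lit 26745972632) (nat_lit 228) (nat_lit 955826155969) (nat_lit 76) (nat_lit 397115775412) (nat_lit 46) (nat_lit 5) (nat_lit 49) (nat_lit 5) (nat_lit 47) (nat_lit 5) (nat_lit 386) (nat_lit 361) (nat_lit 153))) (XT.nd (nat_lit 78) (nat_lit 0) (nat_lit 76) (XT.lf (nat_lit 0) (nat_lit 41389945649) (nat_lit 836) (nat_lit 99541170549) (nat_lit 836) (nat_lit 99541170549) (nat_lit 106) (nat_lit 3) (nat_lit 117) (nat_lit 3) (nat_lit 117) (nat_lit 5) (nat_lit 362) (nat_lit 362) (nat_lit 176)) (XT.lf (nat_lit 0) (nat_lit 90143055197) (nat_lit 760) (nat_lit 327223091815) (nat_lit 836) (nat_lit 82613610638) (nat_lit 107) (nat_lit 5) (nat_lit 117) (nat_lit 5) (nat_lit 118) (nat_lit 5) (nat_lit 363) (nat_lit 362)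 (nat_lit 175))))))) (XT.nd (nat_lit 936) (nat_lit 2052) (nat_lit 0) (XT.nd (nat_lit 468) (nat_lit 1748) (nat_lit 0) (XT.nd (nat_lit 234) (nat_lit 456) (nat_lit 0) (XT.nd (nat_lit 78) (nat_lit 0) (nat_lit 76) (XT.lf (nat_lit 76) (nat_lit 58138813750) (nat_lit 0) (nat_lit 49141573742) (nat_lit 836) (nat_lit 412798113317) (nat_lit 108) (nat_lit 5) (nat_lit 107) (nat_lit 5) (nat_lit 118) (nat_lit 5) (nat_lit 364) (nat_lit 362) (nat_lit 174)) (XT.nd (nat_lit 78) (nat_lit 0) (nat_lit 76) (XT.lf (nat_lit 0) (nat_lit 137023825521) (nat_lit 760) (nat_lit 61020611080) (nat_lit 836) (nat_lit 343178950897) (nat_lit 108) (nat_lit 5) (nat_lit 118) (nat_lit 5) (nat_lit 119) (nat_lit 5) (nat_lit 365) (nat_lit 362) (nat_lit 173)) (XT.lf (nat_lit 0) (nat_lit 179200432077) (nat_lit 760) (nat_lit 183543033476) (nat_lit 836) (nat_lit 200813714927) (nat_lit 109) (nat_lit 5) (nat_lit 119) (nat_lit 5) (nat_lit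 120) (nat_lit 5) (nat_lit 366) (nat_lit 362) (nat_lit 172)))) (XT.nd (nat_lit 78) (nat_lit 684) (nat_lit 0) (XT.lf (nat_lit 0) (nat_lit 234155498251) (nat_lit 760) (nat_lit 311535493675) (nat_lit 836) (nat_lit 41516468450) (nat_lit 110) (nat_lit 5) (nat_lit 120) (nat_lit 5) (nat_lit 121) (nat_lit 5) (nat_lit 367) (nat_lit 362) (nat_lit 171)) (XT.nd (nat_lit 78) (nat_lit 684) (nat_lit 0) (XT.lf (nat_lit 76) (nat_lit 164690700571) (nat_lit 0) (nat_lit 140753652031) (nat_lit 836) (nat_lit 306708540944) (nat_lit 111) (nat_lit 5) (nat_lit 110) (nat_lit 5) (nat_lit 121) (nat_lit 5) (nat_lit 368) (nat_lit 362) (nat_lit 170)) (XT.lf (nat_lit 0) (nat_lit 48138517119) (nat_lit 760) (nat_lit 345195479763) (nat_lit 836) (nat_lit 245215080435) (nat_lit 101) (nat_lit 5) (nat_lit 111) (nat_lit 5) (nat_lit 112) (nat_lit 5) (nat_lit 369) (nat_lit 362) (nat_lit 169))))) (XT.nd (nat_lit 234) (nat_lit 988)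 (nat_lit 0) (XT.nd (nat_lit 78) (nat_lit 760) (nat_lit 0) (XT.lf (nat_lit 0) (nat_lit 499922696646) (nat_lit 836) (nat_lit 71174653004) (nat_lit 76) (nat_lit 95376211966) (nat_lit 101) (nat_lit 5) (nat_lit 112) (nat_lit 5) (nat_lit 102) (nat_lit 5) (nat_lit 370) (nat_lit 362) (nat_lit 168)) (XT.nd (nat_lit 78) (nat_lit 380) (nat_lit 0) (XT.lf (nat_lit 0) (nat_lit 499775409340) (nat_lit 380) (nat_lit 128886577904) (nat_lit 456) (nat_lit 67288842695) (nat_lit 96) (nat_lit 5) (nat_lit 101) (nat_lit 5) (nat_lit 102) (nat_lit 5) (nat_lit 371) (nat_lit 362) (nat_lit 167)) (XT.lf (nat_lit 0) (nat_lit 51774704153) (nat_lit 380) (nat_lit 329466009023) (nat_lit 76) (nat_lit 345857504760) (nat_lit 91) (nat_lit 5) (nat_lit 96) (nat_lit 5) (nat_lit 92) (nat_lit 5) (nat_lit 372) (nat_lit 362) (nat_lit 166)))) (XT.nd (nat_lit 78) (nat_lit 608) (nat_lit 0) (XT.lf (nat_lit 0) (nat_lit 189842448044) (nat_lit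 456) (nat_lit 470436579848) (nat_lit 76) (nat_lit 99811384982) (nat_lit 86) (nat_lit 5) (nat_lit 92) (nat_lit 5) (nat_lit 87) (nat_lit 5) (nat_lit 373) (nat_lit 362) (nat_lit 165)) (XT.nd (nat_lit 78) (nat_lit 304) (nat_lit 0) (XT.lf (nat_lit 0) (nat_lit 173669338223) (nat_lit 304) (nat_lit 180259299529) (nat_lit 380) (nat_lit 441044694357) (nat_lit 82) (nat_lit 5) (nat_lit 86) (nat_lit 5) (nat_lit 87) (nat_lit 5) (nat_lit 374) (nat_lit 362) (nat_lit 164)) (XT.lf (nat_lit 0) (nat_lit 50053729272) (nat_lit 304) (nat_lit 495478149003) (nat_lit 380) (nat_lit 286395498839) (nat_lit 78) (nat_lit 5) (nat_lit 82) (nat_lit 5) (nat_lit 83) (nat_lit 5) (nat_lit 375) (nat_lit 362) (nat_lit 163)))))) (XT.nd (nat_lit 468) (nat_lit 684) (nat_lit 0) (XT.nd (nat_lit 234) (nat_lit 760) (nat_lit 0) (XT.nd (nat_lit 78) (nat_lit 608) (nat_lit 0) (XT.lf (nat_lit 0) (nat_lit 766711991766) (nat_lit 380) (nat_lit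 77415918400) (nat_lit 76) (nat_lit 26997404883) (nat_lit 78) (nat_lit 5) (nat_lit 83) (nat_lit 5) (nat_lit 79) (nat_lit 5) (nat_lit 376) (nat_lit 362) (nat_lit 162)) (XT.nd (nat_lit 78) (nat_lit 304) (nat_lit 0) (XT.lf (nat_lit 0) (nat_lit 108736673788) (nat_lit 304) (nat_lit 216887048609) (nat_lit 76) (nat_lit 586785552246) (nat_lit 74) (nat_lit 5) (nat_lit 78) (nat_lit 5) (nat_lit 75) (nat_lit 5) (nat_lit 377) (nat_lit 362) (nat_lit 161)) (XT.lf (nat_lit 0) (nat_lit 349825979229) (nat_lit 380) (nat_lit 366899203001) (nat_lit 76) (nat_lit 239457911951) (nat_lit 70) (nat_lit 5) (nat_lit 75) (nat_lit 5) (nat_lit 71) (nat_lit 5) (nat_lit 378) (nat_lit 362) (nat_lit 160)))) (XT.nd (nat_lit 78) (nat_lit 532) (nat_lit 0) (XT.lf (nat_lit 0) (nat_lit 474043333953) (nat_lit 228) (nat_lit 152890801451) (nat_lit 304) (nat_lit 375688098576) (nat_lit 67) (nat_lit 5) (nat_lit 70) (nat_lit 5) (nat_lit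 71) (nat_lit 5) (nat_lit 379) (nat_lit 362) (nat_lit 159)) (XT.nd (nat_lit 78) (nat_lit 304) (nat_lit 0) (XT.lf (nat_lit 0) (nat_lit 346780294700) (nat_lit 228) (nat_lit 598460989647) (nat_lit 304) (nat_lit 106583703610) (nat_lit 64) (nat_lit 5) (nat_lit 67) (nat_lit 5) (nat_lit 68) (nat_lit 5) (nat_lit 380) (nat_lit 362) (nat_lit 158)) (XT.lf (nat_lit 0) (nat_lit 193558116285) (nat_lit 304) (nat_lit 896702415284) (nat_lit 76) (nat_lit 13789765021) (nat_lit 60) (nat_lit 5) (nat_lit 64) (nat_lit 5) (nat_lit 61) (nat_lit 5) (nat_lit 381) (nat_lit 362) (nat_lit 157))))) (XT.nd (nat_lit 45396) (nat_lit 0) (nat_lit 4180) (XT.nd (nat_lit 78) (nat_lit 456) (nat_lit 0) (XT.lf (nat_lit 0) (nat_lit 47499814654) (nat_lit 228) (nat_lit 489842709961) (nat_lit 304) (nat_lit 621855470782) (nat_lit 57) (nat_lit 5) (nat_lit 60) (nat_lit 5) (nat_lit 61) (nat_lit 5) (nat_lit 382) (nat_lit 362) (nat_lit 156))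 (XT.nd (nat_lit 156) (nat_lit 456) (nat_lit 0) (XT.lf (nat_lit 0) (nat_lit 926982038105) (nat_lit 304) (nat_lit 121449744375) (nat_lit 76) (nat_lit 169408110011) (nat_lit 57) (nat_lit 5) (nat_lit 61) (nat_lit 5) (nat_lit 58) (nat_lit 5) (nat_lit 383) (nat_lit 362) (nat_lit 155)) (XT.lf (nat_lit 0) (nat_lit 507815924913) (nat_lit 304) (nat_lit 524696120232) (nat_lit 76) (nat_lit 313227122614) (nat_lit 51) (nat_lit 5) (nat_lit 55) (nat_lit 5) (nat_lit 52) (nat_lit 5) (nat_lit 385) (nat_lit 362) (nat_lit 153)))) (XT.nd (nat_lit 156) (nat_lit 0) (nat_lit 76) (XT.nd (nat_lit 78) (nat_lit 0) (nat_lit 76) (XT.lf (nat_lit 0) (nat_lit 44701561991) (nat_lit 836) (nat_lit 107504243148) (nat_lit 836) (nat_lit 107504243148) (nat_lit 106) (nat_lit 3) (nat_lit 117) (nat_lit 3) (nat_lit 117) (nat_lit 5) (nat_lit 363) (nat_lit 363) (nat_lit 174)) (XT.lf (nat_lit 0) (nat_lit 97355279607) (nat_lit 760) (nat_lit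 353400470661) (nat_lit 836) (nat_lit 89222348318) (nat_lit 107) (nat_lit 5) (nat_lit 117) (nat_lit 5) (nat_lit 118) (nat_lit 5) (nat_lit 364) (nat_lit 363) (nat_lit 173))) (XT.nd (nat_lit 78) (nat_lit 0) (nat_lit 76) (XT.lf (nat_lit 76) (nat_lit 62790366989) (nat_lit 0) (nat_lit 53073180716) (nat_lit 836) (nat_lit 445821196083) (nat_lit 108) (nat_lit 5) (nat_lit 107) (nat_lit 5) (nat_lit 118) (nat_lit 5) (nat_lit 365) (nat_lit 363) (nat_lit 172)) (XT.lf (nat_lit 0) (nat_lit 147986402697) (nat_lit 760) (nat_lit 65901806622) (nat_lit 836) (nat_lit 370633015043) (nat_lit 108) (nat_lit 5) (nat_lit 118) (nat_lit 5) (nat_lit 119) (nat_lit 5) (nat_lit 366) (nat_lit 363) (nat_lit 171))))))))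
noncomputable def xc124 : XT := (XT.nd (nat_lit 47112) (nat_lit 0) (nat_lit 228) (XT.nd (nat_lit 936) (nat_lit 1520) (nat_lit 0) (XT.nd (nat_lit 468) (nat_lit 1672) (nat_lit 0) (XT.nd (nat_lit 234) (nat_lit 988) (nat_lit 0) (XT.nd (nat_lit 78) (nat_lit 0) (nat_lit 76) (XT.lf (nat_lit 0) (nat_lit 193537091797) (nat_lit 760) (nat_lit 198226007528) (nat_lit 836) (nat_lit 216878623800) (nat_lit 109) (nat_lit 5) (nat_lit 119) (nat_lit 5) (nat_lit 120) (nat_lit 5) (nat_lit 367) (nat_lit 363) (nat_lit 170)) (XT.nd (nat_lit 78) (nat_lit 0) (nat_lit 0) (XT.lf (nat_lit 0) (nat_lit 252888521808) (nat_lit 760) (nat_lit 336457852972) (nat_lit 836) (nat_lit 44837652745) (nat_lit 110) (nat_lit 5) (nat_lit 120) (nat_lit 5) (nat_lit 121) (nat_lit 5) (nat_lit 368) (nat_lit 363) (nat_lit 169)) (XT.lf (nat_lit 76) (nat_lit 177866415945) (nat_lit 0) (nat_lit 152014032497) (nat_lit 836) (nat_lit 331244648748)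 (nat_lit 111) (nat_lit 5) (nat_lit 110) (nat_lit 5) (nat_lit 121) (nat_lit 5) (nat_lit 369) (nat_lit 363) (nat_lit 168)))) (XT.nd (nat_lit 78) (nat_lit 380) (nat_lit 0) (XT.lf (nat_lit 0) (nat_lit 51990065805) (nat_lit 760) (nat_lit 372811163914) (nat_lit 836) (nat_lit 264831747705) (nat_lit 101) (nat_lit 5) (nat_lit 111) (nat_lit 5) (nat_lit 112) (nat_lit 5) (nat_lit 370) (nat_lit 363) (nat_lit 167)) (XT.nd (nat_lit 78) (nat_lit 380) (nat_lit 0) (XT.lf (nat_lit 0) (nat_lit 539916986796) (nat_lit 836) (nat_lit 76868167734) (nat_lit 76) (nat_lit 103006267901) (nat_lit 101) (nat_lit 5) (nat_lit 112) (nat_lit 5) (nat_lit 102) (nat_lit 5) (nat_lit 371) (nat_lit 363) (nat_lit 166)) (XT.lf (nat_lit 0) (nat_lit 539757879714) (nat_lit 380) (nat_lit 139197512618) (nat_lit 456) (nat_lit 72671481332) (nat_lit 96) (nat_lit 5) (nat_lit 101) (nat_lit 5) (nat_lit 102) (nat_lit 5) (nat_lit 372) (nat_lit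 363) (nat_lit 165))))) (XT.nd (nat_lit 234) (nat_lit 608) (nat_lit 0) (XT.nd (nat_lit 78) (nat_lit 684) (nat_lit 0) (XT.lf (nat_lit 0) (nat_lit 55917107511) (nat_lit 380) (nat_lit 355822834884) (nat_lit 76) (nat_lit 373526111303) (nat_lit 91) (nat_lit 5) (nat_lit 96) (nat_lit 5) (nat_lit 92) (nat_lit 5) (nat_lit 373) (nat_lit 363) (nat_lit 164)) (XT.nd (nat_lit 78) (nat_lit 304) (nat_lit 0) (XT.lf (nat_lit 0) (nat_lit 205030246589) (nat_lit 456) (nat_lit 508071051249) (nat_lit 76) (nat_lit 107796327634) (nat_lit 86) (nat_lit 5) (nat_lit 92) (nat_lit 5) (nat_lit 87) (nat_lit 5) (nat_lit 374) (nat_lit 363) (nat_lit 163)) (XT.lf (nat_lit 0) (nat_lit 187563320494) (nat_lit 304) (nat_lit 194679987944) (nat_lit 380) (nat_lit 476327870980) (nat_lit 82) (nat_lit 5) (nat_lit 86) (nat_lit 5) (nat_lit 87) (nat_lit 5) (nat_lit 375) (nat_lit 363) (nat_lit 162)))) (XT.nd (nat_lit 78) (nat_lit 304) (nat_lit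 0) (XT.lf (nat_lit 0) (nat_lit 54058461506) (nat_lit 304) (nat_lit 535116326151) (nat_lit 380) (nat_lit 309306761415) (nat_lit 78) (nat_lit 5) (nat_lit 82) (nat_lit 5) (nat_lit 83) (nat_lit 5) (nat_lit 376) (nat_lit 363) (nat_lit 161)) (XT.nd (nat_lit 78) (nat_lit 304) (nat_lit 0) (XT.lf (nat_lit 0) (nat_lit 828049284707) (nat_lit 380) (nat_lit 83608774338) (nat_lit 76) (nat_lit 29157264291) (nat_lit 78) (nat_lit 5) (nat_lit 83) (nat_lit 5) (nat_lit 79) (nat_lit 5) (nat_lit 377) (nat_lit 363) (nat_lit 160)) (XT.lf (nat_lit 0) (nat_lit 117435928193) (nat_lit 304) (nat_lit 234237602304) (nat_lit 76) (nat_lit 633728469884) (nat_lit 74) (nat_lit 5) (nat_lit 78) (nat_lit 5) (nat_lit 75) (nat_lit 5) (nat_lit 378) (nat_lit 363) (nat_lit 159)))))) (XT.nd (nat_lit 45708) (nat_lit 0) (nat_lit 3952) (XT.nd (nat_lit 234) (nat_lit 760) (nat_lit 0) (XT.nd (nat_lit 78) (nat_lit 456) (nat_lit 0) (XT.lf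 (nat_lit 0) (nat_lit 377812361852) (nat_lit 380) (nat_lit 396250732934) (nat_lit 76) (nat_lit 258614631523) (nat_lit 70) (nat_lit 5) (nat_lit 75) (nat_lit 5) (nat_lit 71) (nat_lit 5) (nat_lit 379) (nat_lit 363) (nat_lit 158)) (XT.nd (nat_lit 78) (nat_lit 228) (nat_lit 0) (XT.lf (nat_lit 0) (nat_lit 511967189319) (nat_lit 228) (nat_lit 165121964730) (nat_lit 304) (nat_lit 405742844080) (nat_lit 67) (nat_lit 5) (nat_lit 70) (nat_lit 5) (nat_lit 71) (nat_lit 5) (nat_lit 380) (nat_lit 363) (nat_lit 157)) (XT.lf (nat_lit 0) (nat_lit 374523102467) (nat_lit 228) (nat_lit 646337758578) (nat_lit 304) (nat_lit 115110112086) (nat_lit 64) (nat_lit 5) (nat_lit 67) (nat_lit 5) (nat_lit 68) (nat_lit 5) (nat_lit 381) (nat_lit 363) (nat_lit 156)))) (XT.nd (nat_lit 78) (nat_lit 456) (nat_lit 0) (XT.lf (nat_lit 0) (nat_lit 209043031186) (nat_lit 304) (nat_lit 968438220471) (nat_lit 76) (nat_lit 14893055233)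 (nat_lit 60) (nat_lit 5) (nat_lit 64) (nat_lit 5) (nat_lit 61) (nat_lit 5) (nat_lit 382) (nat_lit 363) (nat_lit 155)) (XT.nd (nat_lit 156) (nat_lit 228) (nat_lit 0) (XT.lf (nat_lit 0) (nat_lit 51300170998) (nat_lit 228) (nat_lit 529030007305) (nat_lit 304) (nat_lit 671603644003) (nat_lit 57) (nat_lit 5) (nat_lit 60) (nat_lit 5) (nat_lit 61) (nat_lit 5) (nat_lit 383) (nat_lit 363) (nat_lit 154)) (XT.lf (nat_lit 0) (nat_lit 95351532477) (nat_lit 228) (nat_lit 335441947180) (nat_lit 76) (nat_lit 951532085659) (nat_lit 54) (nat_lit 5) (nat_lit 57) (nat_lit 5) (nat_lit 55) (nat_lit 5) (nat_lit 385) (nat_lit 363) (nat_lit 152))))) (XT.nd (nat_lit 234) (nat_lit 0) (nat_lit 152) (XT.nd (nat_lit 78) (nat_lit 0) (nat_lit 76) (XT.lf (nat_lit 0) (nat_lit 48278047624) (nat_lit 836) (nat_lit 116104393090) (nat_lit 836) (nat_lit 116104393090) (nat_lit 106) (nat_lit 3) (nat_lit 117) (nat_lit 3) (nat_lit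 117) (nat_lit 5) (nat_lit 364) (nat_lit 364) (nat_lit 172)) (XT.nd (nat_lit 78) (nat_lit 0) (nat_lit 0) (XT.lf (nat_lit 0) (nat_lit 105144370695) (nat_lit 760) (nat_lit 381672106652) (nat_lit 836) (nat_lit 96359835112) (nat_lit 107) (nat_lit 5) (nat_lit 117) (nat_lit 5) (nat_lit 118) (nat_lit 5) (nat_lit 365) (nat_lit 364) (nat_lit 171)) (XT.lf (nat_lit 76) (nat_lit 67813980554) (nat_lit 0) (nat_lit 57319276151) (nat_lit 836) (nat_lit 481486234791) (nat_lit 108) (nat_lit 5) (nat_lit 107) (nat_lit 5) (nat_lit 118) (nat_lit 5) (nat_lit 366) (nat_lit 364) (nat_lit 170)))) (XT.nd (nat_lit 78) (nat_lit 0) (nat_lit 76) (XT.lf (nat_lit 0) (nat_lit 159825890303) (nat_lit 760) (nat_lit 71173562481) (nat_lit 836) (nat_lit 400283440262) (nat_lit 108) (nat_lit 5) (nat_lit 118) (nat_lit 5) (nat_lit 119) (nat_lit 5) (nat_lit 367) (nat_lit 364) (nat_lit 169)) (XT.nd (nat_lit 78) (nat_lit 0) (nat_lit 76)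 (XT.lf (nat_lit 0) (nat_lit 209020595110) (nat_lit 760) (nat_lit 214083686359) (nat_lit 836) (nat_lit 234228752249) (nat_lit 109) (nat_lit 5) (nat_lit 119) (nat_lit 5) (nat_lit 120) (nat_lit 5) (nat_lit 368) (nat_lit 364) (nat_lit 168)) (XT.lf (nat_lit 0) (nat_lit 273120103978) (nat_lit 760) (nat_lit 363374069518) (nat_lit 836) (nat_lit 48424550784) (nat_lit 110) (nat_lit 5) (nat_lit 120) (nat_lit 5) (nat_lit 121) (nat_lit 5) (nat_lit 369) (nat_lit 364) (nat_lit 167))))))) (XT.nd (nat_lit 936) (nat_lit 760) (nat_lit 0) (XT.nd (nat_lit 468) (nat_lit 1444) (nat_lit 0) (XT.nd (nat_lit 234) (nat_lit 1140) (nat_lit 0) (XT.nd (nat_lit 78) (nat_lit 684) (nat_lit 0) (XT.lf (nat_lit 76) (nat_lit 192096123021) (nat_lit 0) (nat_lit 164175230803) (nat_lit 836) (nat_lit 357743727273) (nat_lit 111) (nat_lit 5) (nat_lit 110) (nat_lit 5) (nat_lit 121) (nat_lit 5) (nat_lit 370) (nat_lit 364) (nat_lit 166))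 (XT.nd (nat_lit 78) (nat_lit 0) (nat_lit 0) (XT.lf (nat_lit 0) (nat_lit 56149671718) (nat_lit 760) (nat_lit 402636096267) (nat_lit 836) (nat_lit 286017825274) (nat_lit 101) (nat_lit 5) (nat_lit 111) (nat_lit 5) (nat_lit 112) (nat_lit 5) (nat_lit 371) (nat_lit 364) (nat_lit 165)) (XT.lf (nat_lit 0) (nat_lit 583110752476) (nat_lit 836) (nat_lit 83017228912) (nat_lit 76) (nat_lit 111246734163) (nat_lit 101) (nat_lit 5) (nat_lit 112) (nat_lit 5) (nat_lit 102) (nat_lit 5) (nat_lit 372) (nat_lit 364) (nat_lit 164)))) (XT.nd (nat_lit 78) (nat_lit 760) (nat_lit 0) (XT.lf (nat_lit 0) (nat_lit 582938885286) (nat_lit 380) (nat_lit 150333320899) (nat_lit 456) (nat_lit 78484797937) (nat_lit 96) (nat_lit 5) (nat_lit 101) (nat_lit 5) (nat_lit 102) (nat_lit 5) (nat_lit 373) (nat_lit 364) (nat_lit 163)) (XT.nd (nat_lit 78) (nat_lit 380) (nat_lit 0) (XT.lf (nat_lit 0) (nat_lit 60390842218) (nat_lit 380) (nat_lit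 384288271705) (nat_lit 76) (nat_lit 403408205491) (nat_lit 91) (nat_lit 5) (nat_lit 96) (nat_lit 5) (nat_lit 92) (nat_lit 5) (nat_lit 374) (nat_lit 364) (nat_lit 162)) (XT.lf (nat_lit 0) (nat_lit 221433011567) (nat_lit 456) (nat_lit 548716345271) (nat_lit 76) (nat_lit 116420061153) (nat_lit 86) (nat_lit 5) (nat_lit 92) (nat_lit 5) (nat_lit 87) (nat_lit 5) (nat_lit 375) (nat_lit 364) (nat_lit 161))))) (XT.nd (nat_lit 234) (nat_lit 836) (nat_lit 0) (XT.nd (nat_lit 78) (nat_lit 304) (nat_lit 0) (XT.lf (nat_lit 0) (nat_lit 202568759259) (nat_lit 304) (nat_lit 210254339356) (nat_lit 380) (nat_lit 514433758644) (nat_lit 82) (nat_lit 5) (nat_lit 86) (nat_lit 5) (nat_lit 87) (nat_lit 5) (nat_lit 376) (nat_lit 364) (nat_lit 160)) (XT.nd (nat_lit 78) (nat_lit 0) (nat_lit 0) (XT.lf (nat_lit 0) (nat_lit 58383510419) (nat_lit 304) (nat_lit 577925568138) (nat_lit 380) (nat_lit 334050978827) (nat_lit 78)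 (nat_lit 5) (nat_lit 82) (nat_lit 5) (nat_lit 83) (nat_lit 5) (nat_lit 377) (nat_lit 364) (nat_lit 159)) (XT.lf (nat_lit 0) (nat_lit 894293513492) (nat_lit 380) (nat_lit 90297118318) (nat_lit 76) (nat_lit 31489902891) (nat_lit 78) (nat_lit 5) (nat_lit 83) (nat_lit 5) (nat_lit 79) (nat_lit 5) (nat_lit 378) (nat_lit 364) (nat_lit 158)))) (XT.nd (nat_lit 78) (nat_lit 532) (nat_lit 0) (XT.lf (nat_lit 0) (nat_lit 126831077227) (nat_lit 304) (nat_lit 252976258813) (nat_lit 76) (nat_lit 684426810453) (nat_lit 74) (nat_lit 5) (nat_lit 78) (nat_lit 5) (nat_lit 75) (nat_lit 5) (nat_lit 379) (nat_lit 364) (nat_lit 157)) (XT.nd (nat_lit 78) (nat_lit 228) (nat_lit 0) (XT.lf (nat_lit 0) (nat_lit 408037611675) (nat_lit 380) (nat_lit 427950443225) (nat_lit 76) (nat_lit 279303876305) (nat_lit 70) (nat_lit 5) (nat_lit 75) (nat_lit 5) (nat_lit 71) (nat_lit 5) (nat_lit 380) (nat_lit 364) (nat_lit 156)) (XT.lf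 (nat_lit 0) (nat_lit 552924897669) (nat_lit 228) (nat_lit 178331635456) (nat_lit 304) (nat_lit 438202012363) (nat_lit 67) (nat_lit 5) (nat_lit 70) (nat_lit 5) (nat_lit 71) (nat_lit 5) (nat_lit 381) (nat_lit 364) (nat_lit 155)))))) (XT.nd (nat_lit 45786) (nat_lit 0) (nat_lit 2964) (XT.nd (nat_lit 45552) (nat_lit 0) (nat_lit 3724) (XT.nd (nat_lit 78) (nat_lit 532) (nat_lit 0) (XT.lf (nat_lit 0) (nat_lit 404485280045) (nat_lit 228) (nat_lit 698044684751) (nat_lit 304) (nat_lit 124318674301) (nat_lit 64) (nat_lit 5) (nat_lit 67) (nat_lit 5) (nat_lit 68) (nat_lit 5) (nat_lit 382) (nat_lit 364) (nat_lit 154)) (XT.nd (nat_lit 156) (nat_lit 228) (nat_lit 0) (XT.lf (nat_lit 0) (nat_lit 225766701390) (nat_lit 304) (nat_lit 1045912945430) (nat_lit 76) (nat_lit 16084593111) (nat_lit 60) (nat_lit 5) (nat_lit 64) (nat_lit 5) (nat_lit 61) (nat_lit 5) (nat_lit 383) (nat_lit 364) (nat_lit 153)) (XT.lf (nat_lit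 0) (nat_lit 1081232304134) (nat_lit 304) (nat_lit 141658296544) (nat_lit 76) (nat_lit 197597826936) (nat_lit 57) (nat_lit 5) (nat_lit 61) (nat_lit 5) (nat_lit 58) (nat_lit 5) (nat_lit 385) (nat_lit 364) (nat_lit 151)))) (XT.nd (nat_lit 78) (nat_lit 0) (nat_lit 76) (XT.lf (nat_lit 0) (nat_lit 52140600654) (nat_lit 836) (nat_lit 125392582063) (nat_lit 836) (nat_lit 125392582063) (nat_lit 106) (nat_lit 3) (nat_lit 117) (nat_lit 3) (nat_lit 117) (nat_lit 5) (nat_lit 365) (nat_lit 365) (nat_lit 170)) (XT.nd (nat_lit 78) (nat_lit 0) (nat_lit 0) (XT.lf (nat_lit 0) (nat_lit 113556493670) (nat_lit 760) (nat_lit 412205530823) (nat_lit 836) (nat_lit 104068363800) (nat_lit 107) (nat_lit 5) (nat_lit 117) (nat_lit 5) (nat_lit 118) (nat_lit 5) (nat_lit 366) (nat_lit 365) (nat_lit 169)) (XT.lf (nat_lit 76) (nat_lit 73239428394) (nat_lit 0) (nat_lit 61905024841) (nat_lit 836) (nat_lit 520004570321) (nat_lit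 108) (nat_lit 5) (nat_lit 107) (nat_lit 5) (nat_lit 118) (nat_lit 5) (nat_lit 367) (nat_lit 365) (nat_lit 168))))) (XT.nd (nat_lit 234) (nat_lit 912) (nat_lit 0) (XT.nd (nat_lit 78) (nat_lit 0) (nat_lit 76) (XT.lf (nat_lit 0) (nat_lit 172612454831) (nat_lit 760) (nat_lit 76867114257) (nat_lit 836) (nat_lit 432305930310) (nat_lit 108) (nat_lit 5) (nat_lit 118) (nat_lit 5) (nat_lit 119) (nat_lit 5) (nat_lit 368) (nat_lit 365) (nat_lit 167)) (XT.nd (nat_lit 78) (nat_lit 0) (nat_lit 76) (XT.lf (nat_lit 0) (nat_lit 225742702226) (nat_lit 760) (nat_lit 231210036813) (nat_lit 836) (nat_lit 252966914007) (nat_lit 109) (nat_lit 5) (nat_lit 119) (nat_lit 5) (nat_lit 120) (nat_lit 5) (nat_lit 369) (nat_lit 365) (nat_lit 166)) (XT.lf (nat_lit 0) (nat_lit 294970141331) (nat_lit 760) (nat_lit 392443642121) (nat_lit 836) (nat_lit 52298416955) (nat_lit 110) (nat_lit 5) (nat_lit 120) (nat_lit 5) (nat_lit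 121) (nat_lit 5) (nat_lit 370) (nat_lit 365) (nat_lit 165)))) (XT.nd (nat_lit 156) (nat_lit 380) (nat_lit 0) (XT.nd (nat_lit 78) (nat_lit 684) (nat_lit 0) (XT.lf (nat_lit 76) (nat_lit 207464150482) (nat_lit 0) (nat_lit 177309314172) (nat_lit 836) (nat_lit 386362802465) (nat_lit 111) (nat_lit 5) (nat_lit 110) (nat_lit 5) (nat_lit 121) (nat_lit 5) (nat_lit 371) (nat_lit 365) (nat_lit 164)) (XT.lf (nat_lit 0) (nat_lit 60641988947) (nat_lit 760) (nat_lit 434847017610) (nat_lit 836) (nat_lit 308898854993) (nat_lit 101) (nat_lit 5) (nat_lit 111) (nat_lit 5) (nat_lit 112) (nat_lit 5) (nat_lit 372) (nat_lit 365) (nat_lit 163))) (XT.nd (nat_lit 78) (nat_lit 380) (nat_lit 0) (XT.lf (nat_lit 0) (nat_lit 629759961386) (nat_lit 836) (nat_lit 89658270942) (nat_lit 76) (nat_lit 120146442743) (nat_lit 101) (nat_lit 5) (nat_lit 112) (nat_lit 5) (nat_lit 102) (nat_lit 5) (nat_lit 373) (nat_lit 365) (nat_lit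 162)) (XT.lf (nat_lit 0) (nat_lit 629574317778) (nat_lit 380) (nat_lit 162359992804) (nat_lit 456) (nat_lit 84763237205) (nat_lit 96) (nat_lit 5) (nat_lit 101) (nat_lit 5) (nat_lit 102) (nat_lit 5) (nat_lit 374) (nat_lit 365) (nat_lit 161))))))))
noncomputable def xc125 : XT := (XT.nd (nat_lit 47346) (nat_lit 0) (nat_lit 532) (XT.nd (nat_lit 46332) (nat_lit 0) (nat_lit 1596) (XT.nd (nat_lit 468) (nat_lit 1292) (nat_lit 0) (XT.nd (nat_lit 234) (nat_lit 608) (nat_lit 0) (XT.nd (nat_lit 78) (nat_lit 684) (nat_lit 0) (XT.lf (nat_lit 0) (nat_lit 65222423472) (nat_lit 380) (nat_lit 415030999105) (nat_lit 76) (nat_lit 435680866459) (nat_lit 91) (nat_lit 5) (nat_lit 96) (nat_lit 5) (nat_lit 92) (nat_lit 5) (nat_lit 375) (nat_lit 365) (nat_lit 160)) (XT.nd (nat_lit 78) (nat_lit 304) (nat_lit 0) (XT.lf (nat_lit 0) (nat_lit 239147948490) (nat_lit 456) (nat_lit 592613318464) (nat_lit 76) (nat_lit 125733689458)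 (nat_lit 86) (nat_lit 5) (nat_lit 92) (nat_lit 5) (nat_lit 87) (nat_lit 5) (nat_lit 376) (nat_lit 365) (nat_lit 159)) (XT.lf (nat_lit 0) (nat_lit 218774579895) (nat_lit 304) (nat_lit 227074645676) (nat_lit 380) (nat_lit 555588166114) (nat_lit 82) (nat_lit 5) (nat_lit 86) (nat_lit 5) (nat_lit 87) (nat_lit 5) (nat_lit 377) (nat_lit 365) (nat_lit 158)))) (XT.nd (nat_lit 78) (nat_lit 304) (nat_lit 0) (XT.lf (nat_lit 0) (nat_lit 63054510177) (nat_lit 304) (nat_lit 624159558629) (nat_lit 380) (nat_lit 360774779784) (nat_lit 78) (nat_lit 5) (nat_lit 82) (nat_lit 5) (nat_lit 83) (nat_lit 5) (nat_lit 378) (nat_lit 365) (nat_lit 157)) (XT.nd (nat_lit 78) (nat_lit 304) (nat_lit 0) (XT.lf (nat_lit 0) (nat_lit 965837239777) (nat_lit 380) (nat_lit 97520580883) (nat_lit 76) (nat_lit 34009144383) (nat_lit 78) (nat_lit 5) (nat_lit 83) (nat_lit 5) (nat_lit 79) (nat_lit 5) (nat_lit 379) (nat_lit 365) (nat_lit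 156)) (XT.lf (nat_lit 0) (nat_lit 136977798984) (nat_lit 304) (nat_lit 273214058013) (nat_lit 76) (nat_lit 739181009283) (nat_lit 74) (nat_lit 5) (nat_lit 78) (nat_lit 5) (nat_lit 75) (nat_lit 5) (nat_lit 380) (nat_lit 365) (nat_lit 155))))) (XT.nd (nat_lit 312) (nat_lit 228) (nat_lit 0) (XT.nd (nat_lit 78) (nat_lit 760) (nat_lit 0) (XT.lf (nat_lit 0) (nat_lit 440680844266) (nat_lit 380) (nat_lit 462186180035) (nat_lit 76) (nat_lit 301648250075) (nat_lit 70) (nat_lit 5) (nat_lit 75) (nat_lit 5) (nat_lit 71) (nat_lit 5) (nat_lit 381) (nat_lit 365) (nat_lit 154)) (XT.nd (nat_lit 156) (nat_lit 532) (nat_lit 0) (XT.lf (nat_lit 0) (nat_lit 597159175152) (nat_lit 228) (nat_lit 192598092174) (nat_lit 304) (nat_lit 473257951092) (nat_lit 67) (nat_lit 5) (nat_lit 70) (nat_lit 5) (nat_lit 71) (nat_lit 5) (nat_lit 382) (nat_lit 365) (nat_lit 153)) (XT.lf (nat_lit 0) (nat_lit 243828232724) (nat_lit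 304) (nat_lit 1129585695847) (nat_lit 76) (nat_lit 17371440686) (nat_lit 60) (nat_lit 5) (nat_lit 64) (nat_lit 5) (nat_lit 61) (nat_lit 5) (nat_lit 384) (nat_lit 365) (nat_lit 151)))) (XT.nd (nat_lit 45396) (nat_lit 0) (nat_lit 3724) (XT.lf (nat_lit 0) (nat_lit 59837135953) (nat_lit 228) (nat_lit 617060402116) (nat_lit 304) (nat_lit 783358051140) (nat_lit 57) (nat_lit 5) (nat_lit 60) (nat_lit 5) (nat_lit 61) (nat_lit 5) (nat_lit 385) (nat_lit 365) (nat_lit 150)) (XT.nd (nat_lit 78) (nat_lit 0) (nat_lit 76) (XT.lf (nat_lit 0) (nat_lit 56312113813) (nat_lit 836) (nat_lit 135423849332) (nat_lit 836) (nat_lit 135423849332) (nat_lit 106) (nat_lit 3) (nat_lit 117) (nat_lit 3) (nat_lit 117) (nat_lit 5) (nat_lit 366) (nat_lit 366) (nat_lit 168)) (XT.lf (nat_lit 0) (nat_lit 122641504693) (nat_lit 760) (nat_lit 445181678055) (nat_lit 836) (nat_lit 112393611607) (nat_lit 107) (nat_lit 5) (nat_lit 117)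 (nat_lit 5) (nat_lit 118) (nat_lit 5) (nat_lit 367) (nat_lit 366) (nat_lit 167)))))) (XT.nd (nat_lit 468) (nat_lit 1748) (nat_lit 0) (XT.nd (nat_lit 234) (nat_lit 456) (nat_lit 0) (XT.nd (nat_lit 78) (nat_lit 0) (nat_lit 76) (XT.lf (nat_lit 76) (nat_lit 79098865069) (nat_lit 0) (nat_lit 66857603954) (nat_lit 836) (nat_lit 561604453048) (nat_lit 108) (nat_lit 5) (nat_lit 107) (nat_lit 5) (nat_lit 118) (nat_lit 5) (nat_lit 368) (nat_lit 366) (nat_lit 166)) (XT.nd (nat_lit 78) (nat_lit 0) (nat_lit 76) (XT.lf (nat_lit 0) (nat_lit 186421874147) (nat_lit 760) (nat_lit 83016197714) (nat_lit 836) (nat_lit 466890245980) (nat_lit 108) (nat_lit 5) (nat_lit 118) (nat_lit 5) (nat_lit 119) (nat_lit 5) (nat_lit 369) (nat_lit 366) (nat_lit 165)) (XT.lf (nat_lit 0) (nat_lit 243802512357) (nat_lit 760) (nat_lit 249706544444) (nat_lit 836) (nat_lit 273204148453) (nat_lit 109) (nat_lit 5) (nat_lit 119) (nat_lit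 5) (nat_lit 120) (nat_lit 5) (nat_lit 370) (nat_lit 366) (nat_lit 164)))) (XT.nd (nat_lit 78) (nat_lit 684) (nat_lit 0) (XT.lf (nat_lit 0) (nat_lit 318568120466) (nat_lit 760) (nat_lit 423838830885) (nat_lit 836) (nat_lit 56482206385) (nat_lit 110) (nat_lit 5) (nat_lit 120) (nat_lit 5) (nat_lit 121) (nat_lit 5) (nat_lit 371) (nat_lit 366) (nat_lit 163)) (XT.nd (nat_lit 78) (nat_lit 684) (nat_lit 0) (XT.lf (nat_lit 76) (nat_lit 224061571975) (nat_lit 0) (nat_lit 191494114952) (nat_lit 836) (nat_lit 417271464017) (nat_lit 111) (nat_lit 5) (nat_lit 110) (nat_lit 5) (nat_lit 121) (nat_lit 5) (nat_lit 372) (nat_lit 366) (nat_lit 162)) (XT.lf (nat_lit 0) (nat_lit 65493642551) (nat_lit 760) (nat_lit 469634807861) (nat_lit 836) (nat_lit 333610423627) (nat_lit 101) (nat_lit 5) (nat_lit 111) (nat_lit 5) (nat_lit 112) (nat_lit 5) (nat_lit 373) (nat_lit 366) (nat_lit 161))))) (XT.nd (nat_lit 234) (nat_lit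 988) (nat_lit 0) (XT.nd (nat_lit 78) (nat_lit 760) (nat_lit 0) (XT.lf (nat_lit 0) (nat_lit 680141057260) (nat_lit 836) (nat_lit 96830644308) (nat_lit 76) (nat_lit 129758132311) (nat_lit 101) (nat_lit 5) (nat_lit 112) (nat_lit 5) (nat_lit 102) (nat_lit 5) (nat_lit 374) (nat_lit 366) (nat_lit 160)) (XT.nd (nat_lit 78) (nat_lit 380) (nat_lit 0) (XT.lf (nat_lit 0) (nat_lit 679940538979) (nat_lit 380) (nat_lit 175348797573) (nat_lit 456) (nat_lit 91544000772) (nat_lit 96) (nat_lit 5) (nat_lit 101) (nat_lit 5) (nat_lit 102) (nat_lit 5) (nat_lit 375) (nat_lit 366) (nat_lit 159)) (XT.lf (nat_lit 0) (nat_lit 70440486448) (nat_lit 380) (nat_lit 448233192394) (nat_lit 76) (nat_lit 470535339659) (nat_lit 91) (nat_lit 5) (nat_lit 96) (nat_lit 5) (nat_lit 92) (nat_lit 5) (nat_lit 376) (nat_lit 366) (nat_lit 158)))) (XT.nd (nat_lit 156) (nat_lit 304) (nat_lit 0) (XT.nd (nat_lit 78) (nat_lit 304) (nat_lit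 0) (XT.lf (nat_lit 0) (nat_lit 258280038139) (nat_lit 456) (nat_lit 640022097223) (nat_lit 76) (nat_lit 135792404687) (nat_lit 86) (nat_lit 5) (nat_lit 92) (nat_lit 5) (nat_lit 87) (nat_lit 5) (nat_lit 377) (nat_lit 366) (nat_lit 157)) (XT.lf (nat_lit 0) (nat_lit 236276820545) (nat_lit 304) (nat_lit 245240582326) (nat_lit 380) (nat_lit 600034968012) (nat_lit 82) (nat_lit 5) (nat_lit 86) (nat_lit 5) (nat_lit 87) (nat_lit 5) (nat_lit 378) (nat_lit 366) (nat_lit 156))) (XT.nd (nat_lit 78) (nat_lit 0) (nat_lit 0) (XT.lf (nat_lit 0) (nat_lit 68099144417) (nat_lit 304) (nat_lit 674092276201) (nat_lit 380) (nat_lit 389636524384) (nat_lit 78) (nat_lit 5) (nat_lit 82) (nat_lit 5) (nat_lit 83) (nat_lit 5) (nat_lit 379) (nat_lit 366) (nat_lit 155)) (XT.lf (nat_lit 0) (nat_lit 1043104429183) (nat_lit 380) (nat_lit 105321964237) (nat_lit 76) (nat_lit 36729918166) (nat_lit 78) (nat_lit 5) (nat_lit 83)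 (nat_lit 5) (nat_lit 79) (nat_lit 5) (nat_lit 380) (nat_lit 366) (nat_lit 154))))))) (XT.nd (nat_lit 46488) (nat_lit 0) (nat_lit 228) (XT.nd (nat_lit 46020) (nat_lit 0) (nat_lit 2812) (XT.nd (nat_lit 45786) (nat_lit 0) (nat_lit 3192) (XT.nd (nat_lit 78) (nat_lit 760) (nat_lit 0) (XT.lf (nat_lit 0) (nat_lit 147936224873) (nat_lit 304) (nat_lit 295070924163) (nat_lit 76) (nat_lit 798315536317) (nat_lit 74) (nat_lit 5) (nat_lit 78) (nat_lit 5) (nat_lit 75) (nat_lit 5) (nat_lit 381) (nat_lit 366) (nat_lit 153)) (XT.nd (nat_lit 156) (nat_lit 456) (nat_lit 0) (XT.lf (nat_lit 0) (nat_lit 475935503558) (nat_lit 380) (nat_lit 499160818395) (nat_lit 76) (nat_lit 325780164663) (nat_lit 70) (nat_lit 5) (nat_lit 75) (nat_lit 5) (nat_lit 71) (nat_lit 5) (nat_lit 382) (nat_lit 366) (nat_lit 152)) (XT.lf (nat_lit 0) (nat_lit 471792177732) (nat_lit 228) (nat_lit 814199163310) (nat_lit 304) (nat_lit 145004891860)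 (nat_lit 64) (nat_lit 5) (nat_lit 67) (nat_lit 5) (nat_lit 68) (nat_lit 5) (nat_lit 384) (nat_lit 366) (nat_lit 150)))) (XT.nd (nat_lit 78) (nat_lit 0) (nat_lit 76) (XT.lf (nat_lit 0) (nat_lit 60817310204) (nat_lit 836) (nat_lit 146257637855) (nat_lit 836) (nat_lit 146257637855) (nat_lit 106) (nat_lit 3) (nat_lit 117) (nat_lit 3) (nat_lit 117) (nat_lit 5) (nat_lit 367) (nat_lit 367) (nat_lit 166)) (XT.nd (nat_lit 78) (nat_lit 0) (nat_lit 0) (XT.lf (nat_lit 0) (nat_lit 132453246475) (nat_lit 760) (nat_lit 480795959184) (nat_lit 836) (nat_lit 121384910809) (nat_lit 107) (nat_lit 5) (nat_lit 117) (nat_lit 5) (nat_lit 118) (nat_lit 5) (nat_lit 368) (nat_lit 367) (nat_lit 165)) (XT.lf (nat_lit 76) (nat_lit 85427016389) (nat_lit 0) (nat_lit 72206364126) (nat_lit 836) (nat_lit 606532395284) (nat_lit 108) (nat_lit 5) (nat_lit 107) (nat_lit 5) (nat_lit 118) (nat_lit 5) (nat_lit 369) (nat_lit 367)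 (nat_lit 164))))) (XT.nd (nat_lit 234) (nat_lit 532) (nat_lit 0) (XT.nd (nat_lit 78) (nat_lit 0) (nat_lit 76) (XT.lf (nat_lit 0) (nat_lit 201335986671) (nat_lit 760) (nat_lit 89657248602) (nat_lit 836) (nat_lit 504241329551) (nat_lit 108) (nat_lit 5) (nat_lit 118) (nat_lit 5) (nat_lit 119) (nat_lit 5) (nat_lit 370) (nat_lit 367) (nat_lit 163)) (XT.nd (nat_lit 78) (nat_lit 0) (nat_lit 76) (XT.lf (nat_lit 0) (nat_lit 263307051096) (nat_lit 760) (nat_lit 269682814815) (nat_lit 836) (nat_lit 295060378586) (nat_lit 109) (nat_lit 5) (nat_lit 119) (nat_lit 5) (nat_lit 120) (nat_lit 5) (nat_lit 371) (nat_lit 367) (nat_lit 162)) (XT.lf (nat_lit 0) (nat_lit 344053885456) (nat_lit 760) (nat_lit 457745677920) (nat_lit 836) (nat_lit 61000710942) (nat_lit 110) (nat_lit 5) (nat_lit 120) (nat_lit 5) (nat_lit 121) (nat_lit 5) (nat_lit 372) (nat_lit 367) (nat_lit 161)))) (XT.nd (nat_lit 78) (nat_lit 684)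 (nat_lit 0) (XT.lf (nat_lit 76) (nat_lit 241986745894) (nat_lit 0) (nat_lit 206813691856) (nat_lit 836) (nat_lit 450652870229) (nat_lit 111) (nat_lit 5) (nat_lit 110) (nat_lit 5) (nat_lit 121) (nat_lit 5) (nat_lit 373) (nat_lit 367) (nat_lit 160)) (XT.nd (nat_lit 78) (nat_lit 0) (nat_lit 0) (XT.lf (nat_lit 0) (nat_lit 70733386431) (nat_lit 760) (nat_lit 507205617218) (nat_lit 836) (nat_lit 360298966223) (nat_lit 101) (nat_lit 5) (nat_lit 111) (nat_lit 5) (nat_lit 112) (nat_lit 5) (nat_lit 374) (nat_lit 367) (nat_lit 159)) (XT.lf (nat_lit 0) (nat_lit 734552598154) (nat_lit 836) (nat_lit 104576848675) (nat_lit 76) (nat_lit 140138760733) (nat_lit 101) (nat_lit 5) (nat_lit 112) (nat_lit 5) (nat_lit 102) (nat_lit 5) (nat_lit 375) (nat_lit 367) (nat_lit 158)))))) (XT.nd (nat_lit 468) (nat_lit 836) (nat_lit 0) (XT.nd (nat_lit 234) (nat_lit 608) (nat_lit 0) (XT.nd (nat_lit 78) (nat_lit 760) (nat_lit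 0) (XT.lf (nat_lit 0) (nat_lit 734336018534) (nat_lit 380) (nat_lit 189376705962) (nat_lit 456) (nat_lit 98867267567) (nat_lit 96) (nat_lit 5) (nat_lit 101) (nat_lit 5) (nat_lit 102) (nat_lit 5) (nat_lit 376) (nat_lit 367) (nat_lit 157)) (XT.nd (nat_lit 78) (nat_lit 380) (nat_lit 0) (XT.lf (nat_lit 0) (nat_lit 76075956073) (nat_lit 380) (nat_lit 484091602039) (nat_lit 76) (nat_lit 508178170161) (nat_lit 91) (nat_lit 5) (nat_lit 96) (nat_lit 5) (nat_lit 92) (nat_lit 5) (nat_lit 377) (nat_lit 367) (nat_lit 156)) (XT.lf (nat_lit 0) (nat_lit 278942658757) (nat_lit 456) (nat_lit 691223619185) (nat_lit 76) (nat_lit 146655814271) (nat_lit 86) (nat_lit 5) (nat_lit 92) (nat_lit 5) (nat_lit 87) (nat_lit 5) (nat_lit 378) (nat_lit 367) (nat_lit 155)))) (XT.nd (nat_lit 78) (nat_lit 304) (nat_lit 0) (XT.lf (nat_lit 0) (nat_lit 255179201321) (nat_lit 304) (nat_lit 264859798902) (nat_lit 380) (nat_lit 648037549926)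 (nat_lit 82) (nat_lit 5) (nat_lit 86) (nat_lit 5) (nat_lit 87) (nat_lit 5) (nat_lit 379) (nat_lit 367) (nat_lit 154)) (XT.nd (nat_lit 78) (nat_lit 0) (nat_lit 0) (XT.lf (nat_lit 0) (nat_lit 73547310389) (nat_lit 304) (nat_lit 728019617900) (nat_lit 380) (nat_lit 420807242474) (nat_lit 78) (nat_lit 5) (nat_lit 82) (nat_lit 5) (nat_lit 83) (nat_lit 5) (nat_lit 380) (nat_lit 367) (nat_lit 153)) (XT.lf (nat_lit 0) (nat_lit 1126552963751) (nat_lit 380) (nat_lit 113747495796) (nat_lit 76) (nat_lit 39668347826) (nat_lit 78) (nat_lit 5) (nat_lit 83) (nat_lit 5) (nat_lit 79) (nat_lit 5) (nat_lit 381) (nat_lit 367) (nat_lit 152))))) (XT.nd (nat_lit 45864) (nat_lit 0) (nat_lit 3040) (XT.nd (nat_lit 156) (nat_lit 532) (nat_lit 0) (XT.lf (nat_lit 0) (nat_lit 159771296020) (nat_lit 304) (nat_lit 318676376481) (nat_lit 76) (nat_lit 862180818909) (nat_lit 74) (nat_lit 5) (nat_lit 78) (nat_lit 5) (nat_lit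 75) (nat_lit 5) (nat_lit 382) (nat_lit 367) (nat_lit 151)) (XT.nd (nat_lit 45630) (nat_lit 0) (nat_lit 2964) (XT.lf (nat_lit 0) (nat_lit 696526936381) (nat_lit 228) (nat_lit 224646291604) (nat_lit 304) (nat_lit 552007704990) (nat_lit 67) (nat_lit 5) (nat_lit 70) (nat_lit 5) (nat_lit 71) (nat_lit 5) (nat_lit 384) (nat_lit 367) (nat_lit 149)) (XT.lf (nat_lit 0) (nat_lit 65682889881) (nat_lit 836) (nat_lit 157958146497) (nat_lit 836) (nat_lit 157958146497) (nat_lit 106) (nat_lit 3) (nat_lit 117) (nat_lit 3) (nat_lit 117) (nat_lit 5) (nat_lit 368) (nat_lit 368) (nat_lit 164)))) (XT.nd (nat_lit 156) (nat_lit 0) (nat_lit 76) (XT.nd (nat_lit 78) (nat_lit 0) (nat_lit 0) (XT.lf (nat_lit 0) (nat_lit 143049867481) (nat_lit 760) (nat_lit 519259418913) (nat_lit 836) (nat_lit 131095541014) (nat_lit 107) (nat_lit 5) (nat_lit 117) (nat_lit 5) (nat_lit 118) (nat_lit 5) (nat_lit 369) (nat_lit 368) (nat_lit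 163)) (XT.lf (nat_lit 76) (nat_lit 92261385276) (nat_lit 0) (nat_lit 77983003449) (nat_lit 836) (nat_lit 655054631962) (nat_lit 108) (nat_lit 5) (nat_lit 107) (nat_lit 5) (nat_lit 118) (nat_lit 5) (nat_lit 370) (nat_lit 368) (nat_lit 162))) (XT.nd (nat_lit 78) (nat_lit 0) (nat_lit 76) (XT.lf (nat_lit 0) (nat_lit 217443176470) (nat_lit 760) (nat_lit 96829618504) (nat_lit 836) (nat_lit 544580519225) (nat_lit 108) (nat_lit 5) (nat_lit 118) (nat_lit 5) (nat_lit 119) (nat_lit 5) (nat_lit 371) (nat_lit 368) (nat_lit 161)) (XT.lf (nat_lit 0) (nat_lit 284371904751) (nat_lit 760) (nat_lit 291257222936) (nat_lit 836) (nat_lit 318665121643) (nat_lit 109) (nat_lit 5) (nat_lit 119) (nat_lit 5) (nat_lit 120) (nat_lit 5) (nat_lit 372) (nat_lit 368) (nat_lit 160))))))))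
noncomputable def xc126 : XT := (XT.nd (nat_lit 47736) (nat_lit 0) (nat_lit 304) (XT.nd (nat_lit 46644) (nat_lit 0) (nat_lit 608) (XT.nd (nat_lit 468) (nat_lit 1596) (nat_lit 0) (XT.nd (nat_lit 234) (nat_lit 760) (nat_lit 0) (XT.nd (nat_lit 78) (nat_lit 684) (nat_lit 0) (XT.lf (nat_lit 0) (nat_lit 371578466657) (nat_lit 760) (nat_lit 494365109730) (nat_lit 836) (nat_lit 65880706129) (nat_lit 110) (nat_lit 5) (nat_lit 120) (nat_lit 5) (nat_lit 121) (nat_lit 5) (nat_lit 373) (nat_lit 368) (nat_lit 159)) (XT.nd (nat_lit 78) (nat_lit 684) (nat_lit 0) (XT.lf (nat_lit 76) (nat_lit 261345898324) (nat_lit 0) (nat_lit 223358828106) (nat_lit 836) (nat_lit 486704833292) (nat_lit 111) (nat_lit 5) (nat_lit 110) (nat_lit 5) (nat_lit 121) (nat_lit 5) (nat_lit 374) (nat_lit 368) (nat_lit 158)) (XT.lf (nat_lit 0) (nat_lit 76392273804) (nat_lit 760) (nat_lit 547782087796) (nat_lit 836) (nat_lit 389122633782)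 (nat_lit 101) (nat_lit 5) (nat_lit 111) (nat_lit 5) (nat_lit 112) (nat_lit 5) (nat_lit 375) (nat_lit 368) (nat_lit 157)))) (XT.nd (nat_lit 78) (nat_lit 760) (nat_lit 0) (XT.lf (nat_lit 0) (nat_lit 793317025753) (nat_lit 836) (nat_lit 112942784653) (nat_lit 76) (nat_lit 151349842590) (nat_lit 101) (nat_lit 5) (nat_lit 112) (nat_lit 5) (nat_lit 102) (nat_lit 5) (nat_lit 376) (nat_lit 368) (nat_lit 156)) (XT.nd (nat_lit 78) (nat_lit 380) (nat_lit 0) (XT.lf (nat_lit 0) (nat_lit 793083102722) (nat_lit 380) (nat_lit 204526846367) (nat_lit 456) (nat_lit 106776431838) (nat_lit 96) (nat_lit 5) (nat_lit 101) (nat_lit 5) (nat_lit 102) (nat_lit 5) (nat_lit 377) (nat_lit 368) (nat_lit 155)) (XT.lf (nat_lit 0) (nat_lit 82162230355) (nat_lit 380) (nat_lit 522818719513) (nat_lit 76) (nat_lit 548832426628) (nat_lit 91) (nat_lit 5) (nat_lit 96) (nat_lit 5) (nat_lit 92) (nat_lit 5) (nat_lit 378) (nat_lit 368)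 (nat_lit 154))))) (XT.nd (nat_lit 312) (nat_lit 608) (nat_lit 0) (XT.nd (nat_lit 78) (nat_lit 608) (nat_lit 0) (XT.lf (nat_lit 0) (nat_lit 301258257986) (nat_lit 456) (nat_lit 746521297973) (nat_lit 76) (nat_lit 158388294167) (nat_lit 86) (nat_lit 5) (nat_lit 92) (nat_lit 5) (nat_lit 87) (nat_lit 5) (nat_lit 379) (nat_lit 368) (nat_lit 153)) (XT.nd (nat_lit 78) (nat_lit 304) (nat_lit 0) (XT.lf (nat_lit 0) (nat_lit 275593739015) (nat_lit 304) (nat_lit 286048557085) (nat_lit 380) (nat_lit 699880369141) (nat_lit 82) (nat_lit 5) (nat_lit 86) (nat_lit 5) (nat_lit 87) (nat_lit 5) (nat_lit 380) (nat_lit 368) (nat_lit 152)) (XT.lf (nat_lit 0) (nat_lit 79431296196) (nat_lit 304) (nat_lit 786261152698) (nat_lit 380) (nat_lit 454471647094) (nat_lit 78) (nat_lit 5) (nat_lit 82) (nat_lit 5) (nat_lit 83) (nat_lit 5) (nat_lit 381) (nat_lit 368) (nat_lit 151)))) (XT.nd (nat_lit 78) (nat_lit 304) (nat_lit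 0) (XT.lf (nat_lit 0) (nat_lit 172553148156) (nat_lit 304) (nat_lit 344170296600) (nat_lit 76) (nat_lit 931155318448) (nat_lit 74) (nat_lit 5) (nat_lit 78) (nat_lit 5) (nat_lit 75) (nat_lit 5) (nat_lit 383) (nat_lit 368) (nat_lit 149)) (XT.nd (nat_lit 45708) (nat_lit 0) (nat_lit 2736) (XT.lf (nat_lit 0) (nat_lit 555131489840) (nat_lit 380) (nat_lit 582220753300) (nat_lit 76) (nat_lit 379990074723) (nat_lit 70) (nat_lit 5) (nat_lit 75) (nat_lit 5) (nat_lit 71) (nat_lit 5) (nat_lit 384) (nat_lit 368) (nat_lit 148)) (XT.lf (nat_lit 0) (nat_lit 70937688134) (nat_lit 836) (nat_lit 170594710437) (nat_lit 836) (nat_lit 170594710437) (nat_lit 106) (nat_lit 3) (nat_lit 117) (nat_lit 3) (nat_lit 117) (nat_lit 5) (nat_lit 369) (nat_lit 369) (nat_lit 162)))))) (XT.nd (nat_lit 468) (nat_lit 2204) (nat_lit 0) (XT.nd (nat_lit 234) (nat_lit 0) (nat_lit 152) (XT.nd (nat_lit 78) (nat_lit 0) (nat_lit 0) (XT.lf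 (nat_lit 0) (nat_lit 154494166626) (nat_lit 760) (nat_lit 560799986379) (nat_lit 836) (nat_lit 141583044841) (nat_lit 107) (nat_lit 5) (nat_lit 117) (nat_lit 5) (nat_lit 118) (nat_lit 5) (nat_lit 370) (nat_lit 369) (nat_lit 161)) (XT.nd (nat_lit 78) (nat_lit 0) (nat_lit 76) (XT.lf (nat_lit 76) (nat_lit 99642474060) (nat_lit 0) (nat_lit 84221755343) (nat_lit 836) (nat_lit 707458698211) (nat_lit 108) (nat_lit 5) (nat_lit 107) (nat_lit 5) (nat_lit 118) (nat_lit 5) (nat_lit 371) (nat_lit 369) (nat_lit 160)) (XT.lf (nat_lit 0) (nat_lit 234838897105) (nat_lit 760) (nat_lit 104575807955) (nat_lit 836) (nat_lit 588146860720) (nat_lit 108) (nat_lit 5) (nat_lit 118) (nat_lit 5) (nat_lit 119) (nat_lit 5) (nat_lit 372) (nat_lit 369) (nat_lit 159)))) (XT.nd (nat_lit 78) (nat_lit 0) (nat_lit 76) (XT.lf (nat_lit 0) (nat_lit 307121905389) (nat_lit 760) (nat_lit 314557614673) (nat_lit 836) (nat_lit 344158256590)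 (nat_lit 109) (nat_lit 5) (nat_lit 119) (nat_lit 5) (nat_lit 120) (nat_lit 5) (nat_lit 373) (nat_lit 369) (nat_lit 158)) (XT.nd (nat_lit 78) (nat_lit 0) (nat_lit 0) (XT.lf (nat_lit 0) (nat_lit 401304975784) (nat_lit 760) (nat_lit 533914127816) (nat_lit 836) (nat_lit 71151109731) (nat_lit 110) (nat_lit 5) (nat_lit 120) (nat_lit 5) (nat_lit 121) (nat_lit 5) (nat_lit 374) (nat_lit 369) (nat_lit 157)) (XT.lf (nat_lit 76) (nat_lit 282253752595) (nat_lit 0) (nat_lit 241227569420) (nat_lit 836) (nat_lit 525640991427) (nat_lit 111) (nat_lit 5) (nat_lit 110) (nat_lit 5) (nat_lit 121) (nat_lit 5) (nat_lit 375) (nat_lit 369) (nat_lit 156))))) (XT.nd (nat_lit 234) (nat_lit 1368) (nat_lit 0) (XT.nd (nat_lit 78) (nat_lit 380) (nat_lit 0) (XT.lf (nat_lit 0) (nat_lit 82503841286) (nat_lit 760) (nat_lit 591604672995) (nat_lit 836) (nat_lit 420252230375) (nat_lit 101) (nat_lit 5) (nat_lit 111) (nat_lit 5)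 (nat_lit 112) (nat_lit 5) (nat_lit 376) (nat_lit 369) (nat_lit 155)) (XT.nd (nat_lit 78) (nat_lit 380) (nat_lit 0) (XT.lf (nat_lit 0) (nat_lit 856782576212) (nat_lit 836) (nat_lit 121978025742) (nat_lit 76) (nat_lit 163457813707) (nat_lit 101) (nat_lit 5) (nat_lit 112) (nat_lit 5) (nat_lit 102) (nat_lit 5) (nat_lit 377) (nat_lit 369) (nat_lit 154)) (XT.lf (nat_lit 0) (nat_lit 856529924728) (nat_lit 380) (nat_lit 220888997444) (nat_lit 456) (nat_lit 115318360227) (nat_lit 96) (nat_lit 5) (nat_lit 101) (nat_lit 5) (nat_lit 102) (nat_lit 5) (nat_lit 378) (nat_lit 369) (nat_lit 153)))) (XT.nd (nat_lit 156) (nat_lit 608) (nat_lit 0) (XT.nd (nat_lit 78) (nat_lit 380) (nat_lit 0) (XT.lf (nat_lit 0) (nat_lit 88735378361) (nat_lit 380) (nat_lit 564644036443) (nat_lit 76) (nat_lit 592739023206) (nat_lit 91) (nat_lit 5) (nat_lit 96) (nat_lit 5) (nat_lit 92) (nat_lit 5) (nat_lit 379) (nat_lit 369) (nat_lit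 152)) (XT.lf (nat_lit 0) (nat_lit 325359078543) (nat_lit 456) (nat_lit 806242821130) (nat_lit 76) (nat_lit 171059370349) (nat_lit 86) (nat_lit 5) (nat_lit 92) (nat_lit 5) (nat_lit 87) (nat_lit 5) (nat_lit 380) (nat_lit 369) (nat_lit 151))) (XT.nd (nat_lit 156) (nat_lit 304) (nat_lit 0) (XT.lf (nat_lit 0) (nat_lit 297641410965) (nat_lit 304) (nat_lit 308932419593) (nat_lit 380) (nat_lit 755870640254) (nat_lit 82) (nat_lit 5) (nat_lit 86) (nat_lit 5) (nat_lit 87) (nat_lit 5) (nat_lit 381) (nat_lit 369) (nat_lit 150)) (XT.lf (nat_lit 0) (nat_lit 1314011676279) (nat_lit 380) (nat_lit 132674704417) (nat_lit 76) (nat_lit 46269221044) (nat_lit 78) (nat_lit 5) (nat_lit 83) (nat_lit 5) (nat_lit 79) (nat_lit 5) (nat_lit 383) (nat_lit 369) (nat_lit 148))))))) (XT.nd (nat_lit 46644) (nat_lit 0) (nat_lit 304) (XT.nd (nat_lit 46176) (nat_lit 0) (nat_lit 1292) (XT.nd (nat_lit 45942) (nat_lit 0) (nat_lit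 2508) (XT.nd (nat_lit 45786) (nat_lit 0) (nat_lit 2432) (XT.lf (nat_lit 0) (nat_lit 186357527285) (nat_lit 304) (nat_lit 371703757435) (nat_lit 76) (nat_lit 1005647773095) (nat_lit 74) (nat_lit 5) (nat_lit 78) (nat_lit 5) (nat_lit 75) (nat_lit 5) (nat_lit 384) (nat_lit 369) (nat_lit 147)) (XT.nd (nat_lit 78) (nat_lit 0) (nat_lit 76) (XT.lf (nat_lit 0) (nat_lit 76612846413) (nat_lit 836) (nat_lit 184242212015) (nat_lit 836) (nat_lit 184242212015) (nat_lit 106) (nat_lit 3) (nat_lit 117) (nat_lit 3) (nat_lit 117) (nat_lit 5) (nat_lit 370) (nat_lit 370) (nat_lit 160)) (XT.lf (nat_lit 0) (nat_lit 166853965514) (nat_lit 760) (nat_lit 605663825784) (nat_lit 836) (nat_lit 152909568868) (nat_lit 107) (nat_lit 5) (nat_lit 117) (nat_lit 5) (nat_lit 118) (nat_lit 5) (nat_lit 371) (nat_lit 370) (nat_lit 159)))) (XT.nd (nat_lit 78) (nat_lit 0) (nat_lit 76) (XT.lf (nat_lit 76) (nat_lit 107614024558) (nat_lit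 0) (nat_lit 90959591466) (nat_lit 836) (nat_lit 764055133173) (nat_lit 108) (nat_lit 5) (nat_lit 107) (nat_lit 5) (nat_lit 118) (nat_lit 5) (nat_lit 372) (nat_lit 370) (nat_lit 158)) (XT.nd (nat_lit 78) (nat_lit 0) (nat_lit 76) (XT.lf (nat_lit 0) (nat_lit 253626237369) (nat_lit 760) (nat_lit 112941718245) (nat_lit 836) (nat_lit 635198523807) (nat_lit 108) (nat_lit 5) (nat_lit 118) (nat_lit 5) (nat_lit 119) (nat_lit 5) (nat_lit 373) (nat_lit 370) (nat_lit 157)) (XT.lf (nat_lit 0) (nat_lit 331691870660) (nat_lit 760) (nat_lit 339722064298) (nat_lit 836) (nat_lit 371690853001) (nat_lit 109) (nat_lit 5) (nat_lit 119) (nat_lit 5) (nat_lit 120) (nat_lit 5) (nat_lit 374) (nat_lit 370) (nat_lit 156))))) (XT.nd (nat_lit 234) (nat_lit 760) (nat_lit 0) (XT.nd (nat_lit 78) (nat_lit 684) (nat_lit 0) (XT.lf (nat_lit 0) (nat_lit 433409572572) (nat_lit 760) (nat_lit 576627094552) (nat_lit 836) (nat_lit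 76843153167) (nat_lit 110) (nat_lit 5) (nat_lit 120) (nat_lit 5) (nat_lit 121) (nat_lit 5) (nat_lit 375) (nat_lit 370) (nat_lit 155)) (XT.nd (nat_lit 78) (nat_lit 684) (nat_lit 0) (XT.lf (nat_lit 76) (nat_lit 304834209186) (nat_lit 0) (nat_lit 260525805038) (nat_lit 836) (nat_lit 567692074815) (nat_lit 111) (nat_lit 5) (nat_lit 110) (nat_lit 5) (nat_lit 121) (nat_lit 5) (nat_lit 376) (nat_lit 370) (nat_lit 154)) (XT.lf (nat_lit 0) (nat_lit 89104307692) (nat_lit 760) (nat_lit 638933062418) (nat_lit 836) (nat_lit 453872225240) (nat_lit 101) (nat_lit 5) (nat_lit 111) (nat_lit 5) (nat_lit 112) (nat_lit 5) (nat_lit 377) (nat_lit 370) (nat_lit 153)))) (XT.nd (nat_lit 78) (nat_lit 760) (nat_lit 0) (XT.lf (nat_lit 0) (nat_lit 925325343829) (nat_lit 836) (nat_lit 131736112037) (nat_lit 76) (nat_lit 176534424837) (nat_lit 101) (nat_lit 5) (nat_lit 112) (nat_lit 5) (nat_lit 102) (nat_lit 5) (nat_lit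 378) (nat_lit 370) (nat_lit 152)) (XT.nd (nat_lit 78) (nat_lit 380) (nat_lit 0) (XT.lf (nat_lit 0) (nat_lit 925052467701) (nat_lit 380) (nat_lit 238560120127) (nat_lit 456) (nat_lit 124543669444) (nat_lit 96) (nat_lit 5) (nat_lit 101) (nat_lit 5) (nat_lit 102) (nat_lit 5) (nat_lit 379) (nat_lit 370) (nat_lit 151)) (XT.lf (nat_lit 0) (nat_lit 95834354015) (nat_lit 380) (nat_lit 609815404496) (nat_lit 76) (nat_lit 640158147160) (nat_lit 91) (nat_lit 5) (nat_lit 96) (nat_lit 5) (nat_lit 92) (nat_lit 5) (nat_lit 380) (nat_lit 370) (nat_lit 150)))))) (XT.nd (nat_lit 46410) (nat_lit 0) (nat_lit 608) (XT.nd (nat_lit 46176) (nat_lit 0) (nat_lit 2204) (XT.nd (nat_lit 156) (nat_lit 608) (nat_lit 0) (XT.lf (nat_lit 0) (nat_lit 351387941931) (nat_lit 456) (nat_lit 870742091915) (nat_lit 76) (nat_lit 184744130822) (nat_lit 86) (nat_lit 5) (nat_lit 92) (nat_lit 5) (nat_lit 87) (nat_lit 5) (nat_lit 381)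 (nat_lit 370) (nat_lit 149)) (XT.nd (nat_lit 45942) (nat_lit 0) (nat_lit 2128) (XT.lf (nat_lit 0) (nat_lit 92648997695) (nat_lit 304) (nat_lit 917094950981) (nat_lit 380) (nat_lit 530095438873) (nat_lit 78) (nat_lit 5) (nat_lit 82) (nat_lit 5) (nat_lit 83) (nat_lit 5) (nat_lit 383) (nat_lit 370) (nat_lit 147)) (XT.lf (nat_lit 0) (nat_lit 82741996922) (nat_lit 836) (nat_lit 198981524455) (nat_lit 836) (nat_lit 198981524455) (nat_lit 106) (nat_lit 3) (nat_lit 117) (nat_lit 3) (nat_lit 117) (nat_lit 5) (nat_lit 371) (nat_lit 371) (nat_lit 158)))) (XT.nd (nat_lit 78) (nat_lit 0) (nat_lit 0) (XT.lf (nat_lit 0) (nat_lit 180202510428) (nat_lit 760) (nat_lit 654116795096) (nat_lit 836) (nat_lit 165142231875) (nat_lit 107) (nat_lit 5) (nat_lit 117) (nat_lit 5) (nat_lit 118) (nat_lit 5) (nat_lit 372) (nat_lit 371) (nat_lit 157)) (XT.nd (nat_lit 78) (nat_lit 0) (nat_lit 76) (XT.lf (nat_lit 76) (nat_lit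 116223277330) (nat_lit 0) (nat_lit 98236440827) (nat_lit 836) (nat_lit 825179320151) (nat_lit 108) (nat_lit 5) (nat_lit 107) (nat_lit 5) (nat_lit 118) (nat_lit 5) (nat_lit 373) (nat_lit 371) (nat_lit 156)) (XT.lf (nat_lit 0) (nat_lit 273916532256) (nat_lit 760) (nat_lit 121976923378) (nat_lit 836) (nat_lit 686014332177) (nat_lit 108) (nat_lit 5) (nat_lit 118) (nat_lit 5) (nat_lit 119) (nat_lit 5) (nat_lit 374) (nat_lit 371) (nat_lit 155))))) (XT.nd (nat_lit 234) (nat_lit 1748) (nat_lit 0) (XT.nd (nat_lit 78) (nat_lit 0) (nat_lit 76) (XT.lf (nat_lit 0) (nat_lit 358227402790) (nat_lit 760) (nat_lit 366899692654) (nat_lit 836) (nat_lit 401426066272) (nat_lit 109) (nat_lit 5) (nat_lit 119) (nat_lit 5) (nat_lit 120) (nat_lit 5) (nat_lit 375) (nat_lit 371) (nat_lit 154)) (XT.nd (nat_lit 78) (nat_lit 0) (nat_lit 0) (XT.lf (nat_lit 0) (nat_lit 468082508754) (nat_lit 760) (nat_lit 622757121952) (nat_lit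 836) (nat_lit 82990566546) (nat_lit 110) (nat_lit 5) (nat_lit 120) (nat_lit 5) (nat_lit 121) (nat_lit 5) (nat_lit 376) (nat_lit 371) (nat_lit 153)) (XT.lf (nat_lit 76) (nat_lit 329221079995) (nat_lit 0) (nat_lit 281367895216) (nat_lit 836) (nat_lit 613107272826) (nat_lit 111) (nat_lit 5) (nat_lit 110) (nat_lit 5) (nat_lit 121) (nat_lit 5) (nat_lit 377) (nat_lit 371) (nat_lit 152)))) (XT.nd (nat_lit 156) (nat_lit 1140) (nat_lit 0) (XT.nd (nat_lit 78) (nat_lit 0) (nat_lit 0) (XT.lf (nat_lit 0) (nat_lit 96232788712) (nat_lit 760) (nat_lit 690047720771) (nat_lit 836) (nat_lit 490181845882) (nat_lit 101) (nat_lit 5) (nat_lit 111) (nat_lit 5) (nat_lit 112) (nat_lit 5) (nat_lit 378) (nat_lit 371) (nat_lit 151)) (XT.lf (nat_lit 0) (nat_lit 999351509814) (nat_lit 836) (nat_lit 142274867457) (nat_lit 76) (nat_lit 190657166850) (nat_lit 101) (nat_lit 5) (nat_lit 112) (nat_lit 5) (nat_lit 102) (nat_lit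 5) (nat_lit 379) (nat_lit 371) (nat_lit 150))) (XT.nd (nat_lit 156) (nat_lit 760) (nat_lit 0) (XT.lf (nat_lit 0) (nat_lit 999056792856) (nat_lit 380) (nat_lit 257644932213) (nat_lit 456) (nat_lit 134507026168) (nat_lit 96) (nat_lit 5) (nat_lit 101) (nat_lit 5) (nat_lit 102) (nat_lit 5) (nat_lit 380) (nat_lit 371) (nat_lit 149)) (XT.lf (nat_lit 0) (nat_lit 379499094830) (nat_lit 456) (nat_lit 940401326462) (nat_lit 76) (nat_lit 199523670585) (nat_lit 86) (nat_lit 5) (nat_lit 92) (nat_lit 5) (nat_lit 87) (nat_lit 5) (nat_lit 382) (nat_lit 371) (nat_lit 147))))))))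
noncomputable def xc127 : XT := (XT.nd (nat_lit 140166) (nat_lit 0) (nat_lit 1444) (XT.nd (nat_lit 92976) (nat_lit 0) (nat_lit 1064) (XT.nd (nat_lit 46410) (nat_lit 0) (nat_lit 304) (XT.nd (nat_lit 46176) (nat_lit 0) (nat_lit 1900) (XT.nd (nat_lit 46020) (nat_lit 0) (nat_lit 1824) (XT.lf (nat_lit 0) (nat_lit 347169228811) (nat_lit 304) (nat_lit 360338737575) (nat_lit 380) (nat_lit 881647251665) (nat_lit 82) (nat_lit 5) (nat_lit 86) (nat_lit 5) (nat_lit 87) (nat_lit 5) (nat_lit 383) (nat_lit 371) (nat_lit 146)) (XT.nd (nat_lit 78) (nat_lit 0) (nat_lit 76) (XT.lf (nat_lit 0) (nat_lit 89361461953) (nat_lit 836) (nat_lit 214899991096) (nat_lit 836) (nat_lit 214899991096) (nat_lit 106) (nat_lit 3) (nat_lit 117) (nat_lit 3) (nat_lit 117) (nat_lit 5) (nat_lit 372) (nat_lit 372) (nat_lit 156)) (XT.lf (nat_lit 0) (nat_lit 194618906455) (nat_lit 760) (nat_lit 706446021462) (nat_lit 836) (nat_lit 178353522545)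 (nat_lit 107) (nat_lit 5) (nat_lit 117) (nat_lit 5) (nat_lit 118) (nat_lit 5) (nat_lit 373) (nat_lit 372) (nat_lit 155)))) (XT.nd (nat_lit 78) (nat_lit 0) (nat_lit 76) (XT.lf (nat_lit 76) (nat_lit 125521251663) (nat_lit 0) (nat_lit 106095426432) (nat_lit 836) (nat_lit 891193473997) (nat_lit 108) (nat_lit 5) (nat_lit 107) (nat_lit 5) (nat_lit 118) (nat_lit 5) (nat_lit 374) (nat_lit 372) (nat_lit 154)) (XT.nd (nat_lit 78) (nat_lit 0) (nat_lit 76) (XT.lf (nat_lit 0) (nat_lit 295830022787) (nat_lit 760) (nat_lit 131734963799) (nat_lit 836) (nat_lit 740895415707) (nat_lit 108) (nat_lit 5) (nat_lit 118) (nat_lit 5) (nat_lit 119) (nat_lit 5) (nat_lit 375) (nat_lit 372) (nat_lit 153)) (XT.lf (nat_lit 0) (nat_lit 386885751457) (nat_lit 760) (nat_lit 396251550793) (nat_lit 836) (nat_lit 433540104446) (nat_lit 109) (nat_lit 5) (nat_lit 119) (nat_lit 5) (nat_lit 120) (nat_lit 5) (nat_lit 376) (nat_lit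 372) (nat_lit 152))))) (XT.nd (nat_lit 234) (nat_lit 1140) (nat_lit 0) (XT.nd (nat_lit 78) (nat_lit 684) (nat_lit 0) (XT.lf (nat_lit 0) (nat_lit 505529255524) (nat_lit 760) (nat_lit 672577571539) (nat_lit 836) (nat_lit 89629778541) (nat_lit 110) (nat_lit 5) (nat_lit 120) (nat_lit 5) (nat_lit 121) (nat_lit 5) (nat_lit 377) (nat_lit 372) (nat_lit 151)) (XT.nd (nat_lit 78) (nat_lit 684) (nat_lit 0) (XT.lf (nat_lit 76) (nat_lit 355558881341) (nat_lit 0) (nat_lit 303877348931) (nat_lit 836) (nat_lit 662155710640) (nat_lit 111) (nat_lit 5) (nat_lit 110) (nat_lit 5) (nat_lit 121) (nat_lit 5) (nat_lit 378) (nat_lit 372) (nat_lit 150)) (XT.lf (nat_lit 0) (nat_lit 103931528755) (nat_lit 760) (nat_lit 745251549886) (nat_lit 836) (nat_lit 529396258627) (nat_lit 101) (nat_lit 5) (nat_lit 111) (nat_lit 5) (nat_lit 112) (nat_lit 5) (nat_lit 379) (nat_lit 372) (nat_lit 149)))) (XT.nd (nat_lit 156) (nat_lit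 1140) (nat_lit 0) (XT.lf (nat_lit 0) (nat_lit 1079299749321) (nat_lit 836) (nat_lit 153656742363) (nat_lit 76) (nat_lit 205909729932) (nat_lit 101) (nat_lit 5) (nat_lit 112) (nat_lit 5) (nat_lit 102) (nat_lit 5) (nat_lit 380) (nat_lit 372) (nat_lit 148)) (XT.nd (nat_lit 78) (nat_lit 380) (nat_lit 0) (XT.lf (nat_lit 0) (nat_lit 111781432003) (nat_lit 380) (nat_lit 711288430584) (nat_lit 76) (nat_lit 746680466332) (nat_lit 91) (nat_lit 5) (nat_lit 96) (nat_lit 5) (nat_lit 92) (nat_lit 5) (nat_lit 382) (nat_lit 372) (nat_lit 146)) (XT.lf (nat_lit 0) (nat_lit 409859123192) (nat_lit 456) (nat_lit 1015633318719) (nat_lit 76) (nat_lit 215485572203) (nat_lit 86) (nat_lit 5) (nat_lit 92) (nat_lit 5) (nat_lit 87) (nat_lit 5) (nat_lit 383) (nat_lit 372) (nat_lit 145)))))) (XT.nd (nat_lit 468) (nat_lit 760) (nat_lit 0) (XT.nd (nat_lit 234) (nat_lit 0) (nat_lit 152) (XT.nd (nat_lit 78) (nat_lit 0) (nat_lit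 76) (XT.lf (nat_lit 0) (nat_lit 96510469168) (nat_lit 836) (nat_lit 232091942959) (nat_lit 836) (nat_lit 232091942959) (nat_lit 106) (nat_lit 3) (nat_lit 117) (nat_lit 3) (nat_lit 117) (nat_lit 5) (nat_lit 373) (nat_lit 373) (nat_lit 154)) (XT.nd (nat_lit 78) (nat_lit 0) (nat_lit 0) (XT.lf (nat_lit 0) (nat_lit 210188586318) (nat_lit 760) (nat_lit 762961602664) (nat_lit 836) (nat_lit 192621729005) (nat_lit 107) (nat_lit 5) (nat_lit 117) (nat_lit 5) (nat_lit 118) (nat_lit 5) (nat_lit 374) (nat_lit 373) (nat_lit 153)) (XT.lf (nat_lit 76) (nat_lit 135563047943) (nat_lit 0) (nat_lit 114583120850) (nat_lit 836) (nat_lit 962488787509) (nat_lit 108) (nat_lit 5) (nat_lit 107) (nat_lit 5) (nat_lit 118) (nat_lit 5) (nat_lit 375) (nat_lit 373) (nat_lit 152)))) (XT.nd (nat_lit 78) (nat_lit 0) (nat_lit 76) (XT.lf (nat_lit 0) (nat_lit 319496568601) (nat_lit 760) (nat_lit 142273663638) (nat_lit 836) (nat_lit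 800166994914) (nat_lit 108) (nat_lit 5) (nat_lit 118) (nat_lit 5) (nat_lit 119) (nat_lit 5) (nat_lit 376) (nat_lit 373) (nat_lit 151)) (XT.nd (nat_lit 78) (nat_lit 0) (nat_lit 76) (XT.lf (nat_lit 0) (nat_lit 417836745699) (nat_lit 760) (nat_lit 427951574314) (nat_lit 836) (nat_lit 468223272398) (nat_lit 109) (nat_lit 5) (nat_lit 119) (nat_lit 5) (nat_lit 120) (nat_lit 5) (nat_lit 377) (nat_lit 373) (nat_lit 150)) (XT.lf (nat_lit 0) (nat_lit 545971721197) (nat_lit 760) (nat_lit 726383674237) (nat_lit 836) (nat_lit 96800132251) (nat_lit 110) (nat_lit 5) (nat_lit 120) (nat_lit 5) (nat_lit 121) (nat_lit 5) (nat_lit 378) (nat_lit 373) (nat_lit 149))))) (XT.nd (nat_lit 234) (nat_lit 380) (nat_lit 0) (XT.nd (nat_lit 78) (nat_lit 684) (nat_lit 0) (XT.lf (nat_lit 76) (nat_lit 384003690396) (nat_lit 0) (nat_lit 328187555791) (nat_lit 836) (nat_lit 715128044025) (nat_lit 111) (nat_lit 5) (nat_lit 110)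 (nat_lit 5) (nat_lit 121) (nat_lit 5) (nat_lit 379) (nat_lit 373) (nat_lit 148)) (XT.nd (nat_lit 78) (nat_lit 0) (nat_lit 0) (XT.lf (nat_lit 0) (nat_lit 112246151317) (nat_lit 760) (nat_lit 804871683697) (nat_lit 836) (nat_lit 571747843641) (nat_lit 101) (nat_lit 5) (nat_lit 111) (nat_lit 5) (nat_lit 112) (nat_lit 5) (nat_lit 380) (nat_lit 373) (nat_lit 147)) (XT.lf (nat_lit 0) (nat_lit 1165643831052) (nat_lit 836) (nat_lit 165949183594) (nat_lit 76) (nat_lit 222382499525) (nat_lit 101) (nat_lit 5) (nat_lit 112) (nat_lit 5) (nat_lit 102) (nat_lit 5) (nat_lit 381) (nat_lit 373) (nat_lit 146)))) (XT.nd (nat_lit 46332) (nat_lit 0) (nat_lit 836) (XT.nd (nat_lit 46254) (nat_lit 0) (nat_lit 760) (XT.lf (nat_lit 0) (nat_lit 1165300055357) (nat_lit 380) (nat_lit 300517053045) (nat_lit 456) (nat_lit 156888768050) (nat_lit 96) (nat_lit 5) (nat_lit 101) (nat_lit 5) (nat_lit 102) (nat_lit 5) (nat_lit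 382) (nat_lit 373) (nat_lit 145)) (XT.lf (nat_lit 0) (nat_lit 104231384083) (nat_lit 836) (nat_lit 250659257736) (nat_lit 836) (nat_lit 250659257736) (nat_lit 106) (nat_lit 3) (nat_lit 117) (nat_lit 3) (nat_lit 117) (nat_lit 5) (nat_lit 374) (nat_lit 374) (nat_lit 152))) (XT.nd (nat_lit 78) (nat_lit 0) (nat_lit 0) (XT.lf (nat_lit 0) (nat_lit 227003816696) (nat_lit 760) (nat_lit 823998444701) (nat_lit 836) (nat_lit 208031402731) (nat_lit 107) (nat_lit 5) (nat_lit 117) (nat_lit 5) (nat_lit 118) (nat_lit 5) (nat_lit 375) (nat_lit 374) (nat_lit 151)) (XT.lf (nat_lit 76) (nat_lit 146408174210) (nat_lit 0) (nat_lit 123749822220) (nat_lit 836) (nat_lit 1039487749556) (nat_lit 108) (nat_lit 5) (nat_lit 107) (nat_lit 5) (nat_lit 118) (nat_lit 5) (nat_lit 376) (nat_lit 374) (nat_lit 150))))))) (XT.nd (nat_lit 47268) (nat_lit 0) (nat_lit 0) (XT.nd (nat_lit 46800) (nat_lit 0) (nat_lit 456) (XT.nd (nat_lit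 312) (nat_lit 532) (nat_lit 0) (XT.nd (nat_lit 78) (nat_lit 0) (nat_lit 76) (XT.lf (nat_lit 0) (nat_lit 345056417538) (nat_lit 760) (nat_lit 153655473341) (nat_lit 836) (nat_lit 864180308167) (nat_lit 108) (nat_lit 5) (nat_lit 118) (nat_lit 5) (nat_lit 119) (nat_lit 5) (nat_lit 377) (nat_lit 374) (nat_lit 149)) (XT.nd (nat_lit 78) (nat_lit 0) (nat_lit 76) (XT.lf (nat_lit 0) (nat_lit 451263800347) (nat_lit 760) (nat_lit 462187614059) (nat_lit 836) (nat_lit 505681099550) (nat_lit 109) (nat_lit 5) (nat_lit 119) (nat_lit 5) (nat_lit 120) (nat_lit 5) (nat_lit 378) (nat_lit 374) (nat_lit 148)) (XT.lf (nat_lit 0) (nat_lit 589649566258) (nat_lit 760) (nat_lit 784494279848) (nat_lit 836) (nat_lit 104544118334) (nat_lit 110) (nat_lit 5) (nat_lit 120) (nat_lit 5) (nat_lit 121) (nat_lit 5) (nat_lit 379) (nat_lit 374) (nat_lit 147)))) (XT.nd (nat_lit 78) (nat_lit 0) (nat_lit 0) (XT.lf (nat_lit 0) (nat_lit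 121225929381) (nat_lit 760) (nat_lit 869261426811) (nat_lit 836) (nat_lit 617487571958) (nat_lit 101) (nat_lit 5) (nat_lit 111) (nat_lit 5) (nat_lit 112) (nat_lit 5) (nat_lit 381) (nat_lit 374) (nat_lit 145)) (XT.nd (nat_lit 46332) (nat_lit 0) (nat_lit 380) (XT.lf (nat_lit 0) (nat_lit 1258895424801) (nat_lit 836) (nat_lit 179225034127) (nat_lit 76) (nat_lit 240173091941) (nat_lit 101) (nat_lit 5) (nat_lit 112) (nat_lit 5) (nat_lit 102) (nat_lit 5) (nat_lit 382) (nat_lit 374) (nat_lit 144)) (XT.lf (nat_lit 0) (nat_lit 112569961153) (nat_lit 836) (nat_lit 270711963497) (nat_lit 836) (nat_lit 270711963497) (nat_lit 106) (nat_lit 3) (nat_lit 117) (nat_lit 3) (nat_lit 117) (nat_lit 5) (nat_lit 375) (nat_lit 375) (nat_lit 150))))) (XT.nd (nat_lit 234) (nat_lit 0) (nat_lit 152) (XT.nd (nat_lit 78) (nat_lit 0) (nat_lit 0) (XT.lf (nat_lit 0) (nat_lit 245164245037) (nat_lit 760) (nat_lit 889918246395)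 (nat_lit 836) (nat_lit 224673859570) (nat_lit 107) (nat_lit 5) (nat_lit 117) (nat_lit 5) (nat_lit 118) (nat_lit 5) (nat_lit 376) (nat_lit 375) (nat_lit 149)) (XT.nd (nat_lit 78) (nat_lit 0) (nat_lit 76) (XT.lf (nat_lit 76) (nat_lit 158120898818) (nat_lit 0) (nat_lit 133649852323) (nat_lit 836) (nat_lit 1122646648676) (nat_lit 108) (nat_lit 5) (nat_lit 107) (nat_lit 5) (nat_lit 118) (nat_lit 5) (nat_lit 377) (nat_lit 375) (nat_lit 148)) (XT.lf (nat_lit 0) (nat_lit 372661036778) (nat_lit 760) (nat_lit 165947839716) (nat_lit 836) (nat_lit 933314693092) (nat_lit 108) (nat_lit 5) (nat_lit 118) (nat_lit 5) (nat_lit 119) (nat_lit 5) (nat_lit 378) (nat_lit 375) (nat_lit 147)))) (XT.nd (nat_lit 78) (nat_lit 0) (nat_lit 76) (XT.lf (nat_lit 0) (nat_lit 487365002961) (nat_lit 760) (nat_lit 499162549282) (nat_lit 836) (nat_lit 546135557816) (nat_lit 109) (nat_lit 5) (nat_lit 119) (nat_lit 5) (nat_lit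 120) (nat_lit 5) (nat_lit 379) (nat_lit 375) (nat_lit 146)) (XT.nd (nat_lit 78) (nat_lit 0) (nat_lit 0) (XT.lf (nat_lit 0) (nat_lit 636821623607) (nat_lit 760) (nat_lit 847253746509) (nat_lit 836) (nat_lit 112907626798) (nat_lit 110) (nat_lit 5) (nat_lit 120) (nat_lit 5) (nat_lit 121) (nat_lit 5) (nat_lit 380) (nat_lit 375) (nat_lit 145)) (XT.lf (nat_lit 76) (nat_lit 447902068162) (nat_lit 0) (nat_lit 382797996542) (nat_lit 836) (nat_lit 834125145479) (nat_lit 111) (nat_lit 5) (nat_lit 110) (nat_lit 5) (nat_lit 121) (nat_lit 5) (nat_lit 381) (nat_lit 375) (nat_lit 144)))))) (XT.nd (nat_lit 46800) (nat_lit 0) (nat_lit 456) (XT.nd (nat_lit 46566) (nat_lit 0) (nat_lit 456) (XT.nd (nat_lit 46410) (nat_lit 0) (nat_lit 380) (XT.lf (nat_lit 0) (nat_lit 130924077427) (nat_lit 760) (nat_lit 938802348174) (nat_lit 836) (nat_lit 666886492688) (nat_lit 101) (nat_lit 5) (nat_lit 111) (nat_lit 5) (nat_lit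 112) (nat_lit 5) (nat_lit 382) (nat_lit 375) (nat_lit 143)) (XT.nd (nat_lit 78) (nat_lit 0) (nat_lit 76) (XT.lf (nat_lit 0) (nat_lit 121575614923) (nat_lit 836) (nat_lit 292368890691) (nat_lit 836) (nat_lit 292368890691) (nat_lit 106) (nat_lit 3) (nat_lit 117) (nat_lit 3) (nat_lit 117) (nat_lit 5) (nat_lit 376) (nat_lit 376) (nat_lit 148)) (XT.lf (nat_lit 0) (nat_lit 264777490096) (nat_lit 760) (nat_lit 961111642765) (nat_lit 836) (nat_lit 242647720857) (nat_lit 107) (nat_lit 5) (nat_lit 117) (nat_lit 5) (nat_lit 118) (nat_lit 5) (nat_lit 377) (nat_lit 376) (nat_lit 147)))) (XT.nd (nat_lit 78) (nat_lit 0) (nat_lit 76) (XT.lf (nat_lit 76) (nat_lit 170770631312) (nat_lit 0) (nat_lit 144341878510) (nat_lit 836) (nat_lit 1212458276965) (nat_lit 108) (nat_lit 5) (nat_lit 107) (nat_lit 5) (nat_lit 118) (nat_lit 5) (nat_lit 378) (nat_lit 376) (nat_lit 146)) (XT.nd (nat_lit 78) (nat_lit 0) (nat_lit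 76) (XT.lf (nat_lit 0) (nat_lit 402474010459) (nat_lit 760) (nat_lit 179223605600) (nat_lit 836) (nat_lit 1007979834479) (nat_lit 108) (nat_lit 5) (nat_lit 118) (nat_lit 5) (nat_lit 119) (nat_lit 5) (nat_lit 379) (nat_lit 376) (nat_lit 145)) (XT.lf (nat_lit 0) (nat_lit 526354287720) (nat_lit 760) (nat_lit 539095489866) (nat_lit 836) (nat_lit 589826376980) (nat_lit 109) (nat_lit 5) (nat_lit 119) (nat_lit 5) (nat_lit 120) (nat_lit 5) (nat_lit 380) (nat_lit 376) (nat_lit 144))))) (XT.nd (nat_lit 46800) (nat_lit 0) (nat_lit 0) (XT.nd (nat_lit 46644) (nat_lit 228) (nat_lit 0) (XT.lf (nat_lit 0) (nat_lit 687767432413) (nat_lit 760) (nat_lit 915033981307) (nat_lit 836) (nat_lit 121940218935) (nat_lit 110) (nat_lit 5) (nat_lit 120) (nat_lit 5) (nat_lit 121) (nat_lit 5) (nat_lit 381) (nat_lit 376) (nat_lit 143)) (XT.nd (nat_lit 78) (nat_lit 0) (nat_lit 0) (XT.lf (nat_lit 0) (nat_lit 285959779716)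 (nat_lit 760) (nat_lit 1038000519881) (nat_lit 836) (nat_lit 262059497820) (nat_lit 107) (nat_lit 5) (nat_lit 117) (nat_lit 5) (nat_lit 118) (nat_lit 5) (nat_lit 378) (nat_lit 377) (nat_lit 145)) (XT.lf (nat_lit 76) (nat_lit 184432333763) (nat_lit 0) (nat_lit 155889261372) (nat_lit 836) (nat_lit 1309454850297) (nat_lit 108) (nat_lit 5) (nat_lit 107) (nat_lit 5) (nat_lit 118) (nat_lit 5) (nat_lit 379) (nat_lit 377) (nat_lit 144)))) (XT.nd (nat_lit 46800) (nat_lit 76) (nat_lit 0) (XT.nd (nat_lit 78) (nat_lit 0) (nat_lit 76) (XT.lf (nat_lit 0) (nat_lit 434672009090) (nat_lit 760) (nat_lit 193561441499) (nat_lit 836) (nat_lit 1088618192036) (nat_lit 108) (nat_lit 5) (nat_lit 118) (nat_lit 5) (nat_lit 119) (nat_lit 5) (nat_lit 380) (nat_lit 377) (nat_lit 143)) (XT.lf (nat_lit 0) (nat_lit 568462703201) (nat_lit 760) (nat_lit 582223074735) (nat_lit 836) (nat_lit 637012465309) (nat_lit 109) (nat_lit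 5) (nat_lit 119) (nat_lit 5) (nat_lit 120) (nat_lit 5) (nat_lit 381) (nat_lit 377) (nat_lit 142))) (XT.nd (nat_lit 78) (nat_lit 0) (nat_lit 0) (XT.lf (nat_lit 0) (nat_lit 308836639607) (nat_lit 760) (nat_lit 1121040514913) (nat_lit 836) (nat_lit 283024222748) (nat_lit 107) (nat_lit 5) (nat_lit 117) (nat_lit 5) (nat_lit 118) (nat_lit 5) (nat_lit 379) (nat_lit 378) (nat_lit 143)) (XT.lf (nat_lit 76) (nat_lit 199186964998) (nat_lit 0) (nat_lit 168360430214) (nat_lit 836) (nat_lit 1414211162168) (nat_lit 108) (nat_lit 5) (nat_lit 107) (nat_lit 5) (nat_lit 118) (nat_lit 5) (nat_lit 380) (nat_lit 378) (nat_lit 142))))))))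

set_option maxRecDepth 10000000 in
noncomputable def Tp : PT := (PT.nd (nat_lit 7183722) (PT.nd (nat_lit 6762678) (PT.nd (nat_lit 6387498) pc0 pc1) (PT.nd (nat_lit 280254) pc2 pc3)) (PT.nd (nat_lit 233220) (PT.nd (nat_lit 94458) pc4 pc5) (PT.nd (nat_lit 143052) pc6 pc7)))

set_option maxRecDepth 10000000 in
noncomputable def Tx : XT := (XT.nd (nat_lit 11844144) (nat_lit 0) (nat_lit 152) XT.nil (XT.nd (nat_lit 5905458) (nat_lit 0) (nat_lit 0) (XT.nd (nat_lit 2668848) (nat_lit 0) (nat_lit 0) (XT.nd (nat_lit 1826604) (nat_lit 0) (nat_lit 0) (XT.nd (nat_lit 1308216) (nat_lit 0) (nat_lit 0) (XT.nd (nat_lit 889746) (nat_lit 0) (nat_lit 0) (XT.nd (nat_lit 608868) (nat_lit 0) (nat_lit 0) (XT.nd (nat_lit 421200) (nat_lit 0) (nat_lit 0) (XT.nd (nat_lit 280878) (nat_lit 0) (nat_lit 0) xc0 xc1) (XT.nd (nat_lit 94068) (nat_lit 0) (nat_lit 0) xc2 xc3)) (XT.nd (nat_lit 141102) (nat_lit 0) (nat_lit 0)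 (XT.nd (nat_lit 92898) (nat_lit 0) (nat_lit 0) xc4 xc5) (XT.nd (nat_lit 92040) (nat_lit 0) (nat_lit 0) xc6 xc7))) (XT.nd (nat_lit 232284) (nat_lit 0) (nat_lit 0) (XT.nd (nat_lit 138294) (nat_lit 0) (nat_lit 0) (XT.nd (nat_lit 47502) (nat_lit 0) (nat_lit 0) xc8 xc9) (XT.nd (nat_lit 47034) (nat_lit 0) (nat_lit 0) xc10 xc11)) (XT.nd (nat_lit 93366) (nat_lit 0) (nat_lit 0) (XT.nd (nat_lit 46722) (nat_lit 0) (nat_lit 0) xc12 xc13) (XT.nd (nat_lit 46488) (nat_lit 0) (nat_lit 0) xc14 xc15)))) (XT.nd (nat_lit 282282) (nat_lit 0) (nat_lit 0) (XT.nd (nat_lit 141804) (nat_lit 0) (nat_lit 0) (XT.nd (nat_lit 49998) (nat_lit 0) (nat_lit 0) (XT.nd (nat_lit 3822) (nat_lit 0) (nat_lit 0) xc16 xc17) (XT.nd (nat_lit 45942) (nat_lit 0) (nat_lit 0) xc18 xc19)) (XT.nd (nat_lit 49530) (nat_lit 0) (nat_lit 0) (XT.nd (nat_lit 45630) (nat_lit 0) (nat_lit 0) xc20 xc21) (XT.nd (nat_lit 45552) (nat_lit 0) (nat_lit 0)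 xc22 xc23))) (XT.nd (nat_lit 138996) (nat_lit 0) (nat_lit 0) (XT.nd (nat_lit 49062) (nat_lit 0) (nat_lit 0) (XT.nd (nat_lit 45162) (nat_lit 0) (nat_lit 0) xc24 xc25) (XT.nd (nat_lit 45006) (nat_lit 0) (nat_lit 0) xc26 xc27)) (XT.nd (nat_lit 48594) (nat_lit 0) (nat_lit 0) (XT.nd (nat_lit 3822) (nat_lit 0) (nat_lit 0) xc28 xc29) (XT.nd (nat_lit 44616) (nat_lit 0) (nat_lit 76) xc30 xc31))))) (XT.nd (nat_lit 421980) (nat_lit 0) (nat_lit 0) (XT.nd (nat_lit 232518) (nat_lit 0) (nat_lit 0) (XT.nd (nat_lit 136812) (nat_lit 0) (nat_lit 0) (XT.nd (nat_lit 48282) (nat_lit 0) (nat_lit 0) (XT.nd (nat_lit 44382) (nat_lit 0) (nat_lit 0) xc32 xc33) (XT.nd (nat_lit 44304) (nat_lit 0) (nat_lit 0) xc34 xc35)) (XT.nd (nat_lit 47892) (nat_lit 0) (nat_lit 0) (XT.nd (nat_lit 3822) (nat_lit 76) (nat_lit 0) xc36 xc37) (XT.nd (nat_lit 3900) (nat_lit 0) (nat_lit 0) xc38 xc39))) (XT.nd (nat_lit 95004) (nat_lit 0) (nat_lit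 0) (XT.nd (nat_lit 47580) (nat_lit 0) (nat_lit 0) (XT.nd (nat_lit 43680) (nat_lit 0) (nat_lit 456) xc40 xc41) (XT.nd (nat_lit 43524) (nat_lit 0) (nat_lit 228) xc42 xc43)) (XT.nd (nat_lit 47268) (nat_lit 0) (nat_lit 0) (XT.nd (nat_lit 43368) (nat_lit 0) (nat_lit 228) xc44 xc45) (XT.nd (nat_lit 43290) (nat_lit 0) (nat_lit 76) xc46 xc47)))) (XT.nd (nat_lit 229086) (nat_lit 0) (nat_lit 0) (XT.nd (nat_lit 94458) (nat_lit 0) (nat_lit 0) (XT.nd (nat_lit 47190) (nat_lit 0) (nat_lit 0) (XT.nd (nat_lit 43290) (nat_lit 0) (nat_lit 76) xc48 xc49) (XT.nd (nat_lit 43368) (nat_lit 0) (nat_lit 76) xc50 xc51)) (XT.nd (nat_lit 47346) (nat_lit 0) (nat_lit 0) (XT.nd (nat_lit 43446) (nat_lit 0) (nat_lit 0) xc52 xc53) (XT.nd (nat_lit 43602) (nat_lit 0) (nat_lit 0) xc54 xc55))) (XT.nd (nat_lit 95394) (nat_lit 0) (nat_lit 0) (XT.nd (nat_lit 47658) (nat_lit 0) (nat_lit 0) (XT.nd (nat_lit 3822) (nat_lit 912) (nat_lit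 0) xc56 xc57) (XT.nd (nat_lit 3822) (nat_lit 456) (nat_lit 0) xc58 xc59)) (XT.nd (nat_lit 47814) (nat_lit 0) (nat_lit 0) (XT.nd (nat_lit 3822) (nat_lit 228) (nat_lit 0) xc60 xc61) (XT.nd (nat_lit 3900) (nat_lit 76) (nat_lit 0) xc62 xc63)))))) (XT.nd (nat_lit 987090) (nat_lit 0) (nat_lit 456) (XT.nd (nat_lit 468234) (nat_lit 0) (nat_lit 76) (XT.nd (nat_lit 232986) (nat_lit 0) (nat_lit 76) (XT.nd (nat_lit 96018) (nat_lit 0) (nat_lit 0) (XT.nd (nat_lit 47970) (nat_lit 0) (nat_lit 0) (XT.nd (nat_lit 44070) (nat_lit 0) (nat_lit 532) xc64 xc65) (XT.nd (nat_lit 44148) (nat_lit 0) (nat_lit 228) xc66 xc67)) (XT.nd (nat_lit 88608) (nat_lit 0) (nat_lit 76) (XT.nd (nat_lit 44226) (nat_lit 0) (nat_lit 76) xc68 xc69) (XT.nd (nat_lit 3900) (nat_lit 684) (nat_lit 0) xc70 xc71))) (XT.nd (nat_lit 96876) (nat_lit 0) (nat_lit 0) (XT.nd (nat_lit 48360) (nat_lit 0) (nat_lit 0) (XT.nd (nat_lit 3822) (nat_lit 152)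 (nat_lit 0) xc72 xc73) (XT.nd (nat_lit 44616) (nat_lit 0) (nat_lit 380) xc74 xc75)) (XT.nd (nat_lit 89544) (nat_lit 0) (nat_lit 0) (XT.nd (nat_lit 44694) (nat_lit 0) (nat_lit 0) xc76 xc77) (XT.nd (nat_lit 3900) (nat_lit 684) (nat_lit 0) xc78 xc79)))) (XT.nd (nat_lit 237276) (nat_lit 0) (nat_lit 152) (XT.nd (nat_lit 138996) (nat_lit 0) (nat_lit 152) (XT.nd (nat_lit 48828) (nat_lit 0) (nat_lit 76) (XT.nd (nat_lit 44928) (nat_lit 0) (nat_lit 760) xc80 xc81) (XT.nd (nat_lit 45006) (nat_lit 0) (nat_lit 76) xc82 xc83)) (XT.nd (nat_lit 49062) (nat_lit 0) (nat_lit 0) (XT.nd (nat_lit 3822) (nat_lit 532) (nat_lit 0) xc84 xc85) (XT.nd (nat_lit 45318) (nat_lit 0) (nat_lit 228) xc86 xc87))) (XT.nd (nat_lit 140400) (nat_lit 0) (nat_lit 76) (XT.nd (nat_lit 90948) (nat_lit 0) (nat_lit 76) (XT.nd (nat_lit 45396) (nat_lit 0) (nat_lit 76) xc88 xc89) (XT.nd (nat_lit 45552) (nat_lit 0) (nat_lit 456) xc90 xc91))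 (XT.nd (nat_lit 91416) (nat_lit 0) (nat_lit 76) (XT.nd (nat_lit 45630) (nat_lit 0) (nat_lit 0) xc92 xc93) (XT.nd (nat_lit 45864) (nat_lit 0) (nat_lit 152) xc94 xc95))))) (XT.nd (nat_lit 702312) (nat_lit 0) (nat_lit 836) (XT.nd (nat_lit 327288) (nat_lit 0) (nat_lit 304) (XT.nd (nat_lit 184236) (nat_lit 0) (nat_lit 76) (XT.nd (nat_lit 91884) (nat_lit 0) (nat_lit 76) (XT.nd (nat_lit 45864) (nat_lit 0) (nat_lit 0) xc96 xc97) (XT.nd (nat_lit 46098) (nat_lit 0) (nat_lit 0) xc98 xc99)) (XT.nd (nat_lit 50154) (nat_lit 0) (nat_lit 152) (XT.nd (nat_lit 46254) (nat_lit 0) (nat_lit 228) xc100 xc101) (XT.nd (nat_lit 46410) (nat_lit 0) (nat_lit 0) xc102 xc103))) (XT.nd (nat_lit 186732) (nat_lit 0) (nat_lit 228) (XT.nd (nat_lit 93132) (nat_lit 0) (nat_lit 152) (XT.nd (nat_lit 46488) (nat_lit 0) (nat_lit 0) xc104 xc105) (XT.nd (nat_lit 46722) (nat_lit 0) (nat_lit 76) xc106 xc107)) (XT.nd (nat_lit 93912)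 (nat_lit 0) (nat_lit 152) (XT.nd (nat_lit 46878) (nat_lit 0) (nat_lit 76) xc108 xc109) (XT.nd (nat_lit 47112) (nat_lit 0) (nat_lit 76) xc110 xc111)))) (XT.nd (nat_lit 469482) (nat_lit 0) (nat_lit 1064) (XT.nd (nat_lit 233532) (nat_lit 0) (nat_lit 456) (XT.nd (nat_lit 138294) (nat_lit 0) (nat_lit 228) (XT.nd (nat_lit 47268) (nat_lit 0) (nat_lit 152) xc112 xc113) (XT.nd (nat_lit 47502) (nat_lit 0) (nat_lit 152) xc114 xc115)) (XT.nd (nat_lit 139698) (nat_lit 0) (nat_lit 304) (XT.nd (nat_lit 47736) (nat_lit 0) (nat_lit 228) xc116 xc117) (XT.nd (nat_lit 48048) (nat_lit 0) (nat_lit 304) xc118 xc119))) (XT.nd (nat_lit 373464) (nat_lit 0) (nat_lit 1596) (XT.nd (nat_lit 185952) (nat_lit 0) (nat_lit 836) (XT.nd (nat_lit 92664) (nat_lit 0) (nat_lit 304) xc120 xc121) (XT.nd (nat_lit 93444) (nat_lit 0) (nat_lit 152) xc122 xc123)) (XT.nd (nat_lit 234858) (nat_lit 0) (nat_lit 1216) (XT.nd (nat_lit 94380)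 (nat_lit 0) (nat_lit 228) xc124 xc125) (XT.nd (nat_lit 141414) (nat_lit 0) (nat_lit 912) xc126 xc127))))))) XT.nil))

set_option maxRecDepth 10000000 in
noncomputable def Te : XT := XT.nil

set_option maxRecDepth 10000000 in
noncomputable def Tz : ZL := (ZL.cons (nat_lit 76) (nat_lit 6) (nat_lit 265812034381841609378) (ZL.cons (nat_lit 152) (nat_lit 6) (nat_lit 256682282718636902094) (ZL.cons (nat_lit 228) (nat_lit 3) (nat_lit 127966637731746346119) (ZL.cons (nat_lit 304) (nat_lit 6) (nat_lit 246822150922375818230) (ZL.cons (nat_lit 380) (nat_lit 6) (nat_lit 238424668909358442916) (ZL.cons (nat_lit 456) (nat_lit 3) (nat_lit 118865571836556902079) (ZL.cons (nat_lit 532) (nat_lit 6) (nat_lit 229355388335299677578) (ZL.cons (nat_lit 608) (nat_lit 6) (nat_lit 221645250803227873292) (ZL.cons (nat_lit 684) (nat_lit 3) (nat_lit 110501548903352529814) (ZL.cons (nat_lit 760) (nat_lit 6) (nat_lit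 213318302268590324664) (ZL.cons (nat_lit 836) (nat_lit 6) (nat_lit 206255462191840718698) (ZL.cons (nat_lit 912) (nat_lit 3) (nat_lit 102830438041974612283) (ZL.cons (nat_lit 988) (nat_lit 6) (nat_lit 198627594908951144256) (ZL.cons (nat_lit 1064) (nat_lit 6) (nat_lit 192176780040336835856) (ZL.cons (nat_lit 1140) (nat_lit 3) (nat_lit 95813118673922355828) (ZL.cons (nat_lit 1216) (nat_lit 6) (nat_lit 185209899982233382782) (ZL.cons (nat_lit 1292) (nat_lit 6) (nat_lit 179340560072172794198) (ZL.cons (nat_lit 1368) (nat_lit 3) (nat_lit 89415399159932635897) (ZL.cons (nat_lit 1444) (nat_lit 6) (nat_lit 173001672969307358530) (ZL.cons (nat_lit 1520) (nat_lit 6) (nat_lit 167687980965519299798) (ZL.cons (nat_lit 1596) (nat_lit 3) (nat_lit 83607989671506167304) (ZL.cons (nat_lit 1672) (nat_lit 6) (nat_lit 162858233763293462662) (ZL.cons (nat_lit 1748) (nat_lit 6) (nat_lit 161949193601428196370)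 (ZL.cons (nat_lit 1824) (nat_lit 6) (nat_lit 157170105162382593364) (ZL.cons (nat_lit 1900) (nat_lit 3) (nat_lit 78366533311512146131) (ZL.cons (nat_lit 1976) (nat_lit 6) (nat_lit 152850393501792292390) (ZL.cons (nat_lit 2052) (nat_lit 6) (nat_lit 152008689648213342118) (ZL.cons (nat_lit 2128) (nat_lit 6) (nat_lit 147748066368996466234) (ZL.cons (nat_lit 2204) (nat_lit 3) (nat_lit 73671700527387908532) (ZL.cons (nat_lit 2280) (nat_lit 6) (nat_lit 143925948647422749786) (ZL.cons (nat_lit 2356) (nat_lit 6) (nat_lit 143146593227442240276) (ZL.cons (nat_lit 2432) (nat_lit 6) (nat_lit 140519686896993978162) (ZL.cons (nat_lit 2508) (nat_lit 6) (nat_lit 139393396193902486856) (ZL.cons (nat_lit 2584) (nat_lit 3) (nat_lit 69509353044071313258) (ZL.cons (nat_lit 2660) (nat_lit 6) (nat_lit 136061568786550395298) (ZL.cons (nat_lit 2736) (nat_lit 6) (nat_lit 135339943397679553162) (ZL.cons (nat_lit 2812)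 (nat_lit 6) (nat_lit 133131366842972027286) (ZL.cons (nat_lit 2888) (nat_lit 6) (nat_lit 132088505080850276076) (ZL.cons (nat_lit 2964) (nat_lit 3) (nat_lit 65870784898869647140) (ZL.cons (nat_lit 3040) (nat_lit 6) (nat_lit 130585426203501733230) (ZL.cons (nat_lit 3116) (nat_lit 6) (nat_lit 129245123355036547696) (ZL.cons (nat_lit 3192) (nat_lit 6) (nat_lit 128576951698674656826) (ZL.cons (nat_lit 3268) (nat_lit 6) (nat_lit 126792948550752064442) (ZL.cons (nat_lit 3344) (nat_lit 6) (nat_lit 125827335808046739248) (ZL.cons (nat_lit 3420) (nat_lit 3) (nat_lit 62753049717397915087) (ZL.cons (nat_lit 3496) (nat_lit 6) (nat_lit 124717449261749214560) (ZL.cons (nat_lit 3572) (nat_lit 6) (nat_lit 123476428105762931658) (ZL.cons (nat_lit 3648) (nat_lit 6) (nat_lit 122857750646168588260) (ZL.cons (nat_lit 3724) (nat_lit 6) (nat_lit 123006326232982055240) (ZL.cons (nat_lit 3800) (nat_lit 6) (nat_lit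 121510297286920811494) (ZL.cons (nat_lit 3876) (nat_lit 6) (nat_lit 120616211414045510388) (ZL.cons (nat_lit 3952) (nat_lit 3) (nat_lit 60159385163851038032) (ZL.cons (nat_lit 4028) (nat_lit 6) (nat_lit 120638748180787984178) (ZL.cons (nat_lit 4104) (nat_lit 6) (nat_lit 121649439476131966276) (ZL.cons (nat_lit 4180) (nat_lit 6) (nat_lit 119917292205927240270) (ZL.cons (nat_lit 4256) (nat_lit 6) (nat_lit 118768198542976978320) (ZL.cons (nat_lit 4332) (nat_lit 6) (nat_lit 118195349043352586288) (ZL.cons (nat_lit 4408) (nat_lit 3) (nat_lit 58559904887605864442) (ZL.cons (nat_lit 4484) (nat_lit 6) (nat_lit 117293363792249457920) (ZL.cons (nat_lit 4560) (nat_lit 6) (nat_lit 117815054311611757506) (ZL.cons (nat_lit 4636) (nat_lit 6) (nat_lit 118687972832672626450) (ZL.cons (nat_lit 4712) (nat_lit 6) (nat_lit 117302760845578882240) (ZL.cons (nat_lit 4788) (nat_lit 6) (nat_lit 116474903555879529364)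 (ZL.cons (nat_lit 4864) (nat_lit 3) (nat_lit 58099747571299285828) (ZL.cons (nat_lit 4940) (nat_lit 6) (nat_lit 115126097966333798438) (ZL.cons (nat_lit 5016) (nat_lit 6) (nat_lit 115487090321772274838) (ZL.cons (nat_lit 5092) (nat_lit 6) (nat_lit 116211214246607381574) (ZL.cons (nat_lit 5168) (nat_lit 6) (nat_lit 115147238632764546438) (ZL.cons (nat_lit 5244) (nat_lit 6) (nat_lit 114616822429408627886) (ZL.cons (nat_lit 5320) (nat_lit 3) (nat_lit 56726811265353388533) (ZL.cons (nat_lit 5396) (nat_lit 6) (nat_lit 113641060869107524430) (ZL.cons (nat_lit 5472) (nat_lit 6) (nat_lit 114204486630018807980) (ZL.cons (nat_lit 5548) (nat_lit 6) (nat_lit 113437952102519407168) (ZL.cons (nat_lit 5624) (nat_lit 3) (nat_lit 56591472156222223162) (ZL.cons (nat_lit 5700) (nat_lit 6) (nat_lit 112266026519823937382) (ZL.cons (nat_lit 5776) (nat_lit 6) (nat_lit 112655898263697491896) (ZL.cons (nat_lit 5852)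 (nat_lit 6) (nat_lit 112164772149479048792) (ZL.cons (nat_lit 5928) (nat_lit 3) (nat_lit 55676919461111027703) (ZL.cons (nat_lit 6004) (nat_lit 6) (nat_lit 111556272327694862556) (ZL.cons (nat_lit 6080) (nat_lit 3) (nat_lit 55660077001775690148) (ZL.cons (nat_lit 6156) (nat_lit 6) (nat_lit 110899092520167941424) (ZL.cons (nat_lit 6232) (nat_lit 1) (nat_lit 18446744073709551617) ZL.nil))))))))))))))))))))))))))))))))))))))))))))))))))))))))))))))))))))))))))))))))))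

noncomputable def vl : XL := ⟨(nat_lit 0), (nat_lit 76), (nat_lit 58830), (nat_lit 152), (nat_lit 447866638), (nat_lit 76), (nat_lit 58830), (nat_lit 1), (nat_lit 5), (nat_lit 2), (nat_lit 4), (nat_lit 1), (nat_lit 4), (nat_lit 0), (nat_lit 0), (nat_lit 0)⟩

noncomputable def cp0 : Nat := (nat_lit 51595569611798486983803970698601378708189053795140925790440485117996276208313236221692419855745715841361714120824958245523990735434762473236630645308550042386891363693213539299258574121996351596957222360155954484431333999160538517734821027959331835454077707530959856713509789235261506132086973132828857883815789714158915697276777404525869287867942945229035248433191256021552012974993370153353233364058584957902204534087829400758129518210126391447092886830816426325162370622269655944249819428313303845550745827626995177359935604285272780570022193925935695183694478905168558493687188402659938258761192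229476493438097271969037964125888690564695398726867160043744105513827848462426388953289944968384837499886678892137362899477730583957805029848723088285499254515897665821361699997348291404346065707318562478671993466583091894059565857470928959297175395602622809649228103980545308113358066732540022153752192522479416588475650080317946625399060796835867820914147973443208112806151641965034397943849187265146829292912410843793669232663200294162850053368696420365597244109838468497680932155075922567507530571189039703052363626272415425434356857116212209041596996877977751079507728336087327734243620837562883351331892192939096511935701422903060070339119770981780859172280013867920136785949278896378281795490639502552551012999613432396310971242715744986310495157475972700665895311048141094107994326474308197687741986291019130200944678266659680128501269294591031646522144216918785688109228150569118197749834931702751693517936956057272158626404844799657854749876415518585329967392540401896443730039182927576162311520022144690076598576871330162194647318003149695186722024013119344468424049025645001736681270556624848398747162509496114630794865605485339181525401841972425348535267662346941079078737705252083407186348770092118089635596319777103042759440552234320170699622506122109829443671595877623847458963456)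

noncomputable def cp1 : Nat := (nat_lit 291138159802010141365168709058831279453224388167597570962901752569969390303449905522217018139047393225387923360597115552521149392826575673533948184210717450107263202797545576335119869030669035342004025419831662338448650920820287414937180968902836452009496058099651440710562123136807585466915260409616213522442967209327409823871497615983310112141093159298471955678203183290760894228305021303380461072430302757692982838821345588456540111539877733497071736514731341780269307014977809362074904025628514167154791427658904847544391788465312474459213154438786752185375480943712467484662513227442742297239134442207368488820241611487898132525617985619097300722732401735951493034470586581740769314450051208557457849975525285054685214670718700144931607449392288567385365577045006014503146519666943966600744849794441350041063481152125695679544930759988686605767089314513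450060226174636858297592663539205947557789967902199457351120478042514159008161555719695453557319869757065000014505720498598960093130050330389731834993068552144349436732768096422717951277078506454830049752723660651932602241504856123912426739435253721080781269887130696908014758638988329960406049231038076373597980637942237971432472421091345703105990726547928860613156694800660084883740763778241503026641754955930580939591993394613369391166003087018892051013737850034354049675100601769582515119363716935167646066119599550357321542681432193401124929640977777845552969468563825378012061720470062012722865158172662516375585641672364038991777007273563477340315465741471728737168188518420237336735311631866531249397934326916820013302244867449541066969455630804641318006112290683508695409448534772316506271232355370596984144397038275078145823408070802933655718633032203809578513380117625853107307836262116839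489856508103425473605080732221538229487777316182366513174737275449856108206942537673683574736384808528432176663607845805616201337923323123426002862907506147907607028648391321954169561556043124462732300949832842504079628568564755885489541031283640435317465608399912346921392763544665994293472458829784648803456804493120111830837468747003187762686156551076907908826613216455792817427381062352396570614153197964939282789046781038466345783890271338623262929226788436839811325067124703196114460147145298472796816469230984517325980865591848406176392140189039345882074291007929538228886151297170311179653518403841977087079349152597521417994471480173427324310670859137443048674681799459604623270580976224083809291087014087009654118642982695461294557096958789179804750009785573028342259329059708501717097630409086626080751270290747302281211955284412198820746864596206923723411231248325380519592163508022505960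1639314226232812535651101513305261858154586802106182338159191320313855168339003085641872311151152760777790323781593260953081821077179400987721154477383563562839297941832190967452804320687231068742413849546324203002481243126046661484144709823250986827874004120438195937624170426266646956115707490760363319378824699293248934507643441731023133300988790726844213685524867628065180923917542682979460613826048133678355032025661028872829238992670946876797706803761310118627035268362095089978094082397974084574961099479921234541523568565753216489652960204737201146233509904818846949074852610506609981558096636627868252894600682319738540450195037092947673419796581653544317992403709258961015899084743491328827528140796094408705476197511727609562645827987405283107846521636329368701818737363379029029742541270377047531025106562857764001464383137132545985926270804181429633401533168876639634393153435151901435376304327109188285014407291430544609722026924238507199711751153261526907691668910604416360227654955191465220757900045251730263118620672132042842772957364860325811295009137506734831062602508053607098057386360460798701454275021875861529051812397709003295073239040)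

noncomputable def rc0 : Nat := (nat_lit 291138159802010141365168709058831279453224388167597570962901752569969390303449905522217018139047393225387923360597115552521149392826575673533948184210717450107263202797545576335119869030669035342004025419831662338448650920820287414937180968902836452009496058099651440710562123136807585466915260409616213522442967209327409823871497615983310112141093159298471955678203183290760894228305021303380461072430302757692982838821345588456540111539877733497071736514731341780269307014977809362074904025628514167154791427658904847544391788465312474459213154438786752185375480943712467484662513227442742297239134442207368488820241611487898132525617985619097300722732401735951493034470586581740769314450051208557457849975525285054685214670718700144931607449392288567385365577045006014503146519666943966600744849794441350041063481152125695679544930759988686605767089314513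450060226174636858297592663539205947557789967902199457351120478042514159008161555719695453557319869757065000014505720498598960093130050330389731834993068552144349436732768096422717951277078506454830049752723660651932602241504856123912426739435253721080781269887130696908014758638988329960406049231038076373597980637942237971432472421091345703105990726547928860613156694800660084883740763778241503026641754955930580939591993394613369391166003087018892051013737850034354049675100601769582515119363716935167646066119599550357321542681432193401124929640977777845552969468563825378012061720470062012722865158172662516375585641672364038991777007273563477340315465741471728737168188518420237336735311631866531249397934326916820013302244867449541066969455630804641318006112290683508695409448534772316506271232355370596984144397038275078145823408070802933655718633032203809578513380117625853107307836262116839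489856508103425473605080732221538229487777316182366513174737275449856108206942537673683574736384808528432176663607845805616201337923323123426002862907506147907607028648391321954169561556043124462732300949832842504079628568564755885489541031283640435317465608399912346921392763544665994293472458829784648803456804493120111830837468747003187762686156551076907908826613216455792817427381062352396570614153197964939282789046781038466345783890271338623262929226788436839811325067124703196114460147145298472796816469230984517325980865591848406176392140189039345882074291007929538228886151297170311179653518403841977087079349152597521417994471480173427324310670859137443048674681799459604623270580976224083809291087014087009654118642982695461294557096958789179804750009785573028342259329059708501717097630409086626080751270290747302281211955284412198820746864596206923723411231248325380519592163508022505960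1639314226232812535651101513305261858154586802106182338159191320313855168339003085641872311151152760777790323781593260953081821077179400987721154477383563562839297941832190967452804320687231068742413849546324203002481243126046661484144709823250986827874004120438195937624170426266646956115707490760363319378824699293248934507643441731023133300988790726844213685524867628065180923917542682979460613826048133678355032025661028872829238992670946876797706803761310118627035268362095089978094082397974084574961099479921234541523568565753216489652960204737201146233509904818846949074852610506609981558096636627868252894600682319738540450195037092947673419796581653544317992403709258961015899084743491328827528140796094408705476197511727609562645827987405283107846521636329368701818737363379029029742541270377047531025106562857764001464383137132545985926270804181429633401533168876639634393153435151901435376304327109188285014407291430544609722026924238507199711751153261526907691668910604416360227654955191465220757900045251730263118620672132042842772957364860325811295009137506734831062602508053607098057386360460798701454275021875861529051812397709003295073239040)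

end Vale.Agent.Lib.P154.PChain.BH.S3
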